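import Crest.Agent.R230.Apriori

/-!
Exact extremal principle for the a-priori bound of `tau n r s` (helper941, after helper91):
every concave profile is dominated, at fixed masses of `[0,t]` and `[t,1]`, by a truncated linear one.
-/

set_option autoImplicit false

open MeasureTheory Set Filter Topology

namespace Crest.Agent.R230

open Tr

/-- mean of the first `k` powers of `q` -/
noncomputable def SA (k : ℕ) (q : ℝ) : ℝ := (∑ j ∈ Finset.range k, q ^ j) / k

lemma SA_one (k : ℕ) (hk : 1 ≤ k) : SA k 1 = 1 := by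
  have : (k : ℝ) ≠ 0 := by positivity
  simp [SA, this]

lemma SA_pos (k : ℕ) (hk : 1 ≤ k) {q : ℝ} (hq : 0 ≤ q) : 0 < SA k q := by
  have hk' : (0 : ℝ) < k := by exact_mod_cast hk
  refine div_pos ?_ hk'
  have h0 : (0 : ℕ) ∈ Finset.range k := Finset.mem_range.2 hk
  have : (1 : ℝ) = ∑ j ∈ Finset.range k, if j = 0 then (1 : ℝ) else 0 := by
    rw [Finset.sum_ite_eq' ]; simp [h0]
  have h2 : (∑ j ∈ Finset.range k, if j = 0 then (1 : ℝ) else 0) ≤ ∑ j ∈ Finset.range k, q ^ j := by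
    refine Finset.sum_le_sum fun j _ => ?_
    split_ifs with h
    · simp [h]
    · positivity
  linarith

lemma one_sub_mul_SA (k : ℕ) (q : ℝ) : (1 - q) * SA k q = (1 - q ^ k) / k := by
  have h := geom_sum_mul q k
  unfold SA
  rw [mul_div_assoc']
  congr 1
  linarith

lemma amgm2 (k : ℕ) {x y : ℝ} (hx : 0 ≤ x) (hy : 0 ≤ y) :
    ((k : ℝ) + 1) * (x * y ^ k) ≤ x ^ (k + 1) + k * y ^ (k + 1) := by
  induction k with
  | zero => simp
  | succ k ih =>
    have h1 := mul_le_mul_of_nonneg_right ih hy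
    have h2 : 0 ≤ (x - y) * (x ^ (k + 1) - y ^ (k + 1)) := by
      rcases le_total x y with h | h
      · exact mul_nonneg_of_nonpos_of_nonpos (by linarith)
          (by linarith [pow_le_pow_left₀ hx h (k + 1)])
      · exact mul_nonneg (by linarith) (by linarith [pow_le_pow_left₀ hy h (k + 1)])
    push_cast
    have e1 : (x - y) * (x ^ (k + 1) - y ^ (k + 1)) =
        x ^ (k + 1 + 1) - x * y ^ (k + 1) - x ^ (k + 1) * y + y ^ (k + 1 + 1) := by ring
    have e2 : ((k : ℝ) + 1) * (x * y ^ k) * y = ((k : ℝ) + 1) * (x * y ^ (k + 1)) := by ring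
    have e3 : (x ^ (k + 1) + k * y ^ (k + 1)) * y = x ^ (k + 1) * y + k * y ^ (k + 1 + 1) := by ring
    rw [e2, e3] at h1
    rw [e1] at h2
    linarith

lemma apl_psi_mono (k : ℕ) {ρ x y : ℝ} (hx : 0 ≤ x) (hy : 0 ≤ y)
    (h : (ρ ≤ x ∧ x ≤ y) ∨ (y ≤ x ∧ x ≤ ρ)) :
    ((k : ℝ) + 1) * ρ * y ^ k - k * y ^ (k + 1) ≤ ((k : ℝ) + 1) * ρ * x ^ k - k * x ^ (k + 1) := by
  have h1 := amgm2 k hx hy
  have h2 : 0 ≤ (ρ - x) * (x ^ k - y ^ k) := by
    rcases h with ⟨ha, hb⟩ | ⟨ha, hb⟩
    · exact mul_nonneg_of_nonpos_of_nonpos (by linarith)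
        (by linarith [pow_le_pow_left₀ hx hb k])
    · exact mul_nonneg (by linarith) (by linarith [pow_le_pow_left₀ hy ha k])
  have h3 : 0 ≤ ((k : ℝ) + 1) * ((ρ - x) * (x ^ k - y ^ k)) := mul_nonneg (by positivity) h2
  have e : ((k : ℝ) + 1) * ρ * x ^ k - k * x ^ (k + 1) -
      (((k : ℝ) + 1) * ρ * y ^ k - k * y ^ (k + 1)) =
      ((k : ℝ) + 1) * ((ρ - x) * (x ^ k - y ^ k)) +
        (x ^ (k + 1) + k * y ^ (k + 1) - ((k : ℝ) + 1) * (x * y ^ k)) := by ring
  linarith

lemma apl_psi_int (k : ℕ) {f g : ℝ → ℝ} {x y ρ : ℝ} (hxy : x ≤ y)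
    (hf : IntervalIntegrable (fun u => f u ^ k) volume x y)
    (hf' : IntervalIntegrable (fun u => f u ^ (k + 1)) volume x y)
    (hg : IntervalIntegrable (fun u => g u ^ k) volume x y)
    (hg' : IntervalIntegrable (fun u => g u ^ (k + 1)) volume x y)
    (h : ∀ u ∈ Icc x y, ((k : ℝ) + 1) * ρ * g u ^ k - k * g u ^ (k + 1) ≤
      ((k : ℝ) + 1) * ρ * f u ^ k - k * f u ^ (k + 1)) :
    ((k : ℝ) + 1) * ρ * (∫ u in x..y, g u ^ k) - k * (∫ u in x..y, g u ^ (k + 1)) ≤
      ((k : ℝ) + 1) * ρ * (∫ u in x..y, f u ^ k) - k * ∫ u in x..y, f u ^ (k + 1) := by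
  have := intervalIntegral.integral_mono_on hxy ((hg.const_mul (((k : ℝ) + 1) * ρ)).sub (hg'.const_mul (k : ℝ)))
    ((hf.const_mul (((k : ℝ) + 1) * ρ)).sub (hf'.const_mul (k : ℝ))) h
  rwa [intervalIntegral.integral_sub (hg.const_mul _) (hg'.const_mul _),
    intervalIntegral.integral_sub (hf.const_mul _) (hf'.const_mul _),
    intervalIntegral.integral_const_mul, intervalIntegral.integral_const_mul,
    intervalIntegral.integral_const_mul, intervalIntegral.integral_const_mul] at this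

/-- integral of a power of an affine function -/
lemma int_line_SA (k : ℕ) {B β t x y e : ℝ} (hA : B - β * (x - t) ≠ 0)
    (he : (B - β * (x - t)) * e = B - β * (y - t)) :
    ∫ u in x..y, (B - β * (u - t)) ^ k = (y - x) * (B - β * (x - t)) ^ k * SA (k + 1) e := by
  rcases eq_or_ne β 0 with h | h
  · subst h
    have hB : B ≠ 0 := by simpa using hA
    have he1 : e = 1 := by
      have : B * e = B * 1 := by simpa using he
      exact mul_left_cancel₀ hB this
    rw [he1, SA_one _ (by omega)]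
    simp
  · have hn : (k : ℝ) + 1 ≠ 0 := by positivity
    have hd : ∀ u ∈ uIcc x y, HasDerivAt
        (fun u => -(B - β * (u - t)) ^ (k + 1) / ((k + 1) * β)) ((B - β * (u - t)) ^ k) u := by
      intro u _
      have h1 : HasDerivAt (fun u => B - β * (u - t)) (-β) u := by
        have := (((hasDerivAt_id u).sub_const t).const_mul β).const_sub B
        exact this.congr_deriv (by simp)
      have h2 := ((h1.fun_pow (k + 1)).fun_neg).div_const (((k : ℝ) + 1) * β)
      refine h2.congr_deriv ?_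
      simp only [Nat.add_sub_cancel]
      push_cast
      field_simp
    rw [intervalIntegral.integral_eq_sub_of_hasDerivAt hd
      (Continuous.intervalIntegrable (by fun_prop) _ _), ← he]
    set A := B - β * (x - t) with hAdef
    have h3 := one_sub_mul_SA (k + 1) e
    have h4 : A * (1 - e) = β * (y - x) := by
      have : A - A * e = β * (y - x) := by rw [he, hAdef]; ring
      linarith
    have h5 : (y - x) = A * (1 - e) / β := by rw [h4]; field_simp
    rw [h5]
    have h6 : A * (1 - e) / β * A ^ k * SA (k + 1) e = A ^ (k + 1) / β * ((1 - e) * SA (k + 1) e) := by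
      ring
    rw [h6, h3]
    push_cast
    field_simp
    ring

theorem trunc_exists {r : ℝ → ℝ} (hr : Prof r) {K : ℕ} (hK : 1 ≤ K) {t : ℝ}
    (ht : t ∈ Ioo (0 : ℝ) 1) :
    ∃ β R : ℝ, 0 ≤ β ∧ t ≤ R ∧ R ≤ 1 ∧ 0 ≤ r t - β * (R - t) ∧
      ∫ u in (0 : ℝ)..t, (r t - β * (u - t)) ^ (K + 1) = ∫ u in (0 : ℝ)..t, r u ^ (K + 1) ∧
      ∫ u in t..R, (r t - β * (u - t)) ^ (K + 1) = ∫ u in t..1, r u ^ (K + 1) ∧
      ∫ u in (0 : ℝ)..R, (r t - β * (u - t)) ^ K ≤ ∫ u in (0 : ℝ)..1, r u ^ K := by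
  have htI : t ∈ Icc (-1 : ℝ) 1 := ⟨by linarith [ht.1], ht.2.le⟩
  have h0I : (0 : ℝ) ∈ Icc (-1 : ℝ) 1 := by norm_num
  have h1I : (1 : ℝ) ∈ Icc (-1 : ℝ) 1 := by norm_num
  have hB : 0 < r t := hr.pos t ⟨by linarith [ht.1], ht.2⟩
  obtain ⟨β₀, hβ₀, hline⟩ := prof_support hr ht
  set B := r t with hBdef
  -- IVT for β
  have hF : Continuous (fun β : ℝ => ∫ u in (0 : ℝ)..t, (B - β * (u - t)) ^ (K + 1)) := by
    apply intervalIntegral.continuous_parametric_intervalIntegral_of_continuous'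
    fun_prop
  have h0 : ∫ u in (0 : ℝ)..t, (B - 0 * (u - t)) ^ (K + 1) ≤ ∫ u in (0 : ℝ)..t, r u ^ (K + 1) := by
    have := le_integral_left hr (K + 1) (x := t) ⟨ht.1.le, ht.2.le⟩
    simpa using this
  have h1 : ∫ u in (0 : ℝ)..t, r u ^ (K + 1) ≤ ∫ u in (0 : ℝ)..t, (B - β₀ * (u - t)) ^ (K + 1) := by
    refine intervalIntegral.integral_mono_on ht.1.le (prof_intervalIntegrable hr _ h0I htI)
      (Continuous.intervalIntegrable (by fun_prop) _ _) ?_
    intro u hu
    have hu' : u ∈ Icc (-1 : ℝ) 1 := ⟨by linarith [hu.1], by linarith [hu.2, ht.2]⟩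
    exact pow_le_pow_left₀ (hr.nonneg' hu') (hline u hu') _
  obtain ⟨β, hβ, hβe⟩ := intermediate_value_Icc hβ₀ hF.continuousOn ⟨h0, h1⟩
  simp only at hβe
  have hcl : ∀ k : ℕ, Continuous (fun u : ℝ => (B - β * (u - t)) ^ k) := fun k => by fun_prop
  have hil : ∀ (k : ℕ) (a b : ℝ), IntervalIntegrable (fun u : ℝ => (B - β * (u - t)) ^ k) volume a b :=
    fun k a b => (hcl k).intervalIntegrable _ _
  -- r ≤ ℓ on [t,1]
  have hright : ∀ u ∈ Icc t 1, r u ≤ B - β * (u - t) := by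
    intro u hu
    have h2 := hline u ⟨by linarith [hu.1, ht.1], hu.2⟩
    have h3 : β * (u - t) ≤ β₀ * (u - t) := mul_le_mul_of_nonneg_right hβ.2 (by linarith [hu.1])
    linarith
  have hrnn : ∀ u ∈ Icc (0 : ℝ) 1, 0 ≤ r u := fun u hu => hr.nonneg' ⟨by linarith [hu.1], hu.2⟩
  have hlnn : ∀ u ∈ Icc (0 : ℝ) 1, 0 ≤ B - β * (u - t) := by
    intro u hu
    have h2 := hright 1 ⟨ht.2.le, le_rfl⟩
    have h3 := hrnn 1 (by norm_num)
    have h4 : β * (u - t) ≤ β * (1 - t) := mul_le_mul_of_nonneg_left (by linarith [hu.2]) hβ.1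
    linarith
  -- IVT for R
  have hG : Continuous (fun x : ℝ => ∫ u in t..x, (B - β * (u - t)) ^ (K + 1)) :=
    intervalIntegral.continuous_primitive (hil (K + 1)) t
  have hG0 : (∫ u in t..t, (B - β * (u - t)) ^ (K + 1)) ≤ ∫ u in t..1, r u ^ (K + 1) := by
    rw [intervalIntegral.integral_same]
    exact intervalIntegral.integral_nonneg ht.2.le fun u hu =>
      pow_nonneg (hrnn u ⟨by linarith [hu.1, ht.1], hu.2⟩) _
  have hG1 : ∫ u in t..1, r u ^ (K + 1) ≤ ∫ u in t..1, (B - β * (u - t)) ^ (K + 1) := by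
    refine intervalIntegral.integral_mono_on ht.2.le (prof_intervalIntegrable hr _ htI h1I)
      (hil _ _ _) ?_
    intro u hu
    exact pow_le_pow_left₀ (hrnn u ⟨by linarith [hu.1, ht.1], hu.2⟩) (hright u hu) _
  obtain ⟨R, hR, hRe⟩ := intermediate_value_Icc ht.2.le hG.continuousOn ⟨hG0, hG1⟩
  simp only at hRe
  have hR0 : R ∈ Icc (0 : ℝ) 1 := ⟨by linarith [hR.1, ht.1], hR.2⟩
  have hRI : R ∈ Icc (-1 : ℝ) 1 := ⟨by linarith [hR.1, ht.1], hR.2⟩
  refine ⟨β, R, hβ.1, hR.1, hR.2, hlnn R hR0, hβe, hRe, ?_⟩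
  -- left crossing
  have hleft : ∫ u in (0 : ℝ)..t, (B - β * (u - t)) ^ K ≤ ∫ u in (0 : ℝ)..t, r u ^ K := by
    have hcg : ContinuousOn (fun u => r u - (B - β * (u - t))) (Icc 0 t) := by
      refine ContinuousOn.sub (hr.cont.mono ?_) (by fun_prop)
      intro u hu
      exact ⟨by linarith [hu.1], by linarith [hu.2, ht.2]⟩
    have hcomp : IsCompact (Icc (0 : ℝ) t ∩ (fun u => r u - (B - β * (u - t))) ⁻¹' Ici 0) :=
      isCompact_Icc.of_isClosed_subset (hcg.preimage_isClosed_of_isClosed isClosed_Icc isClosed_Ici)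
        inter_subset_left
    have hne : (Icc (0 : ℝ) t ∩ (fun u => r u - (B - β * (u - t))) ⁻¹' Ici 0).Nonempty :=
      ⟨t, ⟨ht.1.le, le_rfl⟩, by simp [← hBdef]⟩
    obtain ⟨a, ha⟩ := hcomp.exists_isLeast hne
    have haI : a ∈ Icc (0 : ℝ) t := ha.1.1
    have hag : B - β * (a - t) ≤ r a := by
      have : 0 ≤ r a - (B - β * (a - t)) := ha.1.2
      linarith
    have hρ : B ≤ r a := hr.antitoneOn_right ⟨haI.1, by linarith [haI.2, ht.2]⟩ ⟨ht.1.le, ht.2.le⟩ haI.2
    have hpt : ∀ u ∈ Icc (0 : ℝ) t, ((K : ℝ) + 1) * r a * (B - β * (u - t)) ^ K -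
        K * (B - β * (u - t)) ^ (K + 1) ≤
        ((K : ℝ) + 1) * r a * r u ^ K - K * r u ^ (K + 1) := by
      intro u hu
      have hu1 : u ∈ Icc (0 : ℝ) 1 := ⟨hu.1, by linarith [hu.2, ht.2]⟩
      have ha1 : a ∈ Icc (0 : ℝ) 1 := ⟨haI.1, by linarith [haI.2, ht.2]⟩
      refine apl_psi_mono K (hrnn u hu1) (hlnn u hu1) ?_
      rcases lt_or_ge u a with hua | hua
      · left
        refine ⟨hr.antitoneOn_right hu1 ha1 hua.le, ?_⟩
        by_contra hcon
        push Not at hcon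
        have : a ≤ u := ha.2 ⟨hu, by
          show (0 : ℝ) ≤ r u - (B - β * (u - t))
          linarith⟩
        linarith
      · right
        refine ⟨?_, hr.antitoneOn_right ha1 hu1 hua⟩
        rcases hu.2.eq_or_lt with hut | hut
        · rw [hut]; simp [← hBdef]
        · have hta : 0 < t - a := by linarith
          have hc := hr.conc.2 (show a ∈ Icc (-1 : ℝ) 1 from ⟨by linarith [haI.1], ha1.2⟩) htI
            (show 0 ≤ (t - u) / (t - a) from div_nonneg (by linarith) hta.le)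
            (show 0 ≤ (u - a) / (t - a) from div_nonneg (by linarith) hta.le)
            (by field_simp; ring)
          simp only [smul_eq_mul] at hc
          have e1 : (t - u) / (t - a) * a + (u - a) / (t - a) * t = u := by
            field_simp; ring
          rw [e1, ← hBdef] at hc
          have e2 : (t - u) / (t - a) * (B - β * (a - t)) + (u - a) / (t - a) * B =
              B - β * (u - t) := by
            field_simp; ring
          have h5 : (t - u) / (t - a) * (B - β * (a - t)) ≤ (t - u) / (t - a) * r a :=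
            mul_le_mul_of_nonneg_left hag (div_nonneg (by linarith) hta.le)
          linarith
    have hI := apl_psi_int K (f := r) (g := fun u => B - β * (u - t)) (ρ := r a) ht.1.le
      (prof_intervalIntegrable hr _ h0I htI) (prof_intervalIntegrable hr _ h0I htI)
      (hil _ _ _) (hil _ _ _) hpt
    rw [hβe] at hI
    have h6 : ((K : ℝ) + 1) * r a * (∫ u in (0 : ℝ)..t, (B - β * (u - t)) ^ K) ≤
        ((K : ℝ) + 1) * r a * ∫ u in (0 : ℝ)..t, r u ^ K := by linarith
    exact le_of_mul_le_mul_left h6 (by have : 0 < r a := by linarith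
                                       positivity)
  -- right crossing
  have hrt : ∫ u in t..R, (B - β * (u - t)) ^ K ≤ ∫ u in t..1, r u ^ K := by
    rcases hR.2.eq_or_lt with hR1 | hR1
    · -- R = 1 : equality
      subst hR1
      have hall : ∀ u ∈ Icc t 1, B - β * (u - t) ≤ r u := by
        by_contra hcon
        push Not at hcon
        obtain ⟨c, hc, hcl'⟩ := hcon
        have := intervalIntegral.integral_lt_integral_of_continuousOn_of_le_of_exists_lt
          (f := fun u => r u ^ (K + 1)) (g := fun u => (B - β * (u - t)) ^ (K + 1)) ht.2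
          ((hr.cont.mono (fun u hu => ⟨by linarith [hu.1, ht.1], hu.2⟩)).pow _)
          (hcl _).continuousOn
          (fun u hu => pow_le_pow_left₀ (hrnn u ⟨by linarith [hu.1, ht.1], hu.2⟩)
            (hright u ⟨hu.1.le, hu.2⟩) _)
          ⟨c, hc, pow_lt_pow_left₀ hcl' (hrnn c ⟨by linarith [hc.1, ht.1], hc.2⟩) (by omega)⟩
        linarith
      refine intervalIntegral.integral_mono_on ht.2.le (hil _ _ _)
        (prof_intervalIntegrable hr _ htI h1I) ?_
      intro u hu
      exact pow_le_pow_left₀ (hlnn u ⟨by linarith [hu.1, ht.1], hu.2⟩) (hall u hu) _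
    · have hρ : 0 < r R := hr.pos R ⟨by linarith [hR0.1], hR1⟩
      have hI1 := apl_psi_int K (f := r) (g := fun u => B - β * (u - t)) (ρ := r R) hR.1
        (prof_intervalIntegrable hr _ htI hRI) (prof_intervalIntegrable hr _ htI hRI)
        (hil _ _ _) (hil _ _ _) (fun u hu => by
          have hu1 : u ∈ Icc (0 : ℝ) 1 := ⟨by linarith [hu.1, ht.1], by linarith [hu.2, hR.2]⟩
          exact apl_psi_mono K (hrnn u hu1) (hlnn u hu1)
            (Or.inl ⟨hr.antitoneOn_right hu1 hR0 hu.2, hright u ⟨hu.1, hu1.2⟩⟩))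
      have hI2 := apl_psi_int K (f := r) (g := fun _ => (0 : ℝ)) (ρ := r R) hR.2
        (prof_intervalIntegrable hr _ hRI h1I) (prof_intervalIntegrable hr _ hRI h1I)
        (Continuous.intervalIntegrable (by fun_prop) _ _)
        (Continuous.intervalIntegrable (by fun_prop) _ _) (fun u hu => by
          have hu1 : u ∈ Icc (0 : ℝ) 1 := ⟨by linarith [hu.1, hR0.1], hu.2⟩
          exact apl_psi_mono K (hrnn u hu1) le_rfl
            (Or.inr ⟨hrnn u hu1, hr.antitoneOn_right hR0 hu1 hu.1⟩))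
      rw [hRe] at hI1
      have z1 : ∫ _u in R..1, (0 : ℝ) ^ K = 0 := by
        rw [zero_pow (by omega)]; simp
      have z2 : ∫ _u in R..1, (0 : ℝ) ^ (K + 1) = 0 := by
        rw [zero_pow (by omega)]; simp
      rw [z1, z2] at hI2
      have a1 := intervalIntegral.integral_add_adjacent_intervals
        (prof_intervalIntegrable hr K htI hRI) (prof_intervalIntegrable hr K hRI h1I)
      have a2 := intervalIntegral.integral_add_adjacent_intervals
        (prof_intervalIntegrable hr (K + 1) htI hRI) (prof_intervalIntegrable hr (K + 1) hRI h1I)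
      rw [← a1]
      rw [← a2] at hI1
      have h6 : ((K : ℝ) + 1) * r R * (∫ u in t..R, (B - β * (u - t)) ^ K) ≤
          ((K : ℝ) + 1) * r R * ((∫ u in t..R, r u ^ K) + ∫ u in R..1, r u ^ K) := by
        nlinarith
      exact le_of_mul_le_mul_left h6 (by positivity)
  rw [← intervalIntegral.integral_add_adjacent_intervals (hil K 0 t) (hil K t R),
    ← intervalIntegral.integral_add_adjacent_intervals (prof_intervalIntegrable hr K h0I htI)
      (prof_intervalIntegrable hr K htI h1I)]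
  exact add_le_add hleft hrt

/-- **exact a-priori principle** for `T = tau n r s`, `p = lB n s / hB n 0`, in the class `NleB n r` -/
theorem trunc_lin {n : ℕ} (hn : 2 ≤ n) {r : ℝ → ℝ} (hr : Prof r) (hN : NleB n r) {s : ℝ}
    (hs : s ∈ Ioo (0 : ℝ) 1) :
    ∃ e b R : ℝ, 0 ≤ e ∧ e ≤ b ∧ b ≤ 1 ∧ 0 < b ∧ tau n r s ≤ R ∧ R ≤ 1 ∧
      tau n r s * (1 - e) = R * (1 - b) ∧
      tau n r s * SA (n + 1) b * hB n 0 = lB n s * (R * SA (n + 1) e) ∧
      R * SA n e ^ n * hB n 0 ^ (n - 1) ≤ hB (n - 1) 0 ^ n * SA (n + 1) e ^ (n - 1) := by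
  obtain ⟨K, rfl⟩ : ∃ K, n = K + 1 := ⟨n - 1, by omega⟩
  have hK : 1 ≤ K := by omega
  rw [Nat.add_sub_cancel]
  have hs' : s ∈ Icc (-1 : ℝ) 1 := ⟨by linarith [hs.1], hs.2.le⟩
  have hT : tau (K + 1) r s ∈ Ioo (0 : ℝ) 1 :=
    ⟨tau_pos hr _ ⟨hs.1, hs.2.le⟩, tau_lt_one hr _ ⟨hs.1.le, hs.2⟩⟩
  obtain ⟨β, R, hβ, hTR, hR1, hE, h1, h2, h3⟩ := trunc_exists hr hK hT
  have i1 := integral_zero_tau hr (K + 1) hs'
  have i2 := integral_tau_one hr (K + 1) hs'
  set T := tau (K + 1) r s with hTdef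
  have hR0 : 0 < R := lt_of_lt_of_le hT.1 hTR
  have hBp : 0 < r T := hr.pos T ⟨by linarith [hT.1], hT.2⟩
  set B := r T with hBdef
  set A := B - β * (0 - T) with hAdef
  have hBA : B ≤ A := by
    have : 0 ≤ β * T := mul_nonneg hβ hT.1.le
    rw [hAdef]; linarith
  have hA : 0 < A := by linarith
  set E := B - β * (R - T) with hEdef
  have hEB : E ≤ B := by
    have : 0 ≤ β * (R - T) := mul_nonneg hβ (by linarith)
    rw [hEdef]; linarith
  have hcl : ∀ (k : ℕ) (a b : ℝ), IntervalIntegrable (fun u : ℝ => (B - β * (u - T)) ^ k) volume a b :=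
    fun k a b => Continuous.intervalIntegrable (by fun_prop) _ _
  have hm := hr.mom_pos' (K + 1)
  have hw := w_pos' (K + 1)
  have hq : 0 < mom (K + 1) r / w (K + 1) := by positivity
  have hW := w_eq_two_hB (K + 1)
  have hW' := w_eq_two_hB K
  have hH := hB_zero_pos (K + 1)
  have hH' := hB_zero_pos K
  -- the three line integrals
  have l1 : ∫ u in (0 : ℝ)..T, (B - β * (u - T)) ^ (K + 1) =
      T * A ^ (K + 1) * SA (K + 1 + 1) (B / A) := by
    have := int_line_SA (K + 1) (B := B) (β := β) (t := T) (x := 0) (y := T) (e := B / A)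
      (by rw [← hAdef]; exact hA.ne') (by rw [← hAdef]; field_simp; ring)
    rw [this, ← hAdef, sub_zero]
  have hAe : A * (E / A) = E := by field_simp
  have l2 : ∫ u in (0 : ℝ)..R, (B - β * (u - T)) ^ (K + 1) =
      R * A ^ (K + 1) * SA (K + 1 + 1) (E / A) := by
    have := int_line_SA (K + 1) (B := B) (β := β) (t := T) (x := 0) (y := R) (e := E / A)
      (by rw [← hAdef]; exact hA.ne') (by rw [← hAdef, hAe])
    rw [this, ← hAdef, sub_zero]
  have l3 : ∫ u in (0 : ℝ)..R, (B - β * (u - T)) ^ K = R * A ^ K * SA (K + 1) (E / A) := by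
    have := int_line_SA K (B := B) (β := β) (t := T) (x := 0) (y := R) (e := E / A)
      (by rw [← hAdef]; exact hA.ne') (by rw [← hAdef, hAe])
    rw [this, ← hAdef, sub_zero]
  have hM : R * A ^ (K + 1) * SA (K + 1 + 1) (E / A) = mom (K + 1) r / w (K + 1) * hB (K + 1) 0 := by
    rw [← l2, ← intervalIntegral.integral_add_adjacent_intervals (hcl (K + 1) 0 T) (hcl (K + 1) T R),
      h1, h2, i1, i2, ← lB_add_hB (K + 1) s]
    ring
  rw [l1, i1] at h1
  rw [l3] at h3
  have hm1 : mom (K + 1) r = 2 * (R * A ^ (K + 1) * SA (K + 1 + 1) (E / A)) := by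
    rw [hM, hW]; field_simp
  have hm2 : 2 * (R * A ^ K * SA (K + 1) (E / A)) ≤ mom K r := by
    rw [mom_eq_two hr K]
    linarith
  have hSA : 0 < SA (K + 1) (E / A) := SA_pos _ (by omega) (div_nonneg hE hA.le)
  have hSA' : 0 < SA (K + 1 + 1) (E / A) := SA_pos _ (by omega) (div_nonneg hE hA.le)
  refine ⟨E / A, B / A, R, div_nonneg hE hA.le, div_le_div_of_nonneg_right hEB hA.le,
    (div_le_one hA).2 hBA, div_pos hBp hA, hTR, hR1, ?_, ?_, ?_⟩
  · have e1 : T * (A - E) = R * (A - B) := by rw [hEdef, hAdef]; ring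
    field_simp
    linarith
  · have h5 : A ^ (K + 1) * (mom (K + 1) r / w (K + 1)) *
        (T * SA (K + 1 + 1) (B / A) * hB (K + 1) 0) =
        A ^ (K + 1) * (mom (K + 1) r / w (K + 1)) *
          (lB (K + 1) s * (R * SA (K + 1 + 1) (E / A))) := by
      calc A ^ (K + 1) * (mom (K + 1) r / w (K + 1)) *
        (T * SA (K + 1 + 1) (B / A) * hB (K + 1) 0) =
        (T * A ^ (K + 1) * SA (K + 1 + 1) (B / A)) * (mom (K + 1) r / w (K + 1) * hB (K + 1) 0) := by
            ring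
        _ = (mom (K + 1) r / w (K + 1) * lB (K + 1) s) *
            (R * A ^ (K + 1) * SA (K + 1 + 1) (E / A)) := by rw [h1, hM]
        _ = _ := by ring
    exact mul_left_cancel₀ (by positivity) h5
  · -- Renyi constraint
    have hN' : mom K r ^ (K + 1) * w (K + 1) ^ K ≤ w K ^ (K + 1) * mom (K + 1) r ^ K := hN
    rw [hW, hW', hm1] at hN'
    have h6 : (2 * (R * A ^ K * SA (K + 1) (E / A))) ^ (K + 1) ≤ mom K r ^ (K + 1) :=
      pow_le_pow_left₀ (by positivity) hm2 _
    have h7 : (2 * (R * A ^ K * SA (K + 1) (E / A))) ^ (K + 1) * (2 * hB (K + 1) 0) ^ K ≤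
        (2 * hB K 0) ^ (K + 1) * (2 * (R * A ^ (K + 1) * SA (K + 1 + 1) (E / A))) ^ K :=
      (mul_le_mul_of_nonneg_right h6 (by positivity)).trans hN'
    have e1 : (2 * (R * A ^ K * SA (K + 1) (E / A))) ^ (K + 1) * (2 * hB (K + 1) 0) ^ K =
        (2 ^ (K + 1) * 2 ^ K * R ^ K * (A ^ K) ^ (K + 1)) *
          (R * SA (K + 1) (E / A) ^ (K + 1) * hB (K + 1) 0 ^ K) := by
      simp only [mul_pow, pow_succ]
      ring
    have e2 : (2 * hB K 0) ^ (K + 1) * (2 * (R * A ^ (K + 1) * SA (K + 1 + 1) (E / A))) ^ K =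
        (2 ^ (K + 1) * 2 ^ K * R ^ K * (A ^ K) ^ (K + 1)) *
          (hB K 0 ^ (K + 1) * SA (K + 1 + 1) (E / A) ^ K) := by
      have : (A ^ (K + 1)) ^ K = (A ^ K) ^ (K + 1) := by rw [← pow_mul, ← pow_mul, mul_comm]
      rw [mul_pow, mul_pow, mul_pow, mul_pow, this]
      ring
    rw [e1, e2] at h7
    exact le_of_mul_le_mul_left h7 (by positivity)

end Crest.Agent.R230
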