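import Crest.Agent.R230.TransProf

/-!
A-priori bounds for the transport `tau n r` from the ball marginal to the marginal of a concave
profile (helper768).

* `T ≤ F₀` (`tau_le_lB`), `T c^n ≤ T' ∫_0^s c^n` (`tau_mul_le`), `T' ∫_s^1 c^n ≤ (1-T) c^n` (`dtau_mul_le`);
* `(n+1)(1-G)G^n T' ≤ 2 T dB` (`kappa_cone`), `G^{n+1} = 2∫_s^1 dB`: Brunn–Minkowski;
* explicit hazard bound and `sT'/T ≤ 1 + 1/c`.
-/

set_option autoImplicit false

open MeasureTheory Set Filter Topology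
open scoped Pointwise ENNReal

namespace Crest.Agent.R230

open Tr

/-- `∫_0^s √(1-x²)^n` -/
noncomputable def lB (n : ℕ) (s : ℝ) : ℝ := ∫ x in (0 : ℝ)..s, Real.sqrt (1 - x ^ 2) ^ n

/-- `∫_s^1 √(1-x²)^n` -/
noncomputable def hB (n : ℕ) (s : ℝ) : ℝ := ∫ x in s..1, Real.sqrt (1 - x ^ 2) ^ n

lemma cont_cpow (n : ℕ) : Continuous (fun x : ℝ => Real.sqrt (1 - x ^ 2) ^ n) := by fun_prop

lemma intervalIntegrable_cpow (n : ℕ) (a b : ℝ) :
    IntervalIntegrable (fun x : ℝ => Real.sqrt (1 - x ^ 2) ^ n) volume a b :=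
  (cont_cpow n).intervalIntegrable a b

lemma lB_add_hB (n : ℕ) (s : ℝ) : lB n s + hB n s = hB n 0 :=
  intervalIntegral.integral_add_adjacent_intervals (intervalIntegrable_cpow n _ _)
    (intervalIntegrable_cpow n _ _)

lemma w_eq_two_hB (n : ℕ) : w n = 2 * hB n 0 := by
  have h := (dens_base n).prim_neg (t := 0) (by norm_num)
  rw [neg_zero] at h
  have h2 : prim (fun s : ℝ => Real.sqrt (1 - s ^ 2) ^ n) 1 =
      prim (fun s : ℝ => Real.sqrt (1 - s ^ 2) ^ n) 0 + hB n 0 :=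
    (intervalIntegral.integral_add_adjacent_intervals (intervalIntegrable_cpow n _ _)
      (intervalIntegrable_cpow n _ _)).symm
  have h3 : w n = prim (fun s : ℝ => Real.sqrt (1 - s ^ 2) ^ n) 1 := rfl
  linarith

lemma hB_zero_pos (n : ℕ) : 0 < hB n 0 := by
  have := w_pos' n
  rw [w_eq_two_hB] at this
  linarith

lemma hasDerivAt_lB (n : ℕ) (s : ℝ) : HasDerivAt (lB n) (Real.sqrt (1 - s ^ 2) ^ n) s :=
  intervalIntegral.integral_hasDerivAt_right (intervalIntegrable_cpow n _ _)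
    ((cont_cpow n).stronglyMeasurableAtFilter _ _) (cont_cpow n).continuousAt

lemma hasDerivAt_hB (n : ℕ) (s : ℝ) : HasDerivAt (hB n) (-Real.sqrt (1 - s ^ 2) ^ n) s := by
  have h : hB n = fun s => hB n 0 - lB n s := by
    funext s
    linarith [lB_add_hB n s]
  rw [h]
  have := (hasDerivAt_lB n s).const_sub (hB n 0)
  exact this

lemma lB_pos (n : ℕ) {s : ℝ} (hs : s ∈ Ioc (0 : ℝ) 1) : 0 < lB n s := by
  refine intervalIntegral.intervalIntegral_pos_of_pos_on (intervalIntegrable_cpow n _ _) ?_ hs.1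
  intro x hx
  exact pow_pos (sqrt_pos_of_mem ⟨by linarith [hx.1], by linarith [hx.2, hs.2]⟩) n

lemma hB_pos (n : ℕ) {s : ℝ} (hs : s ∈ Ico (0 : ℝ) 1) : 0 < hB n s := by
  refine intervalIntegral.intervalIntegral_pos_of_pos_on (intervalIntegrable_cpow n _ _) ?_ hs.2
  intro x hx
  exact pow_pos (sqrt_pos_of_mem ⟨by linarith [hx.1, hs.1], by linarith [hx.2]⟩) n

lemma lB_zero (n : ℕ) : lB n 0 = 0 := by simp [lB]

lemma hB_one (n : ℕ) : hB n 1 = 0 := by simp [hB]

lemma hB_nonneg (n : ℕ) {s : ℝ} (hs : s ∈ Icc (0 : ℝ) 1) : 0 ≤ hB n s := by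
  rcases hs.2.eq_or_lt with h | h
  · rw [h, hB_one]
  · exact (hB_pos n ⟨hs.1, h⟩).le

lemma lB_nonneg (n : ℕ) {s : ℝ} (hs : s ∈ Icc (0 : ℝ) 1) : 0 ≤ lB n s := by
  rcases hs.1.eq_or_lt with h | h
  · rw [← h, lB_zero]
  · exact (lB_pos n ⟨h, hs.2⟩).le

section

variable {r : ℝ → ℝ} (hr : Prof r) (n : ℕ)
include hr

lemma tau_pos {s : ℝ} (hs : s ∈ Ioc (0 : ℝ) 1) : 0 < tau n r s := by
  have := tau_strictMonoOn hr n (show (0 : ℝ) ∈ Icc (-1 : ℝ) 1 by norm_num)
    (show s ∈ Icc (-1 : ℝ) 1 from ⟨by linarith [hs.1], hs.2⟩) hs.1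
  rwa [tau_zero hr n] at this

lemma tau_lt_one {s : ℝ} (hs : s ∈ Ico (0 : ℝ) 1) : tau n r s < 1 :=
  (tau_mem hr n ⟨by linarith [hs.1], hs.2⟩).2

lemma prof_intervalIntegrable {a b : ℝ} (ha : a ∈ Icc (-1 : ℝ) 1) (hb : b ∈ Icc (-1 : ℝ) 1) :
    IntervalIntegrable (fun x => r x ^ n) volume a b :=
  (hr.dens n).intervalIntegrable ha hb

lemma prim_tau {s : ℝ} (hs : s ∈ Icc (-1 : ℝ) 1) : prim (dP n r) (tau n r s) = prim (dB n) s :=
  (trans_spec (dens_dB n) (hr.dens_dP n) (hr.mass_eq n) hs).2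

omit hr in
lemma prim_dP_eq (t : ℝ) : prim (dP n r) t = prim (fun x => r x ^ n) t / mom n r := by
  unfold prim dP
  rw [intervalIntegral.integral_div]

omit hr in
lemma prim_dB_eq (t : ℝ) : prim (dB n) t = prim (fun x => Real.sqrt (1 - x ^ 2) ^ n) t / w n := by
  unfold prim dB
  rw [intervalIntegral.integral_div]

/-- `∫_T^1 r^n = (mom/w) ∫_s^1 c^n` -/
lemma integral_tau_one {s : ℝ} (hs : s ∈ Icc (-1 : ℝ) 1) :
    ∫ x in (tau n r s)..1, r x ^ n = mom n r / w n * hB n s := by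
  have hT := tau_mem_Icc hr n hs
  have h1 := prim_tau hr n hs
  rw [prim_dP_eq n, prim_dB_eq n] at h1
  have hm := (hr.mom_pos' n).ne'
  have hw := (w_pos' n).ne'
  have h2 : prim (fun x => r x ^ n) (tau n r s) + ∫ x in (tau n r s)..1, r x ^ n = mom n r :=
    intervalIntegral.integral_add_adjacent_intervals
      (prof_intervalIntegrable hr n ⟨le_rfl, by norm_num⟩ hT)
      (prof_intervalIntegrable hr n hT ⟨by norm_num, le_rfl⟩)
  have h3 : prim (fun x => Real.sqrt (1 - x ^ 2) ^ n) s + hB n s = w n :=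
    intervalIntegral.integral_add_adjacent_intervals (intervalIntegrable_cpow n _ _)
      (intervalIntegrable_cpow n _ _)
  rw [div_eq_div_iff hm hw] at h1
  field_simp
  have e1 : prim (fun x => r x ^ n) (tau n r s) = mom n r - ∫ x in (tau n r s)..1, r x ^ n := by
    linarith
  have e2 : prim (fun x => Real.sqrt (1 - x ^ 2) ^ n) s = w n - hB n s := by linarith
  rw [e1, e2] at h1
  linarith

/-- `∫_0^T r^n = (mom/w) ∫_0^s c^n` -/
lemma integral_zero_tau {s : ℝ} (hs : s ∈ Icc (-1 : ℝ) 1) :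
    ∫ x in (0 : ℝ)..(tau n r s), r x ^ n = mom n r / w n * lB n s := by
  have h1 := integral_tau_one hr n hs
  have h2 := integral_tau_one hr n (s := 0) (by norm_num)
  rw [tau_zero hr n] at h2
  have hT := tau_mem_Icc hr n hs
  have h3 := intervalIntegral.integral_add_adjacent_intervals
    (prof_intervalIntegrable hr n (a := 0) (by norm_num) hT)
    (prof_intervalIntegrable hr n hT ⟨by norm_num, le_rfl⟩)
  have h4 := lB_add_hB n s
  have e : lB n s = hB n 0 - hB n s := by linarith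
  rw [e, mul_sub, ← h1, ← h2]
  linarith

lemma mom_eq_two : mom n r = 2 * ∫ x in (0 : ℝ)..1, r x ^ n := by
  have h2 := integral_tau_one hr n (s := 0) (by norm_num)
  rw [tau_zero hr n] at h2
  have hw := w_eq_two_hB n
  have hwp := (w_pos' n).ne'
  have : hB n 0 = w n / 2 := by linarith
  rw [h2, this]
  field_simp

/-- right part of an antitone density -/
lemma integral_right_le {x : ℝ} (hx : x ∈ Icc (0 : ℝ) 1) :
    ∫ u in x..1, r u ^ n ≤ (1 - x) * r x ^ n := by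
  have hx' : x ∈ Icc (-1 : ℝ) 1 := ⟨by linarith [hx.1], hx.2⟩
  have h := intervalIntegral.integral_mono_on hx.2
    (prof_intervalIntegrable hr n hx' ⟨by norm_num, le_rfl⟩)
    (intervalIntegrable_const (c := r x ^ n)) (fun u hu => ?_)
  · rw [intervalIntegral.integral_const, smul_eq_mul] at h
    exact h
  · have hu' : u ∈ Icc (0 : ℝ) 1 := ⟨hx.1.trans hu.1, hu.2⟩
    exact pow_le_pow_left₀ (hr.nonneg' ⟨by linarith [hu'.1], hu'.2⟩)
      (hr.antitoneOn_right hx hu' hu.1) n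

/-- left part of an antitone density -/
lemma le_integral_left {x : ℝ} (hx : x ∈ Icc (0 : ℝ) 1) :
    x * r x ^ n ≤ ∫ u in (0 : ℝ)..x, r u ^ n := by
  have hx' : x ∈ Icc (-1 : ℝ) 1 := ⟨by linarith [hx.1], hx.2⟩
  have h := intervalIntegral.integral_mono_on hx.1
    (intervalIntegrable_const (c := r x ^ n))
    (prof_intervalIntegrable hr n (a := 0) (by norm_num) hx') (fun u hu => ?_)
  · rw [intervalIntegral.integral_const, smul_eq_mul, sub_zero] at h
    exact h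
  · have hu' : u ∈ Icc (0 : ℝ) 1 := ⟨hu.1, hu.2.trans hx.2⟩
    exact pow_le_pow_left₀ (hr.nonneg' hx') (hr.antitoneOn_right hu' hx hu.2) n

lemma dtau_mul_pow {s : ℝ} (hs : s ∈ Ioo (-1 : ℝ) 1) :
    dtau n r s * (r (tau n r s) ^ n) = mom n r / w n * Real.sqrt (1 - s ^ 2) ^ n := by
  have hrt := hr.pos _ (tau_mem hr n hs)
  have hm := (hr.mom_pos' n).ne'
  have hw := (w_pos' n).ne'
  unfold dtau dB dP
  field_simp

/-- **(AP2)** `T' ∫_s^1 c^n ≤ (1-T) c^n` -/
theorem dtau_mul_hB_le {s : ℝ} (hs : s ∈ Ico (0 : ℝ) 1) :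
    dtau n r s * hB n s ≤ (1 - tau n r s) * Real.sqrt (1 - s ^ 2) ^ n := by
  have hs' : s ∈ Ioo (-1 : ℝ) 1 := ⟨by linarith [hs.1], hs.2⟩
  have hT := tau_mem hr n hs'
  have hT0 : 0 ≤ tau n r s := by
    rcases hs.1.eq_or_lt with h | h
    · rw [← h, tau_zero hr n]
    · exact (tau_pos hr n ⟨h, hs.2.le⟩).le
  have h1 := integral_right_le hr n (x := tau n r s) ⟨hT0, hT.2.le⟩
  rw [integral_tau_one hr n ⟨hs'.1.le, hs'.2.le⟩] at h1
  have h2 := dtau_mul_pow hr n hs'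
  have hd := dtau_pos hr n hs'
  have hm := hr.mom_pos' n
  have hw := w_pos' n
  have hq : 0 < mom n r / w n := by positivity
  have h3 : mom n r / w n * (dtau n r s * hB n s) ≤
      mom n r / w n * ((1 - tau n r s) * Real.sqrt (1 - s ^ 2) ^ n) := by
    calc mom n r / w n * (dtau n r s * hB n s) = dtau n r s * (mom n r / w n * hB n s) := by ring
      _ ≤ dtau n r s * ((1 - tau n r s) * r (tau n r s) ^ n) := mul_le_mul_of_nonneg_left h1 hd.le
      _ = (1 - tau n r s) * (dtau n r s * r (tau n r s) ^ n) := by ring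
      _ = _ := by rw [h2]; ring
  exact le_of_mul_le_mul_left h3 hq

/-- **(AP1')** `T c^n ≤ T' ∫_0^s c^n` -/
theorem tau_mul_le_dtau {s : ℝ} (hs : s ∈ Ico (0 : ℝ) 1) :
    tau n r s * Real.sqrt (1 - s ^ 2) ^ n ≤ dtau n r s * lB n s := by
  have hs' : s ∈ Ioo (-1 : ℝ) 1 := ⟨by linarith [hs.1], hs.2⟩
  have hT := tau_mem hr n hs'
  have hT0 : 0 ≤ tau n r s := by
    rcases hs.1.eq_or_lt with h | h
    · rw [← h, tau_zero hr n]
    · exact (tau_pos hr n ⟨h, hs.2.le⟩).le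
  have h1 := le_integral_left hr n (x := tau n r s) ⟨hT0, hT.2.le⟩
  rw [integral_zero_tau hr n ⟨hs'.1.le, hs'.2.le⟩] at h1
  have h2 := dtau_mul_pow hr n hs'
  have hd := dtau_pos hr n hs'
  have hm := hr.mom_pos' n
  have hw := w_pos' n
  have hq : 0 < mom n r / w n := by positivity
  have h3 : mom n r / w n * (tau n r s * Real.sqrt (1 - s ^ 2) ^ n) ≤
      mom n r / w n * (dtau n r s * lB n s) := by
    calc mom n r / w n * (tau n r s * Real.sqrt (1 - s ^ 2) ^ n)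
        = tau n r s * (dtau n r s * r (tau n r s) ^ n) := by rw [h2]; ring
      _ = dtau n r s * (tau n r s * r (tau n r s) ^ n) := by ring
      _ ≤ dtau n r s * (mom n r / w n * lB n s) := mul_le_mul_of_nonneg_left h1 hd.le
      _ = _ := by ring
  exact le_of_mul_le_mul_left h3 hq

/-- **(AP1)** `T ≤ F₀(s)`: `T ∫_0^1 c^n ≤ ∫_0^s c^n` -/
theorem tau_mul_hB_zero_le {s : ℝ} (hs : s ∈ Icc (0 : ℝ) 1) :
    tau n r s * hB n 0 ≤ lB n s := by
  have hs' : s ∈ Icc (-1 : ℝ) 1 := ⟨by linarith [hs.1], hs.2⟩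
  have hT := tau_mem_Icc hr n hs'
  have hT0 : 0 ≤ tau n r s := by
    rcases hs.1.eq_or_lt with h | h
    · rw [← h, tau_zero hr n]
    · exact (tau_pos hr n ⟨h, hs.2⟩).le
  set T := tau n r s with hTdef
  have h1 := le_integral_left hr n (x := T) ⟨hT0, hT.2⟩
  have h2 := integral_right_le hr n (x := T) ⟨hT0, hT.2⟩
  rw [integral_zero_tau hr n hs'] at h1
  rw [integral_tau_one hr n hs'] at h2
  have hm := hr.mom_pos' n
  have hw := w_pos' n
  have hq : 0 < mom n r / w n := by positivity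
  have h3 := lB_add_hB n s
  have h4 : T * (mom n r / w n * hB n s) ≤ (1 - T) * (mom n r / w n * lB n s) := by
    calc T * (mom n r / w n * hB n s) ≤ T * ((1 - T) * r T ^ n) :=
          mul_le_mul_of_nonneg_left h2 hT0
      _ = (1 - T) * (T * r T ^ n) := by ring
      _ ≤ _ := mul_le_mul_of_nonneg_left h1 (by linarith [hT.2])
  have h5 : mom n r / w n * (T * hB n 0) ≤ mom n r / w n * lB n s := by
    rw [← h3]
    nlinarith
  exact le_of_mul_le_mul_left h5 hq

/-- supporting line -/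
lemma prof_support {x : ℝ} (hx : x ∈ Ioo (0 : ℝ) 1) :
    ∃ β : ℝ, 0 ≤ β ∧ ∀ u ∈ Icc (-1 : ℝ) 1, r u ≤ r x - β * (u - x) := by
  have hx' : x ∈ Ioo (-1 : ℝ) 1 := ⟨by linarith [hx.1], hx.2⟩
  have hxI : x ∈ Icc (-1 : ℝ) 1 := ⟨hx'.1.le, hx'.2.le⟩
  refine ⟨-rd r x, by linarith [hr.rd_nonpos hx], fun u hu => ?_⟩
  rcases lt_trichotomy u x with h | h | h
  · -- left: limit of slopes
    have h1 : Tendsto (slope r x) (𝓝[Ioi x] x) (𝓝 (rd r x)) :=
      (hasDerivWithinAt_iff_tendsto_slope' (by simp)).1 (hr.hasRightDeriv hx')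
    have h2 : rd r x ≤ (r x - r u) / (x - u) := by
      refine le_of_tendsto h1 ?_
      have h3 : Ioo x 1 ∈ 𝓝[Ioi x] x := Ioo_mem_nhdsGT hx.2
      filter_upwards [h3] with v hv
      have h4 := hr.conc.slope_anti_adjacent hu ⟨by linarith [hv.1, hx'.1], hv.2.le⟩ h hv.1
      rw [slope_def_field]
      exact h4
    rw [le_div_iff₀ (by linarith)] at h2
    linarith
  · subst h; simp
  · have h1 := hr.conc.neg.le_slope_of_hasDerivWithinAt_Ioi hxI hu h (hr.hasRightDeriv hx').neg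
    rw [slope_def_field, le_div_iff₀ (by linarith)] at h1
    simp only [Pi.neg_apply] at h1
    linarith

omit hr in
lemma int_line_left (n : ℕ) {ρ β x : ℝ} (hβ : 0 < β) :
    ∫ u in (0 : ℝ)..x, (ρ - β * (u - x)) ^ n =
      ((ρ + β * x) ^ (n + 1) - ρ ^ (n + 1)) / ((n + 1) * β) := by
  have hn : (n : ℝ) + 1 ≠ 0 := by positivity
  have hb := hβ.ne'
  have hd : ∀ u ∈ uIcc (0 : ℝ) x, HasDerivAt
      (fun u => -(ρ - β * (u - x)) ^ (n + 1) / ((n + 1) * β)) ((ρ - β * (u - x)) ^ n) u := by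
    intro u _
    have h1 : HasDerivAt (fun u => ρ - β * (u - x)) (-β) u := by
      have := (((hasDerivAt_id u).sub_const x).const_mul β).const_sub ρ
      exact this.congr_deriv (by simp)
    have h2 := ((h1.fun_pow (n + 1)).fun_neg).div_const (((n : ℝ) + 1) * β)
    refine h2.congr_deriv ?_
    simp only [Nat.add_sub_cancel]
    push_cast
    field_simp
  rw [intervalIntegral.integral_eq_sub_of_hasDerivAt hd]
  · simp only [sub_self, mul_zero, sub_zero, zero_sub, mul_neg, sub_neg_eq_add]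
    field_simp
    ring
  · exact Continuous.intervalIntegrable (by fun_prop) _ _

omit hr in
lemma int_line_right (n : ℕ) {ρ β x : ℝ} (hβ : 0 < β) :
    ∫ u in x..1, (ρ - β * (u - x)) ^ n =
      (ρ ^ (n + 1) - (ρ - β * (1 - x)) ^ (n + 1)) / ((n + 1) * β) := by
  have hn : (n : ℝ) + 1 ≠ 0 := by positivity
  have hb := hβ.ne'
  have hd : ∀ u ∈ uIcc x 1, HasDerivAt
      (fun u => -(ρ - β * (u - x)) ^ (n + 1) / ((n + 1) * β)) ((ρ - β * (u - x)) ^ n) u := by
    intro u _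
    have h1 : HasDerivAt (fun u => ρ - β * (u - x)) (-β) u := by
      have := (((hasDerivAt_id u).sub_const x).const_mul β).const_sub ρ
      exact this.congr_deriv (by simp)
    have h2 := ((h1.fun_pow (n + 1)).fun_neg).div_const (((n : ℝ) + 1) * β)
    refine h2.congr_deriv ?_
    simp only [Nat.add_sub_cancel]
    push_cast
    field_simp
  rw [intervalIntegral.integral_eq_sub_of_hasDerivAt hd]
  · simp only [sub_self, mul_zero, sub_zero]
    field_simp
    ring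
  · exact Continuous.intervalIntegrable (by fun_prop) _ _

omit hr in
/-- `(n+1) z^n ≤ 1 + n z^{n+1}` -/
lemma amgm_pow (n : ℕ) {z : ℝ} (hz : 0 ≤ z) : ((n : ℝ) + 1) * z ^ n ≤ 1 + n * z ^ (n + 1) := by
  induction n with
  | zero => simp
  | succ k ih =>
    have h1 : 0 ≤ z ^ k := pow_nonneg hz k
    have h2 : 0 ≤ z ^ (k + 1) := pow_nonneg hz _
    -- use (k+1) z^k ≤ 1 + k z^{k+1}, times z, and z ≤ ...
    have h3 : ((k : ℝ) + 1) * z ^ (k + 1) ≤ z + k * z ^ (k + 2) := by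
      have := mul_le_mul_of_nonneg_right ih hz
      calc ((k : ℝ) + 1) * z ^ (k + 1) = ((k : ℝ) + 1) * z ^ k * z := by ring
        _ ≤ (1 + k * z ^ (k + 1)) * z := this
        _ = _ := by ring
    have h4 : z + z ^ (k + 1) ≤ 1 + z ^ (k + 2) := by
      have : 0 ≤ (z - 1) * (z ^ (k + 1) - 1) := by
        rcases le_total z 1 with h | h
        · exact mul_nonneg_of_nonpos_of_nonpos (by linarith) (by linarith [pow_le_one₀ hz h (n := k + 1)])
        · exact mul_nonneg (by linarith) (by linarith [one_le_pow₀ h (n := k + 1)])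
      have e : (z - 1) * (z ^ (k + 1) - 1) = z ^ (k + 2) - z - z ^ (k + 1) + 1 := by ring
      linarith
    push_cast
    have e2 : z ^ (k + 1 + 1) = z ^ (k + 2) := rfl
    rw [e2]
    nlinarith

/-- **Brunn–Minkowski for the tail**: `(n+1) (1-G) G^n ≤ 2 x dP(x)`, `G^{n+1} = 2∫_x^1 dP` -/
theorem tail_concave {x G : ℝ} (hx : x ∈ Ioo (0 : ℝ) 1) (hG : 0 ≤ G)
    (hGe : G ^ (n + 1) * mom n r = 2 * ∫ u in x..1, r u ^ n) :
    ((n : ℝ) + 1) * ((1 - G) * G ^ n) * mom n r ≤ 2 * (x * r x ^ n) := by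
  have hxI : x ∈ Icc (-1 : ℝ) 1 := ⟨by linarith [hx.1], hx.2.le⟩
  have hρ := hr.pos x ⟨by linarith [hx.1], hx.2⟩
  set ρ := r x with hρdef
  obtain ⟨β, hβ, hline⟩ := prof_support hr hx
  rw [← hρdef] at hline
  set I := ∫ u in x..1, r u ^ n with hI
  set J := ∫ u in (0 : ℝ)..x, r u ^ n with hJ
  have hmom : mom n r = 2 * (I + J) := by
    rw [mom_eq_two hr n, hI, hJ, ← intervalIntegral.integral_add_adjacent_intervals
      (prof_intervalIntegrable hr n (a := 0) (by norm_num) hxI)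
      (prof_intervalIntegrable hr n hxI ⟨by norm_num, le_rfl⟩)]
    ring
  have hI0 : 0 ≤ I := intervalIntegral.integral_nonneg hx.2.le fun u hu =>
    pow_nonneg (hr.nonneg' ⟨by linarith [hu.1, hx.1], hu.2⟩) n
  have hJ0 : 0 ≤ J := intervalIntegral.integral_nonneg hx.1.le fun u hu =>
    pow_nonneg (hr.nonneg' ⟨by linarith [hu.1], by linarith [hu.2, hx.2]⟩) n
  have hmp := hr.mom_pos' n
  have hIJ : 0 < I + J := by linarith
  have hGI : G ^ (n + 1) * (I + J) = I := by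
    rw [hmom] at hGe
    linarith
  -- goal: (n+1)(G^n (I+J) - I) ≤ x ρ^n
  suffices h : ((n : ℝ) + 1) * (G ^ n * (I + J) - I) ≤ x * ρ ^ n by
    have e : ((n : ℝ) + 1) * ((1 - G) * G ^ n) * mom n r =
        2 * (((n : ℝ) + 1) * (G ^ n * (I + J) - G ^ (n + 1) * (I + J))) := by
      rw [hmom]; ring
    rw [e, hGI]
    linarith
  set g := (ρ + β * x) / ρ with hg
  have hg1 : 1 ≤ g := by
    rw [hg, le_div_iff₀ hρ]
    nlinarith [mul_nonneg hβ hx.1.le]
  have hg0 : 0 < g := by linarith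
  have hgn : 0 < g ^ n := pow_pos hg0 n
  -- AM-GM: (n+1) G^n ≤ g^{-n} + n g G^{n+1}
  have ham : ((n : ℝ) + 1) * G ^ n ≤ (g ^ n)⁻¹ + n * g * G ^ (n + 1) := by
    have h1 := amgm_pow n (z := g * G) (by positivity)
    rw [← mul_le_mul_iff_right₀ hgn]
    calc g ^ n * (((n : ℝ) + 1) * G ^ n) = ((n : ℝ) + 1) * (g * G) ^ n := by rw [mul_pow]; ring
      _ ≤ 1 + n * (g * G) ^ (n + 1) := h1
      _ = g ^ n * ((g ^ n)⁻¹ + n * g * G ^ (n + 1)) := by
        rw [mul_pow, mul_add, mul_inv_cancel₀ hgn.ne', pow_succ g n]; ring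
  have hco : 0 ≤ (g ^ n)⁻¹ + n * g - (n + 1) := by
    have h1 := amgm_pow n (z := g) hg0.le
    have h2 : 0 ≤ (g ^ n)⁻¹ * (1 + n * g ^ (n + 1) - (n + 1) * g ^ n) :=
      mul_nonneg (by positivity) (by linarith)
    have e : (g ^ n)⁻¹ * (1 + n * g ^ (n + 1) - (n + 1) * g ^ n) = (g ^ n)⁻¹ + n * g - (n + 1) := by
      rw [pow_succ g n]
      field_simp
    rwa [e] at h2
  have hmain : ((n : ℝ) + 1) * (G ^ n * (I + J) - I) ≤
      (g ^ n)⁻¹ * J + ((g ^ n)⁻¹ + n * g - (n + 1)) * I := by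
    have h1 := mul_le_mul_of_nonneg_right ham hIJ.le
    have e : ((g ^ n)⁻¹ + n * g * G ^ (n + 1)) * (I + J) =
        (g ^ n)⁻¹ * (I + J) + n * g * (G ^ (n + 1) * (I + J)) := by ring
    rw [e, hGI] at h1
    linarith
  refine hmain.trans ?_
  have hJle : J ≤ ∫ u in (0 : ℝ)..x, (ρ - β * (u - x)) ^ n := by
    refine intervalIntegral.integral_mono_on hx.1.le
      (prof_intervalIntegrable hr n (a := 0) (by norm_num) hxI)
      (Continuous.intervalIntegrable (by fun_prop) _ _) (fun u hu => ?_)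
    exact pow_le_pow_left₀ (hr.nonneg' ⟨by linarith [hu.1], by linarith [hu.2, hx.2]⟩)
      (hline u ⟨by linarith [hu.1], by linarith [hu.2, hx.2]⟩) n
  rcases hβ.eq_or_lt with h0 | h0
  · -- β = 0
    have hg' : g = 1 := by rw [hg, ← h0]; field_simp; simp
    rw [hg']
    simp only [← h0, zero_mul, sub_zero, intervalIntegral.integral_const, smul_eq_mul] at hJle
    simp only [one_pow, inv_one, one_mul, mul_one]
    linarith
  · rw [int_line_left n h0] at hJle
    have hIle : I ≤ ρ ^ (n + 1) / ((n + 1) * β) := by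
      have h1 : I ≤ ∫ u in x..1, (ρ - β * (u - x)) ^ n := by
        refine intervalIntegral.integral_mono_on hx.2.le
          (prof_intervalIntegrable hr n hxI ⟨by norm_num, le_rfl⟩)
          (Continuous.intervalIntegrable (by fun_prop) _ _) (fun u hu => ?_)
        exact pow_le_pow_left₀ (hr.nonneg' ⟨by linarith [hu.1, hx.1], hu.2⟩)
          (hline u ⟨by linarith [hu.1, hx.1], hu.2⟩) n
      rw [int_line_right n h0] at h1
      refine h1.trans ?_
      refine div_le_div_of_nonneg_right ?_ (by positivity)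
      have h2 : 0 ≤ ρ - β * (1 - x) :=
        (hr.nonneg' (s := 1) (by norm_num)).trans (hline 1 (by norm_num))
      linarith [pow_nonneg h2 (n + 1)]
    have hρg : ρ + β * x = g * ρ := by rw [hg]; field_simp
    rw [hρg, mul_pow] at hJle
    have hρp : 0 < ρ ^ (n + 1) := by positivity
    have hn1 : (0 : ℝ) < (n : ℝ) + 1 := by positivity
    calc (g ^ n)⁻¹ * J + ((g ^ n)⁻¹ + n * g - (n + 1)) * I
        ≤ (g ^ n)⁻¹ * ((g ^ (n + 1) * ρ ^ (n + 1) - ρ ^ (n + 1)) / ((n + 1) * β)) +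
          ((g ^ n)⁻¹ + n * g - (n + 1)) * (ρ ^ (n + 1) / ((n + 1) * β)) :=
        add_le_add (mul_le_mul_of_nonneg_left hJle (by positivity))
          (mul_le_mul_of_nonneg_left hIle hco)
      _ = ρ ^ n * (ρ * (g - 1) / β) := by
        rw [pow_succ g n, pow_succ ρ n]
        field_simp
        ring
      _ = x * ρ ^ n := by
        have : ρ * (g - 1) = β * x := by linarith
        rw [this]
        field_simp

/-- **(AP3)** `T/φ` is nonincreasing: `(n+1)(1-G)G^n T' ≤ 2 T dB(s)` where `G^{n+1} = 2∫_s^1 dB`;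
here in the form `(n+1)(1-G)G^n T' ∫_0^1 c^n ≤ T c^n`, `G^{n+1} ∫_0^1 c^n = ∫_s^1 c^n`. -/
theorem kappa_cone {s G : ℝ} (hs : s ∈ Ioo (0 : ℝ) 1) (hG : 0 ≤ G)
    (hGe : G ^ (n + 1) * hB n 0 = hB n s) :
    ((n : ℝ) + 1) * ((1 - G) * G ^ n) * dtau n r s * hB n 0 ≤
      tau n r s * Real.sqrt (1 - s ^ 2) ^ n := by
  have hs' : s ∈ Ioo (-1 : ℝ) 1 := ⟨by linarith [hs.1], hs.2⟩
  have hT : tau n r s ∈ Ioo (0 : ℝ) 1 := ⟨tau_pos hr n ⟨hs.1, hs.2.le⟩, (tau_mem hr n hs').2⟩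
  have hm := hr.mom_pos' n
  have hw := w_pos' n
  have hw2 := w_eq_two_hB n
  have h1 := tail_concave hr n (x := tau n r s) (G := G) hT hG (by
    rw [integral_tau_one hr n ⟨hs'.1.le, hs'.2.le⟩, ← hGe, hw2]
    have := (hB_zero_pos n).ne'
    field_simp)
  have h2 := dtau_mul_pow hr n hs'
  have hd := dtau_pos hr n hs'
  have h3 := mul_le_mul_of_nonneg_left h1 hd.le
  have e1 : dtau n r s * (2 * (tau n r s * r (tau n r s) ^ n)) =
      mom n r * (tau n r s * Real.sqrt (1 - s ^ 2) ^ n / hB n 0) := by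
    have : dtau n r s * (2 * (tau n r s * r (tau n r s) ^ n)) =
        2 * tau n r s * (dtau n r s * r (tau n r s) ^ n) := by ring
    rw [this, h2, hw2]
    have := (hB_zero_pos n).ne'
    field_simp
  rw [e1] at h3
  have e2 : dtau n r s * (((n : ℝ) + 1) * ((1 - G) * G ^ n) * mom n r) =
      mom n r * (((n : ℝ) + 1) * ((1 - G) * G ^ n) * dtau n r s) := by ring
  rw [e2] at h3
  have h4 := le_of_mul_le_mul_left h3 hm
  rwa [le_div_iff₀ (hB_zero_pos n)] at h4

end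

end Crest.Agent.R230
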