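import Crest.Agent.R230.Apriori

/-!
Explicit a-priori bounds (helper768): hazard bounds for the ball marginal, `s T'/T ≤ 1 + 1/c`,
`1 - c ≤ T`.
-/

set_option autoImplicit false

open MeasureTheory Set Filter Topology
open scoped Pointwise ENNReal

namespace Crest.Agent.R230

open Tr

lemma hasDerivAt_cs {s : ℝ} (hs : s ∈ Ioo (-1 : ℝ) 1) :
    HasDerivAt (fun x : ℝ => Real.sqrt (1 - x ^ 2)) (-s / Real.sqrt (1 - s ^ 2)) s := by
  have hc := sqrt_pos_of_mem hs
  have h1 : HasDerivAt (fun x : ℝ => 1 - x ^ 2) (-(2 * s)) s := by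
    have := ((hasDerivAt_id s).fun_pow 2).const_sub 1
    exact this.congr_deriv (by simp)
  have h2 := h1.sqrt (by nlinarith [hs.1, hs.2])
  refine h2.congr_deriv ?_
  field_simp

lemma hasDerivAt_cs_pow (k : ℕ) {s : ℝ} (hs : s ∈ Ioo (-1 : ℝ) 1) :
    HasDerivAt (fun x : ℝ => Real.sqrt (1 - x ^ 2) ^ (k + 2))
      (-((k + 2) * s * Real.sqrt (1 - s ^ 2) ^ k)) s := by
  have hc := (sqrt_pos_of_mem hs).ne'
  have h := (hasDerivAt_cs hs).fun_pow (k + 2)
  refine h.congr_deriv ?_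
  have : k + 2 - 1 = k + 1 := rfl
  rw [this, pow_succ]
  push_cast
  field_simp

lemma cs_sq {s : ℝ} (hs : s ∈ Icc (0 : ℝ) 1) : Real.sqrt (1 - s ^ 2) ^ 2 = 1 - s ^ 2 :=
  Real.sq_sqrt (by nlinarith [hs.1, hs.2])

/-- first hazard bound: `s c^{n+2} ≤ ((n+2)s² + c²) ∫_s^1 c^n` -/
theorem haz1 (n : ℕ) {s : ℝ} (hs : s ∈ Icc (0 : ℝ) 1) :
    s * Real.sqrt (1 - s ^ 2) ^ (n + 2) ≤ (1 + (n + 1) * s ^ 2) * hB n s := by
  have key : AntitoneOn (fun x => hB n x - x * Real.sqrt (1 - x ^ 2) ^ (n + 2) / (1 + (n + 1) * x ^ 2))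
      (Icc 0 1) := by
    refine antitoneOn_of_deriv_nonpos (convex_Icc _ _) ?_ ?_ ?_
    · refine ContinuousOn.sub ?_ ?_
      · exact fun x _ => (hasDerivAt_hB n x).continuousAt.continuousWithinAt
      · refine Continuous.continuousOn ?_
        refine Continuous.div (by fun_prop) (by fun_prop) (fun x => ?_)
        positivity
    · intro x hx
      rw [interior_Icc] at hx
      have hx' : x ∈ Ioo (-1 : ℝ) 1 := ⟨by linarith [hx.1], hx.2⟩
      have h1 := (hasDerivAt_id x).fun_mul (hasDerivAt_cs_pow n hx')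
      have h2 : HasDerivAt (fun x : ℝ => 1 + ((n : ℝ) + 1) * x ^ 2) (((n : ℝ) + 1) * (2 * x)) x := by
        have := (((hasDerivAt_id x).fun_pow 2).const_mul ((n : ℝ) + 1)).const_add 1
        exact this.congr_deriv (by simp)
      have h3 := (hasDerivAt_hB n x).sub (h1.fun_div h2 (by positivity))
      exact h3.differentiableAt.differentiableWithinAt
    · intro x hx
      rw [interior_Icc] at hx
      have hx' : x ∈ Ioo (-1 : ℝ) 1 := ⟨by linarith [hx.1], hx.2⟩
      have hc := sqrt_pos_of_mem hx'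
      have hc2 := cs_sq (s := x) ⟨hx.1.le, hx.2.le⟩
      have h1 := (hasDerivAt_id x).fun_mul (hasDerivAt_cs_pow n hx')
      have h2 : HasDerivAt (fun x : ℝ => 1 + ((n : ℝ) + 1) * x ^ 2) (((n : ℝ) + 1) * (2 * x)) x := by
        have := (((hasDerivAt_id x).fun_pow 2).const_mul ((n : ℝ) + 1)).const_add 1
        exact this.congr_deriv (by simp)
      have hP : (0 : ℝ) < 1 + ((n : ℝ) + 1) * x ^ 2 := by positivity
      have h3 := (hasDerivAt_hB n x).fun_sub (h1.fun_div h2 hP.ne')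
      simp only [id] at h3
      rw [h3.deriv]
      set c := Real.sqrt (1 - x ^ 2) with hcdef
      have hx2 : x ^ 2 = 1 - c ^ 2 := by linarith
      have e : -c ^ n - ((1 * c ^ (n + 2) + x * -(((n : ℝ) + 2) * x * c ^ n)) * (1 + ((n : ℝ) + 1) * x ^ 2) -
          x * c ^ (n + 2) * (((n : ℝ) + 1) * (2 * x))) / (1 + ((n : ℝ) + 1) * x ^ 2) ^ 2 =
          -(2 * c ^ (n + 2)) / (1 + ((n : ℝ) + 1) * x ^ 2) ^ 2 := by
        have e1 : x * -(((n : ℝ) + 2) * x * c ^ n) = -(((n : ℝ) + 2) * x ^ 2 * c ^ n) := by ring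
        have e2 : x * c ^ (n + 2) * (((n : ℝ) + 1) * (2 * x)) = 2 * ((n : ℝ) + 1) * x ^ 2 * c ^ (n + 2) := by ring
        rw [e1, e2]
        rw [pow_add c n 2]
        have hPe : (1 + ((n : ℝ) + 1) * x ^ 2) ≠ 0 := hP.ne'
        rw [eq_div_iff (pow_ne_zero 2 hPe), sub_mul, div_mul_cancel₀ _ (pow_ne_zero 2 hPe)]
        rw [hx2]
        ring
      rw [e]
      exact div_nonpos_of_nonpos_of_nonneg (by have := pow_pos hc (n + 2); linarith) (by positivity)
  have h := key hs (show (1 : ℝ) ∈ Icc (0 : ℝ) 1 by norm_num) hs.2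
  simp only [hB_one] at h
  have hP : (0 : ℝ) < 1 + ((n : ℝ) + 1) * s ^ 2 := by positivity
  have h0 : Real.sqrt (1 - (1 : ℝ) ^ 2) ^ (n + 2) = 0 := by simp
  rw [h0] at h
  simp only [mul_zero, zero_div, sub_zero] at h
  have h4 : s * Real.sqrt (1 - s ^ 2) ^ (n + 2) / (1 + (n + 1) * s ^ 2) ≤ hB n s := by linarith
  rw [div_le_iff₀ hP] at h4
  linarith

/-- second hazard bound (sharp at `0`): `H c^{n+2} ≤ ((n+2) s H + c) ∫_s^1 c^n`, `H = ∫_0^1 c^n` -/
theorem haz2 (n : ℕ) {s : ℝ} (hs : s ∈ Icc (0 : ℝ) 1) :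
    hB n 0 * Real.sqrt (1 - s ^ 2) ^ (n + 2) ≤
      ((n + 2) * s * hB n 0 + Real.sqrt (1 - s ^ 2)) * hB n s := by
  rcases hs.2.eq_or_lt with h1' | h1'
  · rw [h1', hB_one]; simp
  rcases hs.1.eq_or_lt with h0' | h0'
  · rw [← h0']; simp
  set H := hB n 0 with hH
  have hHpos : 0 < H := hB_zero_pos n
  have hDpos : ∀ x ∈ Icc (0 : ℝ) 1, 0 < ((n : ℝ) + 2) * x * H + Real.sqrt (1 - x ^ 2) := by
    intro x hx
    rcases hx.1.eq_or_lt with h | h
    · rw [← h]; simp
    · have : 0 < ((n : ℝ) + 2) * x * H := by positivity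
      have := Real.sqrt_nonneg (1 - x ^ 2)
      linarith
  have hcont : ContinuousOn (fun x => hB n x - H * Real.sqrt (1 - x ^ 2) ^ (n + 2) /
      (((n : ℝ) + 2) * x * H + Real.sqrt (1 - x ^ 2))) (Icc 0 1) := by
    refine ContinuousOn.sub ?_ ?_
    · exact fun x _ => (hasDerivAt_hB n x).continuousAt.continuousWithinAt
    · exact ContinuousOn.div (by fun_prop) (by fun_prop) (fun x hx => (hDpos x hx).ne')
  have hder : ∀ x ∈ Ioo (0 : ℝ) 1, HasDerivAt (fun x => hB n x - H * Real.sqrt (1 - x ^ 2) ^ (n + 2) /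
      (((n : ℝ) + 2) * x * H + Real.sqrt (1 - x ^ 2)))
      (Real.sqrt (1 - x ^ 2) ^ (n + 1) * (((n + 2) * H ^ 2 - 1) * Real.sqrt (1 - x ^ 2) - (n + 3) * H * x) /
        (((n : ℝ) + 2) * x * H + Real.sqrt (1 - x ^ 2)) ^ 2) x := by
    intro x hx
    have hx' : x ∈ Ioo (-1 : ℝ) 1 := ⟨by linarith [hx.1], hx.2⟩
    have hc := sqrt_pos_of_mem hx'
    have hc2 := cs_sq (s := x) ⟨hx.1.le, hx.2.le⟩
    have hD := hDpos x ⟨hx.1.le, hx.2.le⟩
    have h1 := (hasDerivAt_cs_pow n hx').const_mul H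
    have h2 : HasDerivAt (fun x : ℝ => ((n : ℝ) + 2) * x * H + Real.sqrt (1 - x ^ 2))
        (((n : ℝ) + 2) * H + -x / Real.sqrt (1 - x ^ 2)) x := by
      have := (((hasDerivAt_id x).const_mul ((n : ℝ) + 2)).mul_const H).fun_add (hasDerivAt_cs hx')
      exact this.congr_deriv (by simp)
    have h3 := (hasDerivAt_hB n x).fun_sub (h1.fun_div h2 hD.ne')
    refine h3.congr_deriv ?_
    set c := Real.sqrt (1 - x ^ 2) with hcdef
    have hcne := hc.ne'
    have hDne := hD.ne'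
    have hxx : x * x = 1 - c ^ 2 := by nlinarith
    rw [eq_div_iff (pow_ne_zero 2 hDne), sub_mul, div_mul_cancel₀ _ (pow_ne_zero 2 hDne)]
    rw [pow_add c n 2, pow_succ c n]
    field_simp
    ring
  have hinit : hB n 0 - H * Real.sqrt (1 - (0 : ℝ) ^ 2) ^ (n + 2) /
      (((n : ℝ) + 2) * 0 * H + Real.sqrt (1 - (0 : ℝ) ^ 2)) = 0 := by
    rw [← hH]; simp
  have hfin : hB n 1 - H * Real.sqrt (1 - (1 : ℝ) ^ 2) ^ (n + 2) /
      (((n : ℝ) + 2) * 1 * H + Real.sqrt (1 - (1 : ℝ) ^ 2)) = 0 := by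
    rw [hB_one]; simp
  have hmain : 0 ≤ hB n s - H * Real.sqrt (1 - s ^ 2) ^ (n + 2) /
      (((n : ℝ) + 2) * s * H + Real.sqrt (1 - s ^ 2)) := by
    have hcs := sqrt_pos_of_mem (s := s) ⟨by linarith, h1'⟩
    rcases le_or_gt 0 (((n + 2) * H ^ 2 - 1) * Real.sqrt (1 - s ^ 2) - (n + 3) * H * s) with hq | hq
    · have hmon : MonotoneOn (fun x => hB n x - H * Real.sqrt (1 - x ^ 2) ^ (n + 2) /
          (((n : ℝ) + 2) * x * H + Real.sqrt (1 - x ^ 2))) (Icc 0 s) := by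
        refine monotoneOn_of_deriv_nonneg (convex_Icc _ _) (hcont.mono (Icc_subset_Icc le_rfl hs.2)) ?_ ?_
        · intro x hx
          rw [interior_Icc] at hx
          exact (hder x ⟨hx.1, hx.2.trans h1'⟩).differentiableAt.differentiableWithinAt
        · intro x hx
          rw [interior_Icc] at hx
          rw [(hder x ⟨hx.1, hx.2.trans h1'⟩).deriv]
          refine div_nonneg (mul_nonneg (pow_nonneg (Real.sqrt_nonneg _) _) ?_) (by positivity)
          have hcc : Real.sqrt (1 - s ^ 2) ≤ Real.sqrt (1 - x ^ 2) :=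
            Real.sqrt_le_sqrt (by nlinarith [hx.1, hx.2])
          have hk : 0 ≤ ((n : ℝ) + 2) * H ^ 2 - 1 := by
            by_contra hcon
            push Not at hcon
            have h5 : 0 < ((n : ℝ) + 3) * H * s := by positivity
            nlinarith
          have h6 : ((n : ℝ) + 3) * H * x ≤ ((n : ℝ) + 3) * H * s :=
            mul_le_mul_of_nonneg_left hx.2.le (by positivity)
          have h7 := mul_le_mul_of_nonneg_left hcc hk
          linarith
      have h := hmon (show (0 : ℝ) ∈ Icc 0 s from ⟨le_rfl, h0'.le⟩) (show s ∈ Icc 0 s from ⟨h0'.le, le_rfl⟩)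
        h0'.le
      simp only at h
      rw [hinit] at h
      exact h
    · have hanti : AntitoneOn (fun x => hB n x - H * Real.sqrt (1 - x ^ 2) ^ (n + 2) /
          (((n : ℝ) + 2) * x * H + Real.sqrt (1 - x ^ 2))) (Icc s 1) := by
        refine antitoneOn_of_deriv_nonpos (convex_Icc _ _) (hcont.mono (Icc_subset_Icc hs.1 le_rfl)) ?_ ?_
        · intro x hx
          rw [interior_Icc] at hx
          exact (hder x ⟨h0'.trans hx.1, hx.2⟩).differentiableAt.differentiableWithinAt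
        · intro x hx
          rw [interior_Icc] at hx
          rw [(hder x ⟨h0'.trans hx.1, hx.2⟩).deriv]
          refine div_nonpos_of_nonpos_of_nonneg
            (mul_nonpos_of_nonneg_of_nonpos (pow_nonneg (Real.sqrt_nonneg _) _) ?_) (by positivity)
          have hcc : Real.sqrt (1 - x ^ 2) ≤ Real.sqrt (1 - s ^ 2) :=
            Real.sqrt_le_sqrt (by nlinarith [hx.1, hx.2])
          have h6 : ((n : ℝ) + 3) * H * s ≤ ((n : ℝ) + 3) * H * x :=
            mul_le_mul_of_nonneg_left hx.1.le (by positivity)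
          rcases le_or_gt 0 (((n : ℝ) + 2) * H ^ 2 - 1) with hk | hk
          · have h7 := mul_le_mul_of_nonneg_left hcc hk
            linarith
          · have h7 : (((n : ℝ) + 2) * H ^ 2 - 1) * Real.sqrt (1 - x ^ 2) ≤ 0 :=
              mul_nonpos_of_nonpos_of_nonneg hk.le (Real.sqrt_nonneg _)
            have h8 : 0 < ((n : ℝ) + 3) * H * s := by positivity
            linarith
      have h := hanti (show s ∈ Icc s 1 from ⟨le_rfl, hs.2⟩) (show (1 : ℝ) ∈ Icc s 1 from ⟨hs.2, le_rfl⟩)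
        hs.2
      simp only at h
      rw [hfin] at h
      exact h
  have hD := hDpos s hs
  have h5 : H * Real.sqrt (1 - s ^ 2) ^ (n + 2) / (((n : ℝ) + 2) * s * H + Real.sqrt (1 - s ^ 2)) ≤
      hB n s := by linarith
  rw [div_le_iff₀ hD] at h5
  linarith

/-- derivative of real powers of the normalised tail -/
lemma hasDerivAt_tail_rpow (n : ℕ) (p : ℝ) {s : ℝ} (hs : s ∈ Ico (0 : ℝ) 1) :
    HasDerivAt (fun x => (hB n x / hB n 0) ^ p)
      (-(p * (hB n s / hB n 0) ^ p * (Real.sqrt (1 - s ^ 2) ^ n / hB n s))) s := by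
  have hp := hB_pos n hs
  have hH := hB_zero_pos n
  have h1 := (hasDerivAt_hB n s).div_const (hB n 0)
  have h2 := h1.rpow_const (p := p) (Or.inl (by positivity))
  refine h2.congr_deriv ?_
  rw [Real.rpow_sub_one (by positivity)]
  field_simp

/-- the ball inequality behind `κ ≤ 1 + 1/c` -/
lemma ball_cone (n : ℕ) {s : ℝ} (hs : s ∈ Ioo (0 : ℝ) 1) :
    (1 - Real.sqrt (1 - s ^ 2)) * Real.sqrt (1 - s ^ 2) ^ (n + 1) ≤
      (n + 1) * hB n 0 * (s * ((hB n s / hB n 0) ^ ((n : ℝ) / (n + 1)) *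
        (1 - (hB n s / hB n 0) ^ ((1 : ℝ) / (n + 1))))) := by
  have hH := hB_zero_pos n
  set H := hB n 0 with hHdef
  have hN : (0 : ℝ) < (n : ℝ) + 1 := by positivity
  set E : ℝ → ℝ := fun x => (n + 1) * H * (x * ((hB n x / H) ^ ((n : ℝ) / (n + 1)) *
        (1 - (hB n x / H) ^ ((1 : ℝ) / (n + 1)))) / Real.sqrt (1 - x ^ 2) ^ (n + 1)) -
        (1 - Real.sqrt (1 - x ^ 2)) with hE
  have hder : ∀ x ∈ Ico (0 : ℝ) 1, HasDerivAt E ((n + 1) * H * ((hB n x / H) ^ ((n : ℝ) / (n + 1)) *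
      (1 - (hB n x / H) ^ ((1 : ℝ) / (n + 1)))) * ((1 + n * x ^ 2) -
        n * x * Real.sqrt (1 - x ^ 2) ^ (n + 2) / ((n + 1) * hB n x)) /
        Real.sqrt (1 - x ^ 2) ^ (n + 3)) x := by
    intro x hx
    have hx' : x ∈ Ioo (-1 : ℝ) 1 := ⟨by linarith [hx.1], hx.2⟩
    have hc := sqrt_pos_of_mem hx'
    have hc2 := cs_sq (s := x) ⟨hx.1, hx.2.le⟩
    have hp := hB_pos n hx
    have hA := hasDerivAt_tail_rpow n ((n : ℝ) / (n + 1)) hx
    have hB' := hasDerivAt_tail_rpow n ((1 : ℝ) / (n + 1)) hx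
    rw [← hHdef] at hA hB'
    have hAB : (hB n x / H) ^ ((n : ℝ) / (n + 1)) * (hB n x / H) ^ ((1 : ℝ) / (n + 1)) = hB n x / H := by
      rw [← Real.rpow_add (by positivity), ← add_div, div_self hN.ne', Real.rpow_one]
    have h1 := hA.fun_mul (hB'.const_sub 1)
    have h2 := (hasDerivAt_id x).fun_mul h1
    have h3 := (hasDerivAt_cs hx').fun_pow (n + 1)
    have h4 := (h2.fun_div h3 (pow_pos hc _).ne').const_mul (((n : ℝ) + 1) * H)
    have h5 := h4.fun_sub ((hasDerivAt_cs hx').const_sub 1)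
    refine h5.congr_deriv ?_
    set A := (hB n x / H) ^ ((n : ℝ) / (n + 1)) with hAdef
    set B := (hB n x / H) ^ ((1 : ℝ) / (n + 1)) with hBdef
    set c := Real.sqrt (1 - x ^ 2) with hcdef
    set h := hB n x with hhdef
    have hcne := hc.ne'
    have hhne := hp.ne'
    have hHne := hH.ne'
    have hNne := hN.ne'
    have hx2 : x ^ 2 = 1 - c ^ 2 := by linarith
    simp only [id, Nat.add_sub_cancel]
    push_cast
    have hABH : A * B * H = h := by rw [hAB]; field_simp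
    -- reduce to polynomial identity
    have key : ∀ (a b : ℝ), a * b * H = h →
        (((n : ℝ) + 1) * H) * (((1 * (a * (1 - b)) + x * (-(((n : ℝ) / (n + 1)) * a * (c ^ n / h)) * (1 - b) +
          a * -(-((1 / ((n : ℝ) + 1)) * b * (c ^ n / h))))) * c ^ (n + 1) -
          x * (a * (1 - b)) * (((n : ℝ) + 1) * c ^ n * (-x / c))) / (c ^ (n + 1)) ^ 2) - -(-x / c) =
        ((n : ℝ) + 1) * H * (a * (1 - b)) * ((1 + n * x ^ 2) - n * x * c ^ (n + 2) / ((n + 1) * h)) / c ^ (n + 3) := by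
      intro a b hab
      have e1 : x * (a * -(-((1 / ((n : ℝ) + 1)) * b * (c ^ n / h)))) = x * c ^ n / ((n + 1) * H) := by
        rw [← hab]
        have ha : a ≠ 0 := by
          rintro rfl; simp at hab; exact hhne hab.symm
        have hb : b ≠ 0 := by
          rintro rfl; simp at hab; exact hhne hab.symm
        field_simp
      have e2 : x * (-(((n : ℝ) / (n + 1)) * a * (c ^ n / h)) * (1 - b) +
          a * -(-((1 / ((n : ℝ) + 1)) * b * (c ^ n / h)))) =
          -(x * (((n : ℝ) / (n + 1)) * a * (c ^ n / h)) * (1 - b)) + x * c ^ n / ((n + 1) * H) := by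
        rw [← e1]; ring
      rw [e2]
      have hcp : c ^ (n + 1) = c ^ n * c := pow_succ c n
      have hcp2 : c ^ (n + 2) = c ^ n * c ^ 2 := pow_add c n 2
      have hcp3 : c ^ (n + 3) = c ^ n * c ^ 3 := pow_add c n 3
      rw [hcp, hcp2, hcp3]
      have hcn : c ^ n ≠ 0 := pow_ne_zero n hcne
      rw [hx2]
      field_simp
      have hxx : x ^ 2 = 1 - c ^ 2 := hx2
      ring_nf
      rw [hxx]
      ring
    exact key A B hABH
  have hmon : MonotoneOn E (Icc 0 s) := by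
    refine monotoneOn_of_deriv_nonneg (convex_Icc _ _) ?_ ?_ ?_
    · exact fun x hx => (hder x ⟨hx.1, hx.2.trans_lt hs.2⟩).continuousAt.continuousWithinAt
    · intro x hx
      rw [interior_Icc] at hx
      exact (hder x ⟨hx.1.le, hx.2.trans hs.2⟩).differentiableAt.differentiableWithinAt
    · intro x hx
      rw [interior_Icc] at hx
      have hx1 : x ∈ Ico (0 : ℝ) 1 := ⟨hx.1.le, hx.2.trans hs.2⟩
      rw [(hder x hx1).deriv]
      have hx' : x ∈ Ioo (-1 : ℝ) 1 := ⟨by linarith [hx.1], hx1.2⟩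
      have hc := sqrt_pos_of_mem hx'
      have hp := hB_pos n hx1
      have hle : hB n x ≤ H := by
        have := lB_add_hB n x
        have := lB_nonneg n ⟨hx1.1, hx1.2.le⟩
        linarith
      have hB1 : (hB n x / H) ^ ((1 : ℝ) / (n + 1)) ≤ 1 :=
        Real.rpow_le_one (by positivity) ((div_le_one hH).2 hle) (by positivity)
      have hz := haz1 n ⟨hx1.1, hx1.2.le⟩
      refine div_nonneg (mul_nonneg (mul_nonneg (by positivity)
        (mul_nonneg (Real.rpow_nonneg (by positivity) _) (by linarith))) ?_) (by positivity)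
      rw [sub_nonneg, div_le_iff₀ (by positivity)]
      have h6 : (n : ℝ) * (x * Real.sqrt (1 - x ^ 2) ^ (n + 2)) ≤ n * ((1 + (n + 1) * x ^ 2) * hB n x) :=
        mul_le_mul_of_nonneg_left hz (by positivity)
      have h7 : (n : ℝ) * ((1 + (n + 1) * x ^ 2) * hB n x) ≤ (1 + n * x ^ 2) * ((n + 1) * hB n x) := by
        nlinarith
      nlinarith
  have h := hmon (show (0 : ℝ) ∈ Icc 0 s from ⟨le_rfl, hs.1.le⟩) (show s ∈ Icc 0 s from ⟨hs.1.le, le_rfl⟩)
    hs.1.le
  have h0 : E 0 = 0 := by simp [hE]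
  rw [h0] at h
  have hc := sqrt_pos_of_mem (s := s) ⟨by linarith [hs.1], hs.2⟩
  have h8 : 1 - Real.sqrt (1 - s ^ 2) ≤ (n + 1) * H * (s * ((hB n s / H) ^ ((n : ℝ) / (n + 1)) *
        (1 - (hB n s / H) ^ ((1 : ℝ) / (n + 1)))) / Real.sqrt (1 - s ^ 2) ^ (n + 1)) := by
    have : 0 ≤ E s := h
    simp only [hE] at this
    linarith
  rw [← mul_div_assoc, le_div_iff₀ (pow_pos hc _)] at h8
  exact h8

section

variable {r : ℝ → ℝ} (hr : Prof r) (n : ℕ)
include hr

/-- `T' (1-c) c ≤ s T` -/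
theorem dtau_mul_le_tau {s : ℝ} (hs : s ∈ Ioo (0 : ℝ) 1) :
    dtau n r s * ((1 - Real.sqrt (1 - s ^ 2)) * Real.sqrt (1 - s ^ 2)) ≤ s * tau n r s := by
  have hs' : s ∈ Ioo (-1 : ℝ) 1 := ⟨by linarith [hs.1], hs.2⟩
  have hc := sqrt_pos_of_mem hs'
  have hH := hB_zero_pos n
  have hp := hB_pos n ⟨hs.1.le, hs.2⟩
  have hd := dtau_pos hr n hs'
  have hN : (0 : ℝ) < (n : ℝ) + 1 := by positivity
  set M := hB n s / hB n 0 with hM
  have hM0 : 0 < M := by positivity
  set G := M ^ ((1 : ℝ) / (n + 1)) with hG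
  have hG0 : 0 ≤ G := Real.rpow_nonneg hM0.le _
  have hGN : G ^ (n + 1) = M := by
    rw [hG, ← Real.rpow_natCast, ← Real.rpow_mul hM0.le]
    push_cast
    rw [one_div_mul_cancel hN.ne', Real.rpow_one]
  have hGn : G ^ n = M ^ ((n : ℝ) / (n + 1)) := by
    rw [hG, ← Real.rpow_natCast, ← Real.rpow_mul hM0.le]
    congr 1
    field_simp
  have h1 := kappa_cone hr n hs hG0 (by rw [hGN, hM]; field_simp)
  have h2 := ball_cone n hs
  rw [← hM, ← hG, ← hGn] at h2
  set c := Real.sqrt (1 - s ^ 2) with hcdef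
  have hcn : 0 < c ^ n := pow_pos hc n
  have h3 : dtau n r s * ((1 - c) * c ^ (n + 1)) ≤ s * (tau n r s * c ^ n) := by
    calc dtau n r s * ((1 - c) * c ^ (n + 1)) ≤ dtau n r s * ((n + 1) * hB n 0 * (s * (G ^ n * (1 - G)))) :=
          mul_le_mul_of_nonneg_left h2 hd.le
      _ = s * (((n : ℝ) + 1) * ((1 - G) * G ^ n) * dtau n r s * hB n 0) := by ring
      _ ≤ s * (tau n r s * c ^ n) := mul_le_mul_of_nonneg_left h1 hs.1.le
  have h4 : c ^ n * (dtau n r s * ((1 - c) * c)) ≤ c ^ n * (s * tau n r s) := by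
    calc c ^ n * (dtau n r s * ((1 - c) * c)) = dtau n r s * ((1 - c) * c ^ (n + 1)) := by
          rw [pow_succ]; ring
      _ ≤ _ := h3
      _ = _ := by ring
  exact le_of_mul_le_mul_left h4 hcn

/-- **`κ ≤ 1 + 1/c`**: `s T' c ≤ (1+c) T` -/
theorem kappa_le {s : ℝ} (hs : s ∈ Ioo (0 : ℝ) 1) :
    s * dtau n r s * Real.sqrt (1 - s ^ 2) ≤ (1 + Real.sqrt (1 - s ^ 2)) * tau n r s := by
  have hs' : s ∈ Ioo (-1 : ℝ) 1 := ⟨by linarith [hs.1], hs.2⟩
  have hc := sqrt_pos_of_mem hs'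
  have hc2 := cs_sq (s := s) ⟨hs.1.le, hs.2.le⟩
  have h := dtau_mul_le_tau hr n hs
  set c := Real.sqrt (1 - s ^ 2) with hcdef
  have h1 := mul_le_mul_of_nonneg_right h (show 0 ≤ 1 + c by linarith)
  have e : dtau n r s * ((1 - c) * c) * (1 + c) = s * (s * dtau n r s * c) := by
    have : (1 - c) * (1 + c) = s ^ 2 := by nlinarith
    calc dtau n r s * ((1 - c) * c) * (1 + c) = dtau n r s * c * ((1 - c) * (1 + c)) := by ring
      _ = _ := by rw [this]; ring
  rw [e] at h1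
  have h2 : s * (s * dtau n r s * c) ≤ s * ((1 + c) * tau n r s) := by linarith
  exact le_of_mul_le_mul_left h2 hs.1

/-- the cone bound `1 - c ≤ T` -/
theorem one_sub_le_tau {s : ℝ} (hs : s ∈ Icc (0 : ℝ) 1) :
    1 - Real.sqrt (1 - s ^ 2) ≤ tau n r s := by
  rcases hs.1.eq_or_lt with h0 | h0
  · rw [← h0, tau_zero hr n]; simp
  rcases hs.2.eq_or_lt with h1 | h1
  · rw [h1, tau_one hr n]; simp
  have hpos : ∀ x ∈ Icc s 1, 0 < 1 - Real.sqrt (1 - x ^ 2) := by
    intro x hx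
    have : Real.sqrt (1 - x ^ 2) < 1 := by
      rw [Real.sqrt_lt' one_pos]
      nlinarith [hx.1]
    linarith
  have hder : ∀ x ∈ Ioo s 1, HasDerivAt (fun x => tau n r x / (1 - Real.sqrt (1 - x ^ 2)))
      ((dtau n r x * (1 - Real.sqrt (1 - x ^ 2)) - tau n r x * -(-x / Real.sqrt (1 - x ^ 2))) /
        (1 - Real.sqrt (1 - x ^ 2)) ^ 2) x := by
    intro x hx
    have hx' : x ∈ Ioo (-1 : ℝ) 1 := ⟨by linarith [hx.1], hx.2⟩
    exact (hasDerivAt_tau hr n hx').fun_div ((hasDerivAt_cs hx').const_sub 1)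
      (hpos x ⟨hx.1.le, hx.2.le⟩).ne'
  have hanti : AntitoneOn (fun x => tau n r x / (1 - Real.sqrt (1 - x ^ 2))) (Icc s 1) := by
    refine antitoneOn_of_deriv_nonpos (convex_Icc _ _) ?_ ?_ ?_
    · refine ContinuousOn.div (tau_continuous hr n).continuousOn (by fun_prop) (fun x hx => (hpos x hx).ne')
    · intro x hx
      rw [interior_Icc] at hx
      exact (hder x hx).differentiableAt.differentiableWithinAt
    · intro x hx
      rw [interior_Icc] at hx
      rw [(hder x hx).deriv]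
      have hx' : x ∈ Ioo (-1 : ℝ) 1 := ⟨by linarith [hx.1], hx.2⟩
      have hc := sqrt_pos_of_mem hx'
      have h := dtau_mul_le_tau hr n (s := x) ⟨h0.trans hx.1, hx.2⟩
      refine div_nonpos_of_nonpos_of_nonneg ?_ (by positivity)
      have e : tau n r x * -(-x / Real.sqrt (1 - x ^ 2)) = x * tau n r x / Real.sqrt (1 - x ^ 2) := by
        field_simp
      rw [e, sub_nonpos, le_div_iff₀ hc]
      linarith
  have h := hanti (show s ∈ Icc s 1 from ⟨le_rfl, hs.2⟩) (show (1 : ℝ) ∈ Icc s 1 from ⟨hs.2, le_rfl⟩) hs.2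
  simp only [tau_one hr n] at h
  have e1 : (1 : ℝ) / (1 - Real.sqrt (1 - (1 : ℝ) ^ 2)) = 1 := by simp
  rw [e1, le_div_iff₀ (hpos s ⟨le_rfl, hs.2⟩)] at h
  linarith

end

end Crest.Agent.R230
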