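import Crest.Agent.R230.Apriori2

/-!
Sharper explicit bound `κ = sT'/T ≤ 1 + α s/c` for `α ≥ 1`, `α² (5N-1) ≥ (N-1)²`, `N = n+1` (helper768).
-/

set_option autoImplicit false

open MeasureTheory Set Filter Topology
open scoped Pointwise ENNReal

namespace Crest.Agent.R230

open Tr

/-- the algebraic heart -/
lemma crit_nonneg {m α c s p i : ℝ} (hm : 0 ≤ m) (hα : 1 ≤ α) (hαm : m ^ 2 ≤ α ^ 2 * (5 * m + 4))
    (hc : 0 ≤ c) (hs : 0 ≤ s) (hcs : c ^ 2 + s ^ 2 = 1) (hp : p = c + α * s) (hi : p * i = 1)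
    (hi0 : 0 ≤ i) (hi1 : i ≤ 1) :
    0 ≤ (m + 1) * (α * c + α * i + m * s) ^ 2 -
      m * ((m + 2) * s * (α * c + α * i + m * s) +
        (-(α * s * c) - α * c * (α * c - s) * i ^ 2 + m * c ^ 2)) := by
  have hs2 : s ^ 2 = 1 - c ^ 2 := by linarith
  have e0 : (m + 1) * (α * c + α * i + m * s) ^ 2 -
      m * ((m + 2) * s * (α * c + α * i + m * s) +
        (-(α * s * c) - α * c * (α * c - s) * i ^ 2 + m * c ^ 2)) =
      (m + 1) * α ^ 2 * (c + i) ^ 2 + m ^ 2 * (α * s * (c + i) - 1) +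
        m * α * c * (s + (α * c - s) * i ^ 2) := by
    linear_combination (-m ^ 2) * hcs
  have e1 : α * s * (c + i) - 1 = c * (p - c - i) := by
    have : α * s = p - c := by linarith
    rw [this]
    linear_combination hi
  have e2 : s + (α * c - s) * i ^ 2 = s * (1 + α ^ 2) * (1 - i ^ 2) + α * (i + c - p) := by
    have hαs : α * s = p - c := by linarith
    have : c * i ^ 2 - i = -(α * s * i ^ 2) := by
      rw [hαs]
      linear_combination i * hi
    have h2 : α * (i + c - p) = α * i - α ^ 2 * s := by rw [hp]; ring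
    rw [h2]
    linear_combination α * this
  rw [e0, e1]
  have hi2 : 0 ≤ 1 - i ^ 2 := by nlinarith
  rcases le_or_gt 0 (p - c - i) with h | h
  · have h1 : 0 ≤ (m + 1) * α ^ 2 * (c + i) ^ 2 := by positivity
    have h2 : 0 ≤ m ^ 2 * (c * (p - c - i)) := by positivity
    have h3 : 0 ≤ s + (α * c - s) * i ^ 2 := by
      have : s + (α * c - s) * i ^ 2 = s * (1 - i ^ 2) + α * c * i ^ 2 := by ring
      rw [this]
      have : 0 ≤ α * c * i ^ 2 := by positivity
      have := mul_nonneg hs hi2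
      linarith
    have h4 : 0 ≤ m * α * c * (s + (α * c - s) * i ^ 2) :=
      mul_nonneg (by positivity) h3
    linarith
  · rw [e2]
    have h1 : α ^ 2 * (5 * m + 4) * (c * (p - c - i)) ≤ m ^ 2 * (c * (p - c - i)) :=
      mul_le_mul_of_nonpos_right hαm (mul_nonpos_of_nonneg_of_nonpos hc h.le)
    have e3 : (m + 1) * α ^ 2 * (c + i) ^ 2 + α ^ 2 * (5 * m + 4) * (c * (p - c - i)) +
        m * α * c * (s * (1 + α ^ 2) * (1 - i ^ 2) + α * (i + c - p)) =
        (m + 1) * α ^ 2 * ((c - i) ^ 2 + 4 * (α * s) * c) + m * α * (1 + α ^ 2) * s * c * (1 - i ^ 2) := by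
      have hαs : α * s = p - c := by linarith
      rw [hαs]
      ring
    have h5 : 0 ≤ (m + 1) * α ^ 2 * ((c - i) ^ 2 + 4 * (α * s) * c) := by positivity
    have h6 : 0 ≤ m * α * (1 + α ^ 2) * s * c * (1 - i ^ 2) :=
      mul_nonneg (by positivity) hi2
    linarith

/-- third hazard bound: `n c^{n+2} ≤ (n+1) (α c + α/(c+αs) + n s) ∫_s^1 c^n` -/
theorem haz3 (n : ℕ) {α : ℝ} (hα : 1 ≤ α) (hαn : (n : ℝ) ^ 2 ≤ α ^ 2 * (5 * n + 4))
    {s : ℝ} (hs : s ∈ Icc (0 : ℝ) 1) :
    n * Real.sqrt (1 - s ^ 2) ^ (n + 2) ≤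
      (n + 1) * (α * Real.sqrt (1 - s ^ 2) + α / (Real.sqrt (1 - s ^ 2) + α * s) + n * s) * hB n s := by
  have hα0 : 0 < α := by linarith
  have hn1 : (0 : ℝ) < (n : ℝ) + 1 := by positivity
  have hppos : ∀ x ∈ Icc (0 : ℝ) 1, 1 ≤ Real.sqrt (1 - x ^ 2) + α * x := by
    intro x hx
    have h1 := cs_sq hx
    have h2 := Real.sqrt_nonneg (1 - x ^ 2)
    set c := Real.sqrt (1 - x ^ 2)
    have h3 : 1 ≤ c + x := by
      by_contra hcon
      push Not at hcon
      nlinarith [mul_nonneg h2 hx.1, mul_nonneg (add_nonneg h2 hx.1) (sub_nonneg.2 hcon.le)]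
    nlinarith [hx.1]
  have hQpos : ∀ x ∈ Icc (0 : ℝ) 1, 0 < α * Real.sqrt (1 - x ^ 2) +
      α / (Real.sqrt (1 - x ^ 2) + α * x) + n * x := by
    intro x hx
    have h1 := hppos x hx
    have h2 := Real.sqrt_nonneg (1 - x ^ 2)
    have h3 : 0 < α / (Real.sqrt (1 - x ^ 2) + α * x) := div_pos hα0 (by linarith)
    have h4 : 0 ≤ (n : ℝ) * x := mul_nonneg (by positivity) hx.1
    have h5 : 0 ≤ α * Real.sqrt (1 - x ^ 2) := by positivity
    linarith
  have key : AntitoneOn (fun x => hB n x - (n / (n + 1)) * (Real.sqrt (1 - x ^ 2) ^ (n + 2) /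
      (α * Real.sqrt (1 - x ^ 2) + α / (Real.sqrt (1 - x ^ 2) + α * x) + n * x))) (Icc 0 1) := by
    have hder : ∀ x ∈ Ioo (0 : ℝ) 1, HasDerivAt (fun x => hB n x - (n / (n + 1)) *
        (Real.sqrt (1 - x ^ 2) ^ (n + 2) /
        (α * Real.sqrt (1 - x ^ 2) + α / (Real.sqrt (1 - x ^ 2) + α * x) + n * x)))
        (-(Real.sqrt (1 - x ^ 2) ^ n * (((n : ℝ) + 1) *
          (α * Real.sqrt (1 - x ^ 2) + α * (1 / (Real.sqrt (1 - x ^ 2) + α * x)) + n * x) ^ 2 -
          n * ((n + 2) * x * (α * Real.sqrt (1 - x ^ 2) + α * (1 / (Real.sqrt (1 - x ^ 2) + α * x)) + n * x) +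
          (-(α * x * Real.sqrt (1 - x ^ 2)) - α * Real.sqrt (1 - x ^ 2) *
            (α * Real.sqrt (1 - x ^ 2) - x) * (1 / (Real.sqrt (1 - x ^ 2) + α * x)) ^ 2 +
            n * Real.sqrt (1 - x ^ 2) ^ 2))) / (((n : ℝ) + 1) *
          (α * Real.sqrt (1 - x ^ 2) + α / (Real.sqrt (1 - x ^ 2) + α * x) + n * x) ^ 2))) x := by
      intro x hx
      have hx' : x ∈ Ioo (-1 : ℝ) 1 := ⟨by linarith [hx.1], hx.2⟩
      have hxI : x ∈ Icc (0 : ℝ) 1 := ⟨hx.1.le, hx.2.le⟩
      have hc := sqrt_pos_of_mem hx'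
      have hp1 := hppos x hxI
      have hQ := hQpos x hxI
      have h1 := hasDerivAt_cs_pow n hx'
      have hp' : HasDerivAt (fun x : ℝ => Real.sqrt (1 - x ^ 2) + α * x)
          (-x / Real.sqrt (1 - x ^ 2) + α) x := by
        have := (hasDerivAt_cs hx').fun_add ((hasDerivAt_id x).const_mul α)
        exact this.congr_deriv (by simp)
      have hQ' := (((hasDerivAt_cs hx').const_mul α).fun_add
        ((hasDerivAt_const x α).fun_div hp' (by linarith : Real.sqrt (1 - x ^ 2) + α * x ≠ 0))).fun_add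
        ((hasDerivAt_id x).const_mul (n : ℝ))
      have h3 := (hasDerivAt_hB n x).fun_sub ((h1.fun_div hQ' hQ.ne').const_mul ((n : ℝ) / (n + 1)))
      refine h3.congr_deriv ?_
      simp only [id]
      set c := Real.sqrt (1 - x ^ 2) with hcdef
      have hcne := hc.ne'
      set p := c + α * x with hpdef
      have hpne : p ≠ 0 := by linarith
      set Q := α * c + α / p + n * x with hQdef
      have hQe : α * c + α * (1 / p) + n * x = Q := by rw [hQdef]; ring
      rw [hQe]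
      have hQne : Q ≠ 0 := hQ.ne'
      have e1 : c ^ (n + 2) = c ^ n * c ^ 2 := pow_add c n 2
      rw [e1]
      field_simp
      ring
    refine antitoneOn_of_deriv_nonpos (convex_Icc _ _) ?_ ?_ ?_
    · refine ContinuousOn.sub (fun x _ => (hasDerivAt_hB n x).continuousAt.continuousWithinAt) ?_
      refine ContinuousOn.mul continuousOn_const ?_
      refine ContinuousOn.div (by fun_prop) ?_ (fun x hx => (hQpos x hx).ne')
      refine ContinuousOn.add (ContinuousOn.add (by fun_prop) ?_) (by fun_prop)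
      exact ContinuousOn.div (by fun_prop) (by fun_prop) (fun x hx => by
        have := hppos x hx
        linarith)
    · intro x hx
      rw [interior_Icc] at hx
      exact (hder x hx).differentiableAt.differentiableWithinAt
    · intro x hx
      rw [interior_Icc] at hx
      rw [(hder x hx).deriv]
      have hx' : x ∈ Ioo (-1 : ℝ) 1 := ⟨by linarith [hx.1], hx.2⟩
      have hxI : x ∈ Icc (0 : ℝ) 1 := ⟨hx.1.le, hx.2.le⟩
      have hc := sqrt_pos_of_mem hx'
      have hp1 := hppos x hxI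
      have hc2 := cs_sq hxI
      have hcr := crit_nonneg (m := n) (α := α) (c := Real.sqrt (1 - x ^ 2)) (s := x)
        (p := Real.sqrt (1 - x ^ 2) + α * x) (i := 1 / (Real.sqrt (1 - x ^ 2) + α * x))
        (by positivity) hα hαn hc.le hx.1.le (by linarith) rfl
        (mul_one_div_cancel (by linarith)) (by positivity) (by
          rw [div_le_one (by linarith)]; exact hp1)
      rw [neg_nonpos]
      exact div_nonneg (mul_nonneg (by positivity) hcr) (by positivity)
  have h := key hs (show (1 : ℝ) ∈ Icc (0 : ℝ) 1 by norm_num) hs.2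
  simp only [hB_one] at h
  have h0 : Real.sqrt (1 - (1 : ℝ) ^ 2) ^ (n + 2) = 0 := by simp
  rw [h0, zero_div, mul_zero, sub_zero] at h
  have hQ := hQpos s hs
  have h4 : (n / (n + 1)) * (Real.sqrt (1 - s ^ 2) ^ (n + 2) /
      (α * Real.sqrt (1 - s ^ 2) + α / (Real.sqrt (1 - s ^ 2) + α * s) + n * s)) ≤ hB n s := by linarith
  rw [div_mul_div_comm, div_le_iff₀ (by positivity)] at h4
  linarith

/-- the ball inequality behind `κ ≤ 1 + α s/c` -/
lemma ball_cone' (n : ℕ) {α : ℝ} (hα : 1 ≤ α) (hαn : (n : ℝ) ^ 2 ≤ α ^ 2 * (5 * n + 4))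
    {s : ℝ} (hs : s ∈ Ioo (0 : ℝ) 1) :
    s * Real.sqrt (1 - s ^ 2) ^ (n + 1) ≤
      (n + 1) * hB n 0 * ((Real.sqrt (1 - s ^ 2) + α * s) * ((hB n s / hB n 0) ^ ((n : ℝ) / (n + 1)) *
        (1 - (hB n s / hB n 0) ^ ((1 : ℝ) / (n + 1))))) := by
  have hH := hB_zero_pos n
  set H := hB n 0 with hHdef
  have hN : (0 : ℝ) < (n : ℝ) + 1 := by positivity
  have hα0 : 0 < α := by linarith
  set E : ℝ → ℝ := fun x => Real.exp (α * Real.arcsin x) * ((n + 1) * H *
        ((Real.sqrt (1 - x ^ 2) + α * x) * ((hB n x / H) ^ ((n : ℝ) / (n + 1)) *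
        (1 - (hB n x / H) ^ ((1 : ℝ) / (n + 1)))) / Real.sqrt (1 - x ^ 2) ^ (n + 1)) - x) with hE
  have hder : ∀ x ∈ Ico (0 : ℝ) 1, HasDerivAt E (Real.exp (α * Real.arcsin x) * ((n + 1) * H *
      ((hB n x / H) ^ ((n : ℝ) / (n + 1)) * (1 - (hB n x / H) ^ ((1 : ℝ) / (n + 1)))) *
        ((Real.sqrt (1 - x ^ 2) + α * x) * ((α * Real.sqrt (1 - x ^ 2) +
          α / (Real.sqrt (1 - x ^ 2) + α * x) + n * x) -
          n * Real.sqrt (1 - x ^ 2) ^ (n + 2) / ((n + 1) * hB n x))) /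
        Real.sqrt (1 - x ^ 2) ^ (n + 3))) x := by
    intro x hx
    have hx' : x ∈ Ioo (-1 : ℝ) 1 := ⟨by linarith [hx.1], hx.2⟩
    have hc := sqrt_pos_of_mem hx'
    have hc2 := cs_sq (s := x) ⟨hx.1, hx.2.le⟩
    have hp := hB_pos n hx
    have hA := hasDerivAt_tail_rpow n ((n : ℝ) / (n + 1)) hx
    have hB' := hasDerivAt_tail_rpow n ((1 : ℝ) / (n + 1)) hx
    rw [← hHdef] at hA hB'
    have hAB : (hB n x / H) ^ ((n : ℝ) / (n + 1)) * (hB n x / H) ^ ((1 : ℝ) / (n + 1)) = hB n x / H := by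
      rw [← Real.rpow_add (by positivity), ← add_div, div_self hN.ne', Real.rpow_one]
    have h1 := hA.fun_mul (hB'.const_sub 1)
    have hp' : HasDerivAt (fun x : ℝ => Real.sqrt (1 - x ^ 2) + α * x)
        (-x / Real.sqrt (1 - x ^ 2) + α) x := by
      have := (hasDerivAt_cs hx').fun_add ((hasDerivAt_id x).const_mul α)
      exact this.congr_deriv (by simp)
    have h2 := hp'.fun_mul h1
    have h3 := (hasDerivAt_cs hx').fun_pow (n + 1)
    have h4 := (h2.fun_div h3 (pow_pos hc _).ne').const_mul (((n : ℝ) + 1) * H)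
    have h5 := h4.fun_sub (hasDerivAt_id x)
    have h6 := (((Real.hasDerivAt_arcsin hx'.1.ne' hx'.2.ne).const_mul α).exp).fun_mul h5
    refine h6.congr_deriv ?_
    set A := (hB n x / H) ^ ((n : ℝ) / (n + 1)) with hAdef
    set B := (hB n x / H) ^ ((1 : ℝ) / (n + 1)) with hBdef
    set c := Real.sqrt (1 - x ^ 2) with hcdef
    set h := hB n x with hhdef
    set e := Real.exp (α * Real.arcsin x) with hedef
    have hcne := hc.ne'
    have hhne := hp.ne'
    have hHne := hH.ne'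
    have hNne := hN.ne'
    have hx2 : x ^ 2 = 1 - c ^ 2 := by linarith
    have hppos : 0 < c + α * x := by
      have : 0 ≤ α * x := mul_nonneg hα0.le hx.1
      linarith
    simp only [id, Nat.add_sub_cancel]
    push_cast
    have hABH : A * B * H = h := by rw [hAB]; field_simp
    have key : ∀ (a b : ℝ), a * b * H = h →
        e * (α * (1 / c)) * (((n : ℝ) + 1) * H * ((c + α * x) * (a * (1 - b)) / c ^ (n + 1)) - x) +
        e * ((((n : ℝ) + 1) * H) * ((((-x / c + α) * (a * (1 - b)) +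
          (c + α * x) * (-(((n : ℝ) / (n + 1)) * a * (c ^ n / h)) * (1 - b) +
          a * -(-((1 / ((n : ℝ) + 1)) * b * (c ^ n / h))))) * c ^ (n + 1) -
          (c + α * x) * (a * (1 - b)) * (((n : ℝ) + 1) * c ^ n * (-x / c))) / (c ^ (n + 1)) ^ 2) - 1) =
        e * (((n : ℝ) + 1) * H * (a * (1 - b)) * ((c + α * x) * ((α * c + α / (c + α * x) + n * x) -
          n * c ^ (n + 2) / ((n + 1) * h))) / c ^ (n + 3)) := by
      intro a b hab
      have e1 : (c + α * x) * (a * -(-((1 / ((n : ℝ) + 1)) * b * (c ^ n / h)))) =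
          (c + α * x) * c ^ n / ((n + 1) * H) := by
        rw [← hab]
        have ha : a ≠ 0 := by
          rintro rfl; simp at hab; exact hhne hab.symm
        have hb : b ≠ 0 := by
          rintro rfl; simp at hab; exact hhne hab.symm
        field_simp
      have e2 : (c + α * x) * (-(((n : ℝ) / (n + 1)) * a * (c ^ n / h)) * (1 - b) +
          a * -(-((1 / ((n : ℝ) + 1)) * b * (c ^ n / h)))) =
          -((c + α * x) * (((n : ℝ) / (n + 1)) * a * (c ^ n / h)) * (1 - b)) +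
            (c + α * x) * c ^ n / ((n + 1) * H) := by
        rw [← e1]; ring
      rw [e2]
      have hcp : c ^ (n + 1) = c ^ n * c := pow_succ c n
      have hcp2 : c ^ (n + 2) = c ^ n * c ^ 2 := pow_add c n 2
      have hcp3 : c ^ (n + 3) = c ^ n * c ^ 3 := pow_add c n 3
      rw [hcp, hcp2, hcp3]
      have hcn : c ^ n ≠ 0 := pow_ne_zero n hcne
      have hpne := hppos.ne'
      field_simp
      ring_nf
      rw [hx2]
      ring
    exact key A B hABH
  have hmon : MonotoneOn E (Icc 0 s) := by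
    refine monotoneOn_of_deriv_nonneg (convex_Icc _ _) ?_ ?_ ?_
    · exact fun x hx => (hder x ⟨hx.1, hx.2.trans_lt hs.2⟩).continuousAt.continuousWithinAt
    · intro x hx
      rw [interior_Icc] at hx
      exact (hder x ⟨hx.1.le, hx.2.trans hs.2⟩).differentiableAt.differentiableWithinAt
    · intro x hx
      rw [interior_Icc] at hx
      have hx1 : x ∈ Ico (0 : ℝ) 1 := ⟨hx.1.le, hx.2.trans hs.2⟩
      rw [(hder x hx1).deriv]
      have hx' : x ∈ Ioo (-1 : ℝ) 1 := ⟨by linarith [hx.1], hx1.2⟩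
      have hc := sqrt_pos_of_mem hx'
      have hp := hB_pos n hx1
      have hle : hB n x ≤ H := by
        have := lB_add_hB n x
        have := lB_nonneg n ⟨hx1.1, hx1.2.le⟩
        linarith
      have hB1 : (hB n x / H) ^ ((1 : ℝ) / (n + 1)) ≤ 1 :=
        Real.rpow_le_one (by positivity) ((div_le_one hH).2 hle) (by positivity)
      have hz := haz3 n hα hαn ⟨hx1.1, hx1.2.le⟩
      have hppos : 0 < Real.sqrt (1 - x ^ 2) + α * x := by
        have : 0 ≤ α * x := mul_nonneg hα0.le hx1.1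
        linarith
      refine mul_nonneg (Real.exp_pos _).le (div_nonneg (mul_nonneg (mul_nonneg (by positivity)
        (mul_nonneg (Real.rpow_nonneg (by positivity) _) (by linarith)))
        (mul_nonneg hppos.le ?_)) (by positivity))
      rw [sub_nonneg, div_le_iff₀ (by positivity)]
      linarith
  have h := hmon (show (0 : ℝ) ∈ Icc 0 s from ⟨le_rfl, hs.1.le⟩) (show s ∈ Icc 0 s from ⟨hs.1.le, le_rfl⟩)
    hs.1.le
  have h0 : E 0 = 0 := by
    simp only [hE]
    rw [← hHdef, div_self hH.ne']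
    simp
  rw [h0] at h
  have hc := sqrt_pos_of_mem (s := s) ⟨by linarith [hs.1], hs.2⟩
  have h8 : s ≤ (n + 1) * H * ((Real.sqrt (1 - s ^ 2) + α * s) * ((hB n s / H) ^ ((n : ℝ) / (n + 1)) *
        (1 - (hB n s / H) ^ ((1 : ℝ) / (n + 1)))) / Real.sqrt (1 - s ^ 2) ^ (n + 1)) := by
    simp only [hE] at h
    have := nonneg_of_mul_nonneg_right h (Real.exp_pos _)
    linarith
  rw [← mul_div_assoc, le_div_iff₀ (pow_pos hc _)] at h8
  exact h8

/-- **`κ ≤ 1 + α s/c`**: `s T' c ≤ (c + α s) T`, for `α ≥ 1`, `α² (5n+4) ≥ n²` (`n = N-1`) -/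
theorem kappa_le' {r : ℝ → ℝ} (hr : Prof r) (n : ℕ) {α : ℝ} (hα : 1 ≤ α)
    (hαn : (n : ℝ) ^ 2 ≤ α ^ 2 * (5 * n + 4)) {s : ℝ} (hs : s ∈ Ioo (0 : ℝ) 1) :
    s * dtau n r s * Real.sqrt (1 - s ^ 2) ≤ (Real.sqrt (1 - s ^ 2) + α * s) * tau n r s := by
  have hs' : s ∈ Ioo (-1 : ℝ) 1 := ⟨by linarith [hs.1], hs.2⟩
  have hc := sqrt_pos_of_mem hs'
  have hp := hB_pos n ⟨hs.1.le, hs.2⟩
  have hH := hB_zero_pos n
  have hd := dtau_pos hr n hs'
  have hN : (0 : ℝ) < (n : ℝ) + 1 := by positivity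
  set M := hB n s / hB n 0 with hM
  have hM0 : 0 < M := by positivity
  set G := M ^ ((1 : ℝ) / (n + 1)) with hG
  have hG0 : 0 ≤ G := Real.rpow_nonneg hM0.le _
  have hGN : G ^ (n + 1) = M := by
    rw [hG, ← Real.rpow_natCast, ← Real.rpow_mul hM0.le]
    push_cast
    rw [one_div_mul_cancel hN.ne', Real.rpow_one]
  have hGn : G ^ n = M ^ ((n : ℝ) / (n + 1)) := by
    rw [hG, ← Real.rpow_natCast, ← Real.rpow_mul hM0.le]
    congr 1
    field_simp
  have h1 := kappa_cone hr n hs hG0 (by rw [hGN, hM]; field_simp)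
  have h2 := ball_cone' n hα hαn hs
  rw [← hM, ← hG, ← hGn] at h2
  set c := Real.sqrt (1 - s ^ 2) with hcdef
  have hcn : 0 < c ^ n := pow_pos hc n
  have hps : 0 ≤ c + α * s := by
    have : 0 ≤ α * s := mul_nonneg (by linarith) hs.1.le
    linarith
  have h3 : dtau n r s * (s * c ^ (n + 1)) ≤ (c + α * s) * (tau n r s * c ^ n) := by
    calc dtau n r s * (s * c ^ (n + 1)) ≤
          dtau n r s * ((n + 1) * hB n 0 * ((c + α * s) * (G ^ n * (1 - G)))) :=
          mul_le_mul_of_nonneg_left h2 hd.le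
      _ = (c + α * s) * (((n : ℝ) + 1) * ((1 - G) * G ^ n) * dtau n r s * hB n 0) := by ring
      _ ≤ (c + α * s) * (tau n r s * c ^ n) := mul_le_mul_of_nonneg_left h1 hps
  have h4 : c ^ n * (s * dtau n r s * c) ≤ c ^ n * ((c + α * s) * tau n r s) := by
    calc c ^ n * (s * dtau n r s * c) = dtau n r s * (s * c ^ (n + 1)) := by
          rw [pow_succ]; ring
      _ ≤ _ := h3
      _ = _ := by ring
  exact le_of_mul_le_mul_left h4 hcn

end Crest.Agent.R230
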