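import Crest.Agent.R230.Basic

/-!
# Row 230, part J: ball values (first part, no shadows)
-/

set_option autoImplicit false

open MeasureTheory Set
open scoped Pointwise ENNReal

namespace Crest.Agent.R230

variable {n : ℕ}

theorem κ_pos (n : ℕ) : 0 < κ n := by
  unfold κ vol
  exact ENNReal.toReal_pos (Metric.measure_ball_pos volume _ one_pos).ne' measure_ball_lt_top.ne

theorem CB_ball (n : ℕ) : CB (Metric.closedBall (0 : E n) 1) := by
  refine ⟨isCompact_closedBall _ _, convex_closedBall _ _, ⟨0, ?_⟩⟩
  exact interior_mono Metric.ball_subset_closedBall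
    (by rw [Metric.isOpen_ball.interior_eq]; exact Metric.mem_ball_self one_pos)

theorem vol_closedBall (n : ℕ) : vol (Metric.closedBall (0 : E n) 1) = κ n := by
  unfold κ vol
  rw [Measure.addHaar_unitClosedBall_eq_addHaar_unitBall]

theorem vol_closedBall_radius (n : ℕ) {r : ℝ} (hr : 0 ≤ r) :
    vol (Metric.closedBall (0 : E n) r) = r ^ n * κ n := by
  rw [← vol_closedBall]
  have h : Metric.closedBall (0 : E n) r = r • Metric.closedBall (0 : E n) 1 := by
    rw [smul_unitClosedBall_of_nonneg hr]
  rw [h, vol_smul, abs_of_nonneg hr]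

end Crest.Agent.R230
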