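import Mathlib

/-! Row 230: shadows (orthogonal projections along a unit vector) of convex bodies as derivatives of
the volume of `K ∩ (K + t u)`. -/

set_option autoImplicit false
set_option linter.unusedSectionVars false
open MeasureTheory Set Filter Topology
open scoped ENNReal Pointwise

namespace Crest.Agent.R230

variable {V : Type*} [NormedAddCommGroup V] [InnerProductSpace ℝ V] [MeasurableSpace V]
  [BorelSpace V] [FiniteDimensional ℝ V]

/-- Coordinates `τ u + y`, `y ⟂ u`. -/
def fib (u : V) (p : ℝ × (ℝ ∙ u)ᗮ) : V := p.1 • u + (p.2 : V)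

theorem continuous_fib (u : V) : Continuous (fib u) := by
  unfold fib; fun_prop

theorem measurePreserving_fib {u : V} (hu : ‖u‖ = 1) :
    MeasurePreserving (fib u) ((volume : Measure ℝ).prod (volume : Measure (ℝ ∙ u)ᗮ))
      (volume : Measure V) := by
  have h1 := (ℝ ∙ u).measurePreserving_measurableEquivProd (0 : V)
  rw [InnerProductSpace.euclideanHausdorffMeasure_eq_volume] at h1
  have h2 := h1.symm
  have h3 := (LinearIsometryEquiv.toSpanUnitSingleton (𝕜 := ℝ) u hu).measurePreserving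
  have h4 := h3.prod (MeasurePreserving.id (volume : Measure (ℝ ∙ u)ᗮ))
  have h5 := h2.comp h4
  have h6 : fib u = ⇑((ℝ ∙ u).measurableEquivProd (0 : V)).symm ∘
      Prod.map (⇑(LinearIsometryEquiv.toSpanUnitSingleton (𝕜 := ℝ) u hu)) id := by
    funext p
    simp [fib, Submodule.measurableEquivProd_symm_apply]
  rw [h6]
  exact h5

/-- The set of base points of the lines in direction `u` meeting `K`. -/
def base (u : V) (K : Set V) : Set (ℝ ∙ u)ᗮ := (ℝ ∙ u)ᗮ.orthogonalProjectionOnto '' K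

theorem fib_proj {u : V} (hu : ‖u‖ = 1) (x : V) :
    fib u (inner ℝ x u, (ℝ ∙ u)ᗮ.orthogonalProjectionOnto x) = x := by
  have h := (ℝ ∙ u).starProjection_add_starProjection_orthogonal x
  rw [Submodule.starProjection_unit_singleton ℝ hu] at h
  unfold fib
  rw [real_inner_comm]
  exact h

theorem mem_base_iff {u : V} (hu : ‖u‖ = 1) {K : Set V} {y : (ℝ ∙ u)ᗮ} :
    y ∈ base u K ↔ ∃ τ : ℝ, fib u (τ, y) ∈ K := by
  constructor
  · rintro ⟨x, hx, rfl⟩
    exact ⟨inner ℝ x u, by rwa [fib_proj hu]⟩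
  · rintro ⟨τ, hτ⟩
    refine ⟨_, hτ, ?_⟩
    unfold fib
    simp only [map_add, map_smul]
    have h1 : (ℝ ∙ u)ᗮ.orthogonalProjectionOnto u = 0 := by
      rw [Submodule.orthogonalProjectionOnto_eq_zero_iff]
      rw [Submodule.orthogonal_orthogonal]
      exact Submodule.mem_span_singleton_self u
    rw [h1, smul_zero, zero_add, Submodule.orthogonalProjectionOnto_mem_subspace_eq_self]

theorem muHE_shadow {m : ℕ} (hm : Module.finrank ℝ V = m + 1) {u : V} (hu : ‖u‖ = 1) (K : Set V) :
    (μHE[m] : Measure V) ((fun y => y - inner ℝ y u • u) '' K) = volume (base u K) := by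
  have hfr : Module.finrank ℝ (ℝ ∙ u)ᗮ = m := by
    have : Fact (Module.finrank ℝ V = m + 1) := ⟨hm⟩
    exact Submodule.finrank_orthogonal_span_singleton (by rintro rfl; simp at hu)
  have h1 : (fun y => y - inner ℝ y u • u) '' K = Subtype.val '' (base u K) := by
    unfold base
    rw [Set.image_image]
    apply Set.image_congr
    intro x _
    have h := (ℝ ∙ u).starProjection_add_starProjection_orthogonal x
    rw [Submodule.starProjection_unit_singleton ℝ hu] at h
    rw [real_inner_comm]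
    rw [Submodule.coe_orthogonalProjectionOnto_apply]
    exact sub_eq_iff_eq_add'.2 h.symm
  rw [h1, isometry_subtype_coe.euclideanHausdorffMeasure_image]
  conv_lhs => rw [← hfr]
  rw [InnerProductSpace.euclideanHausdorffMeasure_eq_volume]

/-- The translate overlap `K ∩ (K + t u)`. -/
def lap (K : Set V) (u : V) (t : ℝ) : Set V := K ∩ {x | x - t • u ∈ K}

theorem isCompact_lap {K : Set V} (hK : IsCompact K) (u : V) (t : ℝ) : IsCompact (lap K u t) := by
  apply hK.inter_right
  exact hK.isClosed.preimage (continuous_id.sub continuous_const)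

/-- Fibres of a compact convex set. -/
theorem fibre_convex {K : Set V} (hc : Convex ℝ K) (u : V) (y : (ℝ ∙ u)ᗮ) {a b τ : ℝ}
    (ha : fib u (a, y) ∈ K) (hb : fib u (b, y) ∈ K) (h1 : a ≤ τ) (h2 : τ ≤ b) :
    fib u (τ, y) ∈ K := by
  rcases h1.eq_or_lt with h | h
  · rwa [← h]
  have hab : a < b := h.trans_le h2
  have key := hc ha hb (a := (b - τ) / (b - a)) (b := (τ - a) / (b - a))
    (div_nonneg (by linarith) (by linarith)) (div_nonneg (by linarith) (by linarith))
    (by rw [← add_div]; rw [div_eq_one_iff_eq (by linarith)]; ring)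
  have : ((b - τ) / (b - a)) • fib u (a, y) + ((τ - a) / (b - a)) • fib u (b, y) =
      fib u (τ, y) := by
    unfold fib
    simp only [smul_add, smul_smul]
    have e1 : (b - τ) / (b - a) * a + (τ - a) / (b - a) * b = τ := by
      field_simp [sub_ne_zero.2 hab.ne']
      ring
    have e2 : (b - τ) / (b - a) + (τ - a) / (b - a) = 1 := by
      rw [← add_div]; rw [div_eq_one_iff_eq (by linarith)]; ring
    calc _ = ((b - τ) / (b - a) * a + (τ - a) / (b - a) * b) • u +
        ((b - τ) / (b - a) + (τ - a) / (b - a)) • (y : V) := by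
          simp only [add_smul]; abel
      _ = _ := by rw [e1, e2, one_smul]
  rwa [this] at key

theorem isCompact_fibre {K : Set V} (hK : IsCompact K) {u : V} (hu : ‖u‖ = 1) (y : (ℝ ∙ u)ᗮ) :
    IsCompact {τ : ℝ | fib u (τ, y) ∈ K} := by
  rw [Metric.isCompact_iff_isClosed_bounded]
  constructor
  · exact hK.isClosed.preimage ((continuous_fib u).comp (continuous_id.prodMk continuous_const))
  · obtain ⟨R, hR⟩ := hK.isBounded.exists_norm_le
    rw [isBounded_iff_forall_norm_le]
    refine ⟨R + ‖(y : V)‖, fun τ hτ => ?_⟩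
    have h1 := hR _ hτ
    have h2 : τ • u = fib u (τ, y) - (y : V) := by unfold fib; simp
    calc ‖τ‖ = ‖τ • u‖ := by rw [norm_smul, hu, mul_one]
      _ ≤ ‖fib u (τ, y)‖ + ‖(y : V)‖ := by rw [h2]; exact norm_sub_le _ _
      _ ≤ R + ‖(y : V)‖ := by linarith

theorem fib_sub (u : V) (y : (ℝ ∙ u)ᗮ) (τ t : ℝ) :
    fib u (τ, y) - t • u = fib u (τ - t, y) := by
  unfold fib; simp only [sub_smul]; abel

/-- The lost part `K \ (K + t u)` is measured by lengths of fibres. -/
theorem volume_diff_eq {K : Set V} (hK : IsCompact K) {u : V} (hu : ‖u‖ = 1) (t : ℝ) :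
    volume (K \ lap K u t) =
      ∫⁻ y : (ℝ ∙ u)ᗮ, volume {τ : ℝ | fib u (τ, y) ∈ K ∧ fib u (τ - t, y) ∉ K} := by
  have hD : MeasurableSet (K \ lap K u t) :=
    hK.measurableSet.diff (isCompact_lap hK u t).measurableSet
  rw [← (measurePreserving_fib hu).measure_preimage hD.nullMeasurableSet,
    Measure.prod_apply_symm ((measurePreserving_fib hu).measurable hD)]
  congr 1
  funext y
  congr 1
  ext τ
  simp only [mem_preimage, Set.mem_sdiff, lap, mem_inter_iff, mem_ofPred_eq, not_and, fib_sub]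
  tauto

theorem volume_diff_le {K : Set V} (hK : IsCompact K) (hc : Convex ℝ K) {u : V} (hu : ‖u‖ = 1)
    {t : ℝ} (ht : 0 < t) :
    volume (K \ lap K u t) ≤ ENNReal.ofReal t * volume (base u K) := by
  have hbase : MeasurableSet (base u K) :=
    (hK.image (ℝ ∙ u)ᗮ.orthogonalProjectionOnto.continuous).measurableSet
  rw [volume_diff_eq hK hu t, ← lintegral_indicator_const hbase]
  apply lintegral_mono
  intro y
  by_cases hy : y ∈ base u K
  · rw [Set.indicator_of_mem hy]
    have hcomp := isCompact_fibre hK hu y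
    have hne : {τ : ℝ | fib u (τ, y) ∈ K}.Nonempty := (mem_base_iff hu).1 hy
    have ha := hcomp.sInf_mem hne
    have hle : ∀ τ ∈ {τ : ℝ | fib u (τ, y) ∈ K}, sInf {τ : ℝ | fib u (τ, y) ∈ K} ≤ τ :=
      fun τ hτ => csInf_le hcomp.bddBelow hτ
    set a := sInf {τ : ℝ | fib u (τ, y) ∈ K} with hadef
    have hsub : {τ : ℝ | fib u (τ, y) ∈ K ∧ fib u (τ - t, y) ∉ K} ⊆ Set.Ico a (a + t) := by
      rintro τ ⟨h1, h2⟩
      refine ⟨hle τ h1, ?_⟩
      by_contra h3
      rw [not_lt] at h3
      exact h2 (fibre_convex hc u y ha h1 (by linarith) (by linarith))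
    calc volume {τ : ℝ | fib u (τ, y) ∈ K ∧ fib u (τ - t, y) ∉ K} ≤ volume (Set.Ico a (a + t)) :=
          measure_mono hsub
      _ = ENNReal.ofReal t := by rw [Real.volume_Ico]; congr 1; ring
  · rw [Set.indicator_of_notMem hy]
    have : {τ : ℝ | fib u (τ, y) ∈ K ∧ fib u (τ - t, y) ∉ K} = ∅ := by
      ext τ
      simp only [mem_ofPred_eq, mem_empty_iff_false, iff_false, not_and]
      intro h1
      exact absurd ((mem_base_iff hu).2 ⟨τ, h1⟩) hy
    show volume {τ : ℝ | fib u (τ, y) ∈ K ∧ fib u (τ - t, y) ∉ K} ≤ 0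
    rw [this, measure_empty]

theorem le_volume_fibre {K : Set V} (hK : IsCompact K) (hc : Convex ℝ K) {u : V} (hu : ‖u‖ = 1)
    {t : ℝ} {y : (ℝ ∙ u)ᗮ} {τ : ℝ} (h1 : fib u (τ, y) ∈ K)
    (h2 : fib u (τ + t, y) ∈ K) :
    ENNReal.ofReal t ≤ volume {τ : ℝ | fib u (τ, y) ∈ K ∧ fib u (τ - t, y) ∉ K} := by
  have hcomp := isCompact_fibre hK hu y
  have ha := hcomp.sInf_mem ⟨τ, h1⟩
  have hle : ∀ τ ∈ {τ : ℝ | fib u (τ, y) ∈ K}, sInf {τ : ℝ | fib u (τ, y) ∈ K} ≤ τ :=
    fun τ hτ => csInf_le hcomp.bddBelow hτ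
  set a := sInf {τ : ℝ | fib u (τ, y) ∈ K} with hadef
  have hsub : Set.Ico a (a + t) ⊆ {τ : ℝ | fib u (τ, y) ∈ K ∧ fib u (τ - t, y) ∉ K} := by
    rintro σ ⟨h3, h4⟩
    refine ⟨fibre_convex hc u y ha h2 h3 (by linarith [hle τ h1]), fun h5 => ?_⟩
    have := hle _ h5
    linarith
  calc ENNReal.ofReal t = volume (Set.Ico a (a + t)) := by rw [Real.volume_Ico]; congr 1; ring
    _ ≤ _ := measure_mono hsub

theorem volume_diff_ge {m : ℕ} (hm : Module.finrank ℝ V = m + 1) {K : Set V} (hK : IsCompact K)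
    (hc : Convex ℝ K) {u : V} (hu : ‖u‖ = 1) {x₀ : V} {δ : ℝ} (hδ : 0 < δ)
    (hb : Metric.closedBall x₀ δ ⊆ K) {t : ℝ} (ht : 0 < t) (htδ : t < 2 * δ) :
    ENNReal.ofReal (t * (1 - t / (2 * δ)) ^ m) * volume (base u K) ≤ volume (K \ lap K u t) := by
  have hfr : Module.finrank ℝ (ℝ ∙ u)ᗮ = m := by
    have : Fact (Module.finrank ℝ V = m + 1) := ⟨hm⟩
    exact Submodule.finrank_orthogonal_span_singleton (by rintro rfl; simp at hu)
  set l : ℝ := t / (2 * δ) with hl
  have hl0 : 0 < l := by positivity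
  have hl1 : l < 1 := by rw [hl, div_lt_one (by positivity)]; exact htδ
  have hbase : MeasurableSet (base u K) :=
    (hK.image (ℝ ∙ u)ᗮ.orthogonalProjectionOnto.continuous).measurableSet
  set y₀ := (ℝ ∙ u)ᗮ.orthogonalProjectionOnto x₀ with hy₀
  set A : Set (ℝ ∙ u)ᗮ := (fun y => l • y₀ + y) '' ((1 - l) • base u K) with hA
  have hAvol : volume A = ENNReal.ofReal ((1 - l) ^ m) * volume (base u K) := by
    rw [hA, Set.image_add_left, measure_preimage_add, Measure.addHaar_smul, hfr,
      abs_of_pos (pow_pos (by linarith) _)]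
  have hAmeas : MeasurableSet A := by
    rw [hA, Set.image_add_left]
    exact (hbase.const_smul₀ _).preimage (by fun_prop)
  have hends : ∀ s : ℝ, |s| ≤ δ → fib u (inner ℝ x₀ u + s, y₀) ∈ K := by
    intro s hs
    apply hb
    rw [Metric.mem_closedBall, dist_eq_norm]
    have : fib u (inner ℝ x₀ u + s, y₀) - x₀ = s • u := by
      have h := fib_proj hu x₀
      have h2 : fib u (inner ℝ x₀ u + s, y₀) = fib u (inner ℝ x₀ u, y₀) + s • u := by
        unfold fib; simp only [add_smul]; abel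
      rw [h2, h]; abel
    rw [this, norm_smul, hu, mul_one]
    exact hs
  have hmain : ∀ y ∈ A, ENNReal.ofReal t ≤
      volume {τ : ℝ | fib u (τ, y) ∈ K ∧ fib u (τ - t, y) ∉ K} := by
    rintro _ ⟨_, ⟨y₁, hy₁, rfl⟩, rfl⟩
    obtain ⟨τ₁, hτ₁⟩ := (mem_base_iff hu).1 hy₁
    have hcomb : ∀ s : ℝ, (1 - l) • fib u (τ₁, y₁) + l • fib u (inner ℝ x₀ u + s, y₀) =
        fib u ((1 - l) * τ₁ + l * (inner ℝ x₀ u + s), l • y₀ + (1 - l) • y₁) := by
      intro s
      unfold fib
      simp only [smul_add, smul_smul, add_smul, Submodule.coe_add, Submodule.coe_smul, mul_add]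
      abel
    have hmem : ∀ s : ℝ, |s| ≤ δ →
        fib u ((1 - l) * τ₁ + l * (inner ℝ x₀ u + s), l • y₀ + (1 - l) • y₁) ∈ K := by
      intro s hs
      rw [← hcomb s]
      exact hc hτ₁ (hends s hs) (by linarith) hl0.le (by ring)
    have hm1 := hmem (-δ) (by rw [abs_neg, abs_of_pos hδ])
    have hm2 := hmem δ (by rw [abs_of_pos hδ])
    refine le_volume_fibre hK hc hu hm1 ?_
    convert hm2 using 3
    rw [hl]
    field_simp
    ring
  rw [volume_diff_eq hK hu t]
  calc ENNReal.ofReal (t * (1 - l) ^ m) * volume (base u K)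
      = ENNReal.ofReal t * volume A := by
        rw [hAvol, ← mul_assoc, ENNReal.ofReal_mul ht.le]
    _ = ∫⁻ y, A.indicator (fun _ => ENNReal.ofReal t) y := by
        rw [lintegral_indicator_const hAmeas]
    _ ≤ _ := by
        apply lintegral_mono
        intro y
        by_cases hy : y ∈ A
        · rw [Set.indicator_of_mem hy]
          exact hmain y hy
        · rw [Set.indicator_of_notMem hy]
          exact bot_le

theorem volume_base_lt_top {K : Set V} (hK : IsCompact K) (u : V) : volume (base u K) < ⊤ :=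
  (hK.image (ℝ ∙ u)ᗮ.orthogonalProjectionOnto.continuous).measure_lt_top

/-- The volume lost by translating has derivative the shadow. -/
theorem tendsto_shadow {m : ℕ} (hm : Module.finrank ℝ V = m + 1) {K : Set V} (hK : IsCompact K)
    (hc : Convex ℝ K) (hi : (interior K).Nonempty) {u : V} (hu : ‖u‖ = 1) :
    Tendsto (fun t : ℝ => ((volume K).toReal - (volume (lap K u t)).toReal) / t) (𝓝[>] 0)
      (𝓝 ((μHE[m] : Measure V) ((fun y => y - inner ℝ y u • u) '' K)).toReal) := by
  rw [muHE_shadow hm hu K]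
  obtain ⟨x₀, hx₀⟩ := hi
  obtain ⟨δ, hδ, hb⟩ := Metric.nhds_basis_closedBall.mem_iff.1 (mem_interior_iff_mem_nhds.1 hx₀)
  have hdiff : ∀ t : ℝ, (volume K).toReal - (volume (lap K u t)).toReal =
      (volume (K \ lap K u t)).toReal := by
    intro t
    rw [measure_sdiff (fun x hx => hx.1) (isCompact_lap hK u t).measurableSet.nullMeasurableSet
      (isCompact_lap hK u t).measure_lt_top.ne,
      ENNReal.toReal_sub_of_le (measure_mono (fun x hx => hx.1)) hK.measure_lt_top.ne]
  have hfin : ∀ t : ℝ, volume (K \ lap K u t) ≠ ⊤ := fun t =>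
    ((measure_mono Set.sdiff_subset).trans_lt hK.measure_lt_top).ne
  have hbfin := (volume_base_lt_top hK u).ne
  have h1 : Tendsto (fun t : ℝ => (1 - t / (2 * δ)) ^ m * (volume (base u K)).toReal) (𝓝[>] 0)
      (𝓝 ((volume (base u K)).toReal)) := by
    have : Tendsto (fun t : ℝ => (1 - t / (2 * δ)) ^ m * (volume (base u K)).toReal) (𝓝 0)
        (𝓝 ((1 - 0 / (2 * δ)) ^ m * (volume (base u K)).toReal)) := by
      apply Continuous.tendsto
      fun_prop
    simp only [zero_div, sub_zero, one_pow, one_mul] at this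
    exact this.mono_left nhdsWithin_le_nhds
  refine tendsto_of_tendsto_of_tendsto_of_le_of_le' h1 tendsto_const_nhds ?_ ?_
  · have : ∀ᶠ t : ℝ in 𝓝[>] 0, t < 2 * δ :=
      (eventually_lt_nhds (by positivity)).filter_mono nhdsWithin_le_nhds
    filter_upwards [self_mem_nhdsWithin, this] with t ht ht2
    have ht0 : (0 : ℝ) < t := ht
    rw [hdiff, le_div_iff₀ ht0]
    have h := volume_diff_ge hm hK hc hu hδ hb ht0 ht2
    have h' := ENNReal.toReal_mono (hfin t) h
    rw [ENNReal.toReal_mul, ENNReal.toReal_ofReal (mul_nonneg ht0.le (pow_nonneg (by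
      rw [sub_nonneg, div_le_one (by positivity)]; exact ht2.le) _))] at h'
    calc _ = t * (1 - t / (2 * δ)) ^ m * (volume (base u K)).toReal := by ring
      _ ≤ _ := h'
  · filter_upwards [self_mem_nhdsWithin] with t ht
    have ht0 : (0 : ℝ) < t := ht
    rw [hdiff, div_le_iff₀ ht0]
    have h := volume_diff_le hK hc hu ht0
    have h' := ENNReal.toReal_mono (ENNReal.mul_ne_top ENNReal.ofReal_ne_top hbfin) h
    rw [ENNReal.toReal_mul, ENNReal.toReal_ofReal ht0.le] at h'
    calc _ ≤ _ := h'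
      _ = _ := by ring

end Crest.Agent.R230
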