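import Crest.Agent.R230.Basic
import Crest.Agent.R230.Shadow

/-!
# Row 230, section A: frames, shadows, slices
-/

set_option autoImplicit false

open MeasureTheory Set
open scoped Pointwise ENNReal

namespace Crest.Agent.R230

variable {n : ℕ}

theorem exists_frame (e : E (n + 1)) (he : ‖e‖ = 1) : Nonempty (Frame e) := by
  have hfr : Module.finrank ℝ (ℝ ∙ e)ᗮ = n := by
    have : Fact (Module.finrank ℝ (E (n + 1)) = n + 1) := ⟨by simp⟩
    exact Submodule.finrank_orthogonal_span_singleton (by rintro rfl; simp at he)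
  let ι0 : E n ≃ₗᵢ[ℝ] (ℝ ∙ e)ᗮ :=
    ((stdOrthonormalBasis ℝ (ℝ ∙ e)ᗮ).reindex (finCongr hfr)).repr.symm
  refine ⟨⟨(ℝ ∙ e)ᗮ.subtypeₗᵢ.comp ι0.toLinearIsometry, ?_, ?_, ?_⟩⟩
  · intro y
    have := (ι0 y).2
    rw [Submodule.mem_orthogonal_singleton_iff_inner_left] at this
    simpa using this
  · intro x
    refine ⟨inner ℝ x e, ι0.symm ((ℝ ∙ e)ᗮ.orthogonalProjectionOnto x), ?_⟩
    have h := fib_proj he x
    unfold fib at h
    simpa using h.symm
  · have h4 := (MeasurePreserving.id (volume : Measure ℝ)).prod ι0.measurePreserving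
    have h5 := (measurePreserving_fib he).comp h4
    have h6 : (fun p : ℝ × E n => p.1 • e + ((ℝ ∙ e)ᗮ.subtypeₗᵢ.comp ι0.toLinearIsometry) p.2)
        = fib e ∘ Prod.map id ι0 := by
      funext p
      simp [fib]
    rw [h6]
    exact h5

namespace Frame

variable {e : E (n + 1)} (F : Frame e)

/-- The coordinate map `(t,y) ↦ t • e + ι y`. -/
noncomputable def Φ (p : ℝ × E n) : E (n + 1) := p.1 • e + F.ι p.2

lemma continuous_Φ : Continuous F.Φ := by
  have : Continuous F.ι := F.ι.continuous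
  unfold Φ; fun_prop

lemma mp' : MeasurePreserving F.Φ ((volume : Measure ℝ).prod (volume : Measure (E n)))
    (volume : Measure (E (n + 1))) := F.mp

lemma inner_Φ (he : ‖e‖ = 1) (p : ℝ × E n) : inner ℝ (F.Φ p) e = p.1 := by
  unfold Φ
  rw [inner_add_left, F.inner_eq, inner_smul_left, real_inner_self_eq_norm_sq, he]
  simp

lemma norm_Φ_sq (he : ‖e‖ = 1) (p : ℝ × E n) : ‖F.Φ p‖ ^ 2 = p.1 ^ 2 + ‖p.2‖ ^ 2 := by
  unfold Φ
  have h : inner ℝ (p.1 • e) (F.ι p.2) = 0 := by
    rw [inner_smul_left, real_inner_comm, F.inner_eq]; simp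
  rw [@norm_add_sq_real, h, norm_smul, he, F.ι.norm_map]
  simp

lemma abs_fst_le (he : ‖e‖ = 1) (p : ℝ × E n) : |p.1| ≤ ‖F.Φ p‖ := by
  have := F.norm_Φ_sq he p
  refine abs_le_of_sq_le_sq ?_ (norm_nonneg _)
  nlinarith [sq_nonneg ‖p.2‖]

lemma norm_snd_le (he : ‖e‖ = 1) (p : ℝ × E n) : ‖p.2‖ ≤ ‖F.Φ p‖ := by
  have := F.norm_Φ_sq he p
  refine le_trans (le_abs_self _) (abs_le_of_sq_le_sq ?_ (norm_nonneg _))
  nlinarith [sq_nonneg p.1]

lemma inner_Φ_Φ (he : ‖e‖ = 1) (p q : ℝ × E n) :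
    inner ℝ (F.Φ p) (F.Φ q) = p.1 * q.1 + inner ℝ p.2 q.2 := by
  unfold Φ
  have h1 : inner ℝ (p.1 • e) (F.ι q.2) = 0 := by
    rw [inner_smul_left, real_inner_comm, F.inner_eq]; simp
  have h2 : inner ℝ (F.ι p.2) (q.1 • e) = 0 := by
    rw [inner_smul_right, F.inner_eq]; simp
  rw [inner_add_left, inner_add_right, inner_add_right, h1, h2, F.ι.inner_map_map,
    inner_smul_left, inner_smul_right, real_inner_self_eq_norm_sq, he]
  simp

lemma injective_Φ (he : ‖e‖ = 1) : Function.Injective F.Φ := by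
  intro p q h
  have h1 : p.1 = q.1 := by rw [← F.inner_Φ he p, ← F.inner_Φ he q, h]
  have h2 : F.ι p.2 = F.ι q.2 := by
    unfold Φ at h
    rw [h1] at h
    exact add_left_cancel h
  exact Prod.ext h1 (F.ι.injective h2)

lemma surjective_Φ : Function.Surjective F.Φ := by
  intro x
  obtain ⟨t, y, h⟩ := F.surj x
  exact ⟨(t, y), h.symm⟩

/-- The coordinates as a linear equivalence. -/
noncomputable def lin (he : ‖e‖ = 1) : (ℝ × E n) ≃L[ℝ] E (n + 1) :=
  (LinearEquiv.ofBijective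
    ((LinearMap.toSpanSingleton ℝ (E (n + 1)) e).coprod F.ι.toLinearMap)
    (by
      have : ⇑((LinearMap.toSpanSingleton ℝ (E (n + 1)) e).coprod F.ι.toLinearMap) = F.Φ := by
        funext p; simp [Φ]
      rw [this]
      exact ⟨F.injective_Φ he, F.surjective_Φ⟩)).toContinuousLinearEquiv

lemma lin_apply (he : ‖e‖ = 1) (p : ℝ × E n) : F.lin he p = F.Φ p := by
  simp [lin, Φ]

lemma measurableEmbedding_Φ (he : ‖e‖ = 1) : MeasurableEmbedding F.Φ := by
  have : F.Φ = (F.lin he).toHomeomorph := by funext p; simp [F.lin_apply he]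
  rw [this]
  exact (F.lin he).toHomeomorph.measurableEmbedding

lemma mem_shadow {K : Set (E (n + 1))} {y : E n} : y ∈ F.shadow K ↔ ∃ t : ℝ, F.Φ (t, y) ∈ K := Iff.rfl

lemma mem_slice {K : Set (E (n + 1))} {t : ℝ} {y : E n} : y ∈ F.slice K t ↔ F.Φ (t, y) ∈ K := Iff.rfl

lemma isCompact_preimage (he : ‖e‖ = 1) {K : Set (E (n + 1))} (hK : IsCompact K) :
    IsCompact (F.Φ ⁻¹' K) := by
  have : F.Φ ⁻¹' K = (F.lin he).toHomeomorph ⁻¹' K := by
    ext p; simp [F.lin_apply he]
  rw [this]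
  exact (F.lin he).toHomeomorph.isCompact_preimage.2 hK

lemma convex_preimage (he : ‖e‖ = 1) {K : Set (E (n + 1))} (hK : Convex ℝ K) :
    Convex ℝ (F.Φ ⁻¹' K) := by
  have : F.Φ ⁻¹' K = (F.lin he).toLinearEquiv.toLinearMap ⁻¹' K := by
    ext p; simp [F.lin_apply he]
  rw [this]
  exact hK.linear_preimage _

lemma shadow_eq_image (K : Set (E (n + 1))) : F.shadow K = Prod.snd '' (F.Φ ⁻¹' K) := by
  ext y
  simp only [mem_shadow, mem_image, mem_preimage, Prod.exists, exists_and_right, exists_eq_right]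

lemma isCompact_shadow (he : ‖e‖ = 1) {K : Set (E (n + 1))} (hK : IsCompact K) :
    IsCompact (F.shadow K) := by
  rw [shadow_eq_image]
  exact (F.isCompact_preimage he hK).image continuous_snd

lemma convex_shadow (he : ‖e‖ = 1) {K : Set (E (n + 1))} (hK : Convex ℝ K) :
    Convex ℝ (F.shadow K) := by
  rw [shadow_eq_image]
  exact (F.convex_preimage he hK).linear_image (LinearMap.snd ℝ ℝ (E n))

lemma shadow_mono {K L : Set (E (n + 1))} (h : K ⊆ L) : F.shadow K ⊆ F.shadow L :=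
  fun _ ⟨t, ht⟩ => ⟨t, h ht⟩

lemma isCompact_slice {K : Set (E (n + 1))} (hK : IsCompact K) (t : ℝ) : IsCompact (F.slice K t) := by
  have hc : Topology.IsClosedEmbedding (fun y : E n => t • e + F.ι y) := by
    have h1 : Isometry (fun y : E n => t • e + F.ι y) := by
      intro a b
      rw [edist_add_left]
      exact F.ι.isometry a b
    exact h1.isClosedEmbedding
  exact hc.isCompact_preimage hK

lemma convex_slice {K : Set (E (n + 1))} (hK : Convex ℝ K) (t : ℝ) : Convex ℝ (F.slice K t) := by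
  intro x hx y hy a b ha hb hab
  have := hK hx hy ha hb hab
  show t • e + F.ι (a • x + b • y) ∈ K
  have h : t • e + F.ι (a • x + b • y) = a • (t • e + F.ι x) + b • (t • e + F.ι y) := by
    simp only [map_add, map_smul, smul_add]
    have : t • e = a • t • e + b • t • e := by rw [← add_smul, hab, one_smul]
    conv_lhs => rw [this]
    abel
  rw [h]; exact this

/-- Fubini along lines parallel to `e`. -/
lemma volume_eq_lintegral_lines {K : Set (E (n + 1))} (hK : MeasurableSet K) :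
    volume K = ∫⁻ y : E n, volume {t : ℝ | F.Φ (t, y) ∈ K} := by
  rw [← F.mp'.measure_preimage hK.nullMeasurableSet,
    Measure.prod_apply_symm (F.continuous_Φ.measurable hK)]
  rfl

/-- Fubini by slices orthogonal to `e`. -/
lemma volume_eq_lintegral_slices {K : Set (E (n + 1))} (hK : MeasurableSet K) :
    volume K = ∫⁻ t : ℝ, volume (F.slice K t) := by
  rw [← F.mp'.measure_preimage hK.nullMeasurableSet,
    Measure.prod_apply (F.continuous_Φ.measurable hK)]
  rfl

lemma isCompact_line (he : ‖e‖ = 1) {K : Set (E (n + 1))} (hK : IsCompact K) (y : E n) :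
    IsCompact {t : ℝ | F.Φ (t, y) ∈ K} := by
  have : {t : ℝ | F.Φ (t, y) ∈ K} = (fun t : ℝ => (t, y)) ⁻¹' (F.Φ ⁻¹' K) := rfl
  rw [this]
  have hc : Topology.IsClosedEmbedding (fun t : ℝ => (t, y)) := by
    have h1 : Isometry (fun t : ℝ => (t, y)) := by
      intro a b
      simp [Prod.edist_eq]
    exact h1.isClosedEmbedding
  exact hc.isCompact_preimage (F.isCompact_preimage he hK)

lemma convex_line (he : ‖e‖ = 1) {K : Set (E (n + 1))} (hK : Convex ℝ K) (y : E n) :
    Convex ℝ {t : ℝ | F.Φ (t, y) ∈ K} := by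
  intro s hs t ht a b ha hb hab
  have := F.convex_preimage he hK hs ht ha hb hab
  simp only [mem_preimage] at this
  show F.Φ (a • s + b • t, y) ∈ K
  have h : a • (s, y) + b • (t, y) = ((a • s + b • t, y) : ℝ × E n) := by
    ext
    · simp
    · simp only [Prod.snd_add, Prod.smul_snd]
      rw [← add_smul, hab, one_smul]
  rwa [h] at this

/-- the fibres of a compact convex set are compact intervals -/
lemma exists_line_eq_Icc (he : ‖e‖ = 1) {K : Set (E (n + 1))} (hK : IsCompact K) (hKc : Convex ℝ K)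
    {y : E n} (hy : y ∈ F.shadow K) : ∃ a b : ℝ, a ≤ b ∧ {t : ℝ | F.Φ (t, y) ∈ K} = Icc a b := by
  have h1 := F.isCompact_line he hK y
  have h2 := F.convex_line he hKc y
  have h3 : {t : ℝ | F.Φ (t, y) ∈ K}.Nonempty := hy
  have h4 : IsConnected {t : ℝ | F.Φ (t, y) ∈ K} := ⟨h3, h2.isPreconnected⟩
  refine ⟨_, _, ?_, eq_Icc_of_connected_compact h4 h1⟩
  exact csInf_le_csSup h3 h1.bddBelow h1.bddAbove

end Frame

lemma segment_zero_eq (u : E n) : segment ℝ 0 u = (fun t : ℝ => t • u) '' Icc 0 1 := by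
  rw [segment_eq_image]
  simp

lemma isCompact_segment (u : E n) : IsCompact (segment ℝ 0 u) := by
  rw [segment_zero_eq]
  exact isCompact_Icc.image (by fun_prop)

/-- `|K + [0, c e]| = |K| + c |shadow|`. -/
theorem volume_add_segment {K : Set (E (n + 1))} (hK : IsCompact K) (hKc : Convex ℝ K)
    {e : E (n + 1)} (he : ‖e‖ = 1) (F : Frame e) {c : ℝ} (hc : 0 ≤ c) :
    volume (K + segment ℝ 0 (c • e)) = volume K + ENNReal.ofReal c * volume (F.shadow K) := by
  have hK' : IsCompact (K + segment ℝ 0 (c • e)) := hK.add (isCompact_segment _)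
  rw [F.volume_eq_lintegral_lines hK'.measurableSet, F.volume_eq_lintegral_lines hK.measurableSet]
  have hsm : MeasurableSet (F.shadow K) := (F.isCompact_shadow he hK).measurableSet
  have h1 : ENNReal.ofReal c * volume (F.shadow K) =
      ∫⁻ y : E n, (F.shadow K).indicator (fun _ => ENNReal.ofReal c) y := by
    rw [lintegral_indicator hsm, setLIntegral_const]
  rw [h1, ← lintegral_add_right _ (measurable_const.indicator hsm)]
  apply lintegral_congr
  intro y
  have hfib : {t : ℝ | F.Φ (t, y) ∈ K + segment ℝ 0 (c • e)}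
      = {t : ℝ | F.Φ (t, y) ∈ K} + Icc 0 c := by
    ext t
    simp only [mem_setOf_eq, Set.mem_add]
    constructor
    · rintro ⟨x, hx, z, hz, hxz⟩
      rw [segment_zero_eq] at hz
      obtain ⟨s, hs, rfl⟩ := hz
      refine ⟨t - s * c, ?_, s * c, ⟨by have := hs.1; positivity, by nlinarith [hs.1, hs.2]⟩, by ring⟩
      have : F.Φ (t - s * c, y) = x := by
        have h2 : F.Φ (t - s * c, y) = F.Φ (t, y) - s • c • e := by
          unfold Frame.Φ; simp only [sub_smul, smul_smul]; abel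
        rw [h2, ← hxz]; simp
      rw [this]; exact hx
    · rintro ⟨s, hs, r, hr, rfl⟩
      rcases hc.eq_or_lt with h0 | h0
      · have hr0 : r = 0 := by rw [← h0] at hr; exact le_antisymm hr.2 hr.1
        refine ⟨_, hs, 0, ?_, ?_⟩
        · exact left_mem_segment ℝ _ _
        · rw [hr0]; simp
      · refine ⟨_, hs, r • e, ?_, ?_⟩
        · rw [segment_zero_eq]
          refine ⟨r / c, ⟨div_nonneg hr.1 hc, (div_le_one h0).2 hr.2⟩, ?_⟩
          simp only [smul_smul]
          congr 1; field_simp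
        · unfold Frame.Φ; simp only [add_smul]; abel
  rw [hfib]
  by_cases hy : y ∈ F.shadow K
  · obtain ⟨a, b, hab, heq⟩ := F.exists_line_eq_Icc he hK hKc hy
    rw [heq, indicator_of_mem hy]
    have h2 : Icc a b + Icc 0 c = Icc a (b + c) := by
      rw [Icc_add_Icc hab hc, add_zero]
    rw [h2, Real.volume_Icc, Real.volume_Icc, ← ENNReal.ofReal_add (by linarith) hc]
    congr 1; ring
  · rw [indicator_of_notMem hy]
    have : {t : ℝ | F.Φ (t, y) ∈ K} = ∅ := by
      ext t; simp only [mem_setOf_eq, mem_empty_iff_false, iff_false]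
      exact fun ht => hy ⟨t, ht⟩
    rw [this, empty_add]
    simp

theorem sh_eq_shadow {K : Set (E (n + 1))} (hK : IsCompact K) (hKc : Convex ℝ K) {e : E (n + 1)}
    (he : ‖e‖ = 1) (F : Frame e) {c : ℝ} (hc : 0 ≤ c) : sh K (c • e) = c * vol (F.shadow K) := by
  unfold sh vol
  rw [volume_add_segment hK hKc he F hc, ENNReal.toReal_add hK.measure_lt_top.ne
    (ENNReal.mul_ne_top ENNReal.ofReal_ne_top (F.isCompact_shadow he hK).measure_lt_top.ne),
    ENNReal.toReal_mul, ENNReal.toReal_ofReal hc]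
  ring

theorem volume_shadow_eq_muHE (K : Set (E (n + 1))) {u : E (n + 1)} (hu : ‖u‖ = 1) (F : Frame u) :
    (μHE[n] : Measure (E (n + 1))) ((fun y => y - inner ℝ y u • u) '' K) = volume (F.shadow K) := by
  have h1 : (fun y => y - inner ℝ y u • u) '' K = F.ι '' (F.shadow K) := by
    ext z
    constructor
    · rintro ⟨x, hx, rfl⟩
      obtain ⟨⟨t, y⟩, rfl⟩ := F.surjective_Φ x
      refine ⟨y, ⟨t, hx⟩, ?_⟩
      simp only [F.inner_Φ hu]
      simp [Frame.Φ]
    · rintro ⟨y, ⟨t, ht⟩, rfl⟩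
      refine ⟨_, ht, ?_⟩
      have := F.inner_Φ hu (t, y)
      unfold Frame.Φ at this
      simp only at this ⊢
      rw [this]; simp
  rw [h1, F.ι.isometry.euclideanHausdorffMeasure_image, EuclideanSpace.euclideanHausdorffMeasure_eq_volume]

theorem sh_unit_eq_muHE {K : Set (E (n + 1))} (hK : IsCompact K) (hKc : Convex ℝ K) {u : E (n + 1)}
    (hu : ‖u‖ = 1) : sh K u =
      ((μHE[n] : Measure (E (n + 1))) ((fun y => y - inner ℝ y u • u) '' K)).toReal := by
  obtain ⟨F⟩ := exists_frame u hu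
  rw [volume_shadow_eq_muHE K hu F]
  have := sh_eq_shadow hK hKc hu F (c := 1) zero_le_one
  rw [one_smul, one_mul] at this
  exact this

theorem area_eq {K : Set (E (n + 1))} {e : E (n + 1)} (he : ‖e‖ = 1) (F : Frame e) (t : ℝ) :
    area K e t = vol (F.slice K t) := by
  unfold area vol
  have h1 : K ∩ {x | inner ℝ x e = t} = (fun y : E n => t • e + F.ι y) '' (F.slice K t) := by
    ext x
    constructor
    · rintro ⟨hx, hxt⟩
      obtain ⟨⟨s, y⟩, rfl⟩ := F.surjective_Φ x
      simp only [mem_setOf_eq, F.inner_Φ he] at hxt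
      subst hxt
      exact ⟨y, hx, rfl⟩
    · rintro ⟨y, hy, rfl⟩
      exact ⟨hy, F.inner_Φ he (t, y)⟩
  have h2 : Isometry (fun y : E n => t • e + F.ι y) := by
    intro a b
    rw [edist_add_left]
    exact F.ι.isometry a b
  rw [h1, h2.euclideanHausdorffMeasure_image, EuclideanSpace.euclideanHausdorffMeasure_eq_volume]

/-! ### the functional `sh` -/

@[simp] lemma sh_zero (K : Set (E n)) : sh K 0 = 0 := by
  unfold sh
  rw [segment_same]
  simp

/-- every vector is a nonnegative multiple of a unit vector -/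
lemma exists_unit (u : E (n + 1)) : ∃ e : E (n + 1), ‖e‖ = 1 ∧ u = ‖u‖ • e := by
  by_cases hu : u = 0
  · refine ⟨EuclideanSpace.single 0 1, by simp, by simp [hu]⟩
  · refine ⟨‖u‖⁻¹ • u, ?_, ?_⟩
    · rw [norm_smul, norm_inv, norm_norm, inv_mul_cancel₀ (norm_ne_zero_iff.2 hu)]
    · rw [smul_smul, mul_inv_cancel₀ (norm_ne_zero_iff.2 hu), one_smul]

theorem sh_smul {K : Set (E n)} (hK : IsCompact K) (hKc : Convex ℝ K) {c : ℝ} (hc : 0 ≤ c) (u : E n) :
    sh K (c • u) = c * sh K u := by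
  rcases n with _ | m
  · have h1 : c • u = 0 := Subsingleton.elim _ _
    have h2 : u = 0 := Subsingleton.elim _ _
    rw [h1, h2]; simp
  · obtain ⟨e, he, hu⟩ := exists_unit u
    obtain ⟨F⟩ := exists_frame e he
    rw [hu, smul_smul, sh_eq_shadow hK hKc he F (by positivity),
      sh_eq_shadow hK hKc he F (norm_nonneg _)]
    ring

theorem sh_neg (K : Set (E n)) (u : E n) : sh K (-u) = sh K u := by
  unfold sh
  have h : K + segment ℝ 0 (-u) = (-u) +ᵥ (K + segment ℝ 0 u) := by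
    have h2 : segment ℝ 0 (-u) = (-u) +ᵥ segment ℝ 0 u := by
      rw [vadd_segment, segment_symm]
      simp
    rw [h2]
    ext x
    simp only [Set.mem_add, mem_vadd_set, vadd_eq_add]
    constructor
    · rintro ⟨a, ha, _, ⟨b, hb, rfl⟩, rfl⟩
      exact ⟨a + b, ⟨a, ha, b, hb, rfl⟩, by abel⟩
    · rintro ⟨_, ⟨a, ha, b, hb, rfl⟩, rfl⟩
      exact ⟨a, ha, -u + b, ⟨b, hb, rfl⟩, by abel⟩
  rw [h, vol_vadd]

theorem sh_nonneg {K : Set (E n)} (hK : IsCompact K) (u : E n) : 0 ≤ sh K u := by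
  unfold sh
  rw [sub_nonneg]
  apply vol_mono (hK.add (isCompact_segment u))
  intro x hx
  exact ⟨x, hx, 0, left_mem_segment ℝ _ _, by simp⟩

theorem sh_mono {K L : Set (E n)} (hK : IsCompact K) (hKc : Convex ℝ K) (hL : IsCompact L)
    (hLc : Convex ℝ L) (h : K ⊆ L) (u : E n) : sh K u ≤ sh L u := by
  rcases n with _ | m
  · have h2 : u = 0 := Subsingleton.elim _ _
    rw [h2]; simp
  · obtain ⟨e, he, hu⟩ := exists_unit u
    obtain ⟨F⟩ := exists_frame e he
    rw [hu, sh_eq_shadow hK hKc he F (norm_nonneg _), sh_eq_shadow hL hLc he F (norm_nonneg _)]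
    exact mul_le_mul_of_nonneg_left (vol_mono (F.isCompact_shadow he hL) (F.shadow_mono h))
      (norm_nonneg _)

theorem sh_image (T : E n ≃ₗ[ℝ] E n) (K : Set (E n)) (u : E n) :
    sh (T '' K) (T u) = |LinearMap.det (T : E n →ₗ[ℝ] E n)| * sh K u := by
  unfold sh
  have h : T '' K + segment ℝ 0 (T u) = T '' (K + segment ℝ 0 u) := by
    rw [Set.image_add]
    congr 1
    have := image_segment ℝ (T : E n →ₗ[ℝ] E n).toAffineMap 0 u
    simpa using this.symm
  rw [h, vol_image, vol_image]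
  ring

theorem sh_vadd (a : E n) (K : Set (E n)) (u : E n) : sh (a +ᵥ K) u = sh K u := by
  unfold sh
  rw [vol_vadd]
  have h : (a +ᵥ K) + segment ℝ 0 u = a +ᵥ (K + segment ℝ 0 u) := by
    ext x
    simp only [Set.mem_add, mem_vadd_set, vadd_eq_add]
    constructor
    · rintro ⟨_, ⟨k, hk, rfl⟩, b, hb, rfl⟩
      exact ⟨k + b, ⟨k, hk, b, hb, rfl⟩, by abel⟩
    · rintro ⟨_, ⟨k, hk, b, hb, rfl⟩, rfl⟩
      exact ⟨a + k, ⟨k, hk, rfl⟩, b, hb, by abel⟩
  rw [h, vol_vadd]

theorem PB_eq {K : Set (E (n + 1))} (hK : IsCompact K) (hKc : Convex ℝ K) :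
    PB K = ⋂ u ∈ Metric.sphere (0 : E (n + 1)) 1, {x : E (n + 1) | inner ℝ x u ≤
      ((μHE[n] : Measure (E (n + 1))) ((fun y => y - inner ℝ y u • u) '' K)).toReal} := by
  ext x
  simp only [PB, mem_setOf_eq, mem_iInter, mem_sphere_iff_norm, sub_zero]
  constructor
  · intro h u hu
    rw [← sh_unit_eq_muHE hK hKc hu]
    exact h u
  · intro h u
    obtain ⟨e, he, hu⟩ := exists_unit u
    rw [hu, sh_smul hK hKc (norm_nonneg _), inner_smul_right]
    have := h e he
    rw [← sh_unit_eq_muHE hK hKc he] at this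
    exact mul_le_mul_of_nonneg_left this (norm_nonneg _)

end Crest.Agent.R230
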