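import Crest.Agent.R230.DefsE
import Crest.Agent.R230.Frame
import Crest.Agent.R230.Ball

/-!
# Row 230, L2: masses of profiles
-/

set_option autoImplicit false

open MeasureTheory Set
open scoped Pointwise ENNReal

namespace Crest.Agent.R230

variable {n : ℕ}

/-! ### the constants `w` -/

lemma pint_continuous_w_integrand (k : ℕ) : Continuous fun s : ℝ => Real.sqrt (1 - s ^ 2) ^ k := by
  fun_prop

theorem w_pos (n : ℕ) : 0 < w n := by
  unfold w
  apply intervalIntegral.intervalIntegral_pos_of_pos_on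
    ((pint_continuous_w_integrand n).intervalIntegrable _ _) _ (by norm_num)
  intro s hs
  have : 0 < 1 - s ^ 2 := by nlinarith [hs.1, hs.2]
  positivity

theorem w_moment (n : ℕ) : (n + 3) * ∫ s in (-1 : ℝ)..1, s ^ 2 * Real.sqrt (1 - s ^ 2) ^ n = w n := by
  have h1 : ∫ s in (-1 : ℝ)..1, (Real.sqrt (1 - s ^ 2) ^ n - (n + 3) * (s ^ 2 * Real.sqrt (1 - s ^ 2) ^ n))
      = (1 : ℝ) * Real.sqrt (1 - 1 ^ 2) ^ (n + 2) - (-1) * Real.sqrt (1 - (-1) ^ 2) ^ (n + 2) := by
    apply intervalIntegral.integral_eq_sub_of_hasDerivAt_of_le (by norm_num)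
      (f := fun s => s * Real.sqrt (1 - s ^ 2) ^ (n + 2))
    · exact Continuous.continuousOn (by fun_prop)
    · intro s hs
      have hpos : 0 < 1 - s ^ 2 := by nlinarith [hs.1, hs.2]
      have hs1 : HasDerivAt (fun s : ℝ => 1 - s ^ 2) (-(2 * s)) s := by
        simpa using (hasDerivAt_pow 2 s).const_sub 1
      have hs2 := hs1.sqrt hpos.ne'
      have hs3 := (hasDerivAt_id' s).mul (hs2.pow (n + 2))
      refine hs3.congr_deriv ?_
      have e1 : n + 2 - 1 = n + 1 := by omega
      simp only [Pi.pow_apply, e1]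
      set u := Real.sqrt (1 - s ^ 2) with hu
      have hu0 : 0 < u := Real.sqrt_pos.2 hpos
      have hu2 : u ^ 2 = 1 - s ^ 2 := Real.sq_sqrt hpos.le
      have e2 : u ^ (n + 2) = u ^ n * (1 - s ^ 2) := by rw [pow_add, hu2]
      have e3 : u ^ (n + 1) = u ^ n * u := pow_succ u n
      rw [e2, e3]
      field_simp
      push_cast
      ring
    · apply Continuous.intervalIntegrable
      fun_prop
  rw [intervalIntegral.integral_sub ((pint_continuous_w_integrand n).intervalIntegrable _ _)
    (by apply Continuous.intervalIntegrable; fun_prop), intervalIntegral.integral_const_mul] at h1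
  have h2 : ∫ s in (-1 : ℝ)..1, Real.sqrt (1 - s ^ 2) ^ n = w n := rfl
  rw [h2] at h1
  have h3 : (1 : ℝ) * Real.sqrt (1 - 1 ^ 2) ^ (n + 2) - (-1) * Real.sqrt (1 - (-1) ^ 2) ^ (n + 2) = 0 := by
    norm_num
  rw [h3] at h1
  linarith

/-! ### Fubini along a unit direction -/

lemma pint_integral_unit {K : Set (E (n + 1))} (hK : IsCompact K) {e : E (n + 1)} (he : ‖e‖ = 1)
    {f : ℝ → ℝ} (hf : Continuous f) :
    ∫ x in K, f (inner ℝ x e) = ∫ t, f t * area K e t := by
  obtain ⟨F⟩ := exists_frame e he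
  have hm : MeasurableSet (F.Φ ⁻¹' K) := F.continuous_Φ.measurable hK.measurableSet
  have hcomp : IsCompact (F.Φ ⁻¹' K) := F.isCompact_preimage he hK
  have h1 : ∫ x in K, f (inner ℝ x e) = ∫ p in F.Φ ⁻¹' K, f p.1 ∂(volume.prod volume) := by
    rw [← F.mp'.setIntegral_preimage_emb (F.measurableEmbedding_Φ he)]
    apply setIntegral_congr_fun hm
    intro p _
    simp only [F.inner_Φ he]
  rw [h1, ← integral_indicator hm, integral_prod]
  · congr 1
    funext t
    rw [area_eq he F]
    have : (fun y => (F.Φ ⁻¹' K).indicator (fun p : ℝ × E n => f p.1) (t, y))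
        = (F.slice K t).indicator (fun _ => f t) := by
      funext y
      by_cases hy : y ∈ F.slice K t
      · rw [indicator_of_mem hy, indicator_of_mem (show (t, y) ∈ F.Φ ⁻¹' K from hy)]
      · rw [indicator_of_notMem hy, indicator_of_notMem (show (t, y) ∉ F.Φ ⁻¹' K from hy)]
    rw [this, integral_indicator (F.isCompact_slice hK t).measurableSet, setIntegral_const]
    simp [vol, Measure.real, mul_comm]
  · rw [integrable_indicator_iff hm]
    have hc : ContinuousOn (fun p : ℝ × E n => f p.1) (F.Φ ⁻¹' K) :=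
      (hf.comp continuous_fst).continuousOn
    have hfin : IsFiniteMeasureOnCompacts ((volume : Measure ℝ).prod (volume : Measure (E n))) := by
      infer_instance
    exact hc.integrableOn_compact hcomp

lemma pint_area_nonneg (K : Set (E (n + 1))) (e : E (n + 1)) (t : ℝ) : 0 ≤ area K e t :=
  ENNReal.toReal_nonneg

lemma pint_area_eq_zero_of_lt {K : Set (E (n + 1))} (hK : IsCompact K) (hs' : ∀ x ∈ K, -x ∈ K)
    {e : E (n + 1)} {t : ℝ} (ht : hs K e < |t|) : area K e t = 0 := by
  have : K ∩ {x | inner ℝ x e = t} = ∅ := by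
    ext x
    simp only [mem_inter_iff, mem_ofPred_eq, mem_empty_iff_false, iff_false, not_and]
    rintro hx rfl
    have h1 := le_hs hK hx e
    have h2 := le_hs hK (hs' x hx) e
    rw [inner_neg_left] at h2
    exact absurd (abs_le'.2 ⟨h1, h2⟩) (not_le.2 ht)
  unfold area
  rw [this]; simp

lemma pint_integral_rescale {g : ℝ → ℝ} {h : ℝ} (hh : 0 < h) (hg : ∀ t, h < |t| → g t = 0) :
    ∫ t, g t = h * ∫ s in (-1 : ℝ)..1, g (s * h) := by
  have h1 : ∫ t, g t = ∫ t in Icc (-h) h, g t := by
    symm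
    apply setIntegral_eq_integral_of_forall_compl_eq_zero
    intro t ht
    apply hg
    rw [mem_Icc, ← abs_le, not_le] at ht
    exact ht
  rw [h1, integral_Icc_eq_integral_Ioc, ← intervalIntegral.integral_of_le (by linarith),
    intervalIntegral.integral_comp_mul_right _ hh.ne', smul_eq_mul, mul_inv_cancel_left₀ hh.ne']
  simp

lemma pint_hs_pos {K : Set (E (n + 1))} (hK : CB K) (hs' : ∀ x ∈ K, -x ∈ K) {e : E (n + 1)} (he : e ≠ 0) :
    0 < hs K e := by
  obtain ⟨x, hx⟩ := hK.interior_nonempty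
  have h0 : (0 : E (n + 1)) ∈ interior K := by
    have hnx : -x ∈ K := hs' x (interior_subset hx)
    have := hK.convex.combo_interior_self_mem_interior hx hnx (a := 1 / 2) (b := 1 / 2)
      (by norm_num) (by norm_num) (by norm_num)
    convert this using 1
    rw [smul_neg]; abel
  obtain ⟨δ, hδ, hb⟩ := Metric.nhds_basis_closedBall.mem_iff.1 (mem_interior_iff_mem_nhds.1 h0)
  have hne : 0 < ‖e‖ := norm_pos_iff.2 he
  have hmem : (δ / ‖e‖) • e ∈ K := by
    apply hb
    rw [Metric.mem_closedBall, dist_zero_right, norm_smul, Real.norm_eq_abs,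
      abs_of_pos (div_pos hδ hne), div_mul_cancel₀ _ hne.ne']
  have := le_hs hK.isCompact hmem e
  rw [inner_smul_left, real_inner_self_eq_norm_sq] at this
  refine lt_of_lt_of_le ?_ this
  simp only [conj_trivial]
  positivity

/-- Masses of unit-direction profiles. -/
lemma pint_integral_unit_prof (hn : 1 ≤ n) {K : Set (E (n + 1))} (hK : CB K) (hs' : ∀ x ∈ K, -x ∈ K)
    {e : E (n + 1)} (he : ‖e‖ = 1) {f : ℝ → ℝ} (hf : Continuous f) :
    ∫ x in K, f (inner ℝ x e) = hs K e * ∫ s in (-1 : ℝ)..1, f (s * hs K e) * prof K e s ^ n := by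
  have hh := pint_hs_pos hK hs' (e := e) (by rintro rfl; simp at he)
  rw [pint_integral_unit hK.isCompact he hf, pint_integral_rescale hh]
  · congr 1
    apply intervalIntegral.integral_congr
    intro s _
    simp only [prof, he, inv_one, one_smul]
    rw [← Real.rpow_natCast, ← Real.rpow_mul (pint_area_nonneg _ _ _), one_div,
      inv_mul_cancel₀ (by positivity), Real.rpow_one]
  · intro t ht
    rw [pint_area_eq_zero_of_lt hK.isCompact hs' ht, mul_zero]

lemma pint_prof_normalize (K : Set (E (n + 1))) {e : E (n + 1)} (he : e ≠ 0) :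
    prof K (‖e‖⁻¹ • e) = prof K e := by
  have hne : ‖e‖ ≠ 0 := norm_ne_zero_iff.2 he
  funext s
  unfold prof
  rw [norm_smul, norm_inv, norm_norm, inv_mul_cancel₀ hne, inv_one, one_smul]

theorem integral_inner_prof (hn : 1 ≤ n) {K : Set (E (n + 1))} (hK : CB K) (hs' : ∀ x ∈ K, -x ∈ K)
    {e : E (n + 1)} (he : hs K e = 1) (φ : ℝ → ℝ) (hφ : ContinuousOn φ (Icc (-1) 1)) :
    ∫ x in K, φ (inner ℝ x e) = hs K (‖e‖⁻¹ • e) * ∫ s in (-1 : ℝ)..1, φ s * prof K e s ^ n := by
  have he0 : e ≠ 0 := by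
    rintro rfl
    rw [hs_zero hK.nonempty] at he
    norm_num at he
  have hne : 0 < ‖e‖ := norm_pos_iff.2 he0
  set u := ‖e‖⁻¹ • e with hu
  have hu1 : ‖u‖ = 1 := by rw [hu, norm_smul, norm_inv, norm_norm, inv_mul_cancel₀ hne.ne']
  have hhu : hs K u = ‖e‖⁻¹ := by rw [hu, hs_smul (by positivity), he, mul_one]
  -- continuous extension of `φ`
  set f : ℝ → ℝ := IccExtend (show (-1 : ℝ) ≤ 1 by norm_num) ((Icc (-1 : ℝ) 1).domRestrict φ) with hf
  have hfc : Continuous f := (continuousOn_iff_continuous_domRestrict.1 hφ).Icc_extend'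
  have hfeq : ∀ t ∈ Icc (-1 : ℝ) 1, f t = φ t := by
    intro t ht
    rw [hf, IccExtend_of_mem _ _ ht]; rfl
  have hfc2 : Continuous fun t => f (‖e‖ * t) := hfc.comp (by fun_prop)
  have h1 := pint_integral_unit_prof hn hK hs' hu1 hfc2
  have h2 : ∫ x in K, φ (inner ℝ x e) = ∫ x in K, f (‖e‖ * inner ℝ x u) := by
    apply setIntegral_congr_fun hK.isCompact.measurableSet
    intro x hx
    have e1 : ‖e‖ * inner ℝ x u = inner ℝ x e := by
      rw [hu, inner_smul_right, mul_inv_cancel_left₀ hne.ne']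
    simp only [e1]
    rw [hfeq]
    constructor
    · have := le_hs hK.isCompact (hs' x hx) e
      rw [inner_neg_left, he] at this
      linarith
    · have := le_hs hK.isCompact hx e
      rwa [he] at this
  rw [h2, h1]
  congr 1
  apply intervalIntegral.integral_congr
  intro s hsm
  rw [uIcc_of_le (by norm_num)] at hsm
  simp only []
  rw [hu, pint_prof_normalize K he0, ← hu, hhu]
  have e2 : ‖e‖ * (s * ‖e‖⁻¹) = s := by field_simp
  rw [e2, hfeq s hsm]

/-- `κ_{n+1} = κ_n w_n` -/
theorem κ_succ (n : ℕ) : κ (n + 1) = κ n * w n := by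
  obtain ⟨e, he⟩ : ∃ e : E (n + 1), ‖e‖ = 1 := ⟨EuclideanSpace.single 0 1, by simp⟩
  obtain ⟨F⟩ := exists_frame e he
  rw [← vol_closedBall (n + 1)]
  have h0 : vol (Metric.closedBall (0 : E (n + 1)) 1)
      = ∫ x in Metric.closedBall (0 : E (n + 1)) 1, (fun _ : ℝ => (1 : ℝ)) (inner ℝ x e) := by
    simp [vol, Measure.real]
  have hslice : ∀ t : ℝ, |t| ≤ 1 → area (Metric.closedBall (0 : E (n + 1)) 1) e t
      = Real.sqrt (1 - t ^ 2) ^ n * κ n := by
    intro t ht
    have ht2 : 0 ≤ 1 - t ^ 2 := by nlinarith [abs_nonneg t, sq_abs t]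
    rw [area_eq he F, ← vol_closedBall_radius n (Real.sqrt_nonneg _)]
    congr 1
    ext y
    rw [F.mem_slice, mem_closedBall_zero_iff, mem_closedBall_zero_iff]
    have h := F.norm_Φ_sq he (t, y)
    simp only at h
    rw [Real.le_sqrt (norm_nonneg _) ht2]
    constructor
    · intro h1
      have : ‖F.Φ (t, y)‖ ^ 2 ≤ 1 := by nlinarith [norm_nonneg (F.Φ (t, y))]
      linarith
    · intro h1
      have : ‖F.Φ (t, y)‖ ^ 2 ≤ 1 := by linarith
      nlinarith [norm_nonneg (F.Φ (t, y))]
  have hout : ∀ t : ℝ, 1 < |t| → area (Metric.closedBall (0 : E (n + 1)) 1) e t = 0 := by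
    intro t ht
    have : Metric.closedBall (0 : E (n + 1)) 1 ∩ {x | inner ℝ x e = t} = ∅ := by
      ext x
      simp only [mem_inter_iff, mem_ofPred_eq, mem_empty_iff_false, iff_false, not_and]
      rintro hx rfl
      have h1 := abs_real_inner_le_norm x e
      rw [he, mul_one] at h1
      exact absurd (h1.trans (mem_closedBall_zero_iff.1 hx)) (not_le.2 ht)
    unfold area
    rw [this]; simp
  rw [h0, pint_integral_unit (isCompact_closedBall _ _) he continuous_const]
  rw [pint_integral_rescale (h := 1) one_pos (by intro t ht; rw [hout t ht, mul_zero])]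
  unfold w
  rw [one_mul, ← intervalIntegral.integral_const_mul]
  apply intervalIntegral.integral_congr
  intro s hsm
  rw [uIcc_of_le (by norm_num)] at hsm
  simp only [mul_one, one_mul]
  rw [hslice s (abs_le.2 hsm), mul_comm]

theorem NleB_prof (hn : 2 ≤ n) {K : Set (E (n + 1))} (hK : CB K) (hs' : ∀ x ∈ K, -x ∈ K)
    (hE : HypE K) {e : E (n + 1)} (he : e ≠ 0) : NleB n (prof K e) := by
  have hne : 0 < ‖e‖ := norm_pos_iff.2 he
  set u := ‖e‖⁻¹ • e with hu
  have hu1 : ‖u‖ = 1 := by rw [hu, norm_smul, norm_inv, norm_norm, inv_mul_cancel₀ hne.ne']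
  have hprof : prof K e = prof K u := (pint_prof_normalize K he).symm
  rw [hprof]
  have hh : 0 < hs K u := pint_hs_pos hK hs' (by rintro h; rw [h] at hu1; simp at hu1)
  have hEu := hE u hu1
  obtain ⟨m, rfl⟩ : ∃ m, n = m + 1 := ⟨n - 1, by omega⟩
  have hm1 : (0 : ℝ) < ((m + 1 : ℕ) : ℝ) := by positivity
  have hm0 : (0 : ℝ) < (m : ℝ) := by
    have : 1 ≤ m := by omega
    exact_mod_cast this
  -- volume
  have hvol : vol K = hs K u * mom (m + 1) (prof K u) := by
    have := pint_integral_unit_prof (n := m + 1) (by omega) hK hs' hu1 (f := fun _ => (1 : ℝ)) continuous_const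
    simp only [one_mul] at this
    rw [mom, ← this]
    simp [vol, Measure.real]
  -- the Renyi power
  have hNK : NK K u = (hs K u * mom m (prof K u)) ^ (m + 1) := by
    unfold NK mom
    congr 1
    rw [pint_integral_rescale hh]
    · congr 1
      apply intervalIntegral.integral_congr
      intro s _
      simp only [prof, hu1, inv_one, one_smul]
      rw [← Real.rpow_natCast, ← Real.rpow_mul (pint_area_nonneg _ _ _)]
      congr 1
      push_cast
      field_simp
      ring
    · intro t ht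
      rw [pint_area_eq_zero_of_lt hK.isCompact hs' ht]
      apply Real.zero_rpow
      apply (div_pos _ hm1).ne'
      push_cast; linarith
  have hκm := κ_pos m
  have hκm1 := κ_pos (m + 1)
  have hwm := w_pos m
  have hwm1 := w_pos (m + 1)
  rw [hNK, hvol, NB, κ_succ (m + 1), κ_succ m] at hEu
  unfold NleB
  simp only [Nat.add_sub_cancel] at hEu ⊢
  set h := hs K u
  set A := mom m (prof K u)
  set B := mom (m + 1) (prof K u)
  have e1 : 2 * (m + 1) - 1 = (m + 1) + m := by omega
  rw [e1] at hEu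
  have e2 : (κ m * w m) ^ ((m + 1) + m) / κ m ^ (m + 1) * (h * B / (κ m * w m * w (m + 1))) ^ m * h
      = h ^ (m + 1) * (w m ^ (m + 1) * B ^ m / w (m + 1) ^ m) := by
    rw [pow_add, mul_pow (κ m) (w m) (m + 1), div_pow, mul_pow, mul_pow, pow_succ h m]
    field_simp
    rw [mul_pow (κ m * w m) (w (m + 1)) m, mul_pow (κ m) (w m) m]
    ring
  rw [e2, mul_pow] at hEu
  have hEu2 := le_of_mul_le_mul_left hEu (pow_pos hh _)
  rwa [le_div_iff₀ (pow_pos hwm1 m)] at hEu2

end Crest.Agent.R230
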