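import Crest.Agent.R230.Apriori2
import Crest.Agent.R230.ProfInt

/-!
`T/φ` is nonincreasing, `T'(0) ≤ (w_{n-1}/w_n)^n ≤ √e` (helper768).
-/

set_option autoImplicit false

open MeasureTheory Set Filter Topology
open scoped Pointwise ENNReal

namespace Crest.Agent.R230

open Tr

/-- `G(s) = (∫_s^1 c^n / ∫_0^1 c^n)^{1/(n+1)}`, `φ = 1 - G` -/
noncomputable def Gt (n : ℕ) (s : ℝ) : ℝ := (hB n s / hB n 0) ^ ((1 : ℝ) / (n + 1))

lemma Gt_zero (n : ℕ) : Gt n 0 = 1 := by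
  unfold Gt
  rw [div_self (hB_zero_pos n).ne', Real.one_rpow]

lemma Gt_one (n : ℕ) : Gt n 1 = 0 := by
  unfold Gt
  rw [hB_one, zero_div, Real.zero_rpow (by positivity)]

lemma Gt_nonneg (n : ℕ) {s : ℝ} (hs : s ∈ Icc (0 : ℝ) 1) : 0 ≤ Gt n s :=
  Real.rpow_nonneg (div_nonneg (hB_nonneg n hs) (hB_zero_pos n).le) _

lemma Gt_pow (n : ℕ) {s : ℝ} (hs : s ∈ Icc (0 : ℝ) 1) : Gt n s ^ (n + 1) * hB n 0 = hB n s := by
  have hN : ((n : ℝ) + 1) ≠ 0 := by positivity
  have h0 : 0 ≤ hB n s / hB n 0 := div_nonneg (hB_nonneg n hs) (hB_zero_pos n).le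
  unfold Gt
  rw [← Real.rpow_natCast, ← Real.rpow_mul h0]
  push_cast
  rw [one_div_mul_cancel hN, Real.rpow_one, div_mul_cancel₀ _ (hB_zero_pos n).ne']

lemma hB_lt (n : ℕ) {s : ℝ} (hs : s ∈ Ioc (0 : ℝ) 1) : hB n s < hB n 0 := by
  have h1 := lB_add_hB n s
  have h2 := lB_pos n hs
  linarith

lemma Gt_lt_one (n : ℕ) {s : ℝ} (hs : s ∈ Ioc (0 : ℝ) 1) : Gt n s < 1 := by
  have h := hB_lt n hs
  have hH := hB_zero_pos n
  exact Real.rpow_lt_one (div_nonneg (hB_nonneg n ⟨hs.1.le, hs.2⟩) hH.le) ((div_lt_one hH).2 h)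
    (by positivity)

lemma Gt_pos (n : ℕ) {s : ℝ} (hs : s ∈ Ico (0 : ℝ) 1) : 0 < Gt n s :=
  Real.rpow_pos_of_pos (div_pos (hB_pos n hs) (hB_zero_pos n)) _

lemma hasDerivAt_Gt (n : ℕ) {s : ℝ} (hs : s ∈ Ico (0 : ℝ) 1) :
    HasDerivAt (Gt n) (-(Real.sqrt (1 - s ^ 2) ^ n / ((n + 1) * hB n 0 * Gt n s ^ n))) s := by
  have h := hasDerivAt_tail_rpow n ((1 : ℝ) / (n + 1)) hs
  refine h.congr_deriv ?_
  have hp := Gt_pow n ⟨hs.1, hs.2.le⟩
  have hG := Gt_pos n hs
  have hH := hB_zero_pos n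
  have hG' : (hB n s / hB n 0) ^ ((1 : ℝ) / (n + 1)) = Gt n s := rfl
  rw [hG', ← hp, pow_succ]
  have h1 := hG.ne'
  have h2 := hH.ne'
  have h3 : Gt n s ^ n ≠ 0 := pow_ne_zero n h1
  field_simp
  try ring

lemma continuousOn_Gt (n : ℕ) : ContinuousOn (Gt n) (Icc 0 1) := by
  unfold Gt
  refine ContinuousOn.rpow_const ?_ (fun x _ => Or.inr (by positivity))
  exact ContinuousOn.div_const (fun x _ => (hasDerivAt_hB n x).continuousAt.continuousWithinAt) _

section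

variable {r : ℝ → ℝ} (hr : Prof r) (n : ℕ)
include hr

/-- **`T/φ` is nonincreasing** -/
theorem tau_div_phi_anti {s t : ℝ} (hs : 0 < s) (hst : s ≤ t) (ht : t ≤ 1) :
    tau n r t * (1 - Gt n s) ≤ tau n r s * (1 - Gt n t) := by
  have hpos : ∀ x ∈ Icc s 1, 0 < 1 - Gt n x := fun x hx => by
    have := Gt_lt_one n (s := x) ⟨hs.trans_le hx.1, hx.2⟩
    linarith
  have hder : ∀ x ∈ Ioo s 1, HasDerivAt (fun x => tau n r x / (1 - Gt n x))
      ((dtau n r x * (1 - Gt n x) - tau n r x *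
        -(-(Real.sqrt (1 - x ^ 2) ^ n / ((n + 1) * hB n 0 * Gt n x ^ n)))) / (1 - Gt n x) ^ 2) x := by
    intro x hx
    have hx' : x ∈ Ioo (-1 : ℝ) 1 := ⟨by linarith [hx.1], hx.2⟩
    exact (hasDerivAt_tau hr n hx').fun_div
      ((hasDerivAt_Gt n ⟨by linarith [hx.1], hx.2⟩).const_sub 1) (hpos x ⟨hx.1.le, hx.2.le⟩).ne'
  have hanti : AntitoneOn (fun x => tau n r x / (1 - Gt n x)) (Icc s 1) := by
    refine antitoneOn_of_deriv_nonpos (convex_Icc _ _) ?_ ?_ ?_
    · refine ContinuousOn.div (tau_continuous hr n).continuousOn ?_ (fun x hx => (hpos x hx).ne')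
      exact continuousOn_const.sub ((continuousOn_Gt n).mono (Icc_subset_Icc hs.le le_rfl))
    · intro x hx
      rw [interior_Icc] at hx
      exact (hder x hx).differentiableAt.differentiableWithinAt
    · intro x hx
      rw [interior_Icc] at hx
      rw [(hder x hx).deriv]
      have hx0 : 0 < x := hs.trans hx.1
      have hG := Gt_pos n (s := x) ⟨hx0.le, hx.2⟩
      have hH := hB_zero_pos n
      have h := kappa_cone hr n ⟨hx0, hx.2⟩ hG.le (Gt_pow n ⟨hx0.le, hx.2.le⟩)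
      refine div_nonpos_of_nonpos_of_nonneg ?_ (by positivity)
      have hden : 0 < ((n : ℝ) + 1) * hB n 0 * Gt n x ^ n := by positivity
      rw [neg_neg, sub_nonpos, mul_div_assoc', le_div_iff₀ hden]
      calc dtau n r x * (1 - Gt n x) * (((n : ℝ) + 1) * hB n 0 * Gt n x ^ n) =
            ((n : ℝ) + 1) * ((1 - Gt n x) * Gt n x ^ n) * dtau n r x * hB n 0 := by ring
        _ ≤ _ := h
  have h := hanti (show s ∈ Icc s 1 from ⟨le_rfl, hst.trans ht⟩) (show t ∈ Icc s 1 from ⟨hst, ht⟩) hst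
  simp only at h
  rw [div_le_div_iff₀ (hpos t ⟨hst, ht⟩) (hpos s ⟨le_rfl, hst.trans ht⟩)] at h
  exact h

/-- `T ≤ T'(0) φ/φ'(0)` -/
theorem tau_le_phi {s : ℝ} (hs : s ∈ Ioc (0 : ℝ) 1) :
    tau n r s ≤ dtau n r 0 * ((n + 1) * hB n 0) * (1 - Gt n s) := by
  have hH := hB_zero_pos n
  have hN : (0 : ℝ) < (n : ℝ) + 1 := by positivity
  have hp : 0 < 1 - Gt n s := by linarith [Gt_lt_one n hs]
  -- limits at 0+
  have h1 : Tendsto (fun x => tau n r x / x) (𝓝[>] 0) (𝓝 (dtau n r 0)) := by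
    have h := (hasDerivAt_tau hr n (s := 0) (by norm_num)).hasDerivWithinAt (s := Ioi 0)
    rw [hasDerivWithinAt_iff_tendsto_slope' (by simp)] at h
    refine h.congr' ?_
    filter_upwards [self_mem_nhdsWithin] with x hx
    rw [slope_def_field, tau_zero hr n, sub_zero, sub_zero]
  have h2 : Tendsto (fun x => (1 - Gt n x) / x) (𝓝[>] 0) (𝓝 (1 / ((n + 1) * hB n 0))) := by
    have h := ((hasDerivAt_Gt n (s := 0) (by norm_num)).const_sub 1).hasDerivWithinAt (s := Ioi 0)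
    rw [hasDerivWithinAt_iff_tendsto_slope' (by simp)] at h
    simp only [Gt_zero, ne_eq, OfNat.ofNat_ne_zero, not_false_eq_true, zero_pow, sub_zero,
      Real.sqrt_one, one_pow, mul_one, neg_neg] at h
    refine h.congr' ?_
    filter_upwards [self_mem_nhdsWithin] with x hx
    rw [slope_def_field, Gt_zero]
    ring
  have h3 : Tendsto (fun x => tau n r s * ((1 - Gt n x) / x)) (𝓝[>] 0)
      (𝓝 (tau n r s * (1 / ((n + 1) * hB n 0)))) := h2.const_mul _
  have h4 : Tendsto (fun x => (tau n r x / x) * (1 - Gt n s)) (𝓝[>] 0)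
      (𝓝 (dtau n r 0 * (1 - Gt n s))) := h1.mul_const _
  have h5 : tau n r s * (1 / ((n + 1) * hB n 0)) ≤ dtau n r 0 * (1 - Gt n s) := by
    refine le_of_tendsto_of_tendsto h3 h4 ?_
    have hmem : Ioc (0 : ℝ) s ∈ 𝓝[>] (0 : ℝ) := Ioc_mem_nhdsGT hs.1
    filter_upwards [hmem] with x hx
    have h6 := tau_div_phi_anti hr n hx.1 hx.2 hs.2
    rw [mul_div_assoc', div_mul_eq_mul_div, div_le_div_iff_of_pos_right hx.1]
    exact h6
  rw [mul_one_div, div_le_iff₀ (by positivity)] at h5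
  linarith

/-- `T'(0) ≤ (w_{n-1}/w_n)^n` under `N ≤ N_B` -/
theorem dtau_zero_le (hn : 1 ≤ n) (h : NleB n r) : dtau n r 0 ≤ (w (n - 1) / w n) ^ n := by
  have hw := w_pos' n
  have hw1 := w_pos' (n - 1)
  have hm := hr.mom_pos' n
  have hm1 := hr.mom_pos' (n - 1)
  have hr0 := hr.pos 0 (by norm_num)
  have hle : mom n r ≤ r 0 * mom (n - 1) r := by
    unfold mom
    rw [← intervalIntegral.integral_const_mul]
    refine intervalIntegral.integral_mono_on (by norm_num)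
      (prof_intervalIntegrable hr n ⟨le_rfl, by norm_num⟩ ⟨by norm_num, le_rfl⟩)
      ((prof_intervalIntegrable hr (n - 1) ⟨le_rfl, by norm_num⟩ ⟨by norm_num, le_rfl⟩).const_mul _)
      (fun u hu => ?_)
    have hu0 := hr.nonneg' hu
    have : r u ≤ r 0 := by
      rcases le_total 0 u with h0 | h0
      · exact hr.antitoneOn_right ⟨le_rfl, by norm_num⟩ ⟨h0, hu.2⟩ h0
      · exact hr.monotoneOn_left ⟨hu.1, h0⟩ ⟨by norm_num, le_rfl⟩ h0
    have e : r u ^ n = r u * r u ^ (n - 1) := by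
      rw [← pow_succ', Nat.sub_add_cancel hn]
    rw [e]
    exact mul_le_mul_of_nonneg_right this (pow_nonneg hu0 _)
  have e0 : dtau n r 0 = mom n r / (w n * r 0 ^ n) := by
    unfold dtau dB dP
    rw [tau_zero hr n]
    simp
    field_simp
  rw [e0, div_pow, div_le_div_iff₀ (by positivity) (by positivity)]
  unfold NleB at h
  have h1 : mom n r ^ n ≤ r 0 ^ n * mom (n - 1) r ^ n := by
    rw [← mul_pow]
    exact pow_le_pow_left₀ hm.le hle n
  have hmn : mom n r ^ n = mom n r * mom n r ^ (n - 1) := by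
    rw [← pow_succ', Nat.sub_add_cancel hn]
  have hwn : w n ^ n = w n * w n ^ (n - 1) := by
    rw [← pow_succ', Nat.sub_add_cancel hn]
  have hq : 0 < mom n r ^ (n - 1) := pow_pos hm _
  have h2 : (mom n r * w n ^ n) * mom n r ^ (n - 1) ≤
      (w (n - 1) ^ n * (w n * r 0 ^ n)) * mom n r ^ (n - 1) := by
    calc (mom n r * w n ^ n) * mom n r ^ (n - 1) = mom n r ^ n * w n ^ n := by rw [hmn]; ring
      _ ≤ (r 0 ^ n * mom (n - 1) r ^ n) * w n ^ n := mul_le_mul_of_nonneg_right h1 (by positivity)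
      _ = (r 0 ^ n * w n) * (mom (n - 1) r ^ n * w n ^ (n - 1)) := by rw [hwn]; ring
      _ ≤ (r 0 ^ n * w n) * (w (n - 1) ^ n * mom n r ^ (n - 1)) :=
          mul_le_mul_of_nonneg_left h (by positivity)
      _ = _ := by ring
  exact le_of_mul_le_mul_right h2 hq

end

/-! ### the constants `w` -/

lemma w_rec (n : ℕ) : w (n + 2) * (n + 3) = w n * (n + 2) := by
  have h := w_moment n
  have h2 : w (n + 2) = w n - ∫ s in (-1 : ℝ)..1, s ^ 2 * Real.sqrt (1 - s ^ 2) ^ n := by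
    unfold w
    rw [← intervalIntegral.integral_sub (intervalIntegrable_cpow n _ _)
      (Continuous.intervalIntegrable (by fun_prop) _ _)]
    refine intervalIntegral.integral_congr fun s hs => ?_
    rw [uIcc_of_le (by norm_num)] at hs
    have : Real.sqrt (1 - s ^ 2) ^ 2 = 1 - s ^ 2 := Real.sq_sqrt (by nlinarith [hs.1, hs.2])
    simp only [pow_add, this]
    ring
  rw [h2]
  linear_combination (-1 : ℝ) * h

lemma w_logconv (n : ℕ) : w (n + 1) ^ 2 ≤ w n * w (n + 2) := by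
  have h0 := w_pos' n
  have h1 := w_pos' (n + 1)
  have h2 := w_pos' (n + 2)
  set lam := w (n + 1) / w (n + 2) with hlam
  have h : 0 ≤ ∫ s in (-1 : ℝ)..1, Real.sqrt (1 - s ^ 2) ^ n * (1 - lam * Real.sqrt (1 - s ^ 2)) ^ 2 :=
    intervalIntegral.integral_nonneg (by norm_num) fun s _ => by positivity
  have e : ∫ s in (-1 : ℝ)..1, Real.sqrt (1 - s ^ 2) ^ n * (1 - lam * Real.sqrt (1 - s ^ 2)) ^ 2 =
      w n - 2 * lam * w (n + 1) + lam ^ 2 * w (n + 2) := by
    unfold w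
    rw [← intervalIntegral.integral_const_mul, ← intervalIntegral.integral_const_mul,
      ← intervalIntegral.integral_sub (intervalIntegrable_cpow n _ _)
        ((intervalIntegrable_cpow (n + 1) _ _).const_mul _),
      ← intervalIntegral.integral_add ((intervalIntegrable_cpow n _ _).sub
        ((intervalIntegrable_cpow (n + 1) _ _).const_mul _))
        ((intervalIntegrable_cpow (n + 2) _ _).const_mul _)]
    congr 1; ext s; ring
  rw [e] at h
  have e2 : w n - 2 * lam * w (n + 1) + lam ^ 2 * w (n + 2) =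
      (w n * w (n + 2) - w (n + 1) ^ 2) / w (n + 2) := by
    rw [hlam]; field_simp; ring
  rw [e2] at h
  have h7 : 0 ≤ (w n * w (n + 2) - w (n + 1) ^ 2) / w (n + 2) * w (n + 2) := mul_nonneg h h2.le
  rw [div_mul_cancel₀ _ h2.ne'] at h7
  linarith

/-- `(w_{n+1}/w_{n+2})² ≤ (n+3)/(n+2)` -/
theorem w_ratio_sq_le (n : ℕ) : (w (n + 1) / w (n + 2)) ^ 2 ≤ ((n : ℝ) + 3) / (n + 2) := by
  have h0 := w_pos' n
  have h2 := w_pos' (n + 2)
  have h := w_logconv n
  have hr := w_rec n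
  rw [div_pow, div_le_div_iff₀ (by positivity) (by positivity)]
  have e : w n = w (n + 2) * (n + 3) / (n + 2) := by field_simp; linarith
  have h3 : w (n + 1) ^ 2 * ((n : ℝ) + 2) ≤ (w n * w (n + 2)) * (n + 2) :=
    mul_le_mul_of_nonneg_right h (by positivity)
  calc w (n + 1) ^ 2 * ((n : ℝ) + 2) ≤ (w n * w (n + 2)) * (n + 2) := h3
    _ = (w n * (n + 2)) * w (n + 2) := by ring
    _ = (w (n + 2) * (n + 3)) * w (n + 2) := by rw [hr]
    _ = _ := by ring

/-- `(n+4)/(n+3) ≤ (w_{n+1}/w_{n+2})²` -/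
theorem le_w_ratio_sq (n : ℕ) : ((n : ℝ) + 4) / (n + 3) ≤ (w (n + 1) / w (n + 2)) ^ 2 := by
  have h1 := w_pos' (n + 1)
  have h2 := w_pos' (n + 2)
  have h3' := w_pos' (n + 3)
  have h := w_logconv (n + 1)
  have hr := w_rec (n + 1)
  push_cast at hr
  rw [div_pow, div_le_div_iff₀ (by positivity) (by positivity)]
  have e1 : w (n + 1 + 2) = w (n + 1) * (n + 3) / (n + 4) := by
    rw [eq_div_iff (by positivity)]
    linarith
  have h4 : w (n + 1 + 1) ^ 2 ≤ w (n + 1) * (w (n + 1) * (n + 3) / (n + 4)) := by rw [← e1]; exact h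
  have h5 : w (n + 1) * (w (n + 1) * (n + 3) / (n + 4)) = w (n + 1) ^ 2 * (n + 3) / (n + 4) := by ring
  rw [h5, le_div_iff₀ (by positivity)] at h4
  have e : w (n + 1 + 1) = w (n + 2) := rfl
  rw [e] at h4
  linarith

/-- `R = (w_{n-1}/w_n)^n ≤ √e` -/
theorem R_le (n : ℕ) (hn : 2 ≤ n) : (w (n - 1) / w n) ^ n ≤ Real.exp (1 / 2) := by
  obtain ⟨k, rfl⟩ : ∃ k, n = k + 2 := ⟨n - 2, by omega⟩
  have e : k + 2 - 1 = k + 1 := rfl
  rw [e]
  have h := w_ratio_sq_le k
  have hw1 := w_pos' (k + 1)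
  have hw2 := w_pos' (k + 2)
  have hq : 0 ≤ w (k + 1) / w (k + 2) := by positivity
  have h2 : ((w (k + 1) / w (k + 2)) ^ (k + 2)) ^ 2 ≤ (Real.exp (1 / 2)) ^ 2 := by
    calc ((w (k + 1) / w (k + 2)) ^ (k + 2)) ^ 2 = ((w (k + 1) / w (k + 2)) ^ 2) ^ (k + 2) := by
          rw [← pow_mul, ← pow_mul, mul_comm]
      _ ≤ (((k : ℝ) + 3) / (k + 2)) ^ (k + 2) := pow_le_pow_left₀ (by positivity) h _
      _ ≤ (Real.exp (1 / ((k : ℝ) + 2))) ^ (k + 2) := by
          refine pow_le_pow_left₀ (by positivity) ?_ _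
          have h3 := Real.add_one_le_exp (1 / ((k : ℝ) + 2))
          have e4 : ((k : ℝ) + 3) / (k + 2) = 1 / (k + 2) + 1 := by field_simp; ring
          rw [e4]; exact h3
      _ = Real.exp 1 := by
          rw [← Real.exp_nat_mul]
          congr 1
          push_cast
          field_simp
      _ = (Real.exp (1 / 2)) ^ 2 := by
          rw [← Real.exp_nat_mul]
          norm_num
  exact le_of_sq_le_sq h2 (Real.exp_pos _).le

end Crest.Agent.R230
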