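import Crest.Agent.R230.Apriori3

/-! Alias of `Crest.Agent.R230.Apriori3` (helper768): nothing is declared here. -/
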