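import Crest.Agent.R230.PBBasic
import Crest.Agent.R230.Ball

/-!
# Row 230, part J: the projection body of the ball
-/

set_option autoImplicit false

open MeasureTheory Set
open scoped Pointwise ENNReal

namespace Crest.Agent.R230

variable {n : ℕ}

theorem Frame.norm_sq {e : E (n + 1)} (he : ‖e‖ = 1) (F : Frame e) (t : ℝ) (y : E n) :
    ‖t • e + F.ι y‖ ^ 2 = t ^ 2 + ‖y‖ ^ 2 := by
  rw [norm_add_sq_real, inner_smul_left, real_inner_comm, F.inner_eq, norm_smul, he, F.ι.norm_map]
  simp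

theorem Frame.shadow_ball {e : E (n + 1)} (he : ‖e‖ = 1) (F : Frame e) :
    F.shadow (Metric.closedBall (0 : E (n + 1)) 1) = Metric.closedBall (0 : E n) 1 := by
  ext y
  simp only [Frame.shadow, Set.mem_ofPred_eq, mem_closedBall_zero_iff]
  constructor
  · rintro ⟨t, ht⟩
    have h := F.norm_sq he t y
    have h1 : ‖t • e + F.ι y‖ ^ 2 ≤ 1 := by
      have := pow_le_pow_left₀ (norm_nonneg _) ht 2
      simpa using this
    have h2 : ‖y‖ ^ 2 ≤ 1 := by nlinarith [sq_nonneg t]
    exact (sq_le_one_iff₀ (norm_nonneg _)).1 h2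
  · intro hy
    refine ⟨0, ?_⟩
    rw [zero_smul, zero_add, F.ι.norm_map]
    exact hy

theorem sh_ball (u : E (n + 1)) :
    sh (Metric.closedBall (0 : E (n + 1)) 1) u = κ n * ‖u‖ := by
  by_cases hu : u = 0
  · subst hu
    obtain ⟨e, he⟩ := exists_norm_eq (E (n + 1)) (zero_le_one)
    obtain ⟨F⟩ := exists_frame e he
    have h := sh_eq_shadow (isCompact_closedBall _ _) (convex_closedBall (0 : E (n + 1)) 1) he F
      (le_refl (0 : ℝ))
    rw [zero_smul, zero_mul] at h
    rw [h, norm_zero, mul_zero]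
  · have hu' : ‖u‖ ≠ 0 := norm_ne_zero_iff.2 hu
    set e : E (n + 1) := ‖u‖⁻¹ • u with hedef
    have he : ‖e‖ = 1 := by
      rw [hedef, norm_smul, norm_inv, norm_norm, inv_mul_cancel₀ hu']
    obtain ⟨F⟩ := exists_frame e he
    have h := sh_eq_shadow (isCompact_closedBall _ _) (convex_closedBall (0 : E (n + 1)) 1) he F
      (norm_nonneg u)
    have hue : ‖u‖ • e = u := by rw [hedef, smul_inv_smul₀ hu']
    rw [hue, F.shadow_ball he, vol_closedBall] at h
    rw [h, mul_comm]

theorem PB_ball : PB (Metric.closedBall (0 : E (n + 1)) 1) = Metric.closedBall 0 (κ n) := by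
  have hκ : 0 < κ n := κ_pos n
  ext x
  simp only [PB, Set.mem_ofPred_eq, sh_ball, mem_closedBall_zero_iff]
  constructor
  · intro h
    by_cases hx : x = 0
    · rw [hx, norm_zero]; exact hκ.le
    · have h1 := h x
      rw [real_inner_self_eq_norm_mul_norm] at h1
      exact le_of_mul_le_mul_right h1 (norm_pos_iff.2 hx)
  · intro h u
    calc inner ℝ x u ≤ ‖x‖ * ‖u‖ := real_inner_le_norm _ _
      _ ≤ κ n * ‖u‖ := by gcongr

theorem vol_PB_ball (n : ℕ) : vol (PB (Metric.closedBall (0 : E (n + 1)) 1)) = κ n ^ (n + 1) * κ (n + 1) := by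
  have hκ : 0 < κ n := κ_pos n
  rw [PB_ball]
  have h : Metric.closedBall (0 : E (n + 1)) (κ n) = κ n • Metric.closedBall (0 : E (n + 1)) 1 := by
    rw [smul_unitClosedBall_of_nonneg hκ.le]
  rw [h, vol_smul, abs_of_pos hκ, vol_closedBall]

end Crest.Agent.R230
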