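import Crest.Agent.R230.BaseTwoAux
import Crest.Agent.R230.Frame

/-!
Row 230, base case `n = 2` of Petty's inequality (helper852).
-/

set_option autoImplicit false

namespace Crest.Agent.R230

theorem petty_two : PettyIneq 2 :=
  petty_two_of (fun e he => exists_frame e he)
    (fun _ hK hKc _ he F _ hc => sh_eq_shadow hK hKc he F hc)

end Crest.Agent.R230
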