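import Crest.Agent.R230.Frame

/-!
# Row 230, section B: elementary facts on projection bodies
-/

set_option autoImplicit false

open MeasureTheory Set
open scoped Pointwise ENNReal

namespace Crest.Agent.R230

variable {n : ℕ}

lemma mem_PB {K : Set (E n)} {x : E n} : x ∈ PB K ↔ ∀ u : E n, inner ℝ x u ≤ sh K u := Iff.rfl

theorem PB_vadd (a : E n) (K : Set (E n)) : PB (a +ᵥ K) = PB K := by
  ext x; simp only [mem_PB, sh_vadd]

theorem PB_mono {K L : Set (E n)} (hK : IsCompact K) (hKc : Convex ℝ K) (hL : IsCompact L)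
    (hLc : Convex ℝ L) (h : K ⊆ L) : PB K ⊆ PB L :=
  fun _ hx u => (hx u).trans (sh_mono hK hKc hL hLc h u)

theorem neg_mem_PB {K : Set (E n)} {x : E n} (hx : x ∈ PB K) : -x ∈ PB K := by
  intro u
  have := hx (-u)
  rw [sh_neg, inner_neg_right] at this
  rwa [inner_neg_left]

lemma convex_PB (K : Set (E n)) : Convex ℝ (PB K) := by
  intro x hx y hy a b ha hb hab
  intro u
  rw [inner_add_left, inner_smul_left, inner_smul_left]
  have h1 := mul_le_mul_of_nonneg_left (hx u) ha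
  have h2 := mul_le_mul_of_nonneg_left (hy u) hb
  simp only [conj_trivial]
  calc _ ≤ a * sh K u + b * sh K u := add_le_add h1 h2
    _ = sh K u := by rw [← add_mul, hab, one_mul]

lemma isClosed_PB (K : Set (E n)) : IsClosed (PB K) := by
  have : PB K = ⋂ u : E n, {x | inner ℝ x u ≤ sh K u} := by
    ext x; simp [mem_PB]
  rw [this]
  exact isClosed_iInter fun u => isClosed_le (by fun_prop) continuous_const

lemma zero_mem_PB {K : Set (E n)} (hK : IsCompact K) : (0 : E n) ∈ PB K := by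
  intro u; rw [inner_zero_left]; exact sh_nonneg hK u

/-- homogeneity in the body: `S_{rK}(u) = r^n S_K(u)` in dimension `n+1` -/
theorem sh_smul_set {K : Set (E (n + 1))} (hK : IsCompact K) (hKc : Convex ℝ K) {r : ℝ} (hr : 0 < r)
    (u : E (n + 1)) : sh (r • K) u = r ^ n * sh K u := by
  have h1 : r • K + segment ℝ 0 u = r • (K + segment ℝ 0 (r⁻¹ • u)) := by
    rw [smul_add]
    congr 1
    ext x
    simp only [segment_zero_eq, mem_smul_set, mem_image]
    constructor
    · rintro ⟨t, ht, rfl⟩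
      refine ⟨t • r⁻¹ • u, ⟨t, ht, rfl⟩, ?_⟩
      rw [smul_comm, smul_smul r, mul_inv_cancel₀ hr.ne', one_smul]
    · rintro ⟨_, ⟨t, ht, rfl⟩, rfl⟩
      refine ⟨t, ht, ?_⟩
      rw [smul_comm, smul_smul r, mul_inv_cancel₀ hr.ne', one_smul]
  have h2 : sh K (r⁻¹ • u) = r⁻¹ * sh K u := sh_smul hK hKc (inv_nonneg.2 hr.le) u
  have h3 : vol (K + segment ℝ 0 (r⁻¹ • u)) = vol K + r⁻¹ * sh K u := by
    rw [← h2]; unfold sh; ring
  unfold sh at *
  rw [h1, vol_smul, vol_smul, h3, abs_of_pos hr, pow_succ]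
  field_simp
  ring

theorem PB_smul {K : Set (E (n + 1))} (hK : IsCompact K) (hKc : Convex ℝ K) {r : ℝ} (hr : 0 < r) :
    PB (r • K) = r ^ n • PB K := by
  ext x
  have hrn : 0 < r ^ n := pow_pos hr n
  rw [mem_smul_set_iff_inv_smul_mem₀ hrn.ne']
  simp only [mem_PB, sh_smul_set hK hKc hr, inner_smul_left]
  refine forall_congr' fun u => ?_
  simp only [conj_trivial]
  rw [inv_mul_le_iff₀ hrn]

theorem vol_PB_smul {K : Set (E (n + 1))} (hK : IsCompact K) (hKc : Convex ℝ K) {r : ℝ} (hr : 0 < r) :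
    vol (PB (r • K)) = r ^ (n * (n + 1)) * vol (PB K) := by
  rw [PB_smul hK hKc hr, vol_smul, abs_of_pos (pow_pos hr n), ← pow_mul]

theorem PB_image_eq (T : E (n + 1) ≃ₗ[ℝ] E (n + 1)) (K : Set (E (n + 1))) :
    PB (T '' K) = (LinearMap.adjoint (T : E (n + 1) →ₗ[ℝ] E (n + 1))) ⁻¹'
      (|LinearMap.det (T : E (n + 1) →ₗ[ℝ] E (n + 1))| • PB K) := by
  have hd := det_pos' T
  ext x
  rw [mem_preimage, mem_smul_set_iff_inv_smul_mem₀ hd.ne']
  simp only [mem_PB, inner_smul_left, conj_trivial]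
  constructor
  · intro h u
    have := h (T u)
    rw [sh_image] at this
    rw [inv_mul_le_iff₀ hd, LinearMap.adjoint_inner_left]
    exact this
  · intro h u
    obtain ⟨v, rfl⟩ := T.surjective u
    have := h v
    rw [inv_mul_le_iff₀ hd, LinearMap.adjoint_inner_left] at this
    rw [sh_image]
    exact this

theorem vol_PB_image (T : E (n + 1) ≃ₗ[ℝ] E (n + 1)) (K : Set (E (n + 1))) :
    vol (PB (T '' K)) = |LinearMap.det (T : E (n + 1) →ₗ[ℝ] E (n + 1))| ^ n * vol (PB K) := by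
  have hd := det_pos' T
  have hdet : LinearMap.det (LinearMap.adjoint (T : E (n + 1) →ₗ[ℝ] E (n + 1)))
      = LinearMap.det (T : E (n + 1) →ₗ[ℝ] E (n + 1)) := by
    have b := stdOrthonormalBasis ℝ (E (n + 1))
    rw [← LinearMap.det_toMatrix b.toBasis, LinearMap.toMatrix_adjoint, Matrix.det_conjTranspose,
      LinearMap.det_toMatrix]
    simp
  have hne : LinearMap.det (LinearMap.adjoint (T : E (n + 1) →ₗ[ℝ] E (n + 1))) ≠ 0 := by
    rw [hdet]; exact abs_pos.1 hd
  rw [PB_image_eq]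
  have key : vol ((LinearMap.adjoint (T : E (n + 1) →ₗ[ℝ] E (n + 1))) ⁻¹'
      (|LinearMap.det (T : E (n + 1) →ₗ[ℝ] E (n + 1))| • PB K))
      = |LinearMap.det (T : E (n + 1) →ₗ[ℝ] E (n + 1))|⁻¹ *
        vol (|LinearMap.det (T : E (n + 1) →ₗ[ℝ] E (n + 1))| • PB K) := by
    unfold vol
    rw [Measure.addHaar_preimage_linearMap volume hne, ENNReal.toReal_mul,
      ENNReal.toReal_ofReal (abs_nonneg _), hdet, abs_inv]
  rw [key, vol_smul, abs_of_pos hd, pow_succ]
  field_simp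

end Crest.Agent.R230
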