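import Crest.Agent.R230.Mink
import Crest.Agent.R230.PBBasic

/-!
Cauchy formula `|P_u K| = (n/2) ∫_K |⟨∇g,u⟩|`.
-/

set_option autoImplicit false
set_option linter.unusedSectionVars false

open MeasureTheory Set Filter Topology
open scoped Pointwise ENNReal

namespace Crest.Agent.R230

variable {n : ℕ}

/-- (false in dimension `0`) -/
theorem ae_hs_nu {K : Set (E (n + 1))} (hK : CB K) (h0 : (0 : E (n + 1)) ∈ interior K) :
    ∀ᵐ x ∂(volume.restrict K), hs K (nu K x) = 1 := by
  refine ae_restrict_of_ae ?_
  filter_upwards [(hK.body h0).ae_differentiableAt,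
    (Measure.ae_ne volume (0 : E (n + 1)))] with x hx hx0
  rw [hs_eq_G, nu_eq_G]
  exact (hK.body h0).hs_nu hx hx0

lemma segment_nonempty (u : E n) : (segment ℝ 0 u).Nonempty := ⟨0, left_mem_segment ℝ _ _⟩

lemma smul_segment_zero (t : ℝ) (u : E n) : t • segment ℝ 0 u = segment ℝ 0 (t • u) := by
  rw [segment_zero_eq, segment_zero_eq, ← image_smul, image_image]
  refine image_congr fun x _ => ?_
  rw [smul_comm]

lemma vol_smul_add_segment {K : Set (E (n + 1))} (hK : CB K) (u : E (n + 1)) {s t : ℝ} (hs : 0 < s)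
    (ht : 0 < t) : vol (s • K + t • segment ℝ 0 u) = vol (s • K) + t * s ^ n * sh K u := by
  have h1 : t • segment ℝ 0 u = segment ℝ 0 (t • u) := smul_segment_zero t u
  have h2 : sh (s • K) (t • u) = t * s ^ n * sh K u := by
    rw [sh_smul (hK.isCompact.smul s) (hK.convex.smul s) ht.le, sh_smul_set hK.isCompact hK.convex hs]
    ring
  rw [h1, ← h2]
  unfold sh
  ring

/-- the mixed volume with a segment -/
theorem V1_segment {K : Set (E (n + 1))} (hK : CB K) (h0 : (0 : E (n + 1)) ∈ interior K)
    (u : E (n + 1)) : ((n : ℝ) + 1) * V1 K (segment ℝ 0 u) = sh K u := by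
  have hlim := G.firstVar (hK.body h0) (isCompact_segment u) (segment_nonempty u)
  have h1 : ∀ᶠ t in 𝓝[>] (0:ℝ), t⁻¹ * ((∫ s in (0:ℝ)..1, volume.real (s • K + t • segment ℝ 0 u)) -
      ∫ s in (0:ℝ)..1, volume.real (s • K)) = sh K u / ((n : ℝ) + 1) := by
    filter_upwards [self_mem_nhdsWithin] with t ht
    have ht : 0 < t := ht
    have hi1 := G.intervalIntegrable_vol (hK.body h0) (isCompact_segment u) t le_rfl zero_le_one
    have hi0' : (fun s : ℝ => volume.real (s • K)) =
        fun s : ℝ => volume.real (s • K + (0:ℝ) • segment ℝ 0 u) := by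
      ext s; rw [zero_smul_set (segment_nonempty u), add_zero]
    have hi0 : IntervalIntegrable (fun s : ℝ => volume.real (s • K)) volume 0 1 := by
      rw [hi0']
      exact G.intervalIntegrable_vol (hK.body h0) (isCompact_segment u) 0 le_rfl zero_le_one
    rw [← intervalIntegral.integral_sub hi1 hi0]
    have h2 : ∫ s in (0:ℝ)..1, (volume.real (s • K + t • segment ℝ 0 u) - volume.real (s • K)) =
        ∫ s in (0:ℝ)..1, (t * sh K u) * s ^ n := by
      refine intervalIntegral.integral_congr_ae (Eventually.of_forall fun s hs => ?_)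
      rw [uIoc_of_le zero_le_one] at hs
      have := vol_smul_add_segment hK u hs.1 ht
      unfold vol at this
      unfold Measure.real
      rw [this]
      ring
    rw [h2, intervalIntegral.integral_const_mul, integral_pow]
    field_simp
    simp
  have h3 := tendsto_nhds_unique (hlim.congr' h1) tendsto_const_nhds
  rw [V1_eq_G, h3]
  field_simp

lemma hs_segment (u v : E n) : hs (segment ℝ 0 u) v = max 0 (inner ℝ u v) := by
  apply le_antisymm
  · refine hs_le (segment_nonempty u) fun x hx => ?_
    rw [segment_zero_eq] at hx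
    obtain ⟨t, ht, rfl⟩ := hx
    simp only [real_inner_smul_left]
    rcases le_total 0 (inner ℝ u v) with h | h
    · rw [max_eq_right h]
      exact mul_le_of_le_one_left h ht.2
    · rw [max_eq_left h]
      exact mul_nonpos_of_nonneg_of_nonpos ht.1 h
  · refine max_le ?_ ?_
    · have := le_hs (isCompact_segment u) (left_mem_segment ℝ 0 u) v
      simpa using this
    · exact le_hs (isCompact_segment u) (right_mem_segment ℝ 0 u) v

theorem sh_eq_integral {K : Set (E n)} (hK : CB K) (h0 : (0 : E n) ∈ interior K) (u : E n) :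
    sh K u = (n / 2 : ℝ) * ∫ x in K, |inner ℝ (nu K x) u| := by
  rcases n with _ | n
  · have h2 : u = 0 := Subsingleton.elim _ _
    rw [h2]; simp
  have h1 := V1_segment hK h0 u
  have h2 := V1_segment hK h0 (-u)
  rw [sh_neg] at h2
  have hi1 := G.integrableOn_hs_nu (hK.body h0) (isCompact_segment u) (segment_nonempty u)
  have hi2 := G.integrableOn_hs_nu (hK.body h0) (isCompact_segment (-u)) (segment_nonempty (-u))
  have h3 : ∫ x in K, |inner ℝ (nu K x) u| = V1 K (segment ℝ 0 u) + V1 K (segment ℝ 0 (-u)) := by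
    rw [V1_eq_G, V1_eq_G, G.V1, G.V1, ← integral_add hi1 hi2]
    congr 1
    ext x
    rw [← hs_eq_G, ← hs_eq_G, hs_segment, hs_segment, inner_neg_left, ← nu_eq_G, real_inner_comm]
    rcases le_total 0 (inner ℝ u (nu K x)) with h | h
    · rw [abs_of_nonneg h, max_eq_right h, max_eq_left (by linarith), add_zero]
    · rw [abs_of_nonpos h, max_eq_left h, max_eq_right (by linarith), zero_add]
  rw [h3]
  push_cast
  linarith

end Crest.Agent.R230
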