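import Crest.Agent.R230.PBBasic

/-!
# Row 230, section D: the support function of the projection body

`sh K` is sublinear (translation-overlap argument), bounded and positive on the unit sphere; hence
`PB K` is a convex body with `0` in its interior and `hs (PB K) = sh K` (Hahn-Banach).
-/

set_option autoImplicit false

open MeasureTheory Set Filter Topology
open scoped Pointwise ENNReal

namespace Crest.Agent.R230

variable {n : ℕ}

lemma vol_closedBall_pos {δ : ℝ} (hδ : 0 < δ) : 0 < vol (Metric.closedBall (0 : E n) δ) := by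
  unfold vol
  refine ENNReal.toReal_pos ?_ (isCompact_closedBall _ _).measure_lt_top.ne
  exact (Metric.measure_closedBall_pos volume _ hδ).ne'

/-- the volume lost by translating has derivative `sh K u` -/
theorem tendsto_sh {K : Set (E (n + 1))} (hK : CB K) (u : E (n + 1)) :
    Tendsto (fun t : ℝ => (vol K - vol (lap K u t)) / t) (𝓝[>] 0) (𝓝 (sh K u)) := by
  by_cases hu : u = 0
  · subst hu
    have h : ∀ t : ℝ, lap K (0 : E (n + 1)) t = K := by
      intro t; ext x; simp [lap]
    simp only [h, sub_self, zero_div, sh_zero]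
    exact tendsto_const_nhds
  · obtain ⟨e, he, hue⟩ := exists_unit u
    have hr : 0 < ‖u‖ := norm_pos_iff.2 hu
    set r := ‖u‖ with hrdef
    have h1 := tendsto_shadow (m := n) (by simp) hK.isCompact hK.convex hK.interior_nonempty he
    rw [← sh_unit_eq_muHE hK.isCompact hK.convex he] at h1
    have h2 : Tendsto (fun t : ℝ => r * t) (𝓝[>] 0) (𝓝[>] 0) := by
      apply tendsto_nhdsWithin_of_tendsto_nhds_of_eventually_within
      · have : Tendsto (fun t : ℝ => r * t) (𝓝 0) (𝓝 (r * 0)) :=
          (continuous_const.mul continuous_id).tendsto 0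
        rw [mul_zero] at this
        exact this.mono_left nhdsWithin_le_nhds
      · filter_upwards [self_mem_nhdsWithin] with t ht
        exact mul_pos hr ht
    have h3 := (h1.comp h2).const_mul r
    have h4 : sh K u = r * sh K e := by
      rw [hue, sh_smul hK.isCompact hK.convex hr.le]
    rw [h4]
    refine h3.congr' ?_
    filter_upwards [self_mem_nhdsWithin] with t ht
    have ht0 : (0 : ℝ) < t := ht
    have h5 : lap K e (r * t) = lap K u t := by
      unfold lap
      have : (r * t) • e = t • u := by rw [hue, smul_smul, mul_comm]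
      rw [this]
    simp only [Function.comp_apply, vol, h5]
    field_simp

lemma vol_sub_lap {K : Set (E n)} (hK : IsCompact K) (u : E n) (t : ℝ) :
    vol K - vol (lap K u t) = (volume (K \ lap K u t)).toReal := by
  unfold vol
  rw [measure_sdiff (fun x hx => hx.1) (isCompact_lap hK u t).measurableSet.nullMeasurableSet
    (isCompact_lap hK u t).measure_lt_top.ne,
    ENNReal.toReal_sub_of_le (measure_mono (fun x hx => hx.1)) hK.measure_lt_top.ne]

lemma vol_sub_lap_add_le {K : Set (E n)} (hK : IsCompact K) (u v : E n) (t : ℝ) :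
    vol K - vol (lap K (u + v) t) ≤ (vol K - vol (lap K u t)) + (vol K - vol (lap K v t)) := by
  rw [vol_sub_lap hK, vol_sub_lap hK, vol_sub_lap hK]
  have hfin : ∀ w : E n, volume (K \ lap K w t) ≠ ⊤ := fun w =>
    ((measure_mono Set.sdiff_subset).trans_lt hK.measure_lt_top).ne
  rw [← ENNReal.toReal_add (hfin u) (hfin v)]
  apply ENNReal.toReal_mono (ENNReal.add_ne_top.2 ⟨hfin u, hfin v⟩)
  have hsub : K \ lap K (u + v) t ⊆ (K \ lap K u t) ∪ ((t • u) +ᵥ (K \ lap K v t)) := by
    rintro x ⟨hx, hx2⟩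
    by_cases h : x - t • u ∈ K
    · right
      refine ⟨x - t • u, ⟨h, ?_⟩, by simp⟩
      rintro ⟨_, h3⟩
      apply hx2
      refine ⟨hx, ?_⟩
      have h4 : x - t • u - t • v ∈ K := h3
      show x - t • (u + v) ∈ K
      rw [smul_add, ← sub_sub]
      exact h4
    · left
      exact ⟨hx, fun h3 => h h3.2⟩
  calc volume (K \ lap K (u + v) t) ≤ volume ((K \ lap K u t) ∪ ((t • u) +ᵥ (K \ lap K v t))) :=
        measure_mono hsub
    _ ≤ volume (K \ lap K u t) + volume ((t • u) +ᵥ (K \ lap K v t)) := measure_union_le _ _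
    _ = _ := by rw [measure_vadd]

/-- `sh K` is subadditive. -/
theorem sh_add_le {K : Set (E (n + 1))} (hK : CB K) (u v : E (n + 1)) :
    sh K (u + v) ≤ sh K u + sh K v := by
  refine le_of_tendsto_of_tendsto (tendsto_sh hK (u + v)) ((tendsto_sh hK u).add (tendsto_sh hK v)) ?_
  filter_upwards [self_mem_nhdsWithin] with t ht
  have ht0 : (0 : ℝ) < t := ht
  rw [← add_div]
  exact div_le_div_of_nonneg_right (vol_sub_lap_add_le hK.isCompact u v t) ht0.le

/-- a lower bound for `sh` -/
theorem exists_mul_norm_le_sh {K : Set (E (n + 1))} (hK : CB K) :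
    ∃ c : ℝ, 0 < c ∧ ∀ u : E (n + 1), c * ‖u‖ ≤ sh K u := by
  obtain ⟨x₀, hx₀⟩ := hK.interior_nonempty
  obtain ⟨δ, hδ, hb⟩ := Metric.nhds_basis_closedBall.mem_iff.1 (mem_interior_iff_mem_nhds.1 hx₀)
  refine ⟨vol (Metric.closedBall (0 : E n) δ), vol_closedBall_pos hδ, fun u => ?_⟩
  obtain ⟨e, he, hue⟩ := exists_unit u
  obtain ⟨F⟩ := exists_frame e he
  have h1 : sh (x₀ +ᵥ Metric.closedBall (0 : E (n + 1)) δ) u ≤ sh K u := by
    refine sh_mono ((isCompact_closedBall _ _).vadd x₀) ((convex_closedBall _ _).vadd x₀)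
      hK.isCompact hK.convex ?_ u
    rw [Metric.vadd_closedBall]
    simpa using hb
  rw [sh_vadd] at h1
  refine le_trans ?_ h1
  rw [hue, sh_eq_shadow (isCompact_closedBall _ _) (convex_closedBall _ _) he F (norm_nonneg _),
    norm_smul, he, mul_one, norm_norm, mul_comm]
  refine mul_le_mul_of_nonneg_left ?_ (norm_nonneg _)
  refine vol_mono (F.isCompact_shadow he (isCompact_closedBall _ _)) ?_
  intro y hy
  refine ⟨0, ?_⟩
  rw [zero_smul, zero_add, mem_closedBall_zero_iff, F.ι.norm_map]
  exact mem_closedBall_zero_iff.1 hy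

lemma isBounded_PB (K : Set (E n)) : Bornology.IsBounded (PB K) := by
  rw [isBounded_iff_forall_norm_le]
  refine ⟨Real.sqrt (∑ i, (sh K (EuclideanSpace.single i 1)) ^ 2), fun x hx => ?_⟩
  rw [EuclideanSpace.norm_eq]
  apply Real.sqrt_le_sqrt
  refine Finset.sum_le_sum fun i _ => ?_
  rw [Real.norm_eq_abs, sq_abs]
  apply sq_le_sq'
  · have := hx (-EuclideanSpace.single i 1)
    rw [sh_neg, inner_neg_right, EuclideanSpace.inner_single_right] at this
    simp at this
    linarith
  · have := hx (EuclideanSpace.single i 1)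
    rw [EuclideanSpace.inner_single_right] at this
    simpa using this

lemma isCompact_PB (K : Set (E n)) : IsCompact (PB K) :=
  Metric.isCompact_iff_isClosed_bounded.2 ⟨isClosed_PB K, isBounded_PB K⟩

theorem zero_mem_interior_PB {K : Set (E (n + 1))} (hK : CB K) :
    (0 : E (n + 1)) ∈ interior (PB K) := by
  obtain ⟨c, hc, h⟩ := exists_mul_norm_le_sh hK
  rw [mem_interior_iff_mem_nhds]
  refine mem_of_superset (Metric.closedBall_mem_nhds _ hc) ?_
  intro x hx u
  refine (real_inner_le_norm x u).trans ((mul_le_mul_of_nonneg_right ?_ (norm_nonneg u)).trans (h u))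
  exact mem_closedBall_zero_iff.1 hx

theorem CB_PB {K : Set (E (n + 1))} (hK : CB K) : CB (PB K) :=
  ⟨isCompact_PB K, convex_PB K, ⟨0, zero_mem_interior_PB hK⟩⟩

/-- the supremum is attained: Hahn-Banach -/
theorem exists_mem_PB_inner_eq {K : Set (E (n + 1))} (hK : CB K) (u : E (n + 1)) :
    ∃ x ∈ PB K, inner ℝ x u = sh K u := by
  by_cases hu : u = 0
  · exact ⟨0, zero_mem_PB hK.isCompact, by rw [hu]; simp⟩
  obtain ⟨g, hg1, hg2⟩ := exists_extension_of_le_sublinear
    (LinearPMap.mkSpanSingleton u (sh K u) hu) (sh K)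
    (fun c hc x => sh_smul hK.isCompact hK.convex hc.le x)
    (sh_add_le hK) (by
      rintro ⟨x, hx⟩
      obtain ⟨c, rfl⟩ := Submodule.mem_span_singleton.1 hx
      rw [LinearPMap.mkSpanSingleton'_apply]
      show c • sh K u ≤ sh K (c • u)
      rcases le_total 0 c with hc | hc
      · rw [sh_smul hK.isCompact hK.convex hc, smul_eq_mul]
      · refine le_trans ?_ (sh_nonneg hK.isCompact _)
        exact mul_nonpos_of_nonpos_of_nonneg hc (sh_nonneg hK.isCompact _))
  set f : E (n + 1) →L[ℝ] ℝ := LinearMap.toContinuousLinearMap g with hf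
  set v := (InnerProductSpace.toDual ℝ (E (n + 1))).symm f with hv
  have hfv : ∀ y, g y = inner ℝ v y := by
    intro y
    rw [hv, InnerProductSpace.toDual_symm_apply, hf]
    simp
  refine ⟨v, fun w => ?_, ?_⟩
  · rw [← hfv]; exact hg2 w
  · rw [← hfv]
    have := hg1 ⟨u, Submodule.mem_span_singleton_self u⟩
    rw [this]
    exact LinearPMap.mkSpanSingleton'_apply_self _ _ _ _

theorem hs_PB {K : Set (E (n + 1))} (hK : CB K) (u : E (n + 1)) : hs (PB K) u = sh K u := by
  apply le_antisymm
  · exact hs_le ⟨0, zero_mem_PB hK.isCompact⟩ fun x hx => hx u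
  · obtain ⟨x, hx, h⟩ := exists_mem_PB_inner_eq hK u
    rw [← h]
    exact le_hs (isCompact_PB K) hx u

end Crest.Agent.R230
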