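import Crest.Agent.R230.PBBasic
import Crest.Agent.R230.SupportPB
import Crest.Agent.R230.Ball

/-!
# Row 230: existence of a minimiser of `|ΠK| / |K|^n` over the convex bodies of dimension `n + 1`
-/

set_option autoImplicit false

open MeasureTheory Set TopologicalSpace
open scoped Pointwise ENNReal Topology

namespace Crest.Agent.R230

variable {n : ℕ}

/-- sandwich: if every point of `L` is at distance at most `d` of `K ⊇ B(c,r)` then `L` is contained
in a translate of `(1+d/r) K`. -/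
lemma subset_of_near {K L : Set (E n)} (hKc : Convex ℝ K) {c : E n} {r d : ℝ}
    (hr : 0 < r) (hc : Metric.closedBall c r ⊆ K) (hd : 0 ≤ d)
    (h : ∀ x ∈ L, ∃ y ∈ K, dist x y ≤ d) :
    L ⊆ (-((d / r) • c)) +ᵥ ((1 + d / r) • K) := by
  intro x hx
  obtain ⟨y, hy, hxy⟩ := h x hx
  rw [dist_eq_norm] at hxy
  set w : E n := c + (r / d) • (x - y) with hw
  have hwK : w ∈ K := by
    apply hc
    rw [Metric.mem_closedBall, dist_eq_norm, hw, add_sub_cancel_left, norm_smul, Real.norm_eq_abs,
      abs_of_nonneg (by positivity)]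
    rcases eq_or_lt_of_le hd with h0 | h0
    · rw [← h0]; simp [hr.le]
    · rw [div_mul_eq_mul_div, div_le_iff₀ h0]
      gcongr
  have hpos : 0 < 1 + d / r := by positivity
  have hz : (1 / (1 + d / r)) • y + ((d / r) / (1 + d / r)) • w ∈ K :=
    hKc hy hwK (by positivity) (by positivity) (by field_simp)
  refine ⟨(1 + d / r) • ((1 / (1 + d / r)) • y + ((d / r) / (1 + d / r)) • w), ⟨_, hz, rfl⟩, ?_⟩
  have e1 : (1 + d / r) * (1 / (1 + d / r)) = 1 := by field_simp
  have e2 : (1 + d / r) * ((d / r) / (1 + d / r)) = d / r := by field_simp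
  simp only [vadd_eq_add, smul_add, smul_smul]
  rw [e1, e2, one_smul, hw, smul_add, smul_smul]
  have e3 : (d / r * (r / d)) • (x - y) = x - y := by
    rcases eq_or_lt_of_le hd with h0 | h0
    · have : x - y = 0 := by
        rw [← norm_le_zero_iff, h0]; exact hxy
      rw [this]; simp
    · have : d / r * (r / d) = 1 := by field_simp
      rw [this, one_smul]
  rw [e3]
  abel

/-- The functional to be minimised -/
noncomputable def FP {n : ℕ} (K : Set (E (n + 1))) : ℝ := vol (PB K) / vol K ^ n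

lemma FP_le {K L : Set (E (n + 1))} (hK : CB K) (hL : CB L) {c : E (n + 1)} {r d : ℝ} (hr : 0 < r)
    (hcK : Metric.closedBall c r ⊆ K) (hcL : Metric.closedBall c r ⊆ L) (hd : 0 ≤ d)
    (h1 : ∀ x ∈ L, ∃ y ∈ K, dist x y ≤ d) (h2 : ∀ x ∈ K, ∃ y ∈ L, dist x y ≤ d) :
    FP K ≤ ((1 + d / r) ^ (n * (n + 1))) ^ 2 * FP L := by
  have hpos : 0 < 1 + d / r := by positivity
  have hvK := hK.vol_pos
  have hvL := hL.vol_pos
  have s1 := subset_of_near hK.convex hr hcK hd h1
  have s2 := subset_of_near hL.convex hr hcL hd h2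
  have b1 : vol L ≤ (1 + d / r) ^ (n + 1) * vol K := by
    have hc : CB ((-((d / r) • c)) +ᵥ ((1 + d / r) • K)) := (hK.smul hpos.ne').vadd _
    have := vol_mono hc.isCompact s1
    rwa [vol_vadd, vol_smul, abs_of_pos hpos] at this
  have b2 : vol (PB K) ≤ (1 + d / r) ^ (n * (n + 1)) * vol (PB L) := by
    have hc' : CB ((1 + d / r) • L) := hL.smul hpos.ne'
    have hc : CB ((-((d / r) • c)) +ᵥ ((1 + d / r) • L)) := hc'.vadd _
    have := vol_mono (CB_PB hc).isCompact
      (PB_mono hK.isCompact hK.convex hc.isCompact hc.convex s2)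
    rw [PB_vadd, PB_smul hL.isCompact hL.convex hpos, vol_smul, abs_of_pos (by positivity),
      ← pow_mul] at this
    exact this
  have b3 : vol L ^ n ≤ (1 + d / r) ^ (n * (n + 1)) * vol K ^ n := by
    calc vol L ^ n ≤ ((1 + d / r) ^ (n + 1) * vol K) ^ n := by gcongr
      _ = (1 + d / r) ^ (n * (n + 1)) * vol K ^ n := by rw [mul_pow, ← pow_mul, mul_comm (n + 1) n]
  unfold FP
  rw [div_le_iff₀ (by positivity)]
  have hP : 0 ≤ vol (PB L) := vol_nonneg _
  set ρ := (1 + d / r) ^ (n * (n + 1)) with hρ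
  have hρ0 : 0 < ρ := by positivity
  calc vol (PB K) ≤ ρ * vol (PB L) := b2
    _ = ρ * (vol (PB L) / vol L ^ n) * vol L ^ n := by field_simp
    _ ≤ ρ * (vol (PB L) / vol L ^ n) * (ρ * vol K ^ n) := by gcongr
    _ = ρ ^ 2 * (vol (PB L) / vol L ^ n) * vol K ^ n := by ring

/-- the normalised class -/
def NC (c : E n) (r R : ℝ) : Set (NonemptyCompacts (E n)) :=
  {K | (K : Set (E n)) ⊆ Metric.closedBall 0 R} ∩
    ({K | Convex ℝ (K : Set (E n))} ∩ {K | Metric.closedBall c r ⊆ (K : Set (E n))})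

lemma isClosed_convex : IsClosed {K : NonemptyCompacts (E n) | Convex ℝ (K : Set (E n))} := by
  rw [← isOpen_compl_iff, isOpen_iff_mem_nhds]
  intro K hK
  simp only [mem_compl_iff, mem_ofPred_eq, Convex, StarConvex, not_forall] at hK
  obtain ⟨x, hx, y, hy, a, b, ha, hb, hab, hxy⟩ := hK
  have hcl : IsClosed (K : Set (E n)) := K.isCompact.isClosed
  -- separate the point `a x + b y` from `K`
  obtain ⟨ε, hε, hball⟩ : ∃ ε > 0, Metric.closedBall (a • x + b • y) ε ⊆ (K : Set (E n))ᶜ := by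
    have := hcl.isOpen_compl.mem_nhds (show a • x + b • y ∈ (K : Set (E n))ᶜ from hxy)
    exact Metric.nhds_basis_closedBall.mem_iff.1 this
  have o1 : IsOpen {L : NonemptyCompacts (E n) | (L : Set (E n)) ⊆ (Metric.closedBall (a • x + b • y) ε)ᶜ} :=
    NonemptyCompacts.isOpen_subsets_of_isOpen Metric.isClosed_closedBall.isOpen_compl
  have o2 : IsOpen {L : NonemptyCompacts (E n) | ((L : Set (E n)) ∩ Metric.ball x ε).Nonempty} :=
    NonemptyCompacts.isOpen_inter_nonempty_of_isOpen Metric.isOpen_ball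
  have o3 : IsOpen {L : NonemptyCompacts (E n) | ((L : Set (E n)) ∩ Metric.ball y ε).Nonempty} :=
    NonemptyCompacts.isOpen_inter_nonempty_of_isOpen Metric.isOpen_ball
  have m1 := o1.mem_nhds (show K ∈ _ from fun z hz hz' => hball hz' hz)
  have m2 := o2.mem_nhds (show K ∈ _ from ⟨x, hx, Metric.mem_ball_self hε⟩)
  have m3 := o3.mem_nhds (show K ∈ _ from ⟨y, hy, Metric.mem_ball_self hε⟩)
  filter_upwards [m1, m2, m3] with L h1 h2 h3 hconv
  obtain ⟨x', hx', hxx⟩ := h2
  obtain ⟨y', hy', hyy⟩ := h3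
  refine h1 (hconv hx' hy' ha hb hab) ?_
  rw [Metric.mem_ball, dist_eq_norm] at hxx hyy
  rw [Metric.mem_closedBall, dist_eq_norm]
  have : a • x' + b • y' - (a • x + b • y) = a • (x' - x) + b • (y' - y) := by
    simp only [smul_sub]; abel
  rw [this]
  calc ‖a • (x' - x) + b • (y' - y)‖ ≤ ‖a • (x' - x)‖ + ‖b • (y' - y)‖ := norm_add_le _ _
    _ = a * ‖x' - x‖ + b * ‖y' - y‖ := by
      rw [norm_smul, norm_smul, Real.norm_eq_abs, Real.norm_eq_abs, abs_of_nonneg ha, abs_of_nonneg hb]
    _ ≤ a * ε + b * ε := by gcongr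
    _ = ε := by rw [← add_mul, hab, one_mul]

lemma isCompact_NC (c : E n) (r R : ℝ) : IsCompact (NC c r R) := by
  refine (NonemptyCompacts.isCompact_subsets_of_isCompact (isCompact_closedBall 0 R)).inter_right
    (isClosed_convex.inter ?_)
  have : {K : NonemptyCompacts (E n) | Metric.closedBall c r ⊆ (K : Set (E n))}
      = ⋂ x ∈ Metric.closedBall c r,
        {K : NonemptyCompacts (E n) | ((K : Set (E n)) ∩ {x}).Nonempty} := by
    ext K
    simp only [mem_ofPred_eq, mem_iInter, inter_singleton_nonempty]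
    rfl
  rw [this]
  exact isClosed_biInter fun x _ => NonemptyCompacts.isClosed_inter_nonempty_of_isClosed isClosed_singleton

lemma NC.CB {c : E n} {r R : ℝ} (hr : 0 < r) {K : NonemptyCompacts (E n)} (hK : K ∈ NC c r R) :
    CB (K : Set (E n)) :=
  ⟨K.isCompact, hK.2.1, ⟨c, interior_mono hK.2.2 (by
    rw [interior_closedBall c hr.ne']; exact Metric.mem_ball_self hr)⟩⟩

lemma exists_near {K L : NonemptyCompacts (E n)} :
    ∀ x ∈ (K : Set (E n)), ∃ y ∈ (L : Set (E n)), dist x y ≤ dist K L := by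
  intro x hx
  obtain ⟨y, hy, h⟩ := L.isCompact.exists_infDist_eq_dist L.nonempty x
  refine ⟨y, hy, ?_⟩
  rw [← h]
  exact Metric.infDist_le_hausdorffDist_of_mem hx (Metric.hausdorffEDist_ne_top_of_nonempty_of_bounded
    K.nonempty L.nonempty K.isCompact.isBounded L.isCompact.isBounded)

lemma FP_nonneg (K : Set (E (n + 1))) : 0 ≤ FP K := div_nonneg (vol_nonneg _) (pow_nonneg (vol_nonneg _) _)

lemma continuousOn_FP {c : E (n + 1)} {r R : ℝ} (hr : 0 < r) :
    ContinuousOn (fun K : NonemptyCompacts (E (n + 1)) => FP (K : Set (E (n + 1)))) (NC c r R) := by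
  intro K hK
  have key : ∀ L ∈ NC c r R, FP (K : Set (E (n + 1))) ≤
      ((1 + dist L K / r) ^ (n * (n + 1))) ^ 2 * FP (L : Set (E (n + 1))) := by
    intro L hL
    exact FP_le (NC.CB hr hK) (NC.CB hr hL) hr hK.2.2 hL.2.2 dist_nonneg exists_near
      (by rw [dist_comm]; exact exists_near)
  have key2 : ∀ L ∈ NC c r R, FP (L : Set (E (n + 1))) ≤
      ((1 + dist L K / r) ^ (n * (n + 1))) ^ 2 * FP (K : Set (E (n + 1))) := by
    intro L hL
    exact FP_le (NC.CB hr hL) (NC.CB hr hK) hr hL.2.2 hK.2.2 dist_nonneg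
      (by rw [dist_comm]; exact exists_near) exists_near
  have hd : Filter.Tendsto (fun L : NonemptyCompacts (E (n + 1)) =>
      ((1 + dist L K / r) ^ (n * (n + 1))) ^ 2) (𝓝[NC c r R] K) (𝓝 1) := by
    have hc : Continuous (fun L : NonemptyCompacts (E (n + 1)) =>
      ((1 + dist L K / r) ^ (n * (n + 1))) ^ 2) := by fun_prop
    have := (hc.tendsto K).mono_left (nhdsWithin_le_nhds (s := NC c r R))
    simpa using this
  have l1 : Filter.Tendsto (fun L : NonemptyCompacts (E (n + 1)) =>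
      FP (K : Set (E (n + 1))) / ((1 + dist L K / r) ^ (n * (n + 1))) ^ 2) (𝓝[NC c r R] K)
      (𝓝 (FP (K : Set (E (n + 1))))) := by
    have h := (tendsto_const_nhds (x := FP (K : Set (E (n + 1))))).div hd one_ne_zero
    rw [div_one] at h
    exact h
  have l2 : Filter.Tendsto (fun L : NonemptyCompacts (E (n + 1)) =>
      ((1 + dist L K / r) ^ (n * (n + 1))) ^ 2 * FP (K : Set (E (n + 1)))) (𝓝[NC c r R] K)
      (𝓝 (FP (K : Set (E (n + 1))))) := by
    simpa using hd.mul_const (FP (K : Set (E (n + 1))))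
  refine tendsto_of_tendsto_of_tendsto_of_le_of_le' l1 l2 ?_ ?_
  · filter_upwards [self_mem_nhdsWithin] with L hL
    rw [div_le_iff₀ (by positivity), mul_comm]
    exact key L hL
  · filter_upwards [self_mem_nhdsWithin] with L hL
    exact key2 L hL

/-- every set which contains the origin and spans has a "maximal" basis in it -/
lemma exists_max_basis {L : Set (E n)} (hL : CB L) :
    ∃ b : Module.Basis (Fin n) ℝ (E n), (∀ i, b i ∈ L) ∧ ∀ x ∈ L, ∀ i, |b.coord i x| ≤ 1 := by
  classical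
  set e : Module.Basis (Fin n) ℝ (E n) := (EuclideanSpace.basisFun (Fin n) ℝ).toBasis with he
  have hspan : Submodule.span ℝ L = ⊤ := by
    have := hL.interior_nonempty
    refine Submodule.eq_top_of_nonempty_interior' _ ?_
    exact this.mono (interior_mono Submodule.subset_span)
  obtain ⟨s, hsL, hss, hsli⟩ := exists_linearIndependent ℝ L
  have hsb : Submodule.span ℝ (range ((↑) : s → E n)) = ⊤ := by
    rw [Subtype.range_coe, hss, hspan]
  set b0 : Module.Basis s ℝ (E n) := Module.Basis.mk hsli hsb.ge with hb0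
  have : Fintype s := FiniteDimensional.fintypeBasisIndex b0
  have hcard : Fintype.card s = n := by
    rw [← Module.finrank_eq_card_basis b0]; simp
  set b1 : Module.Basis (Fin n) ℝ (E n) := b0.reindex (Fintype.equivFinOfCardEq hcard) with hb1
  have hb1L : ∀ i, b1 i ∈ L := by
    intro i
    rw [hb1, Module.Basis.reindex_apply, hb0, Module.Basis.mk_apply]
    exact hsL (Subtype.coe_prop _)
  have hdet1 : e.det b1 ≠ 0 := (e.isUnit_det b1).ne_zero
  have hcomp : IsCompact (Set.univ.pi (fun _ : Fin n => L)) := isCompact_univ_pi fun _ => hL.isCompact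
  have hcont : Continuous (fun v : Fin n → E n => |e.det v|) := by
    have hdet : (fun v : Fin n → E n => |e.det v|) = fun v => |(e.toMatrix v).det| :=
      funext fun v => by rw [Module.Basis.det_apply]
    rw [hdet]
    apply Continuous.abs
    apply Continuous.matrix_det
    apply continuous_matrix
    intro i j
    have : ∀ v : Fin n → E n, e.toMatrix v i j = (v j) i := by
      intro v
      rw [Module.Basis.toMatrix_apply, he, OrthonormalBasis.coe_toBasis_repr_apply,
        EuclideanSpace.basisFun_repr]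
    simp only [this]
    fun_prop
  obtain ⟨v, hv, hmax⟩ := hcomp.exists_isMaxOn ⟨b1, fun i _ => hb1L i⟩ hcont.continuousOn
  have hvdet : 0 < |e.det v| := lt_of_lt_of_le (abs_pos.2 hdet1) (hmax (fun i _ => hb1L i))
  have hbas := (e.is_basis_iff_det (v := v)).2 (isUnit_iff_ne_zero.2 (abs_pos.1 hvdet))
  refine ⟨Module.Basis.mk hbas.1 hbas.2.ge, fun i => ?_, fun x hx i => ?_⟩
  · rw [Module.Basis.mk_apply]; exact hv i (mem_univ _)
  · have h := congrArg (fun f => f x) (e.det_smul_mk_coord_eq_det_update hbas.1 hbas.2.ge i)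
    simp only [LinearMap.smul_apply, smul_eq_mul, MultilinearMap.toLinearMap_apply] at h
    have h2 : |e.det (Function.update v i x)| ≤ |e.det v| := by
      refine hmax (fun j _ => ?_)
      rcases eq_or_ne j i with rfl | hj
      · simpa using hx
      · simpa [Function.update_of_ne hj] using hv j (mem_univ _)
    have h3 : |e.det v| * |(Module.Basis.mk hbas.1 hbas.2.ge).coord i x| ≤ |e.det v| * 1 := by
      rw [← abs_mul, h, mul_one]; exact h2
    exact le_of_mul_le_mul_left h3 hvdet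

/-- normalisation: every convex body is an affine image of one in `NC` -/
lemma exists_normal (n : ℕ) : ∃ (c : E n) (r R : ℝ), 0 < r ∧ (NC c r R).Nonempty ∧
    ∀ L : Set (E n), CB L → ∃ (a : E n) (T : E n ≃ₗ[ℝ] E n) (K : NonemptyCompacts (E n)),
      K ∈ NC c r R ∧ L = a +ᵥ T '' (K : Set (E n)) := by
  classical
  set e : Module.Basis (Fin n) ℝ (E n) := (EuclideanSpace.basisFun (Fin n) ℝ).toBasis with he
  have hep : ∀ i, e i = EuclideanSpace.basisFun (Fin n) ℝ i := fun i => by
    rw [he, OrthonormalBasis.coe_toBasis]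
  -- the simplex
  set Δ : Set (E n) := convexHull ℝ (insert 0 (range e)) with hΔ
  have hint : (interior Δ).Nonempty := by
    rw [hΔ, interior_convexHull_nonempty_iff_affineSpan_eq_top]
    rw [AffineSubspace.affineSpan_eq_top_iff_vectorSpan_eq_top_of_nonempty _ _ _ ⟨0, mem_insert _ _⟩]
    rw [eq_top_iff, ← e.span_eq, Submodule.span_le]
    rintro _ ⟨i, rfl⟩
    have := vsub_mem_vectorSpan ℝ (s := insert 0 (range e)) (mem_insert_of_mem _ (mem_range_self i))
      (mem_insert _ _)
    simpa using this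
  obtain ⟨c, hc⟩ := hint
  obtain ⟨r, hr, hcr⟩ := Metric.nhds_basis_closedBall.mem_iff.1 (mem_interior_iff_mem_nhds.1 hc)
  have main : ∀ L : Set (E n), CB L → ∃ (a : E n) (T : E n ≃ₗ[ℝ] E n) (K : NonemptyCompacts (E n)),
      K ∈ NC c r n ∧ L = a +ᵥ T '' (K : Set (E n)) := by
    intro L hL
    obtain ⟨a, ha⟩ := hL.interior_nonempty
    have haL : a ∈ L := interior_subset ha
    have hL' : CB ((-a) +ᵥ L) := hL.vadd _
    have h0 : (0 : E n) ∈ (-a) +ᵥ L := ⟨a, haL, by simp⟩
    obtain ⟨b, hb1, hb2⟩ := exists_max_basis hL'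
    set T : E n ≃ₗ[ℝ] E n := e.equiv b (Equiv.refl _) with hT
    have hTe : ∀ i, T (e i) = b i := fun i => by rw [hT, Module.Basis.equiv_apply]; rfl
    have hCB : CB (T.symm '' ((-a) +ᵥ L)) := hL'.image T.symm
    refine ⟨a, T, ⟨⟨T.symm '' ((-a) +ᵥ L), hCB.isCompact⟩, hCB.nonempty⟩, ⟨?_, hCB.convex, ?_⟩, ?_⟩
    · rintro _ ⟨x, hx, rfl⟩
      have h1 : T.symm x = ∑ i, b.coord i x • e i := by
        apply T.injective
        rw [LinearEquiv.apply_symm_apply, map_sum]
        simp only [map_smul, hTe, Module.Basis.coord_apply]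
        exact (b.sum_repr x).symm
      rw [Metric.mem_closedBall, dist_zero_right, h1]
      calc ‖∑ i, b.coord i x • e i‖ ≤ ∑ i, ‖b.coord i x • e i‖ := norm_sum_le _ _
        _ ≤ ∑ i : Fin n, (1 : ℝ) := by
          apply Finset.sum_le_sum
          intro i _
          rw [norm_smul, hep, OrthonormalBasis.norm_eq_one, mul_one]
          exact hb2 x hx i
        _ = n := by simp
    · refine hcr.trans ?_
      rw [hΔ]
      refine convexHull_min ?_ hCB.convex
      rintro y (rfl | ⟨i, rfl⟩)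
      · exact ⟨0, h0, by simp⟩
      · exact ⟨b i, hb1 i, by rw [← hTe, LinearEquiv.symm_apply_apply]⟩
    · have : T '' (T.symm '' ((-a) +ᵥ L)) = (-a) +ᵥ L := by
        rw [← image_comp]; simp
      change L = a +ᵥ T '' (T.symm '' ((-a) +ᵥ L))
      rw [this, vadd_vadd]; simp
  refine ⟨c, r, n, hr, ?_, main⟩
  obtain ⟨a, T, K, hK, -⟩ := main _ (CB_ball n)
  exact ⟨K, hK⟩

lemma FP_affine (a : E (n + 1)) (T : E (n + 1) ≃ₗ[ℝ] E (n + 1)) (K : Set (E (n + 1))) :
    FP (a +ᵥ T '' K) = FP K := by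
  unfold FP
  rw [PB_vadd, vol_vadd, vol_PB_image, vol_image, mul_pow]
  have := det_pos' T
  exact mul_div_mul_left _ _ (by positivity)

theorem exists_minimiser (n : ℕ) : ∃ K : Set (E (n + 1)), CB K ∧ ∀ L : Set (E (n + 1)), CB L →
    vol (PB K) * vol L ^ n ≤ vol (PB L) * vol K ^ n := by
  obtain ⟨c, r, R, hr, hne, hnorm⟩ := exists_normal (n + 1)
  obtain ⟨K, hK, hmin⟩ := (isCompact_NC c r R).exists_isMinOn hne (continuousOn_FP hr)
  have hKC := NC.CB hr hK
  refine ⟨K, hKC, fun L hL => ?_⟩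
  obtain ⟨a, T, L', hL', rfl⟩ := hnorm L hL
  have h : FP (K : Set (E (n + 1))) ≤ FP (a +ᵥ T '' (L' : Set (E (n + 1)))) := by
    rw [FP_affine]; exact hmin hL'
  have hvK := hKC.vol_pos
  have hvL := hL.vol_pos
  unfold FP at h
  rwa [div_le_div_iff₀ (by positivity) (by positivity)] at h

end Crest.Agent.R230
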