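import Crest.Agent.R230.BMeqSlice

/-!
# Equality in the Brunn–Minkowski inequality (row 230)
-/

set_option autoImplicit false
set_option linter.unusedSectionVars false

open MeasureTheory Set Filter Topology
open scoped ENNReal Pointwise

namespace Crest.Agent.R230

variable {V : Type*} [NormedAddCommGroup V] [InnerProductSpace ℝ V] [MeasurableSpace V]
  [BorelSpace V] [FiniteDimensional ℝ V]

/-- The marginals of the two bodies agree up to a translation, which is read off the centroids. -/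
theorem ends_eq {K L : Set V} (hK : IsCompact K) (hKc : Convex ℝ K) (hKi : (interior K).Nonempty)
    (hL : IsCompact L) (hLc : Convex ℝ L) (hLi : (interior L).Nonempty)
    (hK1 : volume.real K = 1) (hL1 : volume.real L = 1) {lam : ℝ} (h0 : 0 < lam) (h1 : lam < 1)
    (hM : volume.real (lam • K + (1 - lam) • L) ≤ 1) {u : V} (hu : ‖u‖ = 1) {b d : ℝ}
    (hb : ∀ x ∈ K, inner ℝ x u ≤ b) (hb' : ∃ x ∈ K, inner ℝ x u = b)
    (hd : ∀ x ∈ L, inner ℝ x u ≤ d) (hd' : ∃ x ∈ L, inner ℝ x u = d) :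
    d = b + ((∫ x in L, inner ℝ x u) - ∫ x in K, inner ℝ x u) := by
  obtain ⟨a, b1, hab, hK2, -, hK4, hK5⟩ := exists_ends hK hKc hKi hu
  obtain ⟨c, d1, hcd, hL2, -, hL4, hL5⟩ := exists_ends hL hLc hLi hu
  have hbb : b1 = b := by
    obtain ⟨x, hx, hx'⟩ := hb'
    obtain ⟨y, hy, hy'⟩ := hK4
    exact le_antisymm (hy' ▸ hb y hy) (hx' ▸ (hK2 x hx).2)
  have hdd : d1 = d := by
    obtain ⟨x, hx, hx'⟩ := hd'
    obtain ⟨y, hy, hy'⟩ := hL4
    exact le_antisymm (hy' ▸ hd y hy) (hx' ▸ (hL2 x hx).2)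
  subst hbb hdd
  have hMc : IsCompact (lam • K + (1 - lam) • L) := (hK.smul lam).add (hL.smul _)
  obtain ⟨iK1, eK1⟩ := integral_slc_interval hK hu hab hK2 (φ := fun _ => 1) continuous_const
  obtain ⟨iL1, eL1⟩ := integral_slc_interval hL hu hcd hL2 (φ := fun _ => 1) continuous_const
  obtain ⟨iK2, eK2⟩ := integral_slc_interval hK hu hab hK2 (φ := fun s => s) continuous_id
  obtain ⟨iL2, eL2⟩ := integral_slc_interval hL hu hcd hL2 (φ := fun s => s) continuous_id
  simp only [one_mul] at iK1 eK1 iL1 eL1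
  rw [setIntegral_const, smul_eq_mul, mul_one] at eK1 eL1
  obtain ⟨c0, hc, hd0, hg⟩ := one_dim_eq (f := vs u K) (g := vs u L)
    (h := fun s => ENNReal.ofReal (vs u (lam • K + (1 - lam) • L) s)) h0 h1 hab hcd
    (continuousOn_vs hK hKc hu hK5)
    (fun s hs => by obtain ⟨x, hx, rfl⟩ := hK5 s hs; exact vs_pos hK hu hx) iK1
    (by rw [← eK1, hK1])
    (continuousOn_vs hL hLc hu hL5)
    (fun s hs => by obtain ⟨x, hx, rfl⟩ := hL5 s hs; exact vs_pos hL hu hx) iL1
    (by rw [← eL1, hL1])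
    (fun s _ t _ => ENNReal.ofReal_le_ofReal (vs_comb hK hL u s t h0 h1))
    (by
      rw [lintegral_slc hMc hu, ← ENNReal.ofReal_toReal hMc.measure_lt_top.ne]
      exact ENNReal.ofReal_le_one.2 hM)
  have key : (∫ x in L, inner ℝ x u) = (∫ x in K, inner ℝ x u) + c0 := by
    rw [eK2, eL2, hc, hd0, ← intervalIntegral.integral_comp_add_right]
    have e3 : ∫ s in a..b1, (s + c0) * vs u L (s + c0) = ∫ s in a..b1, (s * vs u K s + c0 * vs u K s) := by
      rw [intervalIntegral.integral_of_le hab.le, intervalIntegral.integral_of_le hab.le,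
        integral_Ioc_eq_integral_Ioo, integral_Ioc_eq_integral_Ioo]
      apply setIntegral_congr_fun measurableSet_Ioo
      intro s hs
      simp only
      rw [hg s hs]; ring
    rw [e3, intervalIntegral.integral_add iK2 (iK1.const_mul c0), intervalIntegral.integral_const_mul,
      ← eK1, hK1, mul_one]
  rw [key, hd0]; ring

/-- Equality in Brunn–Minkowski for bodies of volume one. -/
theorem bm_eq_normalized {K L : Set V} (hK : IsCompact K) (hKc : Convex ℝ K)
    (hKi : (interior K).Nonempty)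
    (hL : IsCompact L) (hLc : Convex ℝ L) (hLi : (interior L).Nonempty)
    (hK1 : volume.real K = 1) (hL1 : volume.real L = 1) {lam : ℝ} (h0 : 0 < lam) (h1 : lam < 1)
    (hM : volume.real (lam • K + (1 - lam) • L) ≤ 1) :
    ∃ x0 : V, L = (fun x => x0 + x) '' K := by
  have hKn : K.Nonempty := hKi.mono interior_subset
  have hLn : L.Nonempty := hLi.mono interior_subset
  set x0 : V := (∫ x in L, x) - ∫ x in K, x with hx0
  have hint : ∀ {A : Set V}, IsCompact A → IntegrableOn (fun x : V => x) A volume := fun hA =>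
    continuousOn_id.integrableOn_compact hA
  have hinner : ∀ u : V, inner ℝ x0 u = (∫ x in L, inner ℝ x u) - ∫ x in K, inner ℝ x u := by
    intro u
    have h2 : ∀ {A : Set V}, IsCompact A → ∫ x in A, inner ℝ x u = inner ℝ (∫ x in A, x) u := by
      intro A hA
      have := integral_inner (𝕜 := ℝ) (μ := volume.restrict A) (f := fun x : V => x) (hint hA) u
      rw [real_inner_comm, ← this]
      congr 1
      funext x
      exact real_inner_comm _ _
    rw [hx0, inner_sub_left, h2 hL, h2 hK]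
  refine ⟨x0, ?_⟩
  -- comparison of support functions
  have hsupp : ∀ u : V, ‖u‖ = 1 → ∃ b : ℝ, (∀ x ∈ K, inner ℝ x u ≤ b) ∧ (∃ x ∈ K, inner ℝ x u = b) ∧
      (∀ x ∈ L, inner ℝ x u ≤ b + inner ℝ x0 u) ∧ (∃ x ∈ L, inner ℝ x u = b + inner ℝ x0 u) := by
    intro u hu
    obtain ⟨p, hp, hpm⟩ := hK.exists_isMaxOn hKn (f := fun x : V => (inner ℝ x u : ℝ)) (by fun_prop)
    obtain ⟨q, hq, hqm⟩ := hL.exists_isMaxOn hLn (f := fun x : V => (inner ℝ x u : ℝ)) (by fun_prop)
    have h2 := ends_eq hK hKc hKi hL hLc hLi hK1 hL1 h0 h1 hM hu (b := inner ℝ p u)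
      (d := inner ℝ q u) (fun x hx => hpm hx) ⟨p, hp, rfl⟩ (fun x hx => hqm hx) ⟨q, hq, rfl⟩
    rw [← hinner] at h2
    refine ⟨inner ℝ p u, fun x hx => hpm hx, ⟨p, hp, rfl⟩, ?_, ⟨q, hq, h2⟩⟩
    intro x hx
    rw [← h2]
    exact hqm hx
  have hsep : ∀ {A : Set V} (z : V), IsCompact A → Convex ℝ A → A.Nonempty → z ∉ A →
      ∃ u : V, ‖u‖ = 1 ∧ ∀ x ∈ A, (inner ℝ x u : ℝ) < inner ℝ z u := by
    intro A z hA hAc hAn hz
    obtain ⟨f, s, hf1, hf2⟩ := geometric_hahn_banach_closed_point hAc hA.isClosed hz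
    set v := (InnerProductSpace.toDual ℝ V).symm f with hv
    have hfv : ∀ y, f y = inner ℝ y v := by
      intro y
      rw [hv, real_inner_comm, InnerProductSpace.toDual_symm_apply]
    have hv0 : v ≠ 0 := by
      intro hv0
      obtain ⟨y, hy⟩ := hAn
      have h2 := hf1 y hy
      rw [hfv, hv0, inner_zero_right] at h2 hf2
      linarith
    have hvp : 0 < ‖v‖ := norm_pos_iff.2 hv0
    refine ⟨‖v‖⁻¹ • v, by rw [norm_smul, norm_inv, norm_norm, inv_mul_cancel₀ hvp.ne'], ?_⟩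
    intro x hx
    rw [inner_smul_right, inner_smul_right]
    apply mul_lt_mul_of_pos_left _ (inv_pos.2 hvp)
    rw [← hfv, ← hfv]
    exact (hf1 x hx).trans hf2
  apply Subset.antisymm
  · intro z hz
    by_contra hcon
    have hz' : z - x0 ∉ K := by
      intro h
      exact hcon ⟨z - x0, h, by simp⟩
    obtain ⟨u, hu, hsu⟩ := hsep (z - x0) hK hKc hKn hz'
    obtain ⟨b, -, ⟨p, hp, hpb⟩, hb3, -⟩ := hsupp u hu
    have h2 := hsu p hp
    rw [hpb, inner_sub_left] at h2
    have h3 := hb3 z hz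
    linarith
  · rintro _ ⟨y, hy, rfl⟩
    by_contra hcon
    obtain ⟨u, hu, hsu⟩ := hsep (x0 + y) hL hLc hLn hcon
    obtain ⟨b, hb1, -, -, ⟨q, hq, hqb⟩⟩ := hsupp u hu
    have h2 := hsu q hq
    rw [hqb, inner_add_left] at h2
    have h3 := hb1 y hy
    linarith

/-- **Equality in Brunn–Minkowski**: the bodies are homothetic. -/
theorem BM_eq (hn : 0 < Module.finrank ℝ V) {K L : Set V} (hK : IsCompact K) (hKc : Convex ℝ K)
    (hKi : (interior K).Nonempty) (hL : IsCompact L) (hLc : Convex ℝ L)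
    (hLi : (interior L).Nonempty) (h : rt (K + L) ≤ rt K + rt L) :
    ∃ (c : ℝ) (a : V), 0 < c ∧ L = (fun x => a + c • x) '' K := by
  have hα : 0 < rt K := rt_pos (volume_real_pos_of_interior hK hKi)
  have hβ : 0 < rt L := rt_pos (volume_real_pos_of_interior hL hLi)
  set α := rt K with hαd
  set β := rt L with hβd
  have hs : 0 < α + β := by positivity
  have hα' : α⁻¹ ≠ 0 := (inv_pos.2 hα).ne'
  have hβ' : β⁻¹ ≠ 0 := (inv_pos.2 hβ).ne'
  have e1 : volume.real (α⁻¹ • K) = 1 := by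
    rw [← rt_pow hn, rt_smul hn _ (by positivity), ← hαd, inv_mul_cancel₀ hα.ne', one_pow]
  have e2 : volume.real (β⁻¹ • L) = 1 := by
    rw [← rt_pow hn, rt_smul hn _ (by positivity), ← hβd, inv_mul_cancel₀ hβ.ne', one_pow]
  have e3 : (α / (α + β)) • α⁻¹ • K + (1 - α / (α + β)) • β⁻¹ • L = (α + β)⁻¹ • (K + L) := by
    rw [smul_add, smul_smul, smul_smul]
    congr 2
    · field_simp
    · field_simp
      ring
  have e4 : volume.real ((α / (α + β)) • α⁻¹ • K + (1 - α / (α + β)) • β⁻¹ • L) ≤ 1 := by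
    rw [e3, ← rt_pow hn, rt_smul hn _ (by positivity)]
    apply pow_le_one₀ (mul_nonneg (by positivity) (rt_nonneg _))
    rw [inv_mul_eq_div]
    exact (div_le_one hs).2 h
  obtain ⟨x0, hx0⟩ := bm_eq_normalized (K := α⁻¹ • K) (L := β⁻¹ • L) (hK.smul _) (hKc.smul _)
    (by rw [interior_smul₀ hα']; exact hKi.smul_set) (hL.smul _) (hLc.smul _)
    (by rw [interior_smul₀ hβ']; exact hLi.smul_set) e1 e2
    (div_pos hα hs) ((div_lt_one hs).2 (by linarith)) e4
  refine ⟨β / α, β • x0, by positivity, ?_⟩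
  have h5 : L = β • (β⁻¹ • L) := by rw [smul_smul, mul_inv_cancel₀ hβ.ne', one_smul]
  rw [h5, hx0]
  ext z
  simp only [mem_smul_set, mem_image]
  constructor
  · rintro ⟨_, ⟨_, ⟨x, hx, rfl⟩, rfl⟩, rfl⟩
    refine ⟨x, hx, ?_⟩
    rw [smul_add, smul_smul, div_eq_mul_inv]
  · rintro ⟨x, hx, rfl⟩
    refine ⟨_, ⟨_, ⟨x, hx, rfl⟩, rfl⟩, ?_⟩
    rw [smul_add, smul_smul, div_eq_mul_inv]

end Crest.Agent.R230
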