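import Crest.Agent.R230.Basic
import Crest.Agent.R230.BMeqGen

/-!
# Brunn–Minkowski with equality, in the form of the skeleton (row 230, task E)
-/

set_option autoImplicit false

open MeasureTheory Set
open scoped Pointwise ENNReal

namespace Crest.Agent.R230

variable {n : ℕ}

lemma rt_eq_vol (K : Set (E (n + 1))) : rt K = vol K ^ (1 / ((n : ℝ) + 1)) := by
  unfold rt vol
  rw [finrank_euclideanSpace_fin, measureReal_def]
  push_cast
  rfl

theorem brunn_minkowski {K L : Set (E (n + 1))} (hK : IsCompact K) (hL : IsCompact L)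
    (hK0 : K.Nonempty) (hL0 : L.Nonempty) :
    vol K ^ (1 / ((n : ℝ) + 1)) + vol L ^ (1 / ((n : ℝ) + 1)) ≤ vol (K + L) ^ (1 / ((n : ℝ) + 1)) := by
  rw [← rt_eq_vol, ← rt_eq_vol, ← rt_eq_vol]
  exact BM_add (by rw [finrank_euclideanSpace_fin]; omega) hK hL hK0 hL0

theorem brunn_minkowski_eq {K L : Set (E (n + 1))} (hK : CB K) (hL : CB L)
    (h : vol (K + L) ^ (1 / ((n : ℝ) + 1)) ≤ vol K ^ (1 / ((n : ℝ) + 1)) + vol L ^ (1 / ((n : ℝ) + 1))) :
    ∃ (a : E (n + 1)) (r : ℝ), 0 < r ∧ K = a +ᵥ r • L := by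
  rw [← rt_eq_vol, ← rt_eq_vol, ← rt_eq_vol] at h
  obtain ⟨c, a, hc, hKL⟩ := BM_eq (by rw [finrank_euclideanSpace_fin]; omega) hL.isCompact hL.convex
    hL.interior_nonempty hK.isCompact hK.convex hK.interior_nonempty
    (K := L) (L := K) (by rw [add_comm L K, add_comm (rt L)]; exact h)
  refine ⟨a, c, hc, ?_⟩
  rw [hKL]
  ext z
  simp only [mem_vadd_set, mem_smul_set, mem_image, vadd_eq_add]
  constructor
  · rintro ⟨x, hx, rfl⟩
    exact ⟨c • x, ⟨x, hx, rfl⟩, rfl⟩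
  · rintro ⟨_, ⟨x, hx, rfl⟩, rfl⟩
    exact ⟨x, hx, rfl⟩

end Crest.Agent.R230
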