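import Crest.Agent.R230.Mink
import Crest.Agent.R230.BMEq

/-!
Equality case of Minkowski's first inequality.
-/

set_option autoImplicit false

open MeasureTheory Set
open scoped Pointwise ENNReal

namespace Crest.Agent.R230

variable {n : ℕ}

theorem minkowski_first_eq {K L : Set (E (n + 1))} (hK : CB K) (h0 : (0 : E (n + 1)) ∈ interior K)
    (hL : CB L) (h : V1 K L ^ (n + 1) ≤ vol K ^ n * vol L) :
    ∃ (a : E (n + 1)) (r : ℝ), 0 < r ∧ K = a +ᵥ r • L := by
  refine brunn_minkowski_eq hK hL (le_of_eq ?_)
  have h1 := rt_add_of_minkowski_eq hK h0 hL h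
  unfold rt at h1
  rw [finrank_E] at h1
  push_cast at h1
  exact h1

end Crest.Agent.R230
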