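import Crest.Agent.R230.Bright
import Crest.Agent.R230.SupportPB

/-!
# Row 230, part G: `V_1(K,Π²K) = |ΠK|`
-/

set_option autoImplicit false

open MeasureTheory Set
open scoped Pointwise ENNReal

namespace Crest.Agent.R230

variable {n : ℕ}

theorem integrable_abs_inner_nu {K L : Set (E n)} (hK : CB K) (h0 : (0 : E n) ∈ interior K)
    (hL : CB L) (hL0 : (0 : E n) ∈ interior L) :
    Integrable (Function.uncurry fun x y => |inner ℝ (nu L y) (nu K x)|)
      ((volume.restrict K).prod (volume.restrict L)) := by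
  obtain ⟨C, hC⟩ := norm_nu_le hK h0
  obtain ⟨D, hD⟩ := norm_nu_le hL hL0
  have hKf : IsFiniteMeasure ((volume : Measure (E n)).restrict K) :=
    ⟨by rw [Measure.restrict_apply_univ]; exact hK.isCompact.measure_lt_top⟩
  have hLf : IsFiniteMeasure ((volume : Measure (E n)).restrict L) :=
    ⟨by rw [Measure.restrict_apply_univ]; exact hL.isCompact.measure_lt_top⟩
  have hm : Measurable (Function.uncurry fun x y : E n => |inner ℝ (nu L y) (nu K x)|) := by
    have h1 : Measurable (fun p : E n × E n => nu L p.2) := (measurable_nu L).comp measurable_snd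
    have h2 : Measurable (fun p : E n × E n => nu K p.1) := (measurable_nu K).comp measurable_fst
    exact (h1.inner h2).abs
  refine Integrable.of_bound hm.aestronglyMeasurable (D * C) (Filter.Eventually.of_forall ?_)
  rintro ⟨x, y⟩
  simp only [Function.uncurry_apply_pair, Real.norm_eq_abs, abs_abs]
  refine (abs_real_inner_le_norm _ _).trans ?_
  exact mul_le_mul (hD y) (hC x) (norm_nonneg _) ((norm_nonneg _).trans (hD y))

theorem V1_PB_PB {K : Set (E (n + 1))} (hK : CB K) (h0 : (0 : E (n + 1)) ∈ interior K) :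
    V1 K (PB (PB K)) = vol (PB K) := by
  have hP := CB_PB hK
  have hP0 := zero_mem_interior_PB hK
  have h1 : V1 K (PB (PB K)) = ∫ x in K, (((n + 1 : ℕ) : ℝ) / 2) *
      ∫ y in PB K, |inner ℝ (nu (PB K) y) (nu K x)| := by
    unfold V1
    refine integral_congr_ae (Filter.Eventually.of_forall fun x => ?_)
    simp only
    rw [hs_PB hP, sh_eq_integral hP hP0]
  have h2 : vol (PB K) = ∫ y in PB K, (((n + 1 : ℕ) : ℝ) / 2) *
      ∫ x in K, |inner ℝ (nu K x) (nu (PB K) y)| := by
    have h3 : ∫ y in PB K, (((n + 1 : ℕ) : ℝ) / 2) *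
        ∫ x in K, |inner ℝ (nu K x) (nu (PB K) y)| = ∫ y in PB K, (1 : ℝ) := by
      refine integral_congr_ae ?_
      filter_upwards [ae_hs_nu hP hP0] with y hy
      rw [← sh_eq_integral hK h0, ← hs_PB hK, hy]
    rw [h3]
    simp [vol, Measure.real]
  rw [h1, h2, integral_const_mul, integral_const_mul]
  congr 1
  rw [integral_integral_swap (integrable_abs_inner_nu hK h0 hP hP0)]
  simp_rw [real_inner_comm]

end Crest.Agent.R230
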