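import Mathlib.MeasureTheory.Measure.Haar.InnerProductSpace
import Mathlib.MeasureTheory.Measure.Lebesgue.EqHaar
import Mathlib.Analysis.Convex.Topology
import Crest.Agent.Lib.PrekopaLeindler

/-!
Brunn-Minkowski inequality for compact sets in a finite dimensional inner product space.
-/

set_option autoImplicit false

open MeasureTheory Set
open scoped ENNReal Pointwise

namespace Crest.Agent.R230

open Crest.Agent.Lib.PrekopaLeindler

variable {E : Type*} [NormedAddCommGroup E] [InnerProductSpace ℝ E] [FiniteDimensional ℝ E]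
  [MeasurableSpace E] [BorelSpace E]

theorem PL_inner : PL E volume := by
  have b := stdOrthonormalBasis ℝ E
  refine PL.of_measurePreserving (fun x => b.repr.symm x) ?_ ?_ (PL_euclidean (Module.finrank ℝ E))
  · exact b.measurePreserving_repr_symm
  · intro a c x y
    simp

/-- multiplicative Brunn-Minkowski for compact sets. -/
theorem BM_mult {A B : Set E} (hA : IsCompact A) (hB : IsCompact B) {t : ℝ} (h0 : 0 < t)
    (h1 : t < 1) :
    volume A ^ (1 - t) * volume B ^ t ≤ volume ((1 - t) • A + t • B) := by
  have hC : IsCompact ((1 - t) • A + t • B) := (hA.smul (1 - t)).add (hB.smul t)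
  have key := PL_inner (E := E) t h0 h1 (A.indicator 1) (B.indicator 1)
    (((1 - t) • A + t • B).indicator 1)
    (measurable_one.indicator hA.measurableSet) (measurable_one.indicator hB.measurableSet)
    (measurable_one.indicator hC.measurableSet) ?_
  · rw [lintegral_indicator_one hA.measurableSet, lintegral_indicator_one hB.measurableSet,
      lintegral_indicator_one hC.measurableSet] at key
    exact key
  · intro x y
    by_cases hx : x ∈ A
    · by_cases hy : y ∈ B
      · have : (1 - t) • x + t • y ∈ (1 - t) • A + t • B :=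
          Set.add_mem_add (Set.smul_mem_smul_set hx) (Set.smul_mem_smul_set hy)
        simp [hx, hy, this]
      · simp only [indicator_of_notMem hy]
        rw [ENNReal.zero_rpow_of_pos h0, mul_zero]
        exact bot_le
    · simp only [indicator_of_notMem hx]
      rw [ENNReal.zero_rpow_of_pos (by linarith), zero_mul]
      exact bot_le

/-- volume of a compact set as a real number -/
lemma volume_lt_top_of_compact {A : Set E} (hA : IsCompact A) : volume A < ∞ := hA.measure_lt_top

lemma volume_real_smul (A : Set E) (c : ℝ) :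
    volume.real (c • A) = |c| ^ (Module.finrank ℝ E) * volume.real A := by
  rw [measureReal_def, Measure.addHaar_smul, ENNReal.toReal_mul, ENNReal.toReal_ofReal (abs_nonneg _),
    abs_pow, measureReal_def]

/-- multiplicative Brunn-Minkowski, real version -/
theorem BM_mult_real {A B : Set E} (hA : IsCompact A) (hB : IsCompact B) {t : ℝ} (h0 : 0 < t)
    (h1 : t < 1) :
    volume.real A ^ (1 - t) * volume.real B ^ t ≤ volume.real ((1 - t) • A + t • B) := by
  have hC : IsCompact ((1 - t) • A + t • B) := (hA.smul (1 - t)).add (hB.smul t)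
  have := ENNReal.toReal_mono (volume_lt_top_of_compact hC).ne (BM_mult hA hB h0 h1)
  rw [ENNReal.toReal_mul, ← ENNReal.toReal_rpow, ← ENNReal.toReal_rpow] at this
  exact this

/-- the `n`-th root of the volume -/
noncomputable def rt (A : Set E) : ℝ := volume.real A ^ ((1 : ℝ) / Module.finrank ℝ E)

lemma rt_nonneg (A : Set E) : 0 ≤ rt A := Real.rpow_nonneg measureReal_nonneg _

lemma rt_pow (hn : 0 < Module.finrank ℝ E) (A : Set E) : rt A ^ Module.finrank ℝ E = volume.real A := by
  rw [rt, ← Real.rpow_natCast, ← Real.rpow_mul measureReal_nonneg]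
  have : (Module.finrank ℝ E : ℝ) ≠ 0 := by exact_mod_cast hn.ne'
  rw [one_div, inv_mul_cancel₀ this, Real.rpow_one]

lemma rt_smul (hn : 0 < Module.finrank ℝ E) (A : Set E) {c : ℝ} (hc : 0 ≤ c) :
    rt (c • A) = c * rt A := by
  rw [rt, volume_real_smul, Real.mul_rpow (by positivity) measureReal_nonneg, abs_of_nonneg hc,
    ← Real.rpow_natCast, ← Real.rpow_mul hc]
  have : (Module.finrank ℝ E : ℝ) ≠ 0 := by exact_mod_cast hn.ne'
  rw [mul_one_div_cancel this, Real.rpow_one, rt]

lemma rt_mono {A B : Set E} (hB : IsCompact B) (h : A ⊆ B) : rt A ≤ rt B :=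
  Real.rpow_le_rpow measureReal_nonneg
    (measureReal_mono h (volume_lt_top_of_compact hB).ne) (by positivity)

lemma rt_pos {A : Set E} (h : 0 < volume.real A) : 0 < rt A := Real.rpow_pos_of_pos h _

lemma volume_real_pos_of_interior {A : Set E} (hA : IsCompact A) (h : (interior A).Nonempty) :
    0 < volume.real A := by
  rw [measureReal_def, ENNReal.toReal_pos_iff]
  exact ⟨Measure.measure_pos_of_nonempty_interior _ h, volume_lt_top_of_compact hA⟩

/-- **Brunn-Minkowski**. -/
theorem BM_add (hn : 0 < Module.finrank ℝ E) {A B : Set E} (hA : IsCompact A) (hB : IsCompact B)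
    (hA0 : A.Nonempty) (hB0 : B.Nonempty) : rt A + rt B ≤ rt (A + B) := by
  have hAB : IsCompact (A + B) := hA.add hB
  have hnR : (Module.finrank ℝ E : ℝ) ≠ 0 := by exact_mod_cast hn.ne'
  rcases (rt_nonneg A).eq_or_lt with h | ha
  · rw [← h, zero_add]
    obtain ⟨a, ha⟩ := hA0
    have h1 : rt ((fun x => a + x) '' B) ≤ rt (A + B) := by
      refine rt_mono hAB ?_
      rintro _ ⟨x, hx, rfl⟩
      exact Set.add_mem_add ha hx
    have h2 : rt ((fun x => a + x) '' B) = rt B := by
      unfold rt
      congr 1
      rw [measureReal_def, measureReal_def, Set.image_add_left, measure_preimage_add]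
    linarith
  rcases (rt_nonneg B).eq_or_lt with h | hb
  · rw [← h, add_zero]
    obtain ⟨b, hb⟩ := hB0
    have h1 : rt ((fun x => x + b) '' A) ≤ rt (A + B) := by
      refine rt_mono hAB ?_
      rintro _ ⟨x, hx, rfl⟩
      exact Set.add_mem_add hx hb
    have h2 : rt ((fun x => x + b) '' A) = rt A := by
      unfold rt
      congr 1
      rw [measureReal_def, measureReal_def, Set.image_add_right, measure_preimage_add_right]
    linarith
  -- main case
  set a := rt A
  set b := rt B
  set t := b / (a + b) with ht
  have hab : 0 < a + b := by positivity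
  have ht0 : 0 < t := by positivity
  have ht1 : t < 1 := by rw [ht, div_lt_one hab]; linarith
  have h1t : 1 - t = a / (a + b) := by rw [ht]; field_simp; ring
  have key := BM_mult_real (hA.smul (a⁻¹)) (hB.smul (b⁻¹)) ht0 ht1
  have e1 : volume.real (a⁻¹ • A) = 1 := by
    rw [← rt_pow hn, rt_smul hn _ (by positivity)]
    simp [a, ha.ne']
  have e2 : volume.real (b⁻¹ • B) = 1 := by
    rw [← rt_pow hn, rt_smul hn _ (by positivity)]
    simp [b, hb.ne']
  rw [e1, e2, Real.one_rpow, Real.one_rpow, one_mul] at key
  have e3 : (1 - t) • a⁻¹ • A + t • b⁻¹ • B = (a + b)⁻¹ • (A + B) := by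
    rw [smul_add, smul_smul, smul_smul, h1t, ht]
    congr 2 <;> field_simp
  rw [e3, ← rt_pow hn, rt_smul hn _ (by positivity)] at key
  have h3 : 1 ≤ (a + b)⁻¹ * rt (A + B) := by
    by_contra hcon
    push Not at hcon
    have : ((a + b)⁻¹ * rt (A + B)) ^ Module.finrank ℝ E < 1 :=
      pow_lt_one₀ (mul_nonneg (by positivity) (rt_nonneg _)) hcon hn.ne'
    linarith
  rw [inv_mul_eq_div, le_div_iff₀ hab] at h3
  linarith

/-- Brunn-Minkowski for combinations -/
theorem BM_comb (hn : 0 < Module.finrank ℝ E) {A B : Set E} (hA : IsCompact A) (hB : IsCompact B)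
    (hA0 : A.Nonempty) (hB0 : B.Nonempty) {s t : ℝ} (hs : 0 ≤ s) (ht : 0 ≤ t) :
    s * rt A + t * rt B ≤ rt (s • A + t • B) := by
  have := BM_add hn (hA.smul s) (hB.smul t) (hA0.smul_set) (hB0.smul_set)
  rwa [rt_smul hn _ hs, rt_smul hn _ ht] at this

end Crest.Agent.R230
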