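import Crest.Agent.R230.FirstVar
import Crest.Agent.R230.BM
import Mathlib.MeasureTheory.Integral.IntervalIntegral.FundThmCalculus
import Mathlib.Analysis.SpecialFunctions.Integrals.Basic

/-!
Minkowski's first inequality in gauge form, with the reduction of the equality case.
-/

set_option autoImplicit false
set_option linter.unusedSectionVars false

open MeasureTheory Set Filter Topology
open scoped ENNReal Pointwise NNReal

namespace Crest.Agent.R230.G

variable {E : Type*} [NormedAddCommGroup E] [InnerProductSpace ℝ E] [FiniteDimensional ℝ E]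
variable [MeasurableSpace E] [BorelSpace E]
variable {K L : Set E} (hK : Body K) (hL : IsCompact L) (hL0 : L.Nonempty)

include hK hL in
lemma vol_add_mono (t : ℝ) {s s' : ℝ} (hs : 0 ≤ s) (hss : s ≤ s') :
    volume.real (s • K + t • L) ≤ volume.real (s' • K + t • L) := by
  refine measureReal_mono ?_ ((hK.cpt.smul s').add (hL.smul t)).measure_lt_top.ne
  refine Set.add_subset_add_right ?_
  intro x hx
  rw [← hK.gauge_le_iff' hs] at hx
  rw [← hK.gauge_le_iff' (hs.trans hss)]
  exact hx.trans hss

include hK hL in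
lemma intervalIntegrable_vol (t : ℝ) {a b : ℝ} (ha : 0 ≤ a) (hab : a ≤ b) :
    IntervalIntegrable (fun s => volume.real (s • K + t • L)) volume a b := by
  refine MonotoneOn.intervalIntegrable fun x hx y hy hxy => ?_
  rw [uIcc_of_le hab] at hx
  exact vol_add_mono hK hL t (ha.trans hx.1) hxy

include hK hL hL0 in
/-- concavity bound along the segment -/
lemma rt_seg_ge (hn : 0 < Module.finrank ℝ E) {T : ℝ} (hT : 0 < T) {s τ : ℝ} (hτ : 0 ≤ τ)
    (hs : τ ≤ T * s) :
    s * rt K + τ * ((rt (K + T • L) - rt K) / T) ≤ rt (s • K + τ • L) := by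
  have h1 : 0 ≤ s - τ / T := by rw [sub_nonneg, div_le_iff₀ hT]; linarith
  have h2 : 0 ≤ τ / T := by positivity
  have h3 := BM_comb hn hK.cpt (hK.cpt.add (hL.smul T)) hK.nonempty
    (hK.nonempty.add (hL0.smul_set)) h1 h2
  have h4 : (s - τ / T) • K + (τ / T) • (K + T • L) = s • K + τ • L := by
    rw [smul_add, ← add_assoc, ← hK.cvx.add_smul h1 h2, smul_smul, sub_add_cancel,
      div_mul_cancel₀ _ hT.ne']
  rw [h4] at h3
  refine le_trans (le_of_eq ?_) h3
  field_simp
  ring

lemma pow_add_sub_ge {x y : ℝ} (hx : 0 ≤ x) (hy : 0 ≤ y) (n : ℕ) :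
    (n : ℝ) * x ^ (n - 1) * y ≤ (x + y) ^ n - x ^ n := by
  have h := one_add_mul_le_pow_of_nonneg' hx hy n
  linarith
where
  one_add_mul_le_pow_of_nonneg' {x y : ℝ} (hx : 0 ≤ x) (hy : 0 ≤ y) (n : ℕ) :
      (n : ℝ) * x ^ (n - 1) * y + x ^ n ≤ (x + y) ^ n := by
    induction n with
    | zero => simp
    | succ n ih =>
      have h1 : (x + y) ^ (n + 1) = (x + y) ^ n * (x + y) := pow_succ _ _
      have h2 : ((n : ℝ) * x ^ (n - 1) * y + x ^ n) * (x + y) ≤ (x + y) ^ n * (x + y) :=
        mul_le_mul_of_nonneg_right ih (by positivity)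
      have h3 : ((n : ℝ) * x ^ (n - 1) * y + x ^ n) * (x + y) =
          ((n : ℝ) * (x ^ (n - 1) * x) * y + x ^ n * x + x ^ n * y) +
            (n : ℝ) * x ^ (n - 1) * y * y := by ring
      have h4 : (n : ℝ) * (x ^ (n - 1) * x) * y = (n : ℝ) * x ^ n * y := by
        rcases Nat.eq_zero_or_pos n with rfl | hn
        · simp
        · rw [← pow_succ, Nat.sub_add_cancel hn]
      have h5 : 0 ≤ (n : ℝ) * x ^ (n - 1) * y * y := by positivity
      rw [h1]
      refine le_trans ?_ h2
      rw [h3, h4, Nat.add_sub_cancel, pow_succ]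
      push_cast
      nlinarith

include hK hL hL0 in
/-- The basic inequality. -/
theorem V1_ge (hn : 0 < Module.finrank ℝ E) {T : ℝ} (hT : 0 < T) :
    rt K ^ (Module.finrank ℝ E - 1) * (rt (K + T • L) - rt K) ≤ T * V1 K L := by
  set n := Module.finrank ℝ E with hnd
  set a := rt K with ha
  set d := (rt (K + T • L) - rt K) / T with hd
  have ha0 : 0 ≤ a := rt_nonneg K
  have hBM := BM_comb hn hK.cpt hL hK.nonempty hL0 zero_le_one hT.le
  rw [one_smul, one_mul] at hBM
  have hd0 : 0 ≤ d := by
    refine div_nonneg ?_ hT.le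
    have := mul_nonneg hT.le (rt_nonneg L)
    linarith
  have hdT : rt (K + T • L) - rt K = T * d := by rw [hd]; field_simp
  rw [hdT]
  have key : a ^ (n - 1) * d ≤ V1 K L := by
    have hlim := firstVar hK hL hL0
    have hlow : Tendsto (fun τ : ℝ => a ^ (n - 1) * d * (1 - (τ / T) ^ n)) (𝓝[>] 0)
        (𝓝 (a ^ (n - 1) * d * (1 - (0 / T) ^ n))) := by
      refine Tendsto.mono_left (Continuous.tendsto ?_ 0) nhdsWithin_le_nhds
      fun_prop
    rw [zero_div, zero_pow hn.ne', sub_zero, mul_one] at hlow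
    refine le_of_tendsto_of_tendsto hlow hlim ?_
    filter_upwards [Ioo_mem_nhdsGT hT] with τ hτ
    have hτ0 : 0 < τ := hτ.1
    set c := τ / T with hc
    have hc0 : 0 < c := by positivity
    have hc1 : c ≤ 1 := by rw [hc, div_le_one hT]; exact hτ.2.le
    rw [← div_eq_inv_mul, le_div_iff₀ hτ0]
    have hi1 := intervalIntegrable_vol hK hL τ le_rfl zero_le_one
    have hi0' : (fun s : ℝ => volume.real (s • K)) = fun s : ℝ => volume.real (s • K + (0:ℝ) • L) := by
      ext s; rw [zero_smul_set hL0, add_zero]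
    have hi0 : IntervalIntegrable (fun s : ℝ => volume.real (s • K)) volume 0 1 := by
      rw [hi0']; exact intervalIntegrable_vol hK hL 0 le_rfl zero_le_one
    rw [← intervalIntegral.integral_sub hi1 hi0]
    have hsub1 : IntervalIntegrable (fun s : ℝ => volume.real (s • K + τ • L) -
        volume.real (s • K)) volume 0 c :=
      (hi1.sub hi0).mono_set (by
        rw [uIcc_of_le hc0.le, uIcc_of_le zero_le_one]; exact Icc_subset_Icc_right hc1)
    have hsub2 : IntervalIntegrable (fun s : ℝ => volume.real (s • K + τ • L) -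
        volume.real (s • K)) volume c 1 :=
      (hi1.sub hi0).mono_set (by
        rw [uIcc_of_le hc1, uIcc_of_le zero_le_one]; exact Icc_subset_Icc_left hc0.le)
    rw [← intervalIntegral.integral_add_adjacent_intervals hsub1 hsub2]
    have hA : 0 ≤ ∫ s in (0:ℝ)..c, (volume.real (s • K + τ • L) - volume.real (s • K)) := by
      refine intervalIntegral.integral_nonneg hc0.le fun s hs => ?_
      rw [sub_nonneg, ← rt_pow hn, ← rt_pow hn]
      refine pow_le_pow_left₀ (rt_nonneg _) ?_ _
      have := BM_comb hn hK.cpt hL hK.nonempty hL0 hs.1 hτ0.le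
      have h2 := mul_nonneg hτ0.le (rt_nonneg L)
      rw [rt_smul hn _ hs.1]
      linarith
    have hB : ∫ s in c..1, (n : ℝ) * (s * a) ^ (n - 1) * (τ * d) ≤
        ∫ s in c..1, (volume.real (s • K + τ • L) - volume.real (s • K)) := by
      refine intervalIntegral.integral_mono_on hc1 ?_ hsub2 fun s hs => ?_
      · exact Continuous.intervalIntegrable (by fun_prop) _ _
      · have hs0 : 0 ≤ s := hc0.le.trans hs.1
        have h1 : τ ≤ T * s := by
          have := hs.1
          rw [hc, div_le_iff₀ hT] at this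
          linarith
        have h2 := rt_seg_ge hK hL hL0 hn hT hτ0.le h1
        rw [← rt_pow hn, ← rt_pow hn, rt_smul hn _ hs0]
        have h3 := pow_add_sub_ge (x := s * a) (y := τ * d) (by positivity) (by positivity) n
        refine h3.trans ?_
        refine sub_le_sub_right ?_ _
        exact pow_le_pow_left₀ (by positivity) h2 _
    have hC : ∫ s in c..1, (n : ℝ) * (s * a) ^ (n - 1) * (τ * d) =
        a ^ (n - 1) * d * (1 - c ^ n) * τ := by
      have h1 : (fun s : ℝ => (n : ℝ) * (s * a) ^ (n - 1) * (τ * d)) =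
          fun s : ℝ => (n * a ^ (n - 1) * (τ * d)) * s ^ (n - 1) := by
        ext s; rw [mul_pow]; ring
      rw [h1, intervalIntegral.integral_const_mul, integral_pow, Nat.sub_add_cancel hn, one_pow]
      have h2 : ((n - 1 : ℕ) : ℝ) + 1 = n := by
        rw [Nat.cast_sub hn]; simp
      rw [h2]
      have h3 : (n : ℝ) ≠ 0 := by exact_mod_cast hn.ne'
      field_simp
    linarith
  have := mul_le_mul_of_nonneg_left key hT.le
  linarith

include hK hL hL0 in
/-- **Minkowski's first inequality**. -/
theorem minkowski_first (hn : 0 < Module.finrank ℝ E) :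
    rt K ^ (Module.finrank ℝ E - 1) * rt L ≤ V1 K L := by
  have h1 := V1_ge hK hL hL0 hn zero_lt_one
  have h2 := BM_comb hn hK.cpt hL hK.nonempty hL0 zero_le_one zero_le_one
  rw [one_smul, one_mul, one_mul, one_smul] at h2
  rw [one_smul, one_mul] at h1
  refine le_trans ?_ h1
  refine mul_le_mul_of_nonneg_left (by linarith) (pow_nonneg (rt_nonneg K) _)

include hK hL hL0 in
/-- equality in Minkowski's first inequality gives equality in Brunn-Minkowski -/
theorem minkowski_first_eq (hn : 0 < Module.finrank ℝ E)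
    (h : V1 K L ≤ rt K ^ (Module.finrank ℝ E - 1) * rt L) :
    rt (K + L) = rt K + rt L := by
  have h1 := V1_ge hK hL hL0 hn zero_lt_one
  have h2 := BM_comb hn hK.cpt hL hK.nonempty hL0 zero_le_one zero_le_one
  rw [one_smul, one_mul, one_mul, one_smul] at h2
  rw [one_smul, one_mul] at h1
  have hpos : 0 < rt K ^ (Module.finrank ℝ E - 1) :=
    pow_pos (rt_pos (volume_real_pos_of_interior hK.cpt ⟨0, hK.zero_mem_interior⟩)) _
  have h3 : rt (K + L) - rt K ≤ rt L := le_of_mul_le_mul_left (h1.trans h) hpos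
  linarith

include hK in
/-- `n`-th power form: `|K|^(n-1) |L| ≤ V1(K,L)^n`. -/
theorem minkowski_first_pow (hn : 0 < Module.finrank ℝ E) (hL : IsCompact L) (hL0 : L.Nonempty) :
    volume.real K ^ (Module.finrank ℝ E - 1) * volume.real L ≤ V1 K L ^ Module.finrank ℝ E := by
  have h := minkowski_first hK hL hL0 hn
  have h0 : 0 ≤ rt K ^ (Module.finrank ℝ E - 1) * rt L :=
    mul_nonneg (pow_nonneg (rt_nonneg K) _) (rt_nonneg L)
  have h2 := pow_le_pow_left₀ h0 h (Module.finrank ℝ E)
  rwa [mul_pow, rt_pow hn, ← pow_mul, mul_comm (Module.finrank ℝ E - 1), pow_mul, rt_pow hn] at h2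

end Crest.Agent.R230.G
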