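import Crest.Agent.R230.Basic
import Crest.Agent.R230.MinkG

/-!
Bridge from the general gauge calculus (namespace `R230.G`) to the frozen interface.
-/

set_option autoImplicit false
set_option linter.unusedSectionVars false

open MeasureTheory Set
open scoped Pointwise ENNReal

namespace Crest.Agent.R230

variable {n : ℕ}

lemma CB.body {K : Set (E n)} (hK : CB K) (h0 : (0 : E n) ∈ interior K) : G.Body K :=
  ⟨hK.isCompact, hK.convex, mem_interior_iff_mem_nhds.1 h0⟩

lemma nu_eq_G (K : Set (E n)) : nu K = G.nu K := rfl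

lemma hs_eq_G (L : Set (E n)) : hs L = G.hs L := by
  funext v
  unfold hs G.hs
  congr 1
  refine image_congr fun x _ => ?_
  exact real_inner_comm _ _

lemma V1_eq_G (K L : Set (E n)) : V1 K L = G.V1 K L := by
  unfold V1 G.V1
  rw [hs_eq_G, nu_eq_G]

lemma finrank_E (n : ℕ) : Module.finrank ℝ (E n) = n := by simp

theorem measurable_nu (K : Set (E n)) : Measurable (nu K) := G.Body.measurable_nu K

theorem norm_nu_le {K : Set (E n)} (hK : CB K) (h0 : (0 : E n) ∈ interior K) :
    ∃ C, ∀ x, ‖nu K x‖ ≤ C := by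
  obtain ⟨C, _, h⟩ := (hK.body h0).exists_norm_nu_le
  exact ⟨C, h⟩

theorem minkowski_first {K L : Set (E (n + 1))} (hK : CB K) (h0 : (0 : E (n + 1)) ∈ interior K)
    (hL : CB L) : vol K ^ n * vol L ≤ V1 K L ^ (n + 1) := by
  have h := G.minkowski_first_pow (hK.body h0) (L := L) (by rw [finrank_E]; omega) hL.isCompact
    hL.nonempty
  rw [finrank_E, Nat.add_sub_cancel] at h
  rw [V1_eq_G]
  exact h

/-- equality in Minkowski implies equality in Brunn-Minkowski -/
theorem rt_add_of_minkowski_eq {K L : Set (E (n + 1))} (hK : CB K)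
    (h0 : (0 : E (n + 1)) ∈ interior K) (hL : CB L) (h : V1 K L ^ (n + 1) ≤ vol K ^ n * vol L) :
    rt (K + L) = rt K + rt L := by
  have hn : 0 < Module.finrank ℝ (E (n + 1)) := by rw [finrank_E]; omega
  refine G.minkowski_first_eq (hK.body h0) hL.isCompact hL.nonempty hn ?_
  rw [← V1_eq_G]
  have h1 : V1 K L ^ (n + 1) ≤ (rt K ^ (Module.finrank ℝ (E (n + 1)) - 1) * rt L) ^ (n + 1) := by
    rw [mul_pow, ← pow_mul, mul_comm (Module.finrank ℝ (E (n + 1)) - 1), pow_mul]
    have e1 : rt K ^ (n + 1) = vol K := by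
      have := rt_pow hn K
      rw [finrank_E] at this
      exact this
    have e2 : rt L ^ (n + 1) = vol L := by
      have := rt_pow hn L
      rw [finrank_E] at this
      exact this
    rw [e1, e2, finrank_E, Nat.add_sub_cancel]
    exact h
  exact le_of_pow_le_pow_left₀ (Nat.succ_ne_zero n)
    (mul_nonneg (pow_nonneg (rt_nonneg K) _) (rt_nonneg L)) h1

end Crest.Agent.R230
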