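import Crest.Agent.R230.SliceCore
import Crest.Agent.R230.Frame
import Crest.Agent.R230.SupportPB
import Crest.Agent.R230.Mink
import Crest.Agent.R230.Bright

/-!
# Row 230: the slice inequality (M)
-/

set_option autoImplicit false

open MeasureTheory Set
open scoped Pointwise ENNReal

namespace Crest.Agent.R230

variable {n : ℕ}

/-! ### H: the slice inequality (M) (SliceM.lean) -/

theorem slice_ineq (hn : 1 ≤ n) {c : ℝ} (hc : 0 ≤ c)
    (hP : ∀ L : Set (E n), CB L → c * vol L ^ (n - 1) ≤ vol (PB L))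
    {K : Set (E (n + 1))} (hK : CB K) {e : E (n + 1)} (he : ‖e‖ = 1) (hn2 : 2 ≤ n) :
    c * NK K e ≤ sh (PB K) e := by
  obtain ⟨m, rfl⟩ : ∃ m, n = m + 1 := ⟨n - 1, by omega⟩
  obtain ⟨F⟩ := exists_frame e he
  have hM : CB (PB K) := CB_PB hK
  have hsh : sh (PB K) e = vol (F.shadow (PB K)) := by
    have := sh_eq_shadow hM.isCompact hM.convex he F (c := 1) zero_le_one
    simpa using this
  exact slice_ineq_core hn2 hc (by simpa using hP) hK he F hM (zero_mem_interior_PB hK)
    (hs_PB hK) hsh (area_eq he F) (fun _ hL => CB_PB hL) (fun _ hL => zero_mem_interior_PB hL)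
    (fun _ hL => hs_PB hL) (fun _ _ hQ hQ0 hL => minkowski_first hQ hQ0 hL)
    (fun _ hQ hQ0 => ae_hs_nu hQ hQ0) measurable_nu

end Crest.Agent.R230
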