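import Crest.Agent.R230.PBBasic
import Crest.Agent.R230.SupportPB
import Crest.Agent.R230.MinkEq
import Crest.Agent.R230.Bright
import Crest.Agent.R230.MixedPB
import Crest.Agent.R230.SliceM
import Crest.Agent.R230.Minimiser
import Crest.Agent.R230.Ball
import Crest.Agent.R230.BallPB
import Crest.Agent.R230.BaseTwo

set_option autoImplicit false

open MeasureTheory Set
open scoped Pointwise ENNReal

namespace Crest.Agent.R230

variable {n : ℕ}

/-- `K` minimises `|ΠK| / |K|^n` in dimension `n + 1`. -/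
def IsMin (K : Set (E (n + 1))) : Prop :=
  ∀ L : Set (E (n + 1)), CB L → vol (PB K) * vol L ^ n ≤ vol (PB L) * vol K ^ n

lemma cpos (n : ℕ) : 0 < κ (n - 1) ^ n / κ n ^ (n - 2) := by
  have := κ_pos (n - 1); have := κ_pos n; positivity

theorem min_is_ellipsoid (hn : 2 ≤ n) (hP : PettyIneq n) (hE : CruxE n) {K : Set (E (n + 1))}
    (hK : CB K) (hmin : IsMin K) :
    ∃ (a : E (n + 1)) (T : E (n + 1) ≃ₗ[ℝ] E (n + 1)),
      K = (fun x => a + T x) '' Metric.closedBall 0 1 := by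
  obtain ⟨x0, hx0⟩ := hK.interior_nonempty
  set K0 : Set (E (n + 1)) := (-x0) +ᵥ K with hK0def
  have hK0 : CB K0 := hK.vadd _
  have h00 : (0 : E (n + 1)) ∈ interior K0 := by
    rw [hK0def, interior_vadd]
    exact ⟨x0, hx0, by simp⟩
  set M := PB K0 with hMdef
  have hM : CB M := CB_PB hK0
  set L := PB M with hLdef
  have hL : CB L := CB_PB hM
  have hPBK : PB K = M := by rw [hMdef, hK0def, PB_vadd]
  have hvolK0 : vol K0 = vol K := vol_vadd _ _
  have hV1 : V1 K0 L = vol M := V1_PB_PB hK0 h00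
  have h1 : vol M * vol M ^ n ≤ vol L * vol K0 ^ n := by
    have := hmin M hM
    rwa [hPBK, ← hvolK0] at this
  obtain ⟨a, r, hr, hKa⟩ := minkowski_first_eq hK0 h00 hL (by
    rw [hV1, pow_succ]; nlinarith [h1])
  set K1 : Set (E (n + 1)) := r • L with hK1def
  have hK1 : CB K1 := by
    have : K1 = (-a) +ᵥ K0 := by
      rw [hKa, vadd_vadd]; simp
    rw [this]; exact hK0.vadd _
  have hM1 : PB K1 = M := by
    rw [hMdef, hKa, PB_vadd]
  have hvolK1 : vol K1 = vol K := by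
    rw [← hvolK0, hKa, vol_vadd]
  have h0L : (0 : E (n + 1)) ∈ interior L := zero_mem_interior_PB hM
  have h01 : (0 : E (n + 1)) ∈ interior K1 := by
    rw [hK1def, interior_smul₀ hr.ne']
    exact ⟨0, h0L, by simp⟩
  have hsymm : ∀ x ∈ K1, -x ∈ K1 := by
    rintro x ⟨y, hy, rfl⟩
    exact ⟨-y, neg_mem_PB hy, by simp⟩
  have hLK : L = r⁻¹ • K1 := by
    rw [hK1def, smul_smul, inv_mul_cancel₀ hr.ne', one_smul]
  have hsL : ∀ u, hs L u = r⁻¹ * hs K1 u := by
    intro u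
    conv_lhs => rw [hLK]
    rw [hs_smul_set (inv_nonneg.2 hr.le)]
  have hvM : vol M = r⁻¹ * vol K1 := by
    have h := V1_PB_PB hK1 h01
    rw [hM1, ← hLdef] at h
    rw [← h]
    unfold V1
    have h2 : ∫ x in K1, hs L (nu K1 x) = ∫ x in K1, r⁻¹ := by
      apply integral_congr_ae
      filter_upwards [ae_hs_nu hK1 h01] with x hx
      rw [hsL, hx, mul_one]
    rw [h2]
    simp [vol, Measure.real, mul_comm]
  have hvK1 : 0 < vol K1 := hK1.vol_pos
  have hr' : r⁻¹ = vol M / vol K1 := by rw [hvM]; field_simp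
  have hκ := κ_pos (n + 1)
  have hκn := κ_pos n
  have hκm := κ_pos (n - 1)
  have hball : vol M * κ (n + 1) ^ (n - 1) ≤ κ n ^ (n + 1) * vol K1 ^ n := by
    have := hmin _ (CB_ball (n + 1))
    rw [hPBK, vol_closedBall, vol_PB_ball, ← hvolK1] at this
    have h3 : κ (n + 1) ^ n = κ (n + 1) ^ (n - 1) * κ (n + 1) := by
      rw [← pow_succ]; congr 1; omega
    rw [h3] at this
    have h4 : (vol M * κ (n + 1) ^ (n - 1)) * κ (n + 1) ≤ (κ n ^ (n + 1) * vol K1 ^ n) * κ (n + 1) := by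
      nlinarith [this]
    exact le_of_mul_le_mul_right h4 hκ
  obtain ⟨T, hT⟩ := hE K1 hK1 hsymm (fun e he => by
    have hsl := slice_ineq (n := n) (by omega) (cpos n).le (fun L hL => by
      have := hP L hL
      rw [div_mul_eq_mul_div, div_le_iff₀ (by positivity)]
      exact this) hK1 he hn
    rw [hM1, ← hs_PB hM e, ← hLdef, hsL, hr'] at hsl
    -- c * NK ≤ (vol M / vol K1) * hs K1 e
    have hhs : 0 ≤ hs K1 e := by
      unfold hs
      apply Real.sSup_nonneg'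
      exact ⟨0, ⟨0, interior_subset h01, by simp⟩, le_rfl⟩
    have hNK : NK K1 e ≤ (vol M / vol K1 * hs K1 e) / (κ (n - 1) ^ n / κ n ^ (n - 2)) := by
      rw [le_div_iff₀ (cpos n)]; linarith [mul_comm (NK K1 e) (κ (n - 1) ^ n / κ n ^ (n - 2))]
    refine hNK.trans ?_
    have e1 : (vol M / vol K1 * hs K1 e) / (κ (n - 1) ^ n / κ n ^ (n - 2))
        = (vol M * κ (n + 1) ^ (n - 1)) * (κ n ^ (n - 2) * hs K1 e /
          (κ (n - 1) ^ n * vol K1 * κ (n + 1) ^ (n - 1))) := by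
      field_simp
    have e2 : NB n * (vol K1 / κ (n + 1)) ^ (n - 1) * hs K1 e
        = (κ n ^ (n + 1) * vol K1 ^ n) * (κ n ^ (n - 2) * hs K1 e /
          (κ (n - 1) ^ n * vol K1 * κ (n + 1) ^ (n - 1))) := by
      unfold NB
      have h5 : κ n ^ (2 * n - 1) = κ n ^ (n + 1) * κ n ^ (n - 2) := by
        rw [← pow_add]; congr 1; omega
      have h6 : vol K1 ^ n = vol K1 ^ (n - 1) * vol K1 := by
        rw [← pow_succ]; congr 1; omega
      rw [h5, h6, div_pow]
      field_simp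
    rw [e1, e2]
    gcongr)
  refine ⟨x0 + a, T, ?_⟩
  have hK' : K = x0 +ᵥ (a +ᵥ K1) := by
    rw [← hKa, hK0def, vadd_vadd]; simp
  rw [hK', hT]
  ext y
  simp only [mem_vadd_set, mem_image, vadd_eq_add]
  constructor
  · rintro ⟨_, ⟨_, ⟨x, hx, rfl⟩, rfl⟩, rfl⟩
    exact ⟨x, hx, by rw [add_assoc]⟩
  · rintro ⟨x, hx, rfl⟩
    exact ⟨_, ⟨_, ⟨x, hx, rfl⟩, rfl⟩, by rw [add_assoc]⟩

lemma ellipsoid_vol (a : E (n + 1)) (T : E (n + 1) ≃ₗ[ℝ] E (n + 1)) :
    vol ((fun x => a + T x) '' Metric.closedBall 0 1)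
      = |LinearMap.det (T : E (n + 1) →ₗ[ℝ] E (n + 1))| * κ (n + 1) ∧
    vol (PB ((fun x => a + T x) '' Metric.closedBall 0 1))
      = |LinearMap.det (T : E (n + 1) →ₗ[ℝ] E (n + 1))| ^ n * (κ n ^ (n + 1) * κ (n + 1)) := by
  have h : (fun x => a + T x) '' Metric.closedBall (0 : E (n + 1)) 1
      = a +ᵥ (T '' Metric.closedBall 0 1) := by
    ext y
    simp only [mem_vadd_set, mem_image, vadd_eq_add]
    constructor
    · rintro ⟨x, hx, rfl⟩; exact ⟨_, ⟨x, hx, rfl⟩, rfl⟩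
    · rintro ⟨_, ⟨x, hx, rfl⟩, rfl⟩; exact ⟨x, hx, rfl⟩
  rw [h]
  constructor
  · rw [vol_vadd, vol_image, vol_closedBall]
  · rw [PB_vadd, vol_PB_image, vol_PB_ball]

theorem petty_step (hn : 2 ≤ n) (hP : PettyIneq n) (hE : CruxE n) {K : Set (E (n + 1))} (hK : CB K) :
    κ n ^ (n + 1) * vol K ^ n ≤ vol (PB K) * κ (n + 1) ^ (n - 1) ∧
    (κ n ^ (n + 1) * vol K ^ n = vol (PB K) * κ (n + 1) ^ (n - 1) ↔
      ∃ (a : E (n + 1)) (T : E (n + 1) ≃ₗ[ℝ] E (n + 1)),
        K = (fun x => a + T x) '' Metric.closedBall 0 1) := by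
  have hκ := κ_pos (n + 1)
  have hκn := κ_pos n
  have h3 : κ (n + 1) ^ n = κ (n + 1) ^ (n - 1) * κ (n + 1) := by
    rw [← pow_succ]; congr 1; omega
  have main : ∀ L : Set (E (n + 1)), CB L →
      κ n ^ (n + 1) * vol L ^ n ≤ vol (PB L) * κ (n + 1) ^ (n - 1) := by
    intro L hL
    obtain ⟨K0, hK0, hmin⟩ := exists_minimiser n
    obtain ⟨a, T, rfl⟩ := min_is_ellipsoid hn hP hE hK0 hmin
    have h := hmin L hL
    obtain ⟨h1, h2⟩ := ellipsoid_vol a T
    rw [h1, h2] at h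
    have hd := det_pos' T
    set d := |LinearMap.det (T : E (n + 1) →ₗ[ℝ] E (n + 1))|
    rw [mul_pow, h3] at h
    have h4 : (κ n ^ (n + 1) * vol L ^ n) * (d ^ n * κ (n + 1)) ≤
        (vol (PB L) * κ (n + 1) ^ (n - 1)) * (d ^ n * κ (n + 1)) := by
      nlinarith [h]
    exact le_of_mul_le_mul_right h4 (by positivity)
  refine ⟨main K hK, ?_, ?_⟩
  · intro heq
    refine min_is_ellipsoid hn hP hE hK ?_
    intro L hL
    have h := main L hL
    have h4 : (vol (PB K) * vol L ^ n) * (κ (n + 1) ^ (n - 1) * κ n ^ (n + 1)) ≤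
        (vol (PB L) * vol K ^ n) * (κ (n + 1) ^ (n - 1) * κ n ^ (n + 1)) := by
      calc (vol (PB K) * vol L ^ n) * (κ (n + 1) ^ (n - 1) * κ n ^ (n + 1))
          = (vol (PB K) * κ (n + 1) ^ (n - 1)) * (κ n ^ (n + 1) * vol L ^ n) := by ring
        _ = (κ n ^ (n + 1) * vol K ^ n) * (κ n ^ (n + 1) * vol L ^ n) := by rw [heq]
        _ ≤ (κ n ^ (n + 1) * vol K ^ n) * (vol (PB L) * κ (n + 1) ^ (n - 1)) := by
            have : 0 ≤ vol K := hK.vol_pos.le
            gcongr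
        _ = _ := by ring
    exact le_of_mul_le_mul_right h4 (by positivity)
  · rintro ⟨a, T, rfl⟩
    obtain ⟨h1, h2⟩ := ellipsoid_vol a T
    rw [h1, h2, mul_pow, h3]
    ring

theorem petty_all (hE : ∀ n, 2 ≤ n → CruxE n) : ∀ n, 2 ≤ n → PettyIneq n := by
  intro n hn
  induction n, hn using Nat.le_induction with
  | base => exact petty_two
  | succ n hn ih =>
    intro K hK
    have := (petty_step hn ih (hE n hn) hK).1
    have e1 : n + 1 - 1 = n := by omega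
    have e2 : n + 1 - 2 = n - 1 := by omega
    rw [e1, e2]
    exact this

/-- Everything except the crux: the frozen statement S0354. -/
theorem S0354_of_crux (hE : ∀ n, 2 ≤ n → CruxE n) (n : ℕ) (hn : 4 ≤ n)
    (K : Set (EuclideanSpace ℝ (Fin n))) (hK : IsCompact K) (hKc : Convex ℝ K) (hKi : (interior K).Nonempty) :
    volume (Metric.ball (0 : EuclideanSpace ℝ (Fin (n - 1))) 1) ^ n * volume K ^ (n - 1) ≤
        volume (⋂ u ∈ Metric.sphere (0 : EuclideanSpace ℝ (Fin n)) 1,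
          {x : EuclideanSpace ℝ (Fin n) | inner ℝ x u ≤
            ((μHE[n - 1] : Measure (EuclideanSpace ℝ (Fin n))) ((fun y => y - inner ℝ y u • u) '' K)).toReal}) *
          volume (Metric.ball (0 : EuclideanSpace ℝ (Fin n)) 1) ^ (n - 2) ∧
      (volume (Metric.ball (0 : EuclideanSpace ℝ (Fin (n - 1))) 1) ^ n * volume K ^ (n - 1) =
          volume (⋂ u ∈ Metric.sphere (0 : EuclideanSpace ℝ (Fin n)) 1,
          {x : EuclideanSpace ℝ (Fin n) | inner ℝ x u ≤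
            ((μHE[n - 1] : Measure (EuclideanSpace ℝ (Fin n))) ((fun y => y - inner ℝ y u • u) '' K)).toReal}) *
            volume (Metric.ball (0 : EuclideanSpace ℝ (Fin n)) 1) ^ (n - 2) ↔
        ∃ (a : EuclideanSpace ℝ (Fin n)) (T : EuclideanSpace ℝ (Fin n) ≃ₗ[ℝ] EuclideanSpace ℝ (Fin n)),
          K = (fun x => a + T x) '' Metric.closedBall 0 1) := by
  obtain ⟨m, rfl⟩ : ∃ m, n = m + 1 := ⟨n - 1, by omega⟩
  have hCB : CB K := ⟨hK, hKc, hKi⟩
  have key := petty_step (n := m) (by omega) (petty_all hE m (by omega)) (hE m (by omega)) hCB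
  simp only [Nat.add_sub_cancel] at *
  rw [← PB_eq hK hKc]
  have e2 : m + 1 - 2 = m - 1 := by omega
  rw [e2]
  have hPB : CB (PB K) := CB_PB hCB
  have f1 : volume (Metric.ball (0 : E m) 1) ≠ ∞ := measure_ball_lt_top.ne
  have f2 : volume (Metric.ball (0 : E (m + 1)) 1) ≠ ∞ := measure_ball_lt_top.ne
  have f3 : volume K ≠ ∞ := hK.measure_lt_top.ne
  have f4 : volume (PB K) ≠ ∞ := hPB.isCompact.measure_lt_top.ne
  have g1 : volume (Metric.ball (0 : E m) 1) ^ (m + 1) * volume K ^ m ≠ ∞ :=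
    ENNReal.mul_ne_top (ENNReal.pow_ne_top f1) (ENNReal.pow_ne_top f3)
  have g2 : volume (PB K) * volume (Metric.ball (0 : E (m + 1)) 1) ^ (m - 1) ≠ ∞ :=
    ENNReal.mul_ne_top f4 (ENNReal.pow_ne_top f2)
  have r1 : (volume (Metric.ball (0 : E m) 1) ^ (m + 1) * volume K ^ m).toReal
      = κ m ^ (m + 1) * vol K ^ m := by
    rw [ENNReal.toReal_mul, ENNReal.toReal_pow, ENNReal.toReal_pow]; rfl
  have r2 : (volume (PB K) * volume (Metric.ball (0 : E (m + 1)) 1) ^ (m - 1)).toReal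
      = vol (PB K) * κ (m + 1) ^ (m - 1) := by
    rw [ENNReal.toReal_mul, ENNReal.toReal_pow]; rfl
  refine ⟨?_, ?_⟩
  · rw [← ENNReal.toReal_le_toReal g1 g2, r1, r2]
    exact key.1
  · rw [← ENNReal.toReal_eq_toReal_iff' g1 g2, r1, r2]
    exact key.2

end Crest.Agent.R230
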