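import Crest.Agent.R230.ConeDivG
import Crest.Agent.R230.Mink

/-!
Divergence theorem in gauge form (interface versions).
-/

set_option autoImplicit false

open MeasureTheory Set
open scoped Pointwise ENNReal

namespace Crest.Agent.R230

variable {n : ℕ}

theorem cone_div {K : Set (E (n + 1))} (hK : CB K) (h0 : (0 : E (n + 1)) ∈ interior K) (ψ : ℝ → ℝ)
    (hψ : ContDiff ℝ 1 ψ) (e v : E (n + 1)) :
    (n + 1) * ∫ x in K, ψ (inner ℝ x e / gauge K x) * inner ℝ (nu K x) v =
      inner ℝ e v * ∫ x in K, deriv ψ (inner ℝ x e) := by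
  have h := G.cone_div_gen (hK.body h0) hψ e v
  rw [finrank_E] at h
  push_cast at h
  exact h

theorem cone_scale {K : Set (E (n + 1))} (hK : CB K) (h0 : (0 : E (n + 1)) ∈ interior K) (ψ : ℝ → ℝ)
    (hψ : ContDiff ℝ 1 ψ) (e : E (n + 1)) :
    (n + 1) * ∫ x in K, ψ (inner ℝ x e / gauge K x) =
      ∫ x in K, ((n + 1) * ψ (inner ℝ x e) + inner ℝ x e * deriv ψ (inner ℝ x e)) := by
  have h := G.cone_scale_gen (hK.body h0) hψ e (Ω := fun _ => 1) measurable_const
    (fun _ _ _ => rfl) (B := 1) (by simp)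
  rw [finrank_E] at h
  push_cast at h
  simpa using h

end Crest.Agent.R230
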