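import Crest.Agent.R230.DefsE
import Crest.Agent.R230.Ball
import Crest.Agent.R230.Bright

/-!
# Row 230, S: the equality case
-/

set_option autoImplicit false

open MeasureTheory Set Filter Topology
open scoped Pointwise ENNReal

namespace Crest.Agent.R230

variable {n : ℕ}

namespace EqC

/-- the operator of the second moments -/
noncomputable def mOp (K : Set (E n)) : E n →L[ℝ] E n := ∫ x in K, (innerSL ℝ x).smulRight x

lemma inner_mOp {K : Set (E n)} (hK : IsCompact K) (u v : E n) :
    inner ℝ (mOp K u) v = ∫ x in K, inner ℝ x u * inner ℝ x v := by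
  have hi : IntegrableOn (fun x : E n => (innerSL ℝ x).smulRight x) K := by
    apply ContinuousOn.integrableOn_compact hK
    exact Continuous.continuousOn (by fun_prop)
  have hi3 : IntegrableOn (fun x : E n => (inner ℝ x u) • x) K := by
    apply ContinuousOn.integrableOn_compact hK
    exact Continuous.continuousOn (by fun_prop)
  have h1 : mOp K u = (∫ x in K, (inner ℝ x u) • x) := by
    unfold mOp
    rw [ContinuousLinearMap.integral_apply hi]
    rfl
  rw [h1, real_inner_comm, ← integral_inner hi3]
  simp only [inner_smul_right]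
  refine integral_congr_ae (Filter.Eventually.of_forall fun x => ?_)
  simp only [real_inner_comm]

lemma mOp_symm {K : Set (E n)} (hK : IsCompact K) :
    ((mOp K : E n →L[ℝ] E n) : E n →ₗ[ℝ] E n).IsSymmetric := by
  intro u v
  change inner ℝ (mOp K u) v = inner ℝ u (mOp K v)
  rw [real_inner_comm (mOp K v) u, inner_mOp hK, inner_mOp hK]
  refine integral_congr_ae (Filter.Eventually.of_forall fun x => ?_)
  simp only
  ring

lemma integral_sq_pos {K : Set (E n)} (hK : CB K) {v : E n} (hv : v ≠ 0) :
    0 < ∫ x in K, (inner ℝ x v) ^ 2 := by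
  have hc : Continuous fun x : E n => (inner ℝ x v : ℝ) ^ 2 := by fun_prop
  rw [setIntegral_pos_iff_support_of_nonneg_ae (Eventually.of_forall fun x => sq_nonneg _)
    (hc.continuousOn.integrableOn_compact hK.isCompact)]
  have h1 : (interior K ∩ {x | (inner ℝ x v : ℝ) ≠ 0}) ⊆ (Function.support fun x : E n => (inner ℝ x v : ℝ) ^ 2) ∩ K := by
    rintro x ⟨hx, hx2⟩
    exact ⟨by simpa using hx2, interior_subset hx⟩
  refine lt_of_lt_of_le ?_ (measure_mono h1)
  have hopen : IsOpen (interior K ∩ {x : E n | (inner ℝ x v : ℝ) ≠ 0}) := by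
    refine isOpen_interior.inter ?_
    exact isOpen_ne_fun (by fun_prop) (by fun_prop)
  refine hopen.measure_pos volume ?_
  obtain ⟨z, hz⟩ := hK.interior_nonempty
  by_cases h0 : (inner ℝ z v : ℝ) = 0
  · -- move in the direction v
    have hcont : Tendsto (fun t : ℝ => z + t • v) (𝓝[>] 0) (𝓝 z) := by
      have : Continuous fun t : ℝ => z + t • v := by fun_prop
      have := (this.tendsto 0).mono_left (nhdsWithin_le_nhds (s := Ioi 0))
      simpa using this
    have h2 : ∀ᶠ t : ℝ in 𝓝[>] 0, z + t • v ∈ interior K := hcont (isOpen_interior.mem_nhds hz)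
    obtain ⟨t, ht, ht0⟩ := (h2.and self_mem_nhdsWithin).exists
    refine ⟨z + t • v, ht, ?_⟩
    simp only [mem_ofPred_eq, inner_add_left, h0, inner_smul_left, zero_add, conj_trivial,
      real_inner_self_eq_norm_sq]
    have ht0' : (0 : ℝ) < t := ht0
    have : 0 < ‖v‖ := norm_pos_iff.2 hv
    positivity
  · exact ⟨z, hz, h0⟩

/-- square root of the second moment form -/
lemma exists_sqrt {K : Set (E n)} (hK : CB K) {c : ℝ} (hc : 0 < c) :
    ∃ S : E n ≃ₗ[ℝ] E n, (∀ u v : E n, (inner ℝ (S u) v : ℝ) = inner ℝ u (S v)) ∧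
      ∀ v : E n, ‖S v‖ ^ 2 = c * ∫ x in K, (inner ℝ x v) ^ 2 := by
  have hsym := mOp_symm hK.isCompact
  have hfr : Module.finrank ℝ (E n) = n := by simp
  set b := hsym.eigenvectorBasis hfr with hb
  set μ := hsym.eigenvalues hfr with hμ
  have hbe : ∀ i, mOp K (b i) = μ i • b i := fun i => by
    have := hsym.apply_eigenvectorBasis hfr i
    exact this
  have hμ2 : ∀ i, μ i = ∫ x in K, (inner ℝ x (b i)) ^ 2 := by
    intro i
    have h1 := inner_mOp hK.isCompact (b i) (b i)
    rw [hbe, inner_smul_left, real_inner_self_eq_norm_sq, b.norm_eq_one] at h1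
    simp only [conj_trivial, one_pow, mul_one] at h1
    rw [h1]
    refine integral_congr_ae (Filter.Eventually.of_forall fun x => ?_)
    simp only
    ring
  have hμpos : ∀ i, 0 < μ i := fun i => by
    rw [hμ2]
    exact integral_sq_pos hK (by
      intro h
      have := b.norm_eq_one i
      rw [h] at this
      simp at this)
  have hs : ∀ i, IsUnit (Real.sqrt (c * μ i)) := fun i =>
    isUnit_iff_ne_zero.2 (Real.sqrt_pos.2 (mul_pos hc (hμpos i))).ne'
  set S : E n ≃ₗ[ℝ] E n := b.toBasis.equiv (b.toBasis.isUnitSMul hs) (Equiv.refl _) with hS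
  have hSb : ∀ i, S (b i) = Real.sqrt (c * μ i) • b i := by
    intro i
    have h1 := b.toBasis.equiv_apply i (b.toBasis.isUnitSMul hs) (Equiv.refl _)
    have h2 := b.toBasis.isUnitSMul_apply hs i
    rw [Equiv.refl_apply, h2] at h1
    simpa only [OrthonormalBasis.coe_toBasis] using h1
  have hSv : ∀ v : E n, ∀ i, (inner ℝ (b i) (S v) : ℝ) = Real.sqrt (c * μ i) * inner ℝ (b i) v := by
    intro v i
    conv_lhs => rw [← b.sum_repr' v]
    rw [map_sum, inner_sum]
    rw [Finset.sum_eq_single i]
    · rw [map_smul, hSb, inner_smul_right, inner_smul_right, real_inner_self_eq_norm_sq, b.norm_eq_one]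
      ring
    · intro j _ hj
      rw [map_smul, hSb, inner_smul_right, inner_smul_right, b.inner_eq_zero hj.symm]
      ring
    · simp
  refine ⟨S, ?_, ?_⟩
  · intro u v
    rw [← b.sum_inner_mul_inner (S u) v, ← b.sum_inner_mul_inner u (S v)]
    refine Finset.sum_congr rfl fun i _ => ?_
    rw [hSv, real_inner_comm, hSv, real_inner_comm u]
    ring
  · intro v
    have h1 : ∫ x in K, (inner ℝ x v) ^ 2 = inner ℝ (mOp K v) v := by
      rw [inner_mOp hK.isCompact]
      refine integral_congr_ae (Filter.Eventually.of_forall fun x => ?_)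
      simp only
      ring
    rw [h1, ← b.sum_sq_norm_inner_right (S v), ← b.sum_inner_mul_inner (mOp K v) v, Finset.mul_sum]
    refine Finset.sum_congr rfl fun i _ => ?_
    have h2 : (inner ℝ (mOp K v) (b i) : ℝ) = μ i * inner ℝ (b i) v := by
      have := hsym v (b i)
      change (inner ℝ (mOp K v) (b i) : ℝ) = inner ℝ v (mOp K (b i)) at this
      rw [this, hbe, inner_smul_right, real_inner_comm]
    rw [hSv, h2, Real.norm_eq_abs, sq_abs, mul_pow, Real.sq_sqrt (mul_pos hc (hμpos i)).le]
    ring

lemma integral_norm_sq_ball :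
    ((n : ℝ) + 3) * ∫ x in Metric.closedBall (0 : E (n + 1)) 1, ‖x‖ ^ 2 = (n + 1) * κ (n + 1) := by
  have h1 := integral_fun_norm_addHaar (volume : Measure (E (n + 1))) (fun y : ℝ => (Iic (1 : ℝ)).indicator (fun y => y ^ 2) y)
  have h2 : ∫ x : E (n + 1), (Iic (1 : ℝ)).indicator (fun y => y ^ 2) ‖x‖
      = ∫ x in Metric.closedBall (0 : E (n + 1)) 1, ‖x‖ ^ 2 := by
    rw [← integral_indicator Metric.isClosed_closedBall.measurableSet]
    refine integral_congr_ae (Eventually.of_forall fun x => ?_)
    by_cases hx : ‖x‖ ≤ 1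
    · simp [indicator, hx]
    · simp [indicator, hx]
  have h3 : ∫ y in Ioi (0 : ℝ), y ^ (n + 1 - 1) • (Iic (1 : ℝ)).indicator (fun y => y ^ 2) y = 1 / ((n : ℝ) + 3) := by
    have e1 : ∀ y : ℝ, y ^ (n + 1 - 1) • (Iic (1 : ℝ)).indicator (fun y => y ^ 2) y
        = (Iic (1 : ℝ)).indicator (fun y => y ^ (n + 2)) y := by
      intro y
      by_cases hy : y ≤ 1
      · simp [indicator, hy, pow_add]
      · simp [indicator, hy]
    simp only [e1]
    rw [integral_indicator measurableSet_Iic, Measure.restrict_restrict measurableSet_Iic,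
      Iic_inter_Ioi, ← intervalIntegral.integral_of_le zero_le_one, integral_pow]
    simp
    ring_nf
  have h4 : (volume : Measure (E (n + 1))).real (Metric.ball 0 1) = κ (n + 1) := rfl
  rw [h2, finrank_euclideanSpace_fin, h3, h4] at h1
  rw [h1]
  simp only [nsmul_eq_mul, smul_eq_mul, Nat.cast_add, Nat.cast_one]
  field_simp

end EqC

open EqC

theorem ellipsoid_of_second_moment {K : Set (E (n + 1))} (hK : CB K) (h0 : (0 : E (n + 1)) ∈ interior K)
    (h : ∀ᵐ y ∂(volume.restrict K), (n + 3) * ∫ x in K, (inner ℝ x (nu K y)) ^ 2 = vol K) :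
    ∃ T : E (n + 1) ≃ₗ[ℝ] E (n + 1), K = T '' Metric.closedBall 0 1 := by
  have hvol := hK.vol_pos
  have hn3 : (0 : ℝ) < n + 3 := by positivity
  set c : ℝ := (n + 3) / vol K with hc
  have hc0 : 0 < c := by positivity
  obtain ⟨S, hSsym, hSn⟩ := exists_sqrt hK hc0
  have hB : G.Body K := hK.body h0
  -- the ellipsoid is contained in `K`
  have hScont : Continuous S := LinearMap.continuous_of_finiteDimensional (S : E (n + 1) →ₗ[ℝ] E (n + 1))
  have hS'cont : Continuous S.symm :=
    LinearMap.continuous_of_finiteDimensional (S.symm : E (n + 1) →ₗ[ℝ] E (n + 1))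
  have hle_ae : ∀ᵐ y ∂(volume.restrict K), gauge K y ≤ ‖S.symm y‖ := by
    filter_upwards [h, ae_restrict_of_ae hB.ae_differentiableAt] with y hy hyd
    have h1 : ‖S (nu K y)‖ = 1 := by
      have h2 := hSn (nu K y)
      have h3 : c * ∫ x in K, (inner ℝ x (nu K y)) ^ 2 = 1 := by
        rw [hc, div_mul_eq_mul_div, hy, div_self hvol.ne']
      rw [h3] at h2
      nlinarith [norm_nonneg (S (nu K y))]
    have h2 : gauge K y = inner ℝ (nu K y) y := by
      rw [nu_eq_G]; exact (hB.inner_nu_self hyd).symm
    calc gauge K y = inner ℝ (nu K y) (S (S.symm y)) := by rw [h2, LinearEquiv.apply_symm_apply]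
      _ = inner ℝ (S (nu K y)) (S.symm y) := (hSsym _ _).symm
      _ ≤ ‖S (nu K y)‖ * ‖S.symm y‖ := real_inner_le_norm _ _
      _ = ‖S.symm y‖ := by rw [h1, one_mul]
  have hle_int : ∀ y ∈ interior K, gauge K y ≤ ‖S.symm y‖ := by
    set U : Set (E (n + 1)) := interior K ∩ {y | ‖S.symm y‖ < gauge K y} with hU
    have hUo : IsOpen U := isOpen_interior.inter (isOpen_lt hS'cont.norm hB.continuous_gauge)
    have hU0 : volume U = 0 := by
      have h1 : volume.restrict K U = 0 := by
        refine measure_mono_null ?_ (ae_iff.1 hle_ae)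
        rintro y ⟨_, hy⟩
        simpa using hy
      rwa [Measure.restrict_apply' hK.isCompact.measurableSet,
        inter_eq_self_of_subset_left (inter_subset_left.trans interior_subset)] at h1
    have hUe := (hUo.measure_eq_zero_iff volume).1 hU0
    intro y hy
    by_contra hlt
    push Not at hlt
    have : y ∈ U := ⟨hy, hlt⟩
    rw [hUe] at this
    exact this
  have hle : ∀ y, gauge K y ≤ ‖S.symm y‖ := by
    intro y
    have h2 : ∀ᶠ t : ℝ in 𝓝[>] 0, t • y ∈ interior K := by
      have hcont : Tendsto (fun t : ℝ => t • y) (𝓝[>] 0) (𝓝 0) := by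
        have : Continuous fun t : ℝ => t • y := by fun_prop
        have := (this.tendsto 0).mono_left (nhdsWithin_le_nhds (s := Ioi 0))
        simpa using this
      exact hcont (isOpen_interior.mem_nhds h0)
    obtain ⟨t, ht, ht0⟩ := (h2.and self_mem_nhdsWithin).exists
    have ht0' : (0 : ℝ) < t := ht0
    have h3 := hle_int _ ht
    rw [gauge_smul_of_nonneg ht0'.le, map_smul, norm_smul, Real.norm_eq_abs, abs_of_pos ht0',
      smul_eq_mul] at h3
    exact le_of_mul_le_mul_left h3 ht0'
  have hsub : S '' Metric.closedBall 0 1 ⊆ K := by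
    rintro _ ⟨z, hz, rfl⟩
    rw [← hB.gauge_le_one_iff]
    refine (hle _).trans ?_
    rw [LinearEquiv.symm_apply_apply]
    simpa using hz
  -- transport to the ball
  set K' : Set (E (n + 1)) := S.symm '' K with hK'
  have hK'C : CB K' := hK.image S.symm
  have hBK' : Metric.closedBall 0 1 ⊆ K' := by
    intro z hz
    exact ⟨S z, hsub ⟨z, hz, rfl⟩, LinearEquiv.symm_apply_apply _ _⟩
  have hmom : (n + 3) * ∫ z in K', ‖z‖ ^ 2 = (n + 1) * vol K' := by
    set d := |LinearMap.det (S.symm : E (n + 1) →ₗ[ℝ] E (n + 1))| with hd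
    have hsy : ∀ u v : E (n + 1), (inner ℝ (S.symm u) v : ℝ) = inner ℝ u (S.symm v) := by
      intro u v
      have := hSsym (S.symm u) (S.symm v)
      rw [LinearEquiv.apply_symm_apply, LinearEquiv.apply_symm_apply] at this
      exact this.symm
    have e1 : ∫ z in K', ‖z‖ ^ 2 = d * ∫ x in K, ‖S.symm x‖ ^ 2 := by
      have h1 := integral_image_eq_integral_abs_det_fderiv_smul (volume : Measure (E (n + 1)))
        (s := K) (f := S.symm)
        (f' := fun _ => LinearMap.toContinuousLinearMap (S.symm : E (n + 1) →ₗ[ℝ] E (n + 1)))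
        hK.isCompact.measurableSet
        (fun x _ => (LinearMap.toContinuousLinearMap (S.symm : E (n + 1) →ₗ[ℝ] E (n + 1))).hasFDerivAt.hasFDerivWithinAt)
        (S.symm.injective.injOn) (fun z => ‖z‖ ^ 2)
      rw [hK', h1, ← integral_const_mul]
      simp only [smul_eq_mul]
      rfl
    set b := EuclideanSpace.basisFun (Fin (n + 1)) ℝ with hb
    have e2 : ∀ i, ∫ x in K, (inner ℝ (b i) (S.symm x)) ^ 2 = 1 / c := by
      intro i
      have h1 := hSn (S.symm (b i))
      rw [LinearEquiv.apply_symm_apply, b.norm_eq_one] at h1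
      have h2 : ∫ x in K, (inner ℝ (b i) (S.symm x)) ^ 2 = ∫ x in K, (inner ℝ x (S.symm (b i))) ^ 2 := by
        refine integral_congr_ae (Eventually.of_forall fun x => ?_)
        simp only
        rw [← hsy, real_inner_comm]
      rw [h2, eq_div_iff hc0.ne']
      linarith
    have e3 : ∫ x in K, ‖S.symm x‖ ^ 2 = (n + 1) / c := by
      have h1 : ∀ x, ‖S.symm x‖ ^ 2 = ∑ i, (inner ℝ (b i) (S.symm x)) ^ 2 := by
        intro x
        rw [← b.sum_sq_norm_inner_right (S.symm x)]
        refine Finset.sum_congr rfl fun i _ => ?_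
        rw [Real.norm_eq_abs, sq_abs]
      simp only [h1]
      rw [integral_finsetSum]
      · simp only [e2, Finset.sum_const, Finset.card_univ, Fintype.card_fin, nsmul_eq_mul]
        push_cast
        ring
      · intro i _
        apply ContinuousOn.integrableOn_compact hK.isCompact
        exact Continuous.continuousOn (by fun_prop)
    have e4 : vol K' = d * vol K := vol_image S.symm K
    rw [e1, e3, e4, hc]
    field_simp
  have hKB : K' = Metric.closedBall 0 1 := by
    refine Subset.antisymm ?_ hBK'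
    by_contra hne
    rw [not_subset] at hne
    obtain ⟨x, hxK, hxB⟩ := hne
    set D := (Metric.closedBall (0 : E (n + 1)) 1)ᶜ ∩ K' with hD
    have hDm : MeasurableSet D := (Metric.isClosed_closedBall.measurableSet.compl).inter hK'C.isCompact.measurableSet
    have hopen : ((Metric.closedBall (0 : E (n + 1)) 1)ᶜ ∩ interior K').Nonempty := by
      have h7 : x ∈ closure (interior K') := by
        rw [hK'C.convex.closure_interior_eq_closure_of_nonempty_interior hK'C.interior_nonempty]
        exact subset_closure hxK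
      exact mem_closure_iff.1 h7 _ Metric.isClosed_closedBall.isOpen_compl hxB
    have h8 : 0 < volume ((Metric.closedBall (0 : E (n + 1)) 1)ᶜ ∩ interior K') :=
      ((Metric.isClosed_closedBall.isOpen_compl).inter isOpen_interior).measure_pos volume hopen
    have h9 : 0 < volume D := h8.trans_le (measure_mono (inter_subset_inter_right _ interior_subset))
    have hDfin : volume D < ∞ := (measure_mono inter_subset_right).trans_lt hK'C.isCompact.measure_lt_top
    have hDr : 0 < volume.real D := ENNReal.toReal_pos h9.ne' hDfin.ne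
    have hun : K' = Metric.closedBall 0 1 ∪ D := by
      ext z; constructor
      · intro hz
        by_cases hz1 : z ∈ Metric.closedBall (0 : E (n + 1)) 1
        · exact Or.inl hz1
        · exact Or.inr ⟨hz1, hz⟩
      · rintro (hz | hz)
        · exact hBK' hz
        · exact hz.2
    have hdisj : Disjoint (Metric.closedBall (0 : E (n + 1)) 1) D := by
      rw [Set.disjoint_left]; intro y hy hy2; exact hy2.1 hy
    have hcn : Continuous fun z : E (n + 1) => ‖z‖ ^ 2 := by fun_prop
    have i1 : IntegrableOn (fun z : E (n + 1) => ‖z‖ ^ 2) (Metric.closedBall 0 1) :=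
      hcn.continuousOn.integrableOn_compact (isCompact_closedBall _ _)
    have i2 : IntegrableOn (fun z : E (n + 1) => ‖z‖ ^ 2) D :=
      (hcn.continuousOn.integrableOn_compact hK'C.isCompact).mono_set inter_subset_right
    have e1 : ∫ z in K', ‖z‖ ^ 2 = (∫ z in Metric.closedBall (0 : E (n + 1)) 1, ‖z‖ ^ 2) + ∫ z in D, ‖z‖ ^ 2 := by
      conv_lhs => rw [hun]
      exact setIntegral_union hdisj hDm i1 i2
    have e2 : vol K' = κ (n + 1) + volume.real D := by
      rw [← vol_closedBall (n + 1)]
      unfold vol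
      conv_lhs => rw [hun]
      rw [measure_union hdisj hDm, ENNReal.toReal_add measure_closedBall_lt_top.ne hDfin.ne]
      rfl
    have e3 : volume.real D ≤ ∫ z in D, ‖z‖ ^ 2 := by
      have : ∫ z in D, (1 : ℝ) = volume.real D := by simp
      rw [← this]
      refine setIntegral_mono_on (integrableOn_const (hs := hDfin.ne)) i2 hDm ?_
      intro z hz
      have hz1 : 1 < ‖z‖ := by simpa using hz.1
      nlinarith
    have e4 := integral_norm_sq_ball (n := n)
    rw [e1, e2] at hmom
    nlinarith
  refine ⟨S, ?_⟩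
  rw [← hKB, hK', ← image_comp]
  simp

end Crest.Agent.R230
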