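import Crest.Agent.R230.DefsE
import Crest.Agent.R230.Frame

/-!
# Row 230, section U: affine invariance of the hypothesis of the crux
-/

set_option autoImplicit false

open MeasureTheory Set
open scoped Pointwise ENNReal

namespace Crest.Agent.R230

variable {n : ℕ}

/-- change of frame under a linear map: slices of `T '' K` are linear images of slices of `K` -/
theorem U_slice_image {K : Set (E (n + 1))} (T : E (n + 1) ≃ₗ[ℝ] E (n + 1)) {e e' : E (n + 1)}
    (he : ‖e‖ = 1) (he' : ‖e'‖ = 1) {τ : ℝ} (hτ : 0 < τ)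
    (hadj : ∀ x, inner ℝ (T x) e = τ * inner ℝ x e') (F : Frame e) (F' : Frame e') :
    ∃ c : ℝ, 0 < c ∧ ∀ t : ℝ, volume (F.slice (T '' K) t) =
      ENNReal.ofReal c * volume (F'.slice K (τ⁻¹ * t)) := by
  classical
  set L : E (n + 1) →ₗ[ℝ] (ℝ × E n) :=
    ((F'.lin he').symm.toLinearEquiv.toLinearMap).comp T.symm.toLinearMap with hL
  have hLΦ : ∀ x, F'.Φ (L x) = T.symm x := by
    intro x
    rw [← F'.lin_apply he']
    simp [hL]
  have hL1 : ∀ x, (L x).1 = τ⁻¹ * inner ℝ x e := by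
    intro x
    have h1 := F'.inner_Φ he' (L x)
    rw [hLΦ] at h1
    have h2 := hadj (T.symm x)
    rw [T.apply_symm_apply] at h2
    rw [← h1, h2, ← mul_assoc, inv_mul_cancel₀ hτ.ne', one_mul]
  set A : E n →ₗ[ℝ] E n := (LinearMap.snd ℝ ℝ (E n)).comp (L.comp F.ι.toLinearMap) with hA
  have hAinj : Function.Injective A := by
    rw [← LinearMap.ker_eq_bot, LinearMap.ker_eq_bot']
    intro y hy
    have h1 : (L (F.ι y)).1 = 0 := by rw [hL1, F.inner_eq]; simp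
    have h2 : (L (F.ι y)).2 = 0 := by simpa [hA] using hy
    have h3 : L (F.ι y) = 0 := Prod.ext h1 h2
    have h4 : F'.Φ (L (F.ι y)) = 0 := by rw [h3]; simp [Frame.Φ]
    rw [hLΦ] at h4
    have h5 : F.ι y = 0 := by simpa using h4
    exact F.ι.injective (by rw [h5, map_zero])
  have hdet : LinearMap.det A ≠ 0 := by
    have := LinearMap.isUnit_det A ((Module.End.isUnit_iff _).2 ⟨hAinj, LinearMap.injective_iff_surjective.1 hAinj⟩)
    exact this.ne_zero
  refine ⟨|(LinearMap.det A)⁻¹|, abs_pos.2 (inv_ne_zero hdet), fun t => ?_⟩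
  have hset : F.slice (T '' K) t = A ⁻¹' ((fun z => t • (L e).2 + z) ⁻¹' (F'.slice K (τ⁻¹ * t))) := by
    ext y
    simp only [mem_preimage, Frame.mem_slice]
    have h1 : F.Φ (t, y) ∈ T '' K ↔ T.symm (F.Φ (t, y)) ∈ K := by
      constructor
      · rintro ⟨x, hx, h⟩
        rw [← h]; simpa using hx
      · intro h
        exact ⟨_, h, by simp⟩
    rw [h1, ← hLΦ]
    have h2 : L (F.Φ (t, y)) = (τ⁻¹ * t, t • (L e).2 + A y) := by
      refine Prod.ext ?_ ?_
      · simp only [hL1, F.inner_Φ he]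
      · simp [Frame.Φ, hA]
    rw [h2]
  rw [hset, Measure.addHaar_preimage_linearMap volume hdet, measure_preimage_add]

/-- one dimensional scaling of a lower integral -/
theorem U_lintegral_scale (f : ℝ → ℝ≥0∞) {τ : ℝ} (hτ : 0 < τ) :
    ∫⁻ t : ℝ, f (τ⁻¹ * t) = ENNReal.ofReal τ * ∫⁻ t : ℝ, f t := by
  have h1 := Real.smul_map_volume_mul_left (a := τ⁻¹) (inv_ne_zero hτ.ne')
  have hme : MeasurableEmbedding (fun t : ℝ => τ⁻¹ * t) :=
    (Homeomorph.mulLeft₀ τ⁻¹ (inv_ne_zero hτ.ne')).measurableEmbedding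
  have h2 : ∫⁻ t : ℝ, f t = ENNReal.ofReal |τ⁻¹| * ∫⁻ t : ℝ, f (τ⁻¹ * t) := by
    conv_lhs => rw [← h1]
    rw [lintegral_smul_measure, hme.lintegral_map]
    rfl
  rw [h2, ← mul_assoc, ← ENNReal.ofReal_mul hτ.le, abs_of_pos (inv_pos.2 hτ), mul_inv_cancel₀ hτ.ne',
    ENNReal.ofReal_one, one_mul]

theorem U_area_image {K : Set (E (n + 1))} (hK : CB K) (T : E (n + 1) ≃ₗ[ℝ] E (n + 1)) {e e' : E (n + 1)}
    (he : ‖e‖ = 1) (he' : ‖e'‖ = 1) {τ : ℝ} (hτ : 0 < τ)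
    (hadj : ∀ x, inner ℝ (T x) e = τ * inner ℝ x e') (t : ℝ) :
    area (T '' K) e t = (|LinearMap.det (T : E (n + 1) →ₗ[ℝ] E (n + 1))| / τ) * area K e' (τ⁻¹ * t) := by
  obtain ⟨F⟩ := exists_frame e he
  obtain ⟨F'⟩ := exists_frame e' he'
  obtain ⟨c, hc, h⟩ := U_slice_image (K := K) T he he' hτ hadj F F'
  have hv1 := F.volume_eq_lintegral_slices (hK.image T).isCompact.measurableSet
  have hv2 := F'.volume_eq_lintegral_slices hK.isCompact.measurableSet
  have hv3 : volume (T '' K) = ENNReal.ofReal c * (ENNReal.ofReal τ * volume K) := by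
    rw [hv1, hv2]
    simp only [h]
    rw [lintegral_const_mul' _ _ ENNReal.ofReal_ne_top]
    rw [U_lintegral_scale (fun t => volume (F'.slice K t)) hτ]
  have hv4 : vol (T '' K) = c * (τ * vol K) := by
    unfold vol
    rw [hv3, ENNReal.toReal_mul, ENNReal.toReal_mul, ENNReal.toReal_ofReal hc.le,
      ENNReal.toReal_ofReal hτ.le]
  have hv5 := vol_image T K
  have hpos := hK.vol_pos
  have hcτ : c = |LinearMap.det (T : E (n + 1) →ₗ[ℝ] E (n + 1))| / τ := by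
    rw [eq_div_iff hτ.ne']
    have : c * τ * vol K = |LinearMap.det (T : E (n + 1) →ₗ[ℝ] E (n + 1))| * vol K := by
      rw [← hv5, hv4]; ring
    exact mul_right_cancel₀ hpos.ne' this
  rw [area_eq he F, area_eq he' F', ← hcτ]
  unfold vol
  rw [h, ENNReal.toReal_mul, ENNReal.toReal_ofReal hc.le]

theorem U_area_nonneg (K : Set (E (n + 1))) (e : E (n + 1)) (t : ℝ) : 0 ≤ area K e t :=
  ENNReal.toReal_nonneg

theorem U_NK_image (hn : 1 ≤ n) {K : Set (E (n + 1))} (hK : CB K) (T : E (n + 1) ≃ₗ[ℝ] E (n + 1))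
    {e e' : E (n + 1)} (he : ‖e‖ = 1) (he' : ‖e'‖ = 1) {τ : ℝ} (hτ : 0 < τ)
    (hadj : ∀ x, inner ℝ (T x) e = τ * inner ℝ x e') :
    NK (T '' K) e = |LinearMap.det (T : E (n + 1) →ₗ[ℝ] E (n + 1))| ^ (n - 1) * τ * NK K e' := by
  set D := |LinearMap.det (T : E (n + 1) →ₗ[ℝ] E (n + 1))| with hD
  have hD0 : 0 ≤ D := abs_nonneg _
  unfold NK
  have h1 : ∀ t : ℝ, area (T '' K) e t ^ (((n : ℝ) - 1) / n) =
      (D / τ) ^ (((n : ℝ) - 1) / n) * (fun t => area K e' t ^ (((n : ℝ) - 1) / n)) (τ⁻¹ * t) := by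
    intro t
    rw [U_area_image hK T he he' hτ hadj t, Real.mul_rpow (div_nonneg hD0 hτ.le) (U_area_nonneg _ _ _)]
  simp only [h1]
  rw [integral_const_mul]
  rw [Measure.integral_comp_mul_left (fun t => area K e' t ^ (((n : ℝ) - 1) / n)) τ⁻¹]
  rw [mul_pow, smul_eq_mul, mul_pow, inv_inv, abs_of_pos hτ]
  have h2 : ((D / τ) ^ (((n : ℝ) - 1) / n)) ^ n = (D / τ) ^ (n - 1) := by
    rw [← Real.rpow_natCast, ← Real.rpow_mul (div_nonneg hD0 hτ.le), div_mul_cancel₀ _ (by positivity),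
      ← Real.rpow_natCast]
    congr 1
    rw [Nat.cast_sub hn]; simp
  rw [h2, div_pow]
  have h3 : τ ^ n = τ ^ (n - 1) * τ := by
    rw [← pow_succ]; congr 1; omega
  rw [h3]
  field_simp

theorem U_hs_image (K : Set (E (n + 1))) (T : E (n + 1) ≃ₗ[ℝ] E (n + 1))
    {e e' : E (n + 1)} {τ : ℝ} (hτ : 0 < τ)
    (hadj : ∀ x, inner ℝ (T x) e = τ * inner ℝ x e') :
    hs (T '' K) e = τ * hs K e' := by
  unfold hs
  have h1 : (fun x : E (n + 1) => inner ℝ x e) '' (T '' K) = τ • ((fun x : E (n + 1) => inner ℝ x e') '' K) := by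
    rw [image_image, ← image_smul, image_image]
    apply image_congr
    intro x _
    rw [hadj, smul_eq_mul]
  rw [h1, Real.sSup_smul_of_nonneg hτ.le, smul_eq_mul]

theorem HypE_image (hn : 2 ≤ n) {K : Set (E (n + 1))} (hK : CB K) (hE : HypE K)
    (T : E (n + 1) ≃ₗ[ℝ] E (n + 1)) : HypE (T '' K) := by
  intro e he
  set u : E (n + 1) := LinearMap.adjoint (T : E (n + 1) →ₗ[ℝ] E (n + 1)) e with hu
  have hadj0 : ∀ x, inner ℝ (T x) e = inner ℝ x u := by
    intro x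
    rw [hu, LinearMap.adjoint_inner_right]
    rfl
  have hu0 : u ≠ 0 := by
    intro h
    have := hadj0 (T.symm e)
    rw [h, T.apply_symm_apply, real_inner_self_eq_norm_sq, he] at this
    simp at this
  have hτ : 0 < ‖u‖ := norm_pos_iff.2 hu0
  have he' : ‖‖u‖⁻¹ • u‖ = 1 := by
    rw [norm_smul, norm_inv, norm_norm, inv_mul_cancel₀ hτ.ne']
  have hadj : ∀ x, inner ℝ (T x) e = ‖u‖ * inner ℝ x (‖u‖⁻¹ • u) := by
    intro x
    rw [hadj0, inner_smul_right, ← mul_assoc, mul_inv_cancel₀ hτ.ne', one_mul]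
  have h := hE _ he'
  rw [U_NK_image (by omega) hK T he he' hτ hadj, U_hs_image K T hτ hadj, vol_image]
  set D := |LinearMap.det (T : E (n + 1) →ₗ[ℝ] E (n + 1))| with hD
  have hD0 : 0 ≤ D := abs_nonneg _
  have h2 : NB n * (D * vol K / κ (n + 1)) ^ (n - 1) * (‖u‖ * hs K (‖u‖⁻¹ • u)) =
      D ^ (n - 1) * ‖u‖ * (NB n * (vol K / κ (n + 1)) ^ (n - 1) * hs K (‖u‖⁻¹ • u)) := by
    rw [mul_div_assoc, mul_pow]; ring
  rw [h2]
  exact mul_le_mul_of_nonneg_left h (by positivity)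

end Crest.Agent.R230
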