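import Mathlib.Analysis.Convex.Gauge
import Mathlib.Analysis.Convex.Measure
import Mathlib.Analysis.Calculus.Rademacher
import Mathlib.Analysis.Calculus.FDeriv.Measurable
import Mathlib.Analysis.Calculus.Gradient.Basic
import Mathlib.MeasureTheory.Measure.Haar.InnerProductSpace

/-!
Gauge calculus: `nu K x` is the gradient of the gauge of `K` at `x`, `hs L v` the support function,
`V1 K L = ∫_K h_L(nu K)` the first mixed volume.
-/

set_option autoImplicit false
set_option linter.unusedSectionVars false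

open MeasureTheory Set Filter Topology
open scoped ENNReal Pointwise NNReal

namespace Crest.Agent.R230.G

variable {E : Type*} [NormedAddCommGroup E] [InnerProductSpace ℝ E] [FiniteDimensional ℝ E]

/-- the gradient of the gauge of `K` -/
noncomputable def nu (K : Set E) (x : E) : E := gradient (gauge K) x

/-- the support function of `L` -/
noncomputable def hs (L : Set E) (v : E) : ℝ := sSup ((fun y => inner ℝ v y) '' L)

/-- The standing assumption: compact convex with the origin in the interior. -/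
structure Body (K : Set E) : Prop where
  cpt : IsCompact K
  cvx : Convex ℝ K
  nhd : K ∈ 𝓝 (0 : E)

section hs

lemma bddAbove_inner {L : Set E} (hL : IsCompact L) (v : E) :
    BddAbove ((fun y => inner ℝ v y) '' L) :=
  (hL.image (by fun_prop)).bddAbove

lemma inner_le_hs {L : Set E} (hL : IsCompact L) (v : E) {y : E} (hy : y ∈ L) :
    inner ℝ v y ≤ hs L v := le_csSup (bddAbove_inner hL v) (mem_image_of_mem _ hy)

lemma hs_le {L : Set E} (hL0 : L.Nonempty) {v : E} {c : ℝ} (h : ∀ y ∈ L, inner ℝ v y ≤ c) :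
    hs L v ≤ c := csSup_le (hL0.image _) (by rintro _ ⟨y, hy, rfl⟩; exact h y hy)

lemma exists_hs {L : Set E} (hL : IsCompact L) (hL0 : L.Nonempty) (v : E) :
    ∃ y ∈ L, inner ℝ v y = hs L v := by
  obtain ⟨y, hy, h⟩ := (hL.image (f := fun y => inner ℝ v y) (by fun_prop)).sSup_mem (hL0.image _)
  exact ⟨y, hy, h⟩

lemma hs_smul {L : Set E} (c : ℝ) (hc : 0 ≤ c) (v : E) : hs L (c • v) = c * hs L v := by
  unfold hs
  have : (fun y => inner ℝ (c • v) y) '' L = c • ((fun y => inner ℝ v y) '' L) := by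
    rw [← image_smul, image_image]
    simp only [real_inner_smul_left, smul_eq_mul]
  rw [this, Real.sSup_smul_of_nonneg hc, smul_eq_mul]

lemma hs_add_le {L : Set E} (hL : IsCompact L) (hL0 : L.Nonempty) (v w : E) :
    hs L (v + w) ≤ hs L v + hs L w := by
  refine hs_le hL0 fun y hy => ?_
  rw [inner_add_left]
  exact add_le_add (inner_le_hs hL v hy) (inner_le_hs hL w hy)

lemma hs_abs_le {L : Set E} (hL0 : L.Nonempty) {R : ℝ} (hR : ∀ y ∈ L, ‖y‖ ≤ R)
    (hL : IsCompact L) (v : E) : |hs L v| ≤ R * ‖v‖ := by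
  obtain ⟨y, hy, h⟩ := exists_hs hL hL0 v
  rw [← h]
  calc |inner ℝ v y| ≤ ‖v‖ * ‖y‖ := abs_real_inner_le_norm v y
    _ ≤ R * ‖v‖ := by rw [mul_comm]; exact mul_le_mul_of_nonneg_right (hR y hy) (norm_nonneg _)

lemma hs_sub_le {L : Set E} (hL : IsCompact L) (hL0 : L.Nonempty) {R : ℝ}
    (hR : ∀ y ∈ L, ‖y‖ ≤ R) (v w : E) : |hs L v - hs L w| ≤ R * ‖v - w‖ := by
  have h1 := hs_add_le hL hL0 (v - w) w
  have h2 := hs_add_le hL hL0 (w - v) v
  rw [sub_add_cancel] at h1 h2
  have h3 := hs_abs_le hL0 hR hL (v - w)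
  have h4 := hs_abs_le hL0 hR hL (w - v)
  rw [norm_sub_rev w v] at h4
  rw [abs_le] at h3 h4 ⊢
  constructor <;> linarith [h3.1, h3.2, h4.1, h4.2]

lemma continuous_hs {L : Set E} (hL : IsCompact L) (hL0 : L.Nonempty) : Continuous (hs L) := by
  obtain ⟨R, hR⟩ := hL.isBounded.exists_norm_le
  have hR0 : 0 ≤ R := by
    obtain ⟨y, hy⟩ := hL0
    exact (norm_nonneg y).trans (hR y hy)
  refine LipschitzWith.continuous (K := ⟨R, hR0⟩) (LipschitzWith.of_dist_le_mul fun v w => ?_)
  rw [Real.dist_eq, dist_eq_norm]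
  exact hs_sub_le hL hL0 hR v w

end hs

namespace Body

variable {K : Set E} (hK : Body K)
include hK

lemma zero_mem : (0 : E) ∈ K := mem_of_mem_nhds hK.nhd

lemma zero_mem_interior : (0 : E) ∈ interior K := mem_interior_iff_mem_nhds.2 hK.nhd

lemma nonempty : K.Nonempty := ⟨0, hK.zero_mem⟩

lemma absorbent : Absorbent ℝ K := absorbent_nhds_zero hK.nhd

lemma gauge_le_one_iff {x : E} : gauge K x ≤ 1 ↔ x ∈ K := by
  rw [gauge_le_one_iff_mem_closure hK.cvx hK.nhd, hK.cpt.isClosed.closure_eq]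

lemma gauge_pos_iff {x : E} : 0 < gauge K x ↔ x ≠ 0 :=
  gauge_pos hK.absorbent ((NormedSpace.isVonNBounded_iff ℝ).2 hK.cpt.isBounded)

lemma gauge_le_iff {x : E} {s : ℝ} (hs : 0 < s) : gauge K x ≤ s ↔ x ∈ s • K := by
  rw [mem_smul_set_iff_inv_smul_mem₀ hs.ne', ← hK.gauge_le_one_iff,
    gauge_smul_of_nonneg (inv_nonneg.2 hs.le), smul_eq_mul, inv_mul_le_iff₀ hs, mul_one]

lemma gauge_le_iff' {x : E} {s : ℝ} (hs : 0 ≤ s) : gauge K x ≤ s ↔ x ∈ s • K := by
  rcases hs.eq_or_lt with rfl | hs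
  · rw [zero_smul_set hK.nonempty]
    constructor
    · intro h
      by_contra hx
      have : 0 < gauge K x := hK.gauge_pos_iff.2 (by simpa using hx)
      linarith
    · intro h
      rw [Set.mem_zero.1 h, gauge_zero]
  · exact hK.gauge_le_iff hs

lemma continuous_gauge : Continuous (gauge K) := _root_.continuous_gauge hK.cvx hK.nhd

lemma exists_lip : ∃ C : ℝ≥0, LipschitzWith C (gauge K) := hK.cvx.lipschitz_gauge hK.nhd

lemma gauge_add_le (x y : E) : gauge K (x + y) ≤ gauge K x + gauge K y :=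
  _root_.gauge_add_le hK.cvx hK.absorbent x y

omit hK in
lemma nu_inner (K : Set E) (x v : E) : inner ℝ (nu K x) v = fderiv ℝ (gauge K) x v := by
  rw [nu, gradient, InnerProductSpace.toDual_symm_apply]

lemma exists_norm_nu_le : ∃ C : ℝ, 0 ≤ C ∧ ∀ x, ‖nu K x‖ ≤ C := by
  obtain ⟨C, hC⟩ := hK.exists_lip
  refine ⟨C, C.2, fun x => ?_⟩
  rw [nu, gradient, LinearIsometryEquiv.norm_map]
  exact norm_fderiv_le_of_lipschitz ℝ hC

omit hK in
lemma gauge_comp_smul (K : Set E) {c : ℝ} (hc : 0 < c) :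
    (fun x => gauge K (c • x)) = fun x => c * gauge K x := by
  ext x
  rw [gauge_smul_of_nonneg hc.le, smul_eq_mul]

omit hK in
lemma differentiableAt_smul (K : Set E) {c : ℝ} (hc : 0 < c) (x : E) :
    DifferentiableAt ℝ (gauge K) (c • x) ↔ DifferentiableAt ℝ (gauge K) x := by
  have key : ∀ (c : ℝ) (x : E), 0 < c → DifferentiableAt ℝ (gauge K) (c • x) →
      DifferentiableAt ℝ (gauge K) x := by
    intro c x hc h
    have h1 : DifferentiableAt ℝ (fun x => gauge K (c • x)) x := by
      exact DifferentiableAt.comp x (f := fun x : E => c • x) (g := gauge K) h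
        (differentiableAt_id.const_smul c)
    rw [gauge_comp_smul K hc] at h1
    have h2 := h1.const_mul c⁻¹
    refine h2.congr_of_eventuallyEq (Eventually.of_forall fun y => ?_)
    simp only
    rw [inv_mul_cancel_left₀ hc.ne']
  refine ⟨key c x hc, fun h => ?_⟩
  refine key c⁻¹ (c • x) (inv_pos.2 hc) ?_
  rwa [inv_smul_smul₀ hc.ne']

omit hK in
lemma nu_smul (K : Set E) {c : ℝ} (hc : 0 < c) (x : E) : nu K (c • x) = nu K x := by
  by_cases h : DifferentiableAt ℝ (gauge K) x
  · have h' := (differentiableAt_smul K hc x).2 h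
    refine ext_inner_right ℝ fun v => ?_
    rw [nu_inner, nu_inner]
    have h1 : HasFDerivAt (fun x => gauge K (c • x)) ((fderiv ℝ (gauge K) (c • x)).comp
        (c • ContinuousLinearMap.id ℝ E)) x :=
      HasFDerivAt.comp x (f := fun x : E => c • x) (g := gauge K) h'.hasFDerivAt
        ((hasFDerivAt_id x).const_smul c)
    rw [gauge_comp_smul K hc] at h1
    have h2 := h.hasFDerivAt.const_mul c
    have h3 := congrArg (fun L => L v) (h1.unique h2)
    simp only [ContinuousLinearMap.comp_apply, _root_.smul_apply,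
      ContinuousLinearMap.id_apply, map_smul, smul_eq_mul] at h3
    exact mul_left_cancel₀ hc.ne' h3
  · have h' : ¬ DifferentiableAt ℝ (gauge K) (c • x) := fun h' =>
      h ((differentiableAt_smul K hc x).1 h')
    rw [nu, nu, gradient, gradient, fderiv_zero_of_not_differentiableAt h,
      fderiv_zero_of_not_differentiableAt h']

/-- Euler's relation -/
lemma inner_nu_self {x : E} (hx : DifferentiableAt ℝ (gauge K) x) :
    inner ℝ (nu K x) x = gauge K x := by
  rw [nu_inner]
  have h1 : HasDerivAt (fun c : ℝ => gauge K (c • x)) (fderiv ℝ (gauge K) ((1:ℝ) • x) x) 1 := by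
    have h2 : HasDerivAt (fun c : ℝ => c • x) x 1 := by
      simpa using (hasDerivAt_id (1 : ℝ)).smul_const x
    have h3 : HasFDerivAt (gauge K) (fderiv ℝ (gauge K) ((1:ℝ) • x)) ((1:ℝ) • x) := by
      rw [one_smul]; exact hx.hasFDerivAt
    exact h3.comp_hasDerivAt (1 : ℝ) h2
  rw [one_smul] at h1
  have h4 : HasDerivAt (fun c : ℝ => c * gauge K x) (gauge K x) 1 := by
    simpa using (hasDerivAt_id (1 : ℝ)).mul_const (gauge K x)
  have h5 : (fun c : ℝ => gauge K (c • x)) =ᶠ[𝓝 1] fun c : ℝ => c * gauge K x := by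
    filter_upwards [lt_mem_nhds (show (0:ℝ) < 1 by norm_num)] with c hc
    rw [gauge_smul_of_nonneg hc.le, smul_eq_mul]
  exact h1.unique (h4.congr_of_eventuallyEq h5)

/-- subgradient inequality -/
lemma inner_nu_le {x : E} (hx : DifferentiableAt ℝ (gauge K) x) (y : E) :
    inner ℝ (nu K x) y ≤ gauge K y := by
  rw [nu_inner]
  have h1 : HasDerivAt (fun c : ℝ => gauge K (x + c • y)) (fderiv ℝ (gauge K) x y) 0 := by
    have h2 : HasDerivAt (fun c : ℝ => x + c • y) y 0 := by
      simpa using ((hasDerivAt_id (0 : ℝ)).smul_const y).const_add x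
    have h3 : HasFDerivAt (gauge K) (fderiv ℝ (gauge K) x) (x + (0:ℝ) • y) := by
      rw [zero_smul, add_zero]; exact hx.hasFDerivAt
    exact h3.comp_hasDerivAt (0 : ℝ) h2
  have h6 := h1.hasDerivWithinAt (s := Ioi 0)
  rw [hasDerivWithinAt_iff_tendsto_slope' (by simp)] at h6
  refine le_of_tendsto h6 ?_
  filter_upwards [self_mem_nhdsWithin] with c hc
  have hc : 0 < c := hc
  rw [slope_def_field, sub_zero, zero_smul, add_zero, div_le_iff₀ hc]
  have := hK.gauge_add_le x (c • y)
  rw [gauge_smul_of_nonneg hc.le, smul_eq_mul] at this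
  linarith

lemma gauge_add_inner_le {x : E} (hx : DifferentiableAt ℝ (gauge K) x) (z : E) :
    gauge K x + inner ℝ (nu K x) z ≤ gauge K (x + z) := by
  have := hK.inner_nu_le hx (x + z)
  rw [inner_add_right, hK.inner_nu_self hx] at this
  exact this

lemma hs_nu {x : E} (hx : DifferentiableAt ℝ (gauge K) x) (hx0 : x ≠ 0) :
    hs K (nu K x) = 1 := by
  apply le_antisymm
  · exact hs_le hK.nonempty fun y hy => (hK.inner_nu_le hx y).trans (hK.gauge_le_one_iff.2 hy)
  · have hp := hK.gauge_pos_iff.2 hx0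
    have h1 : (gauge K x)⁻¹ • x ∈ K := by
      rw [← hK.gauge_le_one_iff, gauge_smul_of_nonneg (inv_nonneg.2 hp.le), smul_eq_mul,
        inv_mul_cancel₀ hp.ne']
    have h2 := inner_le_hs hK.cpt (nu K x) h1
    rw [real_inner_smul_right, hK.inner_nu_self hx, inv_mul_cancel₀ hp.ne'] at h2
    exact h2

variable [MeasurableSpace E] [BorelSpace E]

lemma ae_differentiableAt : ∀ᵐ x ∂(volume : Measure E), DifferentiableAt ℝ (gauge K) x := by
  obtain ⟨C, hC⟩ := hK.exists_lip
  exact hC.ae_differentiableAt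

omit hK in
lemma measurable_nu (K : Set E) : Measurable (nu K) := by
  have h1 := measurable_fderiv ℝ (gauge K)
  exact ((InnerProductSpace.toDual ℝ E).symm.continuous.measurable).comp h1

end Body

section V1

variable [MeasurableSpace E] [BorelSpace E]

/-- the first mixed volume, in gauge form -/
noncomputable def V1 (K L : Set E) : ℝ := ∫ x in K, hs L (nu K x)

lemma measurable_hs_nu (K : Set E) {L : Set E} (hL : IsCompact L) (hL0 : L.Nonempty) :
    Measurable (fun x => hs L (nu K x)) :=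
  (continuous_hs hL hL0).measurable.comp (Body.measurable_nu K)

lemma exists_hs_nu_le {K : Set E} (hK : Body K) {L : Set E} (hL : IsCompact L)
    (hL0 : L.Nonempty) : ∃ C : ℝ, 0 ≤ C ∧ ∀ x, |hs L (nu K x)| ≤ C := by
  obtain ⟨R, hR⟩ := hL.isBounded.exists_norm_le
  obtain ⟨C, hC0, hC⟩ := hK.exists_norm_nu_le
  have hR0 : 0 ≤ R := by
    obtain ⟨y, hy⟩ := hL0
    exact (norm_nonneg y).trans (hR y hy)
  refine ⟨R * C, by positivity, fun x => ?_⟩
  exact (hs_abs_le hL0 hR hL _).trans (mul_le_mul_of_nonneg_left (hC x) hR0)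

lemma integrableOn_hs_nu {K : Set E} (hK : Body K) {L : Set E} (hL : IsCompact L)
    (hL0 : L.Nonempty) : IntegrableOn (fun x => hs L (nu K x)) K := by
  obtain ⟨C, hC0, hC⟩ := exists_hs_nu_le hK hL hL0
  refine Measure.integrableOn_of_bounded (M := C) hK.cpt.measure_lt_top.ne
    (measurable_hs_nu K hL hL0).aestronglyMeasurable (Eventually.of_forall fun x => ?_)
  rw [Real.norm_eq_abs]; exact hC x

lemma V1_self [Nontrivial E] {K : Set E} (hK : Body K) : V1 K K = volume.real K := by
  unfold V1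
  rw [setIntegral_congr_ae (g := fun _ => (1 : ℝ)) hK.cpt.measurableSet]
  · simp
  · filter_upwards [hK.ae_differentiableAt, (Measure.ae_ne volume (0 : E))] with x hx hx0 _
    exact hK.hs_nu hx hx0

end V1

end Crest.Agent.R230.G
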