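import Mathlib

/-!
# Row 230, section O: an abstract Jensen inequality

If `(ξ,p)` has first marginal `m` and `E[p | ξ] = P(ξ)` in the weak sense of `C¹` test functions, then
`∫ φ(t,P t) dm ≤ ∫ φ(ξ,p)` for `φ` convex in the second variable.
-/

set_option autoImplicit false

open MeasureTheory Set ProbabilityTheory
open scoped ENNReal Real

namespace Crest.Agent.R230

section abs

variable {X : Type*} [MeasurableSpace X]

/-- two finite measures on `ℝ` agreeing on bounded `C¹` functions are equal -/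
lemma measure_ext_of_contDiff {μ ν : Measure ℝ} [IsFiniteMeasure μ] [IsFiniteMeasure ν]
    (h : ∀ ψ : ℝ → ℝ, ContDiff ℝ 1 ψ → (∀ x, |ψ x| ≤ 1) → ∫ x, ψ x ∂μ = ∫ x, ψ x ∂ν) : μ = ν := by
  apply Measure.ext_of_charFun
  ext t
  rw [charFun_apply_real, charFun_apply_real]
  have key : ∀ ρ : Measure ℝ, IsFiniteMeasure ρ → ∫ x, Complex.exp (t * x * Complex.I) ∂ρ
      = ((∫ x, Real.cos (t * x) ∂ρ : ℝ) : ℂ) + ((∫ x, Real.sin (t * x) ∂ρ : ℝ) : ℂ) * Complex.I := by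
    intro ρ hρ
    have hc : Integrable (fun x : ℝ => Real.cos (t * x)) ρ := by
      refine Integrable.of_bound (C := 1) (by fun_prop) (Filter.Eventually.of_forall fun x => ?_)
      rw [Real.norm_eq_abs]; exact Real.abs_cos_le_one _
    have hs : Integrable (fun x : ℝ => Real.sin (t * x)) ρ := by
      refine Integrable.of_bound (C := 1) (by fun_prop) (Filter.Eventually.of_forall fun x => ?_)
      rw [Real.norm_eq_abs]; exact Real.abs_sin_le_one _
    rw [← integral_complex_ofReal, ← integral_complex_ofReal, ← integral_mul_const, ← integral_add hc.ofReal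
      (hs.ofReal.mul_const _)]
    congr 1
    ext x
    have : (t * x * Complex.I : ℂ) = ((t * x : ℝ) : ℂ) * Complex.I := by push_cast; ring
    rw [this, Complex.exp_mul_I]
    simp
  rw [key μ inferInstance, key ν inferInstance]
  rw [h (fun x => Real.cos (t * x)) (by fun_prop) (fun x => Real.abs_cos_le_one _),
    h (fun x => Real.sin (t * x)) (by fun_prop) (fun x => Real.abs_sin_le_one _)]

theorem jensen_abs_cont {ρ : Measure X} [IsFiniteMeasure ρ] {ξ p : X → ℝ} (hξ : AEMeasurable ξ ρ)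
    (hp : AEMeasurable p ρ) {R : ℝ} (hpR : ∀ᵐ x ∂ρ, |p x| ≤ R) (hξ1 : ∀ᵐ x ∂ρ, |ξ x| ≤ 1)
    {m : Measure ℝ} [IsFiniteMeasure m] {P : ℝ → ℝ} (hP : Measurable P) (hPR : ∀ᵐ t ∂m, |P t| ≤ R)
    (h1 : ∀ ψ : ℝ → ℝ, ContDiff ℝ 1 ψ → ∫ x, ψ (ξ x) ∂ρ = ∫ t, ψ t ∂m)
    (h2 : ∀ ψ : ℝ → ℝ, ContDiff ℝ 1 ψ → ∫ x, ψ (ξ x) * p x ∂ρ = ∫ t, ψ t * P t ∂m)
    (φ : ℝ → ℝ → ℝ) (hφ : Continuous (fun q : ℝ × ℝ => φ q.1 q.2))
    (hφc : ∀ t, ConvexOn ℝ (Icc (-R) R) (φ t)) :
    ∫ t, φ t (P t) ∂m ≤ ∫ x, φ (ξ x) (p x) ∂ρ := by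
  have hξp : AEMeasurable (fun x => (ξ x, p x)) ρ := hξ.prodMk hp
  set μ : Measure (ℝ × ℝ) := ρ.map (fun x => (ξ x, p x)) with hμ
  have hμf : IsFiniteMeasure μ := by rw [hμ]; infer_instance
  have hfst : μ.fst = m := by
    apply measure_ext_of_contDiff
    intro ψ hψ _
    rw [← h1 ψ hψ, Measure.fst, hμ, AEMeasurable.map_map_of_aemeasurable measurable_fst.aemeasurable hξp]
    rw [integral_map]
    · rfl
    · exact hξ
    · exact hψ.continuous.aestronglyMeasurable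
  have hdis : m ⊗ₘ μ.condKernel = μ := by rw [← hfst]; exact μ.disintegrate μ.condKernel
  -- bounds
  have hμb : ∀ᵐ q ∂μ, |q.1| ≤ 1 ∧ |q.2| ≤ R := by
    rw [hμ, ae_map_iff hξp]
    · filter_upwards [hξ1, hpR] with x h1 h2 using ⟨h1, h2⟩
    · exact ((measurable_fst.abs) measurableSet_Iic).inter ((measurable_snd.abs) measurableSet_Iic)
  have hker : ∀ᵐ t ∂m, ∀ᵐ y ∂(μ.condKernel t), |t| ≤ 1 ∧ |y| ≤ R := by
    rw [← hdis] at hμb
    exact Measure.ae_ae_of_ae_compProd hμb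
  have hfi : ∀ᵐ t ∂m, Integrable (fun y : ℝ => y) (μ.condKernel t) := by
    filter_upwards [hker] with t ht
    refine Integrable.of_bound (C := R) (by fun_prop) ?_
    filter_upwards [ht] with y hy using hy.2
  set b : ℝ → ℝ := fun t => ∫ y, y ∂(μ.condKernel t) with hb
  have hbm : StronglyMeasurable b := by
    have h := StronglyMeasurable.integral_kernel_prod_right' (κ := μ.condKernel) (E := ℝ)
      (f := fun q : ℝ × ℝ => q.2) measurable_snd.stronglyMeasurable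
    exact h
  have hbR : ∀ᵐ t ∂m, |b t| ≤ R := by
    filter_upwards [hker] with t ht
    have h3 := norm_integral_le_of_norm_le_const (μ := μ.condKernel t) (f := fun y : ℝ => y) (C := R)
      (by filter_upwards [ht] with y hy using hy.2)
    simpa [Measure.real] using h3
  have hint : ∀ g : ℝ × ℝ → ℝ, Continuous g → Integrable g μ := by
    intro g hg
    obtain ⟨C, hC⟩ := (isCompact_Icc (a := ((-1 : ℝ), -R)) (b := ((1 : ℝ), R))).exists_bound_of_continuousOn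
      hg.continuousOn
    refine Integrable.of_bound (C := C) hg.aestronglyMeasurable ?_
    filter_upwards [hμb] with q hq
    exact hC q ⟨Prod.mk_le_mk.2 ⟨(abs_le.1 hq.1).1, (abs_le.1 hq.2).1⟩,
      Prod.mk_le_mk.2 ⟨(abs_le.1 hq.1).2, (abs_le.1 hq.2).2⟩⟩
  have hbP : ∀ᵐ t ∂m, b t = P t := by
    have hi1 : Integrable b m := Integrable.of_bound (C := R) hbm.aestronglyMeasurable hbR
    have hi2 : Integrable P m := Integrable.of_bound (C := R) hP.aestronglyMeasurable hPR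
    have hz : ∀ᵐ t ∂m, (fun t => b t - P t) t = 0 := by
      apply ae_eq_zero_of_integral_contDiff_smul_eq_zero (hi1.sub hi2).locallyIntegrable
      intro g hg hgs
      have hg1 : ContDiff ℝ 1 g := hg.of_le (by exact_mod_cast le_top)
      obtain ⟨C, hC⟩ := hgs.exists_bound_of_continuous hg.continuous
      have hgi1 : Integrable (fun t => g t * b t) m := hi1.bdd_mul hg.continuous.aestronglyMeasurable
        (Filter.Eventually.of_forall hC)
      have hgi2 : Integrable (fun t => g t * P t) m := hi2.bdd_mul hg.continuous.aestronglyMeasurable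
        (Filter.Eventually.of_forall hC)
      have e1 : ∫ t, g t * b t ∂m = ∫ t, g t * P t ∂m := by
        rw [← h2 g hg1]
        have e2 : ∫ x, g (ξ x) * p x ∂ρ = ∫ q, g q.1 * q.2 ∂μ := by
          rw [hμ, integral_map hξp]
          exact (by fun_prop : Continuous (fun q : ℝ × ℝ => g q.1 * q.2)).aestronglyMeasurable
        have hgq : Integrable (fun q : ℝ × ℝ => g q.1 * q.2) (m ⊗ₘ μ.condKernel) := by
          rw [hdis]
          exact hint _ (by fun_prop)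
        have e3 : ∫ q, g q.1 * q.2 ∂μ = ∫ t, ∫ y, g t * y ∂(μ.condKernel t) ∂m := by
          calc ∫ q, g q.1 * q.2 ∂μ = ∫ q, g q.1 * q.2 ∂(m ⊗ₘ μ.condKernel) := by rw [hdis]
            _ = _ := Measure.integral_compProd hgq
        rw [e2, e3]
        congr 1
        ext t
        rw [integral_const_mul]
      have e4 : ∫ x, g x • (b - P) x ∂m = ∫ x, (g x * b x - g x * P x) ∂m := by
        congr 1; ext x; simp only [smul_eq_mul, Pi.sub_apply, mul_sub]
      rw [e4, integral_sub hgi1 hgi2, e1, sub_self]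
    filter_upwards [hz] with t ht using sub_eq_zero.1 ht
  have hL : ∫ x, φ (ξ x) (p x) ∂ρ = ∫ t, ∫ y, φ t y ∂(μ.condKernel t) ∂m := by
    have e2 : ∫ x, φ (ξ x) (p x) ∂ρ = ∫ q, φ q.1 q.2 ∂μ := by
      rw [hμ, integral_map hξp hφ.aestronglyMeasurable]
    have hgq : Integrable (fun q : ℝ × ℝ => φ q.1 q.2) (m ⊗ₘ μ.condKernel) := by
      rw [hdis]; exact hint _ hφ
    rw [e2]
    calc ∫ q, φ q.1 q.2 ∂μ = ∫ q, φ q.1 q.2 ∂(m ⊗ₘ μ.condKernel) := by rw [hdis]
      _ = _ := Measure.integral_compProd hgq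
  rw [hL]
  have hgq : Integrable (fun q : ℝ × ℝ => φ q.1 q.2) (m ⊗ₘ μ.condKernel) := by
    rw [hdis]; exact hint _ hφ
  obtain ⟨C, hC⟩ := (isCompact_Icc (a := ((-1 : ℝ), -R)) (b := ((1 : ℝ), R))).exists_bound_of_continuousOn
      hφ.continuousOn
  have hm1 : ∀ᵐ t ∂m, |t| ≤ 1 := by
    filter_upwards [hker] with t ht
    obtain ⟨y, hy⟩ := ht.exists
    exact hy.1
  refine integral_mono_ae ?_ ?_ ?_
  · refine Integrable.of_bound (C := C) ?_ ?_
    · exact (hφ.measurable.comp (measurable_id.prodMk hP)).aestronglyMeasurable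
    · filter_upwards [hm1, hPR] with t h3 h4
      exact hC (t, P t) ⟨Prod.mk_le_mk.2 ⟨(abs_le.1 h3).1, (abs_le.1 h4).1⟩,
        Prod.mk_le_mk.2 ⟨(abs_le.1 h3).2, (abs_le.1 h4).2⟩⟩
  · refine Integrable.of_bound (C := C) ?_ ?_
    · exact (StronglyMeasurable.integral_kernel_prod_right' (κ := μ.condKernel) (E := ℝ)
        (f := fun q : ℝ × ℝ => φ q.1 q.2) hφ.stronglyMeasurable).aestronglyMeasurable
    · filter_upwards [hker] with t ht
      have h3 := norm_integral_le_of_norm_le_const (μ := μ.condKernel t) (f := fun y : ℝ => φ t y) (C := C)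
        (by
          filter_upwards [ht] with y hy
          exact hC (t, y) ⟨Prod.mk_le_mk.2 ⟨(abs_le.1 hy.1).1, (abs_le.1 hy.2).1⟩,
            Prod.mk_le_mk.2 ⟨(abs_le.1 hy.1).2, (abs_le.1 hy.2).2⟩⟩)
      simpa [Measure.real] using h3
  · filter_upwards [hker, hfi, hbP] with t h3 h4 h5
    show φ t (P t) ≤ ∫ y, φ t y ∂(μ.condKernel t)
    rw [← h5]
    refine (hφc t).map_integral_le ?_ isClosed_Icc ?_ h4 ?_
    · exact (hφ.comp (Continuous.prodMk_right t)).continuousOn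
    · filter_upwards [h3] with y hy using abs_le.1 hy.2
    · refine Integrable.of_bound (C := C) ?_ ?_
      · exact (hφ.comp (Continuous.prodMk_right t)).aestronglyMeasurable
      · filter_upwards [h3] with y hy
        exact hC (t, y) ⟨Prod.mk_le_mk.2 ⟨(abs_le.1 hy.1).1, (abs_le.1 hy.2).1⟩,
          Prod.mk_le_mk.2 ⟨(abs_le.1 hy.1).2, (abs_le.1 hy.2).2⟩⟩

/-- version with `φ` only defined on the rectangle -/
theorem jensen_abs {ρ : Measure X} [IsFiniteMeasure ρ] {ξ p : X → ℝ} (hξ : AEMeasurable ξ ρ)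
    (hp : AEMeasurable p ρ) {R : ℝ} (hR0 : 0 ≤ R) (hpR : ∀ᵐ x ∂ρ, |p x| ≤ R) (hξ1 : ∀ᵐ x ∂ρ, |ξ x| ≤ 1)
    {m : Measure ℝ} [IsFiniteMeasure m] {P : ℝ → ℝ} (hP : Measurable P) (hPR : ∀ᵐ t ∂m, |P t| ≤ R)
    (hm1 : ∀ᵐ t ∂m, |t| ≤ 1)
    (h1 : ∀ ψ : ℝ → ℝ, ContDiff ℝ 1 ψ → ∫ x, ψ (ξ x) ∂ρ = ∫ t, ψ t ∂m)
    (h2 : ∀ ψ : ℝ → ℝ, ContDiff ℝ 1 ψ → ∫ x, ψ (ξ x) * p x ∂ρ = ∫ t, ψ t * P t ∂m)
    (φ : ℝ → ℝ → ℝ) (hφ : ContinuousOn (fun q : ℝ × ℝ => φ q.1 q.2) (Icc (-1) 1 ×ˢ Icc (-R) R))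
    (hφc : ∀ t ∈ Icc (-1 : ℝ) 1, ConvexOn ℝ (Icc (-R) R) (φ t)) :
    ∫ t, φ t (P t) ∂m ≤ ∫ x, φ (ξ x) (p x) ∂ρ := by
  set c1 : ℝ → ℝ := fun t => max (-1) (min 1 t) with hc1
  set c2 : ℝ → ℝ := fun t => max (-R) (min R t) with hc2
  have hc1m : ∀ t, c1 t ∈ Icc (-1 : ℝ) 1 := fun t => ⟨le_max_left _ _, max_le (by norm_num) (min_le_left _ _)⟩
  have hc2m : ∀ t, c2 t ∈ Icc (-R) R := fun t => ⟨le_max_left _ _, max_le (by linarith) (min_le_left _ _)⟩
  have hc1e : ∀ t, |t| ≤ 1 → c1 t = t := fun t ht => by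
    have := abs_le.1 ht
    simp only [hc1]; rw [min_eq_right this.2, max_eq_right this.1]
  have hc2e : ∀ t, |t| ≤ R → c2 t = t := fun t ht => by
    have := abs_le.1 ht
    simp only [hc2]; rw [min_eq_right this.2, max_eq_right this.1]
  have hcont : Continuous (fun q : ℝ × ℝ => φ (c1 q.1) (c2 q.2)) := by
    have hg : Continuous (fun q : ℝ × ℝ => (c1 q.1, c2 q.2)) := by simp only [hc1, hc2]; fun_prop
    exact hφ.comp_continuous hg (fun q => ⟨hc1m _, hc2m _⟩)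
  have key := jensen_abs_cont hξ hp hpR hξ1 hP hPR h1 h2 (fun t y => φ (c1 t) (c2 y)) hcont (fun t => by
    have := hφc (c1 t) (hc1m t)
    refine this.congr ?_
    intro y hy
    simp only [hc2e y (abs_le.2 hy)])
  have e1 : ∫ t, φ (c1 t) (c2 (P t)) ∂m = ∫ t, φ t (P t) ∂m := by
    apply integral_congr_ae
    filter_upwards [hm1, hPR] with t h3 h4
    rw [hc1e t h3, hc2e _ h4]
  have e2 : ∫ x, φ (c1 (ξ x)) (c2 (p x)) ∂ρ = ∫ x, φ (ξ x) (p x) ∂ρ := by
    apply integral_congr_ae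
    filter_upwards [hξ1, hpR] with t h3 h4
    rw [hc1e _ h3, hc2e _ h4]
  rw [← e1, ← e2]
  exact key

end abs

end Crest.Agent.R230
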