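import Crest.Agent.R230.DefsE

/-!
# Row 230, N: one dimensional calculus for profiles
-/

set_option autoImplicit false

open MeasureTheory Set
open scoped Pointwise ENNReal

namespace Crest.Agent.R230

variable {n : ℕ}

/-! ### basic facts -/

lemma pc_symm {r : ℝ → ℝ} (hr : Prof r) : r (-1) = r 1 :=
  hr.even 1 (by norm_num)

lemma pc_nonneg {r : ℝ → ℝ} (hr : Prof r) {s : ℝ} (hs : s ∈ Icc (-1 : ℝ) 1) : 0 ≤ r s := by
  have hcl : closure (Ioo (-1 : ℝ) 1) = Icc (-1) 1 := closure_Ioo (by norm_num)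
  refine le_on_closure (f := fun _ => (0 : ℝ)) (g := r) (s := Ioo (-1 : ℝ) 1)
    (fun x hx => (hr.pos x hx).le) continuousOn_const ?_ ?_
  · rw [hcl]; exact hr.cont
  · rw [hcl]; exact hs

lemma pc_mono {r : ℝ → ℝ} (hr : Prof r) : MonotoneOn r (Icc (-1 : ℝ) 0) := by
  intro x hx y hy hxy
  have hx' : x ∈ Icc (-1 : ℝ) 1 := ⟨hx.1, by linarith [hx.2]⟩
  have hnx : -x ∈ Icc (-1 : ℝ) 1 := ⟨by linarith [hx.2], by linarith [hx.1]⟩
  have h := hr.conc.min_le_of_mem_Icc hx' hnx (z := y) ⟨hxy, by linarith [hy.2, hx.2]⟩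
  rwa [hr.even x hx', min_self] at h

lemma pc_anti {r : ℝ → ℝ} (hr : Prof r) : AntitoneOn r (Icc (0 : ℝ) 1) := by
  intro x hx y hy hxy
  have hy' : y ∈ Icc (-1 : ℝ) 1 := ⟨by linarith [hy.1], hy.2⟩
  have hny : -y ∈ Icc (-1 : ℝ) 1 := ⟨by linarith [hy.2], by linarith [hy.1]⟩
  have h := hr.conc.min_le_of_mem_Icc hny hy' (z := x) ⟨by linarith [hy.1, hx.1], hxy⟩
  rwa [hr.even y hy', min_self] at h

lemma pc_hasRight {r : ℝ → ℝ} (hr : Prof r) {x : ℝ} (hx : x ∈ Ioo (-1 : ℝ) 1) :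
    HasDerivWithinAt r (derivWithin r (Ioi x) x) (Ioi x) x := by
  have h1 : ConvexOn ℝ (Icc (-1 : ℝ) 1) (-r) := hr.conc.neg
  have h2 := h1.differentiableWithinAt_Ioi_of_mem_interior (x := x) (by rw [interior_Icc]; exact hx)
  have h3 : DifferentiableWithinAt ℝ r (Ioi x) x := by
    have := h2.neg
    simpa using this
  exact h3.hasDerivWithinAt

lemma pc_ae_eq {r : ℝ → ℝ} (hr : Prof r) :
    ∀ᵐ x ∂(volume : Measure ℝ), x ∈ Ioc (-1 : ℝ) 1 → DifferentiableAt ℝ r x := by
  have h1 := (pc_mono hr).ae_differentiableWithinAt_of_mem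
  have h2 := (pc_anti hr).neg.ae_differentiableWithinAt_of_mem
  have h3 : ∀ᵐ x ∂(volume : Measure ℝ), x ≠ 0 := by
    simp [ae_iff]
  have h4 : ∀ᵐ x ∂(volume : Measure ℝ), x ≠ 1 := by
    simp [ae_iff]
  filter_upwards [h1, h2, h3, h4] with x h1 h2 h3 h4 hx
  rcases lt_or_gt_of_ne h3 with h | h
  · have hm : x ∈ Icc (-1 : ℝ) 0 := ⟨hx.1.le, h.le⟩
    exact (h1 hm).differentiableAt (Icc_mem_nhds hx.1 h)
  · have hm : x ∈ Icc (0 : ℝ) 1 := ⟨h.le, hx.2⟩
    have h5 := (h2 hm).differentiableAt (Icc_mem_nhds h (lt_of_le_of_ne hx.2 h4))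
    have := h5.neg
    simpa using this

lemma pc_ae_rd {r : ℝ → ℝ} (hr : Prof r) :
    ∀ᵐ x ∂(volume : Measure ℝ), x ∈ Ioc (-1 : ℝ) 1 → derivWithin r (Ioi x) x = deriv r x := by
  filter_upwards [pc_ae_eq hr] with x hx hxm
  exact (hx hxm).hasDerivAt.hasDerivWithinAt.derivWithin (uniqueDiffWithinAt_Ioi x)

lemma pc_rd_nonneg {r : ℝ → ℝ} (hr : Prof r) {x : ℝ} (hx : x ∈ Ioo (-1 : ℝ) 0) :
    0 ≤ derivWithin r (Ioi x) x := by
  have h := pc_hasRight hr (x := x) ⟨hx.1, by linarith [hx.2]⟩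
  rw [hasDerivWithinAt_iff_tendsto_slope' (by simp)] at h
  refine ge_of_tendsto h ?_
  filter_upwards [Ioo_mem_nhdsGT hx.2] with y hy
  rw [slope_def_field]
  apply div_nonneg
  · rw [sub_nonneg]
    exact pc_mono hr ⟨hx.1.le, hx.2.le⟩ ⟨by linarith [hx.1, hy.1], hy.2.le⟩ hy.1.le
  · linarith [hy.1]

lemma pc_rd_nonpos {r : ℝ → ℝ} (hr : Prof r) {x : ℝ} (hx : x ∈ Ioo (0 : ℝ) 1) :
    derivWithin r (Ioi x) x ≤ 0 := by
  have h := pc_hasRight hr (x := x) ⟨by linarith [hx.1], hx.2⟩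
  rw [hasDerivWithinAt_iff_tendsto_slope' (by simp)] at h
  refine le_of_tendsto h ?_
  filter_upwards [Ioo_mem_nhdsGT hx.2] with y hy
  rw [slope_def_field]
  apply div_nonpos_of_nonpos_of_nonneg
  · rw [sub_nonpos]
    exact pc_anti hr ⟨hx.1.le, hx.2.le⟩ ⟨by linarith [hx.1, hy.1], hy.2.le⟩ hy.1.le
  · linarith [hy.1]

lemma pc_rd_integrable {r : ℝ → ℝ} (hr : Prof r) :
    IntervalIntegrable (fun x => derivWithin r (Ioi x) x) volume (-1) 1 := by
  have hA : IntervalIntegrable (fun x => derivWithin r (Ioi x) x) volume (-1) 0 := by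
    rw [intervalIntegrable_iff_integrableOn_Ioc_of_le (by norm_num)]
    refine intervalIntegral.integrableOn_deriv_right_of_nonneg (g := r)
      (hr.cont.mono (Icc_subset_Icc le_rfl (by norm_num))) ?_ ?_
    · intro x hx
      exact pc_hasRight hr ⟨hx.1, by linarith [hx.2]⟩
    · intro x hx
      exact pc_rd_nonneg hr hx
  have hB : IntervalIntegrable (fun x => -derivWithin r (Ioi x) x) volume 0 1 := by
    rw [intervalIntegrable_iff_integrableOn_Ioc_of_le (by norm_num)]
    refine intervalIntegral.integrableOn_deriv_right_of_nonneg (g := fun x => - r x)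
      (hr.cont.mono (Icc_subset_Icc (by norm_num) le_rfl)).neg ?_ ?_
    · intro x hx
      exact (pc_hasRight hr ⟨by linarith [hx.1], hx.2⟩).neg
    · intro x hx
      have := pc_rd_nonpos hr hx
      linarith
  have hB' : IntervalIntegrable (fun x => derivWithin r (Ioi x) x) volume 0 1 := by
    have := hB.neg
    refine this.congr ?_
    intro x _
    simp
  exact hA.trans hB'

lemma pc_deriv_integrable {r : ℝ → ℝ} (hr : Prof r) :
    IntervalIntegrable (fun x => deriv r x) volume (-1) 1 := by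
  refine (pc_rd_integrable hr).congr_ae ?_
  rw [uIoc_of_le (by norm_num)]
  exact (ae_restrict_iff' measurableSet_Ioc).2 (pc_ae_rd hr)

lemma pc_cont {r : ℝ → ℝ} (hr : Prof r) : ContinuousOn r (uIcc (-1 : ℝ) 1) := by
  rw [uIcc_of_le (by norm_num)]; exact hr.cont

theorem prof_integrable2 (_hn : 1 ≤ n) {r : ℝ → ℝ} (hr : Prof r) :
    IntervalIntegrable (fun s => r s ^ (n - 1) * deriv r s) volume (-1) 1 :=
  (pc_deriv_integrable hr).continuousOn_mul ((pc_cont hr).pow _)

theorem prof_integrable (_hn : 1 ≤ n) {r : ℝ → ℝ} (hr : Prof r) :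
    IntervalIntegrable (fun s => r s ^ (n - 1) * (r s - s * deriv r s)) volume (-1) 1 := by
  have h1 : IntervalIntegrable r volume (-1) 1 := (pc_cont hr).intervalIntegrable
  have h2 : IntervalIntegrable (fun s => s * deriv r s) volume (-1) 1 :=
    (pc_deriv_integrable hr).continuousOn_mul continuousOn_id
  exact (h1.sub h2).continuousOn_mul ((pc_cont hr).pow _)

/-- Integration by parts, right-derivative form. -/
lemma pc_ibp (hn : 1 ≤ n) {r : ℝ → ℝ} (hr : Prof r) (g : ℝ → ℝ) (hg : ContDiff ℝ 1 g) :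
    (∫ s in (-1 : ℝ)..1, deriv g s * r s ^ n) + n * (∫ s in (-1 : ℝ)..1, r s ^ (n - 1) * deriv r s * g s)
      = (g 1 - g (-1)) * r 1 ^ n := by
  have hgc : Continuous g := hg.continuous
  have hgd : Continuous (deriv g) := hg.continuous_deriv le_rfl
  have hgdiff : Differentiable ℝ g := hg.differentiable one_ne_zero
  have hI1 : IntervalIntegrable (fun s => deriv g s * r s ^ n) volume (-1) 1 :=
    (hgd.continuousOn.mul ((pc_cont hr).pow _)).intervalIntegrable
  have hI2 : IntervalIntegrable (fun s => r s ^ (n - 1) * deriv r s * g s) volume (-1) 1 :=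
    (prof_integrable2 hn hr).mul_continuousOn hgc.continuousOn
  have hI3 : IntervalIntegrable
      (fun s => deriv g s * r s ^ n + g s * ((n : ℝ) * r s ^ (n - 1) * derivWithin r (Ioi s) s))
      volume (-1) 1 := by
    refine hI1.add ?_
    have := ((pc_rd_integrable hr).continuousOn_mul
      (hgc.continuousOn.mul ((continuousOn_const (c := (n : ℝ))).mul ((pc_cont hr).pow (n - 1)))))
    refine this.congr ?_
    intro s _
    simp only [Pi.mul_apply, Pi.pow_apply]
    ring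
  have hF := intervalIntegral.integral_eq_sub_of_hasDeriv_right_of_le
    (f := fun s => g s * r s ^ n)
    (f' := fun s => deriv g s * r s ^ n + g s * ((n : ℝ) * r s ^ (n - 1) * derivWithin r (Ioi s) s))
    (a := -1) (b := 1) (by norm_num) (hgc.continuousOn.mul (hr.cont.pow _)) (by
      intro x hx
      have h1 : HasDerivWithinAt g (deriv g x) (Ioi x) x := (hgdiff x).hasDerivAt.hasDerivWithinAt
      exact h1.mul ((pc_hasRight hr hx).pow n)) hI3
  have hcongr : (∫ s in (-1 : ℝ)..1, (deriv g s * r s ^ n +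
        g s * ((n : ℝ) * r s ^ (n - 1) * derivWithin r (Ioi s) s)))
      = ∫ s in (-1 : ℝ)..1, (deriv g s * r s ^ n + n * (r s ^ (n - 1) * deriv r s * g s)) := by
    apply intervalIntegral.integral_congr_ae
    rw [uIoc_of_le (by norm_num)]
    filter_upwards [pc_ae_rd hr] with x hx hxm
    rw [hx hxm]; ring
  rw [hcongr, intervalIntegral.integral_add hI1 (hI2.const_mul _), intervalIntegral.integral_const_mul] at hF
  rw [hF, pc_symm hr]; ring

theorem prof_id2 (hn : 1 ≤ n) {r : ℝ → ℝ} (hr : Prof r) (ψ : ℝ → ℝ) (hψ : ContDiff ℝ 1 ψ) :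
    n * (∫ s in (-1 : ℝ)..1, r s ^ (n - 1) * (-deriv r s) * ψ s) + (ψ 1 - ψ (-1)) * r 1 ^ n
      = ∫ s in (-1 : ℝ)..1, deriv ψ s * r s ^ n := by
  have h := pc_ibp hn hr ψ hψ
  have e : (∫ s in (-1 : ℝ)..1, r s ^ (n - 1) * (-deriv r s) * ψ s)
      = - ∫ s in (-1 : ℝ)..1, r s ^ (n - 1) * deriv r s * ψ s := by
    rw [← intervalIntegral.integral_neg]
    congr 1; funext s; ring
  rw [e]; linarith

theorem prof_id1 (hn : 1 ≤ n) {r : ℝ → ℝ} (hr : Prof r) (ψ : ℝ → ℝ) (hψ : ContDiff ℝ 1 ψ) :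
    n * (∫ s in (-1 : ℝ)..1, r s ^ (n - 1) * (r s - s * deriv r s) * ψ s) + (ψ 1 + ψ (-1)) * r 1 ^ n
      = ∫ s in (-1 : ℝ)..1, ((n + 1) * ψ s + s * deriv ψ s) * r s ^ n := by
  have hψc : Continuous ψ := hψ.continuous
  have hψd : Continuous (deriv ψ) := hψ.continuous_deriv le_rfl
  have hψdiff : Differentiable ℝ ψ := hψ.differentiable one_ne_zero
  have h := pc_ibp hn hr (fun s => s * ψ s) (contDiff_id.mul hψ)
  have hd : deriv (fun s => s * ψ s) = fun s => ψ s + s * deriv ψ s := by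
    funext s
    have h1 : HasDerivAt (fun s => s * ψ s) (1 * ψ s + s * deriv ψ s) s :=
      (hasDerivAt_id' s).mul (hψdiff s).hasDerivAt
    rw [h1.deriv]; ring
  rw [hd] at h
  have hI1 : IntervalIntegrable (fun s => r s ^ n * ψ s) volume (-1) 1 :=
    (((pc_cont hr).pow _).mul hψc.continuousOn).intervalIntegrable
  have hI2 : IntervalIntegrable (fun s => r s ^ (n - 1) * deriv r s * (s * ψ s)) volume (-1) 1 :=
    (prof_integrable2 hn hr).mul_continuousOn (continuous_id.mul hψc).continuousOn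
  have hI3 : IntervalIntegrable (fun s => (ψ s + s * deriv ψ s) * r s ^ n) volume (-1) 1 :=
    ((hψc.add (continuous_id.mul hψd)).continuousOn.mul ((pc_cont hr).pow _)).intervalIntegrable
  have e1 : (∫ s in (-1 : ℝ)..1, r s ^ (n - 1) * (r s - s * deriv r s) * ψ s)
      = (∫ s in (-1 : ℝ)..1, r s ^ n * ψ s) - ∫ s in (-1 : ℝ)..1, r s ^ (n - 1) * deriv r s * (s * ψ s) := by
    rw [← intervalIntegral.integral_sub hI1 hI2]
    congr 1; funext s
    have : r s ^ n = r s ^ (n - 1) * r s := by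
      rw [← pow_succ]; congr 1; omega
    rw [this]; ring
  have e2 : (∫ s in (-1 : ℝ)..1, ((n + 1) * ψ s + s * deriv ψ s) * r s ^ n)
      = n * (∫ s in (-1 : ℝ)..1, r s ^ n * ψ s) + ∫ s in (-1 : ℝ)..1, (ψ s + s * deriv ψ s) * r s ^ n := by
    rw [← intervalIntegral.integral_const_mul, ← intervalIntegral.integral_add (hI1.const_mul _) hI3]
    congr 1; funext s; ring
  rw [e1, e2]
  linarith

/-! ### tangent lines -/

lemma pc_tangent {r : ℝ → ℝ} (hr : Prof r) {s t : ℝ} (hs : s ∈ Ioo (-1 : ℝ) 1) (ht : t ∈ Icc (-1 : ℝ) 1)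
    (hd : DifferentiableAt ℝ r s) : r t ≤ r s + deriv r s * (t - s) := by
  have hs' : s ∈ Icc (-1 : ℝ) 1 := ⟨hs.1.le, hs.2.le⟩
  rcases lt_trichotomy s t with h | h | h
  · have h1 := hr.conc.slope_le_of_hasDerivAt hs' ht h hd.hasDerivAt
    rw [slope_def_field, div_le_iff₀ (by linarith)] at h1
    linarith
  · subst h; simp
  · have h1 := hr.conc.le_slope_of_hasDerivAt ht hs' h hd.hasDerivAt
    rw [slope_def_field, le_div_iff₀ (by linarith)] at h1
    linarith

theorem prof_pp_mem {r : ℝ → ℝ} (hr : Prof r) {s : ℝ} (hs : s ∈ Ioo (-1 : ℝ) 1) :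
    0 < r s - s * deriv r s ∧ pp r s ∈ Icc (-1 : ℝ) 1 := by
  by_cases hd : DifferentiableAt ℝ r s
  · have h0 := pc_tangent hr hs (t := 0) (by norm_num) hd
    have h1 := pc_tangent hr hs (t := 1) (by norm_num) hd
    have h2 := pc_tangent hr hs (t := -1) (by norm_num) hd
    have p0 := hr.pos 0 (by norm_num)
    have p1 := pc_nonneg hr (s := 1) (by norm_num)
    have p2 := pc_nonneg hr (s := -1) (by norm_num)
    have hpos : 0 < r s - s * deriv r s := by linarith
    refine ⟨hpos, ?_, ?_⟩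
    · rw [pp, le_div_iff₀ hpos]; linarith
    · rw [pp, div_le_iff₀ hpos]; linarith
  · have h0 := deriv_zero_of_not_differentiableAt hd
    refine ⟨by rw [h0]; simpa using hr.pos s hs, ?_⟩
    rw [pp, h0]; norm_num

/-! ### moments -/

theorem mom_pos {r : ℝ → ℝ} (hr : Prof r) (k : ℕ) : 0 < mom k r := by
  unfold mom
  apply intervalIntegral.intervalIntegral_pos_of_pos_on ((pc_cont hr).pow k).intervalIntegrable _
    (by norm_num)
  intro s hs
  exact pow_pos (hr.pos s hs) k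

lemma pc_pp_measurable {r : ℝ → ℝ} (hr : Prof r) :
    AEStronglyMeasurable (pp r) (volume.restrict (Ioc (-1 : ℝ) 1)) := by
  have h1 : AEStronglyMeasurable r (volume.restrict (Ioc (-1 : ℝ) 1)) :=
    (hr.cont.mono Ioc_subset_Icc_self).aestronglyMeasurable measurableSet_Ioc
  have h2 : AEMeasurable (deriv r) (volume.restrict (Ioc (-1 : ℝ) 1)) :=
    (measurable_deriv r).aemeasurable
  have h3 : AEMeasurable (pp r) (volume.restrict (Ioc (-1 : ℝ) 1)) :=
    h2.neg.div (h1.aemeasurable.sub (measurable_id.aemeasurable.mul h2))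
  exact h3.aestronglyMeasurable

lemma pc_ae_mem {r : ℝ → ℝ} (hr : Prof r) :
    ∀ᵐ s ∂(volume.restrict (Ioc (-1 : ℝ) 1)), s ∈ Ioo (-1 : ℝ) 1 ∧ 0 < r s - s * deriv r s ∧
      pp r s ∈ Icc (-1 : ℝ) 1 := by
  rw [ae_restrict_iff' measurableSet_Ioc]
  have h4 : ∀ᵐ x ∂(volume : Measure ℝ), x ≠ 1 := by
    simp [ae_iff]
  filter_upwards [h4] with s hs hm
  have hs' : s ∈ Ioo (-1 : ℝ) 1 := ⟨hm.1, lt_of_le_of_ne hm.2 hs⟩
  exact ⟨hs', prof_pp_mem hr hs'⟩

/-- Integrability of continuous test functions of `(s, p(s))`. -/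
theorem prof_integrable_mul (hn : 1 ≤ n) {r : ℝ → ℝ} (hr : Prof r) (φ : ℝ → ℝ → ℝ)
    (hφ : ContinuousOn (fun q : ℝ × ℝ => φ q.1 q.2) (Icc (-1) 1 ×ˢ Icc (-1) 1)) :
    IntervalIntegrable (fun s => r s ^ (n - 1) * (r s - s * deriv r s) * φ s (pp r s)) volume (-1) 1 := by
  classical
  have hint := prof_integrable hn hr
  rw [intervalIntegrable_iff_integrableOn_Ioc_of_le (by norm_num)] at hint ⊢
  set S : Set (ℝ × ℝ) := Icc (-1) 1 ×ˢ Icc (-1) 1 with hS
  have hSc : IsCompact S := isCompact_Icc.prod isCompact_Icc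
  have hSm : MeasurableSet S := hSc.measurableSet
  obtain ⟨C, hC⟩ := hSc.exists_bound_of_continuousOn hφ
  have hm : Measurable (S.piecewise (fun q : ℝ × ℝ => φ q.1 q.2) (fun _ => 0)) :=
    hφ.measurable_piecewise continuousOn_const hSm
  have hpair : AEMeasurable (fun s : ℝ => (s, pp r s)) (volume.restrict (Ioc (-1 : ℝ) 1)) :=
    measurable_id.aemeasurable.prodMk (pc_pp_measurable hr).aemeasurable
  have hcomp := (hm.comp_aemeasurable hpair).aestronglyMeasurable
  have hae := pc_ae_mem hr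
  have hφm : AEStronglyMeasurable (fun s => φ s (pp r s)) (volume.restrict (Ioc (-1 : ℝ) 1)) := by
    refine hcomp.congr ?_
    filter_upwards [hae] with s hs
    have : (s, pp r s) ∈ S := ⟨⟨hs.1.1.le, hs.1.2.le⟩, hs.2.2⟩
    simp only [Function.comp]
    rw [Set.piecewise_eq_of_mem _ _ _ this]
  refine Integrable.mul_bdd (c := C) hint hφm ?_
  filter_upwards [hae] with s hs
  exact hC (s, pp r s) ⟨⟨hs.1.1.le, hs.1.2.le⟩, hs.2.2⟩

theorem EP_sq_pos (hn : 1 ≤ n) {r : ℝ → ℝ} (hr : Prof r) : 0 < EP n r (fun _ p => p ^ 2) := by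
  unfold EP
  have hm := mom_pos hr n
  have hn0 : (0 : ℝ) < n := by exact_mod_cast hn
  refine div_pos ?_ (by positivity)
  have hae := pc_ae_mem hr
  have hint : IntervalIntegrable
      (fun s => r s ^ (n - 1) * (r s - s * deriv r s) * pp r s ^ 2) volume (-1) 1 :=
    prof_integrable_mul hn hr (fun _ p => p ^ 2) (by fun_prop)
  have hnn : 0 ≤ᵐ[volume.restrict (Ioc (-1 : ℝ) 1)]
      (fun s => r s ^ (n - 1) * (r s - s * deriv r s) * pp r s ^ 2) := by
    filter_upwards [hae] with s hs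
    have := hr.pos s hs.1
    have := hs.2.1
    simp only [Pi.zero_apply]
    positivity
  have hI : 0 ≤ ∫ s in (-1 : ℝ)..1, r s ^ (n - 1) * (r s - s * deriv r s) * pp r s ^ 2 :=
    intervalIntegral.integral_nonneg_of_ae_restrict (by norm_num) (by
      rw [← restrict_Ioc_eq_restrict_Icc]; exact hnn)
  have h1 : 0 ≤ r 1 := pc_nonneg hr (by norm_num)
  rcases h1.lt_or_eq with h1 | h1
  · have : 0 < r 1 ^ n := pow_pos h1 n
    have h2 : 0 ≤ (n : ℝ) * ∫ s in (-1 : ℝ)..1, r s ^ (n - 1) * (r s - s * deriv r s) * pp r s ^ 2 := by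
      positivity
    nlinarith
  · rw [← h1, zero_pow (by omega)]
    simp only [mul_zero, add_zero]
    apply mul_pos hn0
    refine lt_of_le_of_ne hI (fun h0 => ?_)
    have h2 := (intervalIntegral.integral_eq_zero_iff_of_le_of_nonneg_ae (by norm_num) hnn hint).1 h0.symm
    have h3 : ∀ᵐ s ∂(volume.restrict (Ioc (-1 : ℝ) 1)), derivWithin r (Ioi s) s = 0 := by
      have h4 := (ae_restrict_iff' measurableSet_Ioc).2 (pc_ae_rd hr)
      filter_upwards [hae, h2, h4] with s hs h2 h4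
      rw [h4]
      have p1 := hr.pos s hs.1
      have p2 := hs.2.1
      simp only [Pi.zero_apply, mul_eq_zero] at h2
      have p3 : pp r s ^ 2 = 0 := by
        rcases h2 with (h2 | h2) | h2
        · exact absurd h2 (pow_pos p1 _).ne'
        · exact absurd h2 p2.ne'
        · exact h2
      have p4 : pp r s = 0 := by simpa using p3
      rw [pp, div_eq_zero_iff] at p4
      rcases p4 with p4 | p4
      · linarith
      · exact absurd p4 p2.ne'
    have hF := intervalIntegral.integral_eq_sub_of_hasDeriv_right_of_le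
      (f := r) (f' := fun s => derivWithin r (Ioi s) s) (a := 0) (b := 1) (by norm_num)
      (hr.cont.mono (Icc_subset_Icc (by norm_num) le_rfl))
      (fun x hx => pc_hasRight hr ⟨by linarith [hx.1], hx.2⟩)
      ((pc_rd_integrable hr).mono_set (by
        rw [uIcc_of_le (by norm_num), uIcc_of_le (by norm_num)]
        exact Icc_subset_Icc (by norm_num) le_rfl))
    have hz : (∫ s in (0 : ℝ)..1, derivWithin r (Ioi s) s) = 0 := by
      rw [intervalIntegral.integral_of_le (by norm_num)]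
      apply integral_eq_zero_of_ae
      exact ae_restrict_of_ae_restrict_of_subset (Ioc_subset_Ioc (by norm_num) le_rfl) h3
    rw [hz, ← h1] at hF
    have := hr.pos 0 (by norm_num)
    linarith

end Crest.Agent.R230
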