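import Crest.Agent.R230.ProfInt
import Crest.Agent.R230.BM

/-!
# Row 230, L1: profiles of symmetric convex bodies are even, concave, positive, continuous
-/

set_option autoImplicit false

open MeasureTheory Set Filter Topology
open scoped Pointwise ENNReal

namespace Crest.Agent.R230

variable {n : ℕ}

lemma prf_rt_eq (A : Set (E n)) : rt A = vol A ^ ((1 : ℝ) / n) := by
  unfold rt vol
  rw [finrank_euclideanSpace_fin, measureReal_def]

section

variable {K : Set (E (n + 1))} {u : E (n + 1)}

/-- there is a point at every height -/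
lemma prf_exists_point (hK : CB K) (hs' : ∀ x ∈ K, -x ∈ K) {t : ℝ} (ht : |t| ≤ hs K u) :
    ∃ x ∈ K, inner ℝ x u = t := by
  obtain ⟨x, hx, hxu⟩ := exists_hs_eq hK.isCompact hK.nonempty u
  have hc : OrdConnected ((fun x : E (n + 1) => (inner ℝ x u : ℝ)) '' K) :=
    (hK.convex.linear_image ((innerₗ (E (n + 1))).flip u)).ordConnected
  have h1 : (inner ℝ x u : ℝ) ∈ (fun x : E (n + 1) => (inner ℝ x u : ℝ)) '' K := ⟨x, hx, rfl⟩
  have h2 : -(inner ℝ x u : ℝ) ∈ (fun x : E (n + 1) => (inner ℝ x u : ℝ)) '' K :=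
    ⟨-x, hs' x hx, by simp⟩
  have := hc.out h2 h1 (show t ∈ Icc _ _ by rw [hxu]; exact abs_le.1 ht)
  obtain ⟨y, hy, hyt⟩ := this
  exact ⟨y, hy, hyt⟩

/-- an interior point at every interior height -/
lemma prf_exists_interior (hK : CB K) (hs' : ∀ x ∈ K, -x ∈ K) {t : ℝ} (hu : 0 < hs K u)
    (ht : |t| < hs K u) : ∃ x ∈ interior K, inner ℝ x u = t := by
  obtain ⟨z, hz⟩ := hK.interior_nonempty
  have h0 : (0 : E (n + 1)) ∈ interior K := by
    have hnx : -z ∈ K := hs' z (interior_subset hz)
    have := hK.convex.combo_interior_self_mem_interior hz hnx (a := 1 / 2) (b := 1 / 2)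
      (by norm_num) (by norm_num) (by norm_num)
    convert this using 1
    rw [smul_neg]; abel
  obtain ⟨x, hx, hxu⟩ := exists_hs_eq hK.isCompact hK.nonempty u
  have key : ∀ a : ℝ, 0 ≤ a → a < 1 → a • x ∈ interior K := by
    intro a ha ha1
    have := hK.convex.combo_interior_self_mem_interior h0 hx (a := 1 - a) (b := a)
      (by linarith) ha (by ring)
    simpa using this
  have hneg : ∀ y ∈ interior K, -y ∈ interior K := by
    intro y hy
    rw [mem_interior_iff_mem_nhds] at hy ⊢
    have h2 : Tendsto (fun w : E (n + 1) => -w) (𝓝 (-y)) (𝓝 y) := by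
      have := (continuous_neg (G := E (n + 1))).tendsto (-y)
      rwa [neg_neg] at this
    filter_upwards [h2 hy] with w hw
    have := hs' _ (show -w ∈ K from hw)
    rwa [neg_neg] at this
  rcases le_or_gt 0 t with h | h
  · rw [abs_of_nonneg h] at ht
    refine ⟨(t / hs K u) • x, key _ (by positivity) ((div_lt_one hu).2 ht), ?_⟩
    rw [inner_smul_left, hxu]
    simp only [conj_trivial]
    field_simp
  · rw [abs_of_neg h] at ht
    refine ⟨-((-t / hs K u) • x), hneg _ (key _ (div_nonneg (by linarith) hu.le) ((div_lt_one hu).2 ht)), ?_⟩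
    rw [inner_neg_left, inner_smul_left, hxu]
    simp only [conj_trivial]
    field_simp

variable (F : Frame u)

lemma prf_slice_nonempty (hu : ‖u‖ = 1) (hK : CB K) (hs' : ∀ x ∈ K, -x ∈ K) {t : ℝ}
    (ht : |t| ≤ hs K u) : (F.slice K t).Nonempty := by
  obtain ⟨x, hx, hxt⟩ := prf_exists_point hK hs' ht
  obtain ⟨⟨s, y⟩, hp⟩ := F.surjective_Φ x
  have h1 := F.inner_Φ hu (s, y)
  rw [hp, hxt] at h1
  simp only at h1
  refine ⟨y, ?_⟩
  rw [F.mem_slice, h1, hp]
  exact hx

lemma prf_slice_pos (hu : ‖u‖ = 1) (hK : CB K) (hs' : ∀ x ∈ K, -x ∈ K) {t : ℝ}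
    (hpos : 0 < hs K u) (ht : |t| < hs K u) : 0 < vol (F.slice K t) := by
  obtain ⟨x, hx, hxt⟩ := prf_exists_interior hK hs' hpos ht
  obtain ⟨⟨s, y⟩, hp⟩ := F.surjective_Φ x
  have h1 := F.inner_Φ hu (s, y)
  rw [hp, hxt] at h1
  simp only at h1
  have hc : Continuous fun y : E n => F.Φ (t, y) :=
    F.continuous_Φ.comp (continuous_const.prodMk continuous_id)
  have hopen : IsOpen ((fun y : E n => F.Φ (t, y)) ⁻¹' interior K) := isOpen_interior.preimage hc
  unfold vol
  refine ENNReal.toReal_pos ?_ (F.isCompact_slice hK.isCompact t).measure_lt_top.ne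
  refine ((hopen.measure_pos volume ⟨y, ?_⟩).trans_le (measure_mono ?_)).ne'
  · show F.Φ (t, y) ∈ interior K
    rw [h1, hp]; exact hx
  · intro z hz
    have hz' : F.Φ (t, z) ∈ interior K := hz
    rw [F.mem_slice]
    exact interior_subset hz'

lemma prf_slice_neg (hs' : ∀ x ∈ K, -x ∈ K) (t : ℝ) :
    F.slice K (-t) = -F.slice K t := by
  have key : ∀ (t : ℝ) (y : E n), F.Φ (-t, -y) = -F.Φ (t, y) := by
    intro t y
    simp only [Frame.Φ, map_neg, neg_smul]
    abel
  ext y
  rw [Set.mem_neg, F.mem_slice, F.mem_slice]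
  constructor
  · intro h
    have := hs' _ h
    rw [← key] at this
    simpa using this
  · intro h
    have := hs' _ h
    rw [← key] at this
    simpa using this

lemma prf_slice_comb (a b s t : ℝ) (hK : Convex ℝ K) (ha : 0 ≤ a) (hb : 0 ≤ b) (hab : a + b = 1) :
    a • F.slice K s + b • F.slice K t ⊆ F.slice K (a * s + b * t) := by
  rintro _ ⟨_, ⟨y, hy, rfl⟩, _, ⟨z, hz, rfl⟩, rfl⟩
  rw [F.mem_slice] at hy hz ⊢
  have : F.Φ (a * s + b * t, a • y + b • z) = a • F.Φ (s, y) + b • F.Φ (t, z) := by
    simp only [Frame.Φ, map_add, map_smul, smul_add, add_smul, mul_smul]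
    abel
  simp only
  rw [this]
  exact hK hy hz ha hb hab

end

theorem prof_Prof (hn : 1 ≤ n) {K : Set (E (n + 1))} (hK : CB K) (hs : ∀ x ∈ K, -x ∈ K) {e : E (n + 1)}
    (he : e ≠ 0) : Prof (prof K e) := by
  have hs' := hs
  have hne : 0 < ‖e‖ := norm_pos_iff.2 he
  set u : E (n + 1) := ‖e‖⁻¹ • e with hu
  have hu1 : ‖u‖ = 1 := by rw [hu, norm_smul, norm_inv, norm_norm, inv_mul_cancel₀ hne.ne']
  have hu0 : u ≠ 0 := by rintro h; rw [h] at hu1; simp at hu1
  set H : ℝ := Crest.Agent.R230.hs K u with hH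
  have hHpos : 0 < H := pint_hs_pos hK hs' hu0
  obtain ⟨F⟩ := exists_frame u hu1
  have hfin : 0 < Module.finrank ℝ (E n) := by rw [finrank_euclideanSpace_fin]; omega
  have hprof : ∀ s, prof K e s = rt (F.slice K (s * H)) := by
    intro s
    rw [prf_rt_eq, ← area_eq hu1 F]
    rfl
  have hle : ∀ s ∈ Icc (-1 : ℝ) 1, |s * H| ≤ H := by
    intro s hs1
    rw [abs_mul, abs_of_pos hHpos]
    have := abs_le.2 hs1
    nlinarith [abs_nonneg s]
  have hnn : ∀ s, 0 ≤ prof K e s := fun s => by rw [hprof]; exact rt_nonneg _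
  have hconc : ConcaveOn ℝ (Icc (-1) 1) (prof K e) := by
    refine ⟨convex_Icc _ _, ?_⟩
    intro s hs1 t ht a b ha hb hab
    simp only [smul_eq_mul]
    rw [hprof, hprof, hprof]
    have h1 := BM_comb hfin (F.isCompact_slice hK.isCompact (s * H)) (F.isCompact_slice hK.isCompact (t * H))
      (prf_slice_nonempty F hu1 hK hs' (hle s hs1)) (prf_slice_nonempty F hu1 hK hs' (hle t ht)) ha hb
    refine h1.trans ?_
    have h2 := prf_slice_comb F a b (s * H) (t * H) hK.convex ha hb hab
    have h3 : a * (s * H) + b * (t * H) = (a * s + b * t) * H := by ring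
    rw [h3] at h2
    exact rt_mono (F.isCompact_slice hK.isCompact _) h2
  have heven : ∀ s, prof K e (-s) = prof K e s := by
    intro s
    rw [hprof, hprof, neg_mul, prf_slice_neg F hs', prf_rt_eq, prf_rt_eq]
    congr 1
    unfold vol
    rw [Measure.measure_neg]
  refine ⟨hconc, fun s _ => heven s, ?_, ?_⟩
  · intro s hs1
    rw [hprof, prf_rt_eq]
    apply Real.rpow_pos_of_pos
    apply prf_slice_pos F hu1 hK hs' hHpos
    rw [abs_mul, abs_of_pos hHpos]
    have := abs_lt.2 hs1
    nlinarith [abs_nonneg s]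
  · -- continuity
    have hint : ContinuousOn (prof K e) (Ioo (-1) 1) := by
      have := hconc.subset Ioo_subset_Icc_self (convex_Ioo _ _)
      exact this.continuousOn isOpen_Ioo
    -- the end point `1`
    have hone : ContinuousWithinAt (prof K e) (Icc (-1) 1) 1 := by
      -- the sweeps
      set A : ℕ → Set (E n) := fun j => {y | ∃ t ∈ Icc (H - H / (j + 1)) H, F.Φ (t, y) ∈ K} with hA
      have hAc : ∀ j, IsCompact (A j) := by
        intro j
        have h1 : A j = Prod.snd '' ((F.Φ ⁻¹' K) ∩ (Icc (H - H / (j + 1)) H ×ˢ univ)) := by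
          ext y
          simp only [hA, mem_ofPred_eq, mem_image, mem_inter_iff, mem_preimage, mem_prod, mem_univ,
            and_true, Prod.exists, exists_eq_right]
          constructor
          · rintro ⟨t, ht, h⟩; exact ⟨t, h, ht⟩
          · rintro ⟨t, h, ht⟩; exact ⟨t, ht, h⟩
        rw [h1]
        apply IsCompact.image _ continuous_snd
        apply (F.isCompact_preimage hu1 hK.isCompact).inter_right
        exact isClosed_Icc.prod isClosed_univ
      have hAanti : Antitone A := by
        intro i j hij y hy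
        obtain ⟨t, ht, h⟩ := hy
        refine ⟨t, ⟨?_, ht.2⟩, h⟩
        refine le_trans ?_ ht.1
        have : H / ((j : ℝ) + 1) ≤ H / ((i : ℝ) + 1) := by
          apply div_le_div_of_nonneg_left hHpos.le (by positivity)
          have : (i : ℝ) ≤ j := by exact_mod_cast hij
          linarith
        linarith
      have hAinter : ⋂ j, A j = F.slice K H := by
        ext y
        rw [mem_iInter, F.mem_slice]
        constructor
        · intro h
          choose t ht hty using h
          have hlim : Tendsto t atTop (𝓝 H) := by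
            have h0 : Tendsto (fun j : ℕ => H - H / ((j : ℝ) + 1)) atTop (𝓝 (H - 0)) := by
              apply tendsto_const_nhds.sub
              have := tendsto_one_div_add_atTop_nhds_zero_nat (𝕜 := ℝ)
              have h2 := this.const_mul H
              rw [mul_zero] at h2
              refine h2.congr fun j => ?_
              rw [mul_one_div]
            rw [sub_zero] at h0
            exact tendsto_of_tendsto_of_tendsto_of_le_of_le h0 tendsto_const_nhds
              (fun j => (ht j).1) (fun j => (ht j).2)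
          have hcl : IsClosed {s : ℝ | F.Φ (s, y) ∈ K} :=
            hK.isCompact.isClosed.preimage (F.continuous_Φ.comp (continuous_id.prodMk continuous_const))
          exact hcl.mem_of_tendsto hlim (Eventually.of_forall hty)
        · intro h j
          exact ⟨H, ⟨by have : 0 ≤ H / ((j : ℝ) + 1) := by positivity
                        linarith, le_rfl⟩, h⟩
      have hvolA : Tendsto (fun j => rt (A j)) atTop (𝓝 (rt (F.slice K H))) := by
        have h1 : Tendsto (fun j => volume (A j)) atTop (𝓝 (volume (⋂ j, A j))) :=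
          tendsto_measure_iInter_atTop (fun j => (hAc j).measurableSet.nullMeasurableSet) hAanti
            ⟨0, (hAc 0).measure_lt_top.ne⟩
        rw [hAinter] at h1
        have h2 := (ENNReal.tendsto_toReal (F.isCompact_slice hK.isCompact H).measure_lt_top.ne).comp h1
        have h3 := h2.rpow_const (p := (1 : ℝ) / Module.finrank ℝ (E n)) (Or.inr (by positivity))
        exact h3
      have hr1 : prof K e 1 = rt (F.slice K H) := by rw [hprof, one_mul]
      rw [Metric.continuousWithinAt_iff']
      intro δ hδ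
      have h1 : ∀ᶠ s in 𝓝[Icc (-1) 1] (1 : ℝ), prof K e 1 - δ < s * prof K e 1 ∧ 0 < s ∧ s ∈ Icc (-1 : ℝ) 1 := by
        have hc : Tendsto (fun s : ℝ => s * prof K e 1) (𝓝[Icc (-1) 1] 1) (𝓝 (1 * prof K e 1)) :=
          ((continuous_id.mul continuous_const).tendsto 1).mono_left nhdsWithin_le_nhds
        rw [one_mul] at hc
        filter_upwards [hc (Ioi_mem_nhds (show prof K e 1 - δ < prof K e 1 by linarith)),
          nhdsWithin_le_nhds (Ioi_mem_nhds (show (0 : ℝ) < 1 by norm_num)), self_mem_nhdsWithin]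
          with s h1 h2 h3
        exact ⟨h1, h2, h3⟩
      obtain ⟨j, hj⟩ := (hvolA.eventually (gt_mem_nhds (show rt (F.slice K H) < rt (F.slice K H) + δ by
        linarith))).exists
      have h2 : ∀ᶠ s in 𝓝[Icc (-1) 1] (1 : ℝ), H - H / ((j : ℝ) + 1) < s * H := by
        have hc : Tendsto (fun s : ℝ => s * H) (𝓝[Icc (-1) 1] 1) (𝓝 (1 * H)) :=
          ((continuous_id.mul continuous_const).tendsto 1).mono_left nhdsWithin_le_nhds
        rw [one_mul] at hc
        apply hc
        apply Ioi_mem_nhds
        have : 0 < H / ((j : ℝ) + 1) := by positivity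
        linarith
      filter_upwards [h1, h2] with s hs1 hs2
      rw [Real.dist_eq, abs_lt]
      obtain ⟨h3, h4, h5⟩ := hs1
      constructor
      · have h6 := hconc.2 (show (1 : ℝ) ∈ Icc (-1 : ℝ) 1 by simp) (show (0 : ℝ) ∈ Icc (-1 : ℝ) 1 by simp)
          h4.le (show (0 : ℝ) ≤ 1 - s by linarith [h5.2]) (by ring)
        simp only [smul_eq_mul, mul_one, mul_zero, add_zero] at h6
        have h7 := hnn 0
        have h8 : 0 ≤ (1 - s) * prof K e 0 := mul_nonneg (by linarith [h5.2]) h7
        linarith
      · rw [hr1, hprof]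
        have h6 : F.slice K (s * H) ⊆ A j := by
          intro y hy
          exact ⟨s * H, ⟨hs2.le, by nlinarith [h5.2]⟩, hy⟩
        have h7 := rt_mono (hAc j) h6
        linarith
    intro s hs1
    rcases hs1.2.eq_or_lt with h | h
    · rw [h]; exact hone
    rcases hs1.1.eq_or_lt with h' | h'
    · -- end point `-1`
      rw [← h']
      have hmap : MapsTo (fun s : ℝ => -s) (Icc (-1) 1) (Icc (-1) 1) := by
        intro s hs2
        exact ⟨by linarith [hs2.2], by linarith [hs2.1]⟩
      have h1 : ContinuousWithinAt (prof K e ∘ fun s : ℝ => -s) (Icc (-1) 1) (-1) := by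
        apply ContinuousWithinAt.comp (t := Icc (-1) 1) _ continuous_neg.continuousWithinAt hmap
        rw [neg_neg]
        exact hone
      refine h1.congr (fun s _ => ?_) ?_
      · simp [heven s]
      · simp [heven]
    · exact ((hint s ⟨h', h⟩).continuousAt (Ioo_mem_nhds h' h)).continuousWithinAt

end Crest.Agent.R230
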