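import Crest.Agent.R230.Basic

/-!
# Row 230, section T: position of maximal volume ellipsoid
-/

set_option autoImplicit false

open MeasureTheory Set
open scoped Pointwise ENNReal Topology

namespace Crest.Agent.R230

variable {n : ℕ}

/-- small perturbations of the identity in a direction of positive trace have determinant `> 1` -/
lemma exists_det_gt {N : ℕ} (M : Matrix (Fin N) (Fin N) ℝ) (hM : 0 < M.trace) (ρ : ℝ) (hρ : 0 < ρ) :
    ∃ ε, 0 < ε ∧ ε < ρ ∧ 1 < (1 + ε • M).det := by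
  set P := (Matrix.det (1 + (Polynomial.X : Polynomial ℝ) • M.map Polynomial.C)).divX.divX with hP
  have hdet : ∀ ε : ℝ, (1 + ε • M).det = 1 + M.trace * ε + P.eval ε * ε ^ 2 :=
    fun ε => Matrix.det_one_add_smul ε M
  have hc : Continuous (fun ε : ℝ => M.trace + P.eval ε * ε) := by fun_prop
  have h0 : ∀ᶠ ε in 𝓝[>] (0 : ℝ), 0 < M.trace + P.eval ε * ε := by
    have : Filter.Tendsto (fun ε : ℝ => M.trace + P.eval ε * ε) (𝓝[>] (0 : ℝ)) (𝓝 M.trace) := by
      have := (hc.tendsto 0).mono_left (nhdsWithin_le_nhds (s := Ioi (0 : ℝ)))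
      simpa using this
    exact this.eventually (lt_mem_nhds hM)
  have h1 : ∀ᶠ ε in 𝓝[>] (0 : ℝ), ε < ρ :=
    (Filter.tendsto_id.mono_left nhdsWithin_le_nhds).eventually (gt_mem_nhds hρ)
  have h2 : ∀ᶠ ε in 𝓝[>] (0 : ℝ), 0 < ε := self_mem_nhdsWithin
  obtain ⟨ε, a, b, c⟩ := (h0.and (h1.and h2)).exists
  refine ⟨ε, c, b, ?_⟩
  rw [hdet]
  have : 0 < (M.trace + P.eval ε * ε) * ε := mul_pos a c
  nlinarith

lemma exists_det_gt' {N : ℕ} (f : E N →ₗ[ℝ] E N) 
    (hf : 0 < ∑ i, inner ℝ (f (EuclideanSpace.basisFun (Fin N) ℝ i)) (EuclideanSpace.basisFun (Fin N) ℝ i))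
    (ρ : ℝ) (hρ : 0 < ρ) :
    ∃ ε, 0 < ε ∧ ε < ρ ∧ 1 < LinearMap.det (1 + ε • f) := by
  set b := (EuclideanSpace.basisFun (Fin N) ℝ).toBasis with hb
  obtain ⟨ε, h1, h2, h3⟩ := exists_det_gt (LinearMap.toMatrix b b f) (by
    rw [Matrix.trace]
    refine hf.trans_le (le_of_eq ?_)
    refine Finset.sum_congr rfl fun i _ => ?_
    rw [Matrix.diag_apply, LinearMap.toMatrix_apply, hb, OrthonormalBasis.coe_toBasis_repr_apply,
      OrthonormalBasis.coe_toBasis, OrthonormalBasis.repr_apply_apply, real_inner_comm]) ρ hρ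
  refine ⟨ε, h1, h2, ?_⟩
  rw [← LinearMap.det_toMatrix b, map_add, map_smul]
  convert h3 using 3
  exact LinearMap.toMatrix_one b

lemma zero_mem_interior_of_symm {K : Set (E n)} (hK : CB K) (hs' : ∀ x ∈ K, -x ∈ K) :
    (0 : E n) ∈ interior K := by
  obtain ⟨x, hx⟩ := hK.interior_nonempty
  have hneg : (-1 : ℝ) • K = K := by
    ext y
    constructor
    · rintro ⟨z, hz, rfl⟩
      simpa using hs' z hz
    · intro hy
      exact ⟨-y, hs' y hy, by simp⟩
  have hx' : -x ∈ interior K := by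
    have : -x ∈ (-1 : ℝ) • interior K := ⟨x, hx, by simp⟩
    rwa [← interior_smul₀ (by norm_num : (-1 : ℝ) ≠ 0), hneg] at this
  have := hK.convex.interior hx hx' (a := 1 / 2) (b := 1 / 2) (by norm_num) (by norm_num) (by norm_num)
  simpa using this

/-- the ellipsoid of maximal volume -/
lemma exists_max_det {K : Set (E n)} (hK : CB K) (h0 : (0 : E n) ∈ interior K) :
    ∃ A : E n →L[ℝ] E n, (∀ x ∈ Metric.closedBall (0 : E n) 1, A x ∈ K) ∧ 0 < |A.det| ∧
      ∀ B : E n →L[ℝ] E n, (∀ x ∈ Metric.closedBall (0 : E n) 1, B x ∈ K) → |B.det| ≤ |A.det| := by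
  set 𝒜 : Set (E n →L[ℝ] E n) := {A | ∀ x ∈ Metric.closedBall (0 : E n) 1, A x ∈ K} with h𝒜
  have hcl : IsClosed 𝒜 := by
    have : 𝒜 = ⋂ x ∈ Metric.closedBall (0 : E n) 1, {A : E n →L[ℝ] E n | A x ∈ K} := by
      ext A; simp [h𝒜]
    rw [this]
    refine isClosed_biInter fun x _ => ?_
    exact hK.isCompact.isClosed.preimage (ContinuousLinearMap.apply ℝ (E n) x).continuous
  obtain ⟨R, hR⟩ := hK.isCompact.isBounded.subset_closedBall (0 : E n)
  have hR0 : 0 ≤ R := by
    have := hR (interior_subset h0)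
    simpa using this
  have hbd : Bornology.IsBounded 𝒜 := by
    rw [isBounded_iff_forall_norm_le]
    refine ⟨R, fun A hA => ?_⟩
    refine ContinuousLinearMap.opNorm_le_of_unit_norm hR0 fun x hx => ?_
    have := hR (hA x (by simp [hx]))
    simpa using this
  have hcomp : IsCompact 𝒜 := Metric.isCompact_of_isClosed_isBounded hcl hbd
  obtain ⟨ρ, hρ, hball⟩ := Metric.nhds_basis_closedBall.mem_iff.1 (mem_interior_iff_mem_nhds.1 h0)
  have hmem : (ρ • ContinuousLinearMap.id ℝ (E n)) ∈ 𝒜 := by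
    intro x hx
    apply hball
    simp only [Metric.mem_closedBall, dist_zero_right] at hx ⊢
    rw [show (ρ • ContinuousLinearMap.id ℝ (E n)) x = ρ • x from rfl, norm_smul,
      Real.norm_eq_abs, abs_of_pos hρ]
    nlinarith
  obtain ⟨A, hA, hmax⟩ := hcomp.exists_isMaxOn ⟨_, hmem⟩
    (f := fun A : E n →L[ℝ] E n => |A.det|) (ContinuousLinearMap.continuous_det.abs.continuousOn)
  refine ⟨A, hA, ?_, fun B hB => hmax hB⟩
  have h1 : |(ρ • ContinuousLinearMap.id ℝ (E n)).det| ≤ |A.det| := hmax hmem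
  refine lt_of_lt_of_le ?_ h1
  rw [abs_pos]
  have : (ρ • ContinuousLinearMap.id ℝ (E n)).det = ρ ^ Module.finrank ℝ (E n) := by
    have h : ((ρ • ContinuousLinearMap.id ℝ (E n) : E n →L[ℝ] E n) : E n →ₗ[ℝ] E n) = ρ • LinearMap.id := rfl
    rw [ContinuousLinearMap.det, h, LinearMap.det_smul, LinearMap.det_id, mul_one]
  rw [this]
  positivity

/-- the symmetric operator of the second moments, with trace zero -/
noncomputable def secOp (K : Set (E n)) : E n →L[ℝ] E n :=
  (n : ℝ) • (∫ x in K, (innerSL ℝ x).smulRight x) - (∫ x in K, ‖x‖ ^ 2) • ContinuousLinearMap.id ℝ (E n)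

lemma inner_secOp {K : Set (E n)} (hK : IsCompact K) (u v : E n) :
    inner ℝ (secOp K u) v = ∫ x in K, (n * (inner ℝ x u * inner ℝ x v) - ‖x‖ ^ 2 * inner ℝ u v) := by
  have hi : IntegrableOn (fun x : E n => (innerSL ℝ x).smulRight x) K := by
    apply ContinuousOn.integrableOn_compact hK
    exact Continuous.continuousOn (by fun_prop)
  have hi1 : IntegrableOn (fun x : E n => (n : ℝ) * (inner ℝ x u * inner ℝ x v)) K := by
    apply ContinuousOn.integrableOn_compact hK
    exact Continuous.continuousOn (by fun_prop)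
  have hi2 : IntegrableOn (fun x : E n => ‖x‖ ^ 2 * inner ℝ u v) K := by
    apply ContinuousOn.integrableOn_compact hK
    exact Continuous.continuousOn (by fun_prop)
  have hi3 : IntegrableOn (fun x : E n => (inner ℝ x u) • x) K := by
    apply ContinuousOn.integrableOn_compact hK
    exact Continuous.continuousOn (by fun_prop)
  rw [integral_sub hi1 hi2, integral_const_mul, integral_mul_const]
  have h1 : secOp K u = (n : ℝ) • (∫ x in K, (inner ℝ x u) • x) - (∫ x in K, ‖x‖ ^ 2) • u := by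
    unfold secOp
    rw [_root_.sub_apply, _root_.smul_apply, _root_.smul_apply, ContinuousLinearMap.integral_apply hi]
    rfl
  rw [h1, inner_sub_left, inner_smul_left, inner_smul_left, real_inner_comm, ← integral_inner hi3]
  simp only [inner_smul_right, conj_trivial]
  congr 2
  refine integral_congr_ae (Filter.Eventually.of_forall fun x => ?_)
  simp only [real_inner_comm]

lemma sum_inner_secOp {K : Set (E n)} (hK : IsCompact K) :
    ∑ i, inner ℝ (secOp K (EuclideanSpace.basisFun (Fin n) ℝ i)) (EuclideanSpace.basisFun (Fin n) ℝ i) = 0 := by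
  have hi : ∀ i ∈ (Finset.univ : Finset (Fin n)), IntegrableOn (fun x : E n =>
      (n * (inner ℝ x (EuclideanSpace.basisFun (Fin n) ℝ i) * inner ℝ x (EuclideanSpace.basisFun (Fin n) ℝ i))
        - ‖x‖ ^ 2 * inner ℝ (EuclideanSpace.basisFun (Fin n) ℝ i) (EuclideanSpace.basisFun (Fin n) ℝ i))) K := by
    intro i _
    apply ContinuousOn.integrableOn_compact hK
    exact Continuous.continuousOn (by fun_prop)
  simp only [inner_secOp hK]
  rw [← integral_finsetSum _ hi]
  rw [← integral_zero (E n) ℝ]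
  refine integral_congr_ae (Filter.Eventually.of_forall fun x => ?_)
  simp only
  rw [Finset.sum_sub_distrib, ← Finset.mul_sum, ← Finset.mul_sum]
  have h1 : ∑ i, inner ℝ x (EuclideanSpace.basisFun (Fin n) ℝ i) * inner ℝ x (EuclideanSpace.basisFun (Fin n) ℝ i)
      = ‖x‖ ^ 2 := by
    rw [← OrthonormalBasis.sum_sq_norm_inner_left (EuclideanSpace.basisFun (Fin n) ℝ) x]
    refine Finset.sum_congr rfl fun i _ => ?_
    rw [Real.norm_eq_abs, sq_abs, pow_two]
  have h2 : ∑ i, inner ℝ (EuclideanSpace.basisFun (Fin n) ℝ i) (EuclideanSpace.basisFun (Fin n) ℝ i)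
      = (n : ℝ) := by
    simp
  rw [h1, h2]; ring

lemma secOp_symm {K : Set (E n)} (hK : IsCompact K) (u v : E n) :
    inner ℝ (secOp K u) v = inner ℝ u (secOp K v) := by
  rw [real_inner_comm (secOp K v) u, inner_secOp hK, inner_secOp hK]
  refine integral_congr_ae (Filter.Eventually.of_forall fun x => ?_)
  simp only [real_inner_comm]
  ring

/-- the contact point -/
lemma exists_contact (hn : 1 ≤ n) {K : Set (E n)} (hK : CB K) (hB : Metric.closedBall (0 : E n) 1 ⊆ K)
    (hmax : ∀ B : E n →L[ℝ] E n, (∀ x ∈ Metric.closedBall (0 : E n) 1, B x ∈ K) → |B.det| ≤ 1) :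
    ∃ u : E n, ‖u‖ = 1 ∧ hs K u = 1 ∧ 0 ≤ inner ℝ (secOp K u) u := by
  set S := secOp K with hS
  set C : ℝ := ‖S‖ + 1 with hC
  have hC0 : 0 < C := by positivity
  have hge : ∀ u : E n, ‖u‖ = 1 → 1 ≤ hs K u := by
    intro u hu
    have := le_hs hK.isCompact (hB (show u ∈ _ by simp [hu])) u
    rwa [real_inner_self_eq_norm_sq, hu, one_pow] at this
  have key : ∀ k : ℕ, ∃ u : E n, ‖u‖ = 1 ∧ hs K u ≤ 1 + C * (1 / ((k : ℝ) + 1)) ∧
      -((1 + C ^ 2) * (1 / ((k : ℝ) + 1))) ≤ inner ℝ (S u) u := by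
    intro k
    set δ : ℝ := 1 / ((k : ℝ) + 1) with hδ
    have hδ0 : 0 < δ := by positivity
    have hδ1 : δ ≤ 1 := by
      rw [hδ, div_le_one (by positivity)]
      have : (0 : ℝ) ≤ k := Nat.cast_nonneg k
      linarith
    set f : E n →L[ℝ] E n := S + δ • ContinuousLinearMap.id ℝ (E n) with hf
    have hfu : ∀ u, f u = S u + δ • u := fun u => rfl
    have hnf : ‖f‖ ≤ C := by
      refine (norm_add_le _ _).trans ?_
      rw [hC]
      gcongr
      refine ContinuousLinearMap.opNorm_le_bound _ (by norm_num) fun x => ?_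
      rw [show (δ • ContinuousLinearMap.id ℝ (E n)) x = δ • x from rfl, norm_smul, Real.norm_eq_abs,
        abs_of_pos hδ0]
      gcongr
    obtain ⟨ε, hε0, hεδ, hdet⟩ := exists_det_gt' (f : E n →ₗ[ℝ] E n) (by
      have h2 : ∑ i, inner ℝ (EuclideanSpace.basisFun (Fin n) ℝ i) (EuclideanSpace.basisFun (Fin n) ℝ i)
        = (n : ℝ) := by simp
      have h3 : ∑ i, inner ℝ ((f : E n →ₗ[ℝ] E n) (EuclideanSpace.basisFun (Fin n) ℝ i))
          (EuclideanSpace.basisFun (Fin n) ℝ i) = δ * n := by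
        simp only [ContinuousLinearMap.coe_coe, hfu, inner_add_left, inner_smul_left, conj_trivial]
        rw [Finset.sum_add_distrib, ← Finset.mul_sum, h2, hS, sum_inner_secOp hK.isCompact, zero_add]
      rw [h3]
      have : (0 : ℝ) < n := by exact_mod_cast hn
      positivity) δ hδ0
    set g : E n →L[ℝ] E n := ContinuousLinearMap.id ℝ (E n) + ε • f with hg
    have hgu : ∀ u, g u = u + ε • f u := fun u => rfl
    have hgdet : 1 < |g.det| := by
      refine lt_of_lt_of_le hdet (le_abs_self _)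
    obtain ⟨x, hx, hxK⟩ : ∃ x ∈ Metric.closedBall (0 : E n) 1, g x ∉ K := by
      by_contra hcon
      push Not at hcon
      exact absurd (hmax g hcon) (not_le.2 hgdet)
    obtain ⟨v, hv⟩ : ∃ v : E n, hs K v < inner ℝ (g x) v := by
      by_contra hcon
      push Not at hcon
      exact hxK (mem_of_forall_le_hs hK.isCompact hK.convex hK.nonempty hcon)
    have hgsymm : ∀ a b, inner ℝ (g a) b = inner ℝ a (g b) := by
      intro a b
      rw [hgu, hgu, hfu, hfu]
      simp only [inner_add_left, inner_add_right, inner_smul_left, inner_smul_right, conj_trivial]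
      rw [hS, secOp_symm hK.isCompact]
    have hv0 : v ≠ 0 := by
      rintro rfl
      rw [hs_zero hK.nonempty, inner_zero_right] at hv
      exact lt_irrefl _ hv
    have hvn : 0 < ‖v‖ := norm_pos_iff.2 hv0
    have hv2 : hs K v < ‖g v‖ := by
      refine hv.trans_le ?_
      rw [hgsymm]
      refine (real_inner_le_norm _ _).trans ?_
      have : ‖x‖ ≤ 1 := by simpa using hx
      calc ‖x‖ * ‖g v‖ ≤ 1 * ‖g v‖ := by gcongr
        _ = ‖g v‖ := one_mul _
    set u : E n := ‖v‖⁻¹ • v with hu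
    have hu1 : ‖u‖ = 1 := by
      rw [hu, norm_smul, norm_inv, norm_norm, inv_mul_cancel₀ hvn.ne']
    have hu2 : hs K u < ‖g u‖ := by
      rw [hu, hs_smul (inv_nonneg.2 hvn.le), map_smul, norm_smul, norm_inv, norm_norm]
      exact mul_lt_mul_of_pos_left hv2 (inv_pos.2 hvn)
    have hfun : ‖f u‖ ≤ C := by
      refine (f.le_opNorm u).trans ?_
      rw [hu1, mul_one]; exact hnf
    refine ⟨u, hu1, ?_, ?_⟩
    · refine hu2.le.trans ?_
      rw [hgu]
      refine (norm_add_le _ _).trans ?_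
      rw [hu1, norm_smul, Real.norm_eq_abs, abs_of_pos hε0]
      have : ε * ‖f u‖ ≤ δ * C := by gcongr
      linarith
    · have h1 : 1 < ‖g u‖ := (hge u hu1).trans_lt hu2
      have h2 : 1 < ‖g u‖ ^ 2 := by nlinarith
      rw [hgu, norm_add_sq_real, hu1, inner_smul_right, norm_smul, Real.norm_eq_abs, abs_of_pos hε0] at h2
      have h3 : 0 < 2 * inner ℝ u (f u) + ε * ‖f u‖ ^ 2 := by
        by_contra hcon
        push Not at hcon
        nlinarith
      have h4 : inner ℝ u (f u) = inner ℝ (S u) u + δ := by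
        rw [hfu, inner_add_right, inner_smul_right, real_inner_self_eq_norm_sq, hu1, real_inner_comm]
        ring
      have h5 : ‖f u‖ ^ 2 ≤ C ^ 2 := by gcongr
      have h6 : ε * ‖f u‖ ^ 2 ≤ δ * C ^ 2 := by gcongr
      rw [h4] at h3
      nlinarith [mul_pos hδ0 (pow_pos hC0 2)]
  choose U hU1 hU2 hU3 using key
  obtain ⟨u, hu, φ, hφ, hlim⟩ := (isCompact_sphere (0 : E n) 1).tendsto_subseq
    (x := U) (fun k => by simp [hU1 k])
  have hu1 : ‖u‖ = 1 := by simpa using hu
  have ht : Filter.Tendsto (fun k : ℕ => 1 / (((φ k : ℕ) : ℝ) + 1)) Filter.atTop (𝓝 0) :=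
    tendsto_one_div_add_atTop_nhds_zero_nat.comp hφ.tendsto_atTop
  refine ⟨u, hu1, le_antisymm ?_ (hge u hu1), ?_⟩
  · refine hs_le hK.nonempty fun x hx => ?_
    have h1 : Filter.Tendsto (fun k => inner ℝ x (U (φ k))) Filter.atTop (𝓝 (inner ℝ x u)) :=
      (Filter.Tendsto.inner tendsto_const_nhds hlim)
    have h2 : Filter.Tendsto (fun k : ℕ => 1 + C * (1 / (((φ k : ℕ) : ℝ) + 1))) Filter.atTop (𝓝 1) := by
      simpa using (ht.const_mul C).const_add 1
    exact le_of_tendsto_of_tendsto' h1 h2 fun k => (le_hs hK.isCompact hx _).trans (hU2 (φ k))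
  · have h1 : Filter.Tendsto (fun k => inner ℝ (S (U (φ k))) (U (φ k))) Filter.atTop (𝓝 (inner ℝ (S u) u)) :=
      Filter.Tendsto.inner ((S.continuous.tendsto u).comp hlim) hlim
    have h2 : Filter.Tendsto (fun k : ℕ => -((1 + C ^ 2) * (1 / (((φ k : ℕ) : ℝ) + 1)))) Filter.atTop (𝓝 0) := by
      simpa using (ht.const_mul (1 + C ^ 2)).neg
    exact le_of_tendsto_of_tendsto' h2 h1 fun k => hU3 (φ k)

theorem john {K : Set (E (n + 1))} (hK : CB K) (hs' : ∀ x ∈ K, -x ∈ K) :
    ∃ T : E (n + 1) ≃ₗ[ℝ] E (n + 1), Metric.closedBall 0 1 ⊆ T '' K ∧ ∃ u : E (n + 1), ‖u‖ = 1 ∧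
      hs (T '' K) u = 1 ∧ 0 ≤ ∫ x in T '' K, ((n + 1) * (inner ℝ x u) ^ 2 - ‖x‖ ^ 2) := by
  have h0 := zero_mem_interior_of_symm hK hs'
  obtain ⟨A, hA, hdet, hmax⟩ := exists_max_det hK h0
  have hdet' : LinearMap.det (A : E (n + 1) →ₗ[ℝ] E (n + 1)) ≠ 0 := abs_pos.1 hdet
  set T' : E (n + 1) ≃ₗ[ℝ] E (n + 1) := LinearEquiv.ofIsUnitDet (f := (A : E (n + 1) →ₗ[ℝ] E (n + 1)))
    (v := (EuclideanSpace.basisFun (Fin (n + 1)) ℝ).toBasis) (v' := (EuclideanSpace.basisFun (Fin (n + 1)) ℝ).toBasis)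
    (by rw [LinearMap.det_toMatrix]; exact isUnit_iff_ne_zero.2 hdet') with hT'
  have hT'A : ∀ x, T' x = A x := fun x => rfl
  set T := T'.symm with hT
  have hTA : ∀ x, T (A x) = x := fun x => by rw [← hT'A, hT, LinearEquiv.symm_apply_apply]
  have hAT : ∀ x, A (T x) = x := fun x => by rw [← hT'A, hT, LinearEquiv.apply_symm_apply]
  have hK1 : CB (T '' K) := hK.image T
  have hball : Metric.closedBall 0 1 ⊆ T '' K := fun x hx => ⟨A x, hA x hx, hTA x⟩
  have hmax1 : ∀ B : E (n + 1) →L[ℝ] E (n + 1),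
      (∀ x ∈ Metric.closedBall (0 : E (n + 1)) 1, B x ∈ T '' K) → |B.det| ≤ 1 := by
    intro B hB
    have h := hmax (A.comp B) (fun x hx => by
      obtain ⟨y, hy, hyx⟩ := hB x hx
      rw [ContinuousLinearMap.comp_apply, ← hyx, hAT]
      exact hy)
    have h2 : (A.comp B).det = A.det * B.det := by
      simp only [ContinuousLinearMap.det]
      rw [← LinearMap.det_comp]
      rfl
    rw [h2, abs_mul] at h
    exact le_of_mul_le_mul_left (by rwa [mul_one]) hdet
  obtain ⟨u, hu1, hu2, hu3⟩ := exists_contact (by omega) hK1 hball hmax1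
  refine ⟨T, hball, u, hu1, hu2, ?_⟩
  rw [inner_secOp hK1.isCompact] at hu3
  refine hu3.trans (le_of_eq ?_)
  refine integral_congr_ae (Filter.Eventually.of_forall fun x => ?_)
  simp only [real_inner_self_eq_norm_sq, hu1, Nat.cast_add, Nat.cast_one]
  ring

end Crest.Agent.R230
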