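import Crest.Agent.R230.Bright
import Crest.Agent.R230.SupportPB

/-!
# Row 230, section Q: LYZ-type trace identity

`M = E[ν ⊗ ν]` is positive definite; `G e = ⟨e, M⁻¹ e⟩`.
-/

set_option autoImplicit false

open MeasureTheory Set
open scoped Pointwise ENNReal

namespace Crest.Agent.R230

variable {n : ℕ}

/-- `∫_K ⟨ν,u⟩² > 0` for `u ≠ 0`. -/
theorem integral_inner_nu_sq_pos {K : Set (E (n + 1))} (hK : CB K)
    (h0 : (0 : E (n + 1)) ∈ interior K) {u : E (n + 1)} (hu : u ≠ 0) :
    0 < ∫ x in K, (inner ℝ (nu K x) u) ^ 2 := by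
  obtain ⟨C, hC⟩ := norm_nu_le hK h0
  have hmeas : Measurable (fun x : E (n + 1) => inner ℝ (nu K x) u) :=
    (measurable_nu K).inner_const
  have hfin : IsFiniteMeasure (volume.restrict K) :=
    ⟨by rw [Measure.restrict_apply_univ]; exact hK.isCompact.measure_lt_top⟩
  have hint : Integrable (fun x : E (n + 1) => (inner ℝ (nu K x) u) ^ 2) (volume.restrict K) := by
    refine Integrable.of_bound (hmeas.pow_const 2).aestronglyMeasurable ((C * ‖u‖) ^ 2)
      (Filter.Eventually.of_forall fun x => ?_)
    rw [Real.norm_eq_abs, abs_pow]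
    refine pow_le_pow_left₀ (abs_nonneg _) ?_ 2
    exact (abs_real_inner_le_norm _ _).trans (mul_le_mul_of_nonneg_right (hC x) (norm_nonneg _))
  have hnn : 0 ≤ ∫ x in K, (inner ℝ (nu K x) u) ^ 2 :=
    integral_nonneg fun x => sq_nonneg _
  refine lt_of_le_of_ne hnn fun h => ?_
  have h1 : (fun x : E (n + 1) => (inner ℝ (nu K x) u) ^ 2) =ᵐ[volume.restrict K] 0 :=
    (integral_eq_zero_iff_of_nonneg (fun x => sq_nonneg _) hint).1 h.symm
  have h2 : ∫ x in K, |inner ℝ (nu K x) u| = 0 := by
    rw [← integral_zero (E (n + 1)) ℝ (μ := volume.restrict K)]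
    refine integral_congr_ae ?_
    filter_upwards [h1] with x hx
    have : inner ℝ (nu K x) u = 0 := pow_eq_zero_iff two_ne_zero |>.1 hx
    rw [this, abs_zero]
  obtain ⟨c, hc, hcu⟩ := exists_mul_norm_le_sh hK
  have h3 := hcu u
  rw [sh_eq_integral hK h0, h2, mul_zero] at h3
  have : 0 < c * ‖u‖ := mul_pos hc (norm_pos_iff.2 hu)
  linarith

/-- second moment matrix of the normals -/
noncomputable def Mnu (K : Set (E (n + 1))) : Matrix (Fin (n + 1)) (Fin (n + 1)) ℝ :=
  fun i j => ∫ x in K, nu K x i * nu K x j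

lemma integrable_nu_mul {K : Set (E (n + 1))} (hK : CB K) (h0 : (0 : E (n + 1)) ∈ interior K)
    (i j : Fin (n + 1)) : Integrable (fun x => nu K x i * nu K x j) (volume.restrict K) := by
  obtain ⟨C, hC⟩ := norm_nu_le hK h0
  have hfin : IsFiniteMeasure (volume.restrict K) :=
    ⟨by rw [Measure.restrict_apply_univ]; exact hK.isCompact.measure_lt_top⟩
  have hmeas : ∀ i, Measurable (fun x : E (n + 1) => nu K x i) := fun i => by
    have hc : Continuous (fun z : E (n + 1) => z i) := by fun_prop
    exact hc.measurable.comp (measurable_nu K)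
  have hb : ∀ i x, |nu K x i| ≤ C := fun i x => by
    have := PiLp.norm_apply_le (nu K x) i
    rw [Real.norm_eq_abs] at this
    exact this.trans (hC x)
  refine Integrable.of_bound ((hmeas i).mul (hmeas j)).aestronglyMeasurable (C * C)
    (Filter.Eventually.of_forall fun x => ?_)
  rw [Real.norm_eq_abs, abs_mul]
  exact mul_le_mul (hb i x) (hb j x) (abs_nonneg _) ((abs_nonneg _).trans (hb i x))

lemma inner_eq_sum (x y : E (n + 1)) : inner ℝ x y = ∑ i, x i * y i := by
  rw [PiLp.inner_apply]
  refine Finset.sum_congr rfl fun i _ => ?_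
  simp [mul_comm]

/-- `∫_K ⟨ν,u⟩⟨ν,v⟩ = ⟨u, M v⟩` -/
lemma integral_inner_mul_inner {K : Set (E (n + 1))} (hK : CB K)
    (h0 : (0 : E (n + 1)) ∈ interior K) (u v : E (n + 1)) :
    ∫ x in K, inner ℝ (nu K x) u * inner ℝ (nu K x) v = ∑ i, ∑ j, u i * Mnu K i j * v j := by
  have e : ∀ x, inner ℝ (nu K x) u * inner ℝ (nu K x) v =
      ∑ i, ∑ j, u i * (nu K x i * nu K x j) * v j := by
    intro x
    rw [inner_eq_sum, inner_eq_sum, Finset.sum_mul_sum]
    refine Finset.sum_congr rfl fun i _ => Finset.sum_congr rfl fun j _ => ?_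
    ring
  simp only [e]
  rw [integral_finsetSum _ fun i _ => integrable_finsetSum _ fun j _ =>
    ((integrable_nu_mul hK h0 i j).const_mul _).mul_const _]
  refine Finset.sum_congr rfl fun i _ => ?_
  rw [integral_finsetSum _ fun j _ => ((integrable_nu_mul hK h0 i j).const_mul _).mul_const _]
  refine Finset.sum_congr rfl fun j _ => ?_
  rw [integral_mul_const, integral_const_mul]
  rfl

theorem lyz (hn : 1 ≤ n) {K : Set (E (n + 1))} (hK : CB K) (h0 : (0 : E (n + 1)) ∈ interior K) :
    ∃ G : E (n + 1) → ℝ, Continuous G ∧ (∫ y in K, G (nu K y) = vol K * (n + 1)) ∧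
      ∀ e : E (n + 1), e ≠ 0 → 0 < G e ∧ ∃ v : E (n + 1), inner ℝ e v = 1 ∧
        ∫ x in K, (inner ℝ (nu K x) v) ^ 2 = vol K * (G e)⁻¹ := by
  classical
  have hV := hK.vol_pos
  set M := Mnu K with hM
  -- quadratic form
  have hq : ∀ u : E (n + 1), ∫ x in K, (inner ℝ (nu K x) u) ^ 2 =
      ∑ i, ∑ j, u i * M i j * u j := by
    intro u
    rw [← integral_inner_mul_inner hK h0]
    refine integral_congr_ae (Filter.Eventually.of_forall fun x => ?_)
    simp only; ring
  have hdet : M.det ≠ 0 := by
    intro hd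
    obtain ⟨v, hv, hv0⟩ := Matrix.exists_mulVec_eq_zero_iff.2 hd
    have h1 : (WithLp.toLp 2 v : E (n + 1)) ≠ 0 := by
      intro h
      apply hv
      funext i
      have := congrArg (fun z : E (n + 1) => z i) h
      simpa using this
    have h2 := integral_inner_nu_sq_pos hK h0 h1
    rw [hq] at h2
    have h3 : ∑ i, ∑ j, (WithLp.toLp 2 v : E (n + 1)) i * M i j * (WithLp.toLp 2 v : E (n + 1)) j = 0 := by
      have : ∀ i, ∑ j, v i * M i j * v j = v i * (M.mulVec v) i := by
        intro i
        rw [Matrix.mulVec, dotProduct, Finset.mul_sum]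
        refine Finset.sum_congr rfl fun j _ => ?_
        ring
      show ∑ i, ∑ j, v i * M i j * v j = 0
      simp only [this, hv0]
      simp
    linarith
  have hunit : IsUnit M.det := isUnit_iff_ne_zero.2 hdet
  set A := M⁻¹ with hA
  have hMA : M * A = 1 := Matrix.mul_nonsing_inv M hunit
  have hAM : A * M = 1 := Matrix.nonsing_inv_mul M hunit
  have hMsymm : ∀ i j, M i j = M j i := by
    intro i j
    show ∫ x in K, nu K x i * nu K x j = ∫ x in K, nu K x j * nu K x i
    refine integral_congr_ae (Filter.Eventually.of_forall fun x => ?_)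
    simp only; ring
  -- `G e = vol K * ⟨e, A e⟩`
  refine ⟨fun e => vol K * ∑ i, ∑ j, e i * A i j * e j, ?_, ?_, ?_⟩
  · have hc : ∀ i : Fin (n + 1), Continuous fun e : E (n + 1) => e i := fun i => by fun_prop
    exact continuous_const.mul (continuous_finsetSum _ fun i _ => continuous_finsetSum _ fun j _ =>
      ((hc i).mul continuous_const).mul (hc j))
  · have e1 : ∀ y, vol K * ∑ i, ∑ j, nu K y i * A i j * nu K y j =
        vol K * ∑ i, ∑ j, A i j * (nu K y i * nu K y j) := by
      intro y
      congr 1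
      refine Finset.sum_congr rfl fun i _ => Finset.sum_congr rfl fun j _ => ?_
      ring
    have e2 : ∀ i, ∫ y in K, ∑ j, A i j * (nu K y i * nu K y j) = (A * M) i i := by
      intro i
      rw [Matrix.mul_apply]
      calc ∫ y in K, ∑ j, A i j * (nu K y i * nu K y j)
          = ∑ j, ∫ y in K, A i j * (nu K y i * nu K y j) :=
            integral_finsetSum _ fun j _ => (integrable_nu_mul hK h0 i j).const_mul _
        _ = ∑ j, A i j * M j i := by
            refine Finset.sum_congr rfl fun j _ => ?_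
            rw [integral_const_mul, hMsymm j i]
            rfl
    calc ∫ y in K, vol K * ∑ i, ∑ j, nu K y i * A i j * nu K y j
        = ∫ y in K, vol K * ∑ i, ∑ j, A i j * (nu K y i * nu K y j) := by
          refine integral_congr_ae (Filter.Eventually.of_forall fun y => e1 y)
      _ = vol K * ∫ y in K, ∑ i, ∑ j, A i j * (nu K y i * nu K y j) := integral_const_mul _ _
      _ = vol K * ∑ i, ∫ y in K, ∑ j, A i j * (nu K y i * nu K y j) := by
          congr 1
          exact integral_finsetSum _ fun i _ => integrable_finsetSum _ fun j _ =>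
            (integrable_nu_mul hK h0 i j).const_mul _
      _ = vol K * (n + 1) := by
          simp only [e2, hAM, Matrix.one_apply_eq]
          simp
  · intro e he
    set u : E (n + 1) := WithLp.toLp 2 (A.mulVec e.ofLp) with hu
    have hui : ∀ i, u i = ∑ j, A i j * e j := fun i => rfl
    have hMu : ∀ i, ∑ j, M i j * u j = e i := by
      intro i
      have : (M.mulVec (A.mulVec e.ofLp)) i = e i := by
        rw [Matrix.mulVec_mulVec, hMA, Matrix.one_mulVec]
      exact this
    have hu0 : u ≠ 0 := by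
      intro h
      apply he
      ext i
      rw [← hMu i, h]
      simp
    -- `S = ⟨e, u⟩ = ⟨e, A e⟩ = ⟨u, M u⟩`
    have hS : ∑ i, ∑ j, e i * A i j * e j = inner ℝ e u := by
      rw [inner_eq_sum]
      refine Finset.sum_congr rfl fun i _ => ?_
      rw [hui, Finset.mul_sum]
      refine Finset.sum_congr rfl fun j _ => ?_
      ring
    have hS2 : ∑ i, ∑ j, u i * M i j * u j = inner ℝ e u := by
      rw [inner_eq_sum]
      refine Finset.sum_congr rfl fun i _ => ?_
      rw [← hMu i, Finset.sum_mul]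
      refine Finset.sum_congr rfl fun j _ => ?_
      ring
    have hpos : 0 < inner ℝ e u := by
      rw [← hS2, ← hq]
      exact integral_inner_nu_sq_pos hK h0 hu0
    simp only [hS]
    refine ⟨mul_pos hV hpos, (inner ℝ e u)⁻¹ • u, ?_, ?_⟩
    · rw [inner_smul_right, inv_mul_cancel₀ hpos.ne']
    · have e3 : ∀ x, (inner ℝ (nu K x) ((inner ℝ e u)⁻¹ • u)) ^ 2 =
          ((inner ℝ e u)⁻¹) ^ 2 * (inner ℝ (nu K x) u) ^ 2 := by
        intro x; rw [inner_smul_right]; ring
      simp only [e3]
      rw [integral_const_mul, hq, hS2]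
      field_simp

end Crest.Agent.R230
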