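import Crest.Agent.R230.DefsE
import Crest.Agent.R230.Frame
import Crest.Agent.R230.Ball
import Crest.Agent.R230.ProfInt

/-!
# Row 230, section V: Schwarz symmetrisation of the moment
-/

set_option autoImplicit false

open MeasureTheory Set
open scoped Pointwise ENNReal

namespace Crest.Agent.R230

variable {n : ℕ}

/-- second moment of a ball -/
lemma sch_integral_ball_norm_sq (hn : 1 ≤ n) {r : ℝ} (hr : 0 ≤ r) :
    ∫ y in Metric.closedBall (0 : E n) r, ‖y‖ ^ 2 = κ n * n * (r ^ (n + 2) / (n + 2)) := by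
  have hnt : Nontrivial (E n) := by
    obtain ⟨m, rfl⟩ : ∃ m, n = m + 1 := ⟨n - 1, by omega⟩
    infer_instance
  have h1 : ∫ y in Metric.closedBall (0 : E n) r, ‖y‖ ^ 2 =
      ∫ y : E n, (Icc (0 : ℝ) r).indicator (fun s => s ^ 2) ‖y‖ := by
    rw [← integral_indicator Metric.isClosed_closedBall.measurableSet]
    congr 1
    funext y
    by_cases hy : ‖y‖ ≤ r
    · rw [indicator_of_mem (mem_closedBall_zero_iff.2 hy), indicator_of_mem (show ‖y‖ ∈ Icc 0 r from ⟨norm_nonneg _, hy⟩)]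
    · rw [indicator_of_notMem (fun h => hy (mem_closedBall_zero_iff.1 h)),
        indicator_of_notMem (fun h => hy h.2)]
  rw [h1, integral_fun_norm_addHaar volume (fun s => (Icc (0 : ℝ) r).indicator (fun s => s ^ 2) s)]
  have h2 : ∫ y in Ioi (0 : ℝ), y ^ (Module.finrank ℝ (E n) - 1) • (Icc (0 : ℝ) r).indicator (fun s => s ^ 2) y
      = r ^ (n + 2) / (n + 2) := by
    have h3 : ∀ y : ℝ, y ^ (Module.finrank ℝ (E n) - 1) • (Icc (0 : ℝ) r).indicator (fun s => s ^ 2) y
        = (Icc (0 : ℝ) r).indicator (fun s => s ^ (n + 1)) y := by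
      intro y
      rw [finrank_euclideanSpace_fin]
      by_cases hy : y ∈ Icc (0 : ℝ) r
      · rw [indicator_of_mem hy, indicator_of_mem hy, smul_eq_mul, ← pow_add]
        congr 1; omega
      · rw [indicator_of_notMem hy, indicator_of_notMem hy, smul_zero]
    simp only [h3]
    rw [setIntegral_indicator measurableSet_Icc]
    have h4 : Ioi (0 : ℝ) ∩ Icc 0 r = Ioc 0 r := by
      ext x
      simp only [mem_inter_iff, mem_Ioi, mem_Icc, mem_Ioc]
      constructor
      · rintro ⟨h, -, h'⟩; exact ⟨h, h'⟩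
      · rintro ⟨h, h'⟩; exact ⟨h, h.le, h'⟩
    rw [h4, ← intervalIntegral.integral_of_le hr, integral_pow]
    push_cast
    rw [zero_pow (by omega), sub_zero]
    congr 1
    ring
  rw [h2]
  simp only [finrank_euclideanSpace_fin, smul_eq_mul, nsmul_eq_mul, κ, vol, Measure.real]
  ring

/-- bathtub -/
lemma sch_bathtub (hn : 1 ≤ n) {S : Set (E n)} (hS : IsCompact S) {r : ℝ} (hr : 0 ≤ r)
    (hv : vol S = κ n * r ^ n) :
    κ n * n * (r ^ (n + 2) / (n + 2)) ≤ ∫ y in S, ‖y‖ ^ 2 := by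
  rw [← sch_integral_ball_norm_sq hn hr]
  set B := Metric.closedBall (0 : E n) r with hB
  have hBc : IsCompact B := isCompact_closedBall _ _
  have hvB : vol B = κ n * r ^ n := by rw [hB, vol_closedBall_radius n hr]; ring
  have i1 : IntegrableOn (fun y : E n => ‖y‖ ^ 2) S :=
    (by fun_prop : Continuous fun y : E n => ‖y‖ ^ 2).continuousOn.integrableOn_compact hS
  have i2 : IntegrableOn (fun y : E n => ‖y‖ ^ 2) B :=
    (by fun_prop : Continuous fun y : E n => ‖y‖ ^ 2).continuousOn.integrableOn_compact hBc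
  have i3 : IntegrableOn (fun _ : E n => r ^ 2) S := integrableOn_const (hs := hS.measure_lt_top.ne)
  have i4 : IntegrableOn (fun _ : E n => r ^ 2) B := integrableOn_const (hs := hBc.measure_lt_top.ne)
  have key : ∫ y in B, (‖y‖ ^ 2 - r ^ 2) ≤ ∫ y in S, (‖y‖ ^ 2 - r ^ 2) := by
    rw [← integral_indicator hBc.measurableSet, ← integral_indicator hS.measurableSet]
    refine integral_mono ?_ ?_ ?_
    · rw [integrable_indicator_iff hBc.measurableSet]; exact i2.sub i4
    · rw [integrable_indicator_iff hS.measurableSet]; exact i1.sub i3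
    · intro y
      simp only
      by_cases hyB : y ∈ B
      · have h0 : ‖y‖ ≤ r := mem_closedBall_zero_iff.1 hyB
        have h1 : ‖y‖ ^ 2 - r ^ 2 ≤ 0 := by nlinarith [norm_nonneg y]
        rw [indicator_of_mem hyB]
        by_cases hyS : y ∈ S
        · rw [indicator_of_mem hyS]
        · rw [indicator_of_notMem hyS]; exact h1
      · have h0 : r < ‖y‖ := by
          by_contra h; exact hyB (mem_closedBall_zero_iff.2 (not_lt.1 h))
        have h1 : 0 ≤ ‖y‖ ^ 2 - r ^ 2 := by nlinarith [norm_nonneg y]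
        rw [indicator_of_notMem hyB]
        exact indicator_apply_nonneg fun _ => h1
  rw [integral_sub i2 i4, integral_sub i1 i3, setIntegral_const, setIntegral_const] at key
  have e1 : volume.real B = vol B := rfl
  have e2 : volume.real S = vol S := rfl
  rw [e1, e2, hv, hvB] at key
  linarith

/-- for `‖e‖ = 1`, `h_K(e) = 1` and `r = (area/κ_n)^{1/n}` -/
theorem schwarz_moment (hn : 1 ≤ n) {K : Set (E (n + 1))} (hK : CB K) (hs' : ∀ x ∈ K, -x ∈ K)
    {e : E (n + 1)} (he : ‖e‖ = 1) (he1 : hs K e = 1) (r : ℝ → ℝ)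
    (hr : ∀ s ∈ Icc (-1 : ℝ) 1, r s = (area K e s / κ n) ^ ((1 : ℝ) / n)) :
    ∫ x in K, ((n + 1) * (inner ℝ x e) ^ 2 - ‖x‖ ^ 2) ≤
      κ n * n * ∫ s in (-1 : ℝ)..1, (s ^ 2 * r s ^ n - r s ^ (n + 2) / (n + 2)) := by
  obtain ⟨F⟩ := exists_frame e he
  have hκ := κ_pos n
  have hn0 : (n : ℝ) ≠ 0 := by positivity
  have hm : MeasurableSet (F.Φ ⁻¹' K) := F.continuous_Φ.measurable hK.isCompact.measurableSet
  have hcomp : IsCompact (F.Φ ⁻¹' K) := F.isCompact_preimage he hK.isCompact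
  -- coordinates
  have h1 : ∫ x in K, ((n + 1) * (inner ℝ x e) ^ 2 - ‖x‖ ^ 2)
      = ∫ p in F.Φ ⁻¹' K, (n * p.1 ^ 2 - ‖p.2‖ ^ 2) ∂(volume.prod volume) := by
    rw [← F.mp'.setIntegral_preimage_emb (F.measurableEmbedding_Φ he)]
    apply setIntegral_congr_fun hm
    intro p _
    simp only [F.inner_Φ he, F.norm_Φ_sq he]
    ring
  have hint : IntegrableOn (fun p : ℝ × E n => n * p.1 ^ 2 - ‖p.2‖ ^ 2) (F.Φ ⁻¹' K)
      ((volume : Measure ℝ).prod (volume : Measure (E n))) := by
    have hc : ContinuousOn (fun p : ℝ × E n => n * p.1 ^ 2 - ‖p.2‖ ^ 2) (F.Φ ⁻¹' K) := by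
      apply Continuous.continuousOn; fun_prop
    exact hc.integrableOn_compact hcomp
  have hint' := (integrable_indicator_iff hm).2 hint
  set J : ℝ → ℝ := fun t => ∫ y, (F.Φ ⁻¹' K).indicator (fun p : ℝ × E n => n * p.1 ^ 2 - ‖p.2‖ ^ 2) (t, y)
    with hJ
  have hJint : Integrable J := hint'.integral_prod_left
  have hJeq : ∀ t, J t = ∫ y in F.slice K t, (n * t ^ 2 - ‖y‖ ^ 2) := by
    intro t
    rw [← integral_indicator (F.isCompact_slice hK.isCompact t).measurableSet]
    refine integral_congr_ae (Filter.Eventually.of_forall fun y => ?_)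
    simp only
    by_cases hy : y ∈ F.slice K t
    · rw [indicator_of_mem hy, indicator_of_mem (show (t, y) ∈ F.Φ ⁻¹' K from hy)]
    · rw [indicator_of_notMem hy, indicator_of_notMem (show (t, y) ∉ F.Φ ⁻¹' K from hy)]
  have h2 : ∫ x in K, ((n + 1) * (inner ℝ x e) ^ 2 - ‖x‖ ^ 2) = ∫ s in (-1 : ℝ)..1, J s := by
    rw [h1, ← integral_indicator hm, integral_prod _ hint', intervalIntegral.integral_of_le (by norm_num),
      ← integral_Icc_eq_integral_Ioc]
    symm
    apply setIntegral_eq_integral_of_forall_compl_eq_zero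
    intro t ht
    rw [mem_Icc, ← abs_le, not_le] at ht
    have : F.slice K t = ∅ := by
      ext y
      simp only [mem_empty_iff_false, iff_false]
      intro hy
      have hy' : F.Φ (t, y) ∈ K := hy
      have g1 := le_hs hK.isCompact hy' e
      have g2 := le_hs hK.isCompact (hs' _ hy') e
      rw [inner_neg_left] at g2
      rw [F.inner_Φ he, he1] at g1 g2
      exact absurd (abs_le'.2 ⟨g1, g2⟩) (not_le.2 ht)
    change J t = 0
    rw [hJeq, this]; simp
  rw [h2, ← intervalIntegral.integral_const_mul]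
  -- area facts
  have hrn : ∀ s ∈ Icc (-1 : ℝ) 1, 0 ≤ r s ∧ vol (F.slice K s) = κ n * r s ^ n := by
    intro s hs
    rw [hr s hs, area_eq he F]
    have hA : 0 ≤ vol (F.slice K s) / κ n := div_nonneg (vol_nonneg _) hκ.le
    refine ⟨Real.rpow_nonneg hA _, ?_⟩
    rw [← Real.rpow_natCast, ← Real.rpow_mul hA, one_div, inv_mul_cancel₀ hn0, Real.rpow_one]
    field_simp
  -- measurability and bound of the slice volume
  have hvm : Measurable fun s : ℝ => vol (F.slice K s) :=
    (measurable_measure_prodMk_left hm).ennreal_toReal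
  obtain ⟨V, hV⟩ : ∃ V, ∀ s, vol (F.slice K s) ≤ V := by
    refine ⟨vol (F.shadow K), fun s => vol_mono (F.isCompact_shadow he hK.isCompact) ?_⟩
    intro y hy; exact ⟨s, hy⟩
  set R : ℝ → ℝ := fun s => (vol (F.slice K s) / κ n) ^ ((1 : ℝ) / n) with hR
  have hRm : Measurable R := (hvm.div_const _).pow_const _
  have hRr : ∀ s ∈ Icc (-1 : ℝ) 1, r s = R s := by
    intro s hs
    rw [hr s hs, area_eq he F]
  have hR0 : ∀ s, 0 ≤ R s := fun s => Real.rpow_nonneg (div_nonneg (vol_nonneg _) hκ.le) _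
  have hRb : ∀ s, R s ≤ (V / κ n) ^ ((1 : ℝ) / n) := fun s =>
    Real.rpow_le_rpow (div_nonneg (vol_nonneg _) hκ.le) (by gcongr; exact hV s) (by positivity)
  set M := (V / κ n) ^ ((1 : ℝ) / n) with hM
  have hM0 : 0 ≤ M := (hR0 0).trans (hRb 0)
  have hI : IntervalIntegrable (fun s => s ^ 2 * r s ^ n - r s ^ (n + 2) / (n + 2)) volume (-1) 1 := by
    rw [intervalIntegrable_iff_integrableOn_Icc_of_le (by norm_num)]
    have hcongr : EqOn (fun s => s ^ 2 * R s ^ n - R s ^ (n + 2) / (n + 2))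
        (fun s => s ^ 2 * r s ^ n - r s ^ (n + 2) / (n + 2)) (Icc (-1 : ℝ) 1) := by
      intro s hs
      simp only [hRr s hs]
    refine IntegrableOn.congr_fun ?_ hcongr measurableSet_Icc
    refine Measure.integrableOn_of_bounded (M := 1 * M ^ n + M ^ (n + 2) / (n + 2)) (by simp)
      (by fun_prop) ?_
    filter_upwards [ae_restrict_mem measurableSet_Icc] with s hs
    have e1 : s ^ 2 ≤ 1 := by nlinarith [hs.1, hs.2]
    have e2 : R s ^ n ≤ M ^ n := pow_le_pow_left₀ (hR0 s) (hRb s) _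
    have e3 : R s ^ (n + 2) ≤ M ^ (n + 2) := pow_le_pow_left₀ (hR0 s) (hRb s) _
    have e4 : 0 ≤ R s ^ n := pow_nonneg (hR0 s) _
    have e5 : 0 ≤ R s ^ (n + 2) := pow_nonneg (hR0 s) _
    rw [Real.norm_eq_abs]
    refine (abs_sub _ _).trans ?_
    rw [abs_of_nonneg (by positivity), abs_of_nonneg (by positivity)]
    gcongr
  refine intervalIntegral.integral_mono_on (by norm_num) hJint.intervalIntegrable (hI.const_mul _) ?_
  intro s hs
  obtain ⟨hr0, hv⟩ := hrn s hs
  have hSc := F.isCompact_slice hK.isCompact s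
  have hb := sch_bathtub hn hSc hr0 hv
  rw [hJeq, integral_sub, setIntegral_const]
  · have e2 : volume.real (F.slice K s) = vol (F.slice K s) := rfl
    rw [e2, hv, smul_eq_mul]
    have : κ n * ↑n * (s ^ 2 * r s ^ n - r s ^ (n + 2) / (↑n + 2))
      = κ n * r s ^ n * (↑n * s ^ 2) - κ n * n * (r s ^ (n + 2) / (n + 2)) := by ring
    rw [this]
    linarith
  · exact integrableOn_const (hs := hSc.measure_lt_top.ne)
  · exact (by fun_prop : Continuous fun y : E n => ‖y‖ ^ 2).continuousOn.integrableOn_compact hSc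

theorem sqrt_le_prof (hn : 1 ≤ n) {K : Set (E (n + 1))} (hK : CB K) (hB : Metric.closedBall 0 1 ⊆ K)
    {e : E (n + 1)} (he : ‖e‖ = 1) (s : ℝ) (hs : s ∈ Icc (-1 : ℝ) 1) :
    Real.sqrt (1 - s ^ 2) ≤ (area K e s / κ n) ^ ((1 : ℝ) / n) := by
  obtain ⟨F⟩ := exists_frame e he
  have hκ := κ_pos n
  have hn0 : (n : ℝ) ≠ 0 := by positivity
  have hs2 : 0 ≤ 1 - s ^ 2 := by nlinarith [hs.1, hs.2]
  have hsub : Metric.closedBall (0 : E n) (Real.sqrt (1 - s ^ 2)) ⊆ F.slice K s := by
    intro y hy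
    rw [mem_closedBall_zero_iff, Real.le_sqrt (norm_nonneg _) hs2] at hy
    apply hB
    rw [mem_closedBall_zero_iff]
    have h := F.norm_Φ_sq he (s, y)
    simp only at h
    change ‖F.Φ (s, y)‖ ≤ 1
    nlinarith [norm_nonneg (F.Φ (s, y))]
  have hv := vol_mono (F.isCompact_slice hK.isCompact s) hsub
  rw [vol_closedBall_radius n (Real.sqrt_nonneg _), ← area_eq he F] at hv
  have h1 : Real.sqrt (1 - s ^ 2) ^ n ≤ area K e s / κ n := by rwa [le_div_iff₀ hκ]
  have h2 := Real.rpow_le_rpow (by positivity) h1 (show (0 : ℝ) ≤ 1 / n by positivity)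
  refine le_trans (le_of_eq ?_) h2
  rw [← Real.rpow_natCast (Real.sqrt (1 - s ^ 2)) n, ← Real.rpow_mul (Real.sqrt_nonneg _),
    mul_one_div_cancel hn0, Real.rpow_one]

end Crest.Agent.R230
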