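import Crest.Agent.R230.Basic

/-!
# Row 230: definitions for the crux `(E)`

`prof K e` is the profile of the symmetric body `K` in direction `e`: the `n`-th root of the area of the
slices, rescaled to `[-1,1]`.  `EP n r φ` is the expectation of `φ(t, p(t))` under the cone marginal of the
profile `r`, `p(t) = -r'/(r - t r')`.
-/

set_option autoImplicit false

open MeasureTheory Set
open scoped Pointwise ENNReal

namespace Crest.Agent.R230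

/-- Even concave profiles on `[-1,1]`. -/
structure Prof (r : ℝ → ℝ) : Prop where
  conc : ConcaveOn ℝ (Icc (-1) 1) r
  even : ∀ s ∈ Icc (-1 : ℝ) 1, r (-s) = r s
  pos : ∀ s ∈ Ioo (-1 : ℝ) 1, 0 < r s
  cont : ContinuousOn r (Icc (-1) 1)

/-- `w k = ∫_{-1}^1 (1-s²)^{k/2} ds`, written with `√(1-s²)^k`. -/
noncomputable def w (k : ℕ) : ℝ := ∫ s in (-1 : ℝ)..1, Real.sqrt (1 - s ^ 2) ^ k

/-- `∫ r^k`. -/
noncomputable def mom (k : ℕ) (r : ℝ → ℝ) : ℝ := ∫ s in (-1 : ℝ)..1, r s ^ k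

/-- reciprocal of the zero of the tangent line at `s`. -/
noncomputable def pp (r : ℝ → ℝ) (s : ℝ) : ℝ := -deriv r s / (r s - s * deriv r s)

/-- expectation of `φ (t, p(t))` under the cone marginal (a probability measure on `[-1,1]`, with atoms at
`±1` if `r 1 > 0`; there `p = ±1`) of the body of revolution with profile `r` in dimension `n + 1`. -/
noncomputable def EP (n : ℕ) (r : ℝ → ℝ) (φ : ℝ → ℝ → ℝ) : ℝ :=
  (n * (∫ s in (-1 : ℝ)..1, r s ^ (n - 1) * (r s - s * deriv r s) * φ s (pp r s)) +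
    (φ 1 1 + φ (-1) (-1)) * r 1 ^ n) / ((n + 1) * mom n r)

/-- the Renyi constraint `N(f) ≤ N_B` for a profile. -/
def NleB (n : ℕ) (r : ℝ → ℝ) : Prop :=
  mom (n - 1) r ^ n * w n ^ (n - 1) ≤ w (n - 1) ^ n * mom n r ^ (n - 1)

/-- the functional `T = c (1 - 1/F) + (n+1) E_P[η(t,p)]`, `F = (n+1) E_P[p²]`. -/
noncomputable def TT (n : ℕ) (c : ℝ) (η : ℝ → ℝ → ℝ) (r : ℝ → ℝ) : ℝ :=
  c * (1 - 1 / ((n + 1) * EP n r (fun _ p => p ^ 2))) + (n + 1) * EP n r η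

/-- the one dimensional statement (dimension of the bodies is `n + 1`). -/
def OneD (n : ℕ) : Prop :=
  ∃ (c : ℝ) (η : ℝ → ℝ → ℝ), 0 ≤ c ∧
    ContinuousOn (fun q : ℝ × ℝ => η q.1 q.2) (Icc (-1) 1 ×ˢ Icc (-1) 1) ∧
    (∀ t ∈ Icc (-1 : ℝ) 1, ConvexOn ℝ (Icc (-1) 1) (η t)) ∧
    (∀ t ∈ Icc (-1 : ℝ) 1, ∀ p ∈ Icc (-1 : ℝ) 1, η t p + η p t ≤ 0) ∧
    ∀ r : ℝ → ℝ, Prof r → NleB n r →
      0 ≤ TT n c η r ∧ (TT n c η r = 0 → ∃ a : ℝ, ∀ s ∈ Icc (-1 : ℝ) 1, r s = a * Real.sqrt (1 - s ^ 2))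

/-- the one dimensional statement for small dimensions (John position, moment condition). -/
def SDL (n : ℕ) : Prop :=
  ∀ r : ℝ → ℝ, Prof r → (∀ s ∈ Icc (-1 : ℝ) 1, Real.sqrt (1 - s ^ 2) ≤ r s) → NleB n r →
    0 ≤ ∫ s in (-1 : ℝ)..1, (s ^ 2 * r s ^ n - r s ^ (n + 2) / (n + 2)) →
    ∀ s ∈ Icc (-1 : ℝ) 1, r s = Real.sqrt (1 - s ^ 2)

/-- profile of a body in direction `e` (any nonzero vector). -/
noncomputable def prof {n : ℕ} (K : Set (E (n + 1))) (e : E (n + 1)) (s : ℝ) : ℝ :=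
  area K (‖e‖⁻¹ • e) (s * hs K (‖e‖⁻¹ • e)) ^ ((1 : ℝ) / n)

/-- the hypothesis of the crux -/
def HypE {n : ℕ} (K : Set (E (n + 1))) : Prop :=
  ∀ e : E (n + 1), ‖e‖ = 1 → NK K e ≤ NB n * (vol K / κ (n + 1)) ^ (n - 1) * hs K e

end Crest.Agent.R230
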