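import Crest.Agent.R230.Bright
import Crest.Agent.R230.DefsE

/-!
# Row 230, part R: the swap inequality
-/

set_option autoImplicit false

open MeasureTheory Set
open scoped Pointwise ENNReal

namespace Crest.Agent.R230

variable {n : ℕ}

lemma CB.zero_mem_interior_of_symm {K : Set (E n)} (hK : CB K) (hs' : ∀ x ∈ K, -x ∈ K) :
    (0 : E n) ∈ interior K := by
  obtain ⟨x, hx⟩ := hK.interior_nonempty
  have hneg : -x ∈ interior K := by
    have h1 : -K = K := by
      ext y
      rw [Set.mem_neg]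
      exact ⟨fun h => by simpa using hs' _ h, fun h => hs' _ h⟩
    have h2 : -x ∈ interior (-K) := by
      have h := (Homeomorph.neg (E n)).image_interior K
      have h3 : (Homeomorph.neg (E n)) '' K = -K := by
        rw [← Set.image_neg_eq_neg]; rfl
      rw [h3] at h
      rw [← h]
      exact ⟨x, hx, rfl⟩
    rwa [h1] at h2
  have h3 := hK.convex.interior hx hneg (by norm_num : (0 : ℝ) ≤ 1 / 2) (by norm_num : (0 : ℝ) ≤ 1 / 2)
    (by norm_num)
  simpa using h3

/-- extension of `η` by clamping -/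
noncomputable def clampEta (η : ℝ → ℝ → ℝ) (q : ℝ × ℝ) : ℝ :=
  η (max (-1) (min 1 q.1)) (max (-1) (min 1 q.2))

lemma clamp_mem (t : ℝ) : max (-1) (min 1 t) ∈ Icc (-1 : ℝ) 1 :=
  ⟨le_max_left _ _, max_le (by norm_num) (min_le_left _ _)⟩

lemma clamp_eq {t : ℝ} (ht : |t| ≤ 1) : max (-1) (min 1 t) = t := by
  rw [abs_le] at ht
  rw [min_eq_right ht.2, max_eq_right ht.1]

lemma clampEta_eq {η : ℝ → ℝ → ℝ} {t p : ℝ} (ht : |t| ≤ 1) (hp : |p| ≤ 1) :
    clampEta η (t, p) = η t p := by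
  unfold clampEta
  simp only [clamp_eq ht, clamp_eq hp]

lemma continuous_clampEta {η : ℝ → ℝ → ℝ}
    (hη : ContinuousOn (fun q : ℝ × ℝ => η q.1 q.2) (Icc (-1) 1 ×ˢ Icc (-1) 1)) :
    Continuous (clampEta η) := by
  have h1 : Continuous (fun q : ℝ × ℝ => (max (-1) (min 1 q.1), max (-1) (min 1 q.2))) := by fun_prop
  have h2 := hη.comp_continuous h1 (fun q => ⟨clamp_mem q.1, clamp_mem q.2⟩)
  exact h2

lemma exists_clampEta_le {η : ℝ → ℝ → ℝ}
    (hη : ContinuousOn (fun q : ℝ × ℝ => η q.1 q.2) (Icc (-1) 1 ×ˢ Icc (-1) 1)) :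
    ∃ C, ∀ q, ‖clampEta η q‖ ≤ C := by
  obtain ⟨C, hC⟩ := (isCompact_Icc.prod isCompact_Icc).exists_bound_of_continuousOn hη
  exact ⟨C, fun q => hC (max (-1) (min 1 q.1), max (-1) (min 1 q.2)) ⟨clamp_mem q.1, clamp_mem q.2⟩⟩

/-- the two arguments -/
noncomputable def swapPt (K : Set (E n)) (y x : E n) : ℝ × ℝ :=
  (inner ℝ x (nu K y) / gauge K x, inner ℝ (nu K x) y / gauge K y)

lemma swapPt_swap (K : Set (E n)) (y x : E n) : swapPt K x y = (swapPt K y x).swap := by
  unfold swapPt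
  simp only [Prod.swap_prod_mk, real_inner_comm]

lemma measurable_swapPt {K : Set (E n)} (hK : CB K) (h0 : (0 : E n) ∈ interior K) :
    Measurable (fun q : E n × E n => swapPt K q.1 q.2) := by
  have hg : Measurable (gauge K) := (hK.body h0).continuous_gauge.measurable
  have h1 : Measurable (fun q : E n × E n => nu K q.1) := (measurable_nu K).comp measurable_fst
  have h2 : Measurable (fun q : E n × E n => nu K q.2) := (measurable_nu K).comp measurable_snd
  exact ((measurable_snd.inner h1).div (hg.comp measurable_snd)).prodMk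
    ((h2.inner measurable_fst).div (hg.comp measurable_fst))

lemma abs_inner_nu_le {K : Set (E n)} (hK : CB K) (hs' : ∀ x ∈ K, -x ∈ K) {x : E n}
    (hx : DifferentiableAt ℝ (gauge K) x) (y : E n) : |inner ℝ (nu K x) y| ≤ gauge K y := by
  have hB := hK.body (hK.zero_mem_interior_of_symm hs')
  rw [abs_le]
  constructor
  · have h := hB.inner_nu_le hx (-y)
    rw [inner_neg_right, gauge_neg hs'] at h
    rw [nu_eq_G]
    linarith
  · rw [nu_eq_G]
    exact hB.inner_nu_le hx y

lemma abs_inner_nu_div_le {K : Set (E n)} (hK : CB K) (hs' : ∀ x ∈ K, -x ∈ K) {x : E n}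
    (hx : DifferentiableAt ℝ (gauge K) x) (y : E n) : |inner ℝ (nu K x) y / gauge K y| ≤ 1 := by
  rw [abs_div, abs_of_nonneg (gauge_nonneg y)]
  exact div_le_one_of_le₀ (abs_inner_nu_le hK hs' hx y) (gauge_nonneg y)

lemma integrable_clamp {K : Set (E n)} (hK : CB K) (h0 : (0 : E n) ∈ interior K) {η : ℝ → ℝ → ℝ}
    (hη : ContinuousOn (fun q : ℝ × ℝ => η q.1 q.2) (Icc (-1) 1 ×ˢ Icc (-1) 1)) :
    Integrable (Function.uncurry fun y x => clampEta η (swapPt K y x))
      ((volume.restrict K).prod (volume.restrict K)) := by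
  have hKf : IsFiniteMeasure ((volume : Measure (E n)).restrict K) :=
    ⟨by rw [Measure.restrict_apply_univ]; exact hK.isCompact.measure_lt_top⟩
  obtain ⟨C, hC⟩ := exists_clampEta_le hη
  refine Integrable.of_bound ?_ C (Filter.Eventually.of_forall fun q => hC _)
  exact ((continuous_clampEta hη).measurable.comp (measurable_swapPt hK h0)).aestronglyMeasurable

lemma ae_eq_clamp {K : Set (E n)} (hK : CB K) (hs' : ∀ x ∈ K, -x ∈ K) (η : ℝ → ℝ → ℝ) :
    ∀ᵐ y ∂(volume.restrict K),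
      ∫ x in K, η (inner ℝ x (nu K y) / gauge K x) (inner ℝ (nu K x) y / gauge K y) =
        ∫ x in K, clampEta η (swapPt K y x) := by
  have hB := hK.body (hK.zero_mem_interior_of_symm hs')
  refine ae_restrict_of_ae ?_
  filter_upwards [hB.ae_differentiableAt] with y hy
  refine integral_congr_ae (ae_restrict_of_ae ?_)
  filter_upwards [hB.ae_differentiableAt] with x hx
  have h1 : |inner ℝ x (nu K y) / gauge K x| ≤ 1 := by
    rw [real_inner_comm]; exact abs_inner_nu_div_le hK hs' hy x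
  have h2 := abs_inner_nu_div_le hK hs' hx y
  unfold swapPt
  rw [clampEta_eq h1 h2]

theorem swap_integrable {K : Set (E (n + 1))} (hK : CB K) (hs' : ∀ x ∈ K, -x ∈ K) (η : ℝ → ℝ → ℝ)
    (hη : ContinuousOn (fun q : ℝ × ℝ => η q.1 q.2) (Icc (-1) 1 ×ˢ Icc (-1) 1)) :
    IntegrableOn (fun y => ∫ x in K, η (inner ℝ x (nu K y) / gauge K x)
      (inner ℝ (nu K x) y / gauge K y)) K := by
  have h0 := hK.zero_mem_interior_of_symm hs'
  have hKf : IsFiniteMeasure ((volume : Measure (E (n + 1))).restrict K) :=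
    ⟨by rw [Measure.restrict_apply_univ]; exact hK.isCompact.measure_lt_top⟩
  have h1 := (integrable_clamp hK h0 hη).integral_prod_left
  unfold IntegrableOn
  exact h1.congr ((ae_eq_clamp hK hs' η).mono fun y hy => hy.symm)

theorem swap_nonpos {K : Set (E (n + 1))} (hK : CB K) (hs' : ∀ x ∈ K, -x ∈ K) (η : ℝ → ℝ → ℝ)
    (hη : ContinuousOn (fun q : ℝ × ℝ => η q.1 q.2) (Icc (-1) 1 ×ˢ Icc (-1) 1))
    (hanti : ∀ t ∈ Icc (-1 : ℝ) 1, ∀ p ∈ Icc (-1 : ℝ) 1, η t p + η p t ≤ 0) :
    ∫ y in K, ∫ x in K, η (inner ℝ x (nu K y) / gauge K x) (inner ℝ (nu K x) y / gauge K y) ≤ 0 := by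
  have h0 := hK.zero_mem_interior_of_symm hs'
  have hKf : IsFiniteMeasure ((volume : Measure (E (n + 1))).restrict K) :=
    ⟨by rw [Measure.restrict_apply_univ]; exact hK.isCompact.measure_lt_top⟩
  have hI := integrable_clamp hK h0 hη
  rw [integral_congr_ae (ae_eq_clamp hK hs' η)]
  have h1 : ∫ y in K, ∫ x in K, clampEta η (swapPt K y x) =
      ∫ y in K, ∫ x in K, clampEta η (swapPt K x y) := integral_integral_swap hI
  have hI' : Integrable (Function.uncurry fun y x => clampEta η (swapPt K x y))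
      ((volume.restrict K).prod (volume.restrict K)) := hI.swap
  have h2 : (∫ y in K, ∫ x in K, clampEta η (swapPt K y x)) +
      (∫ y in K, ∫ x in K, clampEta η (swapPt K x y)) ≤ 0 := by
    rw [integral_integral hI, integral_integral hI']
    have h3 := integral_add hI hI'
    simp only [Function.uncurry_def] at h3
    rw [← h3]
    refine integral_nonpos fun z => ?_
    simp only [Pi.zero_apply]
    rw [swapPt_swap K z.1 z.2]
    exact hanti _ (clamp_mem _) _ (clamp_mem _)
  linarith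

/-- a.e. `y`: `y ≠ 0`, `h_K(ν y) = 1`, `⟨ν y, y⟩ = g(y)`, and for a.e. `x`: `|⟨ν x, y/g(y)⟩| ≤ 1`. -/
theorem ae_good {K : Set (E (n + 1))} (hK : CB K) (hs' : ∀ x ∈ K, -x ∈ K) :
    ∀ᵐ y ∂(volume.restrict K), y ≠ 0 ∧ nu K y ≠ 0 ∧ hs K (nu K y) = 1 ∧ 0 < gauge K y ∧
      inner ℝ (nu K y) y = gauge K y ∧
      ∀ᵐ x ∂(volume.restrict K), |inner ℝ (nu K x) ((gauge K y)⁻¹ • y)| ≤ 1 := by
  have h0 := hK.zero_mem_interior_of_symm hs'
  have hB := hK.body h0
  refine ae_restrict_of_ae ?_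
  filter_upwards [hB.ae_differentiableAt, (Measure.ae_ne volume (0 : E (n + 1)))] with y hy hy0
  have hp := hB.gauge_pos_iff.2 hy0
  have he : inner ℝ (nu K y) y = gauge K y := by rw [nu_eq_G]; exact hB.inner_nu_self hy
  refine ⟨hy0, ?_, ?_, hp, he, ?_⟩
  · intro h
    rw [h, inner_zero_left] at he
    exact hp.ne he
  · rw [hs_eq_G, nu_eq_G]
    exact hB.hs_nu hy hy0
  · refine ae_restrict_of_ae ?_
    filter_upwards [hB.ae_differentiableAt] with x hx
    rw [real_inner_smul_right, inv_mul_eq_div]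
    exact abs_inner_nu_div_le hK hs' hx y

end Crest.Agent.R230
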