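import Crest.Agent.R230.DefsE
import Crest.Agent.R230.Bright
import Crest.Agent.R230.Ball
import Crest.Agent.R230.Profile
import Crest.Agent.R230.ProfInt
import Crest.Agent.R230.ConeDiv
import Crest.Agent.R230.ProfCalc
import Crest.Agent.R230.Jensen
import Crest.Agent.R230.Lyz
import Crest.Agent.R230.Swap
import Crest.Agent.R230.EqCase
import Crest.Agent.R230.John
import Crest.Agent.R230.HypImage
import Crest.Agent.R230.Schwarz

/-!
# Row 230: the crux `(E)` from the one dimensional statements (assembly)
-/

set_option autoImplicit false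

open MeasureTheory Set
open scoped Pointwise ENNReal

namespace Crest.Agent.R230

variable {n : ℕ}

theorem crux_of_OneD (hn : 2 ≤ n) (h1 : OneD n) : CruxE n := by
  obtain ⟨c, η, hc, hηc, hηv, hηa, hmain⟩ := h1
  intro K hK hsym hE
  have h0 := zero_mem_interior_of_symm hK hsym
  have hvol := hK.vol_pos
  have hn1 : 1 ≤ n := by omega
  obtain ⟨G, hGc, hGint, hG⟩ := lyz hn1 hK h0
  set J : E (n + 1) → ℝ := fun y =>
    ∫ x in K, η (inner ℝ x (nu K y) / gauge K x) (inner ℝ (nu K x) y / gauge K y) with hJ
  have hJi : IntegrableOn J K := swap_integrable hK hsym η hηc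
  have hJn : ∫ y in K, J y ≤ 0 := swap_nonpos hK hsym η hηc hηa
  obtain ⟨C, hC⟩ := norm_nu_le hK h0
  have hGi : IntegrableOn (fun y => G (nu K y)) K := by
    obtain ⟨D, hD⟩ := (isCompact_closedBall (0 : E (n + 1)) C).exists_bound_of_continuousOn hGc.continuousOn
    refine Measure.integrableOn_of_bounded (M := D) hK.isCompact.measure_lt_top.ne
      (hGc.measurable.comp (measurable_nu K)).aestronglyMeasurable ?_
    refine Filter.Eventually.of_forall fun y => hD _ ?_
    simpa using hC y
  set U : E (n + 1) → ℝ := fun y => c * (1 - G (nu K y) / (n + 1)) + (n + 1) / vol K * J y with hU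
  have hUi : IntegrableOn U K := by
    refine Integrable.add ?_ (hJi.const_mul _)
    refine Integrable.const_mul ?_ _
    exact (integrableOn_const (hs := hK.isCompact.measure_lt_top.ne)).sub (hGi.div_const _)
  have hUle : ∫ y in K, U y ≤ 0 := by
    have e1 : ∫ y in K, U y = c * (vol K - (vol K * (n + 1)) / (n + 1)) + (n + 1) / vol K * ∫ y in K, J y := by
      rw [hU]
      have i1 : Integrable (fun _ : E (n + 1) => (1 : ℝ)) (volume.restrict K) :=
        integrableOn_const (hs := hK.isCompact.measure_lt_top.ne)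
      have i2 : Integrable (fun y => 1 - G (nu K y) / (n + 1)) (volume.restrict K) :=
        i1.sub (hGi.div_const _)
      rw [integral_add (i2.const_mul c) (hJi.const_mul _), integral_const_mul, integral_const_mul,
        integral_sub i1 (hGi.div_const _), integral_div, hGint]
      simp [vol, Measure.real]
    rw [e1]
    have e2 : vol K - (vol K * (n + 1)) / (n + 1) = 0 := by field_simp; ring
    rw [e2, mul_zero, zero_add]
    exact mul_nonpos_of_nonneg_of_nonpos (by positivity) hJn
  -- pointwise comparison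
  have hpt : ∀ᵐ y ∂(volume.restrict K), nu K y ≠ 0 ∧ hs K (nu K y) = 1 ∧
      0 ≤ TT n c η (prof K (nu K y)) ∧ TT n c η (prof K (nu K y)) ≤ U y := by
    filter_upwards [ae_good hK hsym] with y hy
    obtain ⟨hy0, hν0, hh, hgy, hEul, hbd⟩ := hy
    have hPr := prof_Prof hn1 hK hsym hν0
    have hN := NleB_prof hn hK hsym hE hν0
    refine ⟨hν0, hh, (hmain _ hPr hN).1, ?_⟩
    have hv1 : inner ℝ (nu K y) ((gauge K y)⁻¹ • y) = 1 := by
      rw [inner_smul_right, hEul, inv_mul_cancel₀ hgy.ne']
    have hj := jensen hn1 hK hsym hh hv1 (R := 1) le_rfl hbd η hηc hηv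
    have hj' : ∫ x in K, η (inner ℝ x (nu K y) / gauge K x) (inner ℝ (nu K x) ((gauge K y)⁻¹ • y)) = J y := by
      rw [hJ]
      simp only [inner_smul_right]
      congr 1
      ext x
      congr 1
      rw [div_eq_inv_mul]
    rw [hj'] at hj
    obtain ⟨hGpos, v, hev, hGv⟩ := hG (nu K y) hν0
    have hbd2 : ∀ᵐ x ∂(volume.restrict K), |inner ℝ (nu K x) v| ≤ max 1 (C * ‖v‖) := by
      refine Filter.Eventually.of_forall fun x => ?_
      refine (abs_real_inner_le_norm _ _).trans (le_trans ?_ (le_max_right _ _))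
      exact mul_le_mul_of_nonneg_right (hC x) (norm_nonneg _)
    have hj2 := jensen hn1 hK hsym hh hev (R := max 1 (C * ‖v‖)) (le_max_left _ _) hbd2 (fun _ p => p ^ 2)
      (by fun_prop) (fun t _ => (Even.convexOn_pow (by decide : Even 2)).subset (subset_univ _) (convex_Icc _ _))
    rw [hGv] at hj2
    have hEPpos := EP_sq_pos hn1 hPr
    have hEPle : EP n (prof K (nu K y)) (fun _ p => p ^ 2) ≤ (G (nu K y))⁻¹ :=
      le_of_mul_le_mul_left hj2 hvol
    have hF : G (nu K y) / (n + 1) ≤ 1 / ((n + 1) * EP n (prof K (nu K y)) (fun _ p => p ^ 2)) := by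
      rw [div_le_div_iff₀ (by positivity) (by positivity)]
      have := mul_le_mul_of_nonneg_left hEPle hGpos.le
      rw [mul_inv_cancel₀ hGpos.ne'] at this
      have h3 : (0 : ℝ) < n + 1 := by positivity
      nlinarith
    have hη2 : (n + 1) * EP n (prof K (nu K y)) η ≤ (n + 1) / vol K * J y := by
      rw [div_mul_eq_mul_div, le_div_iff₀ hvol]
      have h3 : (0 : ℝ) < n + 1 := by positivity
      nlinarith
    show TT n c η (prof K (nu K y)) ≤ c * (1 - G (nu K y) / (n + 1)) + (n + 1) / vol K * J y
    unfold TT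
    have := mul_le_mul_of_nonneg_left (sub_le_sub_left hF 1) hc
    linarith
  have hU0 : U =ᵐ[volume.restrict K] 0 := by
    have hUnn : 0 ≤ᵐ[volume.restrict K] U := by
      filter_upwards [hpt] with y hy
      exact hy.2.2.1.trans hy.2.2.2
    have : ∫ y in K, U y = 0 := le_antisymm hUle (integral_nonneg_of_ae hUnn)
    exact (integral_eq_zero_iff_of_nonneg_ae hUnn hUi).1 this
  apply ellipsoid_of_second_moment hK h0
  filter_upwards [hpt, hU0] with y hy hy2
  obtain ⟨hν0, hh, hT0, hTU⟩ := hy
  have hT : TT n c η (prof K (nu K y)) = 0 := by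
    apply le_antisymm _ hT0
    rw [hy2] at hTU; exact hTU
  obtain ⟨a, ha⟩ := (hmain _ (prof_Prof hn1 hK hsym hν0) (NleB_prof hn hK hsym hE hν0)).2 hT
  have f1 := integral_inner_prof hn1 hK hsym hh (fun s => s ^ 2) (by fun_prop)
  have f2 := integral_inner_prof hn1 hK hsym hh (fun _ => 1) (by fun_prop)
  have g2 : ∫ s in (-1 : ℝ)..1, (1 : ℝ) * prof K (nu K y) s ^ n = a ^ n * w n := by
    unfold w
    rw [← intervalIntegral.integral_const_mul]
    apply intervalIntegral.integral_congr
    intro s hs
    rw [uIcc_of_le (by norm_num)] at hs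
    simp only [ha s hs, mul_pow, one_mul]
  have g1 : ∫ s in (-1 : ℝ)..1, s ^ 2 * prof K (nu K y) s ^ n
      = a ^ n * ∫ s in (-1 : ℝ)..1, s ^ 2 * Real.sqrt (1 - s ^ 2) ^ n := by
    rw [← intervalIntegral.integral_const_mul]
    apply intervalIntegral.integral_congr
    intro s hs
    rw [uIcc_of_le (by norm_num)] at hs
    simp only [ha s hs, mul_pow]
    ring
  simp only [g1] at f1
  rw [g2] at f2
  have f3 : ∫ x in K, (1 : ℝ) = vol K := by simp [vol, Measure.real]
  rw [f3] at f2
  rw [f1, f2, ← w_moment n]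
  ring

/-- the `SDL` route -/
theorem crux_of_SDL (hn : 2 ≤ n) (h1 : SDL n) : CruxE n := by
  intro K0 hK0 hsym0 hE0
  obtain ⟨T, hB, u, hu, hu1, hmom⟩ := john hK0 hsym0
  set K := T '' K0 with hKdef
  have hn1 : 1 ≤ n := by omega
  have hK : CB K := hK0.image T
  have hsym : ∀ x ∈ K, -x ∈ K := by
    rintro _ ⟨x, hx, rfl⟩
    exact ⟨-x, hsym0 x hx, by simp⟩
  have hE : HypE K := HypE_image hn hK0 hE0 T
  have hu0 : u ≠ 0 := by rintro rfl; simp at hu
  set r : ℝ → ℝ := fun s => (area K u s / κ n) ^ ((1 : ℝ) / n) with hr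
  have hκ := κ_pos n
  -- r is a multiple of prof K u
  have hrp : ∀ s, r s = (κ n ^ ((1 : ℝ) / n))⁻¹ * prof K u s := by
    intro s
    have hA : 0 ≤ area K u s := ENNReal.toReal_nonneg
    simp only [hr, prof, hu, inv_one, one_smul, hu1, mul_one]
    rw [Real.div_rpow hA hκ.le, div_eq_inv_mul]
  set lam := (κ n ^ ((1 : ℝ) / n))⁻¹ with hlam
  have hlampos : 0 < lam := by positivity
  have hP := prof_Prof hn1 hK hsym hu0
  have hrP : Prof r := by
    have hre : r = fun s => lam * prof K u s := funext hrp
    rw [hre]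
    refine ⟨hP.conc.smul hlampos.le, ?_, ?_, hP.cont.const_smul lam⟩
    · intro s hs; simp only [hP.even s hs]
    · intro s hs; exact mul_pos hlampos (hP.pos s hs)
  have hmomr : ∀ k, mom k r = lam ^ k * mom k (prof K u) := by
    intro k
    unfold mom
    rw [← intervalIntegral.integral_const_mul]
    congr 1; ext s; rw [hrp, mul_pow]
  have hrN : NleB n r := by
    have := NleB_prof hn hK hsym hE hu0
    unfold NleB at this ⊢
    rw [hmomr, hmomr, mul_pow, mul_pow, ← pow_mul, ← pow_mul]
    have e1 : (n - 1) * n = n * (n - 1) := Nat.mul_comm _ _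
    rw [e1]
    have := mul_le_mul_of_nonneg_left this (pow_nonneg hlampos.le (n * (n - 1)))
    linarith
  have hC : 0 ≤ ∫ s in (-1 : ℝ)..1, (s ^ 2 * r s ^ n - r s ^ (n + 2) / (n + 2)) := by
    have h2 := schwarz_moment hn1 hK hsym hu hu1 r (fun s _ => rfl)
    have h3 := hmom.trans h2
    have h4 : 0 < κ n * n := by
      have : (0 : ℝ) < n := by exact_mod_cast (by omega : 0 < n)
      positivity
    by_contra hneg
    push Not at hneg
    have := mul_neg_of_pos_of_neg h4 hneg
    linarith
  have heq := h1 r hrP (fun s hs => sqrt_le_prof hn1 hK hB hu s hs) hrN hC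
  -- volume of K is that of the ball
  have hV : vol K = κ (n + 1) := by
    have f2 := integral_inner_prof hn1 hK hsym hu1 (fun _ => 1) (by fun_prop)
    have f3 : ∫ x in K, (1 : ℝ) = vol K := by simp [vol, Measure.real]
    rw [f3] at f2
    simp only [hu, inv_one, one_smul, hu1, one_mul] at f2
    rw [f2, κ_succ]
    unfold w
    rw [← intervalIntegral.integral_const_mul]
    apply intervalIntegral.integral_congr
    intro s hs
    rw [uIcc_of_le (by norm_num)] at hs
    have h5 := heq s hs
    rw [hrp] at h5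
    have h6 : prof K u s = κ n ^ ((1 : ℝ) / n) * Real.sqrt (1 - s ^ 2) := by
      rw [← h5, hlam]; field_simp
    simp only [h6, mul_pow]
    rw [← Real.rpow_natCast (κ n ^ ((1 : ℝ) / n)), ← Real.rpow_mul hκ.le]
    rw [one_div, inv_mul_cancel₀ (by positivity), Real.rpow_one]
  have hKB : K = Metric.closedBall 0 1 := by
    refine Subset.antisymm ?_ hB
    by_contra hne
    rw [not_subset] at hne
    obtain ⟨x, hxK, hxB⟩ := hne
    -- an open subset of K outside the ball
    have hopen : ((Metric.closedBall (0 : E (n + 1)) 1)ᶜ ∩ interior K).Nonempty := by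
      have h7 : x ∈ closure (interior K) := by
        rw [hK.convex.closure_interior_eq_closure_of_nonempty_interior hK.interior_nonempty]
        exact subset_closure hxK
      exact mem_closure_iff.1 h7 _ Metric.isClosed_closedBall.isOpen_compl hxB
    have h8 : 0 < volume ((Metric.closedBall (0 : E (n + 1)) 1)ᶜ ∩ interior K) :=
      ((Metric.isClosed_closedBall.isOpen_compl).inter isOpen_interior).measure_pos volume hopen
    have h9 : volume (Metric.closedBall (0 : E (n + 1)) 1) + volume ((Metric.closedBall (0 : E (n + 1)) 1)ᶜ ∩ interior K)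
        ≤ volume K := by
      rw [← measure_union (by
        rw [Set.disjoint_left]; intro y hy hy2; exact hy2.1 hy)
        ((Metric.isClosed_closedBall.isOpen_compl).inter isOpen_interior).measurableSet]
      exact measure_mono (union_subset hB (inter_subset_right.trans interior_subset))
    have hball := vol_closedBall (n + 1)
    have hvb : volume K = volume (Metric.closedBall (0 : E (n + 1)) 1) := by
      rw [← ENNReal.toReal_eq_toReal_iff' hK.isCompact.measure_lt_top.ne measure_closedBall_lt_top.ne]
      exact hV.trans hball.symm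
    rw [hvb] at h9
    have h10 : volume (Metric.closedBall (0 : E (n + 1)) 1) ≠ ∞ := measure_closedBall_lt_top.ne
    have h11 := ENNReal.lt_add_right h10 h8.ne'
    exact absurd h9 (not_le.2 h11)
  refine ⟨T.symm, ?_⟩
  rw [← hKB, hKdef, ← image_comp]
  simp

end Crest.Agent.R230
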