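import Mathlib

/-!
# Row 230, block B6, dimension 7: univariate certificates (generated)
-/

set_option autoImplicit false
set_option maxHeartbeats 1000000

namespace Crest.Agent.R230.B6b

theorem P6_1 {u : ℝ} (h0 : 0 ≤ u) (h1 : u ≤ 1) :
    0 < 4 * ((1 / 2) * (1 - u) * (2771 / 1000) + (49 / 20) * u ^ 2) * ((17907 / 10000) - (6551 / 10000) * (1 - 388 / 1000 * u - 178 / 1000 * u ^ 2 - 1 / 10 * u ^ 3) - 3 / 16 * (1 - u)) - (1 / 2) * (1 + (2 + (49 / 20)) * u) ^ 2 := by
  rcases le_total u (1 / 2) with h | h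
  · have k1 : 0 ≤ u := by linarith
    have k2 : 0 ≤ ((1 / 2) - u) := by linarith
    have key : 4 * ((1 / 2) * (1 - u) * (2771 / 1000) + (49 / 20) * u ^ 2) * ((17907 / 10000) - (6551 / 10000) * (1 - 388 / 1000 * u - 178 / 1000 * u ^ 2 - 1 / 10 * u ^ 3) - 3 / 16 * (1 - u)) - (1 / 2) * (1 + (2 + (49 / 20)) * u) ^ 2 =
        1 / 10000 +
        (23771351 / 156250) * ((1 / 2) - u) ^ 5 +
        (50357644637 / 78125000) * u * ((1 / 2) - u) ^ 4 +
        (324266760487 / 312500000) * u ^ 2 * ((1 / 2) - u) ^ 3 +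
        (489400830927 / 625000000) * u ^ 3 * ((1 / 2) - u) ^ 2 +
        (170193332341 / 625000000) * u ^ 4 * ((1 / 2) - u) +
        (10975759021 / 312500000) * u ^ 5 := by ring
    rw [key]
    positivity
  rcases le_total u (3 / 4) with h | h
  · have k1 : 0 ≤ (u - (1 / 2)) := by linarith
    have k2 : 0 ≤ ((3 / 4) - u) := by linarith
    have key : 4 * ((1 / 2) * (1 - u) * (2771 / 1000) + (49 / 20) * u ^ 2) * ((17907 / 10000) - (6551 / 10000) * (1 - 388 / 1000 * u - 178 / 1000 * u ^ 2 - 1 / 10 * u ^ 3) - 3 / 16 * (1 - u)) - (1 / 2) * (1 + (2 + (49 / 20)) * u) ^ 2 =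
        1 / 10000 +
        (10975759021 / 9765625) * ((3 / 4) - u) ^ 5 +
        (159079438289 / 39062500) * (u - (1 / 2)) * ((3 / 4) - u) ^ 4 +
        (84543493323 / 15625000) * (u - (1 / 2)) ^ 2 * ((3 / 4) - u) ^ 3 +
        (98508776459 / 31250000) * (u - (1 / 2)) ^ 3 * ((3 / 4) - u) ^ 2 +
        (234967380463 / 312500000) * (u - (1 / 2)) ^ 4 * ((3 / 4) - u) +
        (4884722267 / 78125000) * (u - (1 / 2)) ^ 5 := by ring
    rw [key]
    positivity
  rcases le_total u (13 / 16) with h | h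
  · have k1 : 0 ≤ (u - (3 / 4)) := by linarith
    have k2 : 0 ≤ ((13 / 16) - u) := by linarith
    have key : 4 * ((1 / 2) * (1 - u) * (2771 / 1000) + (49 / 20) * u ^ 2) * ((17907 / 10000) - (6551 / 10000) * (1 - 388 / 1000 * u - 178 / 1000 * u ^ 2 - 1 / 10 * u ^ 3) - 3 / 16 * (1 - u)) - (1 / 2) * (1 + (2 + (49 / 20)) * u) ^ 2 =
        1 / 10000 +
        (625244450176 / 9765625) * ((13 / 16) - u) ^ 5 +
        (2028038769896 / 9765625) * (u - (3 / 4)) * ((13 / 16) - u) ^ 4 +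
        (468184968932 / 1953125) * (u - (3 / 4)) ^ 2 * ((13 / 16) - u) ^ 3 +
        (226395086794 / 1953125) * (u - (3 / 4)) ^ 3 * ((13 / 16) - u) ^ 2 +
        (910428645981 / 39062500) * (u - (3 / 4)) ^ 4 * ((13 / 16) - u) +
        (1080592703263 / 312500000) * (u - (3 / 4)) ^ 5 := by ring
    rw [key]
    positivity
  rcases le_total u (7 / 8) with h | h
  · have k1 : 0 ≤ (u - (13 / 16)) := by linarith
    have k2 : 0 ≤ ((7 / 8) - u) := by linarith
    have key : 4 * ((1 / 2) * (1 - u) * (2771 / 1000) + (49 / 20) * u ^ 2) * ((17907 / 10000) - (6551 / 10000) * (1 - 388 / 1000 * u - 178 / 1000 * u ^ 2 - 1 / 10 * u ^ 3) - 3 / 16 * (1 - u)) - (1 / 2) * (1 + (2 + (49 / 20)) * u) ^ 2 =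
        1 / 10000 +
        (1080592703263 / 312500000) * ((7 / 8) - u) ^ 5 +
        (1761248932391 / 156250000) * (u - (13 / 16)) * ((7 / 8) - u) ^ 4 +
        (2647436084347 / 39062500) * (u - (13 / 16)) ^ 2 * ((7 / 8) - u) ^ 3 +
        (3379675282863 / 19531250) * (u - (13 / 16)) ^ 3 * ((7 / 8) - u) ^ 2 +
        (3332194378411 / 19531250) * (u - (13 / 16)) ^ 4 * ((7 / 8) - u) +
        (22472612083 / 390625) * (u - (13 / 16)) ^ 5 := by ring
    rw [key]
    positivity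
  · have k1 : 0 ≤ (u - (7 / 8)) := by linarith
    have k2 : 0 ≤ (1 - u) := by linarith
    have key : 4 * ((1 / 2) * (1 - u) * (2771 / 1000) + (49 / 20) * u ^ 2) * ((17907 / 10000) - (6551 / 10000) * (1 - 388 / 1000 * u - 178 / 1000 * u ^ 2 - 1 / 10 * u ^ 3) - 3 / 16 * (1 - u)) - (1 / 2) * (1 + (2 + (49 / 20)) * u) ^ 2 =
        1 / 10000 +
        (22472612083 / 12500000) * (1 - u) ^ 5 +
        (2547517576357 / 156250000) * (u - (7 / 8)) * (1 - u) ^ 4 +
        (2167049401443 / 39062500) * (u - (7 / 8)) ^ 2 * (1 - u) ^ 3 +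
        (852841189028 / 9765625) * (u - (7 / 8)) ^ 3 * (1 - u) ^ 2 +
        (629771427088 / 9765625) * (u - (7 / 8)) ^ 4 * (1 - u) +
        (7081429504 / 390625) * (u - (7 / 8)) ^ 5 := by ring
    rw [key]
    positivity

theorem P6_2 {u : ℝ} (h0 : 0 ≤ u) (h1 : u ≤ 1) :
    0 < 4 * ((2311 / 5000) * (1 - u) * (1371 / 500) + (5 / 2) * u ^ 2) * ((8857 / 5000) - (1311 / 2000) * (1 - 388 / 1000 * u - 178 / 1000 * u ^ 2 - 1 / 10 * u ^ 3) - 3 / 16 * (1 - u)) - (2311 / 5000) * (1 + (2 + (5 / 2)) * u) ^ 2 := by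
  rcases le_total u (1 / 2) with h | h
  · have k1 : 0 ≤ u := by linarith
    have k2 : 0 ≤ ((1 / 2) - u) := by linarith
    have key : 4 * ((2311 / 5000) * (1 - u) * (1371 / 500) + (5 / 2) * u ^ 2) * ((8857 / 5000) - (1311 / 2000) * (1 - 388 / 1000 * u - 178 / 1000 * u ^ 2 - 1 / 10 * u ^ 3) - 3 / 16 * (1 - u)) - (2311 / 5000) * (1 + (2 + (5 / 2)) * u) ^ 2 =
        1 / 10000 +
        (6631468551 / 48828125) * ((1 / 2) - u) ^ 5 +
        (11192186367177 / 19531250000) * u * ((1 / 2) - u) ^ 4 +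
        (71894051384777 / 78125000000) * u ^ 2 * ((1 / 2) - u) ^ 3 +
        (108945822664017 / 156250000000) * u ^ 3 * ((1 / 2) - u) ^ 2 +
        (38834582140761 / 156250000000) * u ^ 4 * ((1 / 2) - u) +
        (2731246273541 / 78125000000) * u ^ 5 := by ring
    rw [key]
    positivity
  · have k1 : 0 ≤ (u - (1 / 2)) := by linarith
    have k2 : 0 ≤ (1 - u) := by linarith
    have key : 4 * ((2311 / 5000) * (1 - u) * (1371 / 500) + (5 / 2) * u ^ 2) * ((8857 / 5000) - (1311 / 2000) * (1 - 388 / 1000 * u - 178 / 1000 * u ^ 2 - 1 / 10 * u ^ 3) - 3 / 16 * (1 - u)) - (2311 / 5000) * (1 + (2 + (5 / 2)) * u) ^ 2 =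
        1 / 10000 +
        (2731246273541 / 78125000000) * (1 - u) ^ 5 +
        (15790343330059 / 156250000000) * (u - (1 / 2)) * (1 - u) ^ 4 +
        (16768867421209 / 156250000000) * (u - (1 / 2)) ^ 2 * (1 - u) ^ 3 +
        (3714066400711 / 39062500000) * (u - (1 / 2)) ^ 3 * (1 - u) ^ 2 +
        (4006931772403 / 39062500000) * (u - (1 / 2)) ^ 4 * (1 - u) +
        (154298 / 3125) * (u - (1 / 2)) ^ 5 := by ring
    rw [key]
    positivity

theorem P6_3 {u : ℝ} (h0 : 0 ≤ u) (h1 : u ≤ 1) :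
    0 < 4 * ((4579 / 10000) * (1 - u) * (659 / 250) + (47 / 20) * u ^ 2) * ((8513 / 5000) - (6599 / 10000) * (1 - 388 / 1000 * u - 178 / 1000 * u ^ 2 - 1 / 10 * u ^ 3) - 3 / 16 * (1 - u)) - (4579 / 10000) * (1 + (2 + (47 / 20)) * u) ^ 2 := by
  rcases le_total u (1 / 2) with h | h
  · have k1 : 0 ≤ u := by linarith
    have k2 : 0 ≤ ((1 / 2) - u) := by linarith
    have key : 4 * ((4579 / 10000) * (1 - u) * (659 / 250) + (47 / 20) * u ^ 2) * ((8513 / 5000) - (6599 / 10000) * (1 - 388 / 1000 * u - 178 / 1000 * u ^ 2 - 1 / 10 * u ^ 3) - 3 / 16 * (1 - u)) - (4579 / 10000) * (1 + (2 + (47 / 20)) * u) ^ 2 =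
        1 / 10000 +
        (5735920418 / 48828125) * ((1 / 2) - u) ^ 5 +
        (48029112204533 / 97656250000) * u * ((1 / 2) - u) ^ 4 +
        (302716930622183 / 390625000000) * u ^ 2 * ((1 / 2) - u) ^ 3 +
        (440903885028993 / 781250000000) * u ^ 3 * ((1 / 2) - u) ^ 2 +
        (144791547366469 / 781250000000) * u ^ 4 * ((1 / 2) - u) +
        (8673983348039 / 390625000000) * u ^ 5 := by ring
    rw [key]
    positivity
  rcases le_total u (3 / 4) with h | h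
  · have k1 : 0 ≤ (u - (1 / 2)) := by linarith
    have k2 : 0 ≤ ((3 / 4) - u) := by linarith
    have key : 4 * ((4579 / 10000) * (1 - u) * (659 / 250) + (47 / 20) * u ^ 2) * ((8513 / 5000) - (6599 / 10000) * (1 - 388 / 1000 * u - 178 / 1000 * u ^ 2 - 1 / 10 * u ^ 3) - 3 / 16 * (1 - u)) - (4579 / 10000) * (1 + (2 + (47 / 20)) * u) ^ 2 =
        1 / 10000 +
        (8673983348039 / 12207031250) * ((3 / 4) - u) ^ 5 +
        (115427953074701 / 48828125000) * (u - (1 / 2)) * ((3 / 4) - u) ^ 4 +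
        (52944463855677 / 19531250000) * (u - (1 / 2)) ^ 2 * ((3 / 4) - u) ^ 3 +
        (45581710833661 / 39062500000) * (u - (1 / 2)) ^ 3 * ((3 / 4) - u) ^ 2 +
        (44474022285817 / 390625000000) * (u - (1 / 2)) ^ 4 * ((3 / 4) - u) +
        (1932340633637 / 390625000000) * (u - (1 / 2)) ^ 5 := by ring
    rw [key]
    positivity
  rcases le_total u (13 / 16) with h | h
  · have k1 : 0 ≤ (u - (3 / 4)) := by linarith
    have k2 : 0 ≤ ((13 / 16) - u) := by linarith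
    have key : 4 * ((4579 / 10000) * (1 - u) * (659 / 250) + (47 / 20) * u ^ 2) * ((8513 / 5000) - (6599 / 10000) * (1 - 388 / 1000 * u - 178 / 1000 * u ^ 2 - 1 / 10 * u ^ 3) - 3 / 16 * (1 - u)) - (4579 / 10000) * (1 + (2 + (47 / 20)) * u) ^ 2 =
        1 / 10000 +
        (30917450138192 / 6103515625) * ((13 / 16) - u) ^ 5 +
        (15337974220432 / 6103515625) * (u - (3 / 4)) * ((13 / 16) - u) ^ 4 +
        (9884364205904 / 1220703125) * (u - (3 / 4)) ^ 2 * ((13 / 16) - u) ^ 3 +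
        (152268979710931 / 2441406250) * (u - (3 / 4)) ^ 3 * ((13 / 16) - u) ^ 2 +
        (8322367315915083 / 97656250000) * (u - (3 / 4)) ^ 4 * ((13 / 16) - u) +
        (6543378910784271 / 195312500000) * (u - (3 / 4)) ^ 5 := by ring
    rw [key]
    positivity
  rcases le_total u (7 / 8) with h | h
  · have k1 : 0 ≤ (u - (13 / 16)) := by linarith
    have k2 : 0 ≤ ((7 / 8) - u) := by linarith
    have key : 4 * ((4579 / 10000) * (1 - u) * (659 / 250) + (47 / 20) * u ^ 2) * ((8513 / 5000) - (6599 / 10000) * (1 - 388 / 1000 * u - 178 / 1000 * u ^ 2 - 1 / 10 * u ^ 3) - 3 / 16 * (1 - u)) - (4579 / 10000) * (1 + (2 + (47 / 20)) * u) ^ 2 =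
        1 / 10000 +
        (6543378910784271 / 195312500000) * ((7 / 8) - u) ^ 5 +
        (1524657952375392 / 6103515625) * (u - (13 / 16)) * ((7 / 8) - u) ^ 4 +
        (17594849719200499 / 24414062500) * (u - (13 / 16)) ^ 2 * ((7 / 8) - u) ^ 3 +
        (6109509177722498 / 6103515625) * (u - (13 / 16)) ^ 3 * ((7 / 8) - u) ^ 2 +
        (8198865453121587 / 12207031250) * (u - (13 / 16)) ^ 4 * ((7 / 8) - u) +
        (42738496130896 / 244140625) * (u - (13 / 16)) ^ 5 := by ring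
    rw [key]
    positivity
  · have k1 : 0 ≤ (u - (7 / 8)) := by linarith
    have k2 : 0 ≤ (1 - u) := by linarith
    have key : 4 * ((4579 / 10000) * (1 - u) * (659 / 250) + (47 / 20) * u ^ 2) * ((8513 / 5000) - (6599 / 10000) * (1 - 388 / 1000 * u - 178 / 1000 * u ^ 2 - 1 / 10 * u ^ 3) - 3 / 16 * (1 - u)) - (4579 / 10000) * (1 + (2 + (47 / 20)) * u) ^ 2 =
        1 / 10000 +
        (2671156008181 / 488281250) * (1 - u) ^ 5 +
        (7828070595964413 / 195312500000) * (u - (7 / 8)) * (1 - u) ^ 4 +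
        (5553316891986737 / 48828125000) * (u - (7 / 8)) ^ 2 * (1 - u) ^ 3 +
        (953085792955976 / 6103515625) * (u - (7 / 8)) ^ 3 * (1 - u) ^ 2 +
        (635410193431896 / 6103515625) * (u - (7 / 8)) ^ 4 * (1 - u) +
        (10576322688 / 390625) * (u - (7 / 8)) ^ 5 := by ring
    rw [key]
    positivity

theorem P6_4 {u : ℝ} (h0 : 0 ≤ u) (h1 : u ≤ 1) :
    0 < 4 * ((276 / 625) * (1 - u) * (322 / 125) + (47 / 20) * u ^ 2) * ((8361 / 5000) - (6617 / 10000) * (1 - 388 / 1000 * u - 178 / 1000 * u ^ 2 - 1 / 10 * u ^ 3) - 3 / 16 * (1 - u)) - (276 / 625) * (1 + (2 + (47 / 20)) * u) ^ 2 := by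
  rcases le_total u (1 / 2) with h | h
  · have k1 : 0 ≤ u := by linarith
    have k2 : 0 ≤ ((1 / 2) - u) := by linarith
    have key : 4 * ((276 / 625) * (1 - u) * (322 / 125) + (47 / 20) * u ^ 2) * ((8361 / 5000) - (6617 / 10000) * (1 - 388 / 1000 * u - 178 / 1000 * u ^ 2 - 1 / 10 * u ^ 3) - 3 / 16 * (1 - u)) - (276 / 625) * (1 + (2 + (47 / 20)) * u) ^ 2 =
        1 / 10000 +
        (1032235246 / 9765625) * ((1 / 2) - u) ^ 5 +
        (2682241672406 / 6103515625) * u * ((1 / 2) - u) ^ 4 +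
        (4174691920239 / 6103515625) * u ^ 2 * ((1 / 2) - u) ^ 3 +
        (23826495101001 / 48828125000) * u ^ 3 * ((1 / 2) - u) ^ 2 +
        (30259815712607 / 195312500000) * u ^ 4 * ((1 / 2) - u) +
        (1739216071817 / 97656250000) * u ^ 5 := by ring
    rw [key]
    positivity
  rcases le_total u (5 / 8) with h | h
  · have k1 : 0 ≤ (u - (1 / 2)) := by linarith
    have k2 : 0 ≤ ((5 / 8) - u) := by linarith
    have key : 4 * ((276 / 625) * (1 - u) * (322 / 125) + (47 / 20) * u ^ 2) * ((8361 / 5000) - (6617 / 10000) * (1 - 388 / 1000 * u - 178 / 1000 * u ^ 2 - 1 / 10 * u ^ 3) - 3 / 16 * (1 - u)) - (276 / 625) * (1 + (2 + (47 / 20)) * u) ^ 2 =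
        1 / 10000 +
        (111309828596288 / 6103515625) * ((5 / 8) - u) ^ 5 +
        (453607903025944 / 6103515625) * (u - (1 / 2)) * ((5 / 8) - u) ^ 4 +
        (719435404120728 / 6103515625) * (u - (1 / 2)) ^ 2 * ((5 / 8) - u) ^ 3 +
        (552533693631931 / 6103515625) * (u - (1 / 2)) ^ 3 * ((5 / 8) - u) ^ 2 +
        (819035720946781 / 24414062500) * (u - (1 / 2)) ^ 4 * ((5 / 8) - u) +
        (187944721090227 / 39062500000) * (u - (1 / 2)) ^ 5 := by ring
    rw [key]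
    positivity
  rcases le_total u (3 / 4) with h | h
  · have k1 : 0 ≤ (u - (5 / 8)) := by linarith
    have k2 : 0 ≤ ((3 / 4) - u) := by linarith
    have key : 4 * ((276 / 625) * (1 - u) * (322 / 125) + (47 / 20) * u ^ 2) * ((8361 / 5000) - (6617 / 10000) * (1 - 388 / 1000 * u - 178 / 1000 * u ^ 2 - 1 / 10 * u ^ 3) - 3 / 16 * (1 - u)) - (276 / 625) * (1 + (2 + (47 / 20)) * u) ^ 2 =
        1 / 10000 +
        (187944721090227 / 39062500000) * ((3 / 4) - u) ^ 5 +
        (1422475143468551 / 97656250000) * (u - (5 / 8)) * ((3 / 4) - u) ^ 4 +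
        (356467034209151 / 24414062500) * (u - (5 / 8)) ^ 2 * ((3 / 4) - u) ^ 3 +
        (61722891236019 / 12207031250) * (u - (5 / 8)) ^ 3 * ((3 / 4) - u) ^ 2 +
        (6587712359587 / 12207031250) * (u - (5 / 8)) ^ 4 * ((3 / 4) - u) +
        (2014631692147 / 6103515625) * (u - (5 / 8)) ^ 5 := by ring
    rw [key]
    positivity
  · have k1 : 0 ≤ (u - (3 / 4)) := by linarith
    have k2 : 0 ≤ (1 - u) := by linarith
    have key : 4 * ((276 / 625) * (1 - u) * (322 / 125) + (47 / 20) * u ^ 2) * ((8361 / 5000) - (6617 / 10000) * (1 - 388 / 1000 * u - 178 / 1000 * u ^ 2 - 1 / 10 * u ^ 3) - 3 / 16 * (1 - u)) - (276 / 625) * (1 + (2 + (47 / 20)) * u) ^ 2 =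
        1 / 10000 +
        (2014631692147 / 195312500000) * (1 - u) ^ 5 +
        (11815881511309 / 97656250000) * (u - (3 / 4)) * (1 - u) ^ 4 +
        (14106880403139 / 12207031250) * (u - (3 / 4)) ^ 2 * (1 - u) ^ 3 +
        (18321626977876 / 6103515625) * (u - (3 / 4)) ^ 3 * (1 - u) ^ 2 +
        (18198742505872 / 6103515625) * (u - (3 / 4)) ^ 4 * (1 - u) +
        (400564272 / 390625) * (u - (3 / 4)) ^ 5 := by ring
    rw [key]
    positivity

theorem P6_5 {u : ℝ} (h0 : 0 ≤ u) (h1 : u ≤ 1) :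
    0 < 4 * ((2169 / 5000) * (1 - u) * (1273 / 500) + (9 / 4) * u ^ 2) * ((16577 / 10000) - (414 / 625) * (1 - 388 / 1000 * u - 178 / 1000 * u ^ 2 - 1 / 10 * u ^ 3) - 3 / 16 * (1 - u)) - (2169 / 5000) * (1 + (2 + (9 / 4)) * u) ^ 2 := by
  rcases le_total u (1 / 2) with h | h
  · have k1 : 0 ≤ u := by linarith
    have k2 : 0 ≤ ((1 / 2) - u) := by linarith
    have key : 4 * ((2169 / 5000) * (1 - u) * (1273 / 500) + (9 / 4) * u ^ 2) * ((16577 / 10000) - (414 / 625) * (1 - 388 / 1000 * u - 178 / 1000 * u ^ 2 - 1 / 10 * u ^ 3) - 3 / 16 * (1 - u)) - (2169 / 5000) * (1 + (2 + (9 / 4)) * u) ^ 2 =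
        1 / 10000 +
        (9796294843 / 97656250) * ((1 / 2) - u) ^ 5 +
        (20356171298293 / 48828125000) * u * ((1 / 2) - u) ^ 4 +
        (7914690447473 / 12207031250) * u ^ 2 * ((1 / 2) - u) ^ 3 +
        (11278758910333 / 24414062500) * u ^ 3 * ((1 / 2) - u) ^ 2 +
        (3573874982189 / 24414062500) * u ^ 4 * ((1 / 2) - u) +
        (820079431811 / 48828125000) * u ^ 5 := by ring
    rw [key]
    positivity
  rcases le_total u (5 / 8) with h | h
  · have k1 : 0 ≤ (u - (1 / 2)) := by linarith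
    have k2 : 0 ≤ ((5 / 8) - u) := by linarith
    have key : 4 * ((2169 / 5000) * (1 - u) * (1273 / 500) + (9 / 4) * u ^ 2) * ((16577 / 10000) - (414 / 625) * (1 - 388 / 1000 * u - 178 / 1000 * u ^ 2 - 1 / 10 * u ^ 3) - 3 / 16 * (1 - u)) - (2169 / 5000) * (1 + (2 + (9 / 4)) * u) ^ 2 =
        1 / 10000 +
        (104970167271808 / 6103515625) * ((5 / 8) - u) ^ 5 +
        (427335546588704 / 6103515625) * (u - (1 / 2)) * ((5 / 8) - u) ^ 4 +
        (676979011886848 / 6103515625) * (u - (1 / 2)) ^ 2 * ((5 / 8) - u) ^ 3 +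
        (519281601254296 / 6103515625) * (u - (1 / 2)) ^ 3 * ((5 / 8) - u) ^ 2 +
        (192227816084849 / 6103515625) * (u - (1 / 2)) ^ 4 * ((5 / 8) - u) +
        (5512697214476 / 1220703125) * (u - (1 / 2)) ^ 5 := by ring
    rw [key]
    positivity
  rcases le_total u (3 / 4) with h | h
  · have k1 : 0 ≤ (u - (5 / 8)) := by linarith
    have k2 : 0 ≤ ((3 / 4) - u) := by linarith
    have key : 4 * ((2169 / 5000) * (1 - u) * (1273 / 500) + (9 / 4) * u ^ 2) * ((16577 / 10000) - (414 / 625) * (1 - 388 / 1000 * u - 178 / 1000 * u ^ 2 - 1 / 10 * u ^ 3) - 3 / 16 * (1 - u)) - (2169 / 5000) * (1 + (2 + (9 / 4)) * u) ^ 2 =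
        1 / 10000 +
        (5512697214476 / 1220703125) * ((3 / 4) - u) ^ 5 +
        (83407044638951 / 6103515625) * (u - (5 / 8)) * ((3 / 4) - u) ^ 4 +
        (83998515470704 / 6103515625) * (u - (5 / 8)) ^ 2 * ((3 / 4) - u) ^ 3 +
        (30321895392952 / 6103515625) * (u - (5 / 8)) ^ 3 * ((3 / 4) - u) ^ 2 +
        (4587485168096 / 6103515625) * (u - (5 / 8)) ^ 4 * ((3 / 4) - u) +
        (2424185351152 / 6103515625) * (u - (5 / 8)) ^ 5 := by ring
    rw [key]
    positivity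
  · have k1 : 0 ≤ (u - (3 / 4)) := by linarith
    have k2 : 0 ≤ (1 - u) := by linarith
    have key : 4 * ((2169 / 5000) * (1 - u) * (1273 / 500) + (9 / 4) * u ^ 2) * ((16577 / 10000) - (414 / 625) * (1 - 388 / 1000 * u - 178 / 1000 * u ^ 2 - 1 / 10 * u ^ 3) - 3 / 16 * (1 - u)) - (2169 / 5000) * (1 + (2 + (9 / 4)) * u) ^ 2 =
        1 / 10000 +
        (151511584447 / 12207031250) * (1 - u) ^ 5 +
        (1699238120693 / 12207031250) * (u - (3 / 4)) * (1 - u) ^ 4 +
        (7167644348162 / 6103515625) * (u - (3 / 4)) ^ 2 * (1 - u) ^ 3 +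
        (18083804907416 / 6103515625) * (u - (3 / 4)) ^ 3 * (1 - u) ^ 2 +
        (17757717030502 / 6103515625) * (u - (3 / 4)) ^ 4 * (1 - u) +
        (77713048 / 78125) * (u - (3 / 4)) ^ 5 := by ring
    rw [key]
    positivity

theorem P6_6 {u : ℝ} (h0 : 0 ≤ u) (h1 : u ≤ 1) :
    0 < 4 * ((43 / 100) * (1 - u) * (2541 / 1000) + (9 / 4) * u ^ 2) * ((8277 / 5000) - (53 / 80) * (1 - 388 / 1000 * u - 178 / 1000 * u ^ 2 - 1 / 10 * u ^ 3) - 3 / 16 * (1 - u)) - (43 / 100) * (1 + (2 + (9 / 4)) * u) ^ 2 := by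
  rcases le_total u (1 / 2) with h | h
  · have k1 : 0 ≤ u := by linarith
    have k2 : 0 ≤ ((1 / 2) - u) := by linarith
    have key : 4 * ((43 / 100) * (1 - u) * (2541 / 1000) + (9 / 4) * u ^ 2) * ((8277 / 5000) - (53 / 80) * (1 - 388 / 1000 * u - 178 / 1000 * u ^ 2 - 1 / 10 * u ^ 3) - 3 / 16 * (1 - u)) - (43 / 100) * (1 + (2 + (9 / 4)) * u) ^ 2 =
        1 / 10000 +
        (386239601 / 3906250) * ((1 / 2) - u) ^ 5 +
        (12833532969 / 31250000) * u * ((1 / 2) - u) ^ 4 +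
        (79794059089 / 125000000) * u ^ 2 * ((1 / 2) - u) ^ 3 +
        (113723220041 / 250000000) * u ^ 3 * ((1 / 2) - u) ^ 2 +
        (36144357261 / 250000000) * u ^ 4 * ((1 / 2) - u) +
        (420938861 / 25000000) * u ^ 5 := by ring
    rw [key]
    positivity
  rcases le_total u (3 / 4) with h | h
  · have k1 : 0 ≤ (u - (1 / 2)) := by linarith
    have k2 : 0 ≤ ((3 / 4) - u) := by linarith
    have key : 4 * ((43 / 100) * (1 - u) * (2541 / 1000) + (9 / 4) * u ^ 2) * ((8277 / 5000) - (53 / 80) * (1 - 388 / 1000 * u - 178 / 1000 * u ^ 2 - 1 / 10 * u ^ 3) - 3 / 16 * (1 - u)) - (43 / 100) * (1 + (2 + (9 / 4)) * u) ^ 2 =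
        1 / 10000 +
        (420938861 / 781250) * ((3 / 4) - u) ^ 5 +
        (26996471889 / 15625000) * (u - (1 / 2)) * ((3 / 4) - u) ^ 4 +
        (58835907809 / 31250000) * (u - (1 / 2)) ^ 2 * ((3 / 4) - u) ^ 3 +
        (48660494797 / 62500000) * (u - (1 / 2)) ^ 3 * ((3 / 4) - u) ^ 2 +
        (16878298653 / 125000000) * (u - (1 / 2)) ^ 4 * ((3 / 4) - u) +
        (6353914193 / 125000000) * (u - (1 / 2)) ^ 5 := by ring
    rw [key]
    positivity
  · have k1 : 0 ≤ (u - (3 / 4)) := by linarith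
    have k2 : 0 ≤ (1 - u) := by linarith
    have key : 4 * ((43 / 100) * (1 - u) * (2541 / 1000) + (9 / 4) * u ^ 2) * ((8277 / 5000) - (53 / 80) * (1 - 388 / 1000 * u - 178 / 1000 * u ^ 2 - 1 / 10 * u ^ 3) - 3 / 16 * (1 - u)) - (43 / 100) * (1 + (2 + (9 / 4)) * u) ^ 2 =
        1 / 10000 +
        (6353914193 / 125000000) * (1 - u) ^ 5 +
        (46660843277 / 125000000) * (u - (3 / 4)) * (1 - u) ^ 4 +
        (21645116809 / 12500000) * (u - (3 / 4)) ^ 2 * (1 - u) ^ 3 +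
        (28238517131 / 7812500) * (u - (3 / 4)) ^ 3 * (1 - u) ^ 2 +
        (2566604399 / 781250) * (u - (3 / 4)) ^ 4 * (1 - u) +
        (675296 / 625) * (u - (3 / 4)) ^ 5 := by ring
    rw [key]
    positivity

theorem P6_7 {u : ℝ} (h0 : 0 ≤ u) (h1 : u ≤ 1) :
    0 < 4 * ((268 / 625) * (1 - u) * (2511 / 1000) + (9 / 4) * u ^ 2) * ((8249 / 5000) - (1657 / 2500) * (1 - 388 / 1000 * u - 178 / 1000 * u ^ 2 - 1 / 10 * u ^ 3) - 3 / 16 * (1 - u)) - (268 / 625) * (1 + (2 + (9 / 4)) * u) ^ 2 := by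
  rcases le_total u (1 / 2) with h | h
  · have k1 : 0 ≤ u := by linarith
    have k2 : 0 ≤ ((1 / 2) - u) := by linarith
    have key : 4 * ((268 / 625) * (1 - u) * (2511 / 1000) + (9 / 4) * u ^ 2) * ((8249 / 5000) - (1657 / 2500) * (1 - 388 / 1000 * u - 178 / 1000 * u ^ 2 - 1 / 10 * u ^ 3) - 3 / 16 * (1 - u)) - (268 / 625) * (1 + (2 + (9 / 4)) * u) ^ 2 =
        1 / 10000 +
        (942012602 / 9765625) * ((1 / 2) - u) ^ 5 +
        (2438611530342 / 6103515625) * u * ((1 / 2) - u) ^ 4 +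
        (7542650554471 / 12207031250) * u ^ 2 * ((1 / 2) - u) ^ 3 +
        (10648617767441 / 24414062500) * u ^ 3 * ((1 / 2) - u) ^ 2 +
        (6643733419281 / 48828125000) * u ^ 4 * ((1 / 2) - u) +
        (93424727834 / 6103515625) * u ^ 5 := by ring
    rw [key]
    positivity
  rcases le_total u (5 / 8) with h | h
  · have k1 : 0 ≤ (u - (1 / 2)) := by linarith
    have k2 : 0 ≤ ((5 / 8) - u) := by linarith
    have key : 4 * ((268 / 625) * (1 - u) * (2511 / 1000) + (9 / 4) * u ^ 2) * ((8249 / 5000) - (1657 / 2500) * (1 - 388 / 1000 * u - 178 / 1000 * u ^ 2 - 1 / 10 * u ^ 3) - 3 / 16 * (1 - u)) - (268 / 625) * (1 + (2 + (9 / 4)) * u) ^ 2 =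
        1 / 10000 +
        (95666921302016 / 6103515625) * ((5 / 8) - u) ^ 5 +
        (385318788720608 / 6103515625) * (u - (1 / 2)) * ((5 / 8) - u) ^ 4 +
        (602176182538096 / 6103515625) * (u - (1 / 2)) ^ 2 * ((5 / 8) - u) ^ 3 +
        (453950392506392 / 6103515625) * (u - (1 / 2)) ^ 3 * ((5 / 8) - u) ^ 2 +
        (164423510694773 / 6103515625) * (u - (1 / 2)) ^ 4 * ((5 / 8) - u) +
        (36801718683241 / 9765625000) * (u - (1 / 2)) ^ 5 := by ring
    rw [key]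
    positivity
  rcases le_total u (3 / 4) with h | h
  · have k1 : 0 ≤ (u - (5 / 8)) := by linarith
    have k2 : 0 ≤ ((3 / 4) - u) := by linarith
    have key : 4 * ((268 / 625) * (1 - u) * (2511 / 1000) + (9 / 4) * u ^ 2) * ((8249 / 5000) - (1657 / 2500) * (1 - 388 / 1000 * u - 178 / 1000 * u ^ 2 - 1 / 10 * u ^ 3) - 3 / 16 * (1 - u)) - (268 / 625) * (1 + (2 + (9 / 4)) * u) ^ 2 =
        1 / 10000 +
        (36801718683241 / 9765625000) * ((3 / 4) - u) ^ 5 +
        (262348924301933 / 24414062500) * (u - (5 / 8)) * ((3 / 4) - u) ^ 4 +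
        (58605274029233 / 6103515625) * (u - (5 / 8)) ^ 2 * ((3 / 4) - u) ^ 3 +
        (15447849987754 / 6103515625) * (u - (5 / 8)) ^ 3 * ((3 / 4) - u) ^ 2 +
        (2552360574242 / 6103515625) * (u - (5 / 8)) ^ 4 * ((3 / 4) - u) +
        (3127268586404 / 6103515625) * (u - (5 / 8)) ^ 5 := by ring
    rw [key]
    positivity
  · have k1 : 0 ≤ (u - (3 / 4)) := by linarith
    have k2 : 0 ≤ (1 - u) := by linarith
    have key : 4 * ((268 / 625) * (1 - u) * (2511 / 1000) + (9 / 4) * u ^ 2) * ((8249 / 5000) - (1657 / 2500) * (1 - 388 / 1000 * u - 178 / 1000 * u ^ 2 - 1 / 10 * u ^ 3) - 3 / 16 * (1 - u)) - (268 / 625) * (1 + (2 + (9 / 4)) * u) ^ 2 =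
        1 / 10000 +
        (781817146601 / 48828125000) * (1 - u) ^ 5 +
        (5225538455947 / 24414062500) * (u - (3 / 4)) * (1 - u) ^ 4 +
        (8812153717049 / 6103515625) * (u - (3 / 4)) ^ 2 * (1 - u) ^ 3 +
        (20499624488632 / 6103515625) * (u - (3 / 4)) ^ 3 * (1 - u) ^ 2 +
        (19373257373104 / 6103515625) * (u - (3 / 4)) ^ 4 * (1 - u) +
        (82953856 / 78125) * (u - (3 / 4)) ^ 5 := by ring
    rw [key]
    positivity

theorem P6_8 {u : ℝ} (h0 : 0 ≤ u) (h1 : u ≤ 1) :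
    0 < 4 * ((1061 / 2500) * (1 - u) * (623 / 250) + (23 / 10) * u ^ 2) * ((16419 / 10000) - (829 / 1250) * (1 - 388 / 1000 * u - 178 / 1000 * u ^ 2 - 1 / 10 * u ^ 3) - 3 / 16 * (1 - u)) - (1061 / 2500) * (1 + (2 + (23 / 10)) * u) ^ 2 := by
  rcases le_total u (1 / 2) with h | h
  · have k1 : 0 ≤ u := by linarith
    have k2 : 0 ≤ ((1 / 2) - u) := by linarith
    have key : 4 * ((1061 / 2500) * (1 - u) * (623 / 250) + (23 / 10) * u ^ 2) * ((16419 / 10000) - (829 / 1250) * (1 - 388 / 1000 * u - 178 / 1000 * u ^ 2 - 1 / 10 * u ^ 3) - 3 / 16 * (1 - u)) - (1061 / 2500) * (1 + (2 + (23 / 10)) * u) ^ 2 =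
        1 / 10000 +
        (4566574486 / 48828125) * ((1 / 2) - u) ^ 5 +
        (4709162280581 / 12207031250) * u * ((1 / 2) - u) ^ 4 +
        (14459469068003 / 24414062500) * u ^ 2 * ((1 / 2) - u) ^ 3 +
        (5039802892647 / 12207031250) * u ^ 3 * ((1 / 2) - u) ^ 2 +
        (1538498601401 / 12207031250) * u ^ 4 * ((1 / 2) - u) +
        (336719261099 / 24414062500) * u ^ 5 := by ring
    rw [key]
    positivity
  rcases le_total u (5 / 8) with h | h
  · have k1 : 0 ≤ (u - (1 / 2)) := by linarith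
    have k2 : 0 ≤ ((5 / 8) - u) := by linarith
    have key : 4 * ((1061 / 2500) * (1 - u) * (623 / 250) + (23 / 10) * u ^ 2) * ((16419 / 10000) - (829 / 1250) * (1 - 388 / 1000 * u - 178 / 1000 * u ^ 2 - 1 / 10 * u ^ 3) - 3 / 16 * (1 - u)) - (1061 / 2500) * (1 + (2 + (23 / 10)) * u) ^ 2 =
        1 / 10000 +
        (86200130841344 / 6103515625) * ((5 / 8) - u) ^ 5 +
        (341822996779072 / 6103515625) * (u - (1 / 2)) * ((5 / 8) - u) ^ 4 +
        (523511632064064 / 6103515625) * (u - (1 / 2)) ^ 2 * ((5 / 8) - u) ^ 3 +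
        (384336454659428 / 6103515625) * (u - (1 / 2)) ^ 3 * ((5 / 8) - u) ^ 2 +
        (134543157311557 / 6103515625) * (u - (1 / 2)) ^ 4 * ((5 / 8) - u) +
        (7239677120761 / 2441406250) * (u - (1 / 2)) ^ 5 := by ring
    rw [key]
    positivity
  rcases le_total u (3 / 4) with h | h
  · have k1 : 0 ≤ (u - (5 / 8)) := by linarith
    have k2 : 0 ≤ ((3 / 4) - u) := by linarith
    have key : 4 * ((1061 / 2500) * (1 - u) * (623 / 250) + (23 / 10) * u ^ 2) * ((16419 / 10000) - (829 / 1250) * (1 - 388 / 1000 * u - 178 / 1000 * u ^ 2 - 1 / 10 * u ^ 3) - 3 / 16 * (1 - u)) - (1061 / 2500) * (1 + (2 + (23 / 10)) * u) ^ 2 =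
        1 / 10000 +
        (7239677120761 / 2441406250) * ((3 / 4) - u) ^ 5 +
        (46448770707468 / 6103515625) * (u - (5 / 8)) * ((3 / 4) - u) ^ 4 +
        (31958908243072 / 6103515625) * (u - (5 / 8)) ^ 2 * ((3 / 4) - u) ^ 3 +
        (1406744567336 / 6103515625) * (u - (5 / 8)) ^ 3 * ((3 / 4) - u) ^ 2 +
        (2368314618328 / 6103515625) * (u - (5 / 8)) ^ 4 * ((3 / 4) - u) +
        (4574624411936 / 6103515625) * (u - (5 / 8)) ^ 5 := by ring
    rw [key]
    positivity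
  · have k1 : 0 ≤ (u - (3 / 4)) := by linarith
    have k2 : 0 ≤ (1 - u) := by linarith
    have key : 4 * ((1061 / 2500) * (1 - u) * (623 / 250) + (23 / 10) * u ^ 2) * ((16419 / 10000) - (829 / 1250) * (1 - 388 / 1000 * u - 178 / 1000 * u ^ 2 - 1 / 10 * u ^ 3) - 3 / 16 * (1 - u)) - (1061 / 2500) * (1 + (2 + (23 / 10)) * u) ^ 2 =
        1 / 10000 +
        (142957012873 / 6103515625) * (1 - u) ^ 5 +
        (3992671058899 / 12207031250) * (u - (3 / 4)) * (1 - u) ^ 4 +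
        (11265738265741 / 6103515625) * (u - (3 / 4)) ^ 2 * (1 - u) ^ 3 +
        (24198192216338 / 6103515625) * (u - (3 / 4)) ^ 3 * (1 - u) ^ 2 +
        (21945252443736 / 6103515625) * (u - (3 / 4)) ^ 4 * (1 - u) +
        (458441216 / 390625) * (u - (3 / 4)) ^ 5 := by ring
    rw [key]
    positivity

theorem P6_9 {u : ℝ} (h0 : 0 ≤ u) (h1 : u ≤ 1) :
    0 < 4 * ((4183 / 10000) * (1 - u) * (493 / 200) + (9 / 4) * u ^ 2) * ((3261 / 2000) - (3319 / 5000) * (1 - 388 / 1000 * u - 178 / 1000 * u ^ 2 - 1 / 10 * u ^ 3) - 3 / 16 * (1 - u)) - (4183 / 10000) * (1 + (2 + (9 / 4)) * u) ^ 2 := by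
  rcases le_total u (1 / 2) with h | h
  · have k1 : 0 ≤ u := by linarith
    have k2 : 0 ≤ ((1 / 2) - u) := by linarith
    have key : 4 * ((4183 / 10000) * (1 - u) * (493 / 200) + (9 / 4) * u ^ 2) * ((3261 / 2000) - (3319 / 5000) * (1 - 388 / 1000 * u - 178 / 1000 * u ^ 2 - 1 / 10 * u ^ 3) - 3 / 16 * (1 - u)) - (4183 / 10000) * (1 + (2 + (9 / 4)) * u) ^ 2 =
        1 / 10000 +
        (873550653 / 9765625) * ((1 / 2) - u) ^ 5 +
        (7193721276821 / 19531250000) * u * ((1 / 2) - u) ^ 4 +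
        (88067208524117 / 156250000000) * u ^ 2 * ((1 / 2) - u) ^ 3 +
        (122082143840307 / 312500000000) * u ^ 3 * ((1 / 2) - u) ^ 2 +
        (36884610900931 / 312500000000) * u ^ 4 * ((1 / 2) - u) +
        (1988829162861 / 156250000000) * u ^ 5 := by ring
    rw [key]
    positivity
  rcases le_total u (5 / 8) with h | h
  · have k1 : 0 ≤ (u - (1 / 2)) := by linarith
    have k2 : 0 ≤ ((5 / 8) - u) := by linarith
    have key : 4 * ((4183 / 10000) * (1 - u) * (493 / 200) + (9 / 4) * u ^ 2) * ((3261 / 2000) - (3319 / 5000) * (1 - 388 / 1000 * u - 178 / 1000 * u ^ 2 - 1 / 10 * u ^ 3) - 3 / 16 * (1 - u)) - (4183 / 10000) * (1 + (2 + (9 / 4)) * u) ^ 2 =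
        1 / 10000 +
        (15910633302888 / 1220703125) * ((5 / 8) - u) ^ 5 +
        (62556847242119 / 1220703125) * (u - (1 / 2)) * ((5 / 8) - u) ^ 4 +
        (378804507252187 / 4882812500) * (u - (1 / 2)) ^ 2 * ((5 / 8) - u) ^ 3 +
        (1094479012569221 / 19531250000) * (u - (1 / 2)) ^ 3 * ((5 / 8) - u) ^ 2 +
        (1497792975385571 / 78125000000) * (u - (1 / 2)) ^ 4 * ((5 / 8) - u) +
        (39087604494079 / 15625000000) * (u - (1 / 2)) ^ 5 := by ring
    rw [key]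
    positivity
  rcases le_total u (11 / 16) with h | h
  · have k1 : 0 ≤ (u - (5 / 8)) := by linarith
    have k2 : 0 ≤ ((11 / 16) - u) := by linarith
    have key : 4 * ((4183 / 10000) * (1 - u) * (493 / 200) + (9 / 4) * u ^ 2) * ((3261 / 2000) - (3319 / 5000) * (1 - 388 / 1000 * u - 178 / 1000 * u ^ 2 - 1 / 10 * u ^ 3) - 3 / 16 * (1 - u)) - (4183 / 10000) * (1 + (2 + (9 / 4)) * u) ^ 2 =
        1 / 10000 +
        (39087604494079 / 488281250) * ((11 / 16) - u) ^ 5 +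
        (716888680835177 / 2441406250) * (u - (5 / 8)) * ((11 / 16) - u) ^ 4 +
        (1996911183992791 / 4882812500) * (u - (5 / 8)) ^ 2 * ((11 / 16) - u) ^ 3 +
        (261390886632139 / 976562500) * (u - (5 / 8)) ^ 3 * ((11 / 16) - u) ^ 2 +
        (3232896643629839 / 39062500000) * (u - (5 / 8)) ^ 4 * ((11 / 16) - u) +
        (81872690633769 / 7812500000) * (u - (5 / 8)) ^ 5 := by ring
    rw [key]
    positivity
  rcases le_total u (3 / 4) with h | h
  · have k1 : 0 ≤ (u - (11 / 16)) := by linarith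
    have k2 : 0 ≤ ((3 / 4) - u) := by linarith
    have key : 4 * ((4183 / 10000) * (1 - u) * (493 / 200) + (9 / 4) * u ^ 2) * ((3261 / 2000) - (3319 / 5000) * (1 - 388 / 1000 * u - 178 / 1000 * u ^ 2 - 1 / 10 * u ^ 3) - 3 / 16 * (1 - u)) - (4183 / 10000) * (1 + (2 + (9 / 4)) * u) ^ 2 =
        1 / 10000 +
        (81872690633769 / 7812500000) * ((3 / 4) - u) ^ 5 +
        (860737888058611 / 39062500000) * (u - (11 / 16)) * ((3 / 4) - u) ^ 4 +
        (120875055375081 / 4882812500) * (u - (11 / 16)) ^ 2 * ((3 / 4) - u) ^ 3 +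
        (59940003942578 / 1220703125) * (u - (11 / 16)) ^ 3 * ((3 / 4) - u) ^ 2 +
        (72908445199156 / 1220703125) * (u - (11 / 16)) ^ 4 * ((3 / 4) - u) +
        (29082483282504 / 1220703125) * (u - (11 / 16)) ^ 5 := by ring
    rw [key]
    positivity
  · have k1 : 0 ≤ (u - (3 / 4)) := by linarith
    have k2 : 0 ≤ (1 - u) := by linarith
    have key : 4 * ((4183 / 10000) * (1 - u) * (493 / 200) + (9 / 4) * u ^ 2) * ((3261 / 2000) - (3319 / 5000) * (1 - 388 / 1000 * u - 178 / 1000 * u ^ 2 - 1 / 10 * u ^ 3) - 3 / 16 * (1 - u)) - (4183 / 10000) * (1 + (2 + (9 / 4)) * u) ^ 2 =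
        1 / 10000 +
        (3635310410313 / 156250000000) * (1 - u) ^ 5 +
        (54428537658247 / 156250000000) * (u - (3 / 4)) * (1 - u) ^ 4 +
        (149811579235923 / 78125000000) * (u - (3 / 4)) ^ 2 * (1 - u) ^ 3 +
        (9882103601277 / 2441406250) * (u - (3 / 4)) ^ 3 * (1 - u) ^ 2 +
        (17733472011963 / 4882812500) * (u - (3 / 4)) ^ 4 * (1 - u) +
        (91969876 / 78125) * (u - (3 / 4)) ^ 5 := by ring
    rw [key]
    positivity

theorem P6_10 {u : ℝ} (h0 : 0 ≤ u) (h1 : u ≤ 1) :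
    0 < 4 * ((819 / 2000) * (1 - u) * (2427 / 1000) + (11 / 5) * u ^ 2) * ((3231 / 2000) - (1329 / 2000) * (1 - 388 / 1000 * u - 178 / 1000 * u ^ 2 - 1 / 10 * u ^ 3) - 3 / 16 * (1 - u)) - (819 / 2000) * (1 + (2 + (11 / 5)) * u) ^ 2 := by
  rcases le_total u (1 / 2) with h | h
  · have k1 : 0 ≤ u := by linarith
    have k2 : 0 ≤ ((1 / 2) - u) := by linarith
    have key : 4 * ((819 / 2000) * (1 - u) * (2427 / 1000) + (11 / 5) * u ^ 2) * ((3231 / 2000) - (1329 / 2000) * (1 - 388 / 1000 * u - 178 / 1000 * u ^ 2 - 1 / 10 * u ^ 3) - 3 / 16 * (1 - u)) - (819 / 2000) * (1 + (2 + (11 / 5)) * u) ^ 2 =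
        1 / 10000 +
        (2625637751 / 31250000) * ((1 / 2) - u) ^ 5 +
        (5387925079469 / 15625000000) * u * ((1 / 2) - u) ^ 4 +
        (32791584653419 / 62500000000) * u ^ 2 * ((1 / 2) - u) ^ 3 +
        (45011023393499 / 125000000000) * u ^ 3 * ((1 / 2) - u) ^ 2 +
        (13367562825067 / 125000000000) * u ^ 4 * ((1 / 2) - u) +
        (705977053327 / 62500000000) * u ^ 5 := by ring
    rw [key]
    positivity
  rcases le_total u (5 / 8) with h | h
  · have k1 : 0 ≤ (u - (1 / 2)) := by linarith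
    have k2 : 0 ≤ ((5 / 8) - u) := by linarith
    have key : 4 * ((819 / 2000) * (1 - u) * (2427 / 1000) + (11 / 5) * u ^ 2) * ((3231 / 2000) - (1329 / 2000) * (1 - 388 / 1000 * u - 178 / 1000 * u ^ 2 - 1 / 10 * u ^ 3) - 3 / 16 * (1 - u)) - (819 / 2000) * (1 + (2 + (11 / 5)) * u) ^ 2 =
        1 / 10000 +
        (2823908213308 / 244140625) * ((5 / 8) - u) ^ 5 +
        (21931289841283 / 488281250) * (u - (1 / 2)) * ((5 / 8) - u) ^ 4 +
        (130648293555659 / 1953125000) * (u - (1 / 2)) ^ 2 * ((5 / 8) - u) ^ 3 +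
        (369390391153097 / 7812500000) * (u - (1 / 2)) ^ 3 * ((5 / 8) - u) ^ 2 +
        (491673632840047 / 31250000000) * (u - (1 / 2)) ^ 4 * ((5 / 8) - u) +
        (12472148065903 / 6250000000) * (u - (1 / 2)) ^ 5 := by ring
    rw [key]
    positivity
  rcases le_total u (11 / 16) with h | h
  · have k1 : 0 ≤ (u - (5 / 8)) := by linarith
    have k2 : 0 ≤ ((11 / 16) - u) := by linarith
    have key : 4 * ((819 / 2000) * (1 - u) * (2427 / 1000) + (11 / 5) * u ^ 2) * ((3231 / 2000) - (1329 / 2000) * (1 - 388 / 1000 * u - 178 / 1000 * u ^ 2 - 1 / 10 * u ^ 3) - 3 / 16 * (1 - u)) - (819 / 2000) * (1 + (2 + (11 / 5)) * u) ^ 2 =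
        1 / 10000 +
        (12472148065903 / 195312500) * ((11 / 16) - u) ^ 5 +
        (221868736051339 / 976562500) * (u - (5 / 8)) * ((11 / 16) - u) ^ 4 +
        (594972300094087 / 1953125000) * (u - (5 / 8)) ^ 2 * ((11 / 16) - u) ^ 3 +
        (74735255011373 / 390625000) * (u - (5 / 8)) ^ 3 * ((11 / 16) - u) ^ 2 +
        (910876099761823 / 15625000000) * (u - (5 / 8)) ^ 4 * ((11 / 16) - u) +
        (25825101077083 / 3125000000) * (u - (5 / 8)) ^ 5 := by ring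
    rw [key]
    positivity
  rcases le_total u (3 / 4) with h | h
  · have k1 : 0 ≤ (u - (11 / 16)) := by linarith
    have k2 : 0 ≤ ((3 / 4) - u) := by linarith
    have key : 4 * ((819 / 2000) * (1 - u) * (2427 / 1000) + (11 / 5) * u ^ 2) * ((3231 / 2000) - (1329 / 2000) * (1 - 388 / 1000 * u - 178 / 1000 * u ^ 2 - 1 / 10 * u ^ 3) - 3 / 16 * (1 - u)) - (819 / 2000) * (1 + (2 + (11 / 5)) * u) ^ 2 =
        1 / 10000 +
        (25825101077083 / 3125000000) * ((3 / 4) - u) ^ 5 +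
        (380378954092327 / 15625000000) * (u - (11 / 16)) * ((3 / 4) - u) ^ 4 +
        (108427702222117 / 1953125000) * (u - (11 / 16)) ^ 2 * ((3 / 4) - u) ^ 3 +
        (25714013101973 / 244140625) * (u - (11 / 16)) ^ 3 * ((3 / 4) - u) ^ 2 +
        (24464278401946 / 244140625) * (u - (11 / 16)) ^ 4 * ((3 / 4) - u) +
        (8378035705364 / 244140625) * (u - (11 / 16)) ^ 5 := by ring
    rw [key]
    positivity
  · have k1 : 0 ≤ (u - (3 / 4)) := by linarith
    have k2 : 0 ≤ (1 - u) := by linarith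
    have key : 4 * ((819 / 2000) * (1 - u) * (2427 / 1000) + (11 / 5) * u ^ 2) * ((3231 / 2000) - (1329 / 2000) * (1 - 388 / 1000 * u - 178 / 1000 * u ^ 2 - 1 / 10 * u ^ 3) - 3 / 16 * (1 - u)) - (819 / 2000) * (1 + (2 + (11 / 5)) * u) ^ 2 =
        1 / 10000 +
        (2094508926341 / 62500000000) * (1 - u) ^ 5 +
        (27898444756579 / 62500000000) * (u - (3 / 4)) * (1 - u) ^ 4 +
        (68598857977111 / 31250000000) * (u - (3 / 4)) ^ 2 * (1 - u) ^ 3 +
        (17154986206781 / 3906250000) * (u - (3 / 4)) ^ 3 * (1 - u) ^ 2 +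
        (7475938565141 / 1953125000) * (u - (3 / 4)) ^ 4 * (1 - u) +
        (95225728 / 78125) * (u - (3 / 4)) ^ 5 := by ring
    rw [key]
    positivity

theorem P6_11 {u : ℝ} (h0 : 0 ≤ u) (h1 : u ≤ 1) :
    0 < 4 * ((1991 / 5000) * (1 - u) * (1189 / 500) + (43 / 20) * u ^ 2) * ((15967 / 10000) - (1331 / 2000) * (1 - 388 / 1000 * u - 178 / 1000 * u ^ 2 - 1 / 10 * u ^ 3) - 3 / 16 * (1 - u)) - (1991 / 5000) * (1 + (2 + (43 / 20)) * u) ^ 2 := by
  rcases le_total u (1 / 2) with h | h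
  · have k1 : 0 ≤ u := by linarith
    have k2 : 0 ≤ ((1 / 2) - u) := by linarith
    have key : 4 * ((1991 / 5000) * (1 - u) * (1189 / 500) + (43 / 20) * u ^ 2) * ((15967 / 10000) - (1331 / 2000) * (1 - 388 / 1000 * u - 178 / 1000 * u ^ 2 - 1 / 10 * u ^ 3) - 3 / 16 * (1 - u)) - (1991 / 5000) * (1 + (2 + (43 / 20)) * u) ^ 2 =
        1 / 10000 +
        (15116227663 / 195312500) * ((1 / 2) - u) ^ 5 +
        (6172571601593 / 19531250000) * u * ((1 / 2) - u) ^ 4 +
        (37232662351743 / 78125000000) * u ^ 2 * ((1 / 2) - u) ^ 3 +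
        (50315187164203 / 156250000000) * u ^ 3 * ((1 / 2) - u) ^ 2 +
        (14531367505199 / 156250000000) * u ^ 4 * ((1 / 2) - u) +
        (741670462319 / 78125000000) * u ^ 5 := by ring
    rw [key]
    positivity
  rcases le_total u (5 / 8) with h | h
  · have k1 : 0 ≤ (u - (1 / 2)) := by linarith
    have k2 : 0 ≤ ((5 / 8) - u) := by linarith
    have key : 4 * ((1991 / 5000) * (1 - u) * (1189 / 500) + (43 / 20) * u ^ 2) * ((15967 / 10000) - (1331 / 2000) * (1 - 388 / 1000 * u - 178 / 1000 * u ^ 2 - 1 / 10 * u ^ 3) - 3 / 16 * (1 - u)) - (1991 / 5000) * (1 + (2 + (43 / 20)) * u) ^ 2 =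
        1 / 10000 +
        (11866727397104 / 1220703125) * ((5 / 8) - u) ^ 5 +
        (45104311221502 / 1220703125) * (u - (1 / 2)) * ((5 / 8) - u) ^ 4 +
        (130523068219723 / 2441406250) * (u - (1 / 2)) ^ 2 * ((5 / 8) - u) ^ 3 +
        (354733512777209 / 9765625000) * (u - (1 / 2)) ^ 3 * ((5 / 8) - u) ^ 2 +
        (448122999987359 / 39062500000) * (u - (1 / 2)) ^ 4 * ((5 / 8) - u) +
        (2698885732699 / 1953125000) * (u - (1 / 2)) ^ 5 := by ring
    rw [key]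
    positivity
  rcases le_total u (11 / 16) with h | h
  · have k1 : 0 ≤ (u - (5 / 8)) := by linarith
    have k2 : 0 ≤ ((11 / 16) - u) := by linarith
    have key : 4 * ((1991 / 5000) * (1 - u) * (1189 / 500) + (43 / 20) * u ^ 2) * ((15967 / 10000) - (1331 / 2000) * (1 - 388 / 1000 * u - 178 / 1000 * u ^ 2 - 1 / 10 * u ^ 3) - 3 / 16 * (1 - u)) - (1991 / 5000) * (1 + (2 + (43 / 20)) * u) ^ 2 =
        1 / 10000 +
        (10795542930796 / 244140625) * ((11 / 16) - u) ^ 5 +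
        (361542719822341 / 2441406250) * (u - (5 / 8)) * ((11 / 16) - u) ^ 4 +
        (224863092529682 / 1220703125) * (u - (5 / 8)) ^ 2 * ((11 / 16) - u) ^ 3 +
        (105737832572117 / 976562500) * (u - (5 / 8)) ^ 3 * ((11 / 16) - u) ^ 2 +
        (172008306540089 / 4882812500) * (u - (5 / 8)) ^ 4 * ((11 / 16) - u) +
        (56959563759277 / 7812500000) * (u - (5 / 8)) ^ 5 := by ring
    rw [key]
    positivity
  rcases le_total u (3 / 4) with h | h
  · have k1 : 0 ≤ (u - (11 / 16)) := by linarith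
    have k2 : 0 ≤ ((3 / 4) - u) := by linarith
    have key : 4 * ((1991 / 5000) * (1 - u) * (1189 / 500) + (43 / 20) * u ^ 2) * ((15967 / 10000) - (1331 / 2000) * (1 - 388 / 1000 * u - 178 / 1000 * u ^ 2 - 1 / 10 * u ^ 3) - 3 / 16 * (1 - u)) - (1991 / 5000) * (1 + (2 + (43 / 20)) * u) ^ 2 =
        1 / 10000 +
        (56959563759277 / 7812500000) * ((3 / 4) - u) ^ 5 +
        (735955867821569 / 19531250000) * (u - (11 / 16)) * ((3 / 4) - u) ^ 4 +
        (288305902260899 / 2441406250) * (u - (11 / 16)) ^ 2 * ((3 / 4) - u) ^ 3 +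
        (248115359511624 / 1220703125) * (u - (11 / 16)) ^ 3 * ((3 / 4) - u) ^ 2 +
        (203314573044448 / 1220703125) * (u - (11 / 16)) ^ 4 * ((3 / 4) - u) +
        (62255553406832 / 1220703125) * (u - (11 / 16)) ^ 5 := by ring
    rw [key]
    positivity
  · have k1 : 0 ≤ (u - (3 / 4)) := by linarith
    have k2 : 0 ≤ (1 - u) := by linarith
    have key : 4 * ((1991 / 5000) * (1 - u) * (1189 / 500) + (43 / 20) * u ^ 2) * ((15967 / 10000) - (1331 / 2000) * (1 - 388 / 1000 * u - 178 / 1000 * u ^ 2 - 1 / 10 * u ^ 3) - 3 / 16 * (1 - u)) - (1991 / 5000) * (1 + (2 + (43 / 20)) * u) ^ 2 =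
        1 / 10000 +
        (3890972087927 / 78125000000) * (1 - u) ^ 5 +
        (46445658937063 / 78125000000) * (u - (3 / 4)) * (1 - u) ^ 4 +
        (102142758135567 / 39062500000) * (u - (3 / 4)) ^ 2 * (1 - u) ^ 3 +
        (24033575555907 / 4882812500) * (u - (3 / 4)) ^ 3 * (1 - u) ^ 2 +
        (10107997818477 / 2441406250) * (u - (3 / 4)) ^ 4 * (1 - u) +
        (100694264 / 78125) * (u - (3 / 4)) ^ 5 := by ring
    rw [key]
    positivity

theorem P6_12 {u : ℝ} (h0 : 0 ≤ u) (h1 : u ≤ 1) :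
    0 < 4 * ((1921 / 5000) * (1 - u) * (2313 / 1000) + (43 / 20) * u ^ 2) * ((15741 / 10000) - (3333 / 5000) * (1 - 388 / 1000 * u - 178 / 1000 * u ^ 2 - 1 / 10 * u ^ 3) - 3 / 16 * (1 - u)) - (1921 / 5000) * (1 + (2 + (43 / 20)) * u) ^ 2 := by
  rcases le_total u (1 / 2) with h | h
  · have k1 : 0 ≤ u := by linarith
    have k2 : 0 ≤ ((1 / 2) - u) := by linarith
    have key : 4 * ((1921 / 5000) * (1 - u) * (2313 / 1000) + (43 / 20) * u ^ 2) * ((15741 / 10000) - (3333 / 5000) * (1 - 388 / 1000 * u - 178 / 1000 * u ^ 2 - 1 / 10 * u ^ 3) - 3 / 16 * (1 - u)) - (1921 / 5000) * (1 + (2 + (43 / 20)) * u) ^ 2 =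
        1 / 10000 +
        (135939078 / 1953125) * ((1 / 2) - u) ^ 5 +
        (6870284190887 / 24414062500) * u * ((1 / 2) - u) ^ 4 +
        (162854493900073 / 390625000000) * u ^ 2 * ((1 / 2) - u) ^ 3 +
        (213201177022683 / 781250000000) * u ^ 3 * ((1 / 2) - u) ^ 2 +
        (58017799230739 / 781250000000) * u ^ 4 * ((1 / 2) - u) +
        (2750009487409 / 390625000000) * u ^ 5 := by ring
    rw [key]
    positivity
  rcases le_total u (5 / 8) with h | h
  · have k1 : 0 ≤ (u - (1 / 2)) := by linarith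
    have k2 : 0 ≤ ((5 / 8) - u) := by linarith
    have key : 4 * ((1921 / 5000) * (1 - u) * (2313 / 1000) + (43 / 20) * u ^ 2) * ((15741 / 10000) - (3333 / 5000) * (1 - 388 / 1000 * u - 178 / 1000 * u ^ 2 - 1 / 10 * u ^ 3) - 3 / 16 * (1 - u)) - (1921 / 5000) * (1 + (2 + (43 / 20)) * u) ^ 2 =
        1 / 10000 +
        (44000151798544 / 6103515625) * ((5 / 8) - u) ^ 5 +
        (158965350279422 / 6103515625) * (u - (1 / 2)) * ((5 / 8) - u) ^ 4 +
        (427849936112403 / 12207031250) * (u - (1 / 2)) ^ 2 * ((5 / 8) - u) ^ 3 +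
        (1044662501451749 / 48828125000) * (u - (1 / 2)) ^ 3 * ((5 / 8) - u) ^ 2 +
        (1131507173744899 / 195312500000) * (u - (1 / 2)) ^ 4 * ((5 / 8) - u) +
        (23936352463401 / 39062500000) * (u - (1 / 2)) ^ 5 := by ring
    rw [key]
    positivity
  rcases le_total u (11 / 16) with h | h
  · have k1 : 0 ≤ (u - (5 / 8)) := by linarith
    have k2 : 0 ≤ ((11 / 16) - u) := by linarith
    have key : 4 * ((1921 / 5000) * (1 - u) * (2313 / 1000) + (43 / 20) * u ^ 2) * ((15741 / 10000) - (3333 / 5000) * (1 - 388 / 1000 * u - 178 / 1000 * u ^ 2 - 1 / 10 * u ^ 3) - 3 / 16 * (1 - u)) - (1921 / 5000) * (1 + (2 + (43 / 20)) * u) ^ 2 =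
        1 / 10000 +
        (23936352463401 / 1220703125) * ((11 / 16) - u) ^ 5 +
        (331859630505088 / 6103515625) * (u - (5 / 8)) * ((11 / 16) - u) ^ 4 +
        (685961264699329 / 12207031250) * (u - (5 / 8)) ^ 2 * ((11 / 16) - u) ^ 3 +
        (49373487945783 / 1220703125) * (u - (5 / 8)) ^ 3 * ((11 / 16) - u) ^ 2 +
        (3105186472877641 / 97656250000) * (u - (5 / 8)) ^ 4 * ((11 / 16) - u) +
        (31205191194617 / 2441406250) * (u - (5 / 8)) ^ 5 := by ring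
    rw [key]
    positivity
  rcases le_total u (3 / 4) with h | h
  · have k1 : 0 ≤ (u - (11 / 16)) := by linarith
    have k2 : 0 ≤ ((3 / 4) - u) := by linarith
    have key : 4 * ((1921 / 5000) * (1 - u) * (2313 / 1000) + (43 / 20) * u ^ 2) * ((15741 / 10000) - (3333 / 5000) * (1 - 388 / 1000 * u - 178 / 1000 * u ^ 2 - 1 / 10 * u ^ 3) - 3 / 16 * (1 - u)) - (1921 / 5000) * (1 + (2 + (43 / 20)) * u) ^ 2 =
        1 / 10000 +
        (31205191194617 / 2441406250) * ((3 / 4) - u) ^ 5 +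
        (9376890004969159 / 97656250000) * (u - (11 / 16)) * ((3 / 4) - u) ^ 4 +
        (3629586645503589 / 12207031250) * (u - (11 / 16)) ^ 2 * ((3 / 4) - u) ^ 3 +
        (2721482535630764 / 6103515625) * (u - (11 / 16)) ^ 3 * ((3 / 4) - u) ^ 2 +
        (1953011671021528 / 6103515625) * (u - (11 / 16)) ^ 4 * ((3 / 4) - u) +
        (538283309817552 / 6103515625) * (u - (11 / 16)) ^ 5 := by ring
    rw [key]
    positivity
  · have k1 : 0 ≤ (u - (3 / 4)) := by linarith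
    have k2 : 0 ≤ (1 - u) := by linarith
    have key : 4 * ((1921 / 5000) * (1 - u) * (2313 / 1000) + (43 / 20) * u ^ 2) * ((15741 / 10000) - (3333 / 5000) * (1 - 388 / 1000 * u - 178 / 1000 * u ^ 2 - 1 / 10 * u ^ 3) - 3 / 16 * (1 - u)) - (1921 / 5000) * (1 + (2 + (43 / 20)) * u) ^ 2 =
        1 / 10000 +
        (33642706863597 / 390625000000) * (1 - u) ^ 5 +
        (352814753834543 / 390625000000) * (u - (3 / 4)) * (1 - u) ^ 4 +
        (683550448211187 / 195312500000) * (u - (3 / 4)) ^ 2 * (1 - u) ^ 3 +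
        (74328458113851 / 12207031250) * (u - (3 / 4)) ^ 3 * (1 - u) ^ 2 +
        (59479604320447 / 12207031250) * (u - (3 / 4)) ^ 4 * (1 - u) +
        (572989464 / 390625) * (u - (3 / 4)) ^ 5 := by ring
    rw [key]
    positivity

theorem P6_13 {u : ℝ} (h0 : 0 ≤ u) (h1 : u ≤ 1) :
    0 < 4 * ((147 / 400) * (1 - u) * (1119 / 500) + (21 / 10) * u ^ 2) * ((31 / 20) - (3339 / 5000) * (1 - 388 / 1000 * u - 178 / 1000 * u ^ 2 - 1 / 10 * u ^ 3) - 3 / 16 * (1 - u)) - (147 / 400) * (1 + (2 + (21 / 10)) * u) ^ 2 := by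
  rcases le_total u (1 / 2) with h | h
  · have k1 : 0 ≤ u := by linarith
    have k2 : 0 ≤ ((1 / 2) - u) := by linarith
    have key : 4 * ((147 / 400) * (1 - u) * (1119 / 500) + (21 / 10) * u ^ 2) * ((31 / 20) - (3339 / 5000) * (1 - 388 / 1000 * u - 178 / 1000 * u ^ 2 - 1 / 10 * u ^ 3) - 3 / 16 * (1 - u)) - (147 / 400) * (1 + (2 + (21 / 10)) * u) ^ 2 =
        1 / 10000 +
        (958932871 / 15625000) * ((1 / 2) - u) ^ 5 +
        (959310263069 / 3906250000) * u * ((1 / 2) - u) ^ 4 +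
        (5582084607019 / 15625000000) * u ^ 2 * ((1 / 2) - u) ^ 3 +
        (7071788711849 / 31250000000) * u ^ 3 * ((1 / 2) - u) ^ 2 +
        (1808344346617 / 31250000000) * u ^ 4 * ((1 / 2) - u) +
        (80819118127 / 15625000000) * u ^ 5 := by ring
    rw [key]
    positivity
  rcases le_total u (5 / 8) with h | h
  · have k1 : 0 ≤ (u - (1 / 2)) := by linarith
    have k2 : 0 ≤ ((5 / 8) - u) := by linarith
    have key : 4 * ((147 / 400) * (1 - u) * (1119 / 500) + (21 / 10) * u ^ 2) * ((31 / 20) - (3339 / 5000) * (1 - 388 / 1000 * u - 178 / 1000 * u ^ 2 - 1 / 10 * u ^ 3) - 3 / 16 * (1 - u)) - (147 / 400) * (1 + (2 + (21 / 10)) * u) ^ 2 =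
        1 / 10000 +
        (1293105890032 / 244140625) * ((5 / 8) - u) ^ 5 +
        (4465223119466 / 244140625) * (u - (1 / 2)) * ((5 / 8) - u) ^ 4 +
        (11314460843009 / 488281250) * (u - (1 / 2)) ^ 2 * ((5 / 8) - u) ^ 3 +
        (25708804788647 / 1953125000) * (u - (1 / 2)) ^ 3 * ((5 / 8) - u) ^ 2 +
        (27364258338097 / 7812500000) * (u - (1 / 2)) ^ 4 * ((5 / 8) - u) +
        (811408753453 / 1562500000) * (u - (1 / 2)) ^ 5 := by ring
    rw [key]
    positivity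
  rcases le_total u (3 / 4) with h | h
  · have k1 : 0 ≤ (u - (5 / 8)) := by linarith
    have k2 : 0 ≤ ((3 / 4) - u) := by linarith
    have key : 4 * ((147 / 400) * (1 - u) * (1119 / 500) + (21 / 10) * u ^ 2) * ((31 / 20) - (3339 / 5000) * (1 - 388 / 1000 * u - 178 / 1000 * u ^ 2 - 1 / 10 * u ^ 3) - 3 / 16 * (1 - u)) - (147 / 400) * (1 + (2 + (21 / 10)) * u) ^ 2 =
        1 / 10000 +
        (811408753453 / 1562500000) * ((3 / 4) - u) ^ 5 +
        (13206179334553 / 7812500000) * (u - (5 / 8)) * ((3 / 4) - u) ^ 4 +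
        (11550725785103 / 1953125000) * (u - (5 / 8)) ^ 2 * ((3 / 4) - u) ^ 3 +
        (6487577669141 / 488281250) * (u - (5 / 8)) ^ 3 * ((3 / 4) - u) ^ 2 +
        (3177859696484 / 244140625) * (u - (5 / 8)) ^ 4 * ((3 / 4) - u) +
        (2184276099491 / 488281250) * (u - (5 / 8)) ^ 5 := by ring
    rw [key]
    positivity
  · have k1 : 0 ≤ (u - (3 / 4)) := by linarith
    have k2 : 0 ≤ (1 - u) := by linarith
    have key : 4 * ((147 / 400) * (1 - u) * (1119 / 500) + (21 / 10) * u ^ 2) * ((31 / 20) - (3339 / 5000) * (1 - 388 / 1000 * u - 178 / 1000 * u ^ 2 - 1 / 10 * u ^ 3) - 3 / 16 * (1 - u)) - (147 / 400) * (1 + (2 + (21 / 10)) * u) ^ 2 =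
        1 / 10000 +
        (2184276099491 / 15625000000) * (1 - u) ^ 5 +
        (20052702706429 / 15625000000) * (u - (3 / 4)) * (1 - u) ^ 4 +
        (34998947099761 / 7812500000) * (u - (3 / 4)) ^ 2 * (1 - u) ^ 3 +
        (3555881154403 / 488281250) * (u - (3 / 4)) ^ 3 * (1 - u) ^ 2 +
        (2720384049791 / 488281250) * (u - (3 / 4)) ^ 4 * (1 - u) +
        (635058128 / 390625) * (u - (3 / 4)) ^ 5 := by ring
    rw [key]
    positivity

theorem P6_14 {u : ℝ} (h0 : 0 ≤ u) (h1 : u ≤ 1) :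
    0 < 4 * ((7 / 20) * (1 - u) * (2761 / 1000) + (21 / 10) * u ^ 2) * ((7299 / 5000) - (1681 / 2500) * (1 - 388 / 1000 * u - 178 / 1000 * u ^ 2 - 1 / 10 * u ^ 3) - 3 / 16 * (1 - u)) - (7 / 20) * (1 + (2 + (21 / 10)) * u) ^ 2 := by
  rcases le_total u (1 / 2) with h | h
  · have k1 : 0 ≤ u := by linarith
    have k2 : 0 ≤ ((1 / 2) - u) := by linarith
    have key : 4 * ((7 / 20) * (1 - u) * (2761 / 1000) + (21 / 10) * u ^ 2) * ((7299 / 5000) - (1681 / 2500) * (1 - 388 / 1000 * u - 178 / 1000 * u ^ 2 - 1 / 10 * u ^ 3) - 3 / 16 * (1 - u)) - (7 / 20) * (1 + (2 + (21 / 10)) * u) ^ 2 =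
        1 / 10000 +
        (98437673 / 1562500) * ((1 / 2) - u) ^ 5 +
        (25362332007 / 97656250) * u * ((1 / 2) - u) ^ 4 +
        (19136753529 / 48828125) * u ^ 2 * ((1 / 2) - u) ^ 3 +
        (408994675319 / 1562500000) * u ^ 3 * ((1 / 2) - u) ^ 2 +
        (114191467127 / 1562500000) * u ^ 4 * ((1 / 2) - u) +
        (346743457 / 48828125) * u ^ 5 := by ring
    rw [key]
    positivity
  rcases le_total u (5 / 8) with h | h
  · have k1 : 0 ≤ (u - (1 / 2)) := by linarith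
    have k2 : 0 ≤ ((5 / 8) - u) := by linarith
    have key : 4 * ((7 / 20) * (1 - u) * (2761 / 1000) + (21 / 10) * u ^ 2) * ((7299 / 5000) - (1681 / 2500) * (1 - 388 / 1000 * u - 178 / 1000 * u ^ 2 - 1 / 10 * u ^ 3) - 3 / 16 * (1 - u)) - (7 / 20) * (1 + (2 + (21 / 10)) * u) ^ 2 =
        1 / 10000 +
        (355065299968 / 48828125) * ((5 / 8) - u) ^ 5 +
        (1305626387784 / 48828125) * (u - (1 / 2)) * ((5 / 8) - u) ^ 4 +
        (1798225977558 / 48828125) * (u - (1 / 2)) ^ 2 * ((5 / 8) - u) ^ 3 +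
        (2263562227807 / 97656250) * (u - (1 / 2)) ^ 3 * ((5 / 8) - u) ^ 2 +
        (2535248968257 / 390625000) * (u - (1 / 2)) ^ 4 * ((5 / 8) - u) +
        (52507961243 / 78125000) * (u - (1 / 2)) ^ 5 := by ring
    rw [key]
    positivity
  rcases le_total u (11 / 16) with h | h
  · have k1 : 0 ≤ (u - (5 / 8)) := by linarith
    have k2 : 0 ≤ ((11 / 16) - u) := by linarith
    have key : 4 * ((7 / 20) * (1 - u) * (2761 / 1000) + (21 / 10) * u ^ 2) * ((7299 / 5000) - (1681 / 2500) * (1 - 388 / 1000 * u - 178 / 1000 * u ^ 2 - 1 / 10 * u ^ 3) - 3 / 16 * (1 - u)) - (7 / 20) * (1 + (2 + (21 / 10)) * u) ^ 2 =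
        1 / 10000 +
        (210031844972 / 9765625) * ((11 / 16) - u) ^ 5 +
        (2805696249936 / 48828125) * (u - (5 / 8)) * ((11 / 16) - u) ^ 4 +
        (2259843851494 / 48828125) * (u - (5 / 8)) ^ 2 * ((11 / 16) - u) ^ 3 +
        (108473577276 / 9765625) * (u - (5 / 8)) ^ 3 * ((11 / 16) - u) ^ 2 +
        (1116617727963 / 195312500) * (u - (5 / 8)) ^ 4 * ((11 / 16) - u) +
        (48224190187 / 9765625) * (u - (5 / 8)) ^ 5 := by ring
    rw [key]
    positivity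
  rcases le_total u (3 / 4) with h | h
  · have k1 : 0 ≤ (u - (11 / 16)) := by linarith
    have k2 : 0 ≤ ((3 / 4) - u) := by linarith
    have key : 4 * ((7 / 20) * (1 - u) * (2761 / 1000) + (21 / 10) * u ^ 2) * ((7299 / 5000) - (1681 / 2500) * (1 - 388 / 1000 * u - 178 / 1000 * u ^ 2 - 1 / 10 * u ^ 3) - 3 / 16 * (1 - u)) - (7 / 20) * (1 + (2 + (21 / 10)) * u) ^ 2 =
        1 / 10000 +
        (48224190187 / 9765625) * ((3 / 4) - u) ^ 5 +
        (8528220309437 / 195312500) * (u - (11 / 16)) * ((3 / 4) - u) ^ 4 +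
        (7953970467854 / 48828125) * (u - (11 / 16)) ^ 2 * ((3 / 4) - u) ^ 3 +
        (13584333173808 / 48828125) * (u - (11 / 16)) ^ 3 * ((3 / 4) - u) ^ 2 +
        (10631469731616 / 48828125) * (u - (11 / 16)) ^ 4 * ((3 / 4) - u) +
        (3110200478144 / 48828125) * (u - (11 / 16)) ^ 5 := by ring
    rw [key]
    positivity
  · have k1 : 0 ≤ (u - (3 / 4)) := by linarith
    have k2 : 0 ≤ (1 - u) := by linarith
    have key : 4 * ((7 / 20) * (1 - u) * (2761 / 1000) + (21 / 10) * u ^ 2) * ((7299 / 5000) - (1681 / 2500) * (1 - 388 / 1000 * u - 178 / 1000 * u ^ 2 - 1 / 10 * u ^ 3) - 3 / 16 * (1 - u)) - (7 / 20) * (1 + (2 + (21 / 10)) * u) ^ 2 =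
        1 / 10000 +
        (48596882471 / 781250000) * (1 - u) ^ 5 +
        (550455203549 / 781250000) * (u - (3 / 4)) * (1 - u) ^ 4 +
        (1127983373341 / 390625000) * (u - (3 / 4)) ^ 2 * (1 - u) ^ 3 +
        (507919161097 / 97656250) * (u - (3 / 4)) ^ 3 * (1 - u) ^ 2 +
        (207911953042 / 48828125) * (u - (3 / 4)) ^ 4 * (1 - u) +
        (508893824 / 390625) * (u - (3 / 4)) ^ 5 := by ring
    rw [key]
    positivity

theorem P6_15 {u : ℝ} (h0 : 0 ≤ u) (h1 : u ≤ 1) :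
    0 < 4 * ((287 / 1000) * (1 - u) * (2817 / 1000) + (19 / 10) * u ^ 2) * ((13341 / 10000) - (6789 / 10000) * (1 - 388 / 1000 * u - 178 / 1000 * u ^ 2 - 1 / 10 * u ^ 3) - 3 / 16 * (1 - u)) - (287 / 1000) * (1 + (2 + (19 / 10)) * u) ^ 2 := by
  rcases le_total u (1 / 2) with h | h
  · have k1 : 0 ≤ u := by linarith
    have k2 : 0 ≤ ((1 / 2) - u) := by linarith
    have key : 4 * ((287 / 1000) * (1 - u) * (2817 / 1000) + (19 / 10) * u ^ 2) * ((13341 / 10000) - (6789 / 10000) * (1 - 388 / 1000 * u - 178 / 1000 * u ^ 2 - 1 / 10 * u ^ 3) - 3 / 16 * (1 - u)) - (287 / 1000) * (1 + (2 + (19 / 10)) * u) ^ 2 =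
        1 / 10000 +
        (3063506283 / 78125000) * ((1 / 2) - u) ^ 5 +
        (6225711269307 / 39062500000) * u * ((1 / 2) - u) ^ 4 +
        (35993547873657 / 156250000000) * u ^ 2 * ((1 / 2) - u) ^ 3 +
        (43737011241897 / 312500000000) * u ^ 3 * ((1 / 2) - u) ^ 2 +
        (9902161051401 / 312500000000) * u ^ 4 * ((1 / 2) - u) +
        (380909642181 / 156250000000) * u ^ 5 := by ring
    rw [key]
    positivity
  rcases le_total u (5 / 8) with h | h
  · have k1 : 0 ≤ (u - (1 / 2)) := by linarith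
    have k2 : 0 ≤ ((5 / 8) - u) := by linarith
    have key : 4 * ((287 / 1000) * (1 - u) * (2817 / 1000) + (19 / 10) * u ^ 2) * ((13341 / 10000) - (6789 / 10000) * (1 - 388 / 1000 * u - 178 / 1000 * u ^ 2 - 1 / 10 * u ^ 3) - 3 / 16 * (1 - u)) - (287 / 1000) * (1 + (2 + (19 / 10)) * u) ^ 2 =
        1 / 10000 +
        (3047277137448 / 1220703125) * ((5 / 8) - u) ^ 5 +
        (9143321057649 / 1220703125) * (u - (1 / 2)) * ((5 / 8) - u) ^ 4 +
        (36148611304377 / 4882812500) * (u - (1 / 2)) ^ 2 * ((5 / 8) - u) ^ 3 +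
        (51018020623491 / 19531250000) * (u - (1 / 2)) ^ 3 * ((5 / 8) - u) ^ 2 +
        (39815313754341 / 78125000000) * (u - (1 / 2)) ^ 4 * ((5 / 8) - u) +
        (4802902185009 / 15625000000) * (u - (1 / 2)) ^ 5 := by ring
    rw [key]
    positivity
  rcases le_total u (3 / 4) with h | h
  · have k1 : 0 ≤ (u - (5 / 8)) := by linarith
    have k2 : 0 ≤ ((3 / 4) - u) := by linarith
    have key : 4 * ((287 / 1000) * (1 - u) * (2817 / 1000) + (19 / 10) * u ^ 2) * ((13341 / 10000) - (6789 / 10000) * (1 - 388 / 1000 * u - 178 / 1000 * u ^ 2 - 1 / 10 * u ^ 3) - 3 / 16 * (1 - u)) - (287 / 1000) * (1 + (2 + (19 / 10)) * u) ^ 2 =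
        1 / 10000 +
        (4802902185009 / 15625000000) * ((3 / 4) - u) ^ 5 +
        (200329795496109 / 78125000000) * (u - (5 / 8)) * ((3 / 4) - u) ^ 4 +
        (211532502365259 / 19531250000) * (u - (5 / 8)) ^ 2 * ((3 / 4) - u) ^ 3 +
        (100728003624573 / 4882812500) * (u - (5 / 8)) ^ 3 * ((3 / 4) - u) ^ 2 +
        (21368707000026 / 1220703125) * (u - (5 / 8)) ^ 4 * ((3 / 4) - u) +
        (26612764036623 / 4882812500) * (u - (5 / 8)) ^ 5 := by ring
    rw [key]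
    positivity
  · have k1 : 0 ≤ (u - (3 / 4)) := by linarith
    have k2 : 0 ≤ (1 - u) := by linarith
    have key : 4 * ((287 / 1000) * (1 - u) * (2817 / 1000) + (19 / 10) * u ^ 2) * ((13341 / 10000) - (6789 / 10000) * (1 - 388 / 1000 * u - 178 / 1000 * u ^ 2 - 1 / 10 * u ^ 3) - 3 / 16 * (1 - u)) - (287 / 1000) * (1 + (2 + (19 / 10)) * u) ^ 2 =
        1 / 10000 +
        (26612764036623 / 156250000000) * (1 - u) ^ 5 +
        (228241804549137 / 156250000000) * (u - (3 / 4)) * (1 - u) ^ 4 +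
        (373332452895933 / 78125000000) * (u - (3 / 4)) ^ 2 * (1 - u) ^ 3 +
        (72331749476943 / 9765625000) * (u - (3 / 4)) ^ 3 * (1 - u) ^ 2 +
        (26755335793023 / 4882812500) * (u - (3 / 4)) ^ 4 * (1 - u) +
        (609948096 / 390625) * (u - (3 / 4)) ^ 5 := by ring
    rw [key]
    positivity

theorem P6_16 {u : ℝ} (h0 : 0 ≤ u) (h1 : u ≤ 1) :
    0 < 4 * ((2039 / 10000) * (1 - u) * (737 / 250) + (8 / 5) * u ^ 2) * ((2951 / 2500) - (6869 / 10000) * (1 - 388 / 1000 * u - 178 / 1000 * u ^ 2 - 1 / 10 * u ^ 3) - 3 / 16 * (1 - u)) - (2039 / 10000) * (1 + (2 + (8 / 5)) * u) ^ 2 := by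
  rcases le_total u (1 / 2) with h | h
  · have k1 : 0 ≤ u := by linarith
    have k2 : 0 ≤ ((1 / 2) - u) := by linarith
    have key : 4 * ((2039 / 10000) * (1 - u) * (737 / 250) + (8 / 5) * u ^ 2) * ((2951 / 2500) - (6869 / 10000) * (1 - 388 / 1000 * u - 178 / 1000 * u ^ 2 - 1 / 10 * u ^ 3) - 3 / 16 * (1 - u)) - (2039 / 10000) * (1 + (2 + (8 / 5)) * u) ^ 2 =
        1 / 10000 +
        (166169679 / 9765625) * ((1 / 2) - u) ^ 5 +
        (6570688477949 / 97656250000) * u * ((1 / 2) - u) ^ 4 +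
        (34032526609649 / 390625000000) * u ^ 2 * ((1 / 2) - u) ^ 3 +
        (30415628591329 / 781250000000) * u ^ 3 * ((1 / 2) - u) ^ 2 +
        (1394880677457 / 781250000000) * u ^ 4 * ((1 / 2) - u) +
        (57910900917 / 390625000000) * u ^ 5 := by ring
    rw [key]
    positivity
  rcases le_total u (3 / 4) with h | h
  · have k1 : 0 ≤ (u - (1 / 2)) := by linarith
    have k2 : 0 ≤ ((3 / 4) - u) := by linarith
    have key : 4 * ((2039 / 10000) * (1 - u) * (737 / 250) + (8 / 5) * u ^ 2) * ((2951 / 2500) - (6869 / 10000) * (1 - 388 / 1000 * u - 178 / 1000 * u ^ 2 - 1 / 10 * u ^ 3) - 3 / 16 * (1 - u)) - (2039 / 10000) * (1 + (2 + (8 / 5)) * u) ^ 2 =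
        1 / 10000 +
        (57910900917 / 12207031250) * ((3 / 4) - u) ^ 5 +
        (342446350053 / 48828125000) * (u - (1 / 2)) * ((3 / 4) - u) ^ 4 +
        (4820204525381 / 19531250000) * (u - (1 / 2)) ^ 2 * ((3 / 4) - u) ^ 3 +
        (32324786803033 / 39062500000) * (u - (1 / 2)) ^ 3 * ((3 / 4) - u) ^ 2 +
        (361657877051101 / 390625000000) * (u - (1 / 2)) ^ 4 * ((3 / 4) - u) +
        (134099402557311 / 390625000000) * (u - (1 / 2)) ^ 5 := by ring
    rw [key]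
    positivity
  · have k1 : 0 ≤ (u - (3 / 4)) := by linarith
    have k2 : 0 ≤ (1 - u) := by linarith
    have key : 4 * ((2039 / 10000) * (1 - u) * (737 / 250) + (8 / 5) * u ^ 2) * ((2951 / 2500) - (6869 / 10000) * (1 - 388 / 1000 * u - 178 / 1000 * u ^ 2 - 1 / 10 * u ^ 3) - 3 / 16 * (1 - u)) - (2039 / 10000) * (1 + (2 + (8 / 5)) * u) ^ 2 =
        1 / 10000 +
        (134099402557311 / 390625000000) * (1 - u) ^ 5 +
        (979336148522009 / 390625000000) * (u - (3 / 4)) * (1 - u) ^ 4 +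
        (1396980476956981 / 195312500000) * (u - (3 / 4)) ^ 2 * (1 - u) ^ 3 +
        (243202892064551 / 24414062500) * (u - (3 / 4)) ^ 3 * (1 - u) ^ 2 +
        (82843680127611 / 12207031250) * (u - (3 / 4)) ^ 4 * (1 - u) +
        (708647424 / 390625) * (u - (3 / 4)) ^ 5 := by ring
    rw [key]
    positivity

theorem P6_17 {u : ℝ} (h0 : 0 ≤ u) (h1 : u ≤ 1) :
    0 < 4 * ((1077 / 10000) * (1 - u) * (3359 / 1000) + (11 / 10) * u ^ 2) * ((639 / 625) - (1391 / 2000) * (1 - 388 / 1000 * u - 178 / 1000 * u ^ 2 - 1 / 10 * u ^ 3) - 3 / 16 * (1 - u)) - (1077 / 10000) * (1 + (2 + (11 / 10)) * u) ^ 2 := by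
  rcases le_total u (1 / 4) with h | h
  · have k1 : 0 ≤ u := by linarith
    have k2 : 0 ≤ ((1 / 4) - u) := by linarith
    have key : 4 * ((1077 / 10000) * (1 - u) * (3359 / 1000) + (11 / 10) * u ^ 2) * ((639 / 625) - (1391 / 2000) * (1 - 388 / 1000 * u - 178 / 1000 * u ^ 2 - 1 / 10 * u ^ 3) - 3 / 16 * (1 - u)) - (1077 / 10000) * (1 + (2 + (11 / 10)) * u) ^ 2 =
        1 / 10000 +
        (4695988684 / 48828125) * ((1 / 4) - u) ^ 5 +
        (2088441373211 / 4882812500) * u * ((1 / 4) - u) ^ 4 +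
        (27001439059887 / 39062500000) * u ^ 2 * ((1 / 4) - u) ^ 3 +
        (3125712137401 / 6250000000) * u ^ 3 * ((1 / 4) - u) ^ 2 +
        (49461120921503 / 312500000000) * u ^ 4 * ((1 / 4) - u) +
        (1135347494529 / 62500000000) * u ^ 5 := by ring
    rw [key]
    positivity
  rcases le_total u (3 / 8) with h | h
  · have k1 : 0 ≤ (u - (1 / 4)) := by linarith
    have k2 : 0 ≤ ((3 / 8) - u) := by linarith
    have key : 4 * ((1077 / 10000) * (1 - u) * (3359 / 1000) + (11 / 10) * u ^ 2) * ((639 / 625) - (1391 / 2000) * (1 - 388 / 1000 * u - 178 / 1000 * u ^ 2 - 1 / 10 * u ^ 3) - 3 / 16 * (1 - u)) - (1077 / 10000) * (1 + (2 + (11 / 10)) * u) ^ 2 =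
        1 / 10000 +
        (1135347494529 / 1953125000) * ((3 / 8) - u) ^ 5 +
        (8922485292043 / 4882812500) * (u - (1 / 4)) * ((3 / 8) - u) ^ 4 +
        (4603658021879 / 2441406250) * (u - (1 / 4)) ^ 2 * ((3 / 8) - u) ^ 3 +
        (26188768602171 / 39062500000) * (u - (1 / 4)) ^ 3 * ((3 / 8) - u) ^ 2 +
        (14580175401179 / 156250000000) * (u - (1 / 4)) ^ 4 * ((3 / 8) - u) +
        (1963060046939 / 31250000000) * (u - (1 / 4)) ^ 5 := by ring
    rw [key]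
    positivity
  rcases le_total u (1 / 2) with h | h
  · have k1 : 0 ≤ (u - (3 / 8)) := by linarith
    have k2 : 0 ≤ ((1 / 2) - u) := by linarith
    have key : 4 * ((1077 / 10000) * (1 - u) * (3359 / 1000) + (11 / 10) * u ^ 2) * ((639 / 625) - (1391 / 2000) * (1 - 388 / 1000 * u - 178 / 1000 * u ^ 2 - 1 / 10 * u ^ 3) - 3 / 16 * (1 - u)) - (1077 / 10000) * (1 + (2 + (11 / 10)) * u) ^ 2 =
        1 / 10000 +
        (1963060046939 / 31250000000) * ((1 / 2) - u) ^ 5 +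
        (83572826945771 / 156250000000) * (u - (3 / 8)) * ((1 / 2) - u) ^ 4 +
        (95181420146763 / 39062500000) * (u - (3 / 8)) ^ 2 * ((1 / 2) - u) ^ 3 +
        (48074758887447 / 9765625000) * (u - (3 / 8)) ^ 3 * ((1 / 2) - u) ^ 2 +
        (10667224602913 / 2441406250) * (u - (3 / 8)) ^ 4 * ((1 / 2) - u) +
        (1722829702252 / 1220703125) * (u - (3 / 8)) ^ 5 := by ring
    rw [key]
    positivity
  · have k1 : 0 ≤ (u - (1 / 2)) := by linarith
    have k2 : 0 ≤ (1 - u) := by linarith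
    have key : 4 * ((1077 / 10000) * (1 - u) * (3359 / 1000) + (11 / 10) * u ^ 2) * ((639 / 625) - (1391 / 2000) * (1 - 388 / 1000 * u - 178 / 1000 * u ^ 2 - 1 / 10 * u ^ 3) - 3 / 16 * (1 - u)) - (1077 / 10000) * (1 + (2 + (11 / 10)) * u) ^ 2 =
        1 / 10000 +
        (430707425563 / 312500000000) * (1 - u) ^ 5 +
        (10868146675237 / 625000000000) * (u - (1 / 2)) * (1 - u) ^ 4 +
        (50083979610687 / 625000000000) * (u - (1 / 2)) ^ 2 * (1 - u) ^ 3 +
        (25656209158873 / 156250000000) * (u - (1 / 2)) ^ 3 * (1 - u) ^ 2 +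
        (23918662587229 / 156250000000) * (u - (1 / 2)) ^ 4 * (1 - u) +
        (8329581 / 156250) * (u - (1 / 2)) ^ 5 := by ring
    rw [key]
    positivity

theorem P6_18 {u : ℝ} (h0 : 0 ≤ u) (h1 : u ≤ 1) :
    0 < 4 * ((33 / 2500) * (1 - u) * (1209 / 125) + 1 * u ^ 2) * (1 - (6967 / 10000) * (1 - 388 / 1000 * u - 178 / 1000 * u ^ 2 - 1 / 10 * u ^ 3) - 3 / 16 * (1 - u)) - (33 / 2500) * (1 + (2 + 1) * u) ^ 2 := by
  · have k1 : 0 ≤ u := by linarith
    have k2 : 0 ≤ (1 - u) := by linarith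
    have key : 4 * ((33 / 2500) * (1 - u) * (1209 / 125) + 1 * u ^ 2) * (1 - (6967 / 10000) * (1 - 388 / 1000 * u - 178 / 1000 * u ^ 2 - 1 / 10 * u ^ 3) - 3 / 16 * (1 - u)) - (33 / 2500) * (1 + (2 + 1) * u) ^ 2 =
        1 / 10000 +
        (35810101 / 781250000) * (1 - u) ^ 5 +
        (63407766203 / 195312500000) * u * (1 - u) ^ 4 +
        (396153385229 / 390625000000) * u ^ 2 * (1 - u) ^ 3 +
        (131112005769 / 39062500000) * u ^ 3 * (1 - u) ^ 2 +
        (2031388404367 / 390625000000) * u ^ 4 * (1 - u) +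
        (1786193 / 625000) * u ^ 5 := by ring
    rw [key]
    positivity

end Crest.Agent.R230.B6b
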