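import Mathlib

/-!
# Row 230, block B6, dimensions 7 and 8: certificates for the remainder `cR`
-/

set_option autoImplicit false
set_option maxHeartbeats 4000000

namespace Crest.Agent.R230.B6

lemma star6_1 {e t : ℝ} (h1 : 0 ≤ e) (h2 : e ≤ (2/5)) (h3 : 0 ≤ t) (h4 : t ≤ 1) :
    0 < ((43/100)*(1 - e)^2 + (9/25)*(1 - (1 - e)^2))*(1 + (1 - e))^2*(1 + (1 - e*(1 + t*((121/50) - (23/20)*e - 1))))*((1 - e) + (1 - e*(1 + t*((121/50) - (23/20)*e - 1))))^2 - (1 - e)^4*(2 - e + (1 + t*((121/50) - (23/20)*e - 1))*(1 + (1 - e*(1 + t*((121/50) - (23/20)*e - 1)))))*(1 + (1 - e) + (1 - e*(1 + t*((121/50) - (23/20)*e - 1))) - (1 - e)^2) := by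
  have key : ((43/100)*(1 - e)^2 + (9/25)*(1 - (1 - e)^2))*(1 + (1 - e))^2*(1 + (1 - e*(1 + t*((121/50) - (23/20)*e - 1))))*((1 - e) + (1 - e*(1 + t*((121/50) - (23/20)*e - 1))))^2 - (1 - e)^4*(2 - e + (1 + t*((121/50) - (23/20)*e - 1))*(1 + (1 - e*(1 + t*((121/50) - (23/20)*e - 1)))))*(1 + (1 - e) + (1 - e*(1 + t*((121/50) - (23/20)*e - 1))) - (1 - e)^2) - (1/1000) =
      (449921875/8192)*((2/5) - e)^10*(1 - t)^3 +
      (906015625/8192)*((2/5) - e)^10*t*(1 - t)^2 +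
      (462265625/8192)*((2/5) - e)^10*t^2*(1 - t) +
      (6171875/8192)*((2/5) - e)^10*t^3 +
      (1989609375/4096)*e*((2/5) - e)^9*(1 - t)^3 +
      (3896503125/4096)*e*((2/5) - e)^9*t*(1 - t)^2 +
      (1950203125/4096)*e*((2/5) - e)^9*t^2*(1 - t) +
      (43309375/4096)*e*((2/5) - e)^9*t^3 +
      (15857484375/8192)*e^2*((2/5) - e)^8*(1 - t)^3 +
      (30293293125/8192)*e^2*((2/5) - e)^8*t*(1 - t)^2 +
      (14925708725/8192)*e^2*((2/5) - e)^8*t^2*(1 - t) +
      (454108875/8192)*e^2*((2/5) - e)^8*t^3 +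
      (4678503125/1024)*e^3*((2/5) - e)^7*(1 - t)^3 +
      (8735701875/1024)*e^3*((2/5) - e)^7*t*(1 - t)^2 +
      (4243217405/1024)*e^3*((2/5) - e)^7*t^2*(1 - t) +
      (1586556029/10240)*e^3*((2/5) - e)^7*t^3 +
      (28925096875/4096)*e^4*((2/5) - e)^6*(1 - t)^3 +
      (52851226225/4096)*e^4*((2/5) - e)^6*t*(1 - t)^2 +
      (25307570273/4096)*e^4*((2/5) - e)^6*t^2*(1 - t) +
      (27105114511/102400)*e^4*((2/5) - e)^6*t^3 +
      (15275188125/2048)*e^5*((2/5) - e)^5*(1 - t)^3 +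
      (27325869175/2048)*e^5*((2/5) - e)^5*t*(1 - t)^2 +
      (64433587107/10240)*e^5*((2/5) - e)^5*t^2*(1 - t) +
      (75264049161/256000)*e^5*((2/5) - e)^5*t^3 +
      (22305264875/4096)*e^6*((2/5) - e)^4*(1 - t)^3 +
      (39065363297/4096)*e^6*((2/5) - e)^4*t*(1 - t)^2 +
      (452884303817/102400)*e^6*((2/5) - e)^4*t^2*(1 - t) +
      (555767414981/2560000)*e^6*((2/5) - e)^4*t^3 +
      (2776584645/1024)*e^7*((2/5) - e)^3*(1 - t)^3 +
      (23794505799/5120)*e^7*((2/5) - e)^3*t*(1 - t)^2 +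
      (54141781143/25600)*e^7*((2/5) - e)^3*t^2*(1 - t) +
      (676963279359/6400000)*e^7*((2/5) - e)^3*t^3 +
      (7213824855/8192)*e^8*((2/5) - e)^2*(1 - t)^3 +
      (12090628629/8192)*e^8*((2/5) - e)^2*t*(1 - t)^2 +
      (134685440397/204800)*e^8*((2/5) - e)^2*t^2*(1 - t) +
      (834762313539/25600000)*e^8*((2/5) - e)^2*t^3 +
      (689543615/4096)*e^9*((2/5) - e)*(1 - t)^3 +
      (5645017497/20480)*e^9*((2/5) - e)*t*(1 - t)^2 +
      (12283199493/102400)*e^9*((2/5) - e)*t^2*(1 - t) +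
      (73468064371/12800000)*e^9*((2/5) - e)*t^3 +
      (117806035/8192)*e^10*(1 - t)^3 +
      (940989021/40960)*e^10*t*(1 - t)^2 +
      (1994107089/204800)*e^10*t^2*(1 - t) +
      (11178119087/25600000)*e^10*t^3 := by ring
  have k1 : 0 ≤ e := by linarith
  have k2 : 0 ≤ ((2/5) - e) := by linarith
  have k3 : 0 ≤ t := by linarith
  have k4 : 0 ≤ (1 - t) := by linarith
  have pos : 0 ≤ (449921875/8192)*((2/5) - e)^10*(1 - t)^3 +
      (906015625/8192)*((2/5) - e)^10*t*(1 - t)^2 +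
      (462265625/8192)*((2/5) - e)^10*t^2*(1 - t) +
      (6171875/8192)*((2/5) - e)^10*t^3 +
      (1989609375/4096)*e*((2/5) - e)^9*(1 - t)^3 +
      (3896503125/4096)*e*((2/5) - e)^9*t*(1 - t)^2 +
      (1950203125/4096)*e*((2/5) - e)^9*t^2*(1 - t) +
      (43309375/4096)*e*((2/5) - e)^9*t^3 +
      (15857484375/8192)*e^2*((2/5) - e)^8*(1 - t)^3 +
      (30293293125/8192)*e^2*((2/5) - e)^8*t*(1 - t)^2 +
      (14925708725/8192)*e^2*((2/5) - e)^8*t^2*(1 - t) +
      (454108875/8192)*e^2*((2/5) - e)^8*t^3 +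
      (4678503125/1024)*e^3*((2/5) - e)^7*(1 - t)^3 +
      (8735701875/1024)*e^3*((2/5) - e)^7*t*(1 - t)^2 +
      (4243217405/1024)*e^3*((2/5) - e)^7*t^2*(1 - t) +
      (1586556029/10240)*e^3*((2/5) - e)^7*t^3 +
      (28925096875/4096)*e^4*((2/5) - e)^6*(1 - t)^3 +
      (52851226225/4096)*e^4*((2/5) - e)^6*t*(1 - t)^2 +
      (25307570273/4096)*e^4*((2/5) - e)^6*t^2*(1 - t) +
      (27105114511/102400)*e^4*((2/5) - e)^6*t^3 +
      (15275188125/2048)*e^5*((2/5) - e)^5*(1 - t)^3 +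
      (27325869175/2048)*e^5*((2/5) - e)^5*t*(1 - t)^2 +
      (64433587107/10240)*e^5*((2/5) - e)^5*t^2*(1 - t) +
      (75264049161/256000)*e^5*((2/5) - e)^5*t^3 +
      (22305264875/4096)*e^6*((2/5) - e)^4*(1 - t)^3 +
      (39065363297/4096)*e^6*((2/5) - e)^4*t*(1 - t)^2 +
      (452884303817/102400)*e^6*((2/5) - e)^4*t^2*(1 - t) +
      (555767414981/2560000)*e^6*((2/5) - e)^4*t^3 +
      (2776584645/1024)*e^7*((2/5) - e)^3*(1 - t)^3 +
      (23794505799/5120)*e^7*((2/5) - e)^3*t*(1 - t)^2 +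
      (54141781143/25600)*e^7*((2/5) - e)^3*t^2*(1 - t) +
      (676963279359/6400000)*e^7*((2/5) - e)^3*t^3 +
      (7213824855/8192)*e^8*((2/5) - e)^2*(1 - t)^3 +
      (12090628629/8192)*e^8*((2/5) - e)^2*t*(1 - t)^2 +
      (134685440397/204800)*e^8*((2/5) - e)^2*t^2*(1 - t) +
      (834762313539/25600000)*e^8*((2/5) - e)^2*t^3 +
      (689543615/4096)*e^9*((2/5) - e)*(1 - t)^3 +
      (5645017497/20480)*e^9*((2/5) - e)*t*(1 - t)^2 +
      (12283199493/102400)*e^9*((2/5) - e)*t^2*(1 - t) +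
      (73468064371/12800000)*e^9*((2/5) - e)*t^3 +
      (117806035/8192)*e^10*(1 - t)^3 +
      (940989021/40960)*e^10*t*(1 - t)^2 +
      (1994107089/204800)*e^10*t^2*(1 - t) +
      (11178119087/25600000)*e^10*t^3 := by
    clear key
    generalize ((2/5) - e) = X2 at *
    generalize (1 - t) = U2 at *
    positivity
  linarith

lemma expc6_1 {e : ℝ} (h1 : 0 ≤ e) (h2 : e ≤ (2/5)) :
    0 < (2 - e)^3*((121/50) - (23/20)*e)*(2 - e*((121/50) - (23/20)*e)) - ((2 - e)^4 + (2*(7/8)*(1 - e)^2)*(2 - e)^3 + 1/2*(2*(7/8)*(1 - e)^2)^2*(2 - e)^2 + 1/6*(2*(7/8)*(1 - e)^2)^3*(2 - e) + 5/96*(2*(7/8)*(1 - e)^2)^4) := by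
  have key : (2 - e)^3*((121/50) - (23/20)*e)*(2 - e*((121/50) - (23/20)*e)) - ((2 - e)^4 + (2*(7/8)*(1 - e)^2)*(2 - e)^3 + 1/2*(2*(7/8)*(1 - e)^2)^2*(2 - e)^2 + 1/6*(2*(7/8)*(1 - e)^2)^3*(2 - e) + 5/96*(2*(7/8)*(1 - e)^2)^4) - (1/10000) =
      (3071586875/6291456)*((2/5) - e)^8 +
      (1634047375/262144)*e*((2/5) - e)^7 +
      (36503497325/1572864)*e^2*((2/5) - e)^6 +
      (11005646585/262144)*e^3*((2/5) - e)^5 +
      (44886395579/1048576)*e^4*((2/5) - e)^4 +
      (6696506633/262144)*e^5*((2/5) - e)^3 +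
      (4509333679/524288)*e^6*((2/5) - e)^2 +
      (370150879/262144)*e^7*((2/5) - e) +
      (144469417/2097152)*e^8 := by ring
  have k1 : 0 ≤ e := by linarith
  have k2 : 0 ≤ ((2/5) - e) := by linarith
  have pos : 0 ≤ (3071586875/6291456)*((2/5) - e)^8 +
      (1634047375/262144)*e*((2/5) - e)^7 +
      (36503497325/1572864)*e^2*((2/5) - e)^6 +
      (11005646585/262144)*e^3*((2/5) - e)^5 +
      (44886395579/1048576)*e^4*((2/5) - e)^4 +
      (6696506633/262144)*e^5*((2/5) - e)^3 +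
      (4509333679/524288)*e^6*((2/5) - e)^2 +
      (370150879/262144)*e^7*((2/5) - e) +
      (144469417/2097152)*e^8 := by
    clear key
    generalize ((2/5) - e) = X2 at *
    positivity
  linarith

lemma star7_1 {e t : ℝ} (h1 : 0 ≤ e) (h2 : e ≤ (7/20)) (h3 : 0 ≤ t) (h4 : t ≤ 1) :
    0 < ((47/100)*(1 - e)^2 + (11/20)*(1 - (1 - e)^2))*(1 + (1 - e))^2*(1 + (1 - e*(1 + t*((137/50) - (23/20)*e - 1))))*((1 - e) + (1 - e*(1 + t*((137/50) - (23/20)*e - 1))))^2 - (1 - e)^4*(2 - e + (1 + t*((137/50) - (23/20)*e - 1))*(1 + (1 - e*(1 + t*((137/50) - (23/20)*e - 1)))))*(1 + (1 - e) + (1 - e*(1 + t*((137/50) - (23/20)*e - 1))) - (1 - e)^2) := by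
  have key : ((47/100)*(1 - e)^2 + (11/20)*(1 - (1 - e)^2))*(1 + (1 - e))^2*(1 + (1 - e*(1 + t*((137/50) - (23/20)*e - 1))))*((1 - e) + (1 - e*(1 + t*((137/50) - (23/20)*e - 1))))^2 - (1 - e)^4*(2 - e + (1 + t*((137/50) - (23/20)*e - 1))*(1 + (1 - e*(1 + t*((137/50) - (23/20)*e - 1)))))*(1 + (1 - e) + (1 - e*(1 + t*((137/50) - (23/20)*e - 1))) - (1 - e)^2) - (1/1000) =
      (72079360000000/282475249)*((7/20) - e)^10*(1 - t)^3 +
      (144967680000000/282475249)*((7/20) - e)^10*t*(1 - t)^2 +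
      (73697280000000/282475249)*((7/20) - e)^10*t^2*(1 - t) +
      (808960000000/282475249)*((7/20) - e)^10*t^3 +
      (679505920000000/282475249)*e*((7/20) - e)^9*(1 - t)^3 +
      (1351280230400000/282475249)*e*((7/20) - e)^9*t*(1 - t)^2 +
      (707446374400000/282475249)*e*((7/20) - e)^9*t^2*(1 - t) +
      (35672064000000/282475249)*e*((7/20) - e)^9*t^3 +
      (2860642304000000/282475249)*e^2*((7/20) - e)^8*(1 - t)^3 +
      (5594196910080000/282475249)*e^2*((7/20) - e)^8*t*(1 - t)^2 +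
      (2951498175283200/282475249)*e^2*((7/20) - e)^8*t^2*(1 - t) +
      (211335359897600/282475249)*e^2*((7/20) - e)^8*t^3 +
      (7083108403200000/282475249)*e^3*((7/20) - e)^7*(1 - t)^3 +
      (13558786079744000/282475249)*e^3*((7/20) - e)^7*t*(1 - t)^2 +
      (7098916657827840/282475249)*e^3*((7/20) - e)^7*t^2*(1 - t) +
      (2899312337662976/1412376245)*e^3*((7/20) - e)^7*t^3 +
      (1632117032960000/40353607)*e^4*((7/20) - e)^6*(1 - t)^3 +
      (3046000827724800/40353607)*e^4*((7/20) - e)^6*t*(1 - t)^2 +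
      (1564221785149952/40353607)*e^4*((7/20) - e)^6*t^2*(1 - t) +
      (3305155083288448/1008840175)*e^4*((7/20) - e)^6*t^3 +
      (1792167782528000/40353607)*e^5*((7/20) - e)^5*(1 - t)^3 +
      (3249157564624640/40353607)*e^5*((7/20) - e)^5*t*(1 - t)^2 +
      (8106295966319168/201768035)*e^5*((7/20) - e)^5*t^2*(1 - t) +
      (16678802977752624/5044200875)*e^5*((7/20) - e)^5*t^3 +
      (1356951818496000/40353607)*e^6*((7/20) - e)^4*(1 - t)^3 +
      (2381801014281088/40353607)*e^6*((7/20) - e)^4*t*(1 - t)^2 +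
      (28637858506339256/1008840175)*e^6*((7/20) - e)^4*t^2*(1 - t) +
      (54626511552118176/25221004375)*e^6*((7/20) - e)^4*t^3 +
      (4897480518910080/282475249)*e^7*((7/20) - e)^3*(1 - t)^3 +
      (41477714927309632/1412376245)*e^7*((7/20) - e)^3*t*(1 - t)^2 +
      (95432690921713463/7061881225)*e^7*((7/20) - e)^3*t^2*(1 - t) +
      (1604016036646247023/1765470306250)*e^7*((7/20) - e)^3*t^3 +
      (1645855371258240/282475249)*e^8*((7/20) - e)^2*(1 - t)^3 +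
      (13407347312221944/1412376245)*e^8*((7/20) - e)^2*t*(1 - t)^2 +
      (29304488969975291/7061881225)*e^8*((7/20) - e)^2*t^2*(1 - t) +
      (649825106691972509/2824752490000)*e^8*((7/20) - e)^2*t^3 +
      (325583029114240/282475249)*e^9*((7/20) - e)*(1 - t)^3 +
      (2542429098923312/1412376245)*e^9*((7/20) - e)*t*(1 - t)^2 +
      (4192090672303187/5649504980)*e^9*((7/20) - e)*t^2*(1 - t) +
      (17177999678112803/564950498000)*e^9*((7/20) - e)*t^3 +
      (28793353470080/282475249)*e^10*(1 - t)^3 +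
      (42951121197464/282475249)*e^10*t*(1 - t)^2 +
      (66246654606023/1129900996)*e^10*t^2*(1 - t) +
      (313477079318609/225980199200)*e^10*t^3 := by ring
  have k1 : 0 ≤ e := by linarith
  have k2 : 0 ≤ ((7/20) - e) := by linarith
  have k3 : 0 ≤ t := by linarith
  have k4 : 0 ≤ (1 - t) := by linarith
  have pos : 0 ≤ (72079360000000/282475249)*((7/20) - e)^10*(1 - t)^3 +
      (144967680000000/282475249)*((7/20) - e)^10*t*(1 - t)^2 +
      (73697280000000/282475249)*((7/20) - e)^10*t^2*(1 - t) +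
      (808960000000/282475249)*((7/20) - e)^10*t^3 +
      (679505920000000/282475249)*e*((7/20) - e)^9*(1 - t)^3 +
      (1351280230400000/282475249)*e*((7/20) - e)^9*t*(1 - t)^2 +
      (707446374400000/282475249)*e*((7/20) - e)^9*t^2*(1 - t) +
      (35672064000000/282475249)*e*((7/20) - e)^9*t^3 +
      (2860642304000000/282475249)*e^2*((7/20) - e)^8*(1 - t)^3 +
      (5594196910080000/282475249)*e^2*((7/20) - e)^8*t*(1 - t)^2 +
      (2951498175283200/282475249)*e^2*((7/20) - e)^8*t^2*(1 - t) +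
      (211335359897600/282475249)*e^2*((7/20) - e)^8*t^3 +
      (7083108403200000/282475249)*e^3*((7/20) - e)^7*(1 - t)^3 +
      (13558786079744000/282475249)*e^3*((7/20) - e)^7*t*(1 - t)^2 +
      (7098916657827840/282475249)*e^3*((7/20) - e)^7*t^2*(1 - t) +
      (2899312337662976/1412376245)*e^3*((7/20) - e)^7*t^3 +
      (1632117032960000/40353607)*e^4*((7/20) - e)^6*(1 - t)^3 +
      (3046000827724800/40353607)*e^4*((7/20) - e)^6*t*(1 - t)^2 +
      (1564221785149952/40353607)*e^4*((7/20) - e)^6*t^2*(1 - t) +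
      (3305155083288448/1008840175)*e^4*((7/20) - e)^6*t^3 +
      (1792167782528000/40353607)*e^5*((7/20) - e)^5*(1 - t)^3 +
      (3249157564624640/40353607)*e^5*((7/20) - e)^5*t*(1 - t)^2 +
      (8106295966319168/201768035)*e^5*((7/20) - e)^5*t^2*(1 - t) +
      (16678802977752624/5044200875)*e^5*((7/20) - e)^5*t^3 +
      (1356951818496000/40353607)*e^6*((7/20) - e)^4*(1 - t)^3 +
      (2381801014281088/40353607)*e^6*((7/20) - e)^4*t*(1 - t)^2 +
      (28637858506339256/1008840175)*e^6*((7/20) - e)^4*t^2*(1 - t) +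
      (54626511552118176/25221004375)*e^6*((7/20) - e)^4*t^3 +
      (4897480518910080/282475249)*e^7*((7/20) - e)^3*(1 - t)^3 +
      (41477714927309632/1412376245)*e^7*((7/20) - e)^3*t*(1 - t)^2 +
      (95432690921713463/7061881225)*e^7*((7/20) - e)^3*t^2*(1 - t) +
      (1604016036646247023/1765470306250)*e^7*((7/20) - e)^3*t^3 +
      (1645855371258240/282475249)*e^8*((7/20) - e)^2*(1 - t)^3 +
      (13407347312221944/1412376245)*e^8*((7/20) - e)^2*t*(1 - t)^2 +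
      (29304488969975291/7061881225)*e^8*((7/20) - e)^2*t^2*(1 - t) +
      (649825106691972509/2824752490000)*e^8*((7/20) - e)^2*t^3 +
      (325583029114240/282475249)*e^9*((7/20) - e)*(1 - t)^3 +
      (2542429098923312/1412376245)*e^9*((7/20) - e)*t*(1 - t)^2 +
      (4192090672303187/5649504980)*e^9*((7/20) - e)*t^2*(1 - t) +
      (17177999678112803/564950498000)*e^9*((7/20) - e)*t^3 +
      (28793353470080/282475249)*e^10*(1 - t)^3 +
      (42951121197464/282475249)*e^10*t*(1 - t)^2 +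
      (66246654606023/1129900996)*e^10*t^2*(1 - t) +
      (313477079318609/225980199200)*e^10*t^3 := by
    clear key
    generalize ((7/20) - e) = X2 at *
    generalize (1 - t) = U2 at *
    positivity
  linarith

lemma expc7_1 {e : ℝ} (h1 : 0 ≤ e) (h2 : e ≤ (7/20)) :
    0 < (2 - e)^3*((137/50) - (23/20)*e)*(2 - e*((137/50) - (23/20)*e)) - ((2 - e)^4 + (2*1*(1 - e)^2)*(2 - e)^3 + 1/2*(2*1*(1 - e)^2)^2*(2 - e)^2 + 1/6*(2*1*(1 - e)^2)^3*(2 - e) + 5/96*(2*1*(1 - e)^2)^4) := by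
  have key : (2 - e)^3*((137/50) - (23/20)*e)*(2 - e*((137/50) - (23/20)*e)) - ((2 - e)^4 + (2*1*(1 - e)^2)*(2 - e)^3 + 1/2*(2*1*(1 - e)^2)^2*(2 - e)^2 + 1/6*(2*1*(1 - e)^2)^3*(2 - e) + 5/96*(2*1*(1 - e)^2)^4) - (1/10000) =
      (8701440000/5764801)*((7/20) - e)^8 +
      (139313152000/5764801)*e*((7/20) - e)^7 +
      (243168972800/2470629)*e^2*((7/20) - e)^6 +
      (156115768320/823543)*e^3*((7/20) - e)^5 +
      (167122926848/823543)*e^4*((7/20) - e)^4 +
      (309499231688/2470629)*e^5*((7/20) - e)^3 +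
      (34975055903/823543)*e^6*((7/20) - e)^2 +
      (37463063450/5764801)*e^7*((7/20) - e) +
      (5790447025/34588806)*e^8 := by ring
  have k1 : 0 ≤ e := by linarith
  have k2 : 0 ≤ ((7/20) - e) := by linarith
  have pos : 0 ≤ (8701440000/5764801)*((7/20) - e)^8 +
      (139313152000/5764801)*e*((7/20) - e)^7 +
      (243168972800/2470629)*e^2*((7/20) - e)^6 +
      (156115768320/823543)*e^3*((7/20) - e)^5 +
      (167122926848/823543)*e^4*((7/20) - e)^4 +
      (309499231688/2470629)*e^5*((7/20) - e)^3 +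
      (34975055903/823543)*e^6*((7/20) - e)^2 +
      (37463063450/5764801)*e^7*((7/20) - e) +
      (5790447025/34588806)*e^8 := by
    clear key
    generalize ((7/20) - e) = X2 at *
    positivity
  linarith

end Crest.Agent.R230.B6
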