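import Crest.Agent.R230.B6tools
import Crest.Agent.R230.B6Star
import Crest.Agent.R230.B6P6

/-!
# Row 230, block B6 (case II, `l ≥ 0`, `-1 < k ≤ 0`), dimension 7 (Lean `n = 6`)
-/

set_option autoImplicit false
set_option maxHeartbeats 4000000

open MeasureTheory Set Filter Topology

namespace Crest.Agent.R230.WR

theorem B6_six {s l k lm μ : ℝ} (hμ : μ * 5 = 31 / 4) (hs : s ∈ Ioo (0 : ℝ) 1) (hl : 0 ≤ l)
    (hT : s * Real.exp l ≤ 1) (hl1 : l * (1 + cc s) ≤ 7 / 8 * cc s ^ 2) (hk : 0 < 1 + k) (hk0 : k ≤ 0) :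
    0 ≤ PP 6 μ 3 1 0 lm s l k ∧ (PP 6 μ 3 1 0 lm s l k = 0 → l = 0) := by
  have hu0 : 0 ≤ -k := by linarith
  have hu1 : -k ≤ 1 := by linarith
  have hc := cc_pos' hs
  have hc2 := cc_sq' hs
  have hs0 := hs.1
  have hc1 : cc s < 1 := by nlinarith
  have hl1' : l * (1 + cc s) ≤ (7 / 8) * cc s ^ 2 := by linarith
  have hR0 : 0 ≤ 1 - 388 / 1000 * -k - 178 / 1000 * (-k) ^ 2 - 1 / 10 * (-k) ^ 3 := by
    have h2 : (-k) ^ 2 ≤ 1 := by nlinarith
    have h3 : (-k) ^ 3 ≤ 1 := pow_le_one₀ hu0 hu1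
    nlinarith
  have hμ' : μ * (((6 : ℕ) : ℝ) - 1) = ((6 : ℕ) : ℝ) + 7 / 4 := by push_cast; linarith
  have hvar : 3 / 5 ≤ cc s → -(((43 / 100) + (36 / 100) * Y s) * (Y s * l ^ 2)) ≤ cR s l := by
    intro h1
    have hlow : 1 - (1 - cc s) * (121 / 50 - 23 / 20 * (1 - cc s)) ≤ cc (s * Real.exp l) := by
      refine cc_low hs (ζ := (7 / 8)) (by norm_num) (by norm_num) hl1' ?_
      have h := B6.expc6_1 (e := 1 - cc s) (by linarith) (by linarith)
      exact lt_of_lt_of_eq h (by ring)
    refine cR_ge_var hs hl hT (by norm_num) (by norm_num) (mb := 121 / 50 - 23 / 20 * (1 - cc s)) (by linarith) hlow ?_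
    intro t ht0 ht1
    exact lt_of_lt_of_eq (B6.star6_1 (e := 1 - cc s) (by linarith) (by linarith) ht0 ht1) (by ring)
  rcases le_total (cc s) (19 / 50) with h1 | h1'
  · exact boxc (n := 6) (a := 0) (b := 19 / 50) (ζ := (7 / 8)) (g := (31 / 48)) (β := 3 / 16) (N3 := 3)
      (A := 17907 / 10000) (zm := 1 / 2) (L := 211 / 2500) (M := 6551 / 10000) (κ := 2771 / 1000) (τ := 49 / 20) (ρ := 2) (by norm_num) hμ' hs hl hT (by norm_num) hl1' hk hk0
      (by norm_num) (by norm_num) (by norm_num) hR0 (rr_six hu0) hc.le h1 (sc_two hc (by linarith)) (by norm_num)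
      (by norm_num) (by norm_num) (by norm_num) (Or.inl (by norm_num)) (Or.inr ⟨by norm_num, by norm_num⟩) (by norm_num) (by norm_num)
      (by norm_num) (by norm_num) (by norm_num) (by norm_num) (B6b.P6_1 hu0 hu1)
  rcases le_total (cc s) (2 / 5) with h2 | h2'
  · exact boxc (n := 6) (a := 19 / 50) (b := 2 / 5) (ζ := (7 / 8)) (g := (31 / 48)) (β := 3 / 16) (N3 := 3)
      (A := 8857 / 5000) (zm := 2311 / 5000) (L := 881 / 10000) (M := 1311 / 2000) (κ := 1371 / 500) (τ := 5 / 2) (ρ := 2) (by norm_num) hμ' hs hl hT (by norm_num) hl1' hk hk0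
      (by norm_num) (by norm_num) (by norm_num) hR0 (rr_six hu0) h1' h2 (sc_two hc (by linarith)) (by norm_num)
      (by norm_num) (by norm_num) (by norm_num) (Or.inl (by norm_num)) (Or.inr ⟨by norm_num, by norm_num⟩) (by norm_num) (by norm_num)
      (by norm_num) (by norm_num) (by norm_num) (by norm_num) (B6b.P6_2 hu0 hu1)
  rcases le_total (cc s) (467 / 1000) with h3 | h3'
  · exact boxc (n := 6) (a := 2 / 5) (b := 467 / 1000) (ζ := (7 / 8)) (g := (31 / 48)) (β := 3 / 16) (N3 := 3)
      (A := 8513 / 5000) (zm := 4579 / 10000) (L := 639 / 5000) (M := 6599 / 10000) (κ := 659 / 250) (τ := 47 / 20) (ρ := 39 / 20) (by norm_num) hμ' hs hl hT (by norm_num) hl1' hk hk0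
      (by norm_num) (by norm_num) (by norm_num) hR0 (rr_six hu0) h2' h3 (sc_39 (by linarith) (by linarith)) (by norm_num)
      (by norm_num) (by norm_num) (by norm_num) (Or.inl (by norm_num)) (Or.inr ⟨by norm_num, by norm_num⟩) (by norm_num) (by norm_num)
      (by norm_num) (by norm_num) (by norm_num) (by norm_num) (B6b.P6_3 hu0 hu1)
  rcases le_total (cc s) (99 / 200) with h4 | h4'
  · exact boxc (n := 6) (a := 467 / 1000) (b := 99 / 200) (ζ := (7 / 8)) (g := (31 / 48)) (β := 3 / 16) (N3 := 3)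
      (A := 8361 / 5000) (zm := 276 / 625) (L := 717 / 5000) (M := 6617 / 10000) (κ := 322 / 125) (τ := 47 / 20) (ρ := 39 / 20) (by norm_num) hμ' hs hl hT (by norm_num) hl1' hk hk0
      (by norm_num) (by norm_num) (by norm_num) hR0 (rr_six hu0) h3' h4 (sc_39 (by linarith) (by linarith)) (by norm_num)
      (by norm_num) (by norm_num) (by norm_num) (Or.inl (by norm_num)) (Or.inr ⟨by norm_num, by norm_num⟩) (by norm_num) (by norm_num)
      (by norm_num) (by norm_num) (by norm_num) (by norm_num) (B6b.P6_4 hu0 hu1)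
  rcases le_total (cc s) (127 / 250) with h5 | h5'
  · exact boxc (n := 6) (a := 99 / 200) (b := 127 / 250) (ζ := (7 / 8)) (g := (31 / 48)) (β := 3 / 16) (N3 := 3)
      (A := 16577 / 10000) (zm := 2169 / 5000) (L := 749 / 5000) (M := 414 / 625) (κ := 1273 / 500) (τ := 9 / 4) (ρ := 39 / 20) (by norm_num) hμ' hs hl hT (by norm_num) hl1' hk hk0
      (by norm_num) (by norm_num) (by norm_num) hR0 (rr_six hu0) h4' h5 (sc_39 (by linarith) (by linarith)) (by norm_num)
      (by norm_num) (by norm_num) (by norm_num) (Or.inl (by norm_num)) (Or.inl (by norm_num)) (by norm_num) (by norm_num)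
      (by norm_num) (by norm_num) (by norm_num) (by norm_num) (B6b.P6_5 hu0 hu1)
  rcases le_total (cc s) (51 / 100) with h6 | h6'
  · exact boxc (n := 6) (a := 127 / 250) (b := 51 / 100) (ζ := (7 / 8)) (g := (31 / 48)) (β := 3 / 16) (N3 := 3)
      (A := 8277 / 5000) (zm := 43 / 100) (L := 377 / 2500) (M := 53 / 80) (κ := 2541 / 1000) (τ := 9 / 4) (ρ := 39 / 20) (by norm_num) hμ' hs hl hT (by norm_num) hl1' hk hk0
      (by norm_num) (by norm_num) (by norm_num) hR0 (rr_six hu0) h5' h6 (sc_39 (by linarith) (by linarith)) (by norm_num)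
      (by norm_num) (by norm_num) (by norm_num) (Or.inl (by norm_num)) (Or.inl (by norm_num)) (by norm_num) (by norm_num)
      (by norm_num) (by norm_num) (by norm_num) (by norm_num) (B6b.P6_6 hu0 hu1)
  rcases le_total (cc s) (103 / 200) with h7 | h7'
  · exact boxc (n := 6) (a := 51 / 100) (b := 103 / 200) (ζ := (7 / 8)) (g := (31 / 48)) (β := 3 / 16) (N3 := 3)
      (A := 8249 / 5000) (zm := 268 / 625) (L := 383 / 2500) (M := 1657 / 2500) (κ := 2511 / 1000) (τ := 9 / 4) (ρ := 2) (by norm_num) hμ' hs hl hT (by norm_num) hl1' hk hk0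
      (by norm_num) (by norm_num) (by norm_num) hR0 (rr_six hu0) h6' h7 (sc_two hc (by linarith)) (by norm_num)
      (by norm_num) (by norm_num) (by norm_num) (Or.inr (by norm_num)) (Or.inl (by norm_num)) (by norm_num) (by norm_num)
      (by norm_num) (by norm_num) (by norm_num) (by norm_num) (B6b.P6_7 hu0 hu1)
  rcases le_total (cc s) (261 / 500) with h8 | h8'
  · exact boxc (n := 6) (a := 103 / 200) (b := 261 / 500) (ζ := (7 / 8)) (g := (31 / 48)) (β := 3 / 16) (N3 := 3)
      (A := 16419 / 10000) (zm := 1061 / 2500) (L := 1567 / 10000) (M := 829 / 1250) (κ := 623 / 250) (τ := 23 / 10) (ρ := 2) (by norm_num) hμ' hs hl hT (by norm_num) hl1' hk hk0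
      (by norm_num) (by norm_num) (by norm_num) hR0 (rr_six hu0) h7' h8 (sc_two hc (by linarith)) (by norm_num)
      (by norm_num) (by norm_num) (by norm_num) (Or.inr (by norm_num)) (Or.inl (by norm_num)) (by norm_num) (by norm_num)
      (by norm_num) (by norm_num) (by norm_num) (by norm_num) (B6b.P6_8 hu0 hu1)
  rcases le_total (cc s) (133 / 250) with h9 | h9'
  · exact boxc (n := 6) (a := 261 / 500) (b := 133 / 250) (ζ := (7 / 8)) (g := (31 / 48)) (β := 3 / 16) (N3 := 3)
      (A := 3261 / 2000) (zm := 4183 / 10000) (L := 1617 / 10000) (M := 3319 / 5000) (κ := 493 / 200) (τ := 9 / 4) (ρ := 2) (by norm_num) hμ' hs hl hT (by norm_num) hl1' hk hk0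
      (by norm_num) (by norm_num) (by norm_num) hR0 (rr_six hu0) h8' h9 (sc_two hc (by linarith)) (by norm_num)
      (by norm_num) (by norm_num) (by norm_num) (Or.inr (by norm_num)) (Or.inl (by norm_num)) (by norm_num) (by norm_num)
      (by norm_num) (by norm_num) (by norm_num) (by norm_num) (B6b.P6_9 hu0 hu1)
  rcases le_total (cc s) (109 / 200) with h10 | h10'
  · exact boxc (n := 6) (a := 133 / 250) (b := 109 / 200) (ζ := (7 / 8)) (g := (31 / 48)) (β := 3 / 16) (N3 := 3)
      (A := 3231 / 2000) (zm := 819 / 2000) (L := 1683 / 10000) (M := 1329 / 2000) (κ := 2427 / 1000) (τ := 11 / 5) (ρ := 2) (by norm_num) hμ' hs hl hT (by norm_num) hl1' hk hk0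
      (by norm_num) (by norm_num) (by norm_num) hR0 (rr_six hu0) h9' h10 (sc_two hc (by linarith)) (by norm_num)
      (by norm_num) (by norm_num) (by norm_num) (Or.inr (by norm_num)) (Or.inl (by norm_num)) (by norm_num) (by norm_num)
      (by norm_num) (by norm_num) (by norm_num) (by norm_num) (B6b.P6_10 hu0 hu1)
  rcases le_total (cc s) (561 / 1000) with h11 | h11'
  · exact boxc (n := 6) (a := 109 / 200) (b := 561 / 1000) (ζ := (7 / 8)) (g := (31 / 48)) (β := 3 / 16) (N3 := 3)
      (A := 15967 / 10000) (zm := 1991 / 5000) (L := 353 / 2000) (M := 1331 / 2000) (κ := 1189 / 500) (τ := 43 / 20) (ρ := 2) (by norm_num) hμ' hs hl hT (by norm_num) hl1' hk hk0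
      (by norm_num) (by norm_num) (by norm_num) hR0 (rr_six hu0) h10' h11 (sc_two hc (by linarith)) (by norm_num)
      (by norm_num) (by norm_num) (by norm_num) (Or.inr (by norm_num)) (Or.inl (by norm_num)) (by norm_num) (by norm_num)
      (by norm_num) (by norm_num) (by norm_num) (by norm_num) (B6b.P6_11 hu0 hu1)
  rcases le_total (cc s) (29 / 50) with h12 | h12'
  · exact boxc (n := 6) (a := 561 / 1000) (b := 29 / 50) (ζ := (7 / 8)) (g := (31 / 48)) (β := 3 / 16) (N3 := 3)
      (A := 15741 / 10000) (zm := 1921 / 5000) (L := 1863 / 10000) (M := 3333 / 5000) (κ := 2313 / 1000) (τ := 43 / 20) (ρ := 2) (by norm_num) hμ' hs hl hT (by norm_num) hl1' hk hk0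
      (by norm_num) (by norm_num) (by norm_num) hR0 (rr_six hu0) h11' h12 (sc_two hc (by linarith)) (by norm_num)
      (by norm_num) (by norm_num) (by norm_num) (Or.inr (by norm_num)) (Or.inl (by norm_num)) (by norm_num) (by norm_num)
      (by norm_num) (by norm_num) (by norm_num) (by norm_num) (B6b.P6_12 hu0 hu1)
  rcases le_total (cc s) (3 / 5) with h13 | h13'
  · exact boxc (n := 6) (a := 29 / 50) (b := 3 / 5) (ζ := (7 / 8)) (g := (31 / 48)) (β := 3 / 16) (N3 := 3)
      (A := 31 / 20) (zm := 147 / 400) (L := 1969 / 10000) (M := 3339 / 5000) (κ := 1119 / 500) (τ := 21 / 10) (ρ := 2) (by norm_num) hμ' hs hl hT (by norm_num) hl1' hk hk0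
      (by norm_num) (by norm_num) (by norm_num) hR0 (rr_six hu0) h12' h13 (sc_two hc (by linarith)) (by norm_num)
      (by norm_num) (by norm_num) (by norm_num) (Or.inr (by norm_num)) (Or.inl (by norm_num)) (by norm_num) (by norm_num)
      (by norm_num) (by norm_num) (by norm_num) (by norm_num) (B6b.P6_13 hu0 hu1)
  rcases le_total (cc s) (84 / 125) with h14 | h14'
  · exact boxv (n := 6) (a := 3 / 5) (b := 84 / 125) (ζ := (7 / 8)) (g := (31 / 48)) (β := 3 / 16) (N3 := 3)
      (A := 7299 / 5000) (zm := 7 / 20) (L := 591 / 2500) (M := 1681 / 2500) (κ := 2761 / 1000) (τ := 21 / 10) (by norm_num) hμ' hs hl hT (by norm_num) hl1' hk hk0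
      (by norm_num) (by norm_num) (by norm_num) hR0 (rr_six hu0) h13' h14 (hvar (by linarith))
      (by norm_num) (by norm_num) (by norm_num) (by norm_num) (Or.inr (by norm_num)) (Or.inl (by norm_num)) (by norm_num) (by norm_num)
      (by norm_num) (by norm_num) (by norm_num) (by norm_num) (B6b.P6_14 hu0 hu1)
  rcases le_total (cc s) (767 / 1000) with h15 | h15'
  · exact boxv (n := 6) (a := 84 / 125) (b := 767 / 1000) (ζ := (7 / 8)) (g := (31 / 48)) (β := 3 / 16) (N3 := 3)
      (A := 13341 / 10000) (zm := 287 / 1000) (L := 1457 / 5000) (M := 6789 / 10000) (κ := 2817 / 1000) (τ := 19 / 10) (by norm_num) hμ' hs hl hT (by norm_num) hl1' hk hk0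
      (by norm_num) (by norm_num) (by norm_num) hR0 (rr_six hu0) h14' h15 (hvar (by linarith))
      (by norm_num) (by norm_num) (by norm_num) (by norm_num) (Or.inr (by norm_num)) (Or.inl (by norm_num)) (by norm_num) (by norm_num)
      (by norm_num) (by norm_num) (by norm_num) (by norm_num) (B6b.P6_15 hu0 hu1)
  rcases le_total (cc s) (877 / 1000) with h16 | h16'
  · exact boxv (n := 6) (a := 767 / 1000) (b := 877 / 1000) (ζ := (7 / 8)) (g := (31 / 48)) (β := 3 / 16) (N3 := 3)
      (A := 2951 / 2500) (zm := 2039 / 10000) (L := 1793 / 5000) (M := 6869 / 10000) (κ := 737 / 250) (τ := 8 / 5) (by norm_num) hμ' hs hl hT (by norm_num) hl1' hk hk0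
      (by norm_num) (by norm_num) (by norm_num) hR0 (rr_six hu0) h15' h16 (hvar (by linarith))
      (by norm_num) (by norm_num) (by norm_num) (by norm_num) (Or.inr (by norm_num)) (Or.inl (by norm_num)) (by norm_num) (by norm_num)
      (by norm_num) (by norm_num) (by norm_num) (by norm_num) (B6b.P6_16 hu0 hu1)
  rcases le_total (cc s) (197 / 200) with h17 | h17'
  · exact boxv (n := 6) (a := 877 / 1000) (b := 197 / 200) (ζ := (7 / 8)) (g := (31 / 48)) (β := 3 / 16) (N3 := 3)
      (A := 639 / 625) (zm := 1077 / 10000) (L := 4277 / 10000) (M := 1391 / 2000) (κ := 3359 / 1000) (τ := 11 / 10) (by norm_num) hμ' hs hl hT (by norm_num) hl1' hk hk0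
      (by norm_num) (by norm_num) (by norm_num) hR0 (rr_six hu0) h16' h17 (hvar (by linarith))
      (by norm_num) (by norm_num) (by norm_num) (by norm_num) (Or.inr (by norm_num)) (Or.inl (by norm_num)) (by norm_num) (by norm_num)
      (by norm_num) (by norm_num) (by norm_num) (by norm_num) (B6b.P6_17 hu0 hu1)
  · exact boxv (n := 6) (a := 197 / 200) (b := 1) (ζ := (7 / 8)) (g := (31 / 48)) (β := 3 / 16) (N3 := 3)
      (A := 1) (zm := 33 / 2500) (L := 7 / 16) (M := 6967 / 10000) (κ := 1209 / 125) (τ := 1) (by norm_num) hμ' hs hl hT (by norm_num) hl1' hk hk0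
      (by norm_num) (by norm_num) (by norm_num) hR0 (rr_six hu0) h17' hc1.le (hvar (by linarith))
      (by norm_num) (by norm_num) (by norm_num) (by norm_num) (Or.inr (by norm_num)) (Or.inl (by norm_num)) (by norm_num) (by norm_num)
      (by norm_num) (by norm_num) (by norm_num) (by norm_num) (B6b.P6_18 hu0 hu1)

end Crest.Agent.R230.WR
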