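import Mathlib

/-!
# Row 230, block B6, dimension 8: univariate certificates (generated)
-/

set_option autoImplicit false
set_option maxHeartbeats 1000000

namespace Crest.Agent.R230.B6b

theorem P7_1 {u : ℝ} (h0 : 0 ≤ u) (h1 : u ≤ 1) :
    0 < 4 * ((1 / 2) * (1 - u) * (1869 / 500) + (11 / 4) * u ^ 2) * ((8857 / 5000) - (6337 / 10000) * (1 - 38 / 100 * u - 176 / 1000 * u ^ 2 - 1 / 10 * u ^ 3) - 1 / 6 * (1 - u)) - (1 / 2) * (1 + (2 + (11 / 4)) * u) ^ 2 := by
  rcases le_total u (1 / 2) with h | h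
  · have k1 : 0 ≤ u := by linarith
    have k2 : 0 ≤ ((1 / 2) - u) := by linarith
    have key : 4 * ((1 / 2) * (1 - u) * (1869 / 500) + (11 / 4) * u ^ 2) * ((8857 / 5000) - (6337 / 10000) * (1 - 38 / 100 * u - 176 / 1000 * u ^ 2 - 1 / 10 * u ^ 3) - 1 / 6 * (1 - u)) - (1 / 2) * (1 + (2 + (11 / 4)) * u) ^ 2 =
        1 / 10000 +
        (16898363 / 78125) * ((1 / 2) - u) ^ 5 +
        (7328784057 / 7812500) * u * ((1 / 2) - u) ^ 4 +
        (367230056081 / 234375000) * u ^ 2 * ((1 / 2) - u) ^ 3 +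
        (117329776019 / 93750000) * u ^ 3 * ((1 / 2) - u) ^ 2 +
        (445161456793 / 937500000) * u ^ 4 * ((1 / 2) - u) +
        (16190923303 / 234375000) * u ^ 5 := by ring
    rw [key]
    positivity
  · have k1 : 0 ≤ (u - (1 / 2)) := by linarith
    have k2 : 0 ≤ (1 - u) := by linarith
    have key : 4 * ((1 / 2) * (1 - u) * (1869 / 500) + (11 / 4) * u ^ 2) * ((8857 / 5000) - (6337 / 10000) * (1 - 38 / 100 * u - 176 / 1000 * u ^ 2 - 1 / 10 * u ^ 3) - 1 / 6 * (1 - u)) - (1 / 2) * (1 + (2 + (11 / 4)) * u) ^ 2 =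
        1 / 10000 +
        (16190923303 / 234375000) * (1 - u) ^ 5 +
        (67491825109 / 312500000) * (u - (1 / 2)) * (1 - u) ^ 4 +
        (101276917163 / 468750000) * (u - (1 / 2)) ^ 2 * (1 - u) ^ 3 +
        (2836951281 / 39062500) * (u - (1 / 2)) ^ 3 * (1 - u) ^ 2 +
        (1204696963 / 58593750) * (u - (1 / 2)) ^ 4 * (1 - u) +
        (1390323 / 78125) * (u - (1 / 2)) ^ 5 := by ring
    rw [key]
    positivity

theorem P7_2 {u : ℝ} (h0 : 0 ≤ u) (h1 : u ≤ 1) :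
    0 < 4 * ((4579 / 10000) * (1 - u) * (1767 / 500) + (13 / 5) * u ^ 2) * ((8277 / 5000) - (3199 / 5000) * (1 - 38 / 100 * u - 176 / 1000 * u ^ 2 - 1 / 10 * u ^ 3) - 1 / 6 * (1 - u)) - (4579 / 10000) * (1 + (2 + (13 / 5)) * u) ^ 2 := by
  rcases le_total u (1 / 2) with h | h
  · have k1 : 0 ≤ u := by linarith
    have k2 : 0 ≤ ((1 / 2) - u) := by linarith
    have key : 4 * ((4579 / 10000) * (1 - u) * (1767 / 500) + (13 / 5) * u ^ 2) * ((8277 / 5000) - (3199 / 5000) * (1 - 38 / 100 * u - 176 / 1000 * u ^ 2 - 1 / 10 * u ^ 3) - 1 / 6 * (1 - u)) - (4579 / 10000) * (1 + (2 + (13 / 5)) * u) ^ 2 =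
        1 / 10000 +
        (15740746377 / 97656250) * ((1 / 2) - u) ^ 5 +
        (13535997837933 / 19531250000) * u * ((1 / 2) - u) ^ 4 +
        (666825407361389 / 585937500000) * u ^ 2 * ((1 / 2) - u) ^ 3 +
        (207076945716311 / 234375000000) * u ^ 3 * ((1 / 2) - u) ^ 2 +
        (751571651469367 / 2343750000000) * u ^ 4 * ((1 / 2) - u) +
        (103121508747853 / 2343750000000) * u ^ 5 := by ring
    rw [key]
    positivity
  rcases le_total u (3 / 4) with h | h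
  · have k1 : 0 ≤ (u - (1 / 2)) := by linarith
    have k2 : 0 ≤ ((3 / 4) - u) := by linarith
    have key : 4 * ((4579 / 10000) * (1 - u) * (1767 / 500) + (13 / 5) * u ^ 2) * ((8277 / 5000) - (3199 / 5000) * (1 - 38 / 100 * u - 176 / 1000 * u ^ 2 - 1 / 10 * u ^ 3) - 1 / 6 * (1 - u)) - (4579 / 10000) * (1 + (2 + (13 / 5)) * u) ^ 2 =
        1 / 10000 +
        (103121508747853 / 73242187500) * ((3 / 4) - u) ^ 5 +
        (198812744937107 / 36621093750) * (u - (1 / 2)) * ((3 / 4) - u) ^ 4 +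
        (583211356709369 / 73242187500) * (u - (1 / 2)) ^ 2 * ((3 / 4) - u) ^ 3 +
        (1613780833798463 / 292968750000) * (u - (1 / 2)) ^ 3 * ((3 / 4) - u) ^ 2 +
        (708585997157141 / 390625000000) * (u - (1 / 2)) ^ 4 * ((3 / 4) - u) +
        (96910807285233 / 390625000000) * (u - (1 / 2)) ^ 5 := by ring
    rw [key]
    positivity
  · have k1 : 0 ≤ (u - (3 / 4)) := by linarith
    have k2 : 0 ≤ (1 - u) := by linarith
    have key : 4 * ((4579 / 10000) * (1 - u) * (1767 / 500) + (13 / 5) * u ^ 2) * ((8277 / 5000) - (3199 / 5000) * (1 - 38 / 100 * u - 176 / 1000 * u ^ 2 - 1 / 10 * u ^ 3) - 1 / 6 * (1 - u)) - (4579 / 10000) * (1 + (2 + (13 / 5)) * u) ^ 2 =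
        1 / 10000 +
        (96910807285233 / 390625000000) * (1 - u) ^ 5 +
        (260522075695189 / 390625000000) * (u - (3 / 4)) * (1 - u) ^ 4 +
        (269589069412607 / 292968750000) * (u - (3 / 4)) ^ 2 * (1 - u) ^ 3 +
        (51242508029843 / 36621093750) * (u - (3 / 4)) ^ 3 * (1 - u) ^ 2 +
        (27067172691944 / 18310546875) * (u - (3 / 4)) ^ 4 * (1 - u) +
        (226947008 / 390625) * (u - (3 / 4)) ^ 5 := by ring
    rw [key]
    positivity

theorem P7_3 {u : ℝ} (h0 : 0 ≤ u) (h1 : u ≤ 1) :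
    0 < 4 * ((2147 / 5000) * (1 - u) * (831 / 250) + (12 / 5) * u ^ 2) * ((15813 / 10000) - (6443 / 10000) * (1 - 38 / 100 * u - 176 / 1000 * u ^ 2 - 1 / 10 * u ^ 3) - 1 / 6 * (1 - u)) - (2147 / 5000) * (1 + (2 + (12 / 5)) * u) ^ 2 := by
  rcases le_total u (1 / 2) with h | h
  · have k1 : 0 ≤ u := by linarith
    have k2 : 0 ≤ ((1 / 2) - u) := by linarith
    have key : 4 * ((2147 / 5000) * (1 - u) * (831 / 250) + (12 / 5) * u ^ 2) * ((15813 / 10000) - (6443 / 10000) * (1 - 38 / 100 * u - 176 / 1000 * u ^ 2 - 1 / 10 * u ^ 3) - 1 / 6 * (1 - u)) - (2147 / 5000) * (1 + (2 + (12 / 5)) * u) ^ 2 =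
        1 / 10000 +
        (1240176859 / 9765625) * ((1 / 2) - u) ^ 5 +
        (5290352387969 / 9765625000) * u * ((1 / 2) - u) ^ 4 +
        (85549574367659 / 97656250000) * u ^ 2 * ((1 / 2) - u) ^ 3 +
        (25871675060441 / 39062500000) * u ^ 3 * ((1 / 2) - u) ^ 2 +
        (89822711983177 / 390625000000) * u ^ 4 * ((1 / 2) - u) +
        (11538850190643 / 390625000000) * u ^ 5 := by ring
    rw [key]
    positivity
  rcases le_total u (3 / 4) with h | h
  · have k1 : 0 ≤ (u - (1 / 2)) := by linarith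
    have k2 : 0 ≤ ((3 / 4) - u) := by linarith
    have key : 4 * ((2147 / 5000) * (1 - u) * (831 / 250) + (12 / 5) * u ^ 2) * ((15813 / 10000) - (6443 / 10000) * (1 - 38 / 100 * u - 176 / 1000 * u ^ 2 - 1 / 10 * u ^ 3) - 1 / 6 * (1 - u)) - (2147 / 5000) * (1 + (2 + (12 / 5)) * u) ^ 2 =
        1 / 10000 +
        (11538850190643 / 12207031250) * ((3 / 4) - u) ^ 5 +
        (20815010219117 / 6103515625) * (u - (1 / 2)) * ((3 / 4) - u) ^ 4 +
        (54835180991039 / 12207031250) * (u - (1 / 2)) ^ 2 * ((3 / 4) - u) ^ 3 +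
        (125657781175553 / 48828125000) * (u - (1 / 2)) ^ 3 * ((3 / 4) - u) ^ 2 +
        (116158010041313 / 195312500000) * (u - (1 / 2)) ^ 4 * ((3 / 4) - u) +
        (9551863484269 / 195312500000) * (u - (1 / 2)) ^ 5 := by ring
    rw [key]
    positivity
  rcases le_total u (13 / 16) with h | h
  · have k1 : 0 ≤ (u - (3 / 4)) := by linarith
    have k2 : 0 ≤ ((13 / 16) - u) := by linarith
    have key : 4 * ((2147 / 5000) * (1 - u) * (831 / 250) + (12 / 5) * u ^ 2) * ((15813 / 10000) - (6443 / 10000) * (1 - 38 / 100 * u - 176 / 1000 * u ^ 2 - 1 / 10 * u ^ 3) - 1 / 6 * (1 - u)) - (2147 / 5000) * (1 + (2 + (12 / 5)) * u) ^ 2 =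
        1 / 10000 +
        (305659631496608 / 6103515625) * ((13 / 16) - u) ^ 5 +
        (981108616523296 / 6103515625) * (u - (3 / 4)) * ((13 / 16) - u) ^ 4 +
        (1134873589886404 / 6103515625) * (u - (3 / 4)) ^ 2 * ((13 / 16) - u) ^ 3 +
        (589115911907928 / 6103515625) * (u - (3 / 4)) ^ 3 * ((13 / 16) - u) ^ 2 +
        (1360354088795529 / 48828125000) * (u - (3 / 4)) ^ 4 * ((13 / 16) - u) +
        (322853833972333 / 48828125000) * (u - (3 / 4)) ^ 5 := by ring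
    rw [key]
    positivity
  rcases le_total u (7 / 8) with h | h
  · have k1 : 0 ≤ (u - (13 / 16)) := by linarith
    have k2 : 0 ≤ ((7 / 8) - u) := by linarith
    have key : 4 * ((2147 / 5000) * (1 - u) * (831 / 250) + (12 / 5) * u ^ 2) * ((15813 / 10000) - (6443 / 10000) * (1 - 38 / 100 * u - 176 / 1000 * u ^ 2 - 1 / 10 * u ^ 3) - 1 / 6 * (1 - u)) - (2147 / 5000) * (1 + (2 + (12 / 5)) * u) ^ 2 =
        1 / 10000 +
        (322853833972333 / 48828125000) * ((7 / 8) - u) ^ 5 +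
        (1868184250927801 / 48828125000) * (u - (13 / 16)) * ((7 / 8) - u) ^ 4 +
        (843030992974064 / 6103515625) * (u - (13 / 16)) ^ 2 * ((7 / 8) - u) ^ 3 +
        (1547297954897907 / 6103515625) * (u - (13 / 16)) ^ 3 * ((7 / 8) - u) ^ 2 +
        (259625436882806 / 1220703125) * (u - (13 / 16)) ^ 4 * ((7 / 8) - u) +
        (400697695566066 / 6103515625) * (u - (13 / 16)) ^ 5 := by ring
    rw [key]
    positivity
  · have k1 : 0 ≤ (u - (7 / 8)) := by linarith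
    have k2 : 0 ≤ (1 - u) := by linarith
    have key : 4 * ((2147 / 5000) * (1 - u) * (831 / 250) + (12 / 5) * u ^ 2) * ((15813 / 10000) - (6443 / 10000) * (1 - 38 / 100 * u - 176 / 1000 * u ^ 2 - 1 / 10 * u ^ 3) - 1 / 6 * (1 - u)) - (2147 / 5000) * (1 + (2 + (12 / 5)) * u) ^ 2 =
        1 / 10000 +
        (200348847783033 / 97656250000) * (1 - u) ^ 5 +
        (341421106466293 / 19531250000) * (u - (7 / 8)) * (1 - u) ^ 4 +
        (693558249662553 / 12207031250) * (u - (7 / 8)) ^ 2 * (1 - u) ^ 3 +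
        (105932001991592 / 1220703125) * (u - (7 / 8)) ^ 3 * (1 - u) ^ 2 +
        (383317338715648 / 6103515625) * (u - (7 / 8)) ^ 4 * (1 - u) +
        (6801147904 / 390625) * (u - (7 / 8)) ^ 5 := by ring
    rw [key]
    positivity

theorem P7_4 {u : ℝ} (h0 : 0 ≤ u) (h1 : u ≤ 1) :
    0 < 4 * ((2043 / 5000) * (1 - u) * (653 / 200) + (12 / 5) * u ^ 2) * ((15621 / 10000) - (1613 / 2500) * (1 - 38 / 100 * u - 176 / 1000 * u ^ 2 - 1 / 10 * u ^ 3) - 1 / 6 * (1 - u)) - (2043 / 5000) * (1 + (2 + (12 / 5)) * u) ^ 2 := by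
  rcases le_total u (1 / 2) with h | h
  · have k1 : 0 ≤ u := by linarith
    have k2 : 0 ≤ ((1 / 2) - u) := by linarith
    have key : 4 * ((2043 / 5000) * (1 - u) * (653 / 200) + (12 / 5) * u ^ 2) * ((15621 / 10000) - (1613 / 2500) * (1 - 38 / 100 * u - 176 / 1000 * u ^ 2 - 1 / 10 * u ^ 3) - 1 / 6 * (1 - u)) - (2043 / 5000) * (1 + (2 + (12 / 5)) * u) ^ 2 =
        1 / 10000 +
        (8986955351 / 78125000) * ((1 / 2) - u) ^ 5 +
        (1909148867201 / 3906250000) * u * ((1 / 2) - u) ^ 4 +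
        (15356212063243 / 19531250000) * u ^ 2 * ((1 / 2) - u) ^ 3 +
        (4619999116657 / 7812500000) * u ^ 3 * ((1 / 2) - u) ^ 2 +
        (16039106259629 / 78125000000) * u ^ 4 * ((1 / 2) - u) +
        (2116331353011 / 78125000000) * u ^ 5 := by ring
    rw [key]
    positivity
  · have k1 : 0 ≤ (u - (1 / 2)) := by linarith
    have k2 : 0 ≤ (1 - u) := by linarith
    have key : 4 * ((2043 / 5000) * (1 - u) * (653 / 200) + (12 / 5) * u ^ 2) * ((15621 / 10000) - (1613 / 2500) * (1 - 38 / 100 * u - 176 / 1000 * u ^ 2 - 1 / 10 * u ^ 3) - 1 / 6 * (1 - u)) - (2043 / 5000) * (1 + (2 + (12 / 5)) * u) ^ 2 =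
        1 / 10000 +
        (2116331353011 / 78125000000) * (1 - u) ^ 5 +
        (5124207270481 / 78125000000) * (u - (1 / 2)) * (1 - u) ^ 4 +
        (1270197604989 / 39062500000) * (u - (1 / 2)) ^ 2 * (1 - u) ^ 3 +
        (17882094529 / 9765625000) * (u - (1 / 2)) ^ 3 * (1 - u) ^ 2 +
        (734646565931 / 19531250000) * (u - (1 / 2)) ^ 4 * (1 - u) +
        (11882194 / 390625) * (u - (1 / 2)) ^ 5 := by ring
    rw [key]
    positivity

theorem P7_5 {u : ℝ} (h0 : 0 ≤ u) (h1 : u ≤ 1) :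
    0 < 4 * ((4029 / 10000) * (1 - u) * (3159 / 1000) + (47 / 20) * u ^ 2) * ((15303 / 10000) - (1617 / 2500) * (1 - 38 / 100 * u - 176 / 1000 * u ^ 2 - 1 / 10 * u ^ 3) - 1 / 6 * (1 - u)) - (4029 / 10000) * (1 + (2 + (47 / 20)) * u) ^ 2 := by
  rcases le_total u (1 / 2) with h | h
  · have k1 : 0 ≤ u := by linarith
    have k2 : 0 ≤ ((1 / 2) - u) := by linarith
    have key : 4 * ((4029 / 10000) * (1 - u) * (3159 / 1000) + (47 / 20) * u ^ 2) * ((15303 / 10000) - (1617 / 2500) * (1 - 38 / 100 * u - 176 / 1000 * u ^ 2 - 1 / 10 * u ^ 3) - 1 / 6 * (1 - u)) - (4029 / 10000) * (1 + (2 + (47 / 20)) * u) ^ 2 =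
        1 / 10000 +
        (16232151637 / 156250000) * ((1 / 2) - u) ^ 5 +
        (17130904752131 / 39062500000) * u * ((1 / 2) - u) ^ 4 +
        (203935475064737 / 292968750000) * u ^ 2 * ((1 / 2) - u) ^ 3 +
        (119614946898001 / 234375000000) * u ^ 3 * ((1 / 2) - u) ^ 2 +
        (395325697118747 / 2343750000000) * u ^ 4 * ((1 / 2) - u) +
        (47712999333773 / 2343750000000) * u ^ 5 := by ring
    rw [key]
    positivity
  rcases le_total u (3 / 4) with h | h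
  · have k1 : 0 ≤ (u - (1 / 2)) := by linarith
    have k2 : 0 ≤ ((3 / 4) - u) := by linarith
    have key : 4 * ((4029 / 10000) * (1 - u) * (3159 / 1000) + (47 / 20) * u ^ 2) * ((15303 / 10000) - (1617 / 2500) * (1 - 38 / 100 * u - 176 / 1000 * u ^ 2 - 1 / 10 * u ^ 3) - 1 / 6 * (1 - u)) - (4029 / 10000) * (1 + (2 + (47 / 20)) * u) ^ 2 =
        1 / 10000 +
        (47712999333773 / 73242187500) * ((3 / 4) - u) ^ 5 +
        (40046161610981 / 18310546875) * (u - (1 / 2)) * ((3 / 4) - u) ^ 4 +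
        (93301380449327 / 36621093750) * (u - (1 / 2)) ^ 2 * ((3 / 4) - u) ^ 3 +
        (334391798004283 / 292968750000) * (u - (1 / 2)) ^ 3 * ((3 / 4) - u) ^ 2 +
        (54525528611381 / 390625000000) * (u - (1 / 2)) ^ 4 * ((3 / 4) - u) +
        (4273235019353 / 390625000000) * (u - (1 / 2)) ^ 5 := by ring
    rw [key]
    positivity
  rcases le_total u (7 / 8) with h | h
  · have k1 : 0 ≤ (u - (3 / 4)) := by linarith
    have k2 : 0 ≤ ((7 / 8) - u) := by linarith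
    have key : 4 * ((4029 / 10000) * (1 - u) * (3159 / 1000) + (47 / 20) * u ^ 2) * ((15303 / 10000) - (1617 / 2500) * (1 - 38 / 100 * u - 176 / 1000 * u ^ 2 - 1 / 10 * u ^ 3) - 1 / 6 * (1 - u)) - (4029 / 10000) * (1 + (2 + (47 / 20)) * u) ^ 2 =
        1 / 10000 +
        (4273235019353 / 12207031250) * ((7 / 8) - u) ^ 5 +
        (4786498339457 / 12207031250) * (u - (3 / 4)) * ((7 / 8) - u) ^ 4 +
        (264210808616363 / 73242187500) * (u - (3 / 4)) ^ 2 * ((7 / 8) - u) ^ 3 +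
        (920161321101983 / 73242187500) * (u - (3 / 4)) ^ 3 * ((7 / 8) - u) ^ 2 +
        (1657822551944203 / 117187500000) * (u - (3 / 4)) ^ 4 * ((7 / 8) - u) +
        (3017228265783563 / 585937500000) * (u - (3 / 4)) ^ 5 := by ring
    rw [key]
    positivity
  · have k1 : 0 ≤ (u - (7 / 8)) := by linarith
    have k2 : 0 ≤ (1 - u) := by linarith
    have key : 4 * ((4029 / 10000) * (1 - u) * (3159 / 1000) + (47 / 20) * u ^ 2) * ((15303 / 10000) - (1617 / 2500) * (1 - 38 / 100 * u - 176 / 1000 * u ^ 2 - 1 / 10 * u ^ 3) - 1 / 6 * (1 - u)) - (4029 / 10000) * (1 + (2 + (47 / 20)) * u) ^ 2 =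
        1 / 10000 +
        (3017228265783563 / 585937500000) * (1 - u) ^ 5 +
        (1458877993207641 / 39062500000) * (u - (7 / 8)) * (1 - u) ^ 4 +
        (7717189890298783 / 73242187500) * (u - (7 / 8)) ^ 2 * (1 - u) ^ 3 +
        (176028358277802 / 1220703125) * (u - (7 / 8)) ^ 3 * (1 - u) ^ 2 +
        (1757410806936664 / 18310546875) * (u - (7 / 8)) ^ 4 * (1 - u) +
        (9743645056 / 390625) * (u - (7 / 8)) ^ 5 := by ring
    rw [key]
    positivity

theorem P7_6 {u : ℝ} (h0 : 0 ≤ u) (h1 : u ≤ 1) :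
    0 < 4 * ((48 / 125) * (1 - u) * 3 + (9 / 4) * u ^ 2) * ((14979 / 10000) - (6483 / 10000) * (1 - 38 / 100 * u - 176 / 1000 * u ^ 2 - 1 / 10 * u ^ 3) - 1 / 6 * (1 - u)) - (48 / 125) * (1 + (2 + (9 / 4)) * u) ^ 2 := by
  rcases le_total u (1 / 2) with h | h
  · have k1 : 0 ≤ u := by linarith
    have k2 : 0 ≤ ((1 / 2) - u) := by linarith
    have key : 4 * ((48 / 125) * (1 - u) * 3 + (9 / 4) * u ^ 2) * ((14979 / 10000) - (6483 / 10000) * (1 - 38 / 100 * u - 176 / 1000 * u ^ 2 - 1 / 10 * u ^ 3) - 1 / 6 * (1 - u)) - (48 / 125) * (1 + (2 + (9 / 4)) * u) ^ 2 =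
        1 / 10000 +
        (6907142 / 78125) * ((1 / 2) - u) ^ 5 +
        (722525326 / 1953125) * u * ((1 / 2) - u) ^ 4 +
        (5647280368 / 9765625) * u ^ 2 * ((1 / 2) - u) ^ 3 +
        (6458148253 / 15625000) * u ^ 3 * ((1 / 2) - u) ^ 2 +
        (2557218127 / 19531250) * u ^ 4 * ((1 / 2) - u) +
        (4672346963 / 312500000) * u ^ 5 := by ring
    rw [key]
    positivity
  rcases le_total u (5 / 8) with h | h
  · have k1 : 0 ≤ (u - (1 / 2)) := by linarith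
    have k2 : 0 ≤ ((5 / 8) - u) := by linarith
    have key : 4 * ((48 / 125) * (1 - u) * 3 + (9 / 4) * u ^ 2) * ((14979 / 10000) - (6483 / 10000) * (1 - 38 / 100 * u - 176 / 1000 * u ^ 2 - 1 / 10 * u ^ 3) - 1 / 6 * (1 - u)) - (48 / 125) * (1 + (2 + (9 / 4)) * u) ^ 2 =
        1 / 10000 +
        (149515102816 / 9765625) * ((5 / 8) - u) ^ 5 +
        (607145472344 / 9765625) * (u - (1 / 2)) * ((5 / 8) - u) ^ 4 +
        (191575962068 / 1953125) * (u - (1 / 2)) ^ 2 * ((5 / 8) - u) ^ 3 +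
        (729920851537 / 9765625) * (u - (1 / 2)) ^ 3 * ((5 / 8) - u) ^ 2 +
        (85561438291 / 3125000) * (u - (1 / 2)) ^ 4 * ((5 / 8) - u) +
        (48273640811 / 12500000) * (u - (1 / 2)) ^ 5 := by ring
    rw [key]
    positivity
  rcases le_total u (11 / 16) with h | h
  · have k1 : 0 ≤ (u - (5 / 8)) := by linarith
    have k2 : 0 ≤ ((11 / 16) - u) := by linarith
    have key : 4 * ((48 / 125) * (1 - u) * 3 + (9 / 4) * u ^ 2) * ((14979 / 10000) - (6483 / 10000) * (1 - 38 / 100 * u - 176 / 1000 * u ^ 2 - 1 / 10 * u ^ 3) - 1 / 6 * (1 - u)) - (48 / 125) * (1 + (2 + (9 / 4)) * u) ^ 2 =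
        1 / 10000 +
        (48273640811 / 390625) * ((11 / 16) - u) ^ 5 +
        (381858859001 / 781250) * (u - (5 / 8)) * ((11 / 16) - u) ^ 4 +
        (14649716562367 / 19531250) * (u - (5 / 8)) ^ 2 * ((11 / 16) - u) ^ 3 +
        (21690180007313 / 39062500) * (u - (5 / 8)) ^ 3 * ((11 / 16) - u) ^ 2 +
        (30874426926271 / 156250000) * (u - (5 / 8)) ^ 4 * ((11 / 16) - u) +
        (1699686034937 / 62500000) * (u - (5 / 8)) ^ 5 := by ring
    rw [key]
    positivity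
  rcases le_total u (3 / 4) with h | h
  · have k1 : 0 ≤ (u - (11 / 16)) := by linarith
    have k2 : 0 ≤ ((3 / 4) - u) := by linarith
    have key : 4 * ((48 / 125) * (1 - u) * 3 + (9 / 4) * u ^ 2) * ((14979 / 10000) - (6483 / 10000) * (1 - 38 / 100 * u - 176 / 1000 * u ^ 2 - 1 / 10 * u ^ 3) - 1 / 6 * (1 - u)) - (48 / 125) * (1 + (2 + (9 / 4)) * u) ^ 2 =
        1 / 10000 +
        (1699686034937 / 62500000) * ((3 / 4) - u) ^ 5 +
        (5808861973577 / 78125000) * (u - (11 / 16)) * ((3 / 4) - u) ^ 4 +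
        (608369257049 / 9765625) * (u - (11 / 16)) ^ 2 * ((3 / 4) - u) ^ 3 +
        (144846777092 / 9765625) * (u - (11 / 16)) ^ 3 * ((3 / 4) - u) ^ 2 +
        (41564218888 / 9765625) * (u - (11 / 16)) ^ 4 * ((3 / 4) - u) +
        (44560593056 / 9765625) * (u - (11 / 16)) ^ 5 := by ring
    rw [key]
    positivity
  · have k1 : 0 ≤ (u - (3 / 4)) := by linarith
    have k2 : 0 ≤ (1 - u) := by linarith
    have key : 4 * ((48 / 125) * (1 - u) * 3 + (9 / 4) * u ^ 2) * ((14979 / 10000) - (6483 / 10000) * (1 - 38 / 100 * u - 176 / 1000 * u ^ 2 - 1 / 10 * u ^ 3) - 1 / 6 * (1 - u)) - (48 / 125) * (1 + (2 + (9 / 4)) * u) ^ 2 =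
        1 / 10000 +
        (1392518533 / 312500000) * (1 - u) ^ 5 +
        (7404358991 / 78125000) * (u - (3 / 4)) * (1 - u) ^ 4 +
        (19790154661 / 19531250) * (u - (3 / 4)) ^ 2 * (1 - u) ^ 3 +
        (25966605506 / 9765625) * (u - (3 / 4)) ^ 3 * (1 - u) ^ 2 +
        (25846490896 / 9765625) * (u - (3 / 4)) ^ 4 * (1 - u) +
        (71189056 / 78125) * (u - (3 / 4)) ^ 5 := by ring
    rw [key]
    positivity

theorem P7_7 {u : ℝ} (h0 : 0 ≤ u) (h1 : u ≤ 1) :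
    0 < 4 * ((179 / 500) * (1 - u) * (2957 / 1000) + (9 / 4) * u ^ 2) * ((7439 / 5000) - (811 / 1250) * (1 - 38 / 100 * u - 176 / 1000 * u ^ 2 - 1 / 10 * u ^ 3) - 1 / 6 * (1 - u)) - (179 / 500) * (1 + (2 + (9 / 4)) * u) ^ 2 := by
  rcases le_total u (1 / 2) with h | h
  · have k1 : 0 ≤ u := by linarith
    have k2 : 0 ≤ ((1 / 2) - u) := by linarith
    have key : 4 * ((179 / 500) * (1 - u) * (2957 / 1000) + (9 / 4) * u ^ 2) * ((7439 / 5000) - (811 / 1250) * (1 - 38 / 100 * u - 176 / 1000 * u ^ 2 - 1 / 10 * u ^ 3) - 1 / 6 * (1 - u)) - (179 / 500) * (1 + (2 + (9 / 4)) * u) ^ 2 =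
        1 / 10000 +
        (933316651 / 11718750) * ((1 / 2) - u) ^ 5 +
        (972572286937 / 2929687500) * u * ((1 / 2) - u) ^ 4 +
        (15175859491057 / 29296875000) * u ^ 2 * ((1 / 2) - u) ^ 3 +
        (1091749756717 / 2929687500) * u ^ 3 * ((1 / 2) - u) ^ 2 +
        (7175938647323 / 58593750000) * u ^ 4 * ((1 / 2) - u) +
        (942014073857 / 58593750000) * u ^ 5 := by ring
    rw [key]
    positivity
  · have k1 : 0 ≤ (u - (1 / 2)) := by linarith
    have k2 : 0 ≤ (1 - u) := by linarith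
    have key : 4 * ((179 / 500) * (1 - u) * (2957 / 1000) + (9 / 4) * u ^ 2) * ((7439 / 5000) - (811 / 1250) * (1 - 38 / 100 * u - 176 / 1000 * u ^ 2 - 1 / 10 * u ^ 3) - 1 / 6 * (1 - u)) - (179 / 500) * (1 + (2 + (9 / 4)) * u) ^ 2 =
        1 / 10000 +
        (942014073857 / 58593750000) * (1 - u) ^ 5 +
        (748067363749 / 19531250000) * (u - (1 / 2)) * (1 - u) ^ 4 +
        (175670742503 / 4882812500) * (u - (1 / 2)) ^ 2 * (1 - u) ^ 3 +
        (1898425098367 / 29296875000) * (u - (1 / 2)) ^ 3 * (1 - u) ^ 2 +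
        (482966718049 / 4882812500) * (u - (1 / 2)) ^ 4 * (1 - u) +
        (7570201 / 156250) * (u - (1 / 2)) ^ 5 := by ring
    rw [key]
    positivity

theorem P7_8 {u : ℝ} (h0 : 0 ≤ u) (h1 : u ≤ 1) :
    0 < 4 * ((7 / 20) * (1 - u) * (3563 / 1000) + (9 / 4) * u ^ 2) * ((2781 / 2000) - (1307 / 2000) * (1 - 38 / 100 * u - 176 / 1000 * u ^ 2 - 1 / 10 * u ^ 3) - 1 / 6 * (1 - u)) - (7 / 20) * (1 + (2 + (9 / 4)) * u) ^ 2 := by
  rcases le_total u (1 / 2) with h | h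
  · have k1 : 0 ≤ u := by linarith
    have k2 : 0 ≤ ((1 / 2) - u) := by linarith
    have key : 4 * ((7 / 20) * (1 - u) * (3563 / 1000) + (9 / 4) * u ^ 2) * ((2781 / 2000) - (1307 / 2000) * (1 - 38 / 100 * u - 176 / 1000 * u ^ 2 - 1 / 10 * u ^ 3) - 1 / 6 * (1 - u)) - (7 / 20) * (1 + (2 + (9 / 4)) * u) ^ 2 =
        1 / 10000 +
        (37422551 / 468750) * ((1 / 2) - u) ^ 5 +
        (31797775459 / 93750000) * u * ((1 / 2) - u) ^ 4 +
        (503320709149 / 937500000) * u ^ 2 * ((1 / 2) - u) ^ 3 +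
        (145449487051 / 375000000) * u ^ 3 * ((1 / 2) - u) ^ 2 +
        (465202003147 / 3750000000) * u ^ 4 * ((1 / 2) - u) +
        (53664921373 / 3750000000) * u ^ 5 := by ring
    rw [key]
    positivity
  rcases le_total u (5 / 8) with h | h
  · have k1 : 0 ≤ (u - (1 / 2)) := by linarith
    have k2 : 0 ≤ ((5 / 8) - u) := by linarith
    have key : 4 * ((7 / 20) * (1 - u) * (3563 / 1000) + (9 / 4) * u ^ 2) * ((2781 / 2000) - (1307 / 2000) * (1 - 38 / 100 * u - 176 / 1000 * u ^ 2 - 1 / 10 * u ^ 3) - 1 / 6 * (1 - u)) - (7 / 20) * (1 + (2 + (9 / 4)) * u) ^ 2 =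
        1 / 10000 +
        (429319370984 / 29296875) * ((5 / 8) - u) ^ 5 +
        (584280687452 / 9765625) * (u - (1 / 2)) * ((5 / 8) - u) ^ 4 +
        (185556171694 / 1953125) * (u - (1 / 2)) ^ 2 * ((5 / 8) - u) ^ 3 +
        (8552495732627 / 117187500) * (u - (1 / 2)) ^ 3 * ((5 / 8) - u) ^ 2 +
        (337707675437 / 12500000) * (u - (1 / 2)) ^ 4 * ((5 / 8) - u) +
        (6038162461 / 1562500) * (u - (1 / 2)) ^ 5 := by ring
    rw [key]
    positivity
  rcases le_total u (3 / 4) with h | h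
  · have k1 : 0 ≤ (u - (5 / 8)) := by linarith
    have k2 : 0 ≤ ((3 / 4) - u) := by linarith
    have key : 4 * ((7 / 20) * (1 - u) * (3563 / 1000) + (9 / 4) * u ^ 2) * ((2781 / 2000) - (1307 / 2000) * (1 - 38 / 100 * u - 176 / 1000 * u ^ 2 - 1 / 10 * u ^ 3) - 1 / 6 * (1 - u)) - (7 / 20) * (1 + (2 + (9 / 4)) * u) ^ 2 =
        1 / 10000 +
        (6038162461 / 1562500) * ((3 / 4) - u) ^ 5 +
        (145345321443 / 12500000) * (u - (5 / 8)) * ((3 / 4) - u) ^ 4 +
        (334726864463 / 29296875) * (u - (5 / 8)) ^ 2 * ((3 / 4) - u) ^ 3 +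
        (142117295599 / 39062500) * (u - (5 / 8)) ^ 3 * ((3 / 4) - u) ^ 2 +
        (2042330774 / 9765625) * (u - (5 / 8)) ^ 4 * ((3 / 4) - u) +
        (13691130109 / 58593750) * (u - (5 / 8)) ^ 5 := by ring
    rw [key]
    positivity
  · have k1 : 0 ≤ (u - (3 / 4)) := by linarith
    have k2 : 0 ≤ (1 - u) := by linarith
    have key : 4 * ((7 / 20) * (1 - u) * (3563 / 1000) + (9 / 4) * u ^ 2) * ((2781 / 2000) - (1307 / 2000) * (1 - 38 / 100 * u - 176 / 1000 * u ^ 2 - 1 / 10 * u ^ 3) - 1 / 6 * (1 - u)) - (7 / 20) * (1 + (2 + (9 / 4)) * u) ^ 2 =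
        1 / 10000 +
        (13691130109 / 1875000000) * (1 - u) ^ 5 +
        (60286327449 / 625000000) * (u - (3 / 4)) * (1 - u) ^ 4 +
        (149234154329 / 156250000) * (u - (3 / 4)) ^ 2 * (1 - u) ^ 3 +
        (146621216213 / 58593750) * (u - (3 / 4)) ^ 3 * (1 - u) ^ 2 +
        (24417546968 / 9765625) * (u - (3 / 4)) ^ 4 * (1 - u) +
        (13508624 / 15625) * (u - (3 / 4)) ^ 5 := by ring
    rw [key]
    positivity

theorem P7_9 {u : ℝ} (h0 : 0 ≤ u) (h1 : u ≤ 1) :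
    0 < 4 * ((11 / 40) * (1 - u) * (3621 / 1000) + (19 / 10) * u ^ 2) * ((6179 / 5000) - (6611 / 10000) * (1 - 38 / 100 * u - 176 / 1000 * u ^ 2 - 1 / 10 * u ^ 3) - 1 / 6 * (1 - u)) - (11 / 40) * (1 + (2 + (19 / 10)) * u) ^ 2 := by
  rcases le_total u (1 / 2) with h | h
  · have k1 : 0 ≤ u := by linarith
    have k2 : 0 ≤ ((1 / 2) - u) := by linarith
    have key : 4 * ((11 / 40) * (1 - u) * (3621 / 1000) + (19 / 10) * u ^ 2) * ((6179 / 5000) - (6611 / 10000) * (1 - 38 / 100 * u - 176 / 1000 * u ^ 2 - 1 / 10 * u ^ 3) - 1 / 6 * (1 - u)) - (11 / 40) * (1 + (2 + (19 / 10)) * u) ^ 2 =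
        1 / 10000 +
        (135013757 / 3125000) * ((1 / 2) - u) ^ 5 +
        (56978072729 / 312500000) * u * ((1 / 2) - u) ^ 4 +
        (2615751638107 / 9375000000) * u ^ 2 * ((1 / 2) - u) ^ 3 +
        (701282785993 / 3750000000) * u ^ 3 * ((1 / 2) - u) ^ 2 +
        (1931857898921 / 37500000000) * u ^ 4 * ((1 / 2) - u) +
        (183674297939 / 37500000000) * u ^ 5 := by ring
    rw [key]
    positivity
  rcases le_total u (5 / 8) with h | h
  · have k1 : 0 ≤ (u - (1 / 2)) := by linarith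
    have k2 : 0 ≤ ((5 / 8) - u) := by linarith
    have key : 4 * ((11 / 40) * (1 - u) * (3621 / 1000) + (19 / 10) * u ^ 2) * ((6179 / 5000) - (6611 / 10000) * (1 - 38 / 100 * u - 176 / 1000 * u ^ 2 - 1 / 10 * u ^ 3) - 1 / 6 * (1 - u)) - (11 / 40) * (1 + (2 + (19 / 10)) * u) ^ 2 =
        1 / 10000 +
        (734697191756 / 146484375) * ((5 / 8) - u) ^ 5 +
        (886666516518 / 48828125) * (u - (1 / 2)) * ((5 / 8) - u) ^ 4 +
        (714712218313 / 29296875) * (u - (1 / 2)) ^ 2 * ((5 / 8) - u) ^ 3 +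
        (5757266488687 / 390625000) * (u - (1 / 2)) ^ 3 * ((5 / 8) - u) ^ 2 +
        (1448904971873 / 375000000) * (u - (1 / 2)) ^ 4 * ((5 / 8) - u) +
        (47219971559 / 125000000) * (u - (1 / 2)) ^ 5 := by ring
    rw [key]
    positivity
  rcases le_total u (11 / 16) with h | h
  · have k1 : 0 ≤ (u - (5 / 8)) := by linarith
    have k2 : 0 ≤ ((11 / 16) - u) := by linarith
    have key : 4 * ((11 / 40) * (1 - u) * (3621 / 1000) + (19 / 10) * u ^ 2) * ((6179 / 5000) - (6611 / 10000) * (1 - 38 / 100 * u - 176 / 1000 * u ^ 2 - 1 / 10 * u ^ 3) - 1 / 6 * (1 - u)) - (11 / 40) * (1 + (2 + (19 / 10)) * u) ^ 2 =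
        1 / 10000 +
        (47219971559 / 3906250) * ((11 / 16) - u) ^ 5 +
        (337996874141 / 11718750) * (u - (5 / 8)) * ((11 / 16) - u) ^ 4 +
        (3706285364973 / 195312500) * (u - (5 / 8)) ^ 2 * ((11 / 16) - u) ^ 3 +
        (1880545467179 / 292968750) * (u - (5 / 8)) ^ 3 * ((11 / 16) - u) ^ 2 +
        (16988136242399 / 1562500000) * (u - (5 / 8)) ^ 4 * ((11 / 16) - u) +
        (6258820278967 / 937500000) * (u - (5 / 8)) ^ 5 := by ring
    rw [key]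
    positivity
  rcases le_total u (3 / 4) with h | h
  · have k1 : 0 ≤ (u - (11 / 16)) := by linarith
    have k2 : 0 ≤ ((3 / 4) - u) := by linarith
    have key : 4 * ((11 / 40) * (1 - u) * (3621 / 1000) + (19 / 10) * u ^ 2) * ((6179 / 5000) - (6611 / 10000) * (1 - 38 / 100 * u - 176 / 1000 * u ^ 2 - 1 / 10 * u ^ 3) - 1 / 6 * (1 - u)) - (11 / 40) * (1 + (2 + (19 / 10)) * u) ^ 2 =
        1 / 10000 +
        (6258820278967 / 937500000) * ((3 / 4) - u) ^ 5 +
        (261976605221153 / 4687500000) * (u - (11 / 16)) * ((3 / 4) - u) ^ 4 +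
        (27316797295334 / 146484375) * (u - (11 / 16)) ^ 2 * ((3 / 4) - u) ^ 3 +
        (42873869319497 / 146484375) * (u - (11 / 16)) ^ 3 * ((3 / 4) - u) ^ 2 +
        (10553407464936 / 48828125) * (u - (11 / 16)) ^ 4 * ((3 / 4) - u) +
        (2964798575032 / 48828125) * (u - (11 / 16)) ^ 5 := by ring
    rw [key]
    positivity
  · have k1 : 0 ≤ (u - (3 / 4)) := by linarith
    have k2 : 0 ≤ (1 - u) := by linarith
    have key : 4 * ((11 / 40) * (1 - u) * (3621 / 1000) + (19 / 10) * u ^ 2) * ((6179 / 5000) - (6611 / 10000) * (1 - 38 / 100 * u - 176 / 1000 * u ^ 2 - 1 / 10 * u ^ 3) - 1 / 6 * (1 - u)) - (11 / 40) * (1 + (2 + (19 / 10)) * u) ^ 2 =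
        1 / 10000 +
        (370599821879 / 6250000000) * (1 - u) ^ 5 +
        (3988291814507 / 6250000000) * (u - (3 / 4)) * (1 - u) ^ 4 +
        (11773845275041 / 4687500000) * (u - (3 / 4)) ^ 2 * (1 - u) ^ 3 +
        (2591073551809 / 585937500) * (u - (3 / 4)) ^ 3 * (1 - u) ^ 2 +
        (523679304161 / 146484375) * (u - (3 / 4)) ^ 4 * (1 - u) +
        (424340064 / 390625) * (u - (3 / 4)) ^ 5 := by ring
    rw [key]
    positivity

theorem P7_10 {u : ℝ} (h0 : 0 ≤ u) (h1 : u ≤ 1) :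
    0 < 4 * ((81 / 500) * (1 - u) * (763 / 200) + (3 / 2) * u ^ 2) * ((2597 / 2500) - (6711 / 10000) * (1 - 38 / 100 * u - 176 / 1000 * u ^ 2 - 1 / 10 * u ^ 3) - 1 / 6 * (1 - u)) - (81 / 500) * (1 + (2 + (3 / 2)) * u) ^ 2 := by
  rcases le_total u (1 / 4) with h | h
  · have k1 : 0 ≤ u := by linarith
    have k2 : 0 ≤ ((1 / 4) - u) := by linarith
    have key : 4 * ((81 / 500) * (1 - u) * (763 / 200) + (3 / 2) * u ^ 2) * ((2597 / 2500) - (6711 / 10000) * (1 - 38 / 100 * u - 176 / 1000 * u ^ 2 - 1 / 10 * u ^ 3) - 1 / 6 * (1 - u)) - (81 / 500) * (1 + (2 + (3 / 2)) * u) ^ 2 =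
        1 / 10000 +
        (669757048 / 1953125) * ((1 / 4) - u) ^ 5 +
        (76363088177 / 48828125) * u * ((1 / 4) - u) ^ 4 +
        (2664714057577 / 976562500) * u ^ 2 * ((1 / 4) - u) ^ 3 +
        (8867678637237 / 3906250000) * u ^ 3 * ((1 / 4) - u) ^ 2 +
        (2804709776487 / 3125000000) * u ^ 4 * ((1 / 4) - u) +
        (2116418984579 / 15625000000) * u ^ 5 := by ring
    rw [key]
    positivity
  rcases le_total u (1 / 2) with h | h
  · have k1 : 0 ≤ (u - (1 / 4)) := by linarith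
    have k2 : 0 ≤ ((1 / 2) - u) := by linarith
    have key : 4 * ((81 / 500) * (1 - u) * (763 / 200) + (3 / 2) * u ^ 2) * ((2597 / 2500) - (6711 / 10000) * (1 - 38 / 100 * u - 176 / 1000 * u ^ 2 - 1 / 10 * u ^ 3) - 1 / 6 * (1 - u)) - (81 / 500) * (1 + (2 + (3 / 2)) * u) ^ 2 =
        1 / 10000 +
        (2116418984579 / 15625000000) * ((1 / 2) - u) ^ 5 +
        (1428128192671 / 3125000000) * (u - (1 / 4)) * ((1 / 2) - u) ^ 4 +
        (1984770718157 / 3906250000) * (u - (1 / 4)) ^ 2 * ((1 / 2) - u) ^ 3 +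
        (183575497521 / 976562500) * (u - (1 / 4)) ^ 3 * ((1 / 2) - u) ^ 2 +
        (1609650742 / 244140625) * (u - (1 / 4)) ^ 4 * ((1 / 2) - u) +
        (5435133969 / 976562500) * (u - (1 / 4)) ^ 5 := by ring
    rw [key]
    positivity
  · have k1 : 0 ≤ (u - (1 / 2)) := by linarith
    have k2 : 0 ≤ (1 - u) := by linarith
    have key : 4 * ((81 / 500) * (1 - u) * (763 / 200) + (3 / 2) * u ^ 2) * ((2597 / 2500) - (6711 / 10000) * (1 - 38 / 100 * u - 176 / 1000 * u ^ 2 - 1 / 10 * u ^ 3) - 1 / 6 * (1 - u)) - (81 / 500) * (1 + (2 + (3 / 2)) * u) ^ 2 =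
        1 / 10000 +
        (5435133969 / 31250000000) * (1 - u) ^ 5 +
        (68649803599 / 31250000000) * (u - (1 / 2)) * (1 - u) ^ 4 +
        (534468788031 / 15625000000) * (u - (1 / 2)) ^ 2 * (1 - u) ^ 3 +
        (426411690691 / 3906250000) * (u - (1 / 2)) ^ 3 * (1 - u) ^ 2 +
        (247502318381 / 1953125000) * (u - (1 / 2)) ^ 4 * (1 - u) +
        (3917624 / 78125) * (u - (1 / 2)) ^ 5 := by ring
    rw [key]
    positivity

theorem P7_11 {u : ℝ} (h0 : 0 ≤ u) (h1 : u ≤ 1) :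
    0 < 4 * ((13 / 500) * (1 - u) * (1263 / 200) + 1 * u ^ 2) * (1 - (6731 / 10000) * (1 - 38 / 100 * u - 176 / 1000 * u ^ 2 - 1 / 10 * u ^ 3) - 1 / 6 * (1 - u)) - (13 / 500) * (1 + (2 + 1) * u) ^ 2 := by
  · have k1 : 0 ≤ u := by linarith
    have k2 : 0 ≤ (1 - u) := by linarith
    have key : 4 * ((13 / 500) * (1 - u) * (1263 / 200) + 1 * u ^ 2) * (1 - (6731 / 10000) * (1 - 38 / 100 * u - 176 / 1000 * u ^ 2 - 1 / 10 * u ^ 3) - 1 / 6 * (1 - u)) - (13 / 500) * (1 + (2 + 1) * u) ^ 2 =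
        1 / 10000 +
        (19783711 / 250000000) * (1 - u) ^ 5 +
        (5148551691 / 12500000000) * u * (1 - u) ^ 4 +
        (199402526743 / 187500000000) * u ^ 2 * (1 - u) ^ 3 +
        (296874916033 / 93750000000) * u ^ 3 * (1 - u) ^ 2 +
        (452288373719 / 93750000000) * u ^ 4 * (1 - u) +
        (3322143 / 1250000) * u ^ 5 := by ring
    rw [key]
    positivity

end Crest.Agent.R230.B6b
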