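import Crest.Agent.R230.B6tools
import Crest.Agent.R230.B6Star
import Crest.Agent.R230.B6P7

/-!
# Row 230, block B6 (case II, `l ≥ 0`, `-1 < k ≤ 0`), dimension 8 (Lean `n = 7`)
-/

set_option autoImplicit false
set_option maxHeartbeats 4000000

open MeasureTheory Set Filter Topology

namespace Crest.Agent.R230.WR

theorem B6_seven {s l k lm μ : ℝ} (hμ : μ * 6 = 35 / 4) (hs : s ∈ Ioo (0 : ℝ) 1) (hl : 0 ≤ l)
    (hT : s * Real.exp l ≤ 1) (hl1 : l * (1 + cc s) ≤ cc s ^ 2) (hk : 0 < 1 + k) (hk0 : k ≤ 0) :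
    0 ≤ PP 7 μ 3 1 0 lm s l k ∧ (PP 7 μ 3 1 0 lm s l k = 0 → l = 0) := by
  have hu0 : 0 ≤ -k := by linarith
  have hu1 : -k ≤ 1 := by linarith
  have hc := cc_pos' hs
  have hc2 := cc_sq' hs
  have hs0 := hs.1
  have hc1 : cc s < 1 := by nlinarith
  have hl1' : l * (1 + cc s) ≤ 1 * cc s ^ 2 := by linarith
  have hR0 : 0 ≤ 1 - 38 / 100 * -k - 176 / 1000 * (-k) ^ 2 - 1 / 10 * (-k) ^ 3 := by
    have h2 : (-k) ^ 2 ≤ 1 := by nlinarith
    have h3 : (-k) ^ 3 ≤ 1 := pow_le_one₀ hu0 hu1
    nlinarith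
  have hμ' : μ * (((7 : ℕ) : ℝ) - 1) = ((7 : ℕ) : ℝ) + 7 / 4 := by push_cast; linarith
  have hvar : 13 / 20 ≤ cc s → -(((47 / 100) + (55 / 100) * Y s) * (Y s * l ^ 2)) ≤ cR s l := by
    intro h1
    have hlow : 1 - (1 - cc s) * (137 / 50 - 23 / 20 * (1 - cc s)) ≤ cc (s * Real.exp l) := by
      refine cc_low hs (ζ := 1) (by norm_num) (by norm_num) hl1' ?_
      have h := B6.expc7_1 (e := 1 - cc s) (by linarith) (by linarith)
      exact lt_of_lt_of_eq h (by ring)
    refine cR_ge_var hs hl hT (by norm_num) (by norm_num) (mb := 137 / 50 - 23 / 20 * (1 - cc s)) (by linarith) hlow ?_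
    intro t ht0 ht1
    exact lt_of_lt_of_eq (B6.star7_1 (e := 1 - cc s) (by linarith) (by linarith) ht0 ht1) (by ring)
  rcases le_total (cc s) (2 / 5) with h1 | h1'
  · exact boxc (n := 7) (a := 0) (b := 2 / 5) (ζ := 1) (g := (5 / 8)) (β := 1 / 6) (N3 := 4)
      (A := 8857 / 5000) (zm := 1 / 2) (L := 953 / 10000) (M := 6337 / 10000) (κ := 1869 / 500) (τ := 11 / 4) (ρ := 2) (by norm_num) hμ' hs hl hT (by norm_num) hl1' hk hk0
      (by norm_num) (by norm_num) (by norm_num) hR0 (rr_seven hu0) hc.le h1 (sc_two hc (by linarith)) (by norm_num)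
      (by norm_num) (by norm_num) (by norm_num) (Or.inl (by norm_num)) (Or.inr ⟨by norm_num, by norm_num⟩) (by norm_num) (by norm_num)
      (by norm_num) (by norm_num) (by norm_num) (by norm_num) (B6b.P7_1 hu0 hu1)
  rcases le_total (cc s) (51 / 100) with h2 | h2'
  · exact boxc (n := 7) (a := 2 / 5) (b := 51 / 100) (ζ := 1) (g := (5 / 8)) (β := 1 / 6) (N3 := 4)
      (A := 8277 / 5000) (zm := 4579 / 10000) (L := 161 / 1000) (M := 3199 / 5000) (κ := 1767 / 500) (τ := 13 / 5) (ρ := 39 / 20) (by norm_num) hμ' hs hl hT (by norm_num) hl1' hk hk0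
      (by norm_num) (by norm_num) (by norm_num) hR0 (rr_seven hu0) h1' h2 (sc_39 (by linarith) (by linarith)) (by norm_num)
      (by norm_num) (by norm_num) (by norm_num) (Or.inl (by norm_num)) (Or.inr ⟨by norm_num, by norm_num⟩) (by norm_num) (by norm_num)
      (by norm_num) (by norm_num) (by norm_num) (by norm_num) (B6b.P7_2 hu0 hu1)
  rcases le_total (cc s) (287 / 500) with h3 | h3'
  · exact boxc (n := 7) (a := 51 / 100) (b := 287 / 500) (ζ := 1) (g := (5 / 8)) (β := 1 / 6) (N3 := 4)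
      (A := 15813 / 10000) (zm := 2147 / 5000) (L := 1047 / 5000) (M := 6443 / 10000) (κ := 831 / 250) (τ := 12 / 5) (ρ := 2) (by norm_num) hμ' hs hl hT (by norm_num) hl1' hk hk0
      (by norm_num) (by norm_num) (by norm_num) hR0 (rr_seven hu0) h2' h3 (sc_two hc (by linarith)) (by norm_num)
      (by norm_num) (by norm_num) (by norm_num) (Or.inl (by norm_num)) (Or.inl (by norm_num)) (by norm_num) (by norm_num)
      (by norm_num) (by norm_num) (by norm_num) (by norm_num) (B6b.P7_3 hu0 hu1)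
  rcases le_total (cc s) (59 / 100) with h4 | h4'
  · exact boxc (n := 7) (a := 287 / 500) (b := 59 / 100) (ζ := 1) (g := (5 / 8)) (β := 1 / 6) (N3 := 4)
      (A := 15621 / 10000) (zm := 2043 / 5000) (L := 1091 / 5000) (M := 1613 / 2500) (κ := 653 / 200) (τ := 12 / 5) (ρ := 2) (by norm_num) hμ' hs hl hT (by norm_num) hl1' hk hk0
      (by norm_num) (by norm_num) (by norm_num) hR0 (rr_seven hu0) h3' h4 (sc_two hc (by linarith)) (by norm_num)
      (by norm_num) (by norm_num) (by norm_num) (Or.inl (by norm_num)) (Or.inr ⟨by norm_num, by norm_num⟩) (by norm_num) (by norm_num)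
      (by norm_num) (by norm_num) (by norm_num) (by norm_num) (B6b.P7_4 hu0 hu1)
  rcases le_total (cc s) (77 / 125) with h5 | h5'
  · exact boxc (n := 7) (a := 59 / 100) (b := 77 / 125) (ζ := 1) (g := (5 / 8)) (β := 1 / 6) (N3 := 4)
      (A := 15303 / 10000) (zm := 4029 / 10000) (L := 2349 / 10000) (M := 1617 / 2500) (κ := 3159 / 1000) (τ := 47 / 20) (ρ := 2) (by norm_num) hμ' hs hl hT (by norm_num) hl1' hk hk0
      (by norm_num) (by norm_num) (by norm_num) hR0 (rr_seven hu0) h4' h5 (sc_two hc (by linarith)) (by norm_num)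
      (by norm_num) (by norm_num) (by norm_num) (Or.inl (by norm_num)) (Or.inl (by norm_num)) (by norm_num) (by norm_num)
      (by norm_num) (by norm_num) (by norm_num) (by norm_num) (B6b.P7_5 hu0 hu1)
  rcases le_total (cc s) (321 / 500) with h6 | h6'
  · exact boxc (n := 7) (a := 77 / 125) (b := 321 / 500) (ζ := 1) (g := (5 / 8)) (β := 1 / 6) (N3 := 4)
      (A := 14979 / 10000) (zm := 48 / 125) (L := 2511 / 10000) (M := 6483 / 10000) (κ := 3) (τ := 9 / 4) (ρ := 41 / 20) (by norm_num) hμ' hs hl hT (by norm_num) hl1' hk hk0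
      (by norm_num) (by norm_num) (by norm_num) hR0 (rr_seven hu0) h5' h6 (sc_41 (by linarith) (by linarith)) (by norm_num)
      (by norm_num) (by norm_num) (by norm_num) (Or.inr (by norm_num)) (Or.inl (by norm_num)) (by norm_num) (by norm_num)
      (by norm_num) (by norm_num) (by norm_num) (by norm_num) (B6b.P7_6 hu0 hu1)
  rcases le_total (cc s) (13 / 20) with h7 | h7'
  · exact boxc (n := 7) (a := 321 / 500) (b := 13 / 20) (ζ := 1) (g := (5 / 8)) (β := 1 / 6) (N3 := 4)
      (A := 7439 / 5000) (zm := 179 / 500) (L := 2561 / 10000) (M := 811 / 1250) (κ := 2957 / 1000) (τ := 9 / 4) (ρ := 41 / 20) (by norm_num) hμ' hs hl hT (by norm_num) hl1' hk hk0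
      (by norm_num) (by norm_num) (by norm_num) hR0 (rr_seven hu0) h6' h7 (sc_41 (by linarith) (by linarith)) (by norm_num)
      (by norm_num) (by norm_num) (by norm_num) (Or.inr (by norm_num)) (Or.inl (by norm_num)) (by norm_num) (by norm_num)
      (by norm_num) (by norm_num) (by norm_num) (by norm_num) (B6b.P7_7 hu0 hu1)
  rcases le_total (cc s) (29 / 40) with h8 | h8'
  · exact boxv (n := 7) (a := 13 / 20) (b := 29 / 40) (ζ := 1) (g := (5 / 8)) (β := 1 / 6) (N3 := 4)
      (A := 2781 / 2000) (zm := 7 / 20) (L := 381 / 1250) (M := 1307 / 2000) (κ := 3563 / 1000) (τ := 9 / 4) (by norm_num) hμ' hs hl hT (by norm_num) hl1' hk hk0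
      (by norm_num) (by norm_num) (by norm_num) hR0 (rr_seven hu0) h7' h8 (hvar (by linarith))
      (by norm_num) (by norm_num) (by norm_num) (by norm_num) (Or.inr (by norm_num)) (Or.inl (by norm_num)) (by norm_num) (by norm_num)
      (by norm_num) (by norm_num) (by norm_num) (by norm_num) (B6b.P7_8 hu0 hu1)
  rcases le_total (cc s) (419 / 500) with h9 | h9'
  · exact boxv (n := 7) (a := 29 / 40) (b := 419 / 500) (ζ := 1) (g := (5 / 8)) (β := 1 / 6) (N3 := 4)
      (A := 6179 / 5000) (zm := 11 / 40) (L := 3821 / 10000) (M := 6611 / 10000) (κ := 3621 / 1000) (τ := 19 / 10) (by norm_num) hμ' hs hl hT (by norm_num) hl1' hk hk0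
      (by norm_num) (by norm_num) (by norm_num) hR0 (rr_seven hu0) h8' h9 (hvar (by linarith))
      (by norm_num) (by norm_num) (by norm_num) (by norm_num) (Or.inr (by norm_num)) (Or.inl (by norm_num)) (by norm_num) (by norm_num)
      (by norm_num) (by norm_num) (by norm_num) (by norm_num) (B6b.P7_9 hu0 hu1)
  rcases le_total (cc s) (487 / 500) with h10 | h10'
  · exact boxv (n := 7) (a := 419 / 500) (b := 487 / 500) (ζ := 1) (g := (5 / 8)) (β := 1 / 6) (N3 := 4)
      (A := 2597 / 2500) (zm := 81 / 500) (L := 2403 / 5000) (M := 6711 / 10000) (κ := 763 / 200) (τ := 3 / 2) (by norm_num) hμ' hs hl hT (by norm_num) hl1' hk hk0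
      (by norm_num) (by norm_num) (by norm_num) hR0 (rr_seven hu0) h9' h10 (hvar (by linarith))
      (by norm_num) (by norm_num) (by norm_num) (by norm_num) (Or.inr (by norm_num)) (Or.inl (by norm_num)) (by norm_num) (by norm_num)
      (by norm_num) (by norm_num) (by norm_num) (by norm_num) (B6b.P7_10 hu0 hu1)
  · exact boxv (n := 7) (a := 487 / 500) (b := 1) (ζ := 1) (g := (5 / 8)) (β := 1 / 6) (N3 := 4)
      (A := 1) (zm := 13 / 500) (L := 1 / 2) (M := 6731 / 10000) (κ := 1263 / 200) (τ := 1) (by norm_num) hμ' hs hl hT (by norm_num) hl1' hk hk0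
      (by norm_num) (by norm_num) (by norm_num) hR0 (rr_seven hu0) h10' hc1.le (hvar (by linarith))
      (by norm_num) (by norm_num) (by norm_num) (by norm_num) (Or.inr (by norm_num)) (Or.inl (by norm_num)) (by norm_num) (by norm_num)
      (by norm_num) (by norm_num) (by norm_num) (by norm_num) (B6b.P7_11 hu0 hu1)

end Crest.Agent.R230.WR
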