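import Crest.Agent.R230.CaseIIppB

/-!
# Row 230: block B5: one-variable certificates (generated)
-/

set_option autoImplicit false
set_option maxHeartbeats 4000000
set_option linter.style.longLine false
set_option linter.unusedVariables false

open Set

namespace Crest.Agent.R230.WR

lemma GG_posA_10 {a k X y A1 : ℝ} (hk : 0 < k) (hk2 : k ≤ 1 / 2) (hA1 : 0 ≤ A1) (hX : 0 ≤ X)
    (hy : y * ((18769/10000) + k ^ 2) ≤ (18769/10000))
    (ha : ∀ c₀ : ℝ, 0 ≤ c₀ → 2 - 2 * c₀ ^ 2 / (1 + c₀) - (2 + c₀) / (1 + c₀) ^ 2 * (y - c₀ ^ 2) ≤ a) :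
    0 < GG 10 A1 (9/1000) a k X := by
  have ha' : (7/4) - (3/4) * y ≤ a := by
    have := ha 1 (by norm_num)
    norm_num at this
    linarith
  refine GG_A (A2 := (18769/10000)) (P := (7/4)) (Q := (3/4)) (y := y) hk hk2 hA1 hX (by norm_num)
    (by norm_num) hy ha' ?_
  have hv : 0 ≤ (1/2) - k := by linarith
  have h : (7/4) - (3/4) * ((18769/10000) / ((18769/10000) + k ^ 2)) - 3 / (2 * (10 + 2)) * (1 + k) -
      (1 + 7 / (4 * 10)) * ((1 + k) / (2 + k)) - (9/1000) = (1/1000) +
      ((2083359/125000) * ((1/2) - k)^4 +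
        (1820593/31250) * k * ((1/2) - k)^3 +
        (41028623/500000) * k^2 * ((1/2) - k)^2 +
        (14096263/250000) * k^3 * ((1/2) - k) +
        (1579491/100000) * k^4) /
      (((18769/10000) + k ^ 2) * (2 + k)) := by
    field_simp
    ring
  rw [h]
  positivity

lemma GG_posB_10 {a k X y : ℝ} (hk2 : 1 / 2 ≤ k) (hk3 : k ≤ 5)
    (hy0 : 0 ≤ y) (hy : y * ((18769/10000) + k ^ 2) ≤ (18769/10000))
    (ha : ∀ c₀ : ℝ, 0 ≤ c₀ → 2 - 2 * c₀ ^ 2 / (1 + c₀) - (2 + c₀) / (1 + c₀) ^ 2 * (y - c₀ ^ 2) ≤ a)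
    (hX : 2 * X ≤ 1 - 2 * ((1 + k) / ((10 + 2) - (10 + 1) * y)) +
      3 * ((1 + k) / ((10 + 2) - (10 + 1) * y)) ^ 2 * y) :
    0 < GG 10 2 (9/1000) a k X := by
  have hk : 0 < k := by linarith
  rcases le_total k (37/20) with hkb | hkb
  · have ha' : (613/320) - (65/64) * y ≤ a := by
      have := ha (3/5) (by norm_num)
      norm_num at this
      linarith
    have hu : 0 ≤ k - (1/2) := by linarith
    have hv : 0 ≤ (37/20) - k := by linarith
    refine GG_B (A2 := (18769/10000)) (P := (613/320)) (Q := (65/64)) (y := y) hk (by norm_num) (by norm_num)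
      (by norm_num) hy ha' ?_
    have h : (613/320) - (65/64) * ((18769/10000) / ((18769/10000) + k ^ 2)) - 3 / (2 * (10 + 2)) * (1 + k) -
        (1 + 7 / (4 * 10)) * ((1 + k) / (2 + k)) - (9/1000) - (2 * k - 1) ^ 2 / (4 * (1 + k) * 2) = (1/1000) +
        ((1364/6561) * ((37/20) - k)^5 +
        (15332669/8857350) * (k - (1/2)) * ((37/20) - k)^4 +
        (508540991/88573500) * (k - (1/2))^2 * ((37/20) - k)^3 +
        (537634247/59049000) * (k - (1/2))^3 * ((37/20) - k)^2 +
        (1953308837/354294000) * (k - (1/2))^4 * ((37/20) - k) +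
        (582809/354294000) * (k - (1/2))^5) /
        (((18769/10000) + k ^ 2) * (2 + k) * (1 + k)) := by
      field_simp
      ring
    rw [h]
    positivity
  rcases le_total k (157/40) with hkb | hkb
  · have ha' : (199/100) - (36/25) * y ≤ a := by
      have := ha (1/4) (by norm_num)
      norm_num at this
      linarith
    have hkb' : k ≤ (157/40) := by linarith
    have hu : 0 ≤ k - (37/20) := by linarith
    have hv : 0 ≤ (157/40) - k := by linarith
    have hk2' : (1369/400) ≤ k ^ 2 := by nlinarith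
    refine GG_C (A2 := (18769/10000)) (P := (199/100)) (Q := (36/25)) (ξ := (3/20)) (L := (274/157)) (M₀ := (81041/10000)) (y := y)
      (by norm_num) hk (by norm_num) (by norm_num) (by norm_num) hy0 hy ha' hX ?_ ?_ (by norm_num) ?_ ?_ ?_
    · have e : 2 - 1 / k - 2 * (3/20) * (1 + k) * 2 / k ^ 2 = (2 * k ^ 2 - k - (3/5) * (1 + k)) / k ^ 2 := by
        field_simp
        try ring
      rw [e]
      refine div_nonneg ?_ (by positivity)
      nlinarith
    · have e1 : 1 / (157/40) ≤ 1 / k := one_div_le_one_div_of_le hk hkb'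
      have e2 : 0 ≤ 2 * (3/20) * (1 + k) * 2 / k ^ 2 := by positivity
      have e3 : (2 : ℝ) - 1 / (157/40) = (274/157) := by norm_num
      linarith
    · linarith
    · linarith
    · have h : (199/100) - (36/25) * ((18769/10000) / ((18769/10000) + k ^ 2)) - 3 / (2 * (10 + 2)) * (1 + k) -
        (1 + 7 / (4 * 10)) * ((1 + k) / (2 + k)) - (9/1000) -
        (2 - 1 / k - 2 * (3/20) * (1 + k) * 2 / k ^ 2) *
        (1 / 2 - (1 + k) * ((18769/10000) + k ^ 2) / ((10 + 2) * k ^ 2 + (18769/10000)) +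
          3 / 2 * (1 + k) ^ 2 * (18769/10000) * ((18769/10000) + k ^ 2) / ((10 + 2) * k ^ 2 + (18769/10000)) ^ 2) -
        2 * (1 + k) * (3/20) ^ 2 / k ^ 2 = (1/1000) +
        ((21809570073533204239104/242438143550091460140625) * ((157/40) - k)^10 +
        (20804801621105985173263488/1212190717750457300703125) * (k - (37/20)) * ((157/40) - k)^9 +
        (337170817797188777963675744/1212190717750457300703125) * (k - (37/20))^2 * ((157/40) - k)^8 +
        (2485832110608782089297951104/1212190717750457300703125) * (k - (37/20))^3 * ((157/40) - k)^7 +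
        (2135190502699852877278370512/242438143550091460140625) * (k - (37/20))^4 * ((157/40) - k)^6 +
        (29287686705333122220560694704/1212190717750457300703125) * (k - (37/20))^5 * ((157/40) - k)^5 +
        (53147860431967794047750925518/1212190717750457300703125) * (k - (37/20))^6 * ((157/40) - k)^4 +
        (63797027362749490725982989564/1212190717750457300703125) * (k - (37/20))^7 * ((157/40) - k)^3 +
        (48901589714409960335046176869/1212190717750457300703125) * (k - (37/20))^8 * ((157/40) - k)^2 +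
        (8710264053377353893870909271/484876287100182920281250) * (k - (37/20))^9 * ((157/40) - k) +
        (8623203465075626572645129153/2424381435500914601406250) * (k - (37/20))^10) /
        (((18769/10000) + k ^ 2) * (2 + k) * ((10 + 2) * k ^ 2 + (18769/10000)) ^ 2 * k ^ 2) := by
        field_simp
        ring
      rw [h]
      positivity
  have ha' : (37109/19220) - (1020/961) * y ≤ a := by
    have := ha (11/20) (by norm_num)
    norm_num at this
    linarith
  have hkb' : k ≤ 5 := by linarith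
  have hu : 0 ≤ k - (157/40) := by linarith
  have hv : 0 ≤ 5 - k := by linarith
  have hk2' : (24649/1600) ≤ k ^ 2 := by nlinarith
  refine GG_C (A2 := (18769/10000)) (P := (37109/19220)) (Q := (1020/961)) (ξ := 0) (L := (9/5)) (M₀ := (108053/10000)) (y := y)
    (by norm_num) hk (by norm_num) (by norm_num) (by norm_num) hy0 hy ha' hX ?_ ?_ (by norm_num) ?_ ?_ ?_
  · have e : 2 - 1 / k - 2 * 0 * (1 + k) * 2 / k ^ 2 = (2 * k ^ 2 - k - 0 * (1 + k)) / k ^ 2 := by
      field_simp
      try ring
    rw [e]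
    refine div_nonneg ?_ (by positivity)
    nlinarith
  · have e1 : 1 / 5 ≤ 1 / k := one_div_le_one_div_of_le hk hkb'
    have e2 : 0 ≤ 2 * 0 * (1 + k) * 2 / k ^ 2 := by positivity
    have e3 : (2 : ℝ) - 1 / 5 = (9/5) := by norm_num
    linarith
  · linarith
  · linarith
  · have h : (37109/19220) - (1020/961) * ((18769/10000) / ((18769/10000) + k ^ 2)) - 3 / (2 * (10 + 2)) * (1 + k) -
      (1 + 7 / (4 * 10)) * ((1 + k) / (2 + k)) - (9/1000) -
      (2 - 1 / k - 2 * 0 * (1 + k) * 2 / k ^ 2) *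
      (1 / 2 - (1 + k) * ((18769/10000) + k ^ 2) / ((10 + 2) * k ^ 2 + (18769/10000)) +
        3 / 2 * (1 + k) ^ 2 * (18769/10000) * ((18769/10000) + k ^ 2) / ((10 + 2) * k ^ 2 + (18769/10000)) ^ 2) -
      2 * (1 + k) * 0 ^ 2 / k ^ 2 = (1/1000) +
      ((6665473599168813229830329946589/3245099141104088013906250) * (5 - k)^10 +
        (83783146791549798387051049836401/3245099141104088013906250) * (k - (157/40)) * (5 - k)^9 +
        (236903355680537066843156666400334/1622549570552044006953125) * (k - (157/40))^2 * (5 - k)^8 +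
        (158759541804256633521583700619996/324509914110408801390625) * (k - (157/40))^3 * (5 - k)^7 +
        (349075115242761457260235072341646/324509914110408801390625) * (k - (157/40))^4 * (5 - k)^6 +
        (2631584445902134720862915931241112/1622549570552044006953125) * (k - (157/40))^5 * (5 - k)^5 +
        (2755664442628573313966613272006648/1622549570552044006953125) * (k - (157/40))^6 * (5 - k)^4 +
        (1979066906550122267122797378570624/1622549570552044006953125) * (k - (157/40))^7 * (5 - k)^3 +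
        (186602117967395101487766644434432/324509914110408801390625) * (k - (157/40))^8 * (5 - k)^2 +
        (2086046790302054021027974250496/12980396564416352055625) * (k - (157/40))^9 * (5 - k) +
        (10499133514525327860231831552/519215862576654082225) * (k - (157/40))^10) /
      (((18769/10000) + k ^ 2) * (2 + k) * ((10 + 2) * k ^ 2 + (18769/10000)) ^ 2 * k ^ 2) := by
      field_simp
      ring
    rw [h]
    positivity

lemma GG_posA_11 {a k X y A1 : ℝ} (hk : 0 < k) (hk2 : k ≤ 1 / 2) (hA1 : 0 ≤ A1) (hX : 0 ≤ X)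
    (hy : y * ((1296/625) + k ^ 2) ≤ (1296/625))
    (ha : ∀ c₀ : ℝ, 0 ≤ c₀ → 2 - 2 * c₀ ^ 2 / (1 + c₀) - (2 + c₀) / (1 + c₀) ^ 2 * (y - c₀ ^ 2) ≤ a) :
    0 < GG 11 A1 (1/125) a k X := by
  have ha' : (7/4) - (3/4) * y ≤ a := by
    have := ha 1 (by norm_num)
    norm_num at this
    linarith
  refine GG_A (A2 := (1296/625)) (P := (7/4)) (Q := (3/4)) (y := y) hk hk2 hA1 hX (by norm_num)
    (by norm_num) hy ha' ?_
  have hv : 0 ≤ (1/2) - k := by linarith
  have h : (7/4) - (3/4) * ((1296/625) / ((1296/625) + k ^ 2)) - 3 / (2 * (11 + 2)) * (1 + k) -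
      (1 + 7 / (4 * 11)) * ((1 + k) / (2 + k)) - (1/125) = (1/1000) +
      ((219480192/11171875) * ((1/2) - k)^4 +
        (782616816/11171875) * k * ((1/2) - k)^3 +
        (1113769796/11171875) * k^2 * ((1/2) - k)^2 +
        (3051510273/44687500) * k^3 * ((1/2) - k) +
        (168764267/8937500) * k^4) /
      (((1296/625) + k ^ 2) * (2 + k)) := by
    field_simp
    ring
  rw [h]
  positivity

lemma GG_posB_11 {a k X y : ℝ} (hk2 : 1 / 2 ≤ k) (hk3 : k ≤ (11/2))
    (hy0 : 0 ≤ y) (hy : y * ((1296/625) + k ^ 2) ≤ (1296/625))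
    (ha : ∀ c₀ : ℝ, 0 ≤ c₀ → 2 - 2 * c₀ ^ 2 / (1 + c₀) - (2 + c₀) / (1 + c₀) ^ 2 * (y - c₀ ^ 2) ≤ a)
    (hX : 2 * X ≤ 1 - 2 * ((1 + k) / ((11 + 2) - (11 + 1) * y)) +
      3 * ((1 + k) / ((11 + 2) - (11 + 1) * y)) ^ 2 * y) :
    0 < GG 11 3 (1/125) a k X := by
  have hk : 0 < k := by linarith
  rcases le_total k (19/8) with hkb | hkb
  · have ha' : (613/320) - (65/64) * y ≤ a := by
      have := ha (3/5) (by norm_num)
      norm_num at this
      linarith
    have hu : 0 ≤ k - (1/2) := by linarith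
    have hv : 0 ≤ (19/8) - k := by linarith
    refine GG_B (A2 := (1296/625)) (P := (613/320)) (Q := (65/64)) (y := y) hk (by norm_num) (by norm_num)
      (by norm_num) hy ha' ?_
    have h : (613/320) - (65/64) * ((1296/625) / ((1296/625) + k ^ 2)) - 3 / (2 * (11 + 2)) * (1 + k) -
        (1 + 7 / (4 * 11)) * ((1 + k) / (2 + k)) - (1/125) - (2 * k - 1) ^ 2 / (4 * (1 + k) * 3) = (1/1000) +
        ((28015565152/565576171875) * ((19/8) - k)^5 +
        (254292279664/565576171875) * (k - (1/2)) * ((19/8) - k)^4 +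
        (1006178585216/565576171875) * (k - (1/2))^2 * ((19/8) - k)^3 +
        (1975828713559/565576171875) * (k - (1/2))^3 * ((19/8) - k)^2 +
        (11660440668053/4524609375000) * (k - (1/2))^4 * ((19/8) - k) +
        (62752487713/4524609375000) * (k - (1/2))^5) /
        (((1296/625) + k ^ 2) * (2 + k) * (1 + k)) := by
      field_simp
      ring
    rw [h]
    positivity
  have ha' : (359/180) - (55/36) * y ≤ a := by
    have := ha (1/5) (by norm_num)
    norm_num at this
    linarith
  have hkb' : k ≤ (11/2) := by linarith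
  have hu : 0 ≤ k - (19/8) := by linarith
  have hv : 0 ≤ (11/2) - k := by linarith
  have hk2' : (361/64) ≤ k ^ 2 := by nlinarith
  refine GG_C (A2 := (1296/625)) (P := (359/180)) (Q := (55/36)) (ξ := (1/20)) (L := (20/11)) (M₀ := (97743/10000)) (y := y)
    (by norm_num) hk (by norm_num) (by norm_num) (by norm_num) hy0 hy ha' hX ?_ ?_ (by norm_num) ?_ ?_ ?_
  · have e : 2 - 1 / k - 2 * (1/20) * (1 + k) * 3 / k ^ 2 = (2 * k ^ 2 - k - (3/10) * (1 + k)) / k ^ 2 := by
      field_simp
      try ring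
    rw [e]
    refine div_nonneg ?_ (by positivity)
    nlinarith
  · have e1 : 1 / (11/2) ≤ 1 / k := one_div_le_one_div_of_le hk hkb'
    have e2 : 0 ≤ 2 * (1/20) * (1 + k) * 3 / k ^ 2 := by positivity
    have e3 : (2 : ℝ) - 1 / (11/2) = (20/11) := by norm_num
    linarith
  · linarith
  · linarith
  · have h : (359/180) - (55/36) * ((1296/625) / ((1296/625) + k ^ 2)) - 3 / (2 * (11 + 2)) * (1 + k) -
      (1 + 7 / (4 * 11)) * ((1 + k) / (2 + k)) - (1/125) -
      (2 - 1 / k - 2 * (1/20) * (1 + k) * 3 / k ^ 2) *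
      (1 / 2 - (1 + k) * ((1296/625) + k ^ 2) / ((11 + 2) * k ^ 2 + (1296/625)) +
        3 / 2 * (1 + k) ^ 2 * (1296/625) * ((1296/625) + k ^ 2) / ((11 + 2) * k ^ 2 + (1296/625)) ^ 2) -
      3 * (1 + k) * (1/20) ^ 2 / k ^ 2 = (1/1000) +
      ((53428048285467153131737897/1498265191912651062011718750) * ((11/2) - k)^10 +
        (132978664470923849643324187/29965303838253021240234375) * (k - (19/8)) * ((11/2) - k)^9 +
        (11108354013326126512311240416/149826519191265106201171875) * (k - (19/8))^2 * ((11/2) - k)^8 +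
        (86601120256188852260013254432/149826519191265106201171875) * (k - (19/8))^3 * ((11/2) - k)^7 +
        (397095111502637584799039352704/149826519191265106201171875) * (k - (19/8))^4 * ((11/2) - k)^6 +
        (5851362484241615175311431155712/749132595956325531005859375) * (k - (19/8))^5 * ((11/2) - k)^5 +
        (3669388397844800911784019968/239722430706024169921875) * (k - (19/8))^6 * ((11/2) - k)^4 +
        (2988493509702754654941199917056/149826519191265106201171875) * (k - (19/8))^7 * ((11/2) - k)^3 +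
        (2501174270475185737958383419392/149826519191265106201171875) * (k - (19/8))^8 * ((11/2) - k)^2 +
        (111281491940348747177974759424/13620592653751373291015625) * (k - (19/8))^9 * ((11/2) - k) +
        (3127639585072517923189817344/1746229827404022216796875) * (k - (19/8))^10) /
      (((1296/625) + k ^ 2) * (2 + k) * ((11 + 2) * k ^ 2 + (1296/625)) ^ 2 * k ^ 2) := by
      field_simp
      ring
    rw [h]
    positivity

lemma GG_posA_12 {a k X y A1 : ℝ} (hk : 0 < k) (hk2 : k ≤ 1 / 2) (hA1 : 0 ≤ A1) (hX : 0 ≤ X)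
    (hy : y * ((9/4) + k ^ 2) ≤ (9/4))
    (ha : ∀ c₀ : ℝ, 0 ≤ c₀ → 2 - 2 * c₀ ^ 2 / (1 + c₀) - (2 + c₀) / (1 + c₀) ^ 2 * (y - c₀ ^ 2) ≤ a) :
    0 < GG 12 A1 (3/400) a k X := by
  have ha' : (7/4) - (3/4) * y ≤ a := by
    have := ha 1 (by norm_num)
    norm_num at this
    linarith
  refine GG_A (A2 := (9/4)) (P := (7/4)) (Q := (3/4)) (y := y) hk hk2 hA1 hX (by norm_num)
    (by norm_num) hy ha' ?_
  have hv : 0 ≤ (1/2) - k := by linarith
  have h : (7/4) - (3/4) * ((9/4) / ((9/4) + k ^ 2)) - 3 / (2 * (12 + 2)) * (1 + k) -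
      (1 + 7 / (4 * 12)) * ((1 + k) / (2 + k)) - (3/400) = (1/1000) +
      ((78483/3500) * ((1/2) - k)^4 +
        (283959/3500) * k * ((1/2) - k)^3 +
        (1221973/10500) * k^2 * ((1/2) - k)^2 +
        (11941/150) * k^3 * ((1/2) - k) +
        (764/35) * k^4) /
      (((9/4) + k ^ 2) * (2 + k)) := by
    field_simp
    ring
  rw [h]
  positivity

lemma GG_posB_12 {a k X y : ℝ} (hk2 : 1 / 2 ≤ k) (hk3 : k ≤ 6)
    (hy0 : 0 ≤ y) (hy : y * ((9/4) + k ^ 2) ≤ (9/4))
    (ha : ∀ c₀ : ℝ, 0 ≤ c₀ → 2 - 2 * c₀ ^ 2 / (1 + c₀) - (2 + c₀) / (1 + c₀) ^ 2 * (y - c₀ ^ 2) ≤ a)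
    (hX : 2 * X ≤ 1 - 2 * ((1 + k) / ((12 + 2) - (12 + 1) * y)) +
      3 * ((1 + k) / ((12 + 2) - (12 + 1) * y)) ^ 2 * y) :
    0 < GG 12 4 (3/400) a k X := by
  have hk : 0 < k := by linarith
  rcases le_total k (29/10) with hkb | hkb
  · have ha' : (35/18) - (10/9) * y ≤ a := by
      have := ha (1/2) (by norm_num)
      norm_num at this
      linarith
    have hu : 0 ≤ k - (1/2) := by linarith
    have hv : 0 ≤ (29/10) - k := by linarith
    refine GG_B (A2 := (9/4)) (P := (35/18)) (Q := (10/9)) (y := y) hk (by norm_num) (by norm_num)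
      (by norm_num) hy ha' ?_
    have h : (35/18) - (10/9) * ((9/4) / ((9/4) + k ^ 2)) - 3 / (2 * (12 + 2)) * (1 + k) -
        (1 + 7 / (4 * 12)) * ((1 + k) / (2 + k)) - (3/400) - (2 * k - 1) ^ 2 / (4 * (1 + k) * 4) = (1/1000) +
        ((3454375/334430208) * ((29/10) - k)^5 +
        (13260425/111476736) * (k - (1/2)) * ((29/10) - k)^4 +
        (108015811/167215104) * (k - (1/2))^2 * ((29/10) - k)^3 +
        (278428091/167215104) * (k - (1/2))^3 * ((29/10) - k)^2 +
        (1384992563/928972800) * (k - (1/2))^4 * ((29/10) - k) +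
        (7166081/1194393600) * (k - (1/2))^5) /
        (((9/4) + k ^ 2) * (2 + k) * (1 + k)) := by
      field_simp
      ring
    rw [h]
    positivity
  have ha' : (3353/1690) - (230/169) * y ≤ a := by
    have := ha (3/10) (by norm_num)
    norm_num at this
    linarith
  have hkb' : k ≤ 6 := by linarith
  have hu : 0 ≤ k - (29/10) := by linarith
  have hv : 0 ≤ 6 - k := by linarith
  have hk2' : (841/100) ≤ k ^ 2 := by nlinarith
  refine GG_C (A2 := (9/4)) (P := (3353/1690)) (Q := (230/169)) (ξ := 0) (L := (11/6)) (M₀ := (1407/125)) (y := y)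
    (by norm_num) hk (by norm_num) (by norm_num) (by norm_num) hy0 hy ha' hX ?_ ?_ (by norm_num) ?_ ?_ ?_
  · have e : 2 - 1 / k - 2 * 0 * (1 + k) * 4 / k ^ 2 = (2 * k ^ 2 - k - 0 * (1 + k)) / k ^ 2 := by
      field_simp
      try ring
    rw [e]
    refine div_nonneg ?_ (by positivity)
    nlinarith
  · have e1 : 1 / 6 ≤ 1 / k := one_div_le_one_div_of_le hk hkb'
    have e2 : 0 ≤ 2 * 0 * (1 + k) * 4 / k ^ 2 := by positivity
    have e3 : (2 : ℝ) - 1 / 6 = (11/6) := by norm_num
    linarith
  · linarith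
  · linarith
  · have h : (3353/1690) - (230/169) * ((9/4) / ((9/4) + k ^ 2)) - 3 / (2 * (12 + 2)) * (1 + k) -
      (1 + 7 / (4 * 12)) * ((1 + k) / (2 + k)) - (3/400) -
      (2 - 1 / k - 2 * 0 * (1 + k) * 4 / k ^ 2) *
      (1 / 2 - (1 + k) * ((9/4) + k ^ 2) / ((12 + 2) * k ^ 2 + (9/4)) +
        3 / 2 * (1 + k) ^ 2 * (9/4) * ((9/4) + k ^ 2) / ((12 + 2) * k ^ 2 + (9/4)) ^ 2) -
      4 * (1 + k) * 0 ^ 2 / k ^ 2 = (1/1000) +
      ((130951100969826813/40981414349040050) * (6 - k)^10 +
        (32677047379444832834/430304850664920525) * (k - (29/10)) * (6 - k)^9 +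
        (44772188253260844770437/58177215809897254980) * (k - (29/10))^2 * (6 - k)^8 +
        (2467995637216123492801/554068721999021476) * (k - (29/10))^3 * (6 - k)^7 +
        (63864219450995596634355/3878481053993150332) * (k - (29/10))^4 * (6 - k)^6 +
        (39639341980863667861200/969620263498287583) * (k - (29/10))^5 * (6 - k)^5 +
        (268978021048012500403875/3878481053993150332) * (k - (29/10))^6 * (6 - k)^4 +
        (309016552926600711264375/3878481053993150332) * (k - (29/10))^7 * (6 - k)^3 +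
        (230891345128226143996875/3878481053993150332) * (k - (29/10))^8 * (6 - k)^2 +
        (25419001088996655468750/969620263498287583) * (k - (29/10))^9 * (6 - k) +
        (718456491595195312500/138517180499755369) * (k - (29/10))^10) /
      (((9/4) + k ^ 2) * (2 + k) * ((12 + 2) * k ^ 2 + (9/4)) ^ 2 * k ^ 2) := by
      field_simp
      ring
    rw [h]
    positivity

lemma GG_posA_13 {a k X y A1 : ℝ} (hk : 0 < k) (hk2 : k ≤ 1 / 2) (hA1 : 0 ≤ A1) (hX : 0 ≤ X)
    (hy : y * ((24649/10000) + k ^ 2) ≤ (24649/10000))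
    (ha : ∀ c₀ : ℝ, 0 ≤ c₀ → 2 - 2 * c₀ ^ 2 / (1 + c₀) - (2 + c₀) / (1 + c₀) ^ 2 * (y - c₀ ^ 2) ≤ a) :
    0 < GG 13 A1 (7/1000) a k X := by
  have ha' : (7/4) - (3/4) * y ≤ a := by
    have := ha 1 (by norm_num)
    norm_num at this
    linarith
  refine GG_A (A2 := (24649/10000)) (P := (7/4)) (Q := (3/4)) (y := y) hk hk2 hA1 hX (by norm_num)
    (by norm_num) hy ha' ?_
  have hv : 0 ≤ (1/2) - k := by linarith
  have h : (7/4) - (3/4) * ((24649/10000) / ((24649/10000) + k ^ 2)) - 3 / (2 * (13 + 2)) * (1 + k) -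
      (1 + 7 / (4 * 13)) * ((1 + k) / (2 + k)) - (7/1000) = (1/1000) +
      ((104043429/4062500) * ((1/2) - k)^4 +
        (761432259/8125000) * k * ((1/2) - k)^3 +
        (137202463/1015625) * k^2 * ((1/2) - k)^2 +
        (748285063/8125000) * k^3 * ((1/2) - k) +
        (10159913/406250) * k^4) /
      (((24649/10000) + k ^ 2) * (2 + k)) := by
    field_simp
    ring
  rw [h]
  positivity

lemma GG_posB_13 {a k X y : ℝ} (hk2 : 1 / 2 ≤ k) (hk3 : k ≤ (13/2))
    (hy0 : 0 ≤ y) (hy : y * ((24649/10000) + k ^ 2) ≤ (24649/10000))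
    (ha : ∀ c₀ : ℝ, 0 ≤ c₀ → 2 - 2 * c₀ ^ 2 / (1 + c₀) - (2 + c₀) / (1 + c₀) ^ 2 * (y - c₀ ^ 2) ≤ a)
    (hX : 2 * X ≤ 1 - 2 * ((1 + k) / ((13 + 2) - (13 + 1) * y)) +
      3 * ((1 + k) / ((13 + 2) - (13 + 1) * y)) ^ 2 * y) :
    0 < GG 13 5 (7/1000) a k X := by
  have hk : 0 < k := by linarith
  rcases le_total k (27/8) with hkb | hkb
  · have ha' : (32911/16820) - (980/841) * y ≤ a := by
      have := ha (9/20) (by norm_num)
      norm_num at this
      linarith
    have hu : 0 ≤ k - (1/2) := by linarith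
    have hv : 0 ≤ (27/8) - k := by linarith
    refine GG_B (A2 := (24649/10000)) (P := (32911/16820)) (Q := (980/841)) (y := y) hk (by norm_num) (by norm_num)
      (by norm_num) hy ha' ?_
    have h : (32911/16820) - (980/841) * ((24649/10000) / ((24649/10000) + k ^ 2)) - 3 / (2 * (13 + 2)) * (1 + k) -
        (1 + 7 / (4 * 13)) * ((1 + k) / (2 + k)) - (7/1000) - (2 * k - 1) ^ 2 / (4 * (1 + k) * 5) = (1/1000) +
        ((3414474818688/1099508406546875) * ((27/8) - k)^5 +
        (244398352026016/5497542032734375) * (k - (1/2)) * ((27/8) - k)^4 +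
        (1754211330352888/5497542032734375) * (k - (1/2))^2 * ((27/8) - k)^3 +
        (5540191410486118/5497542032734375) * (k - (1/2))^3 * ((27/8) - k)^2 +
        (5685130216691686/5497542032734375) * (k - (1/2))^4 * ((27/8) - k) +
        (9024619522227/2199016813093750) * (k - (1/2))^5) /
        (((24649/10000) + k ^ 2) * (2 + k) * (1 + k)) := by
      field_simp
      ring
    rw [h]
    positivity
  have ha' : (28817/14580) - (940/729) * y ≤ a := by
    have := ha (7/20) (by norm_num)
    norm_num at this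
    linarith
  have hkb' : k ≤ (13/2) := by linarith
  have hu : 0 ≤ k - (27/8) := by linarith
  have hv : 0 ≤ (13/2) - k := by linarith
  have hk2' : (729/64) ≤ k ^ 2 := by nlinarith
  refine GG_C (A2 := (24649/10000)) (P := (28817/14580)) (Q := (940/729)) (ξ := 0) (L := (24/13)) (M₀ := (125093/10000)) (y := y)
    (by norm_num) hk (by norm_num) (by norm_num) (by norm_num) hy0 hy ha' hX ?_ ?_ (by norm_num) ?_ ?_ ?_
  · have e : 2 - 1 / k - 2 * 0 * (1 + k) * 5 / k ^ 2 = (2 * k ^ 2 - k - 0 * (1 + k)) / k ^ 2 := by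
      field_simp
      try ring
    rw [e]
    refine div_nonneg ?_ (by positivity)
    nlinarith
  · have e1 : 1 / (13/2) ≤ 1 / k := one_div_le_one_div_of_le hk hkb'
    have e2 : 0 ≤ 2 * 0 * (1 + k) * 5 / k ^ 2 := by positivity
    have e3 : (2 : ℝ) - 1 / (13/2) = (24/13) := by norm_num
    linarith
  · linarith
  · linarith
  · have h : (28817/14580) - (940/729) * ((24649/10000) / ((24649/10000) + k ^ 2)) - 3 / (2 * (13 + 2)) * (1 + k) -
      (1 + 7 / (4 * 13)) * ((1 + k) / (2 + k)) - (7/1000) -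
      (2 - 1 / k - 2 * 0 * (1 + k) * 5 / k ^ 2) *
      (1 / 2 - (1 + k) * ((24649/10000) + k ^ 2) / ((13 + 2) * k ^ 2 + (24649/10000)) +
        3 / 2 * (1 + k) ^ 2 * (24649/10000) * ((24649/10000) + k ^ 2) / ((13 + 2) * k ^ 2 + (24649/10000)) ^ 2) -
      5 * (1 + k) * 0 ^ 2 / k ^ 2 = (1/1000) +
      ((721332092041670563358280507/37834979593753814697265625) * ((13/2) - k)^10 +
        (5721676709136340284414231463/15133991837501525878906250) * (k - (27/8)) * ((13/2) - k)^9 +
        (678063269433025137312535137866/204308889806270599365234375) * (k - (27/8))^2 * ((13/2) - k)^8 +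
        (3480158105474109717693536824196/204308889806270599365234375) * (k - (27/8))^3 * ((13/2) - k)^7 +
        (312980295368099262693044962854656/5516340024769306182861328125) * (k - (27/8))^4 * ((13/2) - k)^6 +
        (3541395407065927516015290430388056/27581700123846530914306640625) * (k - (27/8))^5 * ((13/2) - k)^5 +
        (1104782877523754333891163703657696/5516340024769306182861328125) * (k - (27/8))^6 * ((13/2) - k)^4 +
        (10041555713492258051362304781056/47148205339908599853515625) * (k - (27/8))^7 * ((13/2) - k)^3 +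
        (816672920577036855642002647119872/5516340024769306182861328125) * (k - (27/8))^8 * ((13/2) - k)^2 +
        (25827093014008292836148857526272/424333848059177398681640625) * (k - (27/8))^9 * ((13/2) - k) +
        (23898280642212547610908244320256/2121669240295886993408203125) * (k - (27/8))^10) /
      (((24649/10000) + k ^ 2) * (2 + k) * ((13 + 2) * k ^ 2 + (24649/10000)) ^ 2 * k ^ 2) := by
      field_simp
      ring
    rw [h]
    positivity

lemma GG_posA_14 {a k X y A1 : ℝ} (hk : 0 < k) (hk2 : k ≤ 1 / 2) (hA1 : 0 ≤ A1) (hX : 0 ≤ X)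
    (hy : y * ((26569/10000) + k ^ 2) ≤ (26569/10000))
    (ha : ∀ c₀ : ℝ, 0 ≤ c₀ → 2 - 2 * c₀ ^ 2 / (1 + c₀) - (2 + c₀) / (1 + c₀) ^ 2 * (y - c₀ ^ 2) ≤ a) :
    0 < GG 14 A1 (13/2000) a k X := by
  have ha' : (7/4) - (3/4) * y ≤ a := by
    have := ha 1 (by norm_num)
    norm_num at this
    linarith
  refine GG_A (A2 := (26569/10000)) (P := (7/4)) (Q := (3/4)) (y := y) hk hk2 hA1 hX (by norm_num)
    (by norm_num) hy ha' ?_
  have hv : 0 ≤ (1/2) - k := by linarith
  have h : (7/4) - (3/4) * ((26569/10000) / ((26569/10000) + k ^ 2)) - 3 / (2 * (14 + 2)) * (1 + k) -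
      (1 + 7 / (4 * 14)) * ((1 + k) / (2 + k)) - (13/2000) = (1/1000) +
      ((7147061/250000) * ((1/2) - k)^4 +
        (105558637/1000000) * k * ((1/2) - k)^3 +
        (305680219/2000000) * k^2 * ((1/2) - k)^2 +
        (13003723/125000) * k^3 * ((1/2) - k) +
        (11226527/400000) * k^4) /
      (((26569/10000) + k ^ 2) * (2 + k)) := by
    field_simp
    ring
  rw [h]
  positivity

lemma GG_posB_14 {a k X y : ℝ} (hk2 : 1 / 2 ≤ k) (hk3 : k ≤ 7)
    (hy0 : 0 ≤ y) (hy : y * ((26569/10000) + k ^ 2) ≤ (26569/10000))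
    (ha : ∀ c₀ : ℝ, 0 ≤ c₀ → 2 - 2 * c₀ ^ 2 / (1 + c₀) - (2 + c₀) / (1 + c₀) ^ 2 * (y - c₀ ^ 2) ≤ a)
    (hX : 2 * X ≤ 1 - 2 * ((1 + k) / ((14 + 2) - (14 + 1) * y)) +
      3 * ((1 + k) / ((14 + 2) - (14 + 1) * y)) ^ 2 * y) :
    0 < GG 14 6 (13/2000) a k X := by
  have hk : 0 < k := by linarith
  rcases le_total k (77/20) with hkb | hkb
  · have ha' : (482/245) - (60/49) * y ≤ a := by
      have := ha (2/5) (by norm_num)
      norm_num at this
      linarith
    have hu : 0 ≤ k - (1/2) := by linarith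
    have hv : 0 ≤ (77/20) - k := by linarith
    refine GG_B (A2 := (26569/10000)) (P := (482/245)) (Q := (60/49)) (y := y) hk (by norm_num) (by norm_num)
      (by norm_num) hy ha' ?_
    have h : (482/245) - (60/49) * ((26569/10000) / ((26569/10000) + k ^ 2)) - 3 / (2 * (14 + 2)) * (1 + k) -
        (1 + 7 / (4 * 14)) * ((1 + k) / (2 + k)) - (13/2000) - (2 * k - 1) ^ 2 / (4 * (1 + k) * 6) = (1/1000) +
        ((171206349/264624520972) * ((77/20) - k)^5 +
        (210668993743/13231226048600) * (k - (1/2)) * ((77/20) - k)^4 +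
        (68160158135681/396936781458000) * (k - (1/2))^2 * ((77/20) - k)^3 +
        (176320353117077/264624520972000) * (k - (1/2))^3 * ((77/20) - k)^2 +
        (43724903427089/56705254494000) * (k - (1/2))^4 * ((77/20) - k) +
        (15320888391/18901751498000) * (k - (1/2))^5) /
        (((26569/10000) + k ^ 2) * (2 + k) * (1 + k)) := by
      field_simp
      ring
    rw [h]
    positivity
  have ha' : (482/245) - (60/49) * y ≤ a := by
    have := ha (2/5) (by norm_num)
    norm_num at this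
    linarith
  have hkb' : k ≤ 7 := by linarith
  have hu : 0 ≤ k - (77/20) := by linarith
  have hv : 0 ≤ 7 - k := by linarith
  have hk2' : (5929/400) ≤ k ^ 2 := by nlinarith
  refine GG_C (A2 := (26569/10000)) (P := (482/245)) (Q := (60/49)) (ξ := 0) (L := (13/7)) (M₀ := (137199/10000)) (y := y)
    (by norm_num) hk (by norm_num) (by norm_num) (by norm_num) hy0 hy ha' hX ?_ ?_ (by norm_num) ?_ ?_ ?_
  · have e : 2 - 1 / k - 2 * 0 * (1 + k) * 6 / k ^ 2 = (2 * k ^ 2 - k - 0 * (1 + k)) / k ^ 2 := by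
      field_simp
      try ring
    rw [e]
    refine div_nonneg ?_ (by positivity)
    nlinarith
  · have e1 : 1 / 7 ≤ 1 / k := one_div_le_one_div_of_le hk hkb'
    have e2 : 0 ≤ 2 * 0 * (1 + k) * 6 / k ^ 2 := by positivity
    have e3 : (2 : ℝ) - 1 / 7 = (13/7) := by norm_num
    linarith
  · linarith
  · linarith
  · have h : (482/245) - (60/49) * ((26569/10000) / ((26569/10000) + k ^ 2)) - 3 / (2 * (14 + 2)) * (1 + k) -
      (1 + 7 / (4 * 14)) * ((1 + k) / (2 + k)) - (13/2000) -
      (2 - 1 / k - 2 * 0 * (1 + k) * 6 / k ^ 2) *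
      (1 / 2 - (1 + k) * ((26569/10000) + k ^ 2) / ((14 + 2) * k ^ 2 + (26569/10000)) +
        3 / 2 * (1 + k) ^ 2 * (26569/10000) * ((26569/10000) + k ^ 2) / ((14 + 2) * k ^ 2 + (26569/10000)) ^ 2) -
      6 * (1 + k) * 0 ^ 2 / k ^ 2 = (1/1000) +
      ((289781667862884429175163/3908453539213455750000) * (7 - k)^10 +
        (2915358470084314436967671/2171363077340808750000) * (k - (77/20)) * (7 - k)^9 +
        (47161938601139551857466751/4342726154681617500000) * (k - (77/20))^2 * (7 - k)^8 +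
        (33690511986448901524283647/651408923202242625000) * (k - (77/20))^3 * (7 - k)^7 +
        (1246592730193308943250693/7754868133360031250) * (k - (77/20))^4 * (7 - k)^6 +
        (21156951474260766115631947/62038945066880250000) * (k - (77/20))^5 * (7 - k)^5 +
        (931667981864806169700776063/1861168352006407500000) * (k - (77/20))^6 * (7 - k)^4 +
        (545587811756669285804888879/1085681538670404375000) * (k - (77/20))^7 * (7 - k)^3 +
        (17945026395731468480266051/54284076933520218750) * (k - (77/20))^8 * (7 - k)^2 +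
        (251783192244039875531506/1954226769606727875) * (k - (77/20))^9 * (7 - k) +
        (24563752680167070159344/1085681538670404375) * (k - (77/20))^10) /
      (((26569/10000) + k ^ 2) * (2 + k) * ((14 + 2) * k ^ 2 + (26569/10000)) ^ 2 * k ^ 2) := by
      field_simp
      ring
    rw [h]
    positivity

end Crest.Agent.R230.WR
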