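import Crest.Agent.R230.CaseIIppB

/-!
# Row 230: block B5: one-variable certificates (generated)
-/

set_option autoImplicit false
set_option maxHeartbeats 4000000
set_option linter.style.longLine false
set_option linter.unusedVariables false

open Set

namespace Crest.Agent.R230.WR

lemma GG_posA_15 {a k X y A1 : ℝ} (hk : 0 < k) (hk2 : k ≤ 1 / 2) (hA1 : 0 ≤ A1) (hX : 0 ≤ X)
    (hy : y * ((28561/10000) + k ^ 2) ≤ (28561/10000))
    (ha : ∀ c₀ : ℝ, 0 ≤ c₀ → 2 - 2 * c₀ ^ 2 / (1 + c₀) - (2 + c₀) / (1 + c₀) ^ 2 * (y - c₀ ^ 2) ≤ a) :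
    0 < GG 15 A1 (13/2000) a k X := by
  have ha' : (7/4) - (3/4) * y ≤ a := by
    have := ha 1 (by norm_num)
    norm_num at this
    linarith
  refine GG_A (A2 := (28561/10000)) (P := (7/4)) (Q := (3/4)) (y := y) hk hk2 hA1 hX (by norm_num)
    (by norm_num) hy ha' ?_
  have hv : 0 ≤ (1/2) - k := by linarith
  have h : (7/4) - (3/4) * ((28561/10000) / ((28561/10000) + k ^ 2)) - 3 / (2 * (15 + 2)) * (1 + k) -
      (1 + 7 / (4 * 15)) * ((1 + k) / (2 + k)) - (13/2000) = (1/1000) +
      ((201554977/6375000) * ((1/2) - k)^4 +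
        (999435073/8500000) * k * ((1/2) - k)^3 +
        (4355461309/25500000) * k^2 * ((1/2) - k)^2 +
        (2959304093/25500000) * k^3 * ((1/2) - k) +
        (52911873/1700000) * k^4) /
      (((28561/10000) + k ^ 2) * (2 + k)) := by
    field_simp
    ring
  rw [h]
  positivity

lemma GG_posB_15 {a k X y : ℝ} (hk2 : 1 / 2 ≤ k) (hk3 : k ≤ (15/2))
    (hy0 : 0 ≤ y) (hy : y * ((28561/10000) + k ^ 2) ≤ (28561/10000))
    (ha : ∀ c₀ : ℝ, 0 ≤ c₀ → 2 - 2 * c₀ ^ 2 / (1 + c₀) - (2 + c₀) / (1 + c₀) ^ 2 * (y - c₀ ^ 2) ≤ a)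
    (hX : 2 * X ≤ 1 - 2 * ((1 + k) / ((15 + 2) - (15 + 1) * y)) +
      3 * ((1 + k) / ((15 + 2) - (15 + 1) * y)) ^ 2 * y) :
    0 < GG 15 7 (13/2000) a k X := by
  have hk : 0 < k := by linarith
  rcases le_total k (171/40) with hkb | hkb
  · have ha' : (32911/16820) - (980/841) * y ≤ a := by
      have := ha (9/20) (by norm_num)
      norm_num at this
      linarith
    have hu : 0 ≤ k - (1/2) := by linarith
    have hv : 0 ≤ (171/40) - k := by linarith
    refine GG_B (A2 := (28561/10000)) (P := (32911/16820)) (Q := (980/841)) (y := y) hk (by norm_num) (by norm_num)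
      (by norm_num) hy ha' ?_
    have h : (32911/16820) - (980/841) * ((28561/10000) / ((28561/10000) + k ^ 2)) - 3 / (2 * (15 + 2)) * (1 + k) -
        (1 + 7 / (4 * 15)) * ((1 + k) / (2 + k)) - (13/2000) - (2 * k - 1) ^ 2 / (4 * (1 + k) * 7) = (1/1000) +
        ((1284335859168/1122353470062047) * ((171/40) - k)^5 +
        (454481846474816/28058836751551175) * (k - (1/2)) * ((171/40) - k)^4 +
        (405137375727449738/2946177858912873375) * (k - (1/2))^2 * ((171/40) - k)^3 +
        (1553790017850363484/2946177858912873375) * (k - (1/2))^3 * ((171/40) - k)^2 +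
        (1252051412471805891/1964118572608582250) * (k - (1/2))^4 * ((171/40) - k) +
        (4235843157910723/2946177858912873375) * (k - (1/2))^5) /
        (((28561/10000) + k ^ 2) * (2 + k) * (1 + k)) := by
      field_simp
      ring
    rw [h]
    positivity
  have ha' : (32911/16820) - (980/841) * y ≤ a := by
    have := ha (9/20) (by norm_num)
    norm_num at this
    linarith
  have hkb' : k ≤ (15/2) := by linarith
  have hu : 0 ≤ k - (171/40) := by linarith
  have hv : 0 ≤ (15/2) - k := by linarith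
  have hk2' : (29241/1600) ≤ k ^ 2 := by nlinarith
  refine GG_C (A2 := (28561/10000)) (P := (32911/16820)) (Q := (980/841)) (ξ := 0) (L := (28/15)) (M₀ := (74187/5000)) (y := y)
    (by norm_num) hk (by norm_num) (by norm_num) (by norm_num) hy0 hy ha' hX ?_ ?_ (by norm_num) ?_ ?_ ?_
  · have e : 2 - 1 / k - 2 * 0 * (1 + k) * 7 / k ^ 2 = (2 * k ^ 2 - k - 0 * (1 + k)) / k ^ 2 := by
      field_simp
      try ring
    rw [e]
    refine div_nonneg ?_ (by positivity)
    nlinarith
  · have e1 : 1 / (15/2) ≤ 1 / k := one_div_le_one_div_of_le hk hkb'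
    have e2 : 0 ≤ 2 * 0 * (1 + k) * 7 / k ^ 2 := by positivity
    have e3 : (2 : ℝ) - 1 / (15/2) = (28/15) := by norm_num
    linarith
  · linarith
  · linarith
  · have h : (32911/16820) - (980/841) * ((28561/10000) / ((28561/10000) + k ^ 2)) - 3 / (2 * (15 + 2)) * (1 + k) -
      (1 + 7 / (4 * 15)) * ((1 + k) / (2 + k)) - (13/2000) -
      (2 - 1 / k - 2 * 0 * (1 + k) * 7 / k ^ 2) *
      (1 / 2 - (1 + k) * ((28561/10000) + k ^ 2) / ((15 + 2) * k ^ 2 + (28561/10000)) +
        3 / 2 * (1 + k) ^ 2 * (28561/10000) * ((28561/10000) + k ^ 2) / ((15 + 2) * k ^ 2 + (28561/10000)) ^ 2) -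
      7 * (1 + k) * 0 ^ 2 / k ^ 2 = (1/1000) +
      ((10800080319896992010560242147107/63350424944852388158738531250) * ((15/2) - k)^10 +
        (1400665045914367996257809635209887/475128187086392911190538984375) * (k - (171/40)) * ((15/2) - k)^9 +
        (10850458822834064139885160023634006/475128187086392911190538984375) * (k - (171/40))^2 * ((15/2) - k)^8 +
        (9923398731100228744360674565036786/95025637417278582238107796875) * (k - (171/40))^3 * ((15/2) - k)^7 +
        (29681580805094800622250421098154736/95025637417278582238107796875) * (k - (171/40))^4 * ((15/2) - k)^6 +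
        (60717023340823258016310144102441952/95025637417278582238107796875) * (k - (171/40))^5 * ((15/2) - k)^5 +
        (430427219718798239916136616283940192/475128187086392911190538984375) * (k - (171/40))^6 * ((15/2) - k)^4 +
        (417984177515845479283679394822507296/475128187086392911190538984375) * (k - (171/40))^7 * ((15/2) - k)^3 +
        (53259660319290450224002114666222976/95025637417278582238107796875) * (k - (171/40))^8 * ((15/2) - k)^2 +
        (804879347513242291378183108386304/3801025496691143289524311875) * (k - (171/40))^9 * ((15/2) - k) +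
        (107520158018290297210639366144/2981196467993053560411225) * (k - (171/40))^10) /
      (((28561/10000) + k ^ 2) * (2 + k) * ((15 + 2) * k ^ 2 + (28561/10000)) ^ 2 * k ^ 2) := by
      field_simp
      ring
    rw [h]
    positivity

lemma GG_posA_16 {a k X y A1 : ℝ} (hk : 0 < k) (hk2 : k ≤ 1 / 2) (hA1 : 0 ≤ A1) (hX : 0 ≤ X)
    (hy : y * ((49/16) + k ^ 2) ≤ (49/16))
    (ha : ∀ c₀ : ℝ, 0 ≤ c₀ → 2 - 2 * c₀ ^ 2 / (1 + c₀) - (2 + c₀) / (1 + c₀) ^ 2 * (y - c₀ ^ 2) ≤ a) :
    0 < GG 16 A1 (3/500) a k X := by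
  have ha' : (7/4) - (3/4) * y ≤ a := by
    have := ha 1 (by norm_num)
    norm_num at this
    linarith
  refine GG_A (A2 := (49/16)) (P := (7/4)) (Q := (3/4)) (y := y) hk hk2 hA1 hX (by norm_num)
    (by norm_num) hy ha' ?_
  have hv : 0 ≤ (1/2) - k := by linarith
  have h : (7/4) - (3/4) * ((49/16) / ((49/16) + k ^ 2)) - 3 / (2 * (16 + 2)) * (1 + k) -
      (1 + 7 / (4 * 16)) * ((1 + k) / (2 + k)) - (3/500) = (1/1000) +
      ((834911/24000) * ((1/2) - k)^4 +
        (6248431/48000) * k * ((1/2) - k)^3 +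
        (3033891/16000) * k^2 * ((1/2) - k)^2 +
        (6174169/48000) * k^3 * ((1/2) - k) +
        (109807/3200) * k^4) /
      (((49/16) + k ^ 2) * (2 + k)) := by
    field_simp
    ring
  rw [h]
  positivity

lemma GG_posB_16 {a k X y : ℝ} (hk2 : 1 / 2 ≤ k) (hk3 : k ≤ 8)
    (hy0 : 0 ≤ y) (hy : y * ((49/16) + k ^ 2) ≤ (49/16))
    (ha : ∀ c₀ : ℝ, 0 ≤ c₀ → 2 - 2 * c₀ ^ 2 / (1 + c₀) - (2 + c₀) / (1 + c₀) ^ 2 * (y - c₀ ^ 2) ≤ a)
    (hX : 2 * X ≤ 1 - 2 * ((1 + k) / ((16 + 2) - (16 + 1) * y)) +
      3 * ((1 + k) / ((16 + 2) - (16 + 1) * y)) ^ 2 * y) :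
    0 < GG 16 8 (3/500) a k X := by
  have hk : 0 < k := by linarith
  rcases le_total k (189/40) with hkb | hkb
  · have ha' : (482/245) - (60/49) * y ≤ a := by
      have := ha (2/5) (by norm_num)
      norm_num at this
      linarith
    have hu : 0 ≤ k - (1/2) := by linarith
    have hv : 0 ≤ (189/40) - k := by linarith
    refine GG_B (A2 := (49/16)) (P := (482/245)) (Q := (60/49)) (y := y) hk (by norm_num) (by norm_num)
      (by norm_num) hy ha' ?_
    have h : (482/245) - (60/49) * ((49/16) / ((49/16) + k ^ 2)) - 3 / (2 * (16 + 2)) * (1 + k) -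
        (1 + 7 / (4 * 16)) * ((1 + k) / (2 + k)) - (3/500) - (2 * k - 1) ^ 2 / (4 * (1 + k) * 8) = (1/1000) +
        ((2346429000/6755066100601) * ((189/40) - k)^5 +
        (46610050660/6755066100601) * (k - (1/2)) * ((189/40) - k)^4 +
        (3451352634011/40530396603606) * (k - (1/2))^2 * ((189/40) - k)^3 +
        (2639105419712/6755066100601) * (k - (1/2))^3 * ((189/40) - k)^2 +
        (301909775961329/579005665765800) * (k - (1/2))^4 * ((189/40) - k) +
        (41826609511/41357547554700) * (k - (1/2))^5) /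
        (((49/16) + k ^ 2) * (2 + k) * (1 + k)) := by
      field_simp
      ring
    rw [h]
    positivity
  have ha' : (32911/16820) - (980/841) * y ≤ a := by
    have := ha (9/20) (by norm_num)
    norm_num at this
    linarith
  have hkb' : k ≤ 8 := by linarith
  have hu : 0 ≤ k - (189/40) := by linarith
  have hv : 0 ≤ 8 - k := by linarith
  have hk2' : (35721/1600) ≤ k ^ 2 := by nlinarith
  refine GG_C (A2 := (49/16)) (P := (32911/16820)) (Q := (980/841)) (ξ := 0) (L := (15/8)) (M₀ := (159493/10000)) (y := y)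
    (by norm_num) hk (by norm_num) (by norm_num) (by norm_num) hy0 hy ha' hX ?_ ?_ (by norm_num) ?_ ?_ ?_
  · have e : 2 - 1 / k - 2 * 0 * (1 + k) * 8 / k ^ 2 = (2 * k ^ 2 - k - 0 * (1 + k)) / k ^ 2 := by
      field_simp
      try ring
    rw [e]
    refine div_nonneg ?_ (by positivity)
    nlinarith
  · have e1 : 1 / 8 ≤ 1 / k := one_div_le_one_div_of_le hk hkb'
    have e2 : 0 ≤ 2 * 0 * (1 + k) * 8 / k ^ 2 := by positivity
    have e3 : (2 : ℝ) - 1 / 8 = (15/8) := by norm_num
    linarith
  · linarith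
  · linarith
  · have h : (32911/16820) - (980/841) * ((49/16) / ((49/16) + k ^ 2)) - 3 / (2 * (16 + 2)) * (1 + k) -
      (1 + 7 / (4 * 16)) * ((1 + k) / (2 + k)) - (3/500) -
      (2 - 1 / k - 2 * 0 * (1 + k) * 8 / k ^ 2) *
      (1 / 2 - (1 + k) * ((49/16) + k ^ 2) / ((16 + 2) * k ^ 2 + (49/16)) +
        3 / 2 * (1 + k) ^ 2 * (49/16) * ((49/16) + k ^ 2) / ((16 + 2) * k ^ 2 + (49/16)) ^ 2) -
      8 * (1 + k) * 0 ^ 2 / k ^ 2 = (1/1000) +
      ((12904678029373518712671190368/31293126881907228540366025) * (8 - k)^10 +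
        (215039065454842437733346030413/31293126881907228540366025) * (k - (189/40)) * (8 - k)^9 +
        (964410239623200358729092894122/18775876129144337124219615) * (k - (189/40))^2 * (8 - k)^8 +
        (852007745459816392346516743532/3755175225828867424843923) * (k - (189/40))^3 * (8 - k)^7 +
        (2464150958531867680911931206370/3755175225828867424843923) * (k - (189/40))^4 * (8 - k)^6 +
        (4878112383907582666048104739550/3755175225828867424843923) * (k - (189/40))^5 * (8 - k)^5 +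
        (2232567787068342463501237483000/1251725075276289141614641) * (k - (189/40))^6 * (8 - k)^4 +
        (6301651452549758013325572775000/3755175225828867424843923) * (k - (189/40))^7 * (8 - k)^3 +
        (3890904537458472171996004600000/3755175225828867424843923) * (k - (189/40))^8 * (8 - k)^2 +
        (1424685631055893068880768000000/3755175225828867424843923) * (k - (189/40))^9 * (8 - k) +
        (78368743640377185177600000000/1251725075276289141614641) * (k - (189/40))^10) /
      (((49/16) + k ^ 2) * (2 + k) * ((16 + 2) * k ^ 2 + (49/16)) ^ 2 * k ^ 2) := by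
      field_simp
      ring
    rw [h]
    positivity

lemma GG_posA_17 {a k X y A1 : ℝ} (hk : 0 < k) (hk2 : k ≤ 1 / 2) (hA1 : 0 ≤ A1) (hX : 0 ≤ X)
    (hy : y * ((32761/10000) + k ^ 2) ≤ (32761/10000))
    (ha : ∀ c₀ : ℝ, 0 ≤ c₀ → 2 - 2 * c₀ ^ 2 / (1 + c₀) - (2 + c₀) / (1 + c₀) ^ 2 * (y - c₀ ^ 2) ≤ a) :
    0 < GG 17 A1 (3/500) a k X := by
  have ha' : (7/4) - (3/4) * y ≤ a := by
    have := ha 1 (by norm_num)
    norm_num at this
    linarith
  refine GG_A (A2 := (32761/10000)) (P := (7/4)) (Q := (3/4)) (y := y) hk hk2 hA1 hX (by norm_num)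
    (by norm_num) hy ha' ?_
  have hv : 0 ≤ (1/2) - k := by linarith
  have h : (7/4) - (3/4) * ((32761/10000) / ((32761/10000) + k ^ 2)) - 3 / (2 * (17 + 2)) * (1 + k) -
      (1 + 7 / (4 * 17)) * ((1 + k) / (2 + k)) - (3/500) = (1/1000) +
      ((1918385877/50468750) * ((1/2) - k)^4 +
        (3037829247/21250000) * k * ((1/2) - k)^3 +
        (84249682233/403750000) * k^2 * ((1/2) - k)^2 +
        (57057042951/403750000) * k^3 * ((1/2) - k) +
        (3029430879/80750000) * k^4) /
      (((32761/10000) + k ^ 2) * (2 + k)) := by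
    field_simp
    ring
  rw [h]
  positivity

lemma GG_posB_17 {a k X y : ℝ} (hk2 : 1 / 2 ≤ k) (hk3 : k ≤ (17/2))
    (hy0 : 0 ≤ y) (hy : y * ((32761/10000) + k ^ 2) ≤ (32761/10000))
    (ha : ∀ c₀ : ℝ, 0 ≤ c₀ → 2 - 2 * c₀ ^ 2 / (1 + c₀) - (2 + c₀) / (1 + c₀) ^ 2 * (y - c₀ ^ 2) ≤ a)
    (hX : 2 * X ≤ 1 - 2 * ((1 + k) / ((17 + 2) - (17 + 1) * y)) +
      3 * ((1 + k) / ((17 + 2) - (17 + 1) * y)) ^ 2 * y) :
    0 < GG 17 9 (3/500) a k X := by
  have hk : 0 < k := by linarith
  rcases le_total k (103/20) with hkb | hkb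
  · have ha' : (482/245) - (60/49) * y ≤ a := by
      have := ha (2/5) (by norm_num)
      norm_num at this
      linarith
    have hu : 0 ≤ k - (1/2) := by linarith
    have hv : 0 ≤ (103/20) - k := by linarith
    refine GG_B (A2 := (32761/10000)) (P := (482/245)) (Q := (60/49)) (y := y) hk (by norm_num) (by norm_num)
      (by norm_num) hy ha' ?_
    have h : (482/245) - (60/49) * ((32761/10000) / ((32761/10000) + k ^ 2)) - 3 / (2 * (17 + 2)) * (1 + k) -
        (1 + 7 / (4 * 17)) * ((1 + k) / (2 + k)) - (3/500) - (2 * k - 1) ^ 2 / (4 * (1 + k) * 9) = (1/1000) +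
        ((15807513514/61170332338395) * ((103/20) - k)^5 +
        (350704212916/72821824212375) * (k - (1/2)) * ((103/20) - k)^4 +
        (8715192496844339/137633247761388750) * (k - (1/2))^2 * ((103/20) - k)^3 +
        (7189256911925992/22938874626898125) * (k - (1/2))^3 * ((103/20) - k)^2 +
        (1458992508739741/3276982089556875) * (k - (1/2))^4 * ((103/20) - k) +
        (35853266374822/68816623880694375) * (k - (1/2))^5) /
        (((32761/10000) + k ^ 2) * (2 + k) * (1 + k)) := by
      field_simp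
      ring
    rw [h]
    positivity
  have ha' : (35/18) - (10/9) * y ≤ a := by
    have := ha (1/2) (by norm_num)
    norm_num at this
    linarith
  have hkb' : k ≤ (17/2) := by linarith
  have hu : 0 ≤ k - (103/20) := by linarith
  have hv : 0 ≤ (17/2) - k := by linarith
  have hk2' : (10609/400) ≤ k ^ 2 := by nlinarith
  refine GG_C (A2 := (32761/10000)) (P := (35/18)) (Q := (10/9)) (ξ := 0) (L := (32/17)) (M₀ := (17021/1000)) (y := y)
    (by norm_num) hk (by norm_num) (by norm_num) (by norm_num) hy0 hy ha' hX ?_ ?_ (by norm_num) ?_ ?_ ?_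
  · have e : 2 - 1 / k - 2 * 0 * (1 + k) * 9 / k ^ 2 = (2 * k ^ 2 - k - 0 * (1 + k)) / k ^ 2 := by
      field_simp
      try ring
    rw [e]
    refine div_nonneg ?_ (by positivity)
    nlinarith
  · have e1 : 1 / (17/2) ≤ 1 / k := one_div_le_one_div_of_le hk hkb'
    have e2 : 0 ≤ 2 * 0 * (1 + k) * 9 / k ^ 2 := by positivity
    have e3 : (2 : ℝ) - 1 / (17/2) = (32/17) := by norm_num
    linarith
  · linarith
  · linarith
  · have h : (35/18) - (10/9) * ((32761/10000) / ((32761/10000) + k ^ 2)) - 3 / (2 * (17 + 2)) * (1 + k) -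
      (1 + 7 / (4 * 17)) * ((1 + k) / (2 + k)) - (3/500) -
      (2 - 1 / k - 2 * 0 * (1 + k) * 9 / k ^ 2) *
      (1 / 2 - (1 + k) * ((32761/10000) + k ^ 2) / ((17 + 2) * k ^ 2 + (32761/10000)) +
        3 / 2 * (1 + k) ^ 2 * (32761/10000) * ((32761/10000) + k ^ 2) / ((17 + 2) * k ^ 2 + (32761/10000)) ^ 2) -
      9 * (1 + k) * 0 ^ 2 / k ^ 2 = (1/1000) +
      ((1551137806351274210759148422951/2069917772590613489157421875) * ((17/2) - k)^10 +
        (2795975653204632268673086290153/229990863621179276573046875) * (k - (103/20)) * ((17/2) - k)^9 +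
        (183312862989789212564210881666556/2069917772590613489157421875) * (k - (103/20))^2 * ((17/2) - k)^8 +
        (157990603664224121729383939217687/413983554518122697831484375) * (k - (103/20))^3 * ((17/2) - k)^7 +
        (1784725075975374028184781408570503/1655934218072490791325937500) * (k - (103/20))^4 * ((17/2) - k)^6 +
        (17264300729345728818804160419047059/8279671090362453956629687500) * (k - (103/20))^5 * ((17/2) - k)^5 +
        (5795860212445135917480250464388927/2069917772590613489157421875) * (k - (103/20))^6 * ((17/2) - k)^4 +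
        (10673888385909900111918250299848497/4139835545181226978314843750) * (k - (103/20))^7 * ((17/2) - k)^3 +
        (43024710012487110254767249400747/27598903634541513188765625) * (k - (103/20))^8 * ((17/2) - k)^2 +
        (2723555857408995419497889113114/4870394759036737621546875) * (k - (103/20))^9 * ((17/2) - k) +
        (1545372705568462458172562524/17089104417672763584375) * (k - (103/20))^10) /
      (((32761/10000) + k ^ 2) * (2 + k) * ((17 + 2) * k ^ 2 + (32761/10000)) ^ 2 * k ^ 2) := by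
      field_simp
      ring
    rw [h]
    positivity

lemma GG_posA_18 {a k X y A1 : ℝ} (hk : 0 < k) (hk2 : k ≤ 1 / 2) (hA1 : 0 ≤ A1) (hX : 0 ≤ X)
    (hy : y * ((8649/2500) + k ^ 2) ≤ (8649/2500))
    (ha : ∀ c₀ : ℝ, 0 ≤ c₀ → 2 - 2 * c₀ ^ 2 / (1 + c₀) - (2 + c₀) / (1 + c₀) ^ 2 * (y - c₀ ^ 2) ≤ a) :
    0 < GG 18 A1 (11/2000) a k X := by
  have ha' : (7/4) - (3/4) * y ≤ a := by
    have := ha 1 (by norm_num)
    norm_num at this
    linarith
  refine GG_A (A2 := (8649/2500)) (P := (7/4)) (Q := (3/4)) (y := y) hk hk2 hA1 hX (by norm_num)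
    (by norm_num) hy ha' ?_
  have hv : 0 ≤ (1/2) - k := by linarith
  have h : (7/4) - (3/4) * ((8649/2500) / ((8649/2500) + k ^ 2)) - 3 / (2 * (18 + 2)) * (1 + k) -
      (1 + 7 / (4 * 18)) * ((1 + k) / (2 + k)) - (11/2000) = (1/1000) +
      ((3199169/78125) * ((1/2) - k)^4 +
        (96687171/625000) * k * ((1/2) - k)^3 +
        (636534767/2812500) * k^2 * ((1/2) - k)^2 +
        (430842749/2812500) * k^3 * ((1/2) - k) +
        (3800641/93750) * k^4) /
      (((8649/2500) + k ^ 2) * (2 + k)) := by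
    field_simp
    ring
  rw [h]
  positivity

lemma GG_posB_18 {a k X y : ℝ} (hk2 : 1 / 2 ≤ k) (hk3 : k ≤ 9)
    (hy0 : 0 ≤ y) (hy : y * ((8649/2500) + k ^ 2) ≤ (8649/2500))
    (ha : ∀ c₀ : ℝ, 0 ≤ c₀ → 2 - 2 * c₀ ^ 2 / (1 + c₀) - (2 + c₀) / (1 + c₀) ^ 2 * (y - c₀ ^ 2) ≤ a)
    (hX : 2 * X ≤ 1 - 2 * ((1 + k) / ((18 + 2) - (18 + 1) * y)) +
      3 * ((1 + k) / ((18 + 2) - (18 + 1) * y)) ^ 2 * y) :
    0 < GG 18 10 (11/2000) a k X := by
  have hk : 0 < k := by linarith
  rcases le_total k (223/40) with hkb | hkb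
  · have ha' : (482/245) - (60/49) * y ≤ a := by
      have := ha (2/5) (by norm_num)
      norm_num at this
      linarith
    have hu : 0 ≤ k - (1/2) := by linarith
    have hv : 0 ≤ (223/40) - k := by linarith
    refine GG_B (A2 := (8649/2500)) (P := (482/245)) (Q := (60/49)) (y := y) hk (by norm_num) (by norm_num)
      (by norm_num) hy ha' ?_
    have h : (482/245) - (60/49) * ((8649/2500) / ((8649/2500) + k ^ 2)) - 3 / (2 * (18 + 2)) * (1 + k) -
        (1 + 7 / (4 * 18)) * ((1 + k) / (2 + k)) - (11/2000) - (2 * k - 1) ^ 2 / (4 * (1 + k) * 10) = (1/1000) +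
        ((16767838208/84459065904535) * ((223/40) - k)^5 +
        (22425865978048/6334429942840125) * (k - (1/2)) * ((223/40) - k)^4 +
        (4640978846075056/95016449142601875) * (k - (1/2))^2 * ((223/40) - k)^3 +
        (24534605699593838/95016449142601875) * (k - (1/2))^3 * ((223/40) - k)^2 +
        (36886626508395413/95016449142601875) * (k - (1/2))^4 * ((223/40) - k) +
        (380775065876663/760131593140815000) * (k - (1/2))^5) /
        (((8649/2500) + k ^ 2) * (2 + k) * (1 + k)) := by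
      field_simp
      ring
    rw [h]
    positivity
  have ha' : (35/18) - (10/9) * y ≤ a := by
    have := ha (1/2) (by norm_num)
    norm_num at this
    linarith
  have hkb' : k ≤ 9 := by linarith
  have hu : 0 ≤ k - (223/40) := by linarith
  have hv : 0 ≤ 9 - k := by linarith
  have hk2' : (49729/1600) ≤ k ^ 2 := by nlinarith
  refine GG_C (A2 := (8649/2500)) (P := (35/18)) (Q := (10/9)) (ξ := 0) (L := (17/9)) (M₀ := (180969/10000)) (y := y)
    (by norm_num) hk (by norm_num) (by norm_num) (by norm_num) hy0 hy ha' hX ?_ ?_ (by norm_num) ?_ ?_ ?_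
  · have e : 2 - 1 / k - 2 * 0 * (1 + k) * 10 / k ^ 2 = (2 * k ^ 2 - k - 0 * (1 + k)) / k ^ 2 := by
      field_simp
      try ring
    rw [e]
    refine div_nonneg ?_ (by positivity)
    nlinarith
  · have e1 : 1 / 9 ≤ 1 / k := one_div_le_one_div_of_le hk hkb'
    have e2 : 0 ≤ 2 * 0 * (1 + k) * 10 / k ^ 2 := by positivity
    have e3 : (2 : ℝ) - 1 / 9 = (17/9) := by norm_num
    linarith
  · linarith
  · linarith
  · have h : (35/18) - (10/9) * ((8649/2500) / ((8649/2500) + k ^ 2)) - 3 / (2 * (18 + 2)) * (1 + k) -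
      (1 + 7 / (4 * 18)) * ((1 + k) / (2 + k)) - (11/2000) -
      (2 - 1 / k - 2 * 0 * (1 + k) * 10 / k ^ 2) *
      (1 / 2 - (1 + k) * ((8649/2500) + k ^ 2) / ((18 + 2) * k ^ 2 + (8649/2500)) +
        3 / 2 * (1 + k) ^ 2 * (8649/2500) * ((8649/2500) + k ^ 2) / ((18 + 2) * k ^ 2 + (8649/2500)) ^ 2) -
      10 * (1 + k) * 0 ^ 2 / k ^ 2 = (1/1000) +
      ((11268415741632048512027459859272/8188572823465049806109765625) * (9 - k)^10 +
        (178858799050793716676209934514854/8188572823465049806109765625) * (k - (223/40)) * (9 - k)^9 +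
        (425165746804064875699807500321704/2729524274488349935369921875) * (k - (223/40))^2 * (9 - k)^8 +
        (119627588403609904380145254553088/181968284965889995691328125) * (k - (223/40))^3 * (9 - k)^7 +
        (331011549048328386093304788313376/181968284965889995691328125) * (k - (223/40))^4 * (9 - k)^6 +
        (3138319163756298652428756707837568/909841424829449978456640625) * (k - (223/40))^5 * (9 - k)^5 +
        (4131536589263986264138047151597056/909841424829449978456640625) * (k - (223/40))^6 * (9 - k)^4 +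
        (3730274961384526381977599126366208/909841424829449978456640625) * (k - (223/40))^7 * (9 - k)^3 +
        (442317869439843605806803403948032/181968284965889995691328125) * (k - (223/40))^8 * (9 - k)^2 +
        (31114131460507696335399819804672/36393656993177999138265625) * (k - (223/40))^9 * (9 - k) +
        (986480067845056320928201310208/7278731398635599827653125) * (k - (223/40))^10) /
      (((8649/2500) + k ^ 2) * (2 + k) * ((18 + 2) * k ^ 2 + (8649/2500)) ^ 2 * k ^ 2) := by
      field_simp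
      ring
    rw [h]
    positivity

lemma GG_posA_19 {a k X y A1 : ℝ} (hk : 0 < k) (hk2 : k ≤ 1 / 2) (hA1 : 0 ≤ A1) (hX : 0 ≤ X)
    (hy : y * ((36481/10000) + k ^ 2) ≤ (36481/10000))
    (ha : ∀ c₀ : ℝ, 0 ≤ c₀ → 2 - 2 * c₀ ^ 2 / (1 + c₀) - (2 + c₀) / (1 + c₀) ^ 2 * (y - c₀ ^ 2) ≤ a) :
    0 < GG 19 A1 (1/200) a k X := by
  have ha' : (7/4) - (3/4) * y ≤ a := by
    have := ha 1 (by norm_num)
    norm_num at this
    linarith
  refine GG_A (A2 := (36481/10000)) (P := (7/4)) (Q := (3/4)) (y := y) hk hk2 hA1 hX (by norm_num)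
    (by norm_num) hy ha' ?_
  have hv : 0 ≤ (1/2) - k := by linarith
  have h : (7/4) - (3/4) * ((36481/10000) / ((36481/10000) + k ^ 2)) - 3 / (2 * (19 + 2)) * (1 + k) -
      (1 + 7 / (4 * 19)) * ((1 + k) / (2 + k)) - (1/200) = (1/1000) +
      ((1826859037/41562500) * ((1/2) - k)^4 +
        (6928508001/41562500) * k * ((1/2) - k)^3 +
        (20311232187/83125000) * k^2 * ((1/2) - k)^2 +
        (3434760291/20781250) * k^3 * ((1/2) - k) +
        (725033881/16625000) * k^4) /
      (((36481/10000) + k ^ 2) * (2 + k)) := by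
    field_simp
    ring
  rw [h]
  positivity

lemma GG_posB_19 {a k X y : ℝ} (hk2 : 1 / 2 ≤ k) (hk3 : k ≤ (19/2))
    (hy0 : 0 ≤ y) (hy : y * ((36481/10000) + k ^ 2) ≤ (36481/10000))
    (ha : ∀ c₀ : ℝ, 0 ≤ c₀ → 2 - 2 * c₀ ^ 2 / (1 + c₀) - (2 + c₀) / (1 + c₀) ^ 2 * (y - c₀ ^ 2) ≤ a)
    (hX : 2 * X ≤ 1 - 2 * ((1 + k) / ((19 + 2) - (19 + 1) * y)) +
      3 * ((1 + k) / ((19 + 2) - (19 + 1) * y)) ^ 2 * y) :
    0 < GG 19 11 (1/200) a k X := by
  have hk : 0 < k := by linarith
  rcases le_total k 6 with hkb | hkb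
  · have ha' : (482/245) - (60/49) * y ≤ a := by
      have := ha (2/5) (by norm_num)
      norm_num at this
      linarith
    have hu : 0 ≤ k - (1/2) := by linarith
    have hv : 0 ≤ 6 - k := by linarith
    refine GG_B (A2 := (36481/10000)) (P := (482/245)) (Q := (60/49)) (y := y) hk (by norm_num) (by norm_num)
      (by norm_num) hy ha' ?_
    have h : (482/245) - (60/49) * ((36481/10000) / ((36481/10000) + k ^ 2)) - 3 / (2 * (19 + 2)) * (1 + k) -
        (1 + 7 / (4 * 19)) * ((1 + k) / (2 + k)) - (1/200) - (2 * k - 1) ^ 2 / (4 * (1 + k) * 11) = (1/1000) +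
        ((2884196901/18742310125000) * (6 - k)^5 +
        (124316300723/46855775312500) * (k - (1/2)) * (6 - k)^4 +
        (3594878195641/93711550625000) * (k - (1/2))^2 * (6 - k)^3 +
        (2530683213459/11713943828125) * (k - (1/2))^3 * (6 - k)^2 +
        (1605361020209/4685577531250) * (k - (1/2))^4 * (6 - k) +
        (339543311/3346841093750) * (k - (1/2))^5) /
        (((36481/10000) + k ^ 2) * (2 + k) * (1 + k)) := by
      field_simp
      ring
    rw [h]
    positivity
  have ha' : (35/18) - (10/9) * y ≤ a := by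
    have := ha (1/2) (by norm_num)
    norm_num at this
    linarith
  have hkb' : k ≤ (19/2) := by linarith
  have hu : 0 ≤ k - 6 := by linarith
  have hv : 0 ≤ (19/2) - k := by linarith
  have hk2' : 36 ≤ k ^ 2 := by nlinarith
  refine GG_C (A2 := (36481/10000)) (P := (35/18)) (Q := (10/9)) (ξ := 0) (L := (36/19)) (M₀ := (191597/10000)) (y := y)
    (by norm_num) hk (by norm_num) (by norm_num) (by norm_num) hy0 hy ha' hX ?_ ?_ (by norm_num) ?_ ?_ ?_
  · have e : 2 - 1 / k - 2 * 0 * (1 + k) * 11 / k ^ 2 = (2 * k ^ 2 - k - 0 * (1 + k)) / k ^ 2 := by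
      field_simp
      try ring
    rw [e]
    refine div_nonneg ?_ (by positivity)
    nlinarith
  · have e1 : 1 / (19/2) ≤ 1 / k := one_div_le_one_div_of_le hk hkb'
    have e2 : 0 ≤ 2 * 0 * (1 + k) * 11 / k ^ 2 := by positivity
    have e3 : (2 : ℝ) - 1 / (19/2) = (36/19) := by norm_num
    linarith
  · linarith
  · linarith
  · have h : (35/18) - (10/9) * ((36481/10000) / ((36481/10000) + k ^ 2)) - 3 / (2 * (19 + 2)) * (1 + k) -
      (1 + 7 / (4 * 19)) * ((1 + k) / (2 + k)) - (1/200) -
      (2 - 1 / k - 2 * 0 * (1 + k) * 11 / k ^ 2) *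
      (1 / 2 - (1 + k) * ((36481/10000) + k ^ 2) / ((19 + 2) * k ^ 2 + (36481/10000)) +
        3 / 2 * (1 + k) ^ 2 * (36481/10000) * ((36481/10000) + k ^ 2) / ((19 + 2) * k ^ 2 + (36481/10000)) ^ 2) -
      11 * (1 + k) * 0 ^ 2 / k ^ 2 = (1/1000) +
      ((1564677181145790996597711/655154996459960937500) * ((19/2) - k)^10 +
        (48752085212273715992712173/1310309992919921875000) * (k - 6) * ((19/2) - k)^9 +
        (8192708490029838481503737953/31447439830078125000000) * (k - 6)^2 * ((19/2) - k)^8 +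
        (2122603690180912057860433393/1965464989379882812500) * (k - 6)^3 * ((19/2) - k)^7 +
        (565255448510462502498830959/192535345898437500000) * (k - 6)^4 * ((19/2) - k)^6 +
        (147459794346915758067010911227/26954948425781250000000) * (k - 6)^5 * ((19/2) - k)^5 +
        (190798962117501964394164335571/26954948425781250000000) * (k - 6)^6 * ((19/2) - k)^4 +
        (197551483343740105249645038463/31447439830078125000000) * (k - 6)^7 * ((19/2) - k)^3 +
        (345381531146190200746269550699/94342319490234375000000) * (k - 6)^8 * ((19/2) - k)^2 +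
        (2513618741719100423752199111/1986154094531250000000) * (k - 6)^9 * ((19/2) - k) +
        (1957919055121753810855069729/9930770472656250000000) * (k - 6)^10) /
      (((36481/10000) + k ^ 2) * (2 + k) * ((19 + 2) * k ^ 2 + (36481/10000)) ^ 2 * k ^ 2) := by
      field_simp
      ring
    rw [h]
    positivity

end Crest.Agent.R230.WR
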