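import Crest.Agent.R230.Apriori4
import Mathlib.Analysis.Real.Pi.Bounds

/-!
# Row 230 (helper91): sharper bound `κ ≤ 1 + (17/20) s/c` for `n = 5` (dimension 6)
-/

set_option autoImplicit false

open MeasureTheory Set Filter Topology
open scoped Pointwise ENNReal

namespace Crest.Agent.R230

open Tr

/-- the ball inequality behind `κ ≤ 1 + α s/c`, from a hazard bound -/
lemma ball_cone_gen (n : ℕ) {α : ℝ} (hα0 : 0 < α)
    (hz : ∀ s ∈ Ico (0 : ℝ) 1, n * Real.sqrt (1 - s ^ 2) ^ (n + 2) ≤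
      (n + 1) * (α * Real.sqrt (1 - s ^ 2) + α / (Real.sqrt (1 - s ^ 2) + α * s) + n * s) * hB n s)
    {s : ℝ} (hs : s ∈ Ioo (0 : ℝ) 1) :
    s * Real.sqrt (1 - s ^ 2) ^ (n + 1) ≤
      (n + 1) * hB n 0 * ((Real.sqrt (1 - s ^ 2) + α * s) * ((hB n s / hB n 0) ^ ((n : ℝ) / (n + 1)) *
        (1 - (hB n s / hB n 0) ^ ((1 : ℝ) / (n + 1))))) := by
  have hH := hB_zero_pos n
  set H := hB n 0 with hHdef
  have hN : (0 : ℝ) < (n : ℝ) + 1 := by positivity
  set E : ℝ → ℝ := fun x => Real.exp (α * Real.arcsin x) * ((n + 1) * H *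
        ((Real.sqrt (1 - x ^ 2) + α * x) * ((hB n x / H) ^ ((n : ℝ) / (n + 1)) *
        (1 - (hB n x / H) ^ ((1 : ℝ) / (n + 1)))) / Real.sqrt (1 - x ^ 2) ^ (n + 1)) - x) with hE
  have hder : ∀ x ∈ Ico (0 : ℝ) 1, HasDerivAt E (Real.exp (α * Real.arcsin x) * ((n + 1) * H *
      ((hB n x / H) ^ ((n : ℝ) / (n + 1)) * (1 - (hB n x / H) ^ ((1 : ℝ) / (n + 1)))) *
        ((Real.sqrt (1 - x ^ 2) + α * x) * ((α * Real.sqrt (1 - x ^ 2) +
          α / (Real.sqrt (1 - x ^ 2) + α * x) + n * x) -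
          n * Real.sqrt (1 - x ^ 2) ^ (n + 2) / ((n + 1) * hB n x))) /
        Real.sqrt (1 - x ^ 2) ^ (n + 3))) x := by
    intro x hx
    have hx' : x ∈ Ioo (-1 : ℝ) 1 := ⟨by linarith [hx.1], hx.2⟩
    have hc := sqrt_pos_of_mem hx'
    have hc2 := cs_sq (s := x) ⟨hx.1, hx.2.le⟩
    have hp := hB_pos n hx
    have hA := hasDerivAt_tail_rpow n ((n : ℝ) / (n + 1)) hx
    have hB' := hasDerivAt_tail_rpow n ((1 : ℝ) / (n + 1)) hx
    rw [← hHdef] at hA hB'
    have hAB : (hB n x / H) ^ ((n : ℝ) / (n + 1)) * (hB n x / H) ^ ((1 : ℝ) / (n + 1)) = hB n x / H := by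
      rw [← Real.rpow_add (by positivity), ← add_div, div_self hN.ne', Real.rpow_one]
    have h1 := hA.fun_mul (hB'.const_sub 1)
    have hp' : HasDerivAt (fun x : ℝ => Real.sqrt (1 - x ^ 2) + α * x)
        (-x / Real.sqrt (1 - x ^ 2) + α) x := by
      have := (hasDerivAt_cs hx').fun_add ((hasDerivAt_id x).const_mul α)
      exact this.congr_deriv (by simp)
    have h2 := hp'.fun_mul h1
    have h3 := (hasDerivAt_cs hx').fun_pow (n + 1)
    have h4 := (h2.fun_div h3 (pow_pos hc _).ne').const_mul (((n : ℝ) + 1) * H)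
    have h5 := h4.fun_sub (hasDerivAt_id x)
    have h6 := (((Real.hasDerivAt_arcsin hx'.1.ne' hx'.2.ne).const_mul α).exp).fun_mul h5
    refine h6.congr_deriv ?_
    set A := (hB n x / H) ^ ((n : ℝ) / (n + 1)) with hAdef
    set B := (hB n x / H) ^ ((1 : ℝ) / (n + 1)) with hBdef
    set c := Real.sqrt (1 - x ^ 2) with hcdef
    set h := hB n x with hhdef
    set e := Real.exp (α * Real.arcsin x) with hedef
    have hcne := hc.ne'
    have hhne := hp.ne'
    have hHne := hH.ne'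
    have hNne := hN.ne'
    have hx2 : x ^ 2 = 1 - c ^ 2 := by linarith
    have hppos : 0 < c + α * x := by
      have : 0 ≤ α * x := mul_nonneg hα0.le hx.1
      linarith
    simp only [id, Nat.add_sub_cancel]
    push_cast
    have hABH : A * B * H = h := by rw [hAB]; field_simp
    have key : ∀ (a b : ℝ), a * b * H = h →
        e * (α * (1 / c)) * (((n : ℝ) + 1) * H * ((c + α * x) * (a * (1 - b)) / c ^ (n + 1)) - x) +
        e * ((((n : ℝ) + 1) * H) * ((((-x / c + α) * (a * (1 - b)) +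
          (c + α * x) * (-(((n : ℝ) / (n + 1)) * a * (c ^ n / h)) * (1 - b) +
          a * -(-((1 / ((n : ℝ) + 1)) * b * (c ^ n / h))))) * c ^ (n + 1) -
          (c + α * x) * (a * (1 - b)) * (((n : ℝ) + 1) * c ^ n * (-x / c))) / (c ^ (n + 1)) ^ 2) - 1) =
        e * (((n : ℝ) + 1) * H * (a * (1 - b)) * ((c + α * x) * ((α * c + α / (c + α * x) + n * x) -
          n * c ^ (n + 2) / ((n + 1) * h))) / c ^ (n + 3)) := by
      intro a b hab
      have e1 : (c + α * x) * (a * -(-((1 / ((n : ℝ) + 1)) * b * (c ^ n / h)))) =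
          (c + α * x) * c ^ n / ((n + 1) * H) := by
        rw [← hab]
        have ha : a ≠ 0 := by
          rintro rfl; simp at hab; exact hhne hab.symm
        have hb : b ≠ 0 := by
          rintro rfl; simp at hab; exact hhne hab.symm
        field_simp
      have e2 : (c + α * x) * (-(((n : ℝ) / (n + 1)) * a * (c ^ n / h)) * (1 - b) +
          a * -(-((1 / ((n : ℝ) + 1)) * b * (c ^ n / h)))) =
          -((c + α * x) * (((n : ℝ) / (n + 1)) * a * (c ^ n / h)) * (1 - b)) +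
            (c + α * x) * c ^ n / ((n + 1) * H) := by
        rw [← e1]; ring
      rw [e2]
      have hcp : c ^ (n + 1) = c ^ n * c := pow_succ c n
      have hcp2 : c ^ (n + 2) = c ^ n * c ^ 2 := pow_add c n 2
      have hcp3 : c ^ (n + 3) = c ^ n * c ^ 3 := pow_add c n 3
      rw [hcp, hcp2, hcp3]
      have hcn : c ^ n ≠ 0 := pow_ne_zero n hcne
      have hpne := hppos.ne'
      field_simp
      ring_nf
      rw [hx2]
      ring
    exact key A B hABH
  have hmon : MonotoneOn E (Icc 0 s) := by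
    refine monotoneOn_of_deriv_nonneg (convex_Icc _ _) ?_ ?_ ?_
    · exact fun x hx => (hder x ⟨hx.1, hx.2.trans_lt hs.2⟩).continuousAt.continuousWithinAt
    · intro x hx
      rw [interior_Icc] at hx
      exact (hder x ⟨hx.1.le, hx.2.trans hs.2⟩).differentiableAt.differentiableWithinAt
    · intro x hx
      rw [interior_Icc] at hx
      have hx1 : x ∈ Ico (0 : ℝ) 1 := ⟨hx.1.le, hx.2.trans hs.2⟩
      rw [(hder x hx1).deriv]
      have hx' : x ∈ Ioo (-1 : ℝ) 1 := ⟨by linarith [hx.1], hx1.2⟩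
      have hc := sqrt_pos_of_mem hx'
      have hp := hB_pos n hx1
      have hle : hB n x ≤ H := by
        have := lB_add_hB n x
        have := lB_nonneg n ⟨hx1.1, hx1.2.le⟩
        linarith
      have hB1 : (hB n x / H) ^ ((1 : ℝ) / (n + 1)) ≤ 1 :=
        Real.rpow_le_one (by positivity) ((div_le_one hH).2 hle) (by positivity)
      have hz := hz x hx1
      have hppos : 0 < Real.sqrt (1 - x ^ 2) + α * x := by
        have : 0 ≤ α * x := mul_nonneg hα0.le hx1.1
        linarith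
      refine mul_nonneg (Real.exp_pos _).le (div_nonneg (mul_nonneg (mul_nonneg (by positivity)
        (mul_nonneg (Real.rpow_nonneg (by positivity) _) (by linarith)))
        (mul_nonneg hppos.le ?_)) (by positivity))
      rw [sub_nonneg, div_le_iff₀ (by positivity)]
      linarith
  have h := hmon (show (0 : ℝ) ∈ Icc 0 s from ⟨le_rfl, hs.1.le⟩) (show s ∈ Icc 0 s from ⟨hs.1.le, le_rfl⟩)
    hs.1.le
  have h0 : E 0 = 0 := by
    simp only [hE]
    rw [← hHdef, div_self hH.ne']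
    simp
  rw [h0] at h
  have hc := sqrt_pos_of_mem (s := s) ⟨by linarith [hs.1], hs.2⟩
  have h8 : s ≤ (n + 1) * H * ((Real.sqrt (1 - s ^ 2) + α * s) * ((hB n s / H) ^ ((n : ℝ) / (n + 1)) *
        (1 - (hB n s / H) ^ ((1 : ℝ) / (n + 1)))) / Real.sqrt (1 - s ^ 2) ^ (n + 1)) := by
    simp only [hE] at h
    have := nonneg_of_mul_nonneg_right h (Real.exp_pos _)
    linarith
  rw [← mul_div_assoc, le_div_iff₀ (pow_pos hc _)] at h8
  exact h8

lemma hB5_zero : hB 5 0 = 5 * Real.pi / 32 := by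
  have h1 : w 1 = Real.pi / 2 := by
    unfold w
    have := integral_sqrt_one_sub_sq
    simpa using this
  have h3 := w_rec 1
  have h5 := w_rec 3
  have h6 := w_eq_two_hB 5
  norm_num at h3 h5
  rw [h1] at h3
  linarith

/-- hazard bound for `n = 5`: `c^7 ≤ (2.04 + 5 s) ∫_s^1 c^5` -/
theorem haz5 {s : ℝ} (hs : s ∈ Icc (0 : ℝ) 1) :
    Real.sqrt (1 - s ^ 2) ^ 7 ≤ (51 / 25 + 5 * s) * hB 5 s := by
  set M : ℝ → ℝ := fun x => hB 5 x - Real.sqrt (1 - x ^ 2) ^ 7 / (51 / 25 + 5 * x) with hM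
  have hcont : ContinuousOn M (Icc 0 1) := by
    refine ContinuousOn.sub (fun x _ => (hasDerivAt_hB 5 x).continuousAt.continuousWithinAt) ?_
    refine ContinuousOn.div (by fun_prop) (by fun_prop) (fun x hx => ?_)
    have := hx.1
    positivity
  have hder : ∀ x ∈ Ioo (0 : ℝ) 1, HasDerivAt M (Real.sqrt (1 - x ^ 2) ^ 5 *
      (524 / 625 - 153 / 25 * x + 5 * x ^ 2) / (51 / 25 + 5 * x) ^ 2) x := by
    intro x hx
    have hx' : x ∈ Ioo (-1 : ℝ) 1 := ⟨by linarith [hx.1], hx.2⟩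
    have hD : HasDerivAt (fun x : ℝ => 51 / 25 + 5 * x) 5 x := by
      have := ((hasDerivAt_id x).const_mul (5 : ℝ)).const_add (51 / 25)
      exact this.congr_deriv (by simp)
    have hD0 : (51 / 25 + 5 * x) ≠ 0 := by have := hx.1; positivity
    have h1 := hasDerivAt_cs_pow 5 hx'
    have h2 := (hasDerivAt_hB 5 x).fun_sub (h1.fun_div hD hD0)
    refine h2.congr_deriv ?_
    have hc2 := cs_sq (s := x) ⟨hx.1.le, hx.2.le⟩
    set c := Real.sqrt (1 - x ^ 2)
    have e1 : c ^ (5 + 2) = c ^ 5 * c ^ 2 := by ring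
    have hx2 : x ^ 2 = 1 - c ^ 2 := by linarith
    rw [e1, hc2]
    set D := 51 / 25 + 5 * x with hDdef
    have e2 : 524 / 625 - 153 / 25 * x + 5 * x ^ 2 = -D ^ 2 + 7 * x * D + 5 * (1 - x ^ 2) := by
      rw [hDdef]; ring
    rw [e2]
    field_simp
    push_cast
    ring
  have hM0 : 0 ≤ M 0 := by
    simp only [hM]
    rw [hB5_zero]
    have := Real.pi_gt_d2
    norm_num
    linarith
  have hM1 : M 1 = 0 := by simp [hM, hB_one]
  have hcpos : ∀ x ∈ Ioo (0 : ℝ) 1, 0 < Real.sqrt (1 - x ^ 2) ^ 5 := fun x hx =>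
    pow_pos (sqrt_pos_of_mem ⟨by linarith [hx.1], hx.2⟩) 5
  have hMs : 0 ≤ M s := by
    rcases le_or_gt 0 (524 / 625 - 153 / 25 * s + 5 * s ^ 2) with hf | hf
    · have hs6 : s ≤ 0.6 := by
        by_contra hcon
        push Not at hcon
        nlinarith [hs.2]
      have hmono : MonotoneOn M (Icc 0 s) := by
        refine monotoneOn_of_deriv_nonneg (convex_Icc _ _) (hcont.mono (Icc_subset_Icc le_rfl hs.2)) ?_ ?_
        · intro x hx
          rw [interior_Icc] at hx
          exact (hder x ⟨hx.1, hx.2.trans_le hs.2⟩).differentiableAt.differentiableWithinAt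
        · intro x hx
          rw [interior_Icc] at hx
          have hx1 : x ∈ Ioo (0 : ℝ) 1 := ⟨hx.1, hx.2.trans_le hs.2⟩
          rw [(hder x hx1).deriv]
          have h1 := hcpos x hx1
          have h2 : 0 ≤ 524 / 625 - 153 / 25 * x + 5 * x ^ 2 := by nlinarith [hx.1, hx.2]
          positivity
      exact hM0.trans (hmono ⟨le_rfl, hs.1⟩ ⟨hs.1, le_rfl⟩ hs.1)
    · have hanti : AntitoneOn M (Icc s 1) := by
        refine antitoneOn_of_deriv_nonpos (convex_Icc _ _) (hcont.mono (Icc_subset_Icc hs.1 le_rfl)) ?_ ?_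
        · intro x hx
          rw [interior_Icc] at hx
          exact (hder x ⟨hs.1.trans_lt hx.1, hx.2⟩).differentiableAt.differentiableWithinAt
        · intro x hx
          rw [interior_Icc] at hx
          have hx1 : x ∈ Ioo (0 : ℝ) 1 := ⟨hs.1.trans_lt hx.1, hx.2⟩
          rw [(hder x hx1).deriv]
          have h1 := hcpos x hx1
          have h2 : 524 / 625 - 153 / 25 * x + 5 * x ^ 2 ≤ 0 := by
            -- convexity between s and 1
            have hx1' := hx.1
            have hx2' := hx.2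
            nlinarith [mul_nonneg (sub_nonneg.2 hx1'.le) (sub_nonneg.2 hx2'.le)]
          apply div_nonpos_of_nonpos_of_nonneg
          · exact mul_nonpos_of_nonneg_of_nonpos h1.le h2
          · positivity
      have := hanti ⟨le_rfl, hs.2⟩ ⟨hs.2, le_rfl⟩ hs.2
      rw [hM1] at this
      exact this
  have hD : 0 < 51 / 25 + 5 * s := by have := hs.1; positivity
  simp only [hM] at hMs
  rw [sub_nonneg, div_le_iff₀ hD] at hMs
  linarith

/-- **`κ ≤ 1 + (17/20) s/c` for `n = 5`** -/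
theorem kappa6 {r : ℝ → ℝ} (hr : Prof r) {s : ℝ} (hs : s ∈ Ioo (0 : ℝ) 1) :
    s * dtau 5 r s * Real.sqrt (1 - s ^ 2) ≤ (Real.sqrt (1 - s ^ 2) + 17 / 20 * s) * tau 5 r s := by
  have hs' : s ∈ Ioo (-1 : ℝ) 1 := ⟨by linarith [hs.1], hs.2⟩
  have hc := sqrt_pos_of_mem hs'
  have hp := hB_pos 5 ⟨hs.1.le, hs.2⟩
  have hH := hB_zero_pos 5
  have hd := dtau_pos hr 5 hs'
  set M := hB 5 s / hB 5 0 with hM
  have hM0 : 0 < M := by positivity
  set G := M ^ ((1 : ℝ) / ((5 : ℕ) + 1)) with hG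
  have hG0 : 0 ≤ G := Real.rpow_nonneg hM0.le _
  have hGN : G ^ (5 + 1) = M := by
    rw [hG, ← Real.rpow_natCast, ← Real.rpow_mul hM0.le]
    push_cast
    norm_num
  have hGn : G ^ 5 = M ^ (((5 : ℕ) : ℝ) / ((5 : ℕ) + 1)) := by
    rw [hG, ← Real.rpow_natCast, ← Real.rpow_mul hM0.le]
    congr 1
    push_cast
    norm_num
  have hz : ∀ x ∈ Ico (0 : ℝ) 1, ((5 : ℕ) : ℝ) * Real.sqrt (1 - x ^ 2) ^ (5 + 2) ≤
      (((5 : ℕ) : ℝ) + 1) * ((17 / 20) * Real.sqrt (1 - x ^ 2) + (17 / 20) /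
        (Real.sqrt (1 - x ^ 2) + (17 / 20) * x) + ((5 : ℕ) : ℝ) * x) * hB 5 x := by
    intro x hx
    have h1 := haz5 (s := x) ⟨hx.1, hx.2.le⟩
    have h2 := cs_sq (s := x) ⟨hx.1, hx.2.le⟩
    have h3 : 0 < Real.sqrt (1 - x ^ 2) := sqrt_pos_of_mem ⟨by linarith [hx.1], hx.2⟩
    have h4 := hB_pos 5 hx
    set c := Real.sqrt (1 - x ^ 2)
    have hx0 := hx.1
    have hx1 := hx.2
    have hpp : 0 < c + 17 / 20 * x := by positivity
    have hc1 : c ≤ 1 := by nlinarith
    have h5 : 5 * (51 / 25 + 5 * x) ≤ 6 * ((17 / 20) * c + (17 / 20) / (c + (17 / 20) * x) + 5 * x) := by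
      have h6 : (17 / 20) / (c + (17 / 20) * x) = (17 / 20) * (1 / (c + (17 / 20) * x)) := by ring
      rw [h6]
      set i := 1 / (c + (17 / 20) * x) with hi
      have h7 : i * (c + (17 / 20) * x) = 1 := by rw [hi]; field_simp
      have h8 : 0 < i := by positivity
      have h9 : 0 ≤ 5.1 * (c * (c + 17 / 20 * x) + 1) + 5 * x * (c + 17 / 20 * x) -
          10.2 * (c + 17 / 20 * x) := by
        have e1 : 5.1 * (c * (c + 17 / 20 * x) + 1) + 5 * x * (c + 17 / 20 * x) -
          10.2 * (c + 17 / 20 * x) = 5.1 * (1 - c) ^ 2 + x * (9.335 * c + 4.25 * x - 8.67) := by ring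
        rw [e1]
        rcases le_or_gt x 0.8 with hx85 | hx85
        · have h10 : 0 ≤ 9.335 * c + 4.25 * x - 8.67 := by
            by_contra hcon
            push Not at hcon
            have h11 : 9.335 * c < 8.67 - 4.25 * x := by linarith
            have h12 : 0 ≤ 9.335 * c := by positivity
            have h13 : (9.335 * c) ^ 2 < (8.67 - 4.25 * x) ^ 2 := pow_lt_pow_left₀ h11 h12 (by norm_num)
            nlinarith [mul_nonneg hx0 (sub_nonneg.2 hx85)]
          positivity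
        · have hc6 : c ≤ 0.6 := by nlinarith
          have h10 : 0 ≤ (1 - x) * (8.67 - 9.335 * c) :=
            mul_nonneg (by linarith) (by linarith)
          nlinarith [sq_nonneg (c - 0.5)]
      have h14 : 0 ≤ i * (5.1 * (c * (c + 17 / 20 * x) + 1) + 5 * x * (c + 17 / 20 * x) -
          10.2 * (c + 17 / 20 * x)) := mul_nonneg h8.le h9
      have h15 : i * (5.1 * (c * (c + 17 / 20 * x) + 1) + 5 * x * (c + 17 / 20 * x) -
          10.2 * (c + 17 / 20 * x)) = 5.1 * c * (i * (c + 17 / 20 * x)) + 5.1 * i +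
          5 * x * (i * (c + 17 / 20 * x)) - 10.2 * (i * (c + 17 / 20 * x)) := by ring
      rw [h15, h7] at h14
      linarith
    have h16 := mul_le_mul_of_nonneg_right h5 h4.le
    push_cast
    norm_num at h16 ⊢
    nlinarith [h1, h16]
  have h1 := kappa_cone hr 5 hs hG0 (by rw [hGN, hM]; field_simp)
  have h2 := ball_cone_gen 5 (by norm_num : (0 : ℝ) < 17 / 20) hz hs
  rw [← hM, ← hG, ← hGn] at h2
  set c := Real.sqrt (1 - s ^ 2) with hcdef
  have hcn : 0 < c ^ 5 := pow_pos hc 5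
  have hps : 0 ≤ c + 17 / 20 * s := by
    have : 0 ≤ 17 / 20 * s := mul_nonneg (by norm_num) hs.1.le
    linarith
  have h3 : dtau 5 r s * (s * c ^ (5 + 1)) ≤ (c + 17 / 20 * s) * (tau 5 r s * c ^ 5) := by
    calc dtau 5 r s * (s * c ^ (5 + 1)) ≤
          dtau 5 r s * ((((5 : ℕ) : ℝ) + 1) * hB 5 0 * ((c + 17 / 20 * s) * (G ^ 5 * (1 - G)))) :=
          mul_le_mul_of_nonneg_left h2 hd.le
      _ = (c + 17 / 20 * s) * ((((5 : ℕ) : ℝ) + 1) * ((1 - G) * G ^ 5) * dtau 5 r s * hB 5 0) := by ring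
      _ ≤ (c + 17 / 20 * s) * (tau 5 r s * c ^ 5) := mul_le_mul_of_nonneg_left h1 hps
  have h4 : c ^ 5 * (s * dtau 5 r s * c) ≤ c ^ 5 * ((c + 17 / 20 * s) * tau 5 r s) := by
    calc c ^ 5 * (s * dtau 5 r s * c) = dtau 5 r s * (s * c ^ (5 + 1)) := by ring
      _ ≤ _ := h3
      _ = _ := by ring
  exact le_of_mul_le_mul_left h4 hcn

end Crest.Agent.R230
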