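import Crest.Agent.R230.WRed

/-!
# Row 230: master theorem for the C = 0 XLOG functional

`rawL n s l k` is the raw density (contact `s²/τ`), `clo` its closed form, `PP` the certificate density.
-/

set_option autoImplicit false

open MeasureTheory Set Filter Topology
open scoped Pointwise ENNReal

namespace Crest.Agent.R230.WR

/-- the raw XLOG density (without `Φ(τ) - Φ(s)`), `q = 1/c` -/
noncomputable def rawL (n : ℕ) (s l k : ℝ) : ℝ :=
  ((n : ℝ) + 1) * (((cc s)⁻¹ - 1) * (l * ((cc s)⁻¹ - 1) * ((cc s)⁻¹ + 2) - 1)) +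
    (1 + 1 / (1 + (cc s)⁻¹) - 2 * (cc s)⁻¹ - l * (cc s)⁻¹ ^ 3) +
    (1 + k)⁻¹ * (2 * ((cc s)⁻¹ - 1 / (1 + (cc s)⁻¹)) - 3 * l * s ^ 2 * (cc s)⁻¹ ^ 3)

/-- closed form -/
noncomputable def clo (n : ℕ) (s l k : ℝ) : ℝ :=
  -((n : ℝ) + 1) * (Y s * l) + (aq s * KK k - 3 * (Y s * (l * (1 * KK k)))) + 3 * (Y s * (l * k)) + cR s l

/-- the certificate density -/
noncomputable def PP (n : ℕ) (μ σ θ ξ lm s l k : ℝ) : ℝ :=
  μ * (((n : ℝ) - 1) * Y s * Gm n l - Real.exp (l / n) * hm n k) + (aq s - 3 * Y s * l) * KK k +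
    (3 - 2 * θ) * (Y s * l * k) + (θ * ((n : ℝ) - 3) * Y s ^ 2 + (σ - 3 * θ) * Y s) * l ^ 2 + cR s l -
    σ / (2 * ((n : ℝ) + 2)) * k ^ 2 + ξ * (Y s * (l - lm))

lemma Y_eq {s : ℝ} (hs : s ∈ Ioo (0 : ℝ) 1) : Y s = (1 - cc s ^ 2) / cc s ^ 2 := by
  unfold Y
  rw [cc_sq' hs]; ring

lemma algebra_id (n : ℕ) {s l k : ℝ} (hs : s ∈ Ioo (0 : ℝ) 1) (hk : 1 + k ≠ 0) :
    cc s * (rawL n s l k + (Phi (s * Real.exp l) - Phi s)) +
      ((aq s * l - cc s ^ 2 / (1 + cc s)) +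
        (2 * (1 - cc s) * (cc s + 2) / (1 + cc s) * l + aq s * k + (1 - cc s) * (cc s + 2) / (1 + cc s)) -
        ((n : ℝ) - 1) * (Y s * (aq s * l - cc s ^ 2 / (1 + cc s)))) = clo n s l k := by
  have hc := cc_pos' hs
  have hs2 : s ^ 2 = 1 - cc s ^ 2 := by rw [cc_sq' hs]; ring
  unfold rawL clo cR KK aq
  rw [Y_eq hs, hs2]
  generalize Phi (s * Real.exp l) = φ
  generalize Phi s = ψ
  generalize cc s = c at hc
  have h1 : 1 + c ≠ 0 := by positivity
  have h2 : 1 + c⁻¹ ≠ 0 := by positivity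
  have h3 : c ≠ 0 := hc.ne'
  have h4 : c + 1 ≠ 0 := by positivity
  field_simp
  ring

section path

variable {r : ℝ → ℝ} (hr : Prof r) {n : ℕ}
include hr

lemma NI_clo (hn : 3 ≤ n) : NI n (fun s => clo n s (ll n r s) (kk n r s)) := by
  have hl := continuousOn_ll hr n
  unfold clo
  exact ((((NI_Y hn hl).smul _).add ((NI_KK hr (by omega) continuous_aq.continuousOn).sub
    ((NI_YlKK hr hn continuousOn_const).smul 3))).add ((NI_Ykk hr hn hl).smul 3)).add
    (NI_cont (cont_cR hr))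

omit hr in
lemma hasDerivAt_cq {s : ℝ} (hs : s ∈ Ioo (0 : ℝ) 1) :
    HasDerivAt (fun s => cc s ^ 2 / (1 + cc s)) (-(s * (cc s + 2) / (1 + cc s) ^ 2)) s := by
  have hc : HasDerivAt cc (-s / cc s) s := Poinc.hasDerivAt_c hs.1.le hs.2
  have h := (hc.fun_pow 2).fun_div (hc.const_add 1) (one_add_cc_pos s).ne'
  refine h.congr_deriv ?_
  have h1 := (cc_pos' hs).ne'
  have h2 := (one_add_cc_pos s).ne'
  field_simp
  push_cast
  ring

lemma int_raw_eq (hn : 3 ≤ n) :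
    ∫ s in (0 : ℝ)..1, cc s ^ n * (rawL n s (ll n r s) (kk n r s) + (Phi (tau n r s) - Phi s)) =
      JJ n (fun s => clo n s (ll n r s) (kk n r s)) := by
  have hl := continuousOn_ll hr n
  have hcont : ContinuousOn (fun s => aq s * ll n r s - cc s ^ 2 / (1 + cc s)) (Icc 0 1) := by
    refine (continuous_aq.continuousOn.mul hl).sub ?_
    exact ((cc_continuous.pow 2).div (continuous_const.add cc_continuous)
      fun s => (one_add_cc_pos s).ne').continuousOn
  have hder : ∀ s ∈ Ioo (0 : ℝ) 1, HasDerivAt (fun s => aq s * ll n r s - cc s ^ 2 / (1 + cc s))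
      (2 * (s * (cc s + 2) / (1 + cc s) ^ 2) * ll n r s + aq s * (kk n r s / s) +
        s * (cc s + 2) / (1 + cc s) ^ 2) s := by
    intro s hs
    have h1 := hasDerivAt_cq hs
    have h2 : HasDerivAt aq (2 * (s * (cc s + 2) / (1 + cc s) ^ 2)) s := by
      have := (h1.const_mul 2).const_sub 2
      have h3 : HasDerivAt aq (-(2 * -(s * (cc s + 2) / (1 + cc s) ^ 2))) s := by
        refine this.congr_of_eventuallyEq (Eventually.of_forall fun x => ?_)
        unfold aq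
        ring
      exact h3.congr_deriv (by ring)
    have h := (h2.fun_mul (hasDerivAt_ll hr n hs)).fun_sub h1
    exact h.congr_deriv (by ring)
  have hsG : ∀ s ∈ Ioo (0 : ℝ) 1, s * (2 * (s * (cc s + 2) / (1 + cc s) ^ 2) * ll n r s +
      aq s * (kk n r s / s) + s * (cc s + 2) / (1 + cc s) ^ 2) =
      2 * (1 - cc s) * (cc s + 2) / (1 + cc s) * ll n r s + aq s * kk n r s +
        (1 - cc s) * (cc s + 2) / (1 + cc s) := by
    intro s hs
    have h1 := hs.1.ne'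
    have h2 := (one_add_cc_pos s).ne'
    have hs2 : s ^ 2 = 1 - cc s ^ 2 := by rw [cc_sq' hs]; ring
    field_simp
    rw [hs2]
    ring
  have hcf : Continuous fun s => (1 - cc s) * (cc s + 2) / (1 + cc s) := by
    refine Continuous.div ?_ (continuous_const.add cc_continuous) fun s => (one_add_cc_pos s).ne'
    exact (continuous_const.sub cc_continuous).mul (cc_continuous.add continuous_const)
  have hcf2 : Continuous fun s => 2 * (1 - cc s) * (cc s + 2) / (1 + cc s) := by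
    refine Continuous.div ?_ (continuous_const.add cc_continuous) fun s => (one_add_cc_pos s).ne'
    exact (continuous_const.mul (continuous_const.sub cc_continuous)).mul
      (cc_continuous.add continuous_const)
  have hNI1 : NI n (fun s => 2 * (1 - cc s) * (cc s + 2) / (1 + cc s) * ll n r s + aq s * kk n r s +
        (1 - cc s) * (cc s + 2) / (1 + cc s)) :=
    ((NI_cont (hcf2.continuousOn.mul hl)).add (NI_kk hr continuous_aq.continuousOn)).add
      (NI_cont hcf.continuousOn)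
  have hNI2 : NI n (fun s => s * (2 * (s * (cc s + 2) / (1 + cc s) ^ 2) * ll n r s +
      aq s * (kk n r s / s) + s * (cc s + 2) / (1 + cc s) ^ 2)) :=
    hNI1.congr fun s hs => (hsG s hs).symm
  have hnull := null_GL hn hcont hder hNI2
  have hNI3 : NI n (fun s => (aq s * ll n r s - cc s ^ 2 / (1 + cc s)) +
      s * (2 * (s * (cc s + 2) / (1 + cc s) ^ 2) * ll n r s +
      aq s * (kk n r s / s) + s * (cc s + 2) / (1 + cc s) ^ 2) -
      ((n : ℝ) - 1) * (Y s * (aq s * ll n r s - cc s ^ 2 / (1 + cc s)))) :=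
    ((NI_cont hcont).add hNI2).sub ((NI_Y hn hcont).smul _)
  have e : JJ n (fun s => clo n s (ll n r s) (kk n r s)) =
      JJ n (fun s => clo n s (ll n r s) (kk n r s) - ((aq s * ll n r s - cc s ^ 2 / (1 + cc s)) +
      s * (2 * (s * (cc s + 2) / (1 + cc s) ^ 2) * ll n r s +
      aq s * (kk n r s / s) + s * (cc s + 2) / (1 + cc s) ^ 2) -
      ((n : ℝ) - 1) * (Y s * (aq s * ll n r s - cc s ^ 2 / (1 + cc s))))) := by
    rw [JJ_sub (NI_clo hr hn) hNI3, hnull, sub_zero]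
  rw [e]
  refine (JJ_of fun s hs => ?_).symm
  have h1 := algebra_id n (l := ll n r s) hs (one_add_kk_pos hr n hs).ne'
  rw [tau_eq hr n ⟨hs.1.le, hs.2.le⟩, hsG s hs, ← h1]
  have h2 : cc s ^ n = cc s ^ (n - 1) * cc s := by rw [← pow_succ]; congr 1; omega
  rw [h2]
  ring

lemma NI_PP (hn : 5 ≤ n) (μ σ θ ξ lm : ℝ) :
    NI n (fun s => PP n μ σ θ ξ lm s (ll n r s) (kk n r s)) := by
  have hl := continuousOn_ll hr n
  have hG : ContinuousOn (fun s => Gm n (ll n r s)) (Icc 0 1) := by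
    unfold Gm
    exact (continuousOn_const.mul (((hl.div_const _).rexp).sub continuousOn_const)).sub hl
  have h1 := ((((NI_Y (n := n) (by omega) hG).smul ((n : ℝ) - 1)).sub (NI_ehm hr (by omega))).smul μ)
  have h2 := (NI_KK hr (n := n) (by omega) continuous_aq.continuousOn).sub
    ((NI_YlKK hr (n := n) (by omega) (g := fun _ => 1) continuousOn_const).smul 3)
  have h3 := (NI_Ykk hr (n := n) (by omega) hl).smul (3 - 2 * θ)
  have h4 := (NI_Y2 (n := n) hn (hl.pow 2)).smul (θ * ((n : ℝ) - 3))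
  have h5 := (NI_Y (n := n) (by omega) (hl.pow 2)).smul (σ - 3 * θ)
  have h6 := NI_cont (n := n) (cont_cR hr (n := n))
  have h7 := (NI_kk_sq hr hn).smul (σ / (2 * ((n : ℝ) + 2)))
  have h8 := (NI_Y (n := n) (by omega) (hl.sub (continuousOn_const (c := lm)))).smul ξ
  refine (((((((h1.add h2).add h3).add h4).add h5).add h6).sub h7).add h8).congr fun s _ => ?_
  unfold PP
  simp only [Pi.pow_apply, Pi.sub_apply]
  ring

/-- **the certificate inequality** -/
theorem JJ_PP_le (hn : 5 ≤ n) (hN : NleB n r) {μ σ θ ξ : ℝ} (hμ0 : 0 ≤ μ) (hσ : 0 ≤ σ)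
    (hμ : 0 ≤ (μ * ((n : ℝ) - 1) - ((n : ℝ) + 1) - σ * lam n r) * lam n r) :
    JJ n (fun s => PP n μ σ θ ξ (lam n r) s (ll n r s) (kk n r s)) ≤
      JJ n (fun s => clo n s (ll n r s) (kk n r s)) := by
  have hl := continuousOn_ll hr n
  set lm := lam n r with hlm
  have hG : ContinuousOn (fun s => Gm n (ll n r s)) (Icc 0 1) := by
    unfold Gm
    exact (continuousOn_const.mul (((hl.div_const _).rexp).sub continuousOn_const)).sub hl
  have hS := strong hr (n := n) (by omega) hN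
  have hQ := poinc hr hn
  rw [← hlm] at hQ
  have hT := null_Y hr hn (g := fun x => θ * x ^ 2) (g' := fun x => θ * (2 * x))
    (fun x => by simpa using (hasDerivAt_pow 2 x).const_mul θ) (by fun_prop)
  have hL := JJ_lam hr (n := n) (by omega)
  rw [← hlm] at hL
  have nPP := NI_PP hr hn μ σ θ ξ lm
  have nclo := NI_clo hr (n := n) (by omega)
  have nS : NI n (fun s => Real.exp (ll n r s / n) * hm n (kk n r s) -
      ((n : ℝ) - 1) * (Y s * (ll n r s + Gm n (ll n r s)))) :=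
    (NI_ehm hr (by omega)).sub ((NI_Y (by omega) (hl.add hG)).smul _)
  have nQ : NI n (fun s => kk n r s ^ 2 - 2 * ((n : ℝ) + 2) * (Y s * (ll n r s - lm) ^ 2)) :=
    (NI_kk_sq hr hn).sub ((NI_Y (by omega) ((hl.sub continuousOn_const).pow 2)).smul _)
  have nT : NI n (fun s => 3 * (Y s * (θ * ll n r s ^ 2)) - ((n : ℝ) - 3) * (Y s ^ 2 * (θ * ll n r s ^ 2)) +
      Y s * (θ * (2 * ll n r s) * kk n r s)) :=
    (((NI_Y (by omega) (continuousOn_const.mul (hl.pow 2))).smul 3).sub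
      ((NI_Y2 hn (continuousOn_const.mul (hl.pow 2))).smul _)).add
      (NI_Ykk hr (by omega) (continuousOn_const.mul (continuousOn_const.mul hl)))
  have nL : NI n (fun s => Y s * (ll n r s - lm)) := NI_Y (by omega) (hl.sub continuousOn_const)
  have nY : NI n (fun s => Y s * (1 : ℝ)) := NI_Y (by omega) continuousOn_const
  have hYp := JJ_Y_pos (n := n) (by omega)
  -- clo - PP as a combination
  have key : JJ n (fun s => clo n s (ll n r s) (kk n r s)) =
      JJ n (fun s => PP n μ σ θ ξ lm s (ll n r s) (kk n r s)) +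
      μ * JJ n (fun s => Real.exp (ll n r s / n) * hm n (kk n r s) -
        ((n : ℝ) - 1) * (Y s * (ll n r s + Gm n (ll n r s)))) +
      σ / (2 * ((n : ℝ) + 2)) *
        JJ n (fun s => kk n r s ^ 2 - 2 * ((n : ℝ) + 2) * (Y s * (ll n r s - lm) ^ 2)) +
      JJ n (fun s => 3 * (Y s * (θ * ll n r s ^ 2)) - ((n : ℝ) - 3) * (Y s ^ 2 * (θ * ll n r s ^ 2)) +
        Y s * (θ * (2 * ll n r s) * kk n r s)) +
      (μ * ((n : ℝ) - 1) - ((n : ℝ) + 1) - 2 * σ * lm - ξ) * JJ n (fun s => Y s * (ll n r s - lm)) +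
      ((μ * ((n : ℝ) - 1) - ((n : ℝ) + 1) - σ * lm) * lm) * JJ n (fun s => Y s * (1 : ℝ)) := by
    rw [← JJ_smul, ← JJ_smul, ← JJ_smul (f := fun s => Y s * (ll n r s - lm)),
      ← JJ_smul (f := fun s => Y s * (1 : ℝ)), ← JJ_add nPP (nS.smul _),
      ← JJ_add (nPP.add (nS.smul _)) (nQ.smul _),
      ← JJ_add ((nPP.add (nS.smul _)).add (nQ.smul _)) nT,
      ← JJ_add (((nPP.add (nS.smul _)).add (nQ.smul _)).add nT) (nL.smul _),
      ← JJ_add ((((nPP.add (nS.smul _)).add (nQ.smul _)).add nT).add (nL.smul _)) (nY.smul _)]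
    refine JJ_congr fun s hs => ?_
    unfold clo PP
    have h2 : (2 * ((n : ℝ) + 2)) ≠ 0 := by positivity
    field_simp
    ring
  rw [key, hT, hL]
  have h1 := mul_nonneg hμ0 hS
  have h2 := mul_nonneg (div_nonneg hσ (by positivity : (0 : ℝ) ≤ 2 * ((n : ℝ) + 2))) hQ
  have h3 := mul_nonneg hμ hYp.le
  linarith

/-! ### equality -/

lemma dtau_one_of {s : ℝ} (hs : s ∈ Ioo (0 : ℝ) 1) (h : ∀ x ∈ Ioo (0 : ℝ) 1, ll n r x = 0) :
    dtau n r s = 1 := by
  have h1 : (tau n r) =ᶠ[𝓝 s] fun x => x := by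
    filter_upwards [Ioo_mem_nhds hs.1 hs.2] with x hx
    rw [tau_eq hr n ⟨hx.1.le, hx.2.le⟩, h x hx, Real.exp_zero, mul_one]
  have h2 := hasDerivAt_tau hr n (s := s) ⟨by linarith [hs.1], hs.2⟩
  have h3 := (hasDerivAt_id s).congr_of_eventuallyEq h1
  exact h2.unique h3

/-- equality case -/
theorem ball_of_ll_zero (hn : 1 ≤ n) (h : ∀ x ∈ Ioo (0 : ℝ) 1, ll n r x = 0) :
    ∃ a : ℝ, ∀ s ∈ Icc (-1 : ℝ) 1, r s = a * Real.sqrt (1 - s ^ 2) := by
  have hm := hr.mom_pos' n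
  have hw := w_pos' n
  set a : ℝ := (mom n r / w n) ^ ((n : ℝ)⁻¹) with ha
  have ha0 : 0 < a := Real.rpow_pos_of_pos (by positivity) _
  have han : a ^ n = mom n r / w n := by
    rw [ha, Real.rpow_inv_natCast_pow (by positivity) (by omega)]
  have h1 : ∀ s ∈ Ioo (0 : ℝ) 1, r s = a * Real.sqrt (1 - s ^ 2) := by
    intro s hs
    have h2 := pow_mul_dtau hr n (s := s) ⟨by linarith [hs.1], hs.2⟩
    have h3 : tau n r s = s := by
      rw [tau_eq hr n ⟨hs.1.le, hs.2.le⟩, h s hs, Real.exp_zero, mul_one]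
    rw [dtau_one_of hr hs h, h3, one_mul, ← han, ← mul_pow] at h2
    have h4 : 0 < r s := hr.pos s ⟨by linarith [hs.1], hs.2⟩
    exact (pow_left_inj₀ h4.le (mul_nonneg ha0.le (Real.sqrt_nonneg _)) (by omega)).1 h2
  have hcont : ContinuousOn (fun s => a * Real.sqrt (1 - s ^ 2)) (Icc 0 1) := by fun_prop
  have h2 : ∀ s ∈ Icc (0 : ℝ) 1, r s = a * Real.sqrt (1 - s ^ 2) := by
    have h3 : EqOn r (fun s => a * Real.sqrt (1 - s ^ 2)) (Icc 0 1) :=
      EqOn.of_subset_closure (s := Ioo (0 : ℝ) 1) (fun s hs => h1 s hs)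
        (hr.cont.mono (Icc_subset_Icc_left (by norm_num))) hcont Ioo_subset_Icc_self
        (by rw [closure_Ioo zero_ne_one])
    exact fun s hs => h3 hs
  refine ⟨a, fun s hs => ?_⟩
  rcases le_total 0 s with h0 | h0
  · exact h2 s ⟨h0, hs.2⟩
  · have h3 := h2 (-s) ⟨by linarith, by linarith [hs.1]⟩
    rw [hr.even s hs, neg_sq] at h3
    exact h3

/-- **Master theorem.** `Z` is any extra density (e.g. corrections of the lines in a capped region and
further null Lagrangians); `Z = 0` in the uncapped case. -/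
theorem master (hn : 5 ≤ n) (hN : NleB n r) {μ σ θ ξ : ℝ} (hμ0 : 0 ≤ μ) (hσ : 0 ≤ σ)
    (hμ : 0 ≤ (μ * ((n : ℝ) - 1) - ((n : ℝ) + 1) - σ * lam n r) * lam n r)
    {Z : ℝ → ℝ} (hZ : NI n Z) {U : ℝ}
    (hU : 2 * ((∫ s in (0 : ℝ)..1, cc s ^ n *
      (rawL n s (ll n r s) (kk n r s) + (Phi (tau n r s) - Phi s))) + JJ n Z) ≤ w n * U)
    (hP : ∀ s ∈ Ioo (0 : ℝ) 1, 0 ≤ PP n μ σ θ ξ (lam n r) s (ll n r s) (kk n r s) + Z s)
    (hP0 : ∀ s ∈ Ioo (0 : ℝ) 1, PP n μ σ θ ξ (lam n r) s (ll n r s) (kk n r s) + Z s = 0 →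
      ll n r s = 0) :
    0 ≤ U ∧ (U = 0 → ∃ a : ℝ, ∀ s ∈ Icc (-1 : ℝ) 1, r s = a * Real.sqrt (1 - s ^ 2)) := by
  have hw := w_pos' n
  rw [int_raw_eq hr (by omega)] at hU
  have h1 := JJ_PP_le hr hn hN (θ := θ) (ξ := ξ) hμ0 hσ hμ
  have nPP := NI_PP hr hn μ σ θ ξ (lam n r)
  have h2 := JJ_nonneg (nPP.add hZ) hP
  rw [JJ_add nPP hZ] at h2
  have h3 : 0 ≤ w n * U := by linarith
  refine ⟨(mul_nonneg_iff_of_pos_left hw).1 h3, fun hU0 => ?_⟩
  rw [hU0, mul_zero] at hU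
  have h4 : JJ n (fun s => PP n μ σ θ ξ (lam n r) s (ll n r s) (kk n r s) + Z s) = 0 := by
    rw [JJ_add nPP hZ]
    linarith
  -- hence the density vanishes a.e.
  refine ball_of_ll_zero hr (n := n) (by omega) ?_
  have hint := nPP.add hZ
  unfold NI at hint
  unfold JJ at h4
  rw [intervalIntegrable_iff_integrableOn_Ioo_of_le (by norm_num)] at hint
  rw [intervalIntegral.integral_of_le (by norm_num), integral_Ioc_eq_integral_Ioo] at h4
  have hnn : 0 ≤ᵐ[volume.restrict (Ioo (0 : ℝ) 1)] fun s => cc s ^ (n - 1) *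
      (PP n μ σ θ ξ (lam n r) s (ll n r s) (kk n r s) + Z s) := by
    rw [EventuallyLE, ae_restrict_iff' measurableSet_Ioo]
    exact Eventually.of_forall fun s hs => mul_nonneg (pow_nonneg (cc_nonneg _) _) (hP s hs)
  have h5 := (integral_eq_zero_iff_of_nonneg_ae hnn hint).1 h4
  rw [EventuallyEq, ae_restrict_iff' measurableSet_Ioo] at h5
  have h6 : ∀ᵐ s : ℝ, s ∈ Ioo (0 : ℝ) 1 → ll n r s = 0 := by
    filter_upwards [h5] with s hs hs'
    have h7 := hs hs'
    simp only [Pi.zero_apply] at h7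
    have h8 : cc s ^ (n - 1) ≠ 0 := (pow_pos (cc_pos' hs') _).ne'
    exact hP0 s hs' ((mul_eq_zero.1 h7).resolve_left h8)
  -- continuity
  have hl := (continuousOn_ll hr n).mono Ioo_subset_Icc_self
  intro x hx
  by_contra hne
  have hopen : IsOpen (Ioo (0 : ℝ) 1 ∩ (ll n r) ⁻¹' {0}ᶜ) :=
    hl.isOpen_inter_preimage isOpen_Ioo isOpen_compl_singleton
  have hpos : 0 < volume (Ioo (0 : ℝ) 1 ∩ (ll n r) ⁻¹' {0}ᶜ) :=
    hopen.measure_pos volume ⟨x, hx, hne⟩
  have hzero : volume (Ioo (0 : ℝ) 1 ∩ (ll n r) ⁻¹' {0}ᶜ) = 0 := by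
    refine measure_mono_null (fun s hs => ?_) (ae_iff.1 h6)
    rw [Set.mem_ofPred_eq, Classical.not_imp]
    exact ⟨hs.1, hs.2⟩
  exact absurd hzero hpos.ne'

end path

end Crest.Agent.R230.WR
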