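import Crest.Agent.R230.CaseIIppG1
import Crest.Agent.R230.CaseIIppG2
import Crest.Agent.R230.CaseIIppG3
import Crest.Agent.R230.WMain
import Crest.Agent.R230.Kappa6
import Crest.Agent.R230.Apriori3

/-!
# Row 230: block B5: case II, `l ≥ 0`, `k ≥ 0`, Lean `n = 5, …, 19` (dimensions 6, …, 20)
-/

set_option autoImplicit false

open MeasureTheory Set Filter Topology
open scoped Pointwise ENNReal

namespace Crest.Agent.R230.WR

/-- hazard bound in path variables -/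
theorem haz_path {n : ℕ} {r : ℝ → ℝ} (hr : Prof r) {s : ℝ} (hs : s ∈ Ioo (0 : ℝ) 1) :
    (1 + kk n r s) * s * cc s ^ 2 ≤ (1 + ((n : ℝ) + 1) * s ^ 2) * (Real.exp (-(ll n r s)) - s) := by
  have hs0 := hs.1
  have hs1 := hs.2
  have hT := tau_pos hr n (s := s) ⟨hs0, hs1.le⟩
  have hc := cc_pos' hs
  have h1 := haz1 n (s := s) ⟨hs0.le, hs1.le⟩
  have h2 := dtau_mul_hB_le hr n (s := s) ⟨hs0.le, hs1⟩
  have hd := dtau_pos hr n (s := s) ⟨by linarith, hs1⟩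
  have hcd : Real.sqrt (1 - s ^ 2) = cc s := rfl
  rw [hcd] at h1 h2
  set T := tau n r s with hTd
  set D := dtau n r s with hDd
  set c := cc s with hcc
  have h3 : cc s ^ n * (s * D * c ^ 2) ≤ cc s ^ n * ((1 + ((n : ℝ) + 1) * s ^ 2) * (1 - T)) := by
    have a1 := mul_le_mul_of_nonneg_left h1 hd.le
    have a2 := mul_le_mul_of_nonneg_left h2 (show 0 ≤ 1 + ((n : ℝ) + 1) * s ^ 2 by positivity)
    calc cc s ^ n * (s * D * c ^ 2) = D * (s * c ^ (n + 2)) := by rw [← hcc, pow_add]; ring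
      _ ≤ D * ((1 + ((n : ℝ) + 1) * s ^ 2) * hB n s) := a1
      _ = (1 + ((n : ℝ) + 1) * s ^ 2) * (D * hB n s) := by ring
      _ ≤ (1 + ((n : ℝ) + 1) * s ^ 2) * ((1 - T) * c ^ n) := a2
      _ = _ := by rw [← hcc]; ring
  have h4 : s * D * c ^ 2 ≤ (1 + ((n : ℝ) + 1) * s ^ 2) * (1 - T) :=
    le_of_mul_le_mul_left h3 (pow_pos hc n)
  have e1 : 1 + kk n r s = s * D / T := one_add_kk n
  have e2 : Real.exp (-(ll n r s)) = s / T := by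
    rw [Real.exp_neg, exp_ll hr n ⟨hs0, hs1.le⟩, inv_div]
  rw [e1, e2]
  have e3 : s * D / T * s * c ^ 2 = (s / T) * (s * D * c ^ 2) := by ring
  have e4 : (1 + ((n : ℝ) + 1) * s ^ 2) * (s / T - s) = (s / T) * ((1 + ((n : ℝ) + 1) * s ^ 2) * (1 - T)) := by
    field_simp
  rw [e3, e4]
  exact mul_le_mul_of_nonneg_left h4 (by positivity)

lemma kk_c_le {n : ℕ} {r : ℝ → ℝ} (hr : Prof r) {s α : ℝ} (hs : s ∈ Ioo (0 : ℝ) 1)
    (h : s * dtau n r s * cc s ≤ (cc s + α * s) * tau n r s) : kk n r s * cc s ≤ α * s := by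
  have hT := tau_pos hr n (s := s) ⟨hs.1, hs.2.le⟩
  have e : kk n r s = s * dtau n r s / tau n r s - 1 := rfl
  have h2 : s * dtau n r s / tau n r s * cc s ≤ cc s + α * s := by
    rw [div_mul_eq_mul_div, div_le_iff₀ hT]
    exact h
  rw [e, sub_mul, one_mul]
  linarith

/-- the real variable statement, common part -/
theorem PP_pos_of_GG {n : ℕ} {m : ℝ} (hn : 5 ≤ n) (hm : (n : ℝ) = m) {s l k δ ε α : ℝ}
    (hs : s ∈ Ioo (0 : ℝ) 1) (hl : 0 ≤ l)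
    (hl2 : l ≤ 1 / 2) (hk : 0 < k) (hk2 : k ≤ m / 2) (hα : k * cc s ≤ α * s)
    (hcR : -(Y s * l ^ 2 * (3 / 8 + δ * Y s)) ≤ cR s l)
    (hε : (17 * (4 * m + 7) * α) ^ 2 ≤ 2 * ε * (m + 7) * (64 * m) ^ 2 * m)
    (hG : 0 < GG m (m - 3 - δ) ε (aq s) k (Y s * l)) :
    0 < PP n (((n : ℝ) + 1 + 3 * (1 / 4)) / ((n : ℝ) - 1)) 3 1 0 0 s l k := by
  subst hm
  have hn5 : (5 : ℝ) ≤ n := by exact_mod_cast hn
  have h := PP_red (n := n) hn hs hl hl2 hk (by linarith) hα hcR hε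
  unfold GG at hG
  have h3 : 0 < (1 + k) * PP n (((n : ℝ) + 1 + 3 * (1 / 4)) / ((n : ℝ) - 1)) 3 1 0 0 s l k :=
    (mul_pos (pow_pos hk 2) hG).trans_le h
  exact (mul_pos_iff_of_pos_left (show 0 < 1 + k by linarith)).1 h3

/-- `cR` bound with `δ = 2`, `5 ≤ m ≤ 9` -/
lemma cR_delta2 {m s l k : ℝ} (hm5 : 5 ≤ m) (hm9 : m ≤ 9) (hs : s ∈ Ioo (0 : ℝ) 1) (hl : 0 ≤ l)
    (hl2 : l ≤ 1 / 2) (hT : s * Real.exp l ≤ 1) (hk : 0 ≤ k)
    (hz : (1 + k) * s * cc s ^ 2 ≤ (1 + (m + 1) * s ^ 2) * (Real.exp (-l) - s)) :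
    -(Y s * l ^ 2 * (3 / 8 + 2 * Y s)) ≤ cR s l := by
  have hs0 := hs.1
  have hS0 : 0 ≤ s ^ 2 := sq_nonneg s
  have hS1 : s ^ 2 ≤ 1 := by nlinarith [hs.2]
  refine cR_ge_delta (v := 21 / 50) hs hl hl2 hT (by norm_num) ?_ ?_
  · refine haz_v (κ₀ := 1) (by linarith) hs (by norm_num) (by linarith) hl (by norm_num) hT hz ?_
    have h1 : (m * s ^ 2) ^ 2 ≤ m ^ 2 * s ^ 2 := by nlinarith [mul_nonneg (sq_nonneg m) (mul_nonneg hS0 (show 0 ≤ 1 - s ^ 2 by linarith))]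
    have h2 : m ^ 2 ≤ 9 * m := by nlinarith
    have h3 : m ^ 2 * s ^ 2 ≤ 9 * m * s ^ 2 := mul_le_mul_of_nonneg_right h2 hS0
    have h4 : m * s ^ 2 ≤ 9 * s ^ 2 := mul_le_mul_of_nonneg_right hm9 hS0
    have h5 : 5 * s ^ 2 ≤ m * s ^ 2 := mul_le_mul_of_nonneg_right hm5 hS0
    nlinarith
  · have hc0 := (cc_pos' hs).le
    have hc1 := cc_le_one s
    set c := cc s
    have h1 : c ^ 3 ≤ 1 := pow_le_one₀ hc0 hc1
    have h2 : c ^ 3 ≤ c := by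
      have := pow_le_pow_of_le_one hc0 hc1 (show 1 ≤ 3 by norm_num)
      rwa [pow_one] at this
    have h3 : c ^ 3 ≤ c ^ 2 := pow_le_pow_of_le_one hc0 hc1 (show 2 ≤ 3 by norm_num)
    nlinarith

/-- `cR` bound with `δ = 1`, `5 ≤ m ≤ 6`, `k ≥ 1/2`, `c ≤ 9/10` -/
lemma cR_delta1 {m s l k : ℝ} (hm5 : 5 ≤ m) (hm6 : m ≤ 6) (hs : s ∈ Ioo (0 : ℝ) 1) (hl : 0 ≤ l)
    (hl2 : l ≤ 1 / 2) (hT : s * Real.exp l ≤ 1) (hk : 1 / 2 ≤ k) (hc9 : cc s ^ 2 ≤ 81 / 100)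
    (hz : (1 + k) * s * cc s ^ 2 ≤ (1 + (m + 1) * s ^ 2) * (Real.exp (-l) - s)) :
    -(Y s * l ^ 2 * (3 / 8 + 1 * Y s)) ≤ cR s l := by
  have hs0 := hs.1
  have hc0 := (cc_pos' hs).le
  have hc2 := cc_sq' hs
  have hS0 : 0 ≤ s ^ 2 := sq_nonneg s
  have hS1 : s ^ 2 ≤ 1 := by nlinarith [hs.2]
  have hc9' : cc s ≤ 9 / 10 := by nlinarith
  rcases le_total (cc s) (4 / 5) with hc | hc
  · refine cR_ge_delta (v := 3 / 5) hs hl hl2 hT (by norm_num) ?_ ?_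
    · refine haz_v (κ₀ := 3 / 2) (by linarith) hs (by norm_num) (by linarith) hl (by norm_num) hT hz ?_
      have h5 : 5 * s ^ 2 ≤ m * s ^ 2 := mul_le_mul_of_nonneg_right hm5 hS0
      have h6 : m * s ^ 2 ≤ 6 * s ^ 2 := mul_le_mul_of_nonneg_right hm6 hS0
      have h7 : (m * s ^ 2) ^ 2 ≤ (6 * s ^ 2) * (m * s ^ 2) := by nlinarith [mul_nonneg (show 0 ≤ m by linarith) hS0]
      have h8 : s ^ 2 * (m * s ^ 2) ≤ m * s ^ 2 := by nlinarith [mul_nonneg (show 0 ≤ m by linarith) hS0]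
      have h9 : s ^ 2 * s ^ 2 ≤ s ^ 2 := by nlinarith
      nlinarith
    · set c := cc s
      have h1 : c ^ 3 ≤ (4 / 5) ^ 3 := pow_le_pow_left₀ hc0 hc 3
      have h2 : c ^ 3 ≤ (4 / 5) ^ 2 * c := by
        have := mul_le_mul_of_nonneg_right (pow_le_pow_left₀ hc0 hc 2) hc0
        calc c ^ 3 = c ^ 2 * c := by ring
          _ ≤ _ := this
      have h3 : c ^ 3 ≤ (4 / 5) * c ^ 2 := by
        have := mul_le_mul_of_nonneg_right hc (sq_nonneg c)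
        calc c ^ 3 = c * c ^ 2 := by ring
          _ ≤ _ := this
      nlinarith
  · have hSS : s ^ 2 ≤ 9 / 25 := by nlinarith
    refine cR_ge_delta (v := 3 / 4) hs hl hl2 hT (by norm_num) ?_ ?_
    · refine haz_v (κ₀ := 3 / 2) (by linarith) hs (by norm_num) (by linarith) hl (by norm_num) hT hz ?_
      have h5 : 5 * s ^ 2 ≤ m * s ^ 2 := mul_le_mul_of_nonneg_right hm5 hS0
      have h6 : m * s ^ 2 ≤ 6 * s ^ 2 := mul_le_mul_of_nonneg_right hm6 hS0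
      have h0 : 0 ≤ m * s ^ 2 := mul_nonneg (show 0 ≤ m by linarith) hS0
      have h7 : (m * s ^ 2) ^ 2 ≤ (6 * s ^ 2) * (m * s ^ 2) := by nlinarith
      have h7' : (6 * s ^ 2) * (m * s ^ 2) ≤ (54 / 25) * (m * s ^ 2) := by nlinarith
      have h9 : s ^ 2 * s ^ 2 ≤ 9 / 25 * s ^ 2 := by nlinarith
      nlinarith
    · set c := cc s
      have h1 : c ^ 3 ≤ (9 / 10) ^ 3 := pow_le_pow_left₀ hc0 hc9' 3
      have h2 : c ^ 3 ≤ (9 / 10) ^ 2 * c := by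
        have := mul_le_mul_of_nonneg_right (pow_le_pow_left₀ hc0 hc9' 2) hc0
        calc c ^ 3 = c ^ 2 * c := by ring
          _ ≤ _ := this
      have h3 : c ^ 3 ≤ (9 / 10) * c ^ 2 := by
        have := mul_le_mul_of_nonneg_right hc9' (sq_nonneg c)
        calc c ^ 3 = c * c ^ 2 := by ring
          _ ≤ _ := this
      nlinarith

/-- generic combination -/
theorem PP_pos_gen {n : ℕ} {m : ℝ} (hn : 5 ≤ n) (hm : (n : ℝ) = m) {s l k δA δB ε α A2 AA AB : ℝ}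
    (hs : s ∈ Ioo (0 : ℝ) 1) (hl : 0 ≤ l) (hl2 : l ≤ 1 / 2) (hk : 0 < k) (hα0 : 0 ≤ α)
    (hα : k * cc s ≤ α * s) (hA2 : A2 = α ^ 2) (hαm : 4 * α ^ 2 * 4 ≤ m ^ 2 * (m ^ 2 - 4))
    (hz : (1 + k) * s * cc s ^ 2 ≤ (1 + (m + 1) * s ^ 2) * (Real.exp (-l) - s))
    (hε : (17 * (4 * m + 7) * α) ^ 2 ≤ 2 * ε * (m + 7) * (64 * m) ^ 2 * m)
    (hAA : m - 3 - δA = AA) (hAB : m - 3 - δB = AB)
    (hcRA : k ≤ 1 / 2 → -(Y s * l ^ 2 * (3 / 8 + δA * Y s)) ≤ cR s l)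
    (hcRB : 1 / 2 ≤ k → -(Y s * l ^ 2 * (3 / 8 + δB * Y s)) ≤ cR s l)
    (hGA : ∀ {a X y : ℝ}, k ≤ 1 / 2 → 0 ≤ X → y * (A2 + k ^ 2) ≤ A2 →
      (∀ c₀ : ℝ, 0 ≤ c₀ → 2 - 2 * c₀ ^ 2 / (1 + c₀) - (2 + c₀) / (1 + c₀) ^ 2 * (y - c₀ ^ 2) ≤ a) →
      0 < GG m AA ε a k X)
    (hGB : ∀ {a X y : ℝ}, 1 / 2 ≤ k → k ≤ m / 2 → 0 ≤ y → y * (A2 + k ^ 2) ≤ A2 →
      (∀ c₀ : ℝ, 0 ≤ c₀ → 2 - 2 * c₀ ^ 2 / (1 + c₀) - (2 + c₀) / (1 + c₀) ^ 2 * (y - c₀ ^ 2) ≤ a) →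
      (2 * X ≤ 1 - 2 * ((1 + k) / ((m + 2) - (m + 1) * y)) +
        3 * ((1 + k) / ((m + 2) - (m + 1) * y)) ^ 2 * y) →
      0 < GG m AB ε a k X) :
    0 < PP n (((n : ℝ) + 1 + 3 * (1 / 4)) / ((n : ℝ) - 1)) 3 1 0 0 s l k := by
  have hn5 : (5 : ℝ) ≤ m := by rw [← hm]; exact_mod_cast hn
  have hc := cc_pos' hs
  have hc2 := cc_sq' hs
  have hk2 : k ≤ m / 2 := k_le_half hn5 hs.1 hs.2 hc hc2 hl hk.le hα hα0 hαm hz
  have hX := haz_X (by linarith) hs hk.le hl hz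
  have hX0 : 0 ≤ Y s * l := mul_nonneg (Y_nonneg hs) hl
  have hy : cc s ^ 2 * (A2 + k ^ 2) ≤ A2 := by
    have h1 : (k * cc s) ^ 2 ≤ (α * s) ^ 2 := pow_le_pow_left₀ (by positivity) hα 2
    rw [hA2]
    nlinarith
  rcases le_total k (1 / 2) with hk3 | hk3
  · refine PP_pos_of_GG hn hm hs hl hl2 hk hk2 hα (hcRA hk3) hε ?_
    rw [hAA]
    exact hGA hk3 hX0 hy fun c₀ h0 => aq_tan s h0
  · refine PP_pos_of_GG hn hm hs hl hl2 hk hk2 hα (hcRB hk3) hε ?_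
    rw [hAB]
    exact hGB hk3 hk2 (sq_nonneg _) hy (fun c₀ h0 => aq_tan s h0) hX

/-- `k = 0` -/
theorem PP_k_zero {n : ℕ} (hn : 5 ≤ n) {s l : ℝ} (hs : s ∈ Ioo (0 : ℝ) 1) (hl : 0 ≤ l)
    {δ : ℝ} (hδ : δ ≤ n - 3)
    (hcR : -(Y s * l ^ 2 * (3 / 8 + δ * Y s)) ≤ cR s l) :
    0 ≤ PP n (((n : ℝ) + 1 + 3 * (1 / 4)) / ((n : ℝ) - 1)) 3 1 0 0 s l 0 ∧
    (PP n (((n : ℝ) + 1 + 3 * (1 / 4)) / ((n : ℝ) - 1)) 3 1 0 0 s l 0 = 0 → l = 0) := by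
  have hn5 : (5 : ℝ) ≤ n := by exact_mod_cast hn
  have hc := cc_pos' hs
  have hs0 := hs.1
  have hY0 : 0 < Y s := by rw [Y_eq_cc hs]; positivity
  have hG := Gm_ge_pos (n := n) (by omega) hl
  have hm1 : 0 < (n : ℝ) - 1 := by linarith
  have hhm : hm n 0 = 0 := by unfold hm; simp
  have e : PP n (((n : ℝ) + 1 + 3 * (1 / 4)) / ((n : ℝ) - 1)) 3 1 0 0 s l 0 =
      ((n : ℝ) + 7 / 4) * Y s * Gm n l + ((n : ℝ) - 3) * (Y s ^ 2 * l ^ 2) + cR s l := by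
    unfold PP KK
    rw [hhm]
    field_simp
    ring
  have h1 : ((n : ℝ) + 7 / 4) * Y s * (l ^ 2 / (2 * n)) ≤ ((n : ℝ) + 7 / 4) * Y s * Gm n l :=
    mul_le_mul_of_nonneg_left hG (by positivity)
  have h2 : 1 / 2 * (Y s * l ^ 2) ≤ ((n : ℝ) + 7 / 4) * Y s * (l ^ 2 / (2 * n)) := by
    have e2 : ((n : ℝ) + 7 / 4) * Y s * (l ^ 2 / (2 * n)) = (1 / 2 + 7 / (8 * n)) * (Y s * l ^ 2) := by
      field_simp
      ring
    rw [e2]
    refine mul_le_mul_of_nonneg_right ?_ (by positivity)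
    have : 0 ≤ 7 / (8 * (n : ℝ)) := by positivity
    linarith
  have h3 : δ * (Y s ^ 2 * l ^ 2) ≤ ((n : ℝ) - 3) * (Y s ^ 2 * l ^ 2) :=
    mul_le_mul_of_nonneg_right hδ (by positivity)
  have h4 : 1 / 8 * (Y s * l ^ 2) ≤ PP n (((n : ℝ) + 1 + 3 * (1 / 4)) / ((n : ℝ) - 1)) 3 1 0 0 s l 0 := by
    rw [e]
    have e5 : Y s * l ^ 2 * (3 / 8 + δ * Y s) = 3 / 8 * (Y s * l ^ 2) + δ * (Y s ^ 2 * l ^ 2) := by ring
    linarith
  refine ⟨le_trans (by positivity) h4, fun h0 => ?_⟩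
  rw [h0] at h4
  by_contra hne
  have : 0 < l := lt_of_le_of_ne hl (Ne.symm hne)
  have : 0 < 1 / 8 * (Y s * l ^ 2) := by positivity
  linarith

theorem PPpos_path_5 {r : ℝ → ℝ} (hr : Prof r) {s : ℝ} (hs : s ∈ Ioo (0 : ℝ) 1)
    (hl : 0 ≤ ll 5 r s) (hl2 : ll 5 r s ≤ 1 / 2) (hT : s * Real.exp (ll 5 r s) ≤ 1)
    (hk : 0 < kk 5 r s) :
    0 < PP 5 (((((5 : ℕ) : ℝ)) + 1 + 3 * (1 / 4)) / ((((5 : ℕ) : ℝ)) - 1)) 3 1 0 0 s (ll 5 r s) (kk 5 r s) := by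
  have hm : ((5 : ℕ) : ℝ) = 5 := by norm_num
  have hz := haz_path (n := 5) hr hs
  rw [hm] at hz
  have hα : kk 5 r s * cc s ≤ (17/20) * s := kk_c_le hr hs (kappa6 hr hs)
  refine PP_pos_gen (m := 5) (α := (17/20)) (A2 := (289/400)) (ε := (1/80)) (δA := 2) (δB := 1)
    (AA := 0) (AB := 1) (by norm_num) hm hs hl hl2 hk (by norm_num) hα (by norm_num)
    (by norm_num) hz (by norm_num) (by norm_num) (by norm_num) ?_ ?_ ?_ ?_
  · exact fun _ => cR_delta2 (by norm_num) (by norm_num) hs hl hl2 hT hk.le hz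
  · exact fun hk3 => cR_delta1 (by norm_num) (by norm_num) hs hl hl2 hT hk3 (by
        have h1 : (kk 5 r s * cc s) ^ 2 ≤ ((17/20) * s) ^ 2 :=
          pow_le_pow_left₀ (mul_nonneg hk.le (cc_nonneg s)) hα 2
        have h2 := cc_sq' hs
        have h3 : (1 / 2) ^ 2 ≤ kk 5 r s ^ 2 := pow_le_pow_left₀ (by norm_num) hk3 2
        have h4 := mul_le_mul_of_nonneg_right h3 (sq_nonneg (cc s))
        nlinarith) hz
  · intro a X y h1 h2 h3 h4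
    exact GG_posA_5 hk h1 (by norm_num) h2 h3 h4
  · intro a X y h1 h2 h3 h4 h5 h6
    exact GG_posB_5 h1 (by linarith) h3 h4 h5 h6

theorem PPpos_path_6 {r : ℝ → ℝ} (hr : Prof r) {s : ℝ} (hs : s ∈ Ioo (0 : ℝ) 1)
    (hl : 0 ≤ ll 6 r s) (hl2 : ll 6 r s ≤ 1 / 2) (hT : s * Real.exp (ll 6 r s) ≤ 1)
    (hk : 0 < kk 6 r s) :
    0 < PP 6 (((((6 : ℕ) : ℝ)) + 1 + 3 * (1 / 4)) / ((((6 : ℕ) : ℝ)) - 1)) 3 1 0 0 s (ll 6 r s) (kk 6 r s) := by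
  have hm : ((6 : ℕ) : ℝ) = 6 := by norm_num
  have hz := haz_path (n := 6) hr hs
  rw [hm] at hz
  have hα : kk 6 r s * cc s ≤ (103/100) * s := kk_c_le hr hs (kappa_le' hr 6 (by norm_num) (by norm_num) hs)
  refine PP_pos_gen (m := 6) (α := (103/100)) (A2 := (10609/10000)) (ε := (13/1000)) (δA := 2) (δB := 1)
    (AA := 1) (AB := 2) (by norm_num) hm hs hl hl2 hk (by norm_num) hα (by norm_num)
    (by norm_num) hz (by norm_num) (by norm_num) (by norm_num) ?_ ?_ ?_ ?_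
  · exact fun _ => cR_delta2 (by norm_num) (by norm_num) hs hl hl2 hT hk.le hz
  · exact fun hk3 => cR_delta1 (by norm_num) (by norm_num) hs hl hl2 hT hk3 (by
        have h1 : (kk 6 r s * cc s) ^ 2 ≤ ((103/100) * s) ^ 2 :=
          pow_le_pow_left₀ (mul_nonneg hk.le (cc_nonneg s)) hα 2
        have h2 := cc_sq' hs
        have h3 : (1 / 2) ^ 2 ≤ kk 6 r s ^ 2 := pow_le_pow_left₀ (by norm_num) hk3 2
        have h4 := mul_le_mul_of_nonneg_right h3 (sq_nonneg (cc s))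
        nlinarith) hz
  · intro a X y h1 h2 h3 h4
    exact GG_posA_6 hk h1 (by norm_num) h2 h3 h4
  · intro a X y h1 h2 h3 h4 h5 h6
    exact GG_posB_6 h1 (by linarith) h3 h4 h5 h6

theorem PPpos_path_7 {r : ℝ → ℝ} (hr : Prof r) {s : ℝ} (hs : s ∈ Ioo (0 : ℝ) 1)
    (hl : 0 ≤ ll 7 r s) (hl2 : ll 7 r s ≤ 1 / 2) (hT : s * Real.exp (ll 7 r s) ≤ 1)
    (hk : 0 < kk 7 r s) :
    0 < PP 7 (((((7 : ℕ) : ℝ)) + 1 + 3 * (1 / 4)) / ((((7 : ℕ) : ℝ)) - 1)) 3 1 0 0 s (ll 7 r s) (kk 7 r s) := by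
  have hm : ((7 : ℕ) : ℝ) = 7 := by norm_num
  have hz := haz_path (n := 7) hr hs
  rw [hm] at hz
  have hα : kk 7 r s * cc s ≤ (9/8) * s := kk_c_le hr hs (kappa_le' hr 7 (by norm_num) (by norm_num) hs)
  refine PP_pos_gen (m := 7) (α := (9/8)) (A2 := (81/64)) (ε := (23/2000)) (δA := 2) (δB := 2)
    (AA := 2) (AB := 2) (by norm_num) hm hs hl hl2 hk (by norm_num) hα (by norm_num)
    (by norm_num) hz (by norm_num) (by norm_num) (by norm_num) ?_ ?_ ?_ ?_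
  · exact fun _ => cR_delta2 (by norm_num) (by norm_num) hs hl hl2 hT hk.le hz
  · exact fun _ => cR_delta2 (by norm_num) (by norm_num) hs hl hl2 hT hk.le hz
  · intro a X y h1 h2 h3 h4
    exact GG_posA_7 hk h1 (by norm_num) h2 h3 h4
  · intro a X y h1 h2 h3 h4 h5 h6
    exact GG_posB_7 h1 (by linarith) h3 h4 h5 h6

theorem PPpos_path_8 {r : ℝ → ℝ} (hr : Prof r) {s : ℝ} (hs : s ∈ Ioo (0 : ℝ) 1)
    (hl : 0 ≤ ll 8 r s) (hl2 : ll 8 r s ≤ 1 / 2) (hT : s * Real.exp (ll 8 r s) ≤ 1)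
    (hk : 0 < kk 8 r s) :
    0 < PP 8 (((((8 : ℕ) : ℝ)) + 1 + 3 * (1 / 4)) / ((((8 : ℕ) : ℝ)) - 1)) 3 1 0 0 s (ll 8 r s) (kk 8 r s) := by
  have hm : ((8 : ℕ) : ℝ) = 8 := by norm_num
  have hz := haz_path (n := 8) hr hs
  rw [hm] at hz
  have hα : kk 8 r s * cc s ≤ (121/100) * s := kk_c_le hr hs (kappa_le' hr 8 (by norm_num) (by norm_num) hs)
  refine PP_pos_gen (m := 8) (α := (121/100)) (A2 := (14641/10000)) (ε := (21/2000)) (δA := 2) (δB := 2)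
    (AA := 3) (AB := 3) (by norm_num) hm hs hl hl2 hk (by norm_num) hα (by norm_num)
    (by norm_num) hz (by norm_num) (by norm_num) (by norm_num) ?_ ?_ ?_ ?_
  · exact fun _ => cR_delta2 (by norm_num) (by norm_num) hs hl hl2 hT hk.le hz
  · exact fun _ => cR_delta2 (by norm_num) (by norm_num) hs hl hl2 hT hk.le hz
  · intro a X y h1 h2 h3 h4
    exact GG_posA_8 hk h1 (by norm_num) h2 h3 h4
  · intro a X y h1 h2 h3 h4 h5 h6
    exact GG_posB_8 h1 (by linarith) h3 h4 h5 h6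

theorem PPpos_path_9 {r : ℝ → ℝ} (hr : Prof r) {s : ℝ} (hs : s ∈ Ioo (0 : ℝ) 1)
    (hl : 0 ≤ ll 9 r s) (hl2 : ll 9 r s ≤ 1 / 2) (hT : s * Real.exp (ll 9 r s) ≤ 1)
    (hk : 0 < kk 9 r s) :
    0 < PP 9 (((((9 : ℕ) : ℝ)) + 1 + 3 * (1 / 4)) / ((((9 : ℕ) : ℝ)) - 1)) 3 1 0 0 s (ll 9 r s) (kk 9 r s) := by
  have hm : ((9 : ℕ) : ℝ) = 9 := by norm_num
  have hz := haz_path (n := 9) hr hs
  rw [hm] at hz
  have hα : kk 9 r s * cc s ≤ (9/7) * s := kk_c_le hr hs (kappa_le' hr 9 (by norm_num) (by norm_num) hs)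
  refine PP_pos_gen (m := 9) (α := (9/7)) (A2 := (81/49)) (ε := (19/2000)) (δA := 2) (δB := 2)
    (AA := 4) (AB := 4) (by norm_num) hm hs hl hl2 hk (by norm_num) hα (by norm_num)
    (by norm_num) hz (by norm_num) (by norm_num) (by norm_num) ?_ ?_ ?_ ?_
  · exact fun _ => cR_delta2 (by norm_num) (by norm_num) hs hl hl2 hT hk.le hz
  · exact fun _ => cR_delta2 (by norm_num) (by norm_num) hs hl hl2 hT hk.le hz
  · intro a X y h1 h2 h3 h4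
    exact GG_posA_9 hk h1 (by norm_num) h2 h3 h4
  · intro a X y h1 h2 h3 h4 h5 h6
    exact GG_posB_9 h1 (by linarith) h3 h4 h5 h6

theorem PPpos_path_10 {r : ℝ → ℝ} (hr : Prof r) {s : ℝ} (hs : s ∈ Ioo (0 : ℝ) 1)
    (hl : 0 ≤ ll 10 r s) (hl2 : ll 10 r s ≤ 1 / 2) (hT : s * Real.exp (ll 10 r s) ≤ 1)
    (hk : 0 < kk 10 r s) :
    0 < PP 10 (((((10 : ℕ) : ℝ)) + 1 + 3 * (1 / 4)) / ((((10 : ℕ) : ℝ)) - 1)) 3 1 0 0 s (ll 10 r s) (kk 10 r s) := by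
  have hm : ((10 : ℕ) : ℝ) = 10 := by norm_num
  have hz := haz_path (n := 10) hr hs
  rw [hm] at hz
  have hα : kk 10 r s * cc s ≤ (137/100) * s := kk_c_le hr hs (kappa_le' hr 10 (by norm_num) (by norm_num) hs)
  refine PP_pos_gen (m := 10) (α := (137/100)) (A2 := (18769/10000)) (ε := (9/1000)) (δA := 5) (δB := 5)
    (AA := 2) (AB := 2) (by norm_num) hm hs hl hl2 hk (by norm_num) hα (by norm_num)
    (by norm_num) hz (by norm_num) (by norm_num) (by norm_num) ?_ ?_ ?_ ?_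
  · exact fun _ => cR_ge_pos hs hl (by linarith) hT
  · exact fun _ => cR_ge_pos hs hl (by linarith) hT
  · intro a X y h1 h2 h3 h4
    exact GG_posA_10 hk h1 (by norm_num) h2 h3 h4
  · intro a X y h1 h2 h3 h4 h5 h6
    exact GG_posB_10 h1 (by linarith) h3 h4 h5 h6

theorem PPpos_path_11 {r : ℝ → ℝ} (hr : Prof r) {s : ℝ} (hs : s ∈ Ioo (0 : ℝ) 1)
    (hl : 0 ≤ ll 11 r s) (hl2 : ll 11 r s ≤ 1 / 2) (hT : s * Real.exp (ll 11 r s) ≤ 1)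
    (hk : 0 < kk 11 r s) :
    0 < PP 11 (((((11 : ℕ) : ℝ)) + 1 + 3 * (1 / 4)) / ((((11 : ℕ) : ℝ)) - 1)) 3 1 0 0 s (ll 11 r s) (kk 11 r s) := by
  have hm : ((11 : ℕ) : ℝ) = 11 := by norm_num
  have hz := haz_path (n := 11) hr hs
  rw [hm] at hz
  have hα : kk 11 r s * cc s ≤ (36/25) * s := kk_c_le hr hs (kappa_le' hr 11 (by norm_num) (by norm_num) hs)
  refine PP_pos_gen (m := 11) (α := (36/25)) (A2 := (1296/625)) (ε := (1/125)) (δA := 5) (δB := 5)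
    (AA := 3) (AB := 3) (by norm_num) hm hs hl hl2 hk (by norm_num) hα (by norm_num)
    (by norm_num) hz (by norm_num) (by norm_num) (by norm_num) ?_ ?_ ?_ ?_
  · exact fun _ => cR_ge_pos hs hl (by linarith) hT
  · exact fun _ => cR_ge_pos hs hl (by linarith) hT
  · intro a X y h1 h2 h3 h4
    exact GG_posA_11 hk h1 (by norm_num) h2 h3 h4
  · intro a X y h1 h2 h3 h4 h5 h6
    exact GG_posB_11 h1 (by linarith) h3 h4 h5 h6

theorem PPpos_path_12 {r : ℝ → ℝ} (hr : Prof r) {s : ℝ} (hs : s ∈ Ioo (0 : ℝ) 1)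
    (hl : 0 ≤ ll 12 r s) (hl2 : ll 12 r s ≤ 1 / 2) (hT : s * Real.exp (ll 12 r s) ≤ 1)
    (hk : 0 < kk 12 r s) :
    0 < PP 12 (((((12 : ℕ) : ℝ)) + 1 + 3 * (1 / 4)) / ((((12 : ℕ) : ℝ)) - 1)) 3 1 0 0 s (ll 12 r s) (kk 12 r s) := by
  have hm : ((12 : ℕ) : ℝ) = 12 := by norm_num
  have hz := haz_path (n := 12) hr hs
  rw [hm] at hz
  have hα : kk 12 r s * cc s ≤ (3/2) * s := kk_c_le hr hs (kappa_le' hr 12 (by norm_num) (by norm_num) hs)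
  refine PP_pos_gen (m := 12) (α := (3/2)) (A2 := (9/4)) (ε := (3/400)) (δA := 5) (δB := 5)
    (AA := 4) (AB := 4) (by norm_num) hm hs hl hl2 hk (by norm_num) hα (by norm_num)
    (by norm_num) hz (by norm_num) (by norm_num) (by norm_num) ?_ ?_ ?_ ?_
  · exact fun _ => cR_ge_pos hs hl (by linarith) hT
  · exact fun _ => cR_ge_pos hs hl (by linarith) hT
  · intro a X y h1 h2 h3 h4
    exact GG_posA_12 hk h1 (by norm_num) h2 h3 h4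
  · intro a X y h1 h2 h3 h4 h5 h6
    exact GG_posB_12 h1 (by linarith) h3 h4 h5 h6

theorem PPpos_path_13 {r : ℝ → ℝ} (hr : Prof r) {s : ℝ} (hs : s ∈ Ioo (0 : ℝ) 1)
    (hl : 0 ≤ ll 13 r s) (hl2 : ll 13 r s ≤ 1 / 2) (hT : s * Real.exp (ll 13 r s) ≤ 1)
    (hk : 0 < kk 13 r s) :
    0 < PP 13 (((((13 : ℕ) : ℝ)) + 1 + 3 * (1 / 4)) / ((((13 : ℕ) : ℝ)) - 1)) 3 1 0 0 s (ll 13 r s) (kk 13 r s) := by
  have hm : ((13 : ℕ) : ℝ) = 13 := by norm_num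
  have hz := haz_path (n := 13) hr hs
  rw [hm] at hz
  have hα : kk 13 r s * cc s ≤ (157/100) * s := kk_c_le hr hs (kappa_le' hr 13 (by norm_num) (by norm_num) hs)
  refine PP_pos_gen (m := 13) (α := (157/100)) (A2 := (24649/10000)) (ε := (7/1000)) (δA := 5) (δB := 5)
    (AA := 5) (AB := 5) (by norm_num) hm hs hl hl2 hk (by norm_num) hα (by norm_num)
    (by norm_num) hz (by norm_num) (by norm_num) (by norm_num) ?_ ?_ ?_ ?_
  · exact fun _ => cR_ge_pos hs hl (by linarith) hT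
  · exact fun _ => cR_ge_pos hs hl (by linarith) hT
  · intro a X y h1 h2 h3 h4
    exact GG_posA_13 hk h1 (by norm_num) h2 h3 h4
  · intro a X y h1 h2 h3 h4 h5 h6
    exact GG_posB_13 h1 (by linarith) h3 h4 h5 h6

theorem PPpos_path_14 {r : ℝ → ℝ} (hr : Prof r) {s : ℝ} (hs : s ∈ Ioo (0 : ℝ) 1)
    (hl : 0 ≤ ll 14 r s) (hl2 : ll 14 r s ≤ 1 / 2) (hT : s * Real.exp (ll 14 r s) ≤ 1)
    (hk : 0 < kk 14 r s) :
    0 < PP 14 (((((14 : ℕ) : ℝ)) + 1 + 3 * (1 / 4)) / ((((14 : ℕ) : ℝ)) - 1)) 3 1 0 0 s (ll 14 r s) (kk 14 r s) := by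
  have hm : ((14 : ℕ) : ℝ) = 14 := by norm_num
  have hz := haz_path (n := 14) hr hs
  rw [hm] at hz
  have hα : kk 14 r s * cc s ≤ (163/100) * s := kk_c_le hr hs (kappa_le' hr 14 (by norm_num) (by norm_num) hs)
  refine PP_pos_gen (m := 14) (α := (163/100)) (A2 := (26569/10000)) (ε := (13/2000)) (δA := 5) (δB := 5)
    (AA := 6) (AB := 6) (by norm_num) hm hs hl hl2 hk (by norm_num) hα (by norm_num)
    (by norm_num) hz (by norm_num) (by norm_num) (by norm_num) ?_ ?_ ?_ ?_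
  · exact fun _ => cR_ge_pos hs hl (by linarith) hT
  · exact fun _ => cR_ge_pos hs hl (by linarith) hT
  · intro a X y h1 h2 h3 h4
    exact GG_posA_14 hk h1 (by norm_num) h2 h3 h4
  · intro a X y h1 h2 h3 h4 h5 h6
    exact GG_posB_14 h1 (by linarith) h3 h4 h5 h6

theorem PPpos_path_15 {r : ℝ → ℝ} (hr : Prof r) {s : ℝ} (hs : s ∈ Ioo (0 : ℝ) 1)
    (hl : 0 ≤ ll 15 r s) (hl2 : ll 15 r s ≤ 1 / 2) (hT : s * Real.exp (ll 15 r s) ≤ 1)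
    (hk : 0 < kk 15 r s) :
    0 < PP 15 (((((15 : ℕ) : ℝ)) + 1 + 3 * (1 / 4)) / ((((15 : ℕ) : ℝ)) - 1)) 3 1 0 0 s (ll 15 r s) (kk 15 r s) := by
  have hm : ((15 : ℕ) : ℝ) = 15 := by norm_num
  have hz := haz_path (n := 15) hr hs
  rw [hm] at hz
  have hα : kk 15 r s * cc s ≤ (169/100) * s := kk_c_le hr hs (kappa_le' hr 15 (by norm_num) (by norm_num) hs)
  refine PP_pos_gen (m := 15) (α := (169/100)) (A2 := (28561/10000)) (ε := (13/2000)) (δA := 5) (δB := 5)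
    (AA := 7) (AB := 7) (by norm_num) hm hs hl hl2 hk (by norm_num) hα (by norm_num)
    (by norm_num) hz (by norm_num) (by norm_num) (by norm_num) ?_ ?_ ?_ ?_
  · exact fun _ => cR_ge_pos hs hl (by linarith) hT
  · exact fun _ => cR_ge_pos hs hl (by linarith) hT
  · intro a X y h1 h2 h3 h4
    exact GG_posA_15 hk h1 (by norm_num) h2 h3 h4
  · intro a X y h1 h2 h3 h4 h5 h6
    exact GG_posB_15 h1 (by linarith) h3 h4 h5 h6

theorem PPpos_path_16 {r : ℝ → ℝ} (hr : Prof r) {s : ℝ} (hs : s ∈ Ioo (0 : ℝ) 1)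
    (hl : 0 ≤ ll 16 r s) (hl2 : ll 16 r s ≤ 1 / 2) (hT : s * Real.exp (ll 16 r s) ≤ 1)
    (hk : 0 < kk 16 r s) :
    0 < PP 16 (((((16 : ℕ) : ℝ)) + 1 + 3 * (1 / 4)) / ((((16 : ℕ) : ℝ)) - 1)) 3 1 0 0 s (ll 16 r s) (kk 16 r s) := by
  have hm : ((16 : ℕ) : ℝ) = 16 := by norm_num
  have hz := haz_path (n := 16) hr hs
  rw [hm] at hz
  have hα : kk 16 r s * cc s ≤ (7/4) * s := kk_c_le hr hs (kappa_le' hr 16 (by norm_num) (by norm_num) hs)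
  refine PP_pos_gen (m := 16) (α := (7/4)) (A2 := (49/16)) (ε := (3/500)) (δA := 5) (δB := 5)
    (AA := 8) (AB := 8) (by norm_num) hm hs hl hl2 hk (by norm_num) hα (by norm_num)
    (by norm_num) hz (by norm_num) (by norm_num) (by norm_num) ?_ ?_ ?_ ?_
  · exact fun _ => cR_ge_pos hs hl (by linarith) hT
  · exact fun _ => cR_ge_pos hs hl (by linarith) hT
  · intro a X y h1 h2 h3 h4
    exact GG_posA_16 hk h1 (by norm_num) h2 h3 h4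
  · intro a X y h1 h2 h3 h4 h5 h6
    exact GG_posB_16 h1 (by linarith) h3 h4 h5 h6

theorem PPpos_path_17 {r : ℝ → ℝ} (hr : Prof r) {s : ℝ} (hs : s ∈ Ioo (0 : ℝ) 1)
    (hl : 0 ≤ ll 17 r s) (hl2 : ll 17 r s ≤ 1 / 2) (hT : s * Real.exp (ll 17 r s) ≤ 1)
    (hk : 0 < kk 17 r s) :
    0 < PP 17 (((((17 : ℕ) : ℝ)) + 1 + 3 * (1 / 4)) / ((((17 : ℕ) : ℝ)) - 1)) 3 1 0 0 s (ll 17 r s) (kk 17 r s) := by
  have hm : ((17 : ℕ) : ℝ) = 17 := by norm_num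
  have hz := haz_path (n := 17) hr hs
  rw [hm] at hz
  have hα : kk 17 r s * cc s ≤ (181/100) * s := kk_c_le hr hs (kappa_le' hr 17 (by norm_num) (by norm_num) hs)
  refine PP_pos_gen (m := 17) (α := (181/100)) (A2 := (32761/10000)) (ε := (3/500)) (δA := 5) (δB := 5)
    (AA := 9) (AB := 9) (by norm_num) hm hs hl hl2 hk (by norm_num) hα (by norm_num)
    (by norm_num) hz (by norm_num) (by norm_num) (by norm_num) ?_ ?_ ?_ ?_
  · exact fun _ => cR_ge_pos hs hl (by linarith) hT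
  · exact fun _ => cR_ge_pos hs hl (by linarith) hT
  · intro a X y h1 h2 h3 h4
    exact GG_posA_17 hk h1 (by norm_num) h2 h3 h4
  · intro a X y h1 h2 h3 h4 h5 h6
    exact GG_posB_17 h1 (by linarith) h3 h4 h5 h6

theorem PPpos_path_18 {r : ℝ → ℝ} (hr : Prof r) {s : ℝ} (hs : s ∈ Ioo (0 : ℝ) 1)
    (hl : 0 ≤ ll 18 r s) (hl2 : ll 18 r s ≤ 1 / 2) (hT : s * Real.exp (ll 18 r s) ≤ 1)
    (hk : 0 < kk 18 r s) :
    0 < PP 18 (((((18 : ℕ) : ℝ)) + 1 + 3 * (1 / 4)) / ((((18 : ℕ) : ℝ)) - 1)) 3 1 0 0 s (ll 18 r s) (kk 18 r s) := by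
  have hm : ((18 : ℕ) : ℝ) = 18 := by norm_num
  have hz := haz_path (n := 18) hr hs
  rw [hm] at hz
  have hα : kk 18 r s * cc s ≤ (93/50) * s := kk_c_le hr hs (kappa_le' hr 18 (by norm_num) (by norm_num) hs)
  refine PP_pos_gen (m := 18) (α := (93/50)) (A2 := (8649/2500)) (ε := (11/2000)) (δA := 5) (δB := 5)
    (AA := 10) (AB := 10) (by norm_num) hm hs hl hl2 hk (by norm_num) hα (by norm_num)
    (by norm_num) hz (by norm_num) (by norm_num) (by norm_num) ?_ ?_ ?_ ?_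
  · exact fun _ => cR_ge_pos hs hl (by linarith) hT
  · exact fun _ => cR_ge_pos hs hl (by linarith) hT
  · intro a X y h1 h2 h3 h4
    exact GG_posA_18 hk h1 (by norm_num) h2 h3 h4
  · intro a X y h1 h2 h3 h4 h5 h6
    exact GG_posB_18 h1 (by linarith) h3 h4 h5 h6

theorem PPpos_path_19 {r : ℝ → ℝ} (hr : Prof r) {s : ℝ} (hs : s ∈ Ioo (0 : ℝ) 1)
    (hl : 0 ≤ ll 19 r s) (hl2 : ll 19 r s ≤ 1 / 2) (hT : s * Real.exp (ll 19 r s) ≤ 1)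
    (hk : 0 < kk 19 r s) :
    0 < PP 19 (((((19 : ℕ) : ℝ)) + 1 + 3 * (1 / 4)) / ((((19 : ℕ) : ℝ)) - 1)) 3 1 0 0 s (ll 19 r s) (kk 19 r s) := by
  have hm : ((19 : ℕ) : ℝ) = 19 := by norm_num
  have hz := haz_path (n := 19) hr hs
  rw [hm] at hz
  have hα : kk 19 r s * cc s ≤ (191/100) * s := kk_c_le hr hs (kappa_le' hr 19 (by norm_num) (by norm_num) hs)
  refine PP_pos_gen (m := 19) (α := (191/100)) (A2 := (36481/10000)) (ε := (1/200)) (δA := 5) (δB := 5)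
    (AA := 11) (AB := 11) (by norm_num) hm hs hl hl2 hk (by norm_num) hα (by norm_num)
    (by norm_num) hz (by norm_num) (by norm_num) (by norm_num) ?_ ?_ ?_ ?_
  · exact fun _ => cR_ge_pos hs hl (by linarith) hT
  · exact fun _ => cR_ge_pos hs hl (by linarith) hT
  · intro a X y h1 h2 h3 h4
    exact GG_posA_19 hk h1 (by norm_num) h2 h3 h4
  · intro a X y h1 h2 h3 h4 h5 h6
    exact GG_posB_19 h1 (by linarith) h3 h4 h5 h6

/-- **block B5**: case II, `l ≥ 0`, `k ≥ 0`, Lean `n = 5, …, 19`, `σ = 3`, `θ = 1`, `Λ = 1/4` -/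
theorem caseII_pp {n : ℕ} (h5 : 5 ≤ n) (h19 : n ≤ 19) {r : ℝ → ℝ} (hr : Prof r) {s : ℝ}
    (hs : s ∈ Ioo (0 : ℝ) 1) (hl : 0 ≤ ll n r s) (hl2 : ll n r s ≤ 1 / 2) (hk : 0 ≤ kk n r s) :
    0 ≤ PP n (((n : ℝ) + 1 + 3 * (1 / 4)) / ((n : ℝ) - 1)) 3 1 0 0 s (ll n r s) (kk n r s) ∧
    (PP n (((n : ℝ) + 1 + 3 * (1 / 4)) / ((n : ℝ) - 1)) 3 1 0 0 s (ll n r s) (kk n r s) = 0 →
      ll n r s = 0) := by
  have hT : s * Real.exp (ll n r s) ≤ 1 := by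
    rw [← tau_eq hr n ⟨hs.1.le, hs.2.le⟩]
    exact (tau_mem_half' hr n ⟨hs.1.le, hs.2.le⟩).2
  rcases hk.eq_or_lt with hk0 | hk0
  · have hz := haz_path (n := n) hr hs
    rw [← hk0]
    rcases le_total n 9 with h9 | h9
    · refine PP_k_zero h5 hs hl (δ := 2) ?_ (cR_delta2 (m := n) (by exact_mod_cast h5) (by exact_mod_cast h9)
        hs hl hl2 hT hk hz)
      have : (5 : ℝ) ≤ n := by exact_mod_cast h5
      linarith
    · refine PP_k_zero h5 hs hl (δ := 5) ?_ (cR_ge_pos hs hl (by linarith) hT)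
      have : (9 : ℝ) ≤ n := by exact_mod_cast h9
      linarith
  · have key : 0 < PP n (((n : ℝ) + 1 + 3 * (1 / 4)) / ((n : ℝ) - 1)) 3 1 0 0 s (ll n r s) (kk n r s) := by
      interval_cases n
      · exact PPpos_path_5 hr hs hl hl2 hT hk0
      · exact PPpos_path_6 hr hs hl hl2 hT hk0
      · exact PPpos_path_7 hr hs hl hl2 hT hk0
      · exact PPpos_path_8 hr hs hl hl2 hT hk0
      · exact PPpos_path_9 hr hs hl hl2 hT hk0
      · exact PPpos_path_10 hr hs hl hl2 hT hk0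
      · exact PPpos_path_11 hr hs hl hl2 hT hk0
      · exact PPpos_path_12 hr hs hl hl2 hT hk0
      · exact PPpos_path_13 hr hs hl hl2 hT hk0
      · exact PPpos_path_14 hr hs hl hl2 hT hk0
      · exact PPpos_path_15 hr hs hl hl2 hT hk0
      · exact PPpos_path_16 hr hs hl hl2 hT hk0
      · exact PPpos_path_17 hr hs hl hl2 hT hk0
      · exact PPpos_path_18 hr hs hl hl2 hT hk0
      · exact PPpos_path_19 hr hs hl hl2 hT hk0
    exact ⟨key.le, fun h => absurd h key.ne'⟩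

end Crest.Agent.R230.WR
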