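import Crest.Agent.R230.LTailBase
import Mathlib.Analysis.Real.Pi.Bounds

/-!
# Row 230 (helper91): `l (1+c) ≤ (7/8) c²` for `n = 6` (dimension 7)
-/

set_option autoImplicit false

open MeasureTheory Set Filter Topology
open scoped Pointwise ENNReal

namespace Crest.Agent.R230

namespace LT7

lemma w_one : w 1 = Real.pi / 2 := by
  unfold w
  have := integral_sqrt_one_sub_sq
  simpa using this

lemma w_zero : w 0 = 2 := by
  unfold w
  simp
  norm_num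

lemma w_five : w 5 = 5 * Real.pi / 16 := by
  have h3 := w_rec 1
  have h5 := w_rec 3
  norm_num at h3 h5
  rw [w_one] at h3
  linarith

lemma w_six : w 6 = 32 / 35 := by
  have h2 := w_rec 0
  have h4 := w_rec 2
  have h6 := w_rec 4
  norm_num at h2 h4 h6
  rw [w_zero] at h2
  linarith

lemma lB_six {s : ℝ} (hs : s ∈ Icc (0 : ℝ) 1) : lB 6 s = s - s ^ 3 + 3 / 5 * s ^ 5 - s ^ 7 / 7 := by
  unfold lB
  have h1 : ∫ x in (0 : ℝ)..s, Real.sqrt (1 - x ^ 2) ^ 6 = ∫ x in (0 : ℝ)..s, (1 - 3 * x ^ 2 + 3 * x ^ 4 - x ^ 6) := by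
    apply intervalIntegral.integral_congr
    intro x hx
    rw [uIcc_of_le hs.1] at hx
    have h2 : Real.sqrt (1 - x ^ 2) ^ 2 = 1 - x ^ 2 := Real.sq_sqrt (by nlinarith [hx.1, hx.2, hs.2])
    show Real.sqrt (1 - x ^ 2) ^ 6 = 1 - 3 * x ^ 2 + 3 * x ^ 4 - x ^ 6
    calc Real.sqrt (1 - x ^ 2) ^ 6 = (Real.sqrt (1 - x ^ 2) ^ 2) ^ 3 := by ring
      _ = _ := by rw [h2]; ring
  rw [h1]
  have hd : ∀ x ∈ uIcc (0 : ℝ) s, HasDerivAt (fun x : ℝ => x - x ^ 3 + 3 / 5 * x ^ 5 - x ^ 7 / 7)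
      (1 - 3 * x ^ 2 + 3 * x ^ 4 - x ^ 6) x := by
    intro x _
    have h3 := (((hasDerivAt_id x).fun_sub ((hasDerivAt_id x).fun_pow 3)).fun_add
      (((hasDerivAt_id x).fun_pow 5).const_mul (3 / 5))).fun_sub (((hasDerivAt_id x).fun_pow 7).div_const 7)
    refine h3.congr_deriv ?_
    simp only [id]
    push_cast
    ring
  rw [intervalIntegral.integral_eq_sub_of_hasDerivAt hd (Continuous.intervalIntegrable (by fun_prop) _ _)]
  simp

lemma hB_six_zero : hB 6 0 = 16 / 35 := by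
  have h := w_eq_two_hB 6
  rw [w_six] at h
  linarith

lemma hB_six {s : ℝ} (hs : s ∈ Icc (0 : ℝ) 1) :
    hB 6 s = 16 / 35 - (s - s ^ 3 + 3 / 5 * s ^ 5 - s ^ 7 / 7) := by
  have h := lB_add_hB 6 s
  rw [lB_six hs, hB_six_zero] at h
  linarith

lemma R_le : (w 5 / w 6) ^ 6 ≤ (7664501 / 5000000) := by
  rw [w_five, w_six]
  have h := Real.pi_lt_d4
  have hp := Real.pi_pos
  have h1 : 5 * Real.pi / 16 / (32 / 35) ≤ (27489 / 25600) := by
    linarith
  calc (5 * Real.pi / 16 / (32 / 35)) ^ 6 ≤ ((27489 / 25600) : ℝ) ^ 6 :=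
        pow_le_pow_left₀ (by positivity) h1 6
    _ ≤ _ := by norm_num

/-- cylinder bound, `n = 6` -/
lemma cyl {r : ℝ → ℝ} (hr : Prof r) (hN : NleB 6 r) {s : ℝ} (hs : s ∈ Ioo (0 : ℝ) 1)
    (hs1 : s ≤ 28 / 53) : tau 6 r s ≤ (7664501 / 5000000) * (s - s ^ 3 + 3 / 5 * s ^ 5 - s ^ 7 / 7) := by
  have hI : s ∈ Icc (0 : ℝ) 1 := ⟨hs.1.le, hs.2.le⟩
  have hmono : lB 6 s ≤ lB 6 (28 / 53) := by
    have h1 : lB 6 (28 / 53) - lB 6 s = ∫ x in s..(28 / 53), Real.sqrt (1 - x ^ 2) ^ 6 := by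
      unfold lB
      rw [intervalIntegral.integral_interval_sub_left (intervalIntegrable_cpow 6 _ _)
        (intervalIntegrable_cpow 6 _ _)]
    have h2 : 0 ≤ ∫ x in s..(28 / 53), Real.sqrt (1 - x ^ 2) ^ 6 :=
      intervalIntegral.integral_nonneg hs1 fun x _ => by positivity
    linarith
  have h1 := tau_le_of_NleB hr (n := 6) (by norm_num) hN hs (by
    refine hmono.trans ?_
    rw [lB_six (by norm_num), hB_six_zero]
    norm_num)
  rw [lB_six hI] at h1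
  have h3 : 0 ≤ s - s ^ 3 + 3 / 5 * s ^ 5 - s ^ 7 / 7 := by
    rw [← lB_six hI]; exact lB_nonneg 6 hI
  exact h1.trans (mul_le_mul_of_nonneg_right R_le h3)

/-- near region -/
lemma near {r : ℝ → ℝ} (hr : Prof r) (hN : NleB 6 r) {s : ℝ} (hs : s ∈ Ioo (0 : ℝ) 1)
    (hs1 : s ≤ 28 / 53) : ll 6 r s * (1 + cc s) ≤ 7 / 8 * cc s ^ 2 := by
  have hT : 0 < tau 6 r s := tau_pos hr 6 ⟨hs.1, hs.2.le⟩
  have h1 := cyl hr hN hs hs1
  have hs0 := hs.1
  have hpos : 0 < 1 - s ^ 2 + 3 / 5 * s ^ 4 - s ^ 6 / 7 := by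
    have : s ^ 2 ≤ 1 / 2 := by nlinarith
    nlinarith [sq_nonneg (s ^ 2), pow_pos hs0 2, pow_pos hs0 4, mul_nonneg (pow_pos hs0 4).le (sub_nonneg.2 this)]
  have h2 : Real.log (tau 6 r s / s) ≤ 0.4272 + ((1 - s ^ 2 + 3 / 5 * s ^ 4 - s ^ 6 / 7) - 1) := by
    have h3 : tau 6 r s / s ≤ (7664501 / 5000000) * (1 - s ^ 2 + 3 / 5 * s ^ 4 - s ^ 6 / 7) := by
      rw [div_le_iff₀ hs0]
      calc tau 6 r s ≤ _ := h1
        _ = _ := by ring
    have h4 : ((7664501 / 5000000) : ℝ) ≤ Real.exp 0.4272 := by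
      have := Real.sum_le_exp_of_nonneg (show (0 : ℝ) ≤ 0.4272 by norm_num) 7
      simp only [Finset.sum_range_succ, Finset.sum_range_zero, Nat.factorial] at this
      norm_num at this ⊢
      linarith
    have h5 : Real.log ((7664501 / 5000000) * (1 - s ^ 2 + 3 / 5 * s ^ 4 - s ^ 6 / 7)) ≤
        0.4272 + ((1 - s ^ 2 + 3 / 5 * s ^ 4 - s ^ 6 / 7) - 1) := by
      rw [Real.log_mul (by norm_num) hpos.ne']
      have h6 := Real.log_le_sub_one_of_pos hpos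
      have h7 : Real.log ((7664501 / 5000000)) ≤ 0.4272 := by
        calc Real.log ((7664501 / 5000000)) ≤ Real.log (Real.exp 0.4272) :=
              Real.log_le_log (by norm_num) h4
          _ = _ := Real.log_exp _
      linarith
    exact (Real.log_le_log (div_pos hT hs0) h3).trans h5
  rw [ll_eq hs0]
  have hc2 : cc s ^ 2 = 1 - s ^ 2 := cs_sq ⟨hs.1.le, hs.2.le⟩
  have hc0 : 0 ≤ cc s := Real.sqrt_nonneg _
  have hc1 : cc s ≤ 1 - s ^ 2 / 2 := by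
    have h8 : 0 ≤ 1 - s ^ 2 / 2 := by nlinarith [hs.2]
    refine abs_le_of_sq_le_sq' ?_ h8 |>.2
    rw [hc2]
    nlinarith [sq_nonneg (s ^ 2)]
  rw [hc2]
  set A := 0.4272 + ((1 - s ^ 2 + 3 / 5 * s ^ 4 - s ^ 6 / 7) - 1) with hA
  have h9 : Real.log (tau 6 r s / s) * (1 + cc s) ≤ A * (1 + cc s) :=
    mul_le_mul_of_nonneg_right h2 (by linarith)
  have hu1 : s ^ 2 ≤ 0.28 := by nlinarith
  have hu0 : 0 ≤ s ^ 2 := by positivity
  rcases le_or_gt 0 A with hA0 | hA0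
  · have h10 : A * (1 + cc s) ≤ A * (1 + (1 - s ^ 2 / 2)) := mul_le_mul_of_nonneg_left (by linarith) hA0
    have h11 : A * (1 + (1 - s ^ 2 / 2)) ≤ 7 / 8 * (1 - s ^ 2) := by
      rw [hA]
      have : s ^ 4 = (s ^ 2) ^ 2 := by ring
      have h6' : s ^ 6 = (s ^ 2) ^ 3 := by ring
      rw [this, h6']
      set u := s ^ 2
      nlinarith [mul_nonneg hu0 (sub_nonneg.2 hu1), mul_nonneg (mul_nonneg hu0 hu0) (sub_nonneg.2 hu1),
        pow_nonneg hu0 3, pow_nonneg hu0 4]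
    linarith
  · have h10 : A * (1 + cc s) ≤ 0 := mul_nonpos_of_nonpos_of_nonneg hA0.le (by linarith)
    nlinarith

lemma start {r : ℝ → ℝ} (hr : Prof r) (hN : NleB 6 r) : tau 6 r (28 / 53) ≤ (12383 / 20000) := by
  refine (cyl hr hN (by norm_num) (by norm_num)).trans ?_
  norm_num

lemma cone {r : ℝ → ℝ} (hr : Prof r) (hN : NleB 6 r) {b τ : ℝ} (hb : (28 / 53) ≤ b) (hb1 : b ≤ 1)
    (h : ((1 - (1 - (61 / 100)) * τ) ^ 7 - (61 / 100) ^ 7) * (16 / 35) ≤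
      (16 / 35 - (b - b ^ 3 + 3 / 5 * b ^ 5 - b ^ 7 / 7)) * (1 - (61 / 100) ^ 7)) : tau 6 r b ≤ τ := by
  have hs1 : (0 : ℝ) < (28 / 53) := by norm_num
  refine tau_le_of_cone hr (n := 6) (by norm_num) (e := (61 / 100)) (by norm_num) (by norm_num) hs1 hb hb1
    (start hr hN) (by norm_num) ?_ ?_
  · rw [hB_six (by norm_num), hB_six_zero]
    norm_num
  · rw [hB_six ⟨by linarith, hb1⟩, hB_six_zero]
    exact h

lemma piece0 {r : ℝ → ℝ} (hr : Prof r) (hN : NleB 6 r) {s : ℝ} (hs : s ∈ Icc ((28 / 53) : ℝ) (3 / 5))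
    (hs1 : s ≤ 93 / 100) : ll 6 r s * (1 + cc s) ≤ 7 / 8 * cc s ^ 2 := by
  refine ll_piece hr (by norm_num) (by norm_num) (by norm_num) hs hs1
    (cone hr hN (b := (3 / 5)) (τ := (37153 / 50000)) (by norm_num) (by norm_num) (by norm_num)) ?_
  exact Vr_ge (c := (45 / 53)) (by norm_num) (by norm_num) (by norm_num) (by norm_num) (by norm_num)

lemma piece1 {r : ℝ → ℝ} (hr : Prof r) (hN : NleB 6 r) {s : ℝ} (hs : s ∈ Icc ((3 / 5) : ℝ) (48 / 73))
    (hs1 : s ≤ 93 / 100) : ll 6 r s * (1 + cc s) ≤ 7 / 8 * cc s ^ 2 := by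
  refine ll_piece hr (by norm_num) (by norm_num) (by norm_num) hs hs1
    (cone hr hN (b := (48 / 73)) (τ := (40947 / 50000)) (by norm_num) (by norm_num) (by norm_num)) ?_
  exact Vr_ge (c := (4 / 5)) (by norm_num) (by norm_num) (by norm_num) (by norm_num) (by norm_num)

lemma piece2 {r : ℝ → ℝ} (hr : Prof r) (hN : NleB 6 r) {s : ℝ} (hs : s ∈ Icc ((48 / 73) : ℝ) (396 / 565))
    (hs1 : s ≤ 93 / 100) : ll 6 r s * (1 + cc s) ≤ 7 / 8 * cc s ^ 2 := by
  refine ll_piece hr (by norm_num) (by norm_num) (by norm_num) hs hs1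
    (cone hr hN (b := (396 / 565)) (τ := (21821 / 25000)) (by norm_num) (by norm_num) (by norm_num)) ?_
  exact Vr_ge (c := (55 / 73)) (by norm_num) (by norm_num) (by norm_num) (by norm_num) (by norm_num)

lemma piece3 {r : ℝ → ℝ} (hr : Prof r) (hN : NleB 6 r) {s : ℝ} (hs : s ∈ Icc ((396 / 565) : ℝ) (460 / 629))
    (hs1 : s ≤ 93 / 100) : ll 6 r s * (1 + cc s) ≤ 7 / 8 * cc s ^ 2 := by
  refine ll_piece hr (by norm_num) (by norm_num) (by norm_num) hs hs1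
    (cone hr hN (b := (460 / 629)) (τ := (90883 / 100000)) (by norm_num) (by norm_num) (by norm_num)) ?_
  exact Vr_ge (c := (403 / 565)) (by norm_num) (by norm_num) (by norm_num) (by norm_num) (by norm_num)

lemma piece4 {r : ℝ → ℝ} (hr : Prof r) (hN : NleB 6 r) {s : ℝ} (hs : s ∈ Icc ((460 / 629) : ℝ) (55 / 73))
    (hs1 : s ≤ 93 / 100) : ll 6 r s * (1 + cc s) ≤ 7 / 8 * cc s ^ 2 := by
  refine ll_piece hr (by norm_num) (by norm_num) (by norm_num) hs hs1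
    (cone hr hN (b := (55 / 73)) (τ := (93153 / 100000)) (by norm_num) (by norm_num) (by norm_num)) ?_
  exact Vr_ge (c := (429 / 629)) (by norm_num) (by norm_num) (by norm_num) (by norm_num) (by norm_num)

lemma piece5 {r : ℝ → ℝ} (hr : Prof r) (hN : NleB 6 r) {s : ℝ} (hs : s ∈ Icc ((55 / 73) : ℝ) (272 / 353))
    (hs1 : s ≤ 93 / 100) : ll 6 r s * (1 + cc s) ≤ 7 / 8 * cc s ^ 2 := by
  refine ll_piece hr (by norm_num) (by norm_num) (by norm_num) hs hs1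
    (cone hr hN (b := (272 / 353)) (τ := (47329 / 50000)) (by norm_num) (by norm_num) (by norm_num)) ?_
  exact Vr_ge (c := (48 / 73)) (by norm_num) (by norm_num) (by norm_num) (by norm_num) (by norm_num)

lemma piece6 {r : ℝ → ℝ} (hr : Prof r) (hN : NleB 6 r) {s : ℝ} (hs : s ∈ Icc ((272 / 353) : ℝ) (1056 / 1345))
    (hs1 : s ≤ 93 / 100) : ll 6 r s * (1 + cc s) ≤ 7 / 8 * cc s ^ 2 := by
  refine ll_piece hr (by norm_num) (by norm_num) (by norm_num) hs hs1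
    (cone hr hN (b := (1056 / 1345)) (τ := (95737 / 100000)) (by norm_num) (by norm_num) (by norm_num)) ?_
  exact Vr_ge (c := (225 / 353)) (by norm_num) (by norm_num) (by norm_num) (by norm_num) (by norm_num)

lemma piece7 {r : ℝ → ℝ} (hr : Prof r) (hN : NleB 6 r) {s : ℝ} (hs : s ∈ Icc ((1056 / 1345) : ℝ) (4 / 5))
    (hs1 : s ≤ 93 / 100) : ll 6 r s * (1 + cc s) ≤ 7 / 8 * cc s ^ 2 := by
  refine ll_piece hr (by norm_num) (by norm_num) (by norm_num) hs hs1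
    (cone hr hN (b := (4 / 5)) (τ := (48297 / 50000)) (by norm_num) (by norm_num) (by norm_num)) ?_
  exact Vr_ge (c := (833 / 1345)) (by norm_num) (by norm_num) (by norm_num) (by norm_num) (by norm_num)

lemma piece8 {r : ℝ → ℝ} (hr : Prof r) (hN : NleB 6 r) {s : ℝ} (hs : s ∈ Icc ((4 / 5) : ℝ) (435 / 533))
    (hs1 : s ≤ 93 / 100) : ll 6 r s * (1 + cc s) ≤ 7 / 8 * cc s ^ 2 := by
  refine ll_piece hr (by norm_num) (by norm_num) (by norm_num) hs hs1
    (cone hr hN (b := (435 / 533)) (τ := (97407 / 100000)) (by norm_num) (by norm_num) (by norm_num)) ?_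
  exact Vr_ge (c := (3 / 5)) (by norm_num) (by norm_num) (by norm_num) (by norm_num) (by norm_num)

lemma piece9 {r : ℝ → ℝ} (hr : Prof r) (hN : NleB 6 r) {s : ℝ} (hs : s ∈ Icc ((435 / 533) : ℝ) (840 / 1009))
    (hs1 : s ≤ 93 / 100) : ll 6 r s * (1 + cc s) ≤ 7 / 8 * cc s ^ 2 := by
  refine ll_piece hr (by norm_num) (by norm_num) (by norm_num) hs hs1
    (cone hr hN (b := (840 / 1009)) (τ := (12277 / 12500)) (by norm_num) (by norm_num) (by norm_num)) ?_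
  exact Vr_ge (c := (308 / 533)) (by norm_num) (by norm_num) (by norm_num) (by norm_num) (by norm_num)

lemma piece10 {r : ℝ → ℝ} (hr : Prof r) (hN : NleB 6 r) {s : ℝ} (hs : s ∈ Icc ((840 / 1009) : ℝ) (288 / 337))
    (hs1 : s ≤ 93 / 100) : ll 6 r s * (1 + cc s) ≤ 7 / 8 * cc s ^ 2 := by
  refine ll_piece hr (by norm_num) (by norm_num) (by norm_num) hs hs1
    (cone hr hN (b := (288 / 337)) (τ := (24739 / 25000)) (by norm_num) (by norm_num) (by norm_num)) ?_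
  exact Vr_ge (c := (559 / 1009)) (by norm_num) (by norm_num) (by norm_num) (by norm_num) (by norm_num)

lemma piece11 {r : ℝ → ℝ} (hr : Prof r) (hN : NleB 6 r) {s : ℝ} (hs : s ∈ Icc ((288 / 337) : ℝ) (77 / 85))
    (hs1 : s ≤ 93 / 100) : ll 6 r s * (1 + cc s) ≤ 7 / 8 * cc s ^ 2 := by
  refine ll_piece hr (by norm_num) (by norm_num) (by norm_num) hs hs1
    (cone hr hN (b := (77 / 85)) (τ := (49909 / 50000)) (by norm_num) (by norm_num) (by norm_num)) ?_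
  exact Vr_ge (c := (175 / 337)) (by norm_num) (by norm_num) (by norm_num) (by norm_num) (by norm_num)

end LT7

/-- **LT7**: `l (1+c) ≤ (7/8) c²` in dimension 7 -/
theorem ll_seven {r : ℝ → ℝ} (hr : Prof r) (hN : NleB 6 r) {s : ℝ} (hs : s ∈ Ioo (0 : ℝ) 1) :
    ll 6 r s * (1 + cc s) ≤ 7 / 8 * cc s ^ 2 := by
  rcases le_or_gt s (28 / 53) with h0 | h0
  · exact LT7.near hr hN hs h0
  rcases le_or_gt s (3 / 5) with h1 | h1
  · exact LT7.piece0 hr hN ⟨h0.le, h1⟩ (by linarith)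
  rcases le_or_gt s (48 / 73) with h2 | h2
  · exact LT7.piece1 hr hN ⟨h1.le, h2⟩ (by linarith)
  rcases le_or_gt s (396 / 565) with h3 | h3
  · exact LT7.piece2 hr hN ⟨h2.le, h3⟩ (by linarith)
  rcases le_or_gt s (460 / 629) with h4 | h4
  · exact LT7.piece3 hr hN ⟨h3.le, h4⟩ (by linarith)
  rcases le_or_gt s (55 / 73) with h5 | h5
  · exact LT7.piece4 hr hN ⟨h4.le, h5⟩ (by linarith)
  rcases le_or_gt s (272 / 353) with h6 | h6
  · exact LT7.piece5 hr hN ⟨h5.le, h6⟩ (by linarith)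
  rcases le_or_gt s (1056 / 1345) with h7 | h7
  · exact LT7.piece6 hr hN ⟨h6.le, h7⟩ (by linarith)
  rcases le_or_gt s (4 / 5) with h8 | h8
  · exact LT7.piece7 hr hN ⟨h7.le, h8⟩ (by linarith)
  rcases le_or_gt s (435 / 533) with h9 | h9
  · exact LT7.piece8 hr hN ⟨h8.le, h9⟩ (by linarith)
  rcases le_or_gt s (840 / 1009) with h10 | h10
  · exact LT7.piece9 hr hN ⟨h9.le, h10⟩ (by linarith)
  rcases le_or_gt s (288 / 337) with h11 | h11
  · exact LT7.piece10 hr hN ⟨h10.le, h11⟩ (by linarith)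
  rcases le_or_gt s (168 / 193) with h12 | h12
  · exact LT7.piece11 hr hN ⟨h11.le, by linarith⟩ (by linarith)
  · have hc2 : cc s ^ 2 = 1 - s ^ 2 := cs_sq ⟨hs.1.le, hs.2.le⟩
    have hc0 : 0 ≤ cc s := Real.sqrt_nonneg _
    refine ll_end hr hs (c₀ := 95 / 193) ?_ (by norm_num) (by norm_num)
    refine abs_le_of_sq_le_sq' ?_ (by norm_num) |>.2
    rw [hc2]
    nlinarith

end Crest.Agent.R230
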