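import Crest.Agent.R230.WRed

/-!
# Row 230: bounds for `cR` (helper237)

`cR s l = c (Φ(s e^l) - Φ(s)) + l (1-c)/(1+c)`, `c = √(1-s²)`, `Y = s²/c²`.
* `cR_ge_neg`  : `l ≤ 0` : `cR ≥ - Y l²/(1+c)²`;
* `cR_ge_neg'` : `l ≤ 0` : `cR ≥ - Y (1+Y) l²/4`;
* `cR_ge_E` : `0 ≤ l`, `s e^l ≤ 1` : `cR ≥ s²/(1+c)² (l - E/2 - (1+2c)/2 Y E²)`, `E = e^{2l}-1`;
* `cR_ge_pos` : `0 ≤ l ≤ 11/20`, `s e^l ≤ 1` : `cR ≥ - Y l² (3/8 + 5 Y)`.
-/

set_option autoImplicit false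

open MeasureTheory Set Filter Topology
open scoped Pointwise ENNReal

namespace Crest.Agent.R230.WR

/-- the closed form of `cR` -/
lemma cR_core {c v s2 E l : ℝ} (hc : 0 < c) (hcs : s2 + c ^ 2 = 1) (hv : 0 ≤ v)
    (hv2 : v ^ 2 = c ^ 2 - s2 * E) :
    c * (v / (1 + v) - c / (1 + c)) + l * ((1 - c) / (1 + c)) =
      s2 / (1 + c) ^ 2 * (l - c * (1 + c) * E / ((c + v) * (1 + v))) := by
  have h1 : 0 < 1 + c := by linarith
  have h2 : 0 < 1 + v := by linarith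
  have h3 : 0 < c + v := by linarith
  have e1 : c * (v / (1 + v) - c / (1 + c)) = -(s2 / (1 + c) ^ 2 * (c * (1 + c) * E / ((c + v) * (1 + v)))) := by
    have : (v - c) * (c + v) = -(s2 * E) := by nlinarith
    field_simp
    linear_combination this
  have e2 : l * ((1 - c) / (1 + c)) = s2 / (1 + c) ^ 2 * l := by
    have : s2 = (1 - c) * (1 + c) := by nlinarith
    rw [this]
    field_simp
  rw [e1, e2]
  ring

lemma cR_eq {s l : ℝ} (hs : s ∈ Ioo (0 : ℝ) 1) (hT : s * Real.exp l ≤ 1) :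
    cR s l = s ^ 2 / (1 + cc s) ^ 2 * (l - cc s * (1 + cc s) * (Real.exp (2 * l) - 1) /
      ((cc s + cc (s * Real.exp l)) * (1 + cc (s * Real.exp l)))) ∧
      cc (s * Real.exp l) ^ 2 = cc s ^ 2 - s ^ 2 * (Real.exp (2 * l) - 1) := by
  have hc := cc_pos' hs
  have hc2 := cc_sq' hs
  have hT0 : 0 ≤ s * Real.exp l := mul_nonneg hs.1.le (Real.exp_pos _).le
  have hv2 : cc (s * Real.exp l) ^ 2 = cc s ^ 2 - s ^ 2 * (Real.exp (2 * l) - 1) := by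
    rw [cc_sq ⟨by linarith, hT⟩, hc2, two_mul, Real.exp_add]
    ring
  refine ⟨?_, hv2⟩
  unfold cR Phi
  exact cR_core hc (by linarith) (cc_nonneg _) hv2

lemma Y_eq_cc {s : ℝ} (hs : s ∈ Ioo (0 : ℝ) 1) : Y s = s ^ 2 / cc s ^ 2 := by
  unfold Y; rw [cc_sq' hs]

/-- `cR ≥ - Y l²/(1+c)²` for `l ≤ 0` -/
theorem cR_ge_neg {s l : ℝ} (hs : s ∈ Ioo (0 : ℝ) 1) (hl : l ≤ 0) :
    -(Y s / (1 + cc s) ^ 2 * l ^ 2) ≤ cR s l := by
  have hT : s * Real.exp l ≤ 1 := by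
    have := Real.exp_le_one_iff.2 hl
    nlinarith [hs.1, hs.2, Real.exp_pos l]
  obtain ⟨h, hv2⟩ := cR_eq hs hT
  rw [h, Y_eq_cc hs]
  have hc := cc_pos' hs
  have hc2 := cc_sq' hs
  have hv := cc_nonneg (s * Real.exp l)
  set c := cc s with hcdef
  set v := cc (s * Real.exp l) with hvdef
  set F : ℝ := 1 - Real.exp (2 * l) with hF
  have hE : Real.exp (2 * l) - 1 = -F := by rw [hF]; ring
  rw [hE] at hv2 ⊢
  have hF0 : 0 ≤ F := by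
    have := Real.exp_le_one_iff.2 (show 2 * l ≤ 0 by linarith)
    linarith
  have hF1 : F ≤ -2 * l := by
    have := Real.add_one_le_exp (2 * l)
    linarith
  have hF2 : -2 * l - 2 * l ^ 2 ≤ F := by
    -- e^{x} ≤ 1 + x + x²/2 for x ≤ 0
    have h1 : Real.exp (2 * l) ≤ 1 + 2 * l + (2 * l) ^ 2 / 2 := by
      have hq := Real.quadratic_le_exp_of_nonneg (x := -(2 * l)) (by linarith)
      have hpos : 0 < 1 + -(2 * l) + (-(2 * l)) ^ 2 / 2 := by nlinarith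
      have h2 : Real.exp (2 * l) = (Real.exp (-(2 * l)))⁻¹ := by
        rw [Real.exp_neg, inv_inv]
      have h3 : Real.exp (2 * l) ≤ (1 + -(2 * l) + (-(2 * l)) ^ 2 / 2)⁻¹ := by
        rw [h2]; exact inv_anti₀ hpos hq
      refine h3.trans ?_
      rw [inv_le_iff_one_le_mul₀ hpos]
      nlinarith [sq_nonneg (l ^ 2)]
    linarith [h1]
  have hvc : c ≤ v := by nlinarith [mul_nonneg (sq_nonneg s) hF0]
  have hs2 : 0 < s ^ 2 := by have := hs.1; positivity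
  -- key inequality
  have hkey : (1 - (v ^ 2 - c ^ 2) / (2 * c ^ 2)) / 2 ≤ c * (1 + c) / ((c + v) * (1 + v)) := by
    have hp : 0 < (c + v) * (1 + v) := by positivity
    rw [le_div_iff₀ hp]
    have hcle : c ≤ 1 := cc_le_one s
    have e : (1 - (v ^ 2 - c ^ 2) / (2 * c ^ 2)) / 2 * ((c + v) * (1 + v)) =
        (3 * c ^ 2 - v ^ 2) * ((c + v) * (1 + v)) / (4 * c ^ 2) := by
      field_simp; ring
    rw [e, div_le_iff₀ (by positivity)]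
    obtain ⟨u, hu⟩ : ∃ u, v = c + u := ⟨v - c, by ring⟩
    have hu0 : 0 ≤ u := by linarith
    rw [hu]
    have : c * (1 + c) * (4 * c ^ 2) - (3 * c ^ 2 - (c + u) ^ 2) * ((c + (c + u)) * (1 + (c + u))) =
        u * (c ^ 2 * (2 * (1 - c)) + u * (c * (4 + 6 * c)) + u ^ 2 * (1 + 5 * c) + u ^ 3) := by ring
    have h2 : 0 ≤ u * (c ^ 2 * (2 * (1 - c)) + u * (c * (4 + 6 * c)) + u ^ 2 * (1 + 5 * c) + u ^ 3) := by
      have : 0 ≤ 1 - c := by linarith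
      positivity
    linarith
  have hcoef : 0 ≤ s ^ 2 / (1 + c) ^ 2 := by positivity
  have hmain : -(l ^ 2 / c ^ 2) ≤ l - c * (1 + c) * (-F) / ((c + v) * (1 + v)) := by
    have e1 : l - c * (1 + c) * (-F) / ((c + v) * (1 + v)) = l + F * (c * (1 + c) / ((c + v) * (1 + v))) := by
      ring
    rw [e1]
    have h1 := mul_le_mul_of_nonneg_left hkey hF0
    have e2 : v ^ 2 - c ^ 2 = s ^ 2 * F := by rw [hv2]; ring
    rw [e2] at h1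
    have h2 : F * ((1 - s ^ 2 * F / (2 * c ^ 2)) / 2) = F / 2 - s ^ 2 / c ^ 2 * F ^ 2 / 4 := by
      field_simp
      ring
    rw [h2] at h1
    have h3 : s ^ 2 / c ^ 2 * F ^ 2 / 4 ≤ s ^ 2 / c ^ 2 * l ^ 2 := by
      have : F ^ 2 ≤ (-2 * l) ^ 2 := pow_le_pow_left₀ hF0 hF1 2
      have hsc : 0 ≤ s ^ 2 / c ^ 2 := by positivity
      nlinarith [mul_le_mul_of_nonneg_left this hsc]
    have h4 : l ^ 2 / c ^ 2 = l ^ 2 + s ^ 2 / c ^ 2 * l ^ 2 := by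
      have : s ^ 2 = 1 - c ^ 2 := by linarith
      rw [this]
      field_simp
      ring
    rw [h4]
    linarith
  calc -(s ^ 2 / c ^ 2 / (1 + c) ^ 2 * l ^ 2) = s ^ 2 / (1 + c) ^ 2 * (-(l ^ 2 / c ^ 2)) := by ring
    _ ≤ _ := mul_le_mul_of_nonneg_left hmain hcoef

/-- `cR ≥ - Y (1+Y) l²/4` for `l ≤ 0` -/
theorem cR_ge_neg' {s l : ℝ} (hs : s ∈ Ioo (0 : ℝ) 1) (hl : l ≤ 0) :
    -(Y s * (1 + Y s) / 4 * l ^ 2) ≤ cR s l := by
  refine le_trans ?_ (cR_ge_neg hs hl)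
  have hc := cc_pos' hs
  have hc2 := cc_sq' hs
  have hY := Y_nonneg hs
  have h1 : 1 + Y s = 1 / cc s ^ 2 := by
    rw [Y_eq_cc hs]
    have : s ^ 2 = 1 - cc s ^ 2 := by linarith
    rw [this]
    field_simp
    ring
  have h2 : 1 / (1 + cc s) ^ 2 ≤ (1 + Y s) / 4 := by
    rw [h1, div_div, div_le_div_iff₀ (by positivity) (by positivity)]
    have := cc_le_one s
    nlinarith
  have h3 : Y s / (1 + cc s) ^ 2 * l ^ 2 = (1 / (1 + cc s) ^ 2) * (Y s * l ^ 2) := by ring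
  have h4 : Y s * (1 + Y s) / 4 * l ^ 2 = ((1 + Y s) / 4) * (Y s * l ^ 2) := by ring
  rw [h3, h4]
  have := mul_le_mul_of_nonneg_right h2 (mul_nonneg hY (sq_nonneg l))
  linarith

/-- `cR ≥ s²/(1+c)² (l - E/2 - (1+2c)/2 Y E²)` for `0 ≤ l`, `s e^l ≤ 1` -/
theorem cR_ge_E {s l : ℝ} (hs : s ∈ Ioo (0 : ℝ) 1) (hl : 0 ≤ l) (hT : s * Real.exp l ≤ 1) :
    s ^ 2 / (1 + cc s) ^ 2 * (l - (Real.exp (2 * l) - 1) / 2 -
      (1 + 2 * cc s) / 2 * Y s * (Real.exp (2 * l) - 1) ^ 2) ≤ cR s l := by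
  obtain ⟨h, hv2⟩ := cR_eq hs hT
  rw [h, Y_eq_cc hs]
  have hc := cc_pos' hs
  have hc2 := cc_sq' hs
  have hv := cc_nonneg (s * Real.exp l)
  set c := cc s with hcdef
  set v := cc (s * Real.exp l) with hvdef
  set E : ℝ := Real.exp (2 * l) - 1 with hE
  have hE0 : 0 ≤ E := by
    have := Real.one_le_exp (show 0 ≤ 2 * l by linarith)
    linarith
  have hvc : v ≤ c := by nlinarith [mul_nonneg (sq_nonneg s) hE0]
  have hcoef : 0 ≤ s ^ 2 / (1 + c) ^ 2 := by positivity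
  refine mul_le_mul_of_nonneg_left ?_ hcoef
  have hkey : c * (1 + c) / ((c + v) * (1 + v)) ≤ (1 + (1 + 2 * c) * ((c ^ 2 - v ^ 2) / c ^ 2)) / 2 := by
    have hp : 0 < (c + v) * (1 + v) := by positivity
    rw [div_le_iff₀ hp]
    have e : (1 + (1 + 2 * c) * ((c ^ 2 - v ^ 2) / c ^ 2)) / 2 * ((c + v) * (1 + v)) =
        (c ^ 2 + (1 + 2 * c) * (c ^ 2 - v ^ 2)) * ((c + v) * (1 + v)) / (2 * c ^ 2) := by
      field_simp
    rw [e, le_div_iff₀ (by positivity)]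
    have : (c ^ 2 + (1 + 2 * c) * (c ^ 2 - v ^ 2)) * ((c + v) * (1 + v)) - c * (1 + c) * (2 * c ^ 2) =
        v * (c - v) * (2 * c * (1 + c) ^ 2 + (1 + 2 * c) ^ 2 * v + (1 + 2 * c) * v ^ 2) := by ring
    have h2 : 0 ≤ v * (c - v) * (2 * c * (1 + c) ^ 2 + (1 + 2 * c) ^ 2 * v + (1 + 2 * c) * v ^ 2) := by
      have : 0 ≤ c - v := by linarith
      positivity
    linarith
  have e1 : c * (1 + c) * E / ((c + v) * (1 + v)) = E * (c * (1 + c) / ((c + v) * (1 + v))) := by ring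
  rw [e1]
  have h1 := mul_le_mul_of_nonneg_left hkey hE0
  have e2 : c ^ 2 - v ^ 2 = s ^ 2 * E := by rw [hv2]; ring
  rw [e2] at h1
  have h2 : E * ((1 + (1 + 2 * c) * (s ^ 2 * E / c ^ 2)) / 2) =
      E / 2 + (1 + 2 * c) / 2 * (s ^ 2 / c ^ 2) * E ^ 2 := by ring
  rw [h2] at h1
  linarith

/-- `e^{2l} - 1 ≤ 2 l + 3 l²` on `[0, 11/20]` -/
lemma exp_two_le {l : ℝ} (hl : 0 ≤ l) (hl2 : l ≤ 11 / 20) : Real.exp (2 * l) - 1 ≤ 2 * l + 3 * l ^ 2 := by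
  have h := Real.exp_bound' hl (by linarith) (n := 4) (by norm_num)
  have h1 : Real.exp l ≤ 1 + l + l ^ 2 / 2 + l ^ 3 / 6 + 5 * l ^ 4 / 96 := by
    refine h.trans (le_of_eq ?_)
    simp [Finset.sum_range_succ, Nat.factorial]
    ring
  have h0 := (Real.exp_pos l).le
  have h2 : Real.exp (2 * l) = Real.exp l ^ 2 := by rw [two_mul, Real.exp_add, sq]
  have h3 : Real.exp l ^ 2 ≤ (1 + l + l ^ 2 / 2 + l ^ 3 / 6 + 5 * l ^ 4 / 96) ^ 2 :=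
    pow_le_pow_left₀ h0 h1 2
  have h4 : (1 + l + l ^ 2 / 2 + l ^ 3 / 6 + 5 * l ^ 4 / 96) ^ 2 ≤ 1 + 2 * l + 3 * l ^ 2 := by
    have e : 1 + 2 * l + 3 * l ^ 2 - (1 + l + l ^ 2 / 2 + l ^ 3 / 6 + 5 * l ^ 4 / 96) ^ 2 =
        l ^ 2 * (1 - 4 / 3 * l - 11 / 16 * l ^ 2 - 13 / 48 * l ^ 3 - 23 / 288 * l ^ 4 - 5 / 288 * l ^ 5 -
          25 / 9216 * l ^ 6) := by ring
    have hp : ∀ k : ℕ, l ^ k ≤ (11 / 20) ^ k := fun k => pow_le_pow_left₀ hl hl2 k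
    have hh : 0 ≤ 1 - 4 / 3 * l - 11 / 16 * l ^ 2 - 13 / 48 * l ^ 3 - 23 / 288 * l ^ 4 - 5 / 288 * l ^ 5 -
          25 / 9216 * l ^ 6 := by
      have a2 := hp 2
      have a3 := hp 3
      have a4 := hp 4
      have a5 := hp 5
      have a6 := hp 6
      norm_num at a2 a3 a4 a5 a6
      linarith
    have := mul_nonneg (sq_nonneg l) hh
    linarith
  linarith

/-- `cR ≥ - Y l² (3/8 + 5 Y)` for `0 ≤ l ≤ 11/20`, `s e^l ≤ 1` -/
theorem cR_ge_pos {s l : ℝ} (hs : s ∈ Ioo (0 : ℝ) 1) (hl : 0 ≤ l) (hl2 : l ≤ 11 / 20)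
    (hT : s * Real.exp l ≤ 1) :
    -(Y s * l ^ 2 * (3 / 8 + 5 * Y s)) ≤ cR s l := by
  refine le_trans ?_ (cR_ge_E hs hl hT)
  have hc := cc_pos' hs
  have hc2 := cc_sq' hs
  have hc1 := cc_le_one s
  have hY := Y_nonneg hs
  have hE := exp_two_le hl hl2
  have hE0 : 0 ≤ Real.exp (2 * l) - 1 := by
    have := Real.one_le_exp (show 0 ≤ 2 * l by linarith)
    linarith
  set E : ℝ := Real.exp (2 * l) - 1 with hEd
  set c := cc s with hcdef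
  have hEl : E ≤ 73 / 20 * l := by nlinarith
  have hE2 : E ^ 2 ≤ (73 / 20 * l) ^ 2 := pow_le_pow_left₀ hE0 hEl 2
  have hsY : s ^ 2 = Y s * c ^ 2 := by
    rw [Y_eq_cc hs, ← hcdef, div_mul_cancel₀ _ (by positivity)]
  have e : s ^ 2 / (1 + c) ^ 2 * (l - E / 2 - (1 + 2 * c) / 2 * Y s * E ^ 2) =
      -(Y s * (c ^ 2 / (1 + c) ^ 2 * (E / 2 - l) + (c ^ 2 * (1 + 2 * c) / (1 + c) ^ 2) / 2 * (Y s * E ^ 2))) := by
    rw [hsY]; ring
  rw [e, neg_le_neg_iff, mul_assoc (Y s)]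
  refine mul_le_mul_of_nonneg_left ?_ hY
  have h1 : c ^ 2 / (1 + c) ^ 2 ≤ 1 / 4 := by
    rw [div_le_div_iff₀ (by positivity) (by norm_num)]
    nlinarith
  have h2 : c ^ 2 * (1 + 2 * c) / (1 + c) ^ 2 ≤ 3 / 4 := by
    rw [div_le_div_iff₀ (by positivity) (by norm_num)]
    have : 3 * (1 + c) ^ 2 - c ^ 2 * (1 + 2 * c) * 4 = (1 - c) * (3 + 9 * c + 8 * c ^ 2) := by ring
    have h3 : 0 ≤ (1 - c) * (3 + 9 * c + 8 * c ^ 2) := mul_nonneg (by linarith) (by positivity)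
    linarith
  have h3 : c ^ 2 / (1 + c) ^ 2 * (E / 2 - l) ≤ 3 / 8 * l ^ 2 := by
    have hl3 : E / 2 - l ≤ 3 / 2 * l ^ 2 := by linarith
    have h0 : 0 ≤ c ^ 2 / (1 + c) ^ 2 := by positivity
    calc c ^ 2 / (1 + c) ^ 2 * (E / 2 - l) ≤ c ^ 2 / (1 + c) ^ 2 * (3 / 2 * l ^ 2) :=
          mul_le_mul_of_nonneg_left hl3 h0
      _ ≤ 1 / 4 * (3 / 2 * l ^ 2) := mul_le_mul_of_nonneg_right h1 (by positivity)
      _ = _ := by ring
  have h4 : (c ^ 2 * (1 + 2 * c) / (1 + c) ^ 2) / 2 * (Y s * E ^ 2) ≤ 5 * (Y s * l ^ 2) := by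
    have h5 : Y s * E ^ 2 ≤ Y s * (73 / 20 * l) ^ 2 := mul_le_mul_of_nonneg_left hE2 hY
    have h6 : 0 ≤ Y s * E ^ 2 := mul_nonneg hY (sq_nonneg _)
    calc (c ^ 2 * (1 + 2 * c) / (1 + c) ^ 2) / 2 * (Y s * E ^ 2) ≤ (3 / 4) / 2 * (Y s * E ^ 2) :=
          mul_le_mul_of_nonneg_right (by linarith) h6
      _ ≤ (3 / 4) / 2 * (Y s * (73 / 20 * l) ^ 2) := mul_le_mul_of_nonneg_left h5 (by norm_num)
      _ ≤ 5 * (Y s * l ^ 2) := by nlinarith [mul_nonneg hY (sq_nonneg l)]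
  linarith

end Crest.Agent.R230.WR
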