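import Crest.Agent.R230.PLargeAux
import Crest.Agent.R230.CRbound

/-!
# Row 230: positivity of the certificate density in the uncapped region, Lean `n ≥ 16` (N ≥ 17)
-/

set_option autoImplicit false

open Set

namespace Crest.Agent.R230.PL

open Crest.Agent.R230 Crest.Agent.R230.WR

lemma disc {A B C x y : ℝ} (hA : 0 < A) (h : B ^ 2 ≤ 4 * A * C) :
    0 ≤ A * x ^ 2 - B * x * y + C * y ^ 2 := by
  have h1 : 0 ≤ (4 * A) * (A * x ^ 2 - B * x * y + C * y ^ 2) := by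
    have e : (4 * A) * (A * x ^ 2 - B * x * y + C * y ^ 2) =
        (2 * A * x - B * y) ^ 2 + (4 * A * C - B ^ 2) * y ^ 2 := by ring
    rw [e]
    have := mul_nonneg (sub_nonneg.2 h) (sq_nonneg y)
    have := sq_nonneg (2 * A * x - B * y)
    linarith
  exact nonneg_of_mul_nonneg_right h1 (by linarith)

lemma aq_ge1 {s : ℝ} (hs : s ∈ Ioo (0 : ℝ) 1) : 1 + 3 / 4 * (1 - cc s ^ 2) ≤ aq s := by
  unfold aq
  have hc := cc_pos' hs
  have hc1 := cc_le_one s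
  have h : 2 * cc s ^ 2 / (1 + cc s) ≤ 1 - 3 / 4 * (1 - cc s ^ 2) := by
    rw [div_le_iff₀ (by linarith)]
    have : (1 - 3 / 4 * (1 - cc s ^ 2)) * (1 + cc s) - 2 * cc s ^ 2 =
        (1 - cc s) ^ 2 * (1 + 3 * cc s) / 4 := by ring
    have h2 : 0 ≤ (1 - cc s) ^ 2 * (1 + 3 * cc s) / 4 := by positivity
    linarith
  linarith

lemma aq_ge2 {s : ℝ} (hs : s ∈ Ioo (0 : ℝ) 1) : 2 - 2 * cc s ^ 2 ≤ aq s := by
  unfold aq
  have hc := cc_pos' hs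
  have h : 2 * cc s ^ 2 / (1 + cc s) ≤ 2 * cc s ^ 2 := by
    apply div_le_self (by positivity) (by linarith)
  linarith

/-- `E = a - M' g - 3/20 z (1+k)`, times `D = k²+6k+6` -/
lemma E01 {k z u a : ℝ} (hk0 : 0 ≤ k) (hk1 : k ≤ 1) (hz5 : 5 * z * k ^ 2 * u ≤ 1 - z)
    (hu0 : 0 ≤ u) (hu : u ≤ 1 / 16) (ha : 1 + 3 / 4 * (1 - z) ≤ a) :
    3 / 100 * (k ^ 2 + 6 * k + 6) ≤ (a - 3 / 20 * z * (1 + k)) * (k ^ 2 + 6 * k + 6) -
      (43 / 40 + 133 / 50 * u) * ((k + 1) * (k + 3)) := by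
  have hD : 0 < k ^ 2 + 6 * k + 6 := by positivity
  have hw0 : 0 ≤ k ^ 2 * u := by positivity
  have hw1 : k ^ 2 * u ≤ 1 / 16 := by nlinarith
  have hz : z ≤ 1 - 55 / 16 * (k ^ 2 * u) := by
    have h1 : z * (1 + 5 * (k ^ 2 * u)) ≤ 1 := by linarith
    have h2 : 1 ≤ (1 - 55 / 16 * (k ^ 2 * u)) * (1 + 5 * (k ^ 2 * u)) := by nlinarith
    exact le_of_mul_le_mul_right (h1.trans h2) (by positivity)
  have h3 : 7 / 4 - (9 / 10 + 3 / 20 * k) * (1 - 55 / 16 * (k ^ 2 * u)) ≤ a - 3 / 20 * z * (1 + k) := by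
    have : (9 / 10 + 3 / 20 * k) * z ≤ (9 / 10 + 3 / 20 * k) * (1 - 55 / 16 * (k ^ 2 * u)) :=
      mul_le_mul_of_nonneg_left hz (by positivity)
    linarith
  have h4 := mul_le_mul_of_nonneg_right h3 hD.le
  obtain ⟨y, hy⟩ : ∃ y : ℝ, y = 1 - k := ⟨_, rfl⟩
  have hy0 : 0 ≤ y := by linarith
  have P0 : 0 ≤ (82 / 100 - 3 / 20 * k) * (k ^ 2 + 6 * k + 6) - 43 / 40 * ((k + 1) * (k + 3)) := by
    have e : (82 / 100 - 3 / 20 * k) * (k ^ 2 + 6 * k + 6) - 43 / 40 * ((k + 1) * (k + 3)) =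
        339/200 * y ^ 3 + 961/200 * k ^ 1 * y ^ 2 + 337/100 * k ^ 2 * y ^ 1 + 11/100 * k ^ 3 := by
      rw [hy]; ring
    rw [e]; positivity
  have P1 : 0 ≤ (82 / 100 - 3 / 20 * k + 55 / 16 * k ^ 2 * (1 / 16) * (9 / 10 + 3 / 20 * k)) *
      (k ^ 2 + 6 * k + 6) - (43 / 40 + 133 / 50 * (1 / 16)) * ((k + 1) * (k + 3)) := by
    have e : (82 / 100 - 3 / 20 * k + 55 / 16 * k ^ 2 * (1 / 16) * (9 / 10 + 3 / 20 * k)) *
      (k ^ 2 + 6 * k + 6) - (43 / 40 + 133 / 50 * (1 / 16)) * ((k + 1) * (k + 3)) =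
        957/800 * y ^ 5 + 4029/800 * k ^ 1 * y ^ 4 + 51337/6400 * k ^ 2 * y ^ 3 +
        89763/12800 * k ^ 3 * y ^ 2 + 1155/256 * k ^ 4 * y ^ 1 + 43843/25600 * k ^ 5 := by
      rw [hy]; ring
    rw [e]; positivity
  have h5 := mul_nonneg (show 0 ≤ 1 - 16 * u by linarith) P0
  have h6 := mul_nonneg (show 0 ≤ 16 * u by linarith) P1
  nlinarith [h4, h5, h6]

lemma E12 {k z u a : ℝ} (hk0 : 1 ≤ k) (hk1 : k ≤ 2) (hz5 : 5 * z * k ^ 2 * u ≤ 1 - z)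
    (hz1 : k ^ 2 * z ≤ 1) (hu0 : 0 ≤ u) (hu : u ≤ 1 / 16) (ha : 1 + 3 / 4 * (1 - z) ≤ a) :
    (783 / 10000 * k - 525 / 10000) * (k ^ 2 + 6 * k + 6) ≤
      (a - 3 / 20 * z * (1 + k)) * (k ^ 2 + 6 * k + 6) -
      (43 / 40 + 133 / 50 * u) * ((k + 1) * (k + 3)) := by
  have hk : 0 ≤ k := by linarith
  have hD : 0 < k ^ 2 + 6 * k + 6 := by positivity
  have hQ : 0 < 1 + k ^ 2 + 5 * k ^ 2 * u := by positivity
  have hzQ : z * (1 + k ^ 2 + 5 * k ^ 2 * u) ≤ 2 := by linarith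
  obtain ⟨x, hx⟩ : ∃ x : ℝ, x = k - 1 := ⟨_, rfl⟩
  obtain ⟨y, hy⟩ : ∃ y : ℝ, y = 2 - k := ⟨_, rfl⟩
  have hx0 : 0 ≤ x := by linarith
  have hy0 : 0 ≤ y := by linarith
  have P0 : 0 ≤ ((18025 / 10000 - 783 / 10000 * k) * (k ^ 2 + 6 * k + 6) -
      43 / 40 * ((k + 1) * (k + 3))) * (1 + k ^ 2) - (9 / 5 + 3 / 10 * k) * (k ^ 2 + 6 * k + 6) := by
    have e : ((18025 / 10000 - 783 / 10000 * k) * (k ^ 2 + 6 * k + 6) -
      43 / 40 * ((k + 1) * (k + 3))) * (1 + k ^ 2) - (9 / 5 + 3 / 10 * k) * (k ^ 2 + 6 * k + 6) =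
      823/2500 * y ^ 5 + 106133/5000 * x ^ 1 * y ^ 4 + 51813/500 * x ^ 2 * y ^ 3 + 1927251/10000 * x ^ 3 * y ^ 2 + 394247/2500 * x ^ 4 * y ^ 1 + 5953/125 * x ^ 5 := by
      rw [hx, hy]; ring
    rw [e]; positivity
  have P1 : 0 ≤ ((18025 / 10000 - 783 / 10000 * k) * (k ^ 2 + 6 * k + 6) -
      (43 / 40 + 133 / 50 * (1 / 16)) * ((k + 1) * (k + 3))) * (1 + k ^ 2 + 5 * k ^ 2 * (1 / 16)) -
      (9 / 5 + 3 / 10 * k) * (k ^ 2 + 6 * k + 6) := by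
    have e : ((18025 / 10000 - 783 / 10000 * k) * (k ^ 2 + 6 * k + 6) -
      (43 / 40 + 133 / 50 * (1 / 16)) * ((k + 1) * (k + 3))) * (1 + k ^ 2 + 5 * k ^ 2 * (1 / 16)) -
      (9 / 5 + 3 / 10 * k) * (k ^ 2 + 6 * k + 6) =
      125651/80000 * y ^ 5 + 1289869/40000 * x ^ 1 * y ^ 4 + 8884567/64000 * x ^ 2 * y ^ 3 + 78344237/320000 * x ^ 3 * y ^ 2 + 1939273/10000 * x ^ 4 * y ^ 1 + 182861/3200 * x ^ 5 := by
      rw [hx, hy]; ring
    rw [e]; positivity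
  have h5 := mul_nonneg (show 0 ≤ 1 - 16 * u by linarith) P0
  have h6 := mul_nonneg (show 0 ≤ 16 * u by linarith) P1
  have h7 : 0 ≤ 133 / 50 * ((k + 1) * (k + 3)) * (5 * k ^ 2) * (u * (1 / 16 - u)) := by
    have : 0 ≤ 1 / 16 - u := by linarith
    positivity
  have h8 : (9 / 5 + 3 / 10 * k) * (k ^ 2 + 6 * k + 6) ≤
      ((18025 / 10000 - 783 / 10000 * k) * (k ^ 2 + 6 * k + 6) -
      (43 / 40 + 133 / 50 * u) * ((k + 1) * (k + 3))) * (1 + k ^ 2 + 5 * k ^ 2 * u) := by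
    linear_combination h5 + h6 + h7
  have h9 : 0 ≤ ((18025 / 10000 - 783 / 10000 * k) * (k ^ 2 + 6 * k + 6) -
      (43 / 40 + 133 / 50 * u) * ((k + 1) * (k + 3)) -
      (9 / 10 + 3 / 20 * k) * z * (k ^ 2 + 6 * k + 6)) * (1 + k ^ 2 + 5 * k ^ 2 * u) := by
    have h10 : (9 / 10 + 3 / 20 * k) * (k ^ 2 + 6 * k + 6) * (z * (1 + k ^ 2 + 5 * k ^ 2 * u)) ≤
        (9 / 10 + 3 / 20 * k) * (k ^ 2 + 6 * k + 6) * 2 :=
      mul_le_mul_of_nonneg_left hzQ (by positivity)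
    linear_combination h8 + h10
  have h11 := nonneg_of_mul_nonneg_left h9 hQ
  have h12 := mul_le_mul_of_nonneg_right ha hD.le
  linear_combination h11 + h12

lemma E28 {k z u a : ℝ} (hk0 : 2 ≤ k) (hk1 : k ≤ 8)
    (hz1 : k ^ 2 * z ≤ 1) (hu0 : 0 ≤ u) (hu : u ≤ 1 / 16) (ha : 2 - 2 * z ≤ a) :
    (100 / 3196 * (2 * k - 1) ^ 2 + 1 / 100 * (1 + k)) * (k ^ 2 + 6 * k + 6) ≤
      ((a - 3 / 20 * z * (1 + k)) * (k ^ 2 + 6 * k + 6) -
      (43 / 40 + 133 / 50 * u) * ((k + 1) * (k + 3))) * (1 + k) := by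
  have hk : 0 < k := by linarith
  have hD : 0 < k ^ 2 + 6 * k + 6 := by positivity
  obtain ⟨x, hx⟩ : ∃ x : ℝ, x = k - 2 := ⟨_, rfl⟩
  obtain ⟨y, hy⟩ : ∃ y : ℝ, y = 8 - k := ⟨_, rfl⟩
  have hx0 : 0 ≤ x := by linarith
  have hy0 : 0 ≤ y := by linarith
  have P0 : 0 ≤ (199 / 100 * (k ^ 2 + 6 * k + 6) - 993 / 800 * ((k + 1) * (k + 3))) * k ^ 2 * (1 + k) -
      (43 / 20 + 3 / 20 * k) * (k ^ 2 + 6 * k + 6) * (1 + k) -
      100 / 3196 * (k ^ 2 * (2 * k - 1) ^ 2 * (k ^ 2 + 6 * k + 6)) := by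
    have e : (199 / 100 * (k ^ 2 + 6 * k + 6) - 993 / 800 * ((k + 1) * (k + 3))) * k ^ 2 * (1 + k) -
      (43 / 20 + 3 / 20 * k) * (k ^ 2 + 6 * k + 6) * (1 + k) -
      100 / 3196 * (k ^ 2 * (2 * k - 1) ^ 2 * (k ^ 2 + 6 * k + 6)) = 6149851/2485209600 * y ^ 6 + 68919769/1242604800 * x ^ 1 * y ^ 5 + 258216691/621302400 * x ^ 2 * y ^ 4 + 1770476123/1242604800 * x ^ 3 * y ^ 3 + 5798976077/2485209600 * x ^ 4 * y ^ 2 + 485389667/310651200 * x ^ 5 * y ^ 1 + 34406369/207100800 * x ^ 6 := by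
      rw [hx, hy]; ring
    rw [e]; positivity
  have h1 : (43 / 20 + 3 / 20 * k) * (k ^ 2 + 6 * k + 6) * (1 + k) * (k ^ 2 * z) ≤
      (43 / 20 + 3 / 20 * k) * (k ^ 2 + 6 * k + 6) * (1 + k) * 1 :=
    mul_le_mul_of_nonneg_left hz1 (by positivity)
  have h2 : (43 / 40 + 133 / 50 * u) * ((k + 1) * (k + 3)) ≤ 993 / 800 * ((k + 1) * (k + 3)) :=
    mul_le_mul_of_nonneg_right (by linarith) (by positivity)
  have h3 := mul_le_mul_of_nonneg_left h2 (show 0 ≤ k ^ 2 * (1 + k) by positivity)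
  have h4 : 0 ≤ (((a - 3 / 20 * z * (1 + k)) * (k ^ 2 + 6 * k + 6) -
      (43 / 40 + 133 / 50 * u) * ((k + 1) * (k + 3))) * (1 + k) -
      (100 / 3196 * (2 * k - 1) ^ 2 + 1 / 100 * (1 + k)) * (k ^ 2 + 6 * k + 6)) * k ^ 2 := by
    have h5 := mul_le_mul_of_nonneg_left ha
      (show 0 ≤ (k ^ 2 + 6 * k + 6) * (1 + k) * k ^ 2 by positivity)
    linear_combination P0 + h1 + h3 + h5
  have := nonneg_of_mul_nonneg_left h4 (show 0 < k ^ 2 by positivity)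
  linarith

lemma E8a {k z u a : ℝ} (hk0 : 8 ≤ k) (hz0 : 0 ≤ z)
    (hz1 : k ^ 2 * z ≤ 1) (hu0 : 0 ≤ u) (hu : u ≤ 1 / 16) (ha : 2 - 2 * z ≤ a) :
    3 / 100 * (k ^ 2 + 6 * k + 6) ≤ (a - 3 / 20 * z * (1 + k)) * (k ^ 2 + 6 * k + 6) -
      (43 / 40 + 133 / 50 * u) * ((k + 1) * (k + 3)) := by
  have hk : 0 < k := by linarith
  have hD : 0 < k ^ 2 + 6 * k + 6 := by positivity
  have h1 : z * (43 / 20 + 3 / 20 * k) ≤ 67 / 1280 := by
    have : (43 / 20 + 3 / 20 * k) ≤ 67 / 1280 * k ^ 2 := by nlinarith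
    nlinarith [mul_le_mul_of_nonneg_left this hz0]
  have h2 : (43 / 40 + 133 / 50 * u) * ((k + 1) * (k + 3)) ≤ 993 / 800 * ((k + 1) * (k + 3)) :=
    mul_le_mul_of_nonneg_right (by linarith) (by positivity)
  have h3 : 3 / 2 ≤ a - 3 / 20 * z * (1 + k) := by linarith
  have h4 := mul_le_mul_of_nonneg_right h3 hD.le
  nlinarith

lemma E8b {k z u a N : ℝ} (hk0 : 8 ≤ k) (hz0 : 0 ≤ z)
    (hz1 : k ^ 2 * z ≤ 1) (hu0 : 0 ≤ u) (hN : 2 * k ≤ N) (hu : u * N = 1) (ha : 2 - 2 * z ≤ a) :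
    4 / 5 * (k ^ 2 + 6 * k + 6) ≤ (a - 3 / 20 * z * (1 + k)) * (k ^ 2 + 6 * k + 6) -
      (43 / 40 + 133 / 50 * u) * ((k + 1) * (k + 3)) := by
  have hk : 0 < k := by linarith
  have hD : 0 < k ^ 2 + 6 * k + 6 := by positivity
  have h1 : z * (43 / 20 + 3 / 20 * k) ≤ 67 / 1280 := by
    have : (43 / 20 + 3 / 20 * k) ≤ 67 / 1280 * k ^ 2 := by nlinarith
    nlinarith [mul_le_mul_of_nonneg_left this hz0]
  have hu2 : u * k ≤ 1 / 2 := by nlinarith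
  have h3 : 2 - 67 / 1280 ≤ a - 3 / 20 * z * (1 + k) := by linarith
  have h4 := mul_le_mul_of_nonneg_right h3 hD.le
  have h5 : u * k * ((k + 1) * (k + 3)) ≤ 1 / 2 * ((k + 1) * (k + 3)) :=
    mul_le_mul_of_nonneg_right hu2 (by positivity)
  have h6 : 0 ≤ ((2 - 67 / 1280 - 4 / 5) * (k ^ 2 + 6 * k + 6) -
      (43 / 40 + 133 / 50 * u) * ((k + 1) * (k + 3))) * k := by
    nlinarith [mul_nonneg (show 0 ≤ k - 8 by linarith) hk.le,
      mul_nonneg (show 0 ≤ k - 8 by linarith) (mul_nonneg hk.le hk.le)]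
  have := nonneg_of_mul_nonneg_left h6 hk
  linarith

lemma toE {X A M D G : ℝ} (hD : 0 < D) (h : X * D ≤ A * D - M * G) : X ≤ A - M * (G / D) := by
  have h1 : X * D ≤ (A - M * (G / D)) * D := by
    have : (A - M * (G / D)) * D = A * D - M * G := by field_simp
    rw [this]; exact h
  exact le_of_mul_le_mul_right h1 hD

/-- lower bounds of `E` for `k ≥ 0` -/
lemma E_ge {k z u a : ℝ} (hk0 : 0 ≤ k) (hz0 : 0 ≤ z) (hz5 : 5 * z * k ^ 2 * u ≤ 1 - z)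
    (hz1 : k ^ 2 * z ≤ 1) (hu0 : 0 ≤ u) (hu : u ≤ 1 / 16) (ha : 1 + 3 / 4 * (1 - z) ≤ a)
    (ha2 : 2 - 2 * z ≤ a) :
    1 / 50 ≤ a - 3 / 20 * z * (1 + k) -
      (43 / 40 + 133 / 50 * u) * ((k + 1) * (k + 3) / (k ^ 2 + 6 * k + 6)) := by
  have hD : 0 < k ^ 2 + 6 * k + 6 := by positivity
  rcases le_total k 1 with h1 | h1
  · have := toE hD (E01 hk0 h1 hz5 hu0 hu ha)
    linarith
  rcases le_total k 2 with h2 | h2
  · have := toE hD (E12 h1 h2 hz5 hz1 hu0 hu ha)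
    linarith
  rcases le_total k 8 with h3 | h3
  · have h5 := E28 h2 h3 hz1 hu0 hu ha2
    apply toE hD
    have h4 : 1 / 50 * (1 + k) * (k ^ 2 + 6 * k + 6) ≤
      (100 / 3196 * (2 * k - 1) ^ 2 + 1 / 100 * (1 + k)) * (k ^ 2 + 6 * k + 6) := by
      apply mul_le_mul_of_nonneg_right _ hD.le
      nlinarith
    refine le_of_mul_le_mul_right ?_ (show 0 < 1 + k by linarith)
    linarith
  · have := toE hD (E8a h3 hz0 hz1 hu0 hu ha2)
    linarith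

/-- discriminant condition for `k ≥ 1/2`, `l > 0` -/
lemma E_disc {k z u a N : ℝ} (hk0 : 1 / 2 ≤ k) (hz0 : 0 ≤ z) (hz5 : 5 * z * k ^ 2 * u ≤ 1 - z)
    (hz1 : k ^ 2 * z ≤ 1) (hu0 : 0 ≤ u) (hN : 16 ≤ N) (huN : u * N = 1)
    (hkN : 8 ≤ k → 2 * k ≤ N) (ha : 1 + 3 / 4 * (1 - z) ≤ a)
    (ha2 : 2 - 2 * z ≤ a) :
    (2 * k - 1) ^ 2 ≤ 4 * (a - 3 / 20 * z * (1 + k) -
      (43 / 40 + 133 / 50 * u) * ((k + 1) * (k + 3) / (k ^ 2 + 6 * k + 6)) - 1 / 100) *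
      (N - 8 - 1 / 100) * (1 + k) := by
  have hD : 0 < k ^ 2 + 6 * k + 6 := by positivity
  have hu : u ≤ 1 / 16 := by nlinarith
  have h1k : 0 < 1 + k := by linarith
  obtain ⟨E, hE⟩ : ∃ E : ℝ, E = a - 3 / 20 * z * (1 + k) -
      (43 / 40 + 133 / 50 * u) * ((k + 1) * (k + 3) / (k ^ 2 + 6 * k + 6)) := ⟨_, rfl⟩
  rw [← hE]
  have red : ∀ X : ℝ, X ≤ E - 1 / 100 → 0 ≤ X → (2 * k - 1) ^ 2 ≤ 4 * X * (799 / 100) * (1 + k) →
      (2 * k - 1) ^ 2 ≤ 4 * (E - 1 / 100) * (N - 8 - 1 / 100) * (1 + k) := by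
    intro X hX hX0 h
    refine h.trans ?_
    apply mul_le_mul_of_nonneg_right _ h1k.le
    apply mul_le_mul (by linarith) (by linarith) (by norm_num) (by linarith)
  rcases le_total k 1 with h1 | h1
  · have h := toE hD (E01 (by linarith) h1 hz5 hu0 hu ha)
    rw [← hE] at h
    refine red (1 / 50) (by linarith) (by norm_num) (by nlinarith)
  rcases le_total k 2 with h2 | h2
  · have h := toE hD (E12 h1 h2 hz5 hz1 hu0 hu ha)
    rw [← hE] at h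
    refine red (783 / 10000 * k - 625 / 10000) (by linarith) (by linarith) ?_
    nlinarith [mul_nonneg (show 0 ≤ k - 1 by linarith) (show 0 ≤ 2 - k by linarith)]
  rcases le_total k 8 with h3 | h3
  · have h5 := E28 h2 h3 hz1 hu0 hu ha2
    have h6 : (100 / 3196 * (2 * k - 1) ^ 2 / (1 + k) + 1 / 100) ≤ E := by
      rw [hE]
      apply toE hD
      refine le_of_mul_le_mul_right ?_ h1k
      have e : (100 / 3196 * (2 * k - 1) ^ 2 / (1 + k) + 1 / 100) * (k ^ 2 + 6 * k + 6) * (1 + k) =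
        (100 / 3196 * (2 * k - 1) ^ 2 + 1 / 100 * (1 + k)) * (k ^ 2 + 6 * k + 6) := by
        field_simp
      rw [e]; exact h5
    refine red (100 / 3196 * (2 * k - 1) ^ 2 / (1 + k)) (by linarith) (by positivity) ?_
    have e : 4 * (100 / 3196 * (2 * k - 1) ^ 2 / (1 + k)) * (799 / 100) * (1 + k) = (2 * k - 1) ^ 2 := by
      field_simp; ring
    rw [e]
  · have hkN' := hkN h3
    have h := toE hD (E8b h3 hz0 hz1 hu0 hkN' huN ha2)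
    rw [← hE] at h
    have h7 : 4 * (79 / 100) * (N - 8 - 1 / 100) * (1 + k) ≤
        4 * (E - 1 / 100) * (N - 8 - 1 / 100) * (1 + k) := by
      apply mul_le_mul_of_nonneg_right _ h1k.le
      apply mul_le_mul_of_nonneg_right (by linarith) (by linarith)
    refine le_trans ?_ h7
    have h8 : 4 * (79 / 100) * (2 * k - 8 - 1 / 100) * (1 + k) ≤
        4 * (79 / 100) * (N - 8 - 1 / 100) * (1 + k) := by
      apply mul_le_mul_of_nonneg_right (by linarith) h1k.le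
    have h9 : 4 * (79 / 100) * (16 - 8 - 1 / 100) * (1 + k) ≤
        4 * (79 / 100) * (N - 8 - 1 / 100) * (1 + k) := by
      apply mul_le_mul_of_nonneg_right (by linarith) h1k.le
    nlinarith

lemma core_l_nonpos {E N t k : ℝ} (hk : 0 ≤ k) (hE : 1 / 50 ≤ E) (hE' : k ≤ 1 → 3 / 100 ≤ E)
    (hN : 16 ≤ N) (ht : t ≤ 0) :
    1 / 100 * (KK k + t ^ 2) ≤ (E - 3 * t) * KK k + t * k + (N - 13 / 4) * t ^ 2 := by
  have h1k : 0 < 1 + k := by linarith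
  have e : (E - 3 * t) * KK k + t * k + (N - 13 / 4) * t ^ 2 - 1 / 100 * (KK k + t ^ 2) =
      ((E - 1 / 100) * k ^ 2 - t * k * (2 * k - 1) + (N - 13 / 4 - 1 / 100) * (1 + k) * t ^ 2) / (1 + k) := by
    unfold KK
    field_simp
    ring
  have h : 0 ≤ ((E - 1 / 100) * k ^ 2 - t * k * (2 * k - 1) +
      (N - 13 / 4 - 1 / 100) * (1 + k) * t ^ 2) / (1 + k) := by
    apply div_nonneg _ h1k.le
    rcases le_total (1 / 2) k with h2 | h2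
    · have h3 : 0 ≤ (E - 1 / 100) * k ^ 2 := mul_nonneg (by linarith) (sq_nonneg _)
      have h4 : 0 ≤ -t * k * (2 * k - 1) := mul_nonneg (mul_nonneg (by linarith) hk) (by linarith)
      have h5 : 0 ≤ (N - 13 / 4 - 1 / 100) * (1 + k) * t ^ 2 :=
        mul_nonneg (mul_nonneg (by linarith) h1k.le) (sq_nonneg _)
      linarith
    · have hE2 := hE' (by linarith)
      have h3 : (2 * k - 1) ^ 2 ≤ 4 * (E - 1 / 100) * ((N - 13 / 4 - 1 / 100) * (1 + k)) := by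
        have h4 : (4 * (1 / 50)) * ((63 / 5) * 1) ≤ (4 * (E - 1 / 100)) * ((N - 13 / 4 - 1 / 100) * (1 + k)) := by
          apply mul_le_mul (by linarith) _ (by norm_num) (by linarith)
          apply mul_le_mul (by linarith) (by linarith) (by norm_num) (by linarith)
        nlinarith
      have := disc (x := k) (y := t) (A := E - 1 / 100) (by linarith) h3
      nlinarith [this]
  linarith

lemma core_l_pos {E N t k : ℝ} (hk : 0 ≤ k) (hE : 1 / 50 ≤ E)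
    (hN : 16 ≤ N) (ht : 0 ≤ t)
    (hd : 1 / 2 ≤ k → (2 * k - 1) ^ 2 ≤ 4 * (E - 1 / 100) * (N - 8 - 1 / 100) * (1 + k)) :
    1 / 100 * (KK k + t ^ 2) ≤ (E - 3 * t) * KK k + t * k + (N - 8) * t ^ 2 := by
  have h1k : 0 < 1 + k := by linarith
  have e : (E - 3 * t) * KK k + t * k + (N - 8) * t ^ 2 - 1 / 100 * (KK k + t ^ 2) =
      ((E - 1 / 100) * k ^ 2 - t * k * (2 * k - 1) + (N - 8 - 1 / 100) * (1 + k) * t ^ 2) / (1 + k) := by
    unfold KK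
    field_simp
    ring
  have h : 0 ≤ ((E - 1 / 100) * k ^ 2 - t * k * (2 * k - 1) +
      (N - 8 - 1 / 100) * (1 + k) * t ^ 2) / (1 + k) := by
    apply div_nonneg _ h1k.le
    rcases le_total (1 / 2) k with h2 | h2
    · have h3 := hd h2
      have h4 : (2 * k - 1) ^ 2 ≤ 4 * (E - 1 / 100) * ((N - 8 - 1 / 100) * (1 + k)) := by
        linarith
      have := disc (x := k) (y := t) (A := E - 1 / 100) (by linarith) h4
      nlinarith [this]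
    · have h3 : 0 ≤ (E - 1 / 100) * k ^ 2 := mul_nonneg (by linarith) (sq_nonneg _)
      have h4 : 0 ≤ t * k * (1 - 2 * k) := mul_nonneg (mul_nonneg ht hk) (by linarith)
      have h5 : 0 ≤ (N - 8 - 1 / 100) * (1 + k) * t ^ 2 :=
        mul_nonneg (mul_nonneg (by linarith) h1k.le) (sq_nonneg _)
      linarith
  linarith

lemma core_kneg_pos {M z a t p N : ℝ} (hp0 : 0 < p) (hp1 : p ≤ 1) (ht : 0 ≤ t) (hM : M ≤ 993 / 800)
    (ha : 1 + 3 * t ^ 2 ≤ a) (hN : 16 ≤ N) (hz : z ≤ 1) :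
    1 / 100 * ((1 - p ^ 2) ^ 2 / p ^ 2 + t ^ 2) ≤
      -(M * ((1 - p ^ 2) * (1 - p) / p)) + (a - 3 * t) * ((1 - p ^ 2) ^ 2 / p ^ 2) +
        t * (p ^ 2 - 1) + (N - 8) * t ^ 2 - 3 / 20 * (z * (p ^ 2 - 1) ^ 2) := by
  have hj : 0 ≤ 1 - p ^ 2 := by nlinarith
  have hpp : 0 < 1 + p := by linarith
  obtain ⟨q, hq⟩ : ∃ q : ℝ, q = 1 - p := ⟨_, rfl⟩
  have hq0 : 0 ≤ q := by linarith
  have P0 : 0 ≤ 4 * ((3 * (1 - p ^ 2) ^ 2 + 799 / 100 * p ^ 2) *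
      ((99 / 100 - 3 / 20 * p ^ 2) * (1 + p) - 993 / 800 * p)) - (3 - 2 * p ^ 2) ^ 2 * (1 + p) := by
    have e : 4 * ((3 * (1 - p ^ 2) ^ 2 + 799 / 100 * p ^ 2) *
      ((99 / 100 - 3 / 20 * p ^ 2) * (1 + p) - 993 / 800 * p)) - (3 - 2 * p ^ 2) ^ 2 * (1 + p) =
      72/25 * q ^ 7 + 1629/200 * p ^ 1 * q ^ 6 + 4044/625 * p ^ 2 * q ^ 5 + 383541/20000 * p ^ 3 * q ^ 4 + 403951/5000 * p ^ 4 * q ^ 3 + 1221083/10000 * p ^ 5 * q ^ 2 + 365561/5000 * p ^ 6 * q ^ 1 + 240449/20000 * p ^ 7 := by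
      rw [hq]; ring
    rw [e]; positivity
  have hA : 0 < 3 * (1 - p ^ 2) ^ 2 + 799 / 100 * p ^ 2 := by positivity
  have hd : (3 * (1 - p ^ 2) + p ^ 2) ^ 2 ≤ 4 * (3 * (1 - p ^ 2) ^ 2 + 799 / 100 * p ^ 2) *
      (99 / 100 - 3 / 20 * p ^ 2 - 993 / 800 * (p / (1 + p))) := by
    refine le_of_mul_le_mul_right ?_ hpp
    have e : 4 * (3 * (1 - p ^ 2) ^ 2 + 799 / 100 * p ^ 2) *
      (99 / 100 - 3 / 20 * p ^ 2 - 993 / 800 * (p / (1 + p))) * (1 + p) =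
      4 * ((3 * (1 - p ^ 2) ^ 2 + 799 / 100 * p ^ 2) *
      ((99 / 100 - 3 / 20 * p ^ 2) * (1 + p) - 993 / 800 * p)) := by
      field_simp
    rw [e]
    linear_combination P0
  have h1 := disc (x := t) (y := 1 - p ^ 2) hA hd
  -- reduce
  have hK0 : 0 ≤ (1 - p ^ 2) ^ 2 / p ^ 2 := by positivity
  have hM2 : M * ((1 - p ^ 2) * (1 - p) / p) ≤ 993 / 800 * ((1 - p ^ 2) * (1 - p) / p) := by
    apply mul_le_mul_of_nonneg_right hM
    have : 0 ≤ 1 - p := by linarith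
    positivity
  have hz2 : 3 / 20 * (z * (p ^ 2 - 1) ^ 2) ≤ 3 / 20 * (1 * (p ^ 2 - 1) ^ 2) := by
    have := mul_le_mul_of_nonneg_right hz (sq_nonneg (p ^ 2 - 1))
    linarith
  have ha2 : (1 + 3 * t ^ 2 - 3 * t) * ((1 - p ^ 2) ^ 2 / p ^ 2) ≤
      (a - 3 * t) * ((1 - p ^ 2) ^ 2 / p ^ 2) := mul_le_mul_of_nonneg_right (by linarith) hK0
  have hN2 : 8 * t ^ 2 ≤ (N - 8) * t ^ 2 := mul_le_mul_of_nonneg_right (by linarith) (sq_nonneg _)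
  have h2 : 0 ≤ (-(993 / 800 * ((1 - p ^ 2) * (1 - p) / p)) +
      (1 + 3 * t ^ 2 - 3 * t) * ((1 - p ^ 2) ^ 2 / p ^ 2) + t * (p ^ 2 - 1) + 8 * t ^ 2 -
      3 / 20 * (1 * (p ^ 2 - 1) ^ 2) - 1 / 100 * ((1 - p ^ 2) ^ 2 / p ^ 2 + t ^ 2)) := by
    have e : (-(993 / 800 * ((1 - p ^ 2) * (1 - p) / p)) +
      (1 + 3 * t ^ 2 - 3 * t) * ((1 - p ^ 2) ^ 2 / p ^ 2) + t * (p ^ 2 - 1) + 8 * t ^ 2 -
      3 / 20 * (1 * (p ^ 2 - 1) ^ 2) - 1 / 100 * ((1 - p ^ 2) ^ 2 / p ^ 2 + t ^ 2)) =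
      ((3 * (1 - p ^ 2) ^ 2 + 799 / 100 * p ^ 2) * t ^ 2 -
        (3 * (1 - p ^ 2) + p ^ 2) * t * (1 - p ^ 2) +
        (99 / 100 - 3 / 20 * p ^ 2 - 993 / 800 * (p / (1 + p))) * (1 - p ^ 2) ^ 2) / p ^ 2 := by
      field_simp
      ring
    rw [e]
    positivity
  linarith

lemma core_kneg_neg {M z a t p N : ℝ} (hp0 : 0 < p) (hp1 : p ≤ 1) (ht : t ≤ 0) (hM : M ≤ 993 / 800)
    (ha : 1 ≤ a) (hN : 16 ≤ N) (hz : z ≤ 1) :
    1 / 100 * ((1 - p ^ 2) ^ 2 / p ^ 2 + t ^ 2) ≤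
      -(M * ((1 - p ^ 2) * (1 - p) / p)) + (a - 3 * t) * ((1 - p ^ 2) ^ 2 / p ^ 2) +
        t * (p ^ 2 - 1) + (N - 13 / 4) * t ^ 2 - 3 / 20 * (z * (p ^ 2 - 1) ^ 2) := by
  have hj : 0 ≤ 1 - p ^ 2 := by nlinarith
  have hK0 : 0 ≤ (1 - p ^ 2) ^ 2 / p ^ 2 := by positivity
  have h1p : 0 ≤ 1 - p := by linarith
  have hM2 : M * ((1 - p ^ 2) * (1 - p) / p) ≤ 993 / 800 * ((1 - p ^ 2) * (1 - p) / p) := by
    apply mul_le_mul_of_nonneg_right hM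
    positivity
  have hh : (1 - p ^ 2) * (1 - p) / p ≤ 1 / 2 * ((1 - p ^ 2) ^ 2 / p ^ 2) := by
    have e : 1 / 2 * ((1 - p ^ 2) ^ 2 / p ^ 2) - (1 - p ^ 2) * (1 - p) / p =
        (1 - p ^ 2) * (1 - p) ^ 2 / (2 * p ^ 2) := by
      field_simp
      ring
    have : 0 ≤ (1 - p ^ 2) * (1 - p) ^ 2 / (2 * p ^ 2) := by positivity
    linarith
  have hz2 : z * (p ^ 2 - 1) ^ 2 ≤ (1 - p ^ 2) ^ 2 / p ^ 2 := by
    have h1 : z * (p ^ 2 - 1) ^ 2 ≤ 1 * (p ^ 2 - 1) ^ 2 :=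
      mul_le_mul_of_nonneg_right hz (sq_nonneg (p ^ 2 - 1))
    have h2 : (1 - p ^ 2) ^ 2 ≤ (1 - p ^ 2) ^ 2 / p ^ 2 := by
      rw [le_div_iff₀ (by positivity)]
      have : p ^ 2 ≤ 1 := by linarith
      nlinarith [sq_nonneg (1 - p ^ 2)]
    have h3 : (p ^ 2 - 1) ^ 2 = (1 - p ^ 2) ^ 2 := by ring
    linarith
  have ha2 : 1 * ((1 - p ^ 2) ^ 2 / p ^ 2) ≤
      (a - 3 * t) * ((1 - p ^ 2) ^ 2 / p ^ 2) := mul_le_mul_of_nonneg_right (by linarith) hK0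
  have ht2 : 0 ≤ t * (p ^ 2 - 1) := by nlinarith
  have hN2 : 12 * t ^ 2 ≤ (N - 13 / 4) * t ^ 2 := mul_le_mul_of_nonneg_right (by linarith) (sq_nonneg _)
  have := sq_nonneg t
  linarith

/-- the constant in front of `hm` -/
lemma M_le {n : ℕ} (hn : 16 ≤ n) {μ l : ℝ} (hμ0 : 0 ≤ μ)
    (hμ : μ * ((n : ℝ) - 1) ≤ n + 1 + 3 / 40 * ((n : ℝ) - 3)) (hl : l ≤ 11 / 20) :
    μ * Real.exp (l / n) ≤ 43 / 40 + 133 / 50 * (1 / (n : ℝ)) := by
  have hn0 : (16 : ℝ) ≤ n := by exact_mod_cast hn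
  have he : Real.exp (l / n) ≤ 1 + 57 / (100 * n) := by
    rcases le_total 0 l with h | h
    · exact exp_div_le hn h hl
    · have h1 : Real.exp (l / n) ≤ 1 := Real.exp_le_one_iff.2 (div_nonpos_of_nonpos_of_nonneg h (by linarith))
      have h2 : (0 : ℝ) ≤ 57 / (100 * n) := by positivity
      linarith
  refine (mul_le_mul_of_nonneg_left he hμ0).trans ?_
  have h1 : 0 < (n : ℝ) - 1 := by linarith
  refine le_of_mul_le_mul_right ?_ (mul_pos h1 (show (0 : ℝ) < n ^ 2 by positivity))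
  have e1 : μ * (1 + 57 / (100 * (n : ℝ))) * (((n : ℝ) - 1) * n ^ 2) =
      (μ * ((n : ℝ) - 1)) * (n ^ 2 + 57 / 100 * n) := by
    field_simp
  have e2 : (43 / 40 + 133 / 50 * (1 / (n : ℝ))) * (((n : ℝ) - 1) * n ^ 2) =
      (43 / 40 * n + 133 / 50) * (((n : ℝ) - 1) * n) := by
    field_simp
  rw [e1, e2]
  have h2 := mul_le_mul_of_nonneg_right hμ (show (0 : ℝ) ≤ (n : ℝ) ^ 2 + 57 / 100 * n by positivity)
  refine h2.trans ?_
  have h3 : 0 ≤ ((n : ℝ) - 16) * n ^ 2 := mul_nonneg (by linarith) (by positivity)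
  have h4 : 0 ≤ ((n : ℝ) - 16) * n := mul_nonneg (by linarith) (by positivity)
  nlinarith

/-- uniform lower bound of the density -/
lemma PQ_lower {n : ℕ} (hn : 16 ≤ n) {μ β s l k lm M H : ℝ} (hμ0 : 0 ≤ μ)
    (hβ1 : 27 / 8 ≤ 2 * ((n : ℝ) - 3) * β) (hβ2 : β ≤ 3 / 20) (hs : s ∈ Ioo (0 : ℝ) 1)
    (hk0 : 0 < 1 + k) (hM : μ * Real.exp (l / n) ≤ M) (hH : hm n k ≤ H) :
    -(M * H) + (aq s - 3 * (Y s * l)) * KK k + Y s * l * k + ((n : ℝ) - 3) * (Y s * l) ^ 2 +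
      3 / 8 * (Y s * l ^ 2) + cR s l - 3 / 20 * (cc s ^ 2 * k ^ 2) ≤ PQ n μ 0 β 1 0 lm s l k := by
  have hn0 : (16 : ℝ) ≤ n := by exact_mod_cast hn
  have hY := Y_nonneg hs
  have hG := Gm_nonneg (n := n) (by omega) l
  have hh := hm_nonneg (n := n) (by omega) hk0
  have h1 : 0 ≤ μ * (((n : ℝ) - 1) * Y s * Gm n l) :=
    mul_nonneg hμ0 (mul_nonneg (mul_nonneg (by linarith) hY) hG)
  have h2 : μ * Real.exp (l / n) * hm n k ≤ M * H := by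
    apply mul_le_mul hM hH hh
    exact le_trans (mul_nonneg hμ0 (Real.exp_pos _).le) hM
  have h3 : 27 / 8 * (Y s * l ^ 2) ≤ 2 * ((n : ℝ) - 3) * β * (Y s * l ^ 2) :=
    mul_le_mul_of_nonneg_right hβ1 (mul_nonneg hY (sq_nonneg _))
  have h4 : β * (cc s ^ 2 * k ^ 2) ≤ 3 / 20 * (cc s ^ 2 * k ^ 2) :=
    mul_le_mul_of_nonneg_right hβ2 (by positivity)
  unfold PQ sg
  linarith

/-- **uncapped region, Lean `n ≥ 16`** -/
theorem PQ_large {n : ℕ} (hn : 16 ≤ n) {μ β s l k : ℝ} (lm : ℝ) (hμ0 : 0 ≤ μ)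
    (hμ : μ * ((n : ℝ) - 1) ≤ n + 1 + 3 / 40 * ((n : ℝ) - 3))
    (hβ1 : 27 / 8 ≤ 2 * ((n : ℝ) - 3) * β) (hβ2 : β ≤ 3 / 20)
    (hs : s ∈ Ioo (0 : ℝ) 1) (hT : s * Real.exp l ≤ 1) (hl : l ≤ 11 / 20) (hk0 : 0 < 1 + k)
    (hk1 : k * cc s ≤ 1) (hk2 : 0 ≤ k → 5 * cc s ^ 2 * k ^ 2 ≤ n * s ^ 2)
    (hk3 : 0 < l → 8 ≤ k → 2 * k ≤ n) :
    1 / 100 * (KK k + (Y s * l) ^ 2) ≤ PQ n μ 0 β 1 0 lm s l k := by
  have hn0 : (16 : ℝ) ≤ n := by exact_mod_cast hn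
  have hc := cc_pos' hs
  have hc2 := cc_sq' hs
  have hcle := cc_le_one s
  have hY := Y_nonneg hs
  have hM := M_le hn hμ0 hμ hl
  have hu0 : 0 ≤ 1 / (n : ℝ) := by positivity
  have hu : 1 / (n : ℝ) ≤ 1 / 16 := one_div_le_one_div_of_le (by norm_num) hn0
  have huN : 1 / (n : ℝ) * n = 1 := by field_simp
  have hM1 : 43 / 40 + 133 / 50 * (1 / (n : ℝ)) ≤ 993 / 800 := by linarith
  have ha1 := aq_ge1 hs
  have ha2 := aq_ge2 hs
  have hz1 : cc s ^ 2 ≤ 1 := by nlinarith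
  obtain ⟨t, ht⟩ : ∃ t : ℝ, t = Y s * l := ⟨_, rfl⟩
  rcases le_or_gt 0 k with hk | hk
  · -- `k ≥ 0`
    have hH := (hm_le_log (n := n) (by omega) hk0).trans (h_le_pos hk)
    have hlow := PQ_lower hn (lm := lm) hμ0 hβ1 hβ2 hs hk0 hM hH
    refine le_trans ?_ hlow
    rw [← ht]
    have hz5 : 5 * cc s ^ 2 * k ^ 2 * (1 / (n : ℝ)) ≤ 1 - cc s ^ 2 := by
      have h := mul_le_mul_of_nonneg_right (hk2 hk) hu0
      have e : (n : ℝ) * s ^ 2 * (1 / n) = s ^ 2 := by field_simp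
      rw [e] at h
      linarith
    have hzk : k ^ 2 * cc s ^ 2 ≤ 1 := by
      have h : (k * cc s) ^ 2 ≤ 1 := by
        have h0 : 0 ≤ k * cc s := by positivity
        nlinarith
      nlinarith
    have hE := E_ge hk (sq_nonneg (cc s)) hz5 hzk hu0 hu ha1 ha2
    obtain ⟨E, hEd⟩ : ∃ E : ℝ, E = aq s - 3 / 20 * cc s ^ 2 * (1 + k) -
      (43 / 40 + 133 / 50 * (1 / (n : ℝ))) * ((k + 1) * (k + 3) / (k ^ 2 + 6 * k + 6)) := ⟨_, rfl⟩
    have key : -((43 / 40 + 133 / 50 * (1 / (n : ℝ))) *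
        ((k + 1) * (k + 3) / (k ^ 2 + 6 * k + 6) * KK k)) + (aq s - 3 * t) * KK k -
        3 / 20 * (cc s ^ 2 * k ^ 2) = (E - 3 * t) * KK k := by
      have hKk : k ^ 2 = (1 + k) * KK k := by
        unfold KK
        field_simp
      rw [hEd]
      linear_combination (-(3 / 20) * cc s ^ 2) * hKk
    rcases le_or_gt l 0 with hl0 | hl0
    · have hc1 := cR_ge_neg' hs hl0
      have ht0 : t ≤ 0 := by rw [ht]; exact mul_nonpos_of_nonneg_of_nonpos hY hl0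
      have hE' : k ≤ 1 → 3 / 100 ≤ E := by
        intro hk1'
        have := toE (show 0 < k ^ 2 + 6 * k + 6 by positivity) (E01 hk hk1' hz5 hu0 hu ha1)
        rw [hEd]; exact this
      have hcore := core_l_nonpos (E := E) (N := n) (t := t) hk (by rw [hEd]; exact hE) hE' hn0 ht0
      have h5 : Y s * (1 + Y s) / 4 * l ^ 2 = 1 / 4 * (Y s * l ^ 2) + 1 / 4 * t ^ 2 := by
        rw [ht]; ring
      have h6 : 0 ≤ Y s * l ^ 2 := mul_nonneg hY (sq_nonneg _)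
      rw [h5] at hc1
      linarith
    · have hc1 := cR_ge_pos hs hl0.le hl hT
      have ht0 : 0 ≤ t := by rw [ht]; exact mul_nonneg hY hl0.le
      have hd : 1 / 2 ≤ k → (2 * k - 1) ^ 2 ≤ 4 * (E - 1 / 100) * ((n : ℝ) - 8 - 1 / 100) * (1 + k) := by
        intro hk2'
        have := E_disc hk2' (sq_nonneg (cc s)) hz5 hzk hu0 hn0 huN (hk3 hl0) ha1 ha2
        rw [← hEd] at this
        exact this
      have hcore := core_l_pos (E := E) (N := n) (t := t) hk (by rw [hEd]; exact hE) hn0 ht0 hd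
      have h5 : Y s * l ^ 2 * (3 / 8 + 5 * Y s) = 3 / 8 * (Y s * l ^ 2) + 5 * t ^ 2 := by
        rw [ht]; ring
      rw [h5] at hc1
      linarith
  · -- `k < 0`
    obtain ⟨p, hp⟩ : ∃ p : ℝ, p = Real.sqrt (1 + k) := ⟨_, rfl⟩
    have hp0 : 0 < p := by rw [hp]; exact Real.sqrt_pos.2 hk0
    have hp2 : p ^ 2 = 1 + k := by rw [hp]; exact Real.sq_sqrt hk0.le
    have hp1 : p ≤ 1 := by nlinarith
    have hkp : k = p ^ 2 - 1 := by linarith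
    have hH : hm n k ≤ (1 - p ^ 2) * (1 - p) / p := by
      have h := h_le_neg hp0 hp1
      rw [← hkp] at h
      exact (hm_le_log (n := n) (by omega) hk0).trans h
    have hlow := PQ_lower hn (lm := lm) hμ0 hβ1 hβ2 hs hk0 hM hH
    refine le_trans ?_ hlow
    rw [← ht]
    have hKp : KK k = (1 - p ^ 2) ^ 2 / p ^ 2 := by
      unfold KK
      rw [← hp2, hkp]
      ring
    rw [hKp, hkp]
    rcases le_or_gt l 0 with hl0 | hl0
    · have hc1 := cR_ge_neg' hs hl0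
      have ht0 : t ≤ 0 := by rw [ht]; exact mul_nonpos_of_nonneg_of_nonpos hY hl0
      have hcore := core_kneg_neg (M := 43 / 40 + 133 / 50 * (1 / (n : ℝ))) (z := cc s ^ 2)
        (a := aq s) (t := t) (N := n) hp0 hp1 ht0 hM1 (by linarith) hn0 hz1
      have h5 : Y s * (1 + Y s) / 4 * l ^ 2 = 1 / 4 * (Y s * l ^ 2) + 1 / 4 * t ^ 2 := by
        rw [ht]; ring
      have h6 : 0 ≤ Y s * l ^ 2 := mul_nonneg hY (sq_nonneg _)
      rw [h5] at hc1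
      linarith
    · have hc1 := cR_ge_pos hs hl0.le hl hT
      have ht0 : 0 ≤ t := by rw [ht]; exact mul_nonneg hY hl0.le
      have hts : 4 * t ^ 2 ≤ s ^ 2 := by
        have hs0 := hs.1
        have h1 : l ≤ (1 - s ^ 2) / (2 * s) := by
          have h2 := neg_log_le' hs.1 hs.2.le
          have h3 : Real.log s + l ≤ 0 := by
            have h4 : Real.log (s * Real.exp l) ≤ Real.log 1 :=
              Real.log_le_log (by have := Real.exp_pos l; positivity) hT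
            rw [Real.log_mul hs0.ne' (Real.exp_pos l).ne', Real.log_exp, Real.log_one] at h4
            exact h4
          linarith
        have h5 : t ≤ s / 2 := by
          rw [ht]
          have h6 := mul_le_mul_of_nonneg_left h1 hY
          refine h6.trans (le_of_eq ?_)
          unfold Y
          have : (1 - s ^ 2) ≠ 0 := by rw [← hc2]; positivity
          field_simp
        nlinarith
      have ha3 : 1 + 3 * t ^ 2 ≤ aq s := by linarith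
      have hcore := core_kneg_pos (M := 43 / 40 + 133 / 50 * (1 / (n : ℝ))) (z := cc s ^ 2)
        (a := aq s) (t := t) (N := n) hp0 hp1 ht0 hM1 ha3 hn0 hz1
      have h5 : Y s * l ^ 2 * (3 / 8 + 5 * Y s) = 3 / 8 * (Y s * l ^ 2) + 5 * t ^ 2 := by
        rw [ht]; ring
      rw [h5] at hc1
      linarith

/-- the class bound `(1+k)(s+s²) ≤ 1+(n+1)s²` and `k c ≤ 1` give `2k ≤ n` for `k ≥ 8` -/
lemma two_k_le {n : ℕ} (hn : 16 ≤ n) {s k : ℝ} (hs : s ∈ Ioo (0 : ℝ) 1) (hk1 : k * cc s ≤ 1)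
    (hk : 8 ≤ k) (h : (1 + k) * (s * (1 + s)) ≤ 1 + ((n : ℝ) + 1) * s ^ 2) : 2 * k ≤ n := by
  have hn0 : (16 : ℝ) ≤ n := by exact_mod_cast hn
  have hc := cc_pos' hs
  have hc2 := cc_sq' hs
  have hc8 : cc s ≤ 1 / 8 := by nlinarith
  have hs2 : 1 / 8 ≤ s := by
    have h1 : cc s ^ 2 ≤ 1 / 64 := by nlinarith
    nlinarith [hs.1, hs.2]
  have h3 : (1 + k) * (s * (1 + s)) ≤ (1 + n / 2) * (s * (1 + s)) := by
    have h4 : (1 + (n : ℝ) / 2) * (s * (1 + s)) - (1 + ((n : ℝ) + 1) * s ^ 2) =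
        (1 - s) * (n * s / 2 - 1) := by ring
    have h5 : 0 ≤ (1 - s) * (n * s / 2 - 1) := mul_nonneg (by linarith [hs.2]) (by nlinarith)
    linarith
  have h6 := le_of_mul_le_mul_right h3 (by have := hs.1; positivity)
  linarith

end Crest.Agent.R230.PL
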