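import Crest.Agent.R230.OneDFar
import Crest.Agent.R230.PLargeProf

/-!
# Row 230: `OneD n` for `16 ≤ n ≤ 22`, and the large `n` assembly with the near block plugged in
-/

set_option autoImplicit false

open MeasureTheory Set Filter Topology
open scoped Pointwise ENNReal

namespace Crest.Agent.R230.WR

variable {n : ℕ} {r : ℝ → ℝ}

lemma muF_mul (hn : 2 ≤ n) : muF n * ((n : ℝ) - 1) = (n : ℝ) + 1 + 7 / 100 * ((n : ℝ) - 3) := by
  have hnR : (2 : ℝ) ≤ n := by exact_mod_cast hn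
  have hn1 : (0 : ℝ) < (n : ℝ) - 1 := by linarith
  unfold muF
  exact div_mul_cancel₀ _ hn1.ne'

lemma muF_nonneg (hn : 3 ≤ n) : 0 ≤ muF n := by
  have hnR : (3 : ℝ) ≤ n := by exact_mod_cast hn
  unfold muF
  exact div_nonneg (by linarith) (by linarith)

theorem nearP_prof (hn : 16 ≤ n) (hr : Prof r) {μ : ℝ} (h0 : 0 ≤ μ) (h1 : μ ≤ muF n) : NearP n μ r := by
  intro s hs hl
  have hnR : (16 : ℝ) ≤ n := by exact_mod_cast hn
  have h2 : μ * ((n : ℝ) - 1) ≤ muF n * ((n : ℝ) - 1) :=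
    mul_le_mul_of_nonneg_right h1 (by linarith)
  rw [muF_mul (by omega)] at h2
  exact (PL.PQ_large_prof hn hr 0 h0 (β := 7 / 50) (by linarith) (by linarith) (by norm_num) hs hl).2

/-- dimensions 17 to 23 -/
theorem oneD_16_22 (h16 : 16 ≤ n) (h22 : n ≤ 22) : OneD n := by
  refine oneD_small_w (by omega) h22 (β := 7 / 50) (θ := 1) (μ := muF n) (by norm_num)
    (muF_nonneg (by omega)) ?_ fun r hr hN s hs => ?_
  · rw [muF_mul (by omega)]
    have hnR : (16 : ℝ) ≤ n := by exact_mod_cast h16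
    linarith
  · exact nearP_prof h16 hr (muF_nonneg (by omega)) le_rfl s hs
      (ll_le_of_legal hr hs (legal_all (by omega) h22 hr hN s hs)).1

/-- `OneD n`, `n ≥ 23`, from the far blocks -/
theorem oneD_far' (hn : 23 ≤ n) (hapr : ∀ r : ℝ → ℝ, Prof r → NleB n r → FarApr n r)
    (hF0 : ∀ s l k : ℝ, FarC n s l k → 0 < PF n 0 s l k)
    (hF1 : ∀ s l k : ℝ, FarC n s l k → 0 < PF n (muF n) s l k) : OneD n :=
  oneD_far hn (fun _ hr _ h0 h1 => nearP_prof (by omega) hr h0 h1) hapr hF0 hF1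

end Crest.Agent.R230.WR
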