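import Crest.Agent.R230.PosAsm
import Crest.Agent.R230.B6N6
import Crest.Agent.R230.B6N7
import Crest.Agent.R230.LTail7
import Crest.Agent.R230.CaseIIpp
import Crest.Agent.R230.OneDFin

/-!
# Row 230: block B6 for Lean `n = 6, 7` (profiles) and `OneD n` for `5 ≤ n ≤ 22`
-/

set_option autoImplicit false

open MeasureTheory Set Filter Topology
open scoped Pointwise ENNReal

namespace Crest.Agent.R230

open WR

theorem posNeg_six : PosNeg 6 := by
  intro r hr hN s hs hl hk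
  have hμ : (((6 : ℕ) : ℝ) + 1 + 3 * (1 / 4)) / (((6 : ℕ) : ℝ) - 1) * 5 = 31 / 4 := by norm_num
  obtain ⟨h1, h2⟩ := B6_six (lm := 0) hμ hs hl.le (tau_le_one' hr hs) (ll_seven hr hN hs)
    (kk_pos hr hs) hk.le
  exact lt_of_le_of_ne h1 fun h => hl.ne' (h2 h.symm)

theorem posNeg_seven : PosNeg 7 := by
  intro r hr hN s hs hl hk
  have hμ : (((7 : ℕ) : ℝ) + 1 + 3 * (1 / 4)) / (((7 : ℕ) : ℝ) - 1) * 6 = 35 / 4 := by norm_num
  obtain ⟨h1, h2⟩ := B6_seven (lm := 0) hμ hs hl.le (tau_le_one' hr hs)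
    (ll_simple_all (by norm_num) (by norm_num) hr hN s hs) (kk_pos hr hs) hk.le
  exact lt_of_le_of_ne h1 fun h => hl.ne' (h2 h.symm)

theorem posNeg_all {n : ℕ} (h5 : 5 ≤ n) (h22 : n ≤ 22) : PosNeg n := by
  rcases Nat.lt_or_ge n 9 with h | h
  · interval_cases n
    · exact posNeg_five
    · exact posNeg_six
    · exact posNeg_seven
    · exact posNeg_eight
  · exact posNeg_nine h h22

theorem posPos_le_19 {n : ℕ} (h5 : 5 ≤ n) (h19 : n ≤ 19) : PosPos n := by
  intro r hr hN s hs hl hk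
  obtain ⟨h1, h2⟩ := caseII_pp h5 h19 hr hs hl.le (ll_half_all h5 (by omega) hr hN s hs) hk
  exact lt_of_le_of_ne h1 fun h => hl.ne' (h2 h.symm)

/-- the one-dimensional lemma in dimensions `6, …, 23` -/
theorem oneD_le_22 {n : ℕ} (h5 : 5 ≤ n) (h22 : n ≤ 22) : OneD n := by
  rcases Nat.lt_or_ge n 16 with h | h
  · exact oneD_of_pos h5 h22 (posPos_le_19 h5 (by omega)) (posNeg_all h5 h22)
  · exact WR.oneD_16_22 h h22

end Crest.Agent.R230
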