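import Crest.Agent.R230.WMain

/-!
# Row 230: auxiliary bounds for block B6 (case II, `l ≥ 0`, `-1 < k ≤ 0`), Lean `n ≥ 8`

Bounds of `hm`, `Gm`, `exp`, `cR` and of `PP`, and polynomial inequalities.
-/

set_option autoImplicit false

open Set

namespace Crest.Agent.R230.B6

/-! ### one variable bounds -/

/-- `-log x ≤ ...` with `x = 1-u` -/
lemma neg_log_le {u : ℝ} (hu0 : 0 ≤ u) (hu1 : u < 1) :
    -Real.log (1 - u) ≤ u + u ^ 2 * (1 - u / 3 - u ^ 2 / 6 - u ^ 3 / 10) / (2 * (1 - u)) := by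
  set G : ℝ → ℝ := fun x => x + x ^ 2 * (1 - x / 3 - x ^ 2 / 6 - x ^ 3 / 10) / (2 * (1 - x)) +
    Real.log (1 - x) with hG
  have hd : ∀ x ∈ Ico (0 : ℝ) 1, HasDerivAt G (x ^ 5 / 5 / (1 - x) ^ 2) x := by
    intro x hx
    have h1 : (1 : ℝ) - x ≠ 0 := by linarith [hx.2]
    have h2 : (2 : ℝ) * (1 - x) ≠ 0 := mul_ne_zero two_ne_zero h1
    have d0 : HasDerivAt (fun y : ℝ => 1 - y) (-1) x := by
      refine ((hasDerivAt_const x (1 : ℝ)).fun_sub (hasDerivAt_id x)).congr_deriv ?_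
      norm_num
    have dlog : HasDerivAt (fun y : ℝ => Real.log (1 - y)) (-1 / (1 - x)) x := d0.log h1
    have dnum : HasDerivAt (fun y : ℝ => y ^ 2 * (1 - y / 3 - y ^ 2 / 6 - y ^ 3 / 10))
        (2 * x * (1 - x / 3 - x ^ 2 / 6 - x ^ 3 / 10) + x ^ 2 * (0 - 1 / 3 - 2 * x / 6 - 3 * x ^ 2 / 10)) x := by
      have e1 := hasDerivAt_pow 2 x
      have e2 : HasDerivAt (fun y : ℝ => 1 - y / 3 - y ^ 2 / 6 - y ^ 3 / 10)
          (0 - 1 / 3 - 2 * x / 6 - 3 * x ^ 2 / 10) x := by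
        have a1 := (hasDerivAt_id x).div_const 3
        have a2 := (hasDerivAt_pow 2 x).div_const 6
        have a3 := (hasDerivAt_pow 3 x).div_const 10
        have a0 := hasDerivAt_const x (1 : ℝ)
        have := ((a0.fun_sub a1).fun_sub a2).fun_sub a3
        refine this.congr_deriv ?_
        norm_num
      refine (e1.fun_mul e2).congr_deriv ?_
      norm_num
    have dden : HasDerivAt (fun y : ℝ => 2 * (1 - y)) (2 * (-1)) x := d0.const_mul 2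
    have dq := dnum.fun_div dden h2
    have := ((hasDerivAt_id x).fun_add dq).fun_add dlog
    refine this.congr_deriv ?_
    field_simp
    ring
  have hmono : MonotoneOn G (Ico 0 1) := by
    refine monotoneOn_of_deriv_nonneg (convex_Ico 0 1)
      (fun x hx => (hd x hx).continuousAt.continuousWithinAt) ?_ ?_
    · intro x hx
      exact (hd x (interior_subset hx)).differentiableAt.differentiableWithinAt
    · intro x hx
      have hx' := interior_subset hx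
      rw [(hd x hx').deriv]
      have := hx'.1
      positivity
  have h := hmono (⟨le_refl 0, one_pos⟩ : (0 : ℝ) ∈ Ico (0 : ℝ) 1) ⟨hu0, hu1⟩ hu0
  simp only [hG] at h
  norm_num at h
  linarith

/-- `n(1-x^{1/n}) - (1-x) ≤ (1-1/n)(-log x - (1-x))` in the form with `y = x^{1/n}` -/
lemma pow_log_bound {n : ℕ} (hn : 1 ≤ n) {y : ℝ} (hy0 : 0 < y) (hy1 : y ≤ 1) :
    (n : ℝ) * (1 - y) ≤ (1 - y ^ n) / n - ((n : ℝ) - 1) * Real.log y := by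
  obtain ⟨m, rfl⟩ : ∃ m, n = m + 1 := ⟨n - 1, by omega⟩
  set F : ℝ → ℝ := fun x => (1 - x ^ (m + 1)) / ((m + 1 : ℕ) : ℝ) -
    (((m + 1 : ℕ) : ℝ) - 1) * Real.log x - ((m + 1 : ℕ) : ℝ) * (1 - x) with hF
  have hm : ((m + 1 : ℕ) : ℝ) ≠ 0 := by positivity
  have hd : ∀ x ∈ Ioc (0 : ℝ) 1, HasDerivAt F (-x ^ m - (m : ℝ) / x + (m + 1)) x := by
    intro x hx
    have d1 := ((hasDerivAt_const x (1 : ℝ)).fun_sub (hasDerivAt_pow (m + 1) x)).div_const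
      ((m + 1 : ℕ) : ℝ)
    have d2 := (Real.hasDerivAt_log hx.1.ne').const_mul (((m + 1 : ℕ) : ℝ) - 1)
    have d3 := ((hasDerivAt_const x (1 : ℝ)).fun_sub (hasDerivAt_id x)).const_mul ((m + 1 : ℕ) : ℝ)
    refine ((d1.fun_sub d2).fun_sub d3).congr_deriv ?_
    have hx0 := hx.1.ne'
    have e : m + 1 - 1 = m := rfl
    rw [e]
    push_cast
    push_cast at hm
    field_simp
    ring
  have key : ∀ x : ℝ, 0 < x → (m : ℝ) + 1 ≤ x ^ m + m / x := by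
    intro x hx
    -- Bernoulli for (1/x) : m/x + x^m ≥ m+1
    have hx1 : 0 < 1 / x := by positivity
    induction m with
    | zero => simp
    | succ k ih => 
      clear ih hd hF hm F
      have hb : ∀ j : ℕ, (j : ℝ) + 1 ≤ x ^ j + j / x := by
        intro j
        induction j with
        | zero => simp
        | succ j ih =>
          have e : x ^ (j + 1) + ((j + 1 : ℕ) : ℝ) / x - (((j + 1 : ℕ) : ℝ) + 1) =
            x * (x ^ j + j / x - (j + 1)) + (j + 1) * (x - 1) ^ 2 / x := by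
            push_cast
            field_simp
            ring
          have h1 : 0 ≤ x * (x ^ j + j / x - (j + 1)) := mul_nonneg hx.le (by linarith)
          have h2 : 0 ≤ ((j : ℝ) + 1) * (x - 1) ^ 2 / x := by positivity
          linarith
      exact hb (k + 1)
  have hanti : AntitoneOn F (Ioc 0 1) := by
    refine antitoneOn_of_deriv_nonpos (convex_Ioc 0 1)
      (fun x hx => (hd x hx).continuousAt.continuousWithinAt) ?_ ?_
    · intro x hx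
      exact (hd x (interior_subset hx)).differentiableAt.differentiableWithinAt
    · intro x hx
      have hx' := interior_subset hx
      rw [(hd x hx').deriv]
      linarith [key x hx'.1]
  have h := hanti ⟨hy0, hy1⟩ (⟨one_pos, le_refl 1⟩ : (1 : ℝ) ∈ Ioc (0 : ℝ) 1) hy1
  simp only [hF] at h
  norm_num at h
  push_cast at h ⊢
  linarith

/-- the refined bound of `h_n(-u)` -/
lemma hm_le {n : ℕ} (hn : 1 ≤ n) {u : ℝ} (hu0 : 0 ≤ u) (hu1 : u < 1) :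
    WR.hm n (-u) ≤ ((n : ℝ) - 1) / (2 * n) *
      (u ^ 2 * (1 - u / 3 - u ^ 2 / 6 - u ^ 3 / 10) / (1 - u)) := by
  have hnR : (1 : ℝ) ≤ n := by exact_mod_cast hn
  have hn0 : (0 : ℝ) < n := by linarith
  have h1u : 0 < 1 - u := by linarith
  set y : ℝ := (1 - u) ^ ((1 : ℝ) / n) with hy
  have hy0 : 0 < y := Real.rpow_pos_of_pos h1u _
  have hy1 : y ≤ 1 := Real.rpow_le_one h1u.le (by linarith) (by positivity)
  have hyn : y ^ n = 1 - u := by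
    rw [hy, ← Real.rpow_natCast, ← Real.rpow_mul h1u.le]
    rw [one_div, inv_mul_cancel₀ hn0.ne', Real.rpow_one]
  have hly : Real.log y = Real.log (1 - u) / n := by
    rw [hy, Real.log_rpow h1u]; ring
  have h1 := pow_log_bound hn hy0 hy1
  rw [hyn, hly] at h1
  have h2 := neg_log_le hu0 hu1
  have h3 : ((n : ℝ) - 1) / n * (-Real.log (1 - u)) ≤ ((n : ℝ) - 1) / n *
      (u + u ^ 2 * (1 - u / 3 - u ^ 2 / 6 - u ^ 3 / 10) / (2 * (1 - u))) :=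
    mul_le_mul_of_nonneg_left h2 (div_nonneg (by linarith) hn0.le)
  have e1 : (1 : ℝ) + -u = 1 - u := by ring
  have e2 : WR.hm n (-u) = -u + n * (1 - y) := by
    unfold WR.hm; rw [e1, ← hy]; ring
  rw [e2]
  have e3 : ((n : ℝ) - 1) * (Real.log (1 - u) / n) = -(((n : ℝ) - 1) / n * (-Real.log (1 - u))) := by
    ring
  rw [e3] at h1
  have e4 : (1 - (1 - u)) / (n : ℝ) + ((n : ℝ) - 1) / n *
      (u + u ^ 2 * (1 - u / 3 - u ^ 2 / 6 - u ^ 3 / 10) / (2 * (1 - u))) =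
      u + ((n : ℝ) - 1) / (2 * n) * (u ^ 2 * (1 - u / 3 - u ^ 2 / 6 - u ^ 3 / 10) / (1 - u)) := by
    field_simp
    ring
  linarith

/-- `G_n(l) ≥ l²/(2n)` -/
lemma Gm_ge {n : ℕ} (hn : 1 ≤ n) {l : ℝ} (hl : 0 ≤ l) : l ^ 2 / (2 * n) ≤ WR.Gm n l := by
  have hn0 : (0 : ℝ) < n := by exact_mod_cast hn
  have h := Real.quadratic_le_exp_of_nonneg (x := l / n) (by positivity)
  unfold WR.Gm
  have : (n : ℝ) * (1 + l / n + (l / n) ^ 2 / 2) - n - l = l ^ 2 / (2 * n) := by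
    field_simp
    ring
  nlinarith [mul_le_mul_of_nonneg_left h hn0.le]

/-- `e^{2l} - 1 ≤ 2l (1 + l + 7l²/8)` for `0 ≤ l ≤ 1/2`, and the bound for `E/2 - l` -/
lemma exp_two_mul_le {l : ℝ} (hl0 : 0 ≤ l) (hl1 : l ≤ 1 / 2) :
    Real.exp (2 * l) - 1 ≤ 2 * l * (1 + l + 7 / 8 * l ^ 2) ∧
    (Real.exp (2 * l) - 1) / 2 - l ≤ 23 / 16 * l ^ 2 := by
  have h := Real.exp_bound' (x := 2 * l) (by linarith) (by linarith) (n := 4) (by norm_num)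
  have e : (∑ m ∈ Finset.range 4, (2 * l) ^ m / (m.factorial : ℝ)) + (2 * l) ^ 4 * ((4 : ℕ) + 1) /
      (((4 : ℕ).factorial : ℝ) * (4 : ℕ)) = 1 + 2 * l + 2 * l ^ 2 + 4 / 3 * l ^ 3 + 5 / 6 * l ^ 4 := by
    simp [Finset.sum_range_succ, Nat.factorial]
    ring
  rw [e] at h
  have h3 : l ^ 3 ≤ 1 / 2 * l ^ 2 := by nlinarith [sq_nonneg l]
  have h4 : l ^ 4 ≤ 1 / 2 * l ^ 3 := by nlinarith [pow_nonneg hl0 3]
  have h5 : l ^ 4 ≤ 1 / 4 * l ^ 2 := by linarith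
  constructor <;> nlinarith

/-- lower bound of `c R` for `l ≥ 0`, `s e^l ≤ 1` -/
lemma cR_ge {s l : ℝ} (hs : s ∈ Ioo (0 : ℝ) 1) (hl : 0 ≤ l) (hT : s * Real.exp l ≤ 1) :
    -((1 - cc s) / (1 + cc s) * ((Real.exp (2 * l) - 1) / 2 - l +
      (1 / 2 + cc s) * WR.Y s * (Real.exp (2 * l) - 1) ^ 2)) ≤ WR.cR s l := by
  have hc0 := WR.cc_pos' hs
  have hc2 := WR.cc_sq' hs
  set c := cc s with hc
  have hs0 := hs.1
  have hTpos : 0 < s * Real.exp l := mul_pos hs0 (Real.exp_pos _)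
  set d := cc (s * Real.exp l) with hd
  have hd0 : 0 ≤ d := cc_nonneg _
  have hE : Real.exp (2 * l) = Real.exp l ^ 2 := by rw [two_mul, Real.exp_add]; ring
  have hd2 : d ^ 2 = 1 - s ^ 2 * Real.exp (2 * l) := by
    rw [hd, cc_sq ⟨by linarith, hT⟩, hE]; ring
  have he1 : 1 ≤ Real.exp (2 * l) := Real.one_le_exp (by linarith)
  set E := Real.exp (2 * l) - 1 with hEdef
  have hE0 : 0 ≤ E := by rw [hEdef]; linarith
  have hsE : s ^ 2 * E = c ^ 2 - d ^ 2 := by rw [hEdef, hc2, hd2]; ring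
  have hdc : d ≤ c := by
    have : d ^ 2 ≤ c ^ 2 := by nlinarith [mul_nonneg (sq_nonneg s) hE0]
    exact abs_le_of_sq_le_sq' this hc0.le |>.2 |> fun h => by simpa [abs_of_nonneg hd0] using h
  have hs2 : s ^ 2 = (1 - c) * (1 + c) := by nlinarith
  have hc1 : c < 1 := by nlinarith [mul_pos hs0 hs0]
  have h1c : 0 < 1 - c := by linarith
  have hY : WR.Y s = s ^ 2 / c ^ 2 := by unfold WR.Y; rw [← hc2]
  -- the key inequality
  have key : c * (c - d) / (1 + d) ≤ (1 - c) * (E / 2 + (1 / 2 + c) * WR.Y s * E ^ 2) := by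
    have hEe : E = (c ^ 2 - d ^ 2) / ((1 - c) * (1 + c)) := by
      rw [← hs2, ← hsE]; field_simp
    have hYE : WR.Y s * E = (c ^ 2 - d ^ 2) / c ^ 2 := by rw [hY, ← hsE]; ring
    have e1 : (1 - c) * (E / 2 + (1 / 2 + c) * WR.Y s * E ^ 2) =
        (1 - c) * E / 2 * (1 + (1 + 2 * c) * (WR.Y s * E)) := by ring
    rw [e1, hYE, hEe, div_le_iff₀ (by linarith)]
    have e2 : (1 - c) * ((c ^ 2 - d ^ 2) / ((1 - c) * (1 + c))) / 2 *
        (1 + (1 + 2 * c) * ((c ^ 2 - d ^ 2) / c ^ 2)) * (1 + d) - c * (c - d) =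
        (c - d) * (d * (c - d) * (2 * c * (1 + c) ^ 2 + (1 + 2 * c) ^ 2 * d + (1 + 2 * c) * d ^ 2)) /
          (2 * c ^ 2 * (1 + c)) := by
      field_simp
      ring
    have h3 : 0 ≤ (c - d) * (d * (c - d) * (2 * c * (1 + c) ^ 2 + (1 + 2 * c) ^ 2 * d +
        (1 + 2 * c) * d ^ 2)) / (2 * c ^ 2 * (1 + c)) := by
      have : 0 ≤ c - d := by linarith
      positivity
    linarith
  have e3 : WR.cR s l = -((1 / (1 + c)) * (c * (c - d) / (1 + d))) + l * ((1 - c) / (1 + c)) := by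
    unfold WR.cR Phi
    rw [← hc, ← hd]
    have : (1 : ℝ) + d ≠ 0 := by linarith
    field_simp
    ring
  rw [e3]
  have h4 : (1 / (1 + c)) * (c * (c - d) / (1 + d)) ≤ (1 / (1 + c)) *
      ((1 - c) * (E / 2 + (1 / 2 + c) * WR.Y s * E ^ 2)) :=
    mul_le_mul_of_nonneg_left key (by positivity)
  have e5 : (1 - c) / (1 + c) * (E / 2 - l + (1 / 2 + c) * WR.Y s * E ^ 2) =
      (1 / (1 + c)) * ((1 - c) * (E / 2 + (1 / 2 + c) * WR.Y s * E ^ 2)) - l * ((1 - c) / (1 + c)) := by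
    ring
  rw [e5]
  linarith

lemma hm_nonneg_aux {u : ℝ} (hu0 : 0 ≤ u) (hu1 : u < 1) :
    0 ≤ u ^ 2 * (1 - u / 3 - u ^ 2 / 6 - u ^ 3 / 10) / (1 - u) := by
  have h1 : 0 ≤ 1 - u / 3 - u ^ 2 / 6 - u ^ 3 / 10 := by nlinarith [pow_nonneg hu0 2, pow_nonneg hu0 3]
  have h2 : 0 < 1 - u := by linarith
  positivity

/-- lower bound of `PP` by elementary functions -/
lemma PP_lower {n : ℕ} (hn : 8 ≤ n) {lm s l u : ℝ} (hs : s ∈ Ioo (0 : ℝ) 1) (hl0 : 0 ≤ l)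
    (hl1 : l ≤ 1 / 2) (hu0 : 0 ≤ u) (hu1 : u < 1) :
    u ^ 2 / (1 - u) * (WR.aq s - 4 / 5 - 3 * (WR.Y s * l) +
        (11 / 30 * u + 13 / 120 * u ^ 2 + 13 / 200 * u ^ 3)) - WR.Y s * l * u +
      (1 / 2 + 7 / (8 * n)) * (WR.Y s * l ^ 2) + ((n : ℝ) - 3) * (WR.Y s * l) ^ 2 + WR.cR s l ≤
    WR.PP n (((n : ℝ) + 7 / 4) / ((n : ℝ) - 1)) 3 1 0 lm s l (-u) := by
  have hnR : (8 : ℝ) ≤ n := by exact_mod_cast hn
  have hn0 : (0 : ℝ) < n := by linarith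
  have hn1 : (0 : ℝ) < (n : ℝ) - 1 := by linarith
  have h1u : 0 < 1 - u := by linarith
  have hY := WR.Y_nonneg hs
  set Y := WR.Y s with hYdef
  have hX0 := hm_nonneg_aux hu0 hu1
  set X := u ^ 2 * (1 - u / 3 - u ^ 2 / 6 - u ^ 3 / 10) / (1 - u) with hX
  -- Gm
  have g1 : ((n : ℝ) + 7 / 4) / ((n : ℝ) - 1) * (((n : ℝ) - 1) * Y * WR.Gm n l) ≥
      (1 / 2 + 7 / (8 * n)) * (Y * l ^ 2) := by
    have h := Gm_ge (n := n) (by omega) hl0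
    have h2 : Y * (l ^ 2 / (2 * n)) ≤ Y * WR.Gm n l := mul_le_mul_of_nonneg_left h hY
    have e1 : ((n : ℝ) + 7 / 4) / ((n : ℝ) - 1) * (((n : ℝ) - 1) * Y * WR.Gm n l) =
        ((n : ℝ) + 7 / 4) * (Y * WR.Gm n l) := by field_simp
    have e2 : (1 / 2 + 7 / (8 * (n : ℝ))) * (Y * l ^ 2) = ((n : ℝ) + 7 / 4) * (Y * (l ^ 2 / (2 * n))) := by
      field_simp; ring
    rw [e1, e2]
    exact mul_le_mul_of_nonneg_left h2 (by linarith)
  -- hm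
  have g2 : ((n : ℝ) + 7 / 4) / ((n : ℝ) - 1) * (Real.exp (l / n) * WR.hm n (-u)) ≤ 13 / 20 * X := by
    have h := hm_le (n := n) (by omega) hu0 hu1
    rw [← hX] at h
    have hexp : Real.exp (l / n) ≤ 16 / 15 := by
      have h1 : l / n ≤ 1 / 16 := by
        rw [div_le_iff₀ hn0]; nlinarith
      have h2 : 1 - (l / n) ≤ Real.exp (-(l / n)) := Real.one_sub_le_exp_neg _
      have h3 : (15 : ℝ) / 16 ≤ Real.exp (-(l / n)) := by linarith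
      have h4 : Real.exp (l / n) * Real.exp (-(l / n)) = 1 := by
        rw [← Real.exp_add]; simp
      have h5 := Real.exp_pos (l / n)
      nlinarith
    have e1 : ((n : ℝ) + 7 / 4) / ((n : ℝ) - 1) * (Real.exp (l / n) * WR.hm n (-u)) ≤
        ((n : ℝ) + 7 / 4) / ((n : ℝ) - 1) * (Real.exp (l / n) * (((n : ℝ) - 1) / (2 * n) * X)) :=
      mul_le_mul_of_nonneg_left (mul_le_mul_of_nonneg_left h (Real.exp_pos _).le)
        (div_nonneg (by linarith) hn1.le)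
    have e2 : ((n : ℝ) + 7 / 4) / ((n : ℝ) - 1) * (Real.exp (l / n) * (((n : ℝ) - 1) / (2 * n) * X)) =
        (1 / 2 + 7 / (8 * n)) * Real.exp (l / n) * X := by field_simp; ring
    have h7 : (1 : ℝ) / 2 + 7 / (8 * n) ≤ 39 / 64 := by
      have : (7 : ℝ) / (8 * n) ≤ 7 / 64 := by
        apply div_le_div_of_nonneg_left (by norm_num) (by norm_num); linarith
      linarith
    have h8 : (0 : ℝ) ≤ 1 / 2 + 7 / (8 * n) := by positivity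
    have h9 : (1 / 2 + 7 / (8 * (n : ℝ))) * Real.exp (l / n) ≤ 13 / 20 := by
      have := mul_le_mul h7 hexp (Real.exp_pos _).le (by norm_num)
      linarith
    calc _ ≤ _ := e1
      _ = _ := e2
      _ ≤ _ := mul_le_mul_of_nonneg_right h9 hX0
  have g3 : (3 : ℝ) / (2 * ((n : ℝ) + 2)) * (-u) ^ 2 ≤ 3 / 20 * u ^ 2 := by
    have : (3 : ℝ) / (2 * ((n : ℝ) + 2)) ≤ 3 / 20 := by
      apply div_le_div_of_nonneg_left (by norm_num) (by norm_num); linarith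
    have h := mul_le_mul_of_nonneg_right this (sq_nonneg u)
    linarith [h, neg_sq u]
  have e1 : WR.KK (-u) = u ^ 2 / (1 - u) := by unfold WR.KK; rw [neg_sq]; ring_nf
  have e2 : u ^ 2 / (1 - u) * (WR.aq s - 4 / 5 - 3 * (Y * l) +
        (11 / 30 * u + 13 / 120 * u ^ 2 + 13 / 200 * u ^ 3)) =
      (WR.aq s - 3 * Y * l) * (u ^ 2 / (1 - u)) - 13 / 20 * X - 3 / 20 * u ^ 2 := by
    rw [hX]
    field_simp
    ring
  unfold WR.PP
  rw [e1, e2, ← hYdef]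
  have e3 : ((n : ℝ) + 7 / 4) / ((n : ℝ) - 1) * (((n : ℝ) - 1) * Y * WR.Gm n l -
      Real.exp (l / n) * WR.hm n (-u)) = ((n : ℝ) + 7 / 4) / ((n : ℝ) - 1) *
      (((n : ℝ) - 1) * Y * WR.Gm n l) - ((n : ℝ) + 7 / 4) / ((n : ℝ) - 1) *
      (Real.exp (l / n) * WR.hm n (-u)) := by ring
  rw [e3]
  linarith [g1, g2, g3]

/-! ### polynomial inequalities in one variable (Bernstein form) -/

lemma G1 {t : ℝ} (h0 : 0 ≤ t) (h1 : t ≤ 2 / 5) :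
    0 ≤ 4 * (3 / 50 + t / 2 + 41 / 5 * t ^ 2) * (1 / 5 + 101 / 120 * t + 13 / 10 * t ^ 2 + 52 / 25 * t ^ 3) -
      t * (1 + (3 / 50 + t / 2 + 41 / 5 * t ^ 2) + 22 / 15 * t + 26 / 15 * t ^ 2 + 78 / 25 * t ^ 3) ^ 2 := by
  have hH : 0 ≤ 2 / 5 - t := by linarith
  have e : 4 * (3 / 50 + t / 2 + 41 / 5 * t ^ 2) * (1 / 5 + 101 / 120 * t + 13 / 10 * t ^ 2 + 52 / 25 * t ^ 3) -
      t * (1 + (3 / 50 + t / 2 + 41 / 5 * t ^ 2) + 22 / 15 * t + 26 / 15 * t ^ 2 + 78 / 25 * t ^ 3) ^ 2 =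
      1875 / 64 * (2 / 5 - t) ^ 7 + 4975 / 64 * t ^ 1 * (2 / 5 - t) ^ 6 +
      35775 / 128 * t ^ 2 * (2 / 5 - t) ^ 5 + 1707949 / 1152 * t ^ 3 * (2 / 5 - t) ^ 4 +
      5302321 / 1440 * t ^ 4 * (2 / 5 - t) ^ 3 + 1486109 / 360 * t ^ 5 * (2 / 5 - t) ^ 2 +
      5916623 / 3200 * t ^ 6 * (2 / 5 - t) ^ 1 + 11340573 / 80000 * t ^ 7 := by ring
  rw [e]
  positivity

lemma D10 {t : ℝ} (h0 : 0 ≤ t) (h1 : t ≤ 2 / 5) :
    0 ≤ 4 * (3 / 50 + t / 2 + 41 / 5 * t ^ 2) * (1 / 5 + 11 / 8 * t) - t := by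
  have hH : 0 ≤ 2 / 5 - t := by linarith
  have e : 4 * (3 / 50 + t / 2 + 41 / 5 * t ^ 2) * (1 / 5 + 11 / 8 * t) - t =
      3 / 4 * (2 / 5 - t) ^ 3 + 9 / 16 * t ^ 1 * (2 / 5 - t) ^ 2 +
      443 / 20 * t ^ 2 * (2 / 5 - t) ^ 1 + 1079 / 16 * t ^ 3 := by ring
  rw [e]
  positivity

lemma D11 {t : ℝ} (h0 : 0 ≤ t) (h1 : t ≤ 2 / 5) :
    0 ≤ 4 * (3 / 50 + t / 2 + 41 / 5 * t ^ 2) * (2 / 5 + 3 / 4 * t - t) * (1 / 5 * (2 / 5 + 3 / 4 * t) + 11 / 8 * t * (2 / 5 + 3 / 4 * t) + 11 / 30 * t) -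
      t * (2 / 5 + 3 / 4 * t + 2 * t) ^ 2 := by
  have hH : 0 ≤ 2 / 5 - t := by linarith
  have e : 4 * (3 / 50 + t / 2 + 41 / 5 * t ^ 2) * (2 / 5 + 3 / 4 * t - t) * (1 / 5 * (2 / 5 + 3 / 4 * t) + 11 / 8 * t * (2 / 5 + 3 / 4 * t) + 11 / 30 * t) -
      t * (2 / 5 + 3 / 4 * t + 2 * t) ^ 2 =
      3 / 4 * (2 / 5 - t) ^ 5 + 61 / 16 * t ^ 1 * (2 / 5 - t) ^ 4 +
      2909 / 960 * t ^ 2 * (2 / 5 - t) ^ 3 + 120011 / 3840 * t ^ 3 * (2 / 5 - t) ^ 2 +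
      24187 / 320 * t ^ 4 * (2 / 5 - t) ^ 1 + 45879 / 1280 * t ^ 5 := by ring
  rw [e]
  positivity

lemma F3 {c : ℝ} (h0 : 3 / 5 ≤ c) (h1 : c ≤ 1) :
    0 ≤ (1 / 2 * (1 + c) ^ 2 - 23 / 16 * c ^ 2) * c ^ 2 - 3 / 50 * (1 + c) ^ 3 := by
  have hL : 0 ≤ c - 3 / 5 := by linarith
  have hH : 0 ≤ 1 - c := by linarith
  have e : (1 / 2 * (1 + c) ^ 2 - 23 / 16 * c ^ 2) * c ^ 2 - 3 / 50 * (1 + c) ^ 3 =
      1437 / 1280 * (1 - c) ^ 4 + 3483 / 320 * (c - 3 / 5) ^ 1 * (1 - c) ^ 3 +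
      3307 / 128 * (c - 3 / 5) ^ 2 * (1 - c) ^ 2 + 1295 / 64 * (c - 3 / 5) ^ 3 * (1 - c) ^ 1 +
      825 / 256 * (c - 3 / 5) ^ 4 := by ring
  rw [e]
  positivity

lemma F4 {c : ℝ} (h0 : 3 / 5 ≤ c) (h1 : c ≤ 1) :
    0 ≤ (41 / 5 * c - 37 / 10) * (1 + c) ^ 2 -
      (2 + 4 * c) * c ^ 2 * (1 + (11 * c - 3) / 16 + 7 / 8 * ((11 * c - 3) / 16) ^ 2) ^ 2 := by
  have hL : 0 ≤ c - 3 / 5 := by linarith
  have hH : 0 ≤ 1 - c := by linarith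
  have e : (41 / 5 * c - 37 / 10) * (1 + c) ^ 2 -
      (2 + 4 * c) * c ^ 2 * (1 + (11 * c - 3) / 16 + 7 / 8 * ((11 * c - 3) / 16) ^ 2) ^ 2 =
      5849032109 / 16777216 * (1 - c) ^ 7 + 82788978415 / 16777216 * (c - 3 / 5) ^ 1 * (1 - c) ^ 6 +
      362720530475 / 16777216 * (c - 3 / 5) ^ 2 * (1 - c) ^ 5 +
      753478283625 / 16777216 * (c - 3 / 5) ^ 3 * (1 - c) ^ 4 +
      51812937375 / 1048576 * (c - 3 / 5) ^ 4 * (1 - c) ^ 3 +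
      14770031875 / 524288 * (c - 3 / 5) ^ 5 * (1 - c) ^ 2 +
      27871875 / 4096 * (c - 3 / 5) ^ 6 * (1 - c) ^ 1 + 11015625 / 65536 * (c - 3 / 5) ^ 7 := by ring
  rw [e]
  positivity

lemma f2 {u : ℝ} (h0 : 0 ≤ u) (h1 : u ≤ 1) :
    0 ≤ 41 / 100 * (41 / 25 - u) * (1 - u) - 12 / 25 * u ^ 2 + 11 / 30 * u ^ 3 + 13 / 120 * u ^ 4 + 13 / 200 * u ^ 5 := by
  rcases le_or_gt u (1 / 2) with hb0 | hb0
  · have hH : 0 ≤ 1 / 2 - u := by linarith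
    have e : 41 / 100 * (41 / 25 - u) * (1 - u) - 12 / 25 * u ^ 2 + 11 / 30 * u ^ 3 + 13 / 120 * u ^ 4 + 13 / 200 * u ^ 5 =
      13448 / 625 * (1 / 2 - u) ^ 5 + 56416 / 625 * u ^ 1 * (1 / 2 - u) ^ 4 +
      90834 / 625 * u ^ 2 * (1 / 2 - u) ^ 3 + 208208 / 1875 * u ^ 3 * (1 / 2 - u) ^ 2 +
      99451 / 2500 * u ^ 4 * (1 / 2 - u) ^ 1 + 80801 / 15000 * u ^ 5 := by ring
    rw [e]
    positivity
  rcases le_or_gt u (3 / 4) with hb1 | hb1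
  · have hL : 0 ≤ u - 1 / 2 := by linarith
    have hH : 0 ≤ 3 / 4 - u := by linarith
    have e : 41 / 100 * (41 / 25 - u) * (1 - u) - 12 / 25 * u ^ 2 + 11 / 30 * u ^ 3 + 13 / 120 * u ^ 4 + 13 / 200 * u ^ 5 =
      323204 / 1875 * (3 / 4 - u) ^ 5 + 410206 / 625 * (u - 1 / 2) ^ 1 * (3 / 4 - u) ^ 4 +
      1777282 / 1875 * (u - 1 / 2) ^ 2 * (3 / 4 - u) ^ 3 +
      400851 / 625 * (u - 1 / 2) ^ 3 * (3 / 4 - u) ^ 2 +
      508991 / 2500 * (u - 1 / 2) ^ 4 * (3 / 4 - u) ^ 1 + 131147 / 5000 * (u - 1 / 2) ^ 5 := by ring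
    rw [e]
    positivity
  have hL : 0 ≤ u - 3 / 4 := by linarith
  have hH : 0 ≤ 1 - u := by linarith
  have e : 41 / 100 * (41 / 25 - u) * (1 - u) - 12 / 25 * u ^ 2 + 11 / 30 * u ^ 3 + 13 / 120 * u ^ 4 + 13 / 200 * u ^ 5 =
      131147 / 5000 * (1 - u) ^ 5 + 36686 / 625 * (u - 3 / 4) ^ 1 * (1 - u) ^ 4 +
      38604 / 625 * (u - 3 / 4) ^ 2 * (1 - u) ^ 3 +
      210608 / 1875 * (u - 3 / 4) ^ 3 * (1 - u) ^ 2 +
      270752 / 1875 * (u - 3 / 4) ^ 4 * (1 - u) ^ 1 + 1536 / 25 * (u - 3 / 4) ^ 5 := by ring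
  rw [e]
  positivity

lemma G2 {y : ℝ} (h0 : 0 ≤ y) (h1 : y ≤ 9 / 16) :
    0 ≤ (7 / 50 + 7 / 2 * y + 23 / 10 * y ^ 2) * (1 / 5 + 3 / 5 * y + 117 / 160 * y ^ 2) -
      y * (1 / 2 + (7 / 50 + 7 / 2 * y + 23 / 10 * y ^ 2) / 4 + 33 / 40 * y + 117 / 160 * y ^ 2) ^ 2 := by
  have hH : 0 ≤ 9 / 16 - y := by linarith
  have e : (7 / 50 + 7 / 2 * y + 23 / 10 * y ^ 2) * (1 / 5 + 3 / 5 * y + 117 / 160 * y ^ 2) -
      y * (1 / 2 + (7 / 50 + 7 / 2 * y + 23 / 10 * y ^ 2) / 4 + 33 / 40 * y + 117 / 160 * y ^ 2) ^ 2 =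
      3670016 / 7381125 * (9 / 16 - y) ^ 5 + 275250176 / 36905625 * y ^ 1 * (9 / 16 - y) ^ 4 +
      1092382144 / 36905625 * y ^ 2 * (9 / 16 - y) ^ 3 +
      1768519006 / 36905625 * y ^ 3 * (9 / 16 - y) ^ 2 +
      4352397161 / 147622500 * y ^ 4 * (9 / 16 - y) ^ 1 + 94300843999 / 37791360000 * y ^ 5 := by ring
  rw [e]
  positivity

lemma G3 {t : ℝ} (h0 : 1 / 5 ≤ t) (h1 : t ≤ 2 / 5) :
    0 ≤ 4 * ((421 / 2000 + 49 / 100 * t) ^ 2 * (73 / 20 + 13 / 2 * t)) * (1 / 5 + 11 / 8 * t - 2 * (421 / 2000 + 49 / 100 * t) + 8698 / 9375) -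
      ((421 / 2000 + 49 / 100 * t) + (421 / 2000 + 49 / 100 * t) ^ 2 * (73 / 20 + 13 / 2 * t) + 6648 / 15625) ^ 2 := by
  have hL : 0 ≤ t - 1 / 5 := by linarith
  have hH : 0 ≤ 2 / 5 - t := by linarith
  have e : 4 * ((421 / 2000 + 49 / 100 * t) ^ 2 * (73 / 20 + 13 / 2 * t)) * (1 / 5 + 11 / 8 * t - 2 * (421 / 2000 + 49 / 100 * t) + 8698 / 9375) -
      ((421 / 2000 + 49 / 100 * t) + (421 / 2000 + 49 / 100 * t) ^ 2 * (73 / 20 + 13 / 2 * t) + 6648 / 15625) ^ 2 =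
      182654737729559 / 409600000000 * (2 / 5 - t) ^ 6 +
      3782332472079181 / 614400000000 * (t - 1 / 5) ^ 1 * (2 / 5 - t) ^ 5 +
      9577836471914169 / 409600000000 * (t - 1 / 5) ^ 2 * (2 / 5 - t) ^ 4 +
      4055322206322961 / 102400000000 * (t - 1 / 5) ^ 3 * (2 / 5 - t) ^ 3 +
      40538156716422107 / 1228800000000 * (t - 1 / 5) ^ 4 * (2 / 5 - t) ^ 2 +
      514091134319843 / 40960000000 * (t - 1 / 5) ^ 5 * (2 / 5 - t) ^ 1 +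
      24381896054271 / 16384000000 * (t - 1 / 5) ^ 6 := by ring
  rw [e]
  positivity

lemma F6 {c : ℝ} (h0 : 3 / 5 ≤ c) (h1 : c ≤ 1) :
    0 ≤ (13 / 2 * c - 2) * (1 + c) ^ 2 - (2 + 4 * c) * c ^ 2 * (55 / 32) ^ 2 := by
  have hL : 0 ≤ c - 3 / 5 := by linarith
  have hH : 0 ≤ 1 - c := by linarith
  have e : (13 / 2 * c - 2) * (1 + c) ^ 2 - (2 + 4 * c) * c ^ 2 * (55 / 32) ^ 2 =
      11821 / 4096 * (1 - c) ^ 3 + 108895 / 4096 * (c - 3 / 5) ^ 1 * (1 - c) ^ 2 +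
      136475 / 4096 * (c - 3 / 5) ^ 2 * (1 - c) ^ 1 + 17625 / 4096 * (c - 3 / 5) ^ 3 := by ring
  rw [e]
  positivity



end Crest.Agent.R230.B6
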