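import Crest.Agent.R230.B6reg

/-!
# Row 230: block B6 (case II, `l ≥ 0`, `-1 < k ≤ 0`) for all Lean `n ≥ 8` (dimension `≥ 9`)

`b6_big` : `0 ≤ PP n ((n+7/4)/(n-1)) 3 1 0 lm s l k`, with `l = 0` in the case of equality, for
`0 < s < 1`, `0 ≤ l ≤ 1/2`, `s exp l ≤ 1`, `-1 < k ≤ 0` and (only for `n ≤ 10`) `l (1+c) ≤ c²`.
-/

set_option autoImplicit false

open Set

namespace Crest.Agent.R230.B6

/-- the bound of `ρ` for `l ≤ 1/2` -/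
lemma rho_half {c l w : ℝ} (hc0 : 3 / 5 ≤ c) (hc1 : c < 1) (hw : w = (c / (1 + c)) ^ 2)
    (hl0 : 0 ≤ l) (hl1 : l ≤ 1 / 2) :
    (2 + 4 * c) * w * (1 + l + 7 / 8 * l ^ 2) ^ 2 ≤ 13 / 2 * c - 2 := by
  have h1c : (0 : ℝ) < 1 + c := by linarith
  have he : 1 + l + 7 / 8 * l ^ 2 ≤ 55 / 32 := by nlinarith
  have he2 : (1 + l + 7 / 8 * l ^ 2) ^ 2 ≤ (55 / 32) ^ 2 := pow_le_pow_left₀ (by positivity) he 2
  have hF6 := F6 hc0 hc1.le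
  have hcp : (0 : ℝ) < c := by linarith
  have h1 : (2 + 4 * c) * c ^ 2 * (1 + l + 7 / 8 * l ^ 2) ^ 2 ≤ (13 / 2 * c - 2) * (1 + c) ^ 2 := by
    have := mul_le_mul_of_nonneg_left he2 (by positivity : 0 ≤ (2 + 4 * c) * c ^ 2)
    linarith
  have e : (2 + 4 * c) * w * (1 + l + 7 / 8 * l ^ 2) ^ 2 =
      (2 + 4 * c) * c ^ 2 * (1 + l + 7 / 8 * l ^ 2) ^ 2 / (1 + c) ^ 2 := by
    rw [hw]; field_simp
  rw [e, div_le_iff₀ (by positivity)]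
  exact h1

lemma coreIa_a {c y : ℝ} (hc0 : 4 / 5 ≤ c) (hc1 : c < 1) (hyc : y * c ^ 2 = 1 - c ^ 2) :
    1 / 5 + y / 2 ≤ 2 - 2 * c ^ 2 / (1 + c) - 4 / 5 := by
  have h1c : (0 : ℝ) < 1 + c := by linarith
  have hcp : (0 : ℝ) < c := by linarith
  have h1 : 2 * c ^ 2 / (1 + c) + y / 2 ≤ 1 := by
    have hy : y = (1 - c ^ 2) / c ^ 2 := by rw [← hyc]; field_simp
    have e : 1 - (2 * c ^ 2 / (1 + c) + y / 2) =
        (1 - c) * (2 * c ^ 2 * (1 + 2 * c) - (1 + c) ^ 2) / (2 * c ^ 2 * (1 + c)) := by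
      rw [hy]; field_simp; ring
    have h2 : 0 ≤ 2 * c ^ 2 * (1 + 2 * c) - (1 + c) ^ 2 := by
      nlinarith [mul_nonneg hcp.le hcp.le]
    have h3 : 0 ≤ (1 - c) * (2 * c ^ 2 * (1 + 2 * c) - (1 + c) ^ 2) / (2 * c ^ 2 * (1 + c)) := by
      have : 0 ≤ 1 - c := by linarith
      positivity
    linarith
  linarith

lemma coreIa_Q {c y : ℝ} (hc0 : 4 / 5 ≤ c) (hc1 : c < 1) (hyc : y * c ^ 2 = 1 - c ^ 2) :
    23 / 10 * y ≤ 13 / 2 * (1 - c) := by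
  have hcp : (0 : ℝ) < c := by linarith
  have h1 : 23 / 10 * y * c ^ 2 ≤ 13 / 2 * (1 - c) * c ^ 2 := by
    have e : 23 / 10 * y * c ^ 2 = 23 / 10 * (1 - c) * (1 + c) := by
      calc 23 / 10 * y * c ^ 2 = 23 / 10 * (y * c ^ 2) := by ring
        _ = _ := by rw [hyc]; ring
    rw [e]
    have h2 : 23 / 10 * (1 + c) ≤ 13 / 2 * c ^ 2 := by nlinarith
    have h3 := mul_le_mul_of_nonneg_left h2 (by linarith : (0 : ℝ) ≤ 1 - c)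
    linarith
  exact le_of_mul_le_mul_right h1 (by positivity)

/-- region Ia, `n ≥ 11`, `c ≥ 4/5` -/
lemma coreIa {c y l z w u b R M : ℝ} (hc0 : 4 / 5 ≤ c) (hc1 : c < 1)
    (hw : w = (c / (1 + c)) ^ 2) (hl0 : 0 ≤ l) (hl1 : l ≤ 1 / 2) (hyc : y * c ^ 2 = 1 - c ^ 2)
    (hz : z = y * l) (hy0 : 0 ≤ y) (hu0 : 0 ≤ u) (hu1 : u < 1) (hb : b = be u) (hM : 8 ≤ M)
    (hL : y * l ^ 2 * (1 / 2 - 23 / 16 * w) - (2 + 4 * c) * w * (1 + l + 7 / 8 * l ^ 2) ^ 2 * z ^ 2 ≤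
      1 / 2 * (y * l ^ 2) + R) :
    0 ≤ u ^ 2 * (2 - 2 * c ^ 2 / (1 + c) - 4 / 5 - 3 * z + b) +
      (1 - u) * (1 / 2 * (y * l ^ 2) + M * z ^ 2 + R - z * u) := by
  have h1c : (0 : ℝ) < 1 + c := by linarith
  have hcp : (0 : ℝ) < c := by linarith
  have hρ := rho_half (by linarith : 3 / 5 ≤ c) hc1 hw hl0 hl1
  have hw4 : w ≤ 1 / 4 := by
    have h1 : c / (1 + c) ≤ 1 / 2 := by rw [div_le_iff₀ h1c]; linarith
    have h2 : 0 ≤ c / (1 + c) := by positivity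
    have h3 := pow_le_pow_left₀ h2 h1 2
    rw [hw]; norm_num at h3 ⊢; linarith
  have hy1 : y ≤ 9 / 16 := by
    have h0 : (4 / 5) ^ 2 ≤ c ^ 2 := pow_le_pow_left₀ (by norm_num) hc0 2
    have h1 : y * (4 / 5) ^ 2 ≤ y * c ^ 2 := mul_le_mul_of_nonneg_left h0 hy0
    norm_num at h0 h1
    linarith
  have ha := coreIa_a hc0 hc1 hyc
  have hQ := coreIa_Q hc0 hc1 hyc
  have hreg := regionIa hy0 hy1 ha hu0 hu1 hl1
  have h3 := mul_le_mul_of_nonneg_right hρ (sq_nonneg z)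
  have h4 : (8 : ℝ) * z ^ 2 ≤ M * z ^ 2 := mul_le_mul_of_nonneg_right hM (sq_nonneg z)
  have h5 : y * l ^ 2 * (7 / 50) ≤ y * l ^ 2 * (1 / 2 - 23 / 16 * w) :=
    mul_le_mul_of_nonneg_left (by linarith) (by positivity)
  have h6 : 23 / 10 * y * z ^ 2 ≤ 13 / 2 * (1 - c) * z ^ 2 := mul_le_mul_of_nonneg_right hQ (sq_nonneg z)
  have h7 : (7 / 50 + 7 / 2 * y + 23 / 10 * y ^ 2) * (y * l ^ 2) ≤
      1 / 2 * (y * l ^ 2) + M * z ^ 2 + R := by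
    have e : (7 / 50 + 7 / 2 * y + 23 / 10 * y ^ 2) * (y * l ^ 2) =
        y * l ^ 2 * (7 / 50) + 7 / 2 * z ^ 2 + 23 / 10 * y * z ^ 2 := by rw [hz]; ring
    rw [e]
    linarith
  have h8 := mul_le_mul_of_nonneg_right h7 (by linarith : (0 : ℝ) ≤ 1 - u)
  have e9 : u ^ 2 * (2 - 2 * c ^ 2 / (1 + c) - 4 / 5 - 3 * z + b) +
      (1 - u) * (1 / 2 * (y * l ^ 2) + M * z ^ 2 + R - z * u) =
      (y * (7 / 50 + 7 / 2 * y + 23 / 10 * y ^ 2) * (1 - u) * l ^ 2 - y * u * (1 + 2 * u) * l +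
      u ^ 2 * (2 - 2 * c ^ 2 / (1 + c) - 4 / 5 + be u)) +
      ((1 / 2 * (y * l ^ 2) + M * z ^ 2 + R) * (1 - u) -
      (7 / 50 + 7 / 2 * y + 23 / 10 * y ^ 2) * (y * l ^ 2) * (1 - u)) := by
    rw [hb, hz]; ring
  rw [e9]
  linarith

/-- region Ib, `n ≥ 11`, `3/5 ≤ c ≤ 4/5` -/
lemma coreIb {c s y l z w u b R M : ℝ} (hc0 : 3 / 5 ≤ c) (hc1 : c ≤ 4 / 5) (hs0 : 0 < s)
    (hc2 : c ^ 2 = 1 - s ^ 2)
    (hw : w = (c / (1 + c)) ^ 2) (hl0 : 0 ≤ l) (hl1 : l ≤ 1 / 2) (hyc : y * c ^ 2 = 1 - c ^ 2)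
    (hz : z = y * l) (hzs : z ≤ s / 2) (hu0 : 0 ≤ u) (hu1 : u < 1) (hb : b = be u)
    (hM : 8 ≤ M)
    (hL : y * l ^ 2 * (1 / 2 - 23 / 16 * w) - (2 + 4 * c) * w * (1 + l + 7 / 8 * l ^ 2) ^ 2 * z ^ 2 ≤
      1 / 2 * (y * l ^ 2) + R) :
    0 ≤ u ^ 2 * (2 - 2 * c ^ 2 / (1 + c) - 4 / 5 - 3 * z + b) +
      (1 - u) * (1 / 2 * (y * l ^ 2) + M * z ^ 2 + R - z * u) := by
  have h1c : (0 : ℝ) < 1 + c := by linarith
  have hcp : (0 : ℝ) < c := by linarith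
  have ht0 : 0 < 1 - c := by linarith
  have hρ := rho_half hc0 (by linarith) hw hl0 hl1
  rw [hb]
  refine red (Q := 73 / 20 + 13 / 2 * (1 - c)) hu1 ?_ ?_
  · refine regionIb (t := 1 - c) (by linarith) (by linarith) ?_ hu0 hu1 ?_
    · have h1 : 2 * c ^ 2 / (1 + c) ≤ 1 - 11 / 8 * (1 - c) := by
        rw [div_le_iff₀ h1c]
        have := mul_nonneg (by linarith : (0 : ℝ) ≤ c - 3 / 5) ht0.le
        linarith
      linarith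
    · have h1 : s ≤ 421 / 1000 + 98 / 100 * (1 - c) := by
        have h2 : s ^ 2 ≤ (421 / 1000 + 98 / 100 * (1 - c)) ^ 2 := by
          have := sq_nonneg (c - 7 / 10)
          linarith
        exact (pow_le_pow_iff_left₀ hs0.le (by linarith) two_ne_zero).1 h2
      linarith
  · have h3 := mul_le_mul_of_nonneg_right hρ (sq_nonneg z)
    have h4 : (8 : ℝ) * z ^ 2 ≤ M * z ^ 2 := mul_le_mul_of_nonneg_right hM (sq_nonneg z)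
    have hF3 := F3 hc0 (by linarith)
    have h5 : 3 / 20 * z ^ 2 ≤ y * l ^ 2 * (1 / 2 - 23 / 16 * w) := by
      have e1 : y * l ^ 2 * (1 / 2 - 23 / 16 * w) = z ^ 2 *
          ((1 / 2 * (1 + c) ^ 2 - 23 / 16 * c ^ 2) * c ^ 2 / ((1 - c) * (1 + c) ^ 3)) := by
        have hy : y = (1 - c ^ 2) / c ^ 2 := by rw [← hyc]; field_simp
        rw [hz, hw, hy]
        field_simp
        ring
      rw [e1, mul_comm (3 / 20 : ℝ)]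
      apply mul_le_mul_of_nonneg_left _ (sq_nonneg z)
      rw [le_div_iff₀ (by positivity)]
      have h6 : 0 < (1 + c) ^ 3 := by positivity
      have h7 := mul_le_mul_of_nonneg_right (by linarith : 1 - c ≤ 2 / 5) h6.le
      linarith
    linarith

/-- the core inequality -/
lemma core {n : ℕ} (hn : 8 ≤ n) {s l u : ℝ} (hs : s ∈ Ioo (0 : ℝ) 1) (hl0 : 0 ≤ l)
    (hl1 : l ≤ 1 / 2) (hT : s * Real.exp l ≤ 1) (hu0 : 0 ≤ u) (hu1 : u < 1)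
    (hleg : n ≤ 10 → l * (1 + cc s) ≤ cc s ^ 2) :
    0 ≤ u ^ 2 * (WR.aq s - 4 / 5 - 3 * (WR.Y s * l) + be u) +
      (1 - u) * (1 / 2 * (WR.Y s * l ^ 2) + ((n : ℝ) - 3) * (WR.Y s * l) ^ 2 + WR.cR s l -
        WR.Y s * l * u) := by
  have hnR : (8 : ℝ) ≤ n := by exact_mod_cast hn
  have hc0 := WR.cc_pos' hs
  have hc2 := WR.cc_sq' hs
  have hL := L_ge hs hl0 hl1 hT
  have hY0 := WR.Y_nonneg hs
  have hY : WR.Y s = (1 - cc s ^ 2) / cc s ^ 2 := WR.Y_eq hs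
  have hc1 : cc s < 1 := by nlinarith [mul_pos hs.1 hs.1]
  have hlT := l_le_of_T hs hl0 hT
  have hyc : WR.Y s * cc s ^ 2 = 1 - cc s ^ 2 := by rw [hY]; field_simp
  have hzs : WR.Y s * l ≤ s / 2 :=
    zs_aux hs.1 hc0 (by rw [hyc, hc2]; ring) (by rw [hc2]; exact hlT)
  rw [aq_eq]
  rcases le_or_gt (cc s) (3 / 5) with hc35 | hc35
  · exact coreII hc0 hc35 hs.1 hc2 rfl hl0 (by rw [hc2]; exact hlT) hY0 hzs hu0 hu1 rfl
      (by linarith) hL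
  · rcases le_or_gt n 10 with h10 | h10
    · exact coreI hc35 hc1 rfl hl0 hyc (hleg h10) rfl hu0 hu1 rfl (by linarith) hL
    · have hn11 : (11 : ℝ) ≤ n := by exact_mod_cast h10
      rcases le_or_gt (4 / 5) (cc s) with hc45 | hc45
      · exact coreIa hc45 hc1 rfl hl0 hl1 hyc rfl hY0 hu0 hu1 rfl (by linarith) hL
      · exact coreIb hc35.le hc45.le hs.1 hc2 rfl hl0 hl1 hyc rfl hzs hu0 hu1 rfl (by linarith) hL

/-- **Block B6 for Lean `n ≥ 8`** (dimension `≥ 9`): case II, `l ≥ 0`, `-1 < k ≤ 0`. -/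
theorem b6_big {n : ℕ} (hn : 8 ≤ n) {lm s l k : ℝ} (hs : s ∈ Ioo (0 : ℝ) 1) (hl0 : 0 ≤ l)
    (hl1 : l ≤ 1 / 2) (hT : s * Real.exp l ≤ 1) (hk0 : -1 < k) (hk1 : k ≤ 0)
    (hleg : n ≤ 10 → l * (1 + cc s) ≤ cc s ^ 2) :
    0 ≤ WR.PP n (((n : ℝ) + 7 / 4) / ((n : ℝ) - 1)) 3 1 0 lm s l k ∧
    (WR.PP n (((n : ℝ) + 7 / 4) / ((n : ℝ) - 1)) 3 1 0 lm s l k = 0 → l = 0) := by
  have hnR : (8 : ℝ) ≤ n := by exact_mod_cast hn
  have hu0 : 0 ≤ -k := by linarith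
  have hu1 : -k < 1 := by linarith
  have h1 := PP_lower (lm := lm) hn hs hl0 hl1 hu0 hu1
  have h2 := core hn hs hl0 hl1 hT hu0 hu1 hleg
  rw [neg_neg] at h1
  have hY : 0 < WR.Y s := div_pos (pow_pos hs.1 2) (WR.one_sub_sq_pos hs)
  have h1u : 0 < 1 - -k := by linarith
  have key : 7 / (8 * n) * (WR.Y s * l ^ 2) ≤
      WR.PP n (((n : ℝ) + 7 / 4) / ((n : ℝ) - 1)) 3 1 0 lm s l k := by
    have e : (-k) ^ 2 / (1 - -k) * (WR.aq s - 4 / 5 - 3 * (WR.Y s * l) +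
        (11 / 30 * -k + 13 / 120 * (-k) ^ 2 + 13 / 200 * (-k) ^ 3)) - WR.Y s * l * -k +
      (1 / 2 + 7 / (8 * n)) * (WR.Y s * l ^ 2) + ((n : ℝ) - 3) * (WR.Y s * l) ^ 2 + WR.cR s l =
      7 / (8 * n) * (WR.Y s * l ^ 2) +
      ((-k) ^ 2 * (WR.aq s - 4 / 5 - 3 * (WR.Y s * l) + be (-k)) +
      (1 - -k) * (1 / 2 * (WR.Y s * l ^ 2) + ((n : ℝ) - 3) * (WR.Y s * l) ^ 2 + WR.cR s l -
        WR.Y s * l * -k)) / (1 - -k) := by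
      unfold be
      field_simp
      ring
    rw [e] at h1
    have h3 := div_nonneg h2 h1u.le
    linarith
  have h4 : 0 ≤ 7 / (8 * (n : ℝ)) * (WR.Y s * l ^ 2) := by positivity
  refine ⟨h4.trans key, fun h0 => ?_⟩
  rw [h0] at key
  by_contra hne
  have : 0 < l := lt_of_le_of_ne hl0 (Ne.symm hne)
  have : 0 < 7 / (8 * (n : ℝ)) * (WR.Y s * l ^ 2) := by positivity
  linarith

end Crest.Agent.R230.B6
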