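import Crest.Agent.R230.HmBound
import Crest.Agent.R230.CRbound

/-!
# Row 230, block B6 (case II, `l ≥ 0`, `k ≤ 0`): tools

* `hm_le_neg3` : sharper upper bound for `hm n k`, `k ≤ 0`;
* `cR_ge_rho` : `cR ≥ - ρ Y l²` from a polynomial inequality in `c = cc s`, `v = cc (s e^l)`;
* `Yl_le_quart` : `Y l ≤ 1/2 - c²/4 - c⁴/12` if `s e^l ≤ 1`;
* `Vpos`, `B6_main` : positivity of `PP` from a polynomial inequality in `(c,u)`, `u = -k`.
-/

set_option autoImplicit false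

open MeasureTheory Set Filter Topology

namespace Crest.Agent.R230.WR

/-- the cubic factor -/
noncomputable def rr (p u : ℝ) : ℝ :=
  1 - (1 + p) / 3 * u - (1 + p) * (2 - p) / 12 * u ^ 2 - (1 + p) * (2 - p) * (3 - p) / 60 * u ^ 3

theorem taylor5 {p : ℝ} (hp0 : 0 ≤ p) (hp1 : p ≤ 1) {x : ℝ} (hx : x ∈ Ioc (0 : ℝ) 1) :
    0 ≤ x ^ (p + 1) - 1 + (1 + p) * (1 - x) - (1 + p) * p / 2 * (1 - x) ^ 2 -
      (1 + p) * p * (1 - p) / 6 * (1 - x) ^ 3 - (1 + p) * p * (1 - p) * (2 - p) / 24 * (1 - x) ^ 4 -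
      (1 + p) * p * (1 - p) * (2 - p) * (3 - p) / 120 * (1 - x) ^ 5 := by
  obtain ⟨c1, hc1⟩ : ∃ c1 : ℝ, c1 = (1 + p) * p := ⟨_, rfl⟩
  obtain ⟨c2, hc2⟩ : ∃ c2 : ℝ, c2 = c1 * (1 - p) := ⟨_, rfl⟩
  obtain ⟨c3, hc3⟩ : ∃ c3 : ℝ, c3 = c2 * (2 - p) := ⟨_, rfl⟩
  obtain ⟨c4, hc4⟩ : ∃ c4 : ℝ, c4 = c3 * (3 - p) := ⟨_, rfl⟩
  have h1p : 0 ≤ 1 - p := by linarith
  have c10 : 0 ≤ c1 := by rw [hc1]; positivity
  have c20 : 0 ≤ c2 := by rw [hc2]; positivity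
  have c30 : 0 ≤ c3 := by rw [hc3]; exact mul_nonneg c20 (by linarith)
  have c40 : 0 ≤ c4 := by rw [hc4]; exact mul_nonneg c30 (by linarith)
  have hder : ∀ (a : ℝ) (x : ℝ), x ∈ Ioc (0 : ℝ) 1 →
      HasDerivAt (fun x : ℝ => x ^ a) (a * x ^ (a - 1)) x :=
    fun a x hx => Real.hasDerivAt_rpow_const (Or.inl hx.1.ne')
  have hu : ∀ x : ℝ, HasDerivAt (fun x : ℝ => 1 - x) (-1) x := fun x => by
    simpa using (hasDerivAt_id' x).const_sub 1
  have hup : ∀ (k : ℕ) (x : ℝ), HasDerivAt (fun x : ℝ => (1 - x) ^ k) (k * (1 - x) ^ (k - 1) * -1) x :=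
    fun k x => (hu x).fun_pow k
  -- E5
  have e5 : ∀ x ∈ Ioc (0 : ℝ) 1, 1 ≤ x ^ (p - 4) := by
    intro x hx
    exact Real.one_le_rpow_of_pos_of_le_one_of_nonpos hx.1 hx.2 (by linarith)
  have e4 : ∀ x ∈ Ioc (0 : ℝ) 1, 0 ≤ c3 * x ^ (p - 3) - c3 - c4 * (1 - x) := by
    intro x hx
    refine nonneg_left (f := fun x => c3 * x ^ (p - 3) - c3 - c4 * (1 - x))
      (f' := fun x => c4 - c4 * x ^ (p - 4)) (fun x hx => ?_) (by simp) (fun x hx => ?_) hx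
    · refine ((((hder (p - 3) x hx).const_mul c3).sub_const c3).fun_sub
        ((hu x).const_mul c4)).congr_deriv ?_
      rw [show p - 3 - 1 = p - 4 by ring, hc4]; ring
    · nlinarith [e5 x hx]
  have e3 : ∀ x ∈ Ioc (0 : ℝ) 1, 0 ≤ c2 * x ^ (p - 2) - c2 - c3 * (1 - x) - c4 / 2 * (1 - x) ^ 2 := by
    intro x hx
    refine nonneg_left (f := fun x => c2 * x ^ (p - 2) - c2 - c3 * (1 - x) - c4 / 2 * (1 - x) ^ 2)
      (f' := fun x => -(c3 * x ^ (p - 3) - c3 - c4 * (1 - x))) (fun x hx => ?_) (by simp)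
      (fun x hx => ?_) hx
    · refine (((((hder (p - 2) x hx).const_mul c2).sub_const c2).fun_sub
        ((hu x).const_mul c3)).fun_sub ((hup 2 x).const_mul (c4 / 2))).congr_deriv ?_
      rw [show p - 2 - 1 = p - 3 by ring, hc3]; push_cast; ring
    · have := e4 x hx
      linarith
  have e2 : ∀ x ∈ Ioc (0 : ℝ) 1, 0 ≤ c1 * x ^ (p - 1) - c1 - c2 * (1 - x) - c3 / 2 * (1 - x) ^ 2 -
      c4 / 6 * (1 - x) ^ 3 := by
    intro x hx
    refine nonneg_left (f := fun x => c1 * x ^ (p - 1) - c1 - c2 * (1 - x) - c3 / 2 * (1 - x) ^ 2 -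
      c4 / 6 * (1 - x) ^ 3)
      (f' := fun x => -(c2 * x ^ (p - 2) - c2 - c3 * (1 - x) - c4 / 2 * (1 - x) ^ 2))
      (fun x hx => ?_) (by simp) (fun x hx => ?_) hx
    · refine ((((((hder (p - 1) x hx).const_mul c1).sub_const c1).fun_sub
        ((hu x).const_mul c2)).fun_sub ((hup 2 x).const_mul (c3 / 2))).fun_sub
        ((hup 3 x).const_mul (c4 / 6))).congr_deriv ?_
      rw [show p - 1 - 1 = p - 2 by ring, hc2]; push_cast; ring
    · have := e3 x hx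
      linarith
  have e1 : ∀ x ∈ Ioc (0 : ℝ) 1, 0 ≤ -(1 + p) * x ^ p + (1 + p) - c1 * (1 - x) - c2 / 2 * (1 - x) ^ 2 -
      c3 / 6 * (1 - x) ^ 3 - c4 / 24 * (1 - x) ^ 4 := by
    intro x hx
    refine nonneg_left (f := fun x => -(1 + p) * x ^ p + (1 + p) - c1 * (1 - x) - c2 / 2 * (1 - x) ^ 2 -
      c3 / 6 * (1 - x) ^ 3 - c4 / 24 * (1 - x) ^ 4)
      (f' := fun x => -(c1 * x ^ (p - 1) - c1 - c2 * (1 - x) - c3 / 2 * (1 - x) ^ 2 -
      c4 / 6 * (1 - x) ^ 3))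
      (fun x hx => ?_) (by simp) (fun x hx => ?_) hx
    · refine (((((((hder p x hx).const_mul (-(1 + p))).add_const (1 + p)).fun_sub
        ((hu x).const_mul c1)).fun_sub ((hup 2 x).const_mul (c2 / 2))).fun_sub
        ((hup 3 x).const_mul (c3 / 6))).fun_sub ((hup 4 x).const_mul (c4 / 24))).congr_deriv ?_
      rw [hc1]; push_cast; ring
    · have := e2 x hx
      linarith
  have e0 := nonneg_left (f := fun x => x ^ (p + 1) - 1 + (1 + p) * (1 - x) - c1 / 2 * (1 - x) ^ 2 -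
      c2 / 6 * (1 - x) ^ 3 - c3 / 24 * (1 - x) ^ 4 - c4 / 120 * (1 - x) ^ 5)
      (f' := fun x => -(-(1 + p) * x ^ p + (1 + p) - c1 * (1 - x) - c2 / 2 * (1 - x) ^ 2 -
      c3 / 6 * (1 - x) ^ 3 - c4 / 24 * (1 - x) ^ 4)) (fun x hx => ?_) (by simp) (fun x hx => ?_) hx
  · rw [hc4, hc3, hc2, hc1] at e0
    linarith
  · refine ((((((((hder (p + 1) x hx).sub_const 1).fun_add
        ((hu x).const_mul (1 + p))).fun_sub ((hup 2 x).const_mul (c1 / 2))).fun_sub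
        ((hup 3 x).const_mul (c2 / 6))).fun_sub ((hup 4 x).const_mul (c3 / 24)))).fun_sub
        ((hup 5 x).const_mul (c4 / 120))).congr_deriv ?_
    rw [show p + 1 - 1 = p by ring]; push_cast; ring
  · have := e1 x hx
    linarith

theorem hm_le_neg3 {n : ℕ} (hn : 1 ≤ n) {k : ℝ} (hk : 0 < 1 + k) (hk0 : k ≤ 0) :
    hm n k ≤ ((n : ℝ) - 1) / (2 * n) * KK k * rr (1 / n) (-k) := by
  have hn1 : (1 : ℝ) ≤ n := by exact_mod_cast hn
  have hn0 : (0 : ℝ) < n := by linarith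
  obtain ⟨p, hp⟩ : ∃ p : ℝ, p = 1 / n := ⟨_, rfl⟩
  have hnp : (n : ℝ) = 1 / p := by rw [hp]; field_simp
  have hp1 : p ≤ 1 := by rw [hp, div_le_one hn0]; exact hn1
  have hp0 : 0 < p := by rw [hp]; positivity
  have h := taylor5 hp0.le hp1 (x := 1 + k) ⟨hk, by linarith⟩
  have e1 : (1 + k) ^ (p + 1) = (1 + k) ^ p * (1 + k) := Real.rpow_add_one hk.ne' p
  rw [e1] at h
  unfold hm KK rr
  rw [← hp]
  set z : ℝ := (1 + k) ^ p with hz
  have e2 : ((n : ℝ) - 1) / (2 * n) * (k ^ 2 / (1 + k)) *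
      (1 - (1 + p) / 3 * -k - (1 + p) * (2 - p) / 12 * (-k) ^ 2 -
        (1 + p) * (2 - p) * (3 - p) / 60 * (-k) ^ 3) - (k - n * (z - 1)) =
      1 / (p * (1 + k)) * (z * (1 + k) - 1 + (1 + p) * (1 - (1 + k)) - (1 + p) * p / 2 * (1 - (1 + k)) ^ 2 -
      (1 + p) * p * (1 - p) / 6 * (1 - (1 + k)) ^ 3 - (1 + p) * p * (1 - p) * (2 - p) / 24 * (1 - (1 + k)) ^ 4 -
      (1 + p) * p * (1 - p) * (2 - p) * (3 - p) / 120 * (1 - (1 + k)) ^ 5) := by
    rw [hnp]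
    have := hk.ne'
    have := hp0.ne'
    field_simp
    ring
  have h3 : 0 ≤ 1 / (p * (1 + k)) := by positivity
  have := mul_nonneg h3 h
  linarith

/-- `cR ≥ - ρ Y l²` from a polynomial inequality -/
theorem cR_ge_rho {s l ρ : ℝ} (hs : s ∈ Ioo (0 : ℝ) 1) (hl : 0 ≤ l) (hT : s * Real.exp l ≤ 1)
    (hρ0 : 0 ≤ ρ)
    (hρ : cc s ^ 2 * (2 - cc s ^ 2 - cc (s * Real.exp l) ^ 2) *
        (1 + cc s + cc (s * Real.exp l) - cc s ^ 2) ≤
      ρ * ((1 + cc s) ^ 2 * (1 - cc s) * (1 + cc (s * Real.exp l)) * (cc s + cc (s * Real.exp l)) ^ 2)) :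
    -(ρ * (Y s * l ^ 2)) ≤ cR s l := by
  obtain ⟨h, hv2⟩ := cR_eq hs hT
  rw [h, show Y s = s ^ 2 / cc s ^ 2 by unfold Y; rw [cc_sq' hs]]
  have hc := cc_pos' hs
  have hc2 := cc_sq' hs
  have hv := cc_nonneg (s * Real.exp l)
  set c := cc s with hcdef
  set v := cc (s * Real.exp l) with hvdef
  obtain ⟨E, hE⟩ : ∃ E : ℝ, E = Real.exp (2 * l) - 1 := ⟨_, rfl⟩
  rw [← hE] at hv2 ⊢
  have hs0 := hs.1
  have hE0 : 0 ≤ E := by
    have := Real.one_le_exp (show 0 ≤ 2 * l by linarith)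
    linarith
  have hvc : v ≤ c := by nlinarith [mul_nonneg (sq_nonneg s) hE0]
  have hs2 : s ^ 2 = 1 - c ^ 2 := by linarith
  have hs2p : 0 < s ^ 2 := by positivity
  have hlow : E / (E + 2) ≤ l := by
    have h1 := Real.le_log_one_add_of_nonneg hE0
    have h2 : Real.log (1 + E) = 2 * l := by
      rw [hE, show 1 + (Real.exp (2 * l) - 1) = Real.exp (2 * l) by ring, Real.log_exp]
    rw [h2, mul_div_assoc] at h1
    linarith
  have hD : 0 < 2 - c ^ 2 - v ^ 2 := by nlinarith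
  have hEs : s ^ 2 * E = c ^ 2 - v ^ 2 := by linarith
  have hw : E / (E + 2) = (c ^ 2 - v ^ 2) / (2 - c ^ 2 - v ^ 2) := by
    rw [div_eq_div_iff (by linarith) hD.ne', ← hEs]
    have : 2 - c ^ 2 - v ^ 2 = s ^ 2 * E + 2 * s ^ 2 := by rw [hEs, hs2]; ring
    rw [this]; ring
  set w := (c ^ 2 - v ^ 2) / (2 - c ^ 2 - v ^ 2) with hwdef
  rw [hw] at hlow
  have hw0 : 0 ≤ w := div_nonneg (by nlinarith) hD.le
  have e1 : s ^ 2 / (1 + c) ^ 2 * (l - c * (1 + c) * E / ((c + v) * (1 + v))) =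
      (1 - c) / (1 + c) * l - c * (c - v) / ((1 + c) * (1 + v)) := by
    have h1 : s ^ 2 / (1 + c) ^ 2 * (l - c * (1 + c) * E / ((c + v) * (1 + v))) =
      s ^ 2 / (1 + c) ^ 2 * l - c * (s ^ 2 * E) / ((1 + c) * (c + v) * (1 + v)) := by
      have : c + v ≠ 0 := by positivity
      field_simp
    rw [h1, hEs, hs2]
    have h2 : c + v ≠ 0 := by positivity
    have h3 : (1 - c ^ 2) / (1 + c) ^ 2 = (1 - c) / (1 + c) := by
      field_simp
      ring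
    rw [h3]
    congr 1
    rw [div_eq_div_iff (by positivity) (by positivity)]
    ring
  rw [e1]
  have hc1 : c < 1 := by nlinarith
  have hmono : (1 - c) / (1 + c) * w - c * (c - v) / ((1 + c) * (1 + v)) + ρ * (s ^ 2 / c ^ 2 * w ^ 2) ≤
      (1 - c) / (1 + c) * l - c * (c - v) / ((1 + c) * (1 + v)) + ρ * (s ^ 2 / c ^ 2 * l ^ 2) := by
    have h1 : (1 - c) / (1 + c) * w ≤ (1 - c) / (1 + c) * l :=
      mul_le_mul_of_nonneg_left hlow (div_nonneg (by linarith) (by positivity))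
    have h2 : w ^ 2 ≤ l ^ 2 := pow_le_pow_left₀ hw0 hlow 2
    have h3 : ρ * (s ^ 2 / c ^ 2 * w ^ 2) ≤ ρ * (s ^ 2 / c ^ 2 * l ^ 2) :=
      mul_le_mul_of_nonneg_left (mul_le_mul_of_nonneg_left h2 (by positivity)) hρ0
    linarith
  have hkey : 0 ≤ (1 - c) / (1 + c) * w - c * (c - v) / ((1 + c) * (1 + v)) + ρ * (s ^ 2 / c ^ 2 * w ^ 2) := by
    have e : (1 - c) / (1 + c) * w - c * (c - v) / ((1 + c) * (1 + v)) + ρ * (s ^ 2 / c ^ 2 * w ^ 2) =
        (c - v) ^ 2 * (ρ * ((1 + c) ^ 2 * (1 - c) * (1 + v) * (c + v) ^ 2) -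
          c ^ 2 * (2 - c ^ 2 - v ^ 2) * (1 + c + v - c ^ 2)) /
          (c ^ 2 * (1 + c) * (1 + v) * (2 - c ^ 2 - v ^ 2) ^ 2) := by
      rw [hwdef, hs2]
      field_simp
      ring
    rw [e]
    apply div_nonneg
    · exact mul_nonneg (sq_nonneg _) (by linarith)
    · positivity
  linarith

/-- `Y l ≤ 1/2 - c²/4 - c⁴/12` if `s e^l ≤ 1` -/
theorem Yl_le_quart {s l : ℝ} (hs : s ∈ Ioo (0 : ℝ) 1) (hT : s * Real.exp l ≤ 1) :
    Y s * l ≤ 1 / 2 - cc s ^ 2 / 4 - cc s ^ 4 / 12 := by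
  have hc := cc_pos' hs
  have hc2 := cc_sq' hs
  have hs0 := hs.1
  have E1 : ∀ y ∈ Ioc (0 : ℝ) 1, 0 ≤ -Real.log y - (1 - y) - (1 - y) ^ 2 / 2 := by
    intro y hy
    refine nonneg_left (f := fun y => -Real.log y - (1 - y) - (1 - y) ^ 2 / 2)
      (f' := fun y => -(1 - y) ^ 2 / y) (fun y hy => ?_) (by simp) (fun y hy => ?_) hy
    · have h1 := (Real.hasDerivAt_log hy.1.ne').fun_neg
      have h2 : HasDerivAt (fun x : ℝ => 1 - x) (-1) y := by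
        simpa using (hasDerivAt_id' y).const_sub 1
      refine ((h1.fun_sub h2).fun_sub ((h2.fun_pow 2).div_const 2)).congr_deriv ?_
      have := hy.1.ne'
      field_simp
      push_cast
      ring
    · have := hy.1
      apply div_nonpos_of_nonpos_of_nonneg _ this.le
      nlinarith [sq_nonneg (1 - y)]
  have E0 : ∀ y ∈ Ioc (0 : ℝ) 1, 0 ≤ (1 - y) - (1 - y) ^ 2 / 2 - (1 - y) ^ 3 / 6 + y * Real.log y := by
    intro y hy
    refine nonneg_left (f := fun y => (1 - y) - (1 - y) ^ 2 / 2 - (1 - y) ^ 3 / 6 + y * Real.log y)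
      (f' := fun y => -(-Real.log y - (1 - y) - (1 - y) ^ 2 / 2)) (fun y hy => ?_) (by simp)
      (fun y hy => ?_) hy
    · have h1 := (hasDerivAt_id' y).fun_mul (Real.hasDerivAt_log hy.1.ne')
      have h2 : HasDerivAt (fun x : ℝ => 1 - x) (-1) y := by
        simpa using (hasDerivAt_id' y).const_sub 1
      refine (((h2.fun_sub ((h2.fun_pow 2).div_const 2)).fun_sub ((h2.fun_pow 3).div_const 6)).fun_add
        h1).congr_deriv ?_
      have := hy.1.ne'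
      field_simp
      push_cast
      ring
    · have := E1 y hy
      linarith
  have hs2 : s ^ 2 ∈ Ioc (0 : ℝ) 1 := ⟨by positivity, by nlinarith [hs.2]⟩
  have h0 := E0 _ hs2
  have hlog : Real.log (s ^ 2) = 2 * Real.log s := by rw [Real.log_pow]; norm_num
  have hll : l ≤ -Real.log s := by
    have h1 : Real.log (s * Real.exp l) ≤ 0 := Real.log_nonpos (by positivity) hT
    rw [Real.log_mul hs0.ne' (Real.exp_pos l).ne', Real.log_exp] at h1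
    linarith
  have hsc : s ^ 2 = 1 - cc s ^ 2 := by linarith
  rw [hlog] at h0
  have hY : Y s = s ^ 2 / cc s ^ 2 := by unfold Y; rw [cc_sq' hs]
  have h1 : Y s * l ≤ Y s * (-Real.log s) := by
    apply mul_le_mul_of_nonneg_left hll
    rw [hY]; positivity
  refine h1.trans ?_
  rw [hY, div_mul_eq_mul_div, div_le_iff₀ (by positivity)]
  have e : 1 - s ^ 2 = cc s ^ 2 := by linarith
  rw [e] at h0
  nlinarith [h0]

/-- the discriminant lemma -/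
theorem Vpos {u z zm κ τ p0 : ℝ} (hu : 0 ≤ u) (hu1 : u < 1) (hz : 0 ≤ z) (hzm : z ≤ zm) (hzm0 : 0 < zm)
    (hκ : 0 ≤ κ) (hτ : 0 ≤ τ)
    (hH : 0 < 4 * (zm * (1 - u) * κ + τ * u ^ 2) * p0 - zm * (1 + (2 + τ) * u) ^ 2) :
    0 ≤ u ^ 2 / (1 - u) * (p0 - 3 * z) - z * u + κ * z ^ 2 ∧
      (u ^ 2 / (1 - u) * (p0 - 3 * z) - z * u + κ * z ^ 2 = 0 → z = 0) := by
  have h1u : 0 < 1 - u := by linarith
  -- `A = (1-u) κ + τ u² / zm`
  obtain ⟨A, hA⟩ : ∃ A : ℝ, A = (1 - u) * κ + τ * u ^ 2 / zm := ⟨_, rfl⟩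
  have hA0 : 0 ≤ A := by rw [hA]; positivity
  have hzA : zm * (1 - u) * κ + τ * u ^ 2 = zm * A := by rw [hA]; field_simp
  rw [hzA] at hH
  have hH2 : (1 + (2 + τ) * u) ^ 2 < 4 * A * p0 := by
    have : 0 < zm * (4 * A * p0 - (1 + (2 + τ) * u) ^ 2) := by nlinarith
    have := pos_of_mul_pos_right this hzm0.le
    linarith
  have hp1 : 0 < (1 + (2 + τ) * u) ^ 2 := by positivity
  have hApos : 0 < A := by
    rcases hA0.eq_or_lt with h | h
    · rw [← h] at hH2; nlinarith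
    · exact h
  obtain ⟨V, hV⟩ : ∃ V : ℝ, V = u ^ 2 / (1 - u) * (p0 - 3 * z) - z * u + κ * z ^ 2 := ⟨_, rfl⟩
  rw [← hV]
  have e1 : (1 - u) * V = A * z ^ 2 - u * (1 + (2 + τ) * u) * z + u ^ 2 * p0 +
      τ * u ^ 2 / zm * (z * (zm - z)) := by
    rw [hV, hA]
    field_simp
    ring
  have h2 : 0 ≤ τ * u ^ 2 / zm * (z * (zm - z)) := by
    have : 0 ≤ zm - z := by linarith
    positivity
  have e3 : 4 * A * (A * z ^ 2 - u * (1 + (2 + τ) * u) * z + u ^ 2 * p0) =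
      (2 * A * z - u * (1 + (2 + τ) * u)) ^ 2 + u ^ 2 * (4 * A * p0 - (1 + (2 + τ) * u) ^ 2) := by ring
  have h4 : 0 ≤ u ^ 2 * (4 * A * p0 - (1 + (2 + τ) * u) ^ 2) := mul_nonneg (sq_nonneg _) (by linarith)
  have h5 : 0 ≤ A * z ^ 2 - u * (1 + (2 + τ) * u) * z + u ^ 2 * p0 := by
    have : 0 ≤ 4 * A * (A * z ^ 2 - u * (1 + (2 + τ) * u) * z + u ^ 2 * p0) := by
      rw [e3]; positivity
    have h6 : 0 < 4 * A := by positivity
    exact nonneg_of_mul_nonneg_right this h6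
  constructor
  · have : 0 ≤ (1 - u) * V := by rw [e1]; linarith
    exact nonneg_of_mul_nonneg_right this h1u
  · intro h0
    rw [h0, mul_zero] at e1
    have h6 : A * z ^ 2 - u * (1 + (2 + τ) * u) * z + u ^ 2 * p0 = 0 := by linarith
    rw [h6, mul_zero] at e3
    have h7 : u ^ 2 * (4 * A * p0 - (1 + (2 + τ) * u) ^ 2) = 0 := by
      have := sq_nonneg (2 * A * z - u * (1 + (2 + τ) * u))
      linarith
    have h8 : u = 0 := by
      rcases mul_eq_zero.1 h7 with h | h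
      · exact pow_eq_zero_iff (two_ne_zero) |>.1 h
      · exfalso; linarith
    rw [h8] at h6
    have h9 : A * z ^ 2 = 0 := by nlinarith
    rcases mul_eq_zero.1 h9 with h | h
    · exfalso; linarith
    · exact pow_eq_zero_iff (two_ne_zero) |>.1 h

/-- the reduction for block B6 -/
theorem B6_main {n : ℕ} (hn : 2 ≤ n) {μ s l k lm M κ zm τ R : ℝ}
    (hμ : μ * ((n : ℝ) - 1) = n + 7 / 4) (hs : s ∈ Ioo (0 : ℝ) 1) (hl : 0 ≤ l)
    (hk : 0 < 1 + k) (hk0 : k ≤ 0)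
    (hM : (1 / 2 + 7 / (8 * (n : ℝ))) * Real.exp (l / n) ≤ M)
    (hR0 : 0 ≤ R) (hR : rr (1 / n) (-k) ≤ R)
    (hE : κ * (Y s * l) ^ 2 ≤ (1 / 2 + 7 / (8 * (n : ℝ))) * (Y s * l ^ 2) +
      ((n : ℝ) - 3) * (Y s * l) ^ 2 + cR s l)
    (hz : Y s * l ≤ zm) (hzm0 : 0 < zm) (hκ : 0 ≤ κ) (hτ : 0 ≤ τ)
    (hH : 0 < 4 * (zm * (1 + k) * κ + τ * (-k) ^ 2) *
      (aq s - M * R - 3 / (2 * ((n : ℝ) + 2)) * (1 + k)) - zm * (1 + (2 + τ) * (-k)) ^ 2) :
    0 ≤ PP n μ 3 1 0 lm s l k ∧ (PP n μ 3 1 0 lm s l k = 0 → l = 0) := by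
  have hn2 : (2 : ℝ) ≤ n := by exact_mod_cast hn
  have hn0 : (0 : ℝ) < n := by linarith
  have hY : 0 < Y s := by
    have h1 := cc_pos' hs
    have h2 := cc_sq' hs
    have h3 := hs.1
    unfold Y
    rw [← h2]
    positivity
  have hμ0 : 0 < μ := by
    have h1 : 0 < μ * ((n : ℝ) - 1) := by rw [hμ]; positivity
    exact pos_of_mul_pos_left h1 (by linarith)
  -- bounds of the terms
  have hG : l ^ 2 / (2 * n) ≤ Gm n l := by
    unfold Gm
    have h1 := Real.quadratic_le_exp_of_nonneg (x := l / n) (by positivity)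
    have h2 : (n : ℝ) * (1 + l / n + (l / n) ^ 2 / 2) ≤ n * Real.exp (l / n) :=
      mul_le_mul_of_nonneg_left h1 hn0.le
    have e : (n : ℝ) * (1 + l / n + (l / n) ^ 2 / 2) = n + l + l ^ 2 / (2 * n) := by field_simp
    rw [e] at h2
    linarith
  have hh := hm_le_neg3 (n := n) (by omega) hk hk0
  have hK0 : 0 ≤ KK k := by unfold KK; positivity
  have hg0 : 0 ≤ ((n : ℝ) - 1) / (2 * n) * KK k := by
    apply mul_nonneg _ hK0
    apply div_nonneg <;> linarith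
  have hh2 : hm n k ≤ ((n : ℝ) - 1) / (2 * n) * KK k * R := hh.trans (mul_le_mul_of_nonneg_left hR hg0)
  have hexp := Real.exp_pos (l / n)
  have t1 : (1 / 2 + 7 / (8 * (n : ℝ))) * (Y s * l ^ 2) ≤ μ * (((n : ℝ) - 1) * Y s * Gm n l) := by
    have h1 : μ * (((n : ℝ) - 1) * Y s * (l ^ 2 / (2 * n))) ≤ μ * (((n : ℝ) - 1) * Y s * Gm n l) := by
      apply mul_le_mul_of_nonneg_left _ hμ0.le
      apply mul_le_mul_of_nonneg_left hG
      exact mul_nonneg (by linarith) hY.le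
    have e : μ * (((n : ℝ) - 1) * Y s * (l ^ 2 / (2 * n))) =
        (μ * ((n : ℝ) - 1)) / (2 * n) * (Y s * l ^ 2) := by ring
    rw [e, hμ] at h1
    have e2 : ((n : ℝ) + 7 / 4) / (2 * n) = 1 / 2 + 7 / (8 * (n : ℝ)) := by field_simp; ring
    rwa [e2] at h1
  have t2 : μ * (Real.exp (l / n) * hm n k) ≤ M * (KK k * R) := by
    have h1 : μ * (Real.exp (l / n) * hm n k) ≤
        μ * (Real.exp (l / n) * (((n : ℝ) - 1) / (2 * n) * KK k * R)) :=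
      mul_le_mul_of_nonneg_left (mul_le_mul_of_nonneg_left hh2 hexp.le) hμ0.le
    have e : μ * (Real.exp (l / n) * (((n : ℝ) - 1) / (2 * n) * KK k * R)) =
        ((μ * ((n : ℝ) - 1)) / (2 * n)) * Real.exp (l / n) * (KK k * R) := by ring
    rw [e, hμ] at h1
    have e2 : ((n : ℝ) + 7 / 4) / (2 * n) = 1 / 2 + 7 / (8 * (n : ℝ)) := by field_simp; ring
    rw [e2] at h1
    exact h1.trans (mul_le_mul_of_nonneg_right hM (mul_nonneg hK0 hR0))
  obtain ⟨u, hu⟩ : ∃ u : ℝ, u = -k := ⟨_, rfl⟩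
  have hku : k = -u := by linarith
  subst hku
  have hu0 : 0 ≤ u := by linarith
  have hu1 : u < 1 := by linarith
  have e1u : 1 + -u = 1 - u := by ring
  rw [neg_neg, e1u] at hH
  obtain ⟨hV1, hV2⟩ := Vpos hu0 hu1 (mul_nonneg hY.le hl) hz hzm0 hκ hτ hH
  have hKu : KK (-u) = u ^ 2 / (1 - u) := by unfold KK; rw [e1u, neg_sq]
  rw [hKu] at t2
  have hlow : u ^ 2 / (1 - u) * (aq s - M * R - 3 / (2 * ((n : ℝ) + 2)) * (1 - u) - 3 * (Y s * l)) -
      Y s * l * u + κ * (Y s * l) ^ 2 ≤ PP n μ 3 1 0 lm s l (-u) := by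
    unfold PP
    rw [hKu]
    have e3 : u ^ 2 / (1 - u) * (3 / (2 * ((n : ℝ) + 2)) * (1 - u)) = 3 / (2 * ((n : ℝ) + 2)) * u ^ 2 := by
      have : 1 - u ≠ 0 := by linarith
      field_simp
    nlinarith [t1, t2, hE, e3]
  refine ⟨hV1.trans hlow, fun h0 => ?_⟩
  rw [h0] at hlow
  have h1 := hV2 (le_antisymm hlow hV1)
  rcases mul_eq_zero.1 h1 with h | h
  · exact absurd h hY.ne'
  · exact h

end Crest.Agent.R230.WR
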