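import Mathlib

/-!
# Row 230: real inequalities for the pointwise certificate, case `λ ≤ 0` (`μ = 0`)

`s² + c² = 1`, `Y = s²/c²`, `a = 2 - 2c²/(1+c)`, `C = √(1 - s² e^{2l})`,
`cR = cC/(1+C) - c²/(1+c) + l s²/(1+c)²`.
-/

set_option autoImplicit false

open Real

namespace Crest.Agent.R230.CI

variable {s c C l L N κ : ℝ}

/-! ### bounds of `cR` -/

lemma exp_upper (h0 : 0 ≤ l) (h1 : l ≤ 11 / 20) :
    exp (2 * l) - 1 ≤ 2 * l + 2 * l ^ 2 + 9 / 5 * l ^ 3 := by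
  have h := Real.exp_bound' (x := l) h0 (by linarith) (n := 5) (by norm_num)
  simp [Finset.sum_range_succ, Nat.factorial] at h
  have h2 : exp (2 * l) = (exp l) ^ 2 := by rw [← Real.exp_nat_mul]; norm_num
  have h3 : exp l ≤ 1 + l + l ^ 2 / 2 + l ^ 3 / 6 + l ^ 4 / 24 + l ^ 5 / 100 := by
    refine h.trans (le_of_eq ?_)
    ring
  have h4 : (exp l) ^ 2 ≤ (1 + l + l ^ 2 / 2 + l ^ 3 / 6 + l ^ 4 / 24 + l ^ 5 / 100) ^ 2 :=
    pow_le_pow_left₀ (exp_pos l).le h3 2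
  have hy : 0 ≤ 11 / 20 - l := by linarith
  have h5 : 1 + 2 * l + 2 * l ^ 2 + 9 / 5 * l ^ 3 -
      (1 + l + l ^ 2 / 2 + l ^ 3 / 6 + l ^ 4 / 24 + l ^ 5 / 100) ^ 2 =
      l ^ 3 * (7 / 15 - 2 / 3 * l - 27 / 100 * l ^ 2 - 161 / 1800 * l ^ 3 - 43 / 1800 * l ^ 4 -
        73 / 14400 * l ^ 5 - 1 / 1200 * l ^ 6 - 1 / 10000 * l ^ 7) := by ring
  have h6 : 0 ≤ 7 / 15 - 2 / 3 * l - 27 / 100 * l ^ 2 - 161 / 1800 * l ^ 3 - 43 / 1800 * l ^ 4 -
        73 / 14400 * l ^ 5 - 1 / 1200 * l ^ 6 - 1 / 10000 * l ^ 7 := by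
    have g (k : ℕ) : l ^ k ≤ (11 / 20) ^ k := pow_le_pow_left₀ h0 h1 k
    have g2 := g 2
    have g3 := g 3
    have g4 := g 4
    have g5 := g 5
    have g6 := g 6
    have g7 := g 7
    norm_num at g2 g3 g4 g5 g6 g7
    linarith
  have h7 := mul_nonneg (pow_nonneg h0 3) h6
  rw [h2]
  linarith

lemma exp_neg_le (hL : 0 ≤ L) : exp (-L) ≤ 1 - L + L ^ 2 / 2 := by
  have h1 : 1 + L + L ^ 2 / 2 ≤ exp L := Real.quadratic_le_exp_of_nonneg hL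
  have h2 : exp L * exp (-L) = 1 := by rw [← Real.exp_add]; simp
  have h3 := exp_pos (-L)
  by_contra hcon
  rw [not_le] at hcon
  have h4 : 0 < 1 - L + L ^ 2 / 2 := by nlinarith [sq_nonneg (L - 1)]
  have h5 : (1 + L + L ^ 2 / 2) * (1 - L + L ^ 2 / 2) < exp L * exp (-L) := by
    have h6 : (1 + L + L ^ 2 / 2) * (1 - L + L ^ 2 / 2) ≤ exp L * (1 - L + L ^ 2 / 2) :=
      mul_le_mul_of_nonneg_right h1 h4.le
    have h7 : exp L * (1 - L + L ^ 2 / 2) < exp L * exp (-L) :=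
      mul_lt_mul_of_pos_left hcon (exp_pos L)
    linarith
  rw [h2] at h5
  nlinarith [sq_nonneg (L ^ 2)]

/-- `cR ≥ -Y l²/2` for `l = -L ≤ 0` -/
lemma cR_neg (hs : 0 < s) (hc : 0 < c) (hsc : s ^ 2 + c ^ 2 = 1) (hL : 0 ≤ L) (hC0 : 0 ≤ C)
    (hC : C ^ 2 = 1 - (s * exp (-L)) ^ 2) :
    -(1 / 2) * (s ^ 2 / c ^ 2) * L ^ 2 ≤ c * C / (1 + C) - c ^ 2 / (1 + c) - L * (s ^ 2 / (1 + c) ^ 2) := by
  set D : ℝ := 1 - exp (-(2 * L)) with hD
  have hexp : (exp (-L)) ^ 2 = 1 - D := by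
    rw [hD, ← Real.exp_nat_mul]; ring_nf
  have hD1 : D ≤ 2 * L := by
    have := Real.add_one_le_exp (-(2 * L)); rw [hD]; linarith
  have hD2 : 2 * L - 2 * L ^ 2 ≤ D := by
    have := exp_neg_le (L := 2 * L) (by linarith); rw [hD]; nlinarith
  have hD0 : 0 ≤ D := by
    have : exp (-(2 * L)) ≤ 1 := Real.exp_le_one_iff.2 (by linarith)
    rw [hD]; linarith
  have hC2 : C ^ 2 = c ^ 2 + s ^ 2 * D := by
    rw [hC, mul_pow, hexp]; linarith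
  have hs2 : 0 < s ^ 2 := by positivity
  have hs2' : s ^ 2 = 1 - c ^ 2 := by linarith
  have hcC : c ≤ C := by
    apply (sq_le_sq₀ hc.le hC0).1; nlinarith [mul_nonneg hs2.le hD0]
  -- `C ≤ c + e`, `e = s² L / c`
  set e : ℝ := s ^ 2 * L / c with he
  have he0 : 0 ≤ e := by positivity
  have hec : e * c = s ^ 2 * L := by rw [he]; field_simp
  have hCe : C ≤ c + e := by
    apply (sq_le_sq₀ hC0 (by positivity)).1
    nlinarith [mul_le_mul_of_nonneg_left hD1 hs2.le, sq_nonneg e]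
  have hc1 : c < 1 := by nlinarith
  have h1 : c * C / (1 + C) - c ^ 2 / (1 + c) = c * (s ^ 2 * D) / ((1 + c) * ((C + c) * (1 + C))) := by
    have : s ^ 2 * D = (C - c) * (C + c) := by nlinarith
    rw [this]
    have : 0 < C + c := by linarith
    field_simp
    ring
  have hM : (C + c) * (1 + C) ≤ (2 * c + e) * (1 + c + e) := by
    apply mul_le_mul <;> linarith
  have h2 : c * (s ^ 2 * D) / ((1 + c) * ((2 * c + e) * (1 + c + e))) ≤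
      c * (s ^ 2 * D) / ((1 + c) * ((C + c) * (1 + C))) := by
    apply div_le_div_of_nonneg_left (by positivity) (by positivity)
    exact mul_le_mul_of_nonneg_left hM (by linarith)
  have key : (2 * c + e) * (1 + c + e) * (2 * c ^ 2 * L - (1 + c) ^ 2 * L ^ 2) ≤
      2 * c ^ 3 * (1 + c) * D := by
    have k1 : 2 * c ^ 3 * (1 + c) * (2 * L - 2 * L ^ 2) -
        (2 * c + e) * (1 + c + e) * (2 * c ^ 2 * L - (1 + c) ^ 2 * L ^ 2) =
        L ^ 2 * (4 * c ^ 3 * (1 + c)) + L ^ 2 * e * ((1 + c) ^ 2 * (1 + 3 * c) - 2 * c * (1 - c ^ 2)) +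
          (1 + c) ^ 2 * L ^ 2 * e ^ 2 := by
      rw [hs2'] at hec
      linear_combination (-2 * c * (1 + 3 * c) * L - 2 * c * L * e) * hec
    have k2 : 0 ≤ (1 + c) ^ 2 * (1 + 3 * c) - 2 * c * (1 - c ^ 2) := by nlinarith [pow_pos hc 3]
    have k3 : 2 * c ^ 3 * (1 + c) * (2 * L - 2 * L ^ 2) ≤ 2 * c ^ 3 * (1 + c) * D :=
      mul_le_mul_of_nonneg_left hD2 (by positivity)
    have k4 : 0 ≤ L ^ 2 * (4 * c ^ 3 * (1 + c)) +
        L ^ 2 * e * ((1 + c) ^ 2 * (1 + 3 * c) - 2 * c * (1 - c ^ 2)) +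
          (1 + c) ^ 2 * L ^ 2 * e ^ 2 := by positivity
    linarith
  have h3 : L * (s ^ 2 / (1 + c) ^ 2) - (1 / 2) * (s ^ 2 / c ^ 2) * L ^ 2 ≤
      c * (s ^ 2 * D) / ((1 + c) * ((2 * c + e) * (1 + c + e))) := by
    rw [le_div_iff₀ (by positivity)]
    have : (L * (s ^ 2 / (1 + c) ^ 2) - (1 / 2) * (s ^ 2 / c ^ 2) * L ^ 2) *
        ((1 + c) * ((2 * c + e) * (1 + c + e))) = s ^ 2 / (2 * c ^ 2 * (1 + c)) *
        ((2 * c + e) * (1 + c + e) * (2 * c ^ 2 * L - (1 + c) ^ 2 * L ^ 2)) := by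
      field_simp
    rw [this]
    calc _ ≤ s ^ 2 / (2 * c ^ 2 * (1 + c)) * (2 * c ^ 3 * (1 + c) * D) :=
          mul_le_mul_of_nonneg_left key (by positivity)
      _ = c * (s ^ 2 * D) := by field_simp
  linarith

lemma polyA (h1 : 89 / 100 ≤ c) (h2 : c ≤ 1) :
    c ^ 4 * (c ^ 2 * (1 + c) * (299 / 100) + (1 + 2 * c) * (1 - c ^ 2) * (7289 / 2000)) ≤
      (1 / 2 * c ^ 2 + 2 * (1 - c ^ 2)) * (1 + c) ^ 2 *
        (2 * c ^ 2 * (1 + c) - (1 + 2 * c) * (1 - c ^ 2) * (80179 / 40000)) := by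
  have hx : 0 ≤ c - 89 / 100 := by linarith
  have hy : 0 ≤ 1 - c := by linarith
  have h : (1 / 2 * c ^ 2 + 2 * (1 - c ^ 2)) * (1 + c) ^ 2 *
        (2 * c ^ 2 * (1 + c) - (1 + 2 * c) * (1 - c ^ 2) * (80179 / 40000)) -
        c ^ 4 * (c ^ 2 * (1 + c) * (299 / 100) + (1 + 2 * c) * (1 - c ^ 2) * (7289 / 2000)) =
      (4773019047927521517 / 779486840000) * (1 - c) ^ 7 +
      (866975289639990117 / 15589736800) * (c - 89 / 100) ^ 1 * (1 - c) ^ 6 +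
      (15533822417191073 / 77948684) * (c - 89 / 100) ^ 2 * (1 - c) ^ 5 +
      (14582772628645325 / 38974342) * (c - 89 / 100) ^ 3 * (1 - c) ^ 4 +
      (7823087654247500 / 19487171) * (c - 89 / 100) ^ 4 * (1 - c) ^ 3 +
      (4805205516500000 / 19487171) * (c - 89 / 100) ^ 5 * (1 - c) ^ 2 +
      (1556442300000000 / 19487171) * (c - 89 / 100) ^ 6 * (1 - c) ^ 1 +
      (202000000000000 / 19487171) * (c - 89 / 100) ^ 7 := by ring
  rw [← sub_nonneg, h]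
  positivity

lemma polyB (h1 : 3 / 4 ≤ c) (h2 : c ≤ 89 / 100) :
    c ^ 4 * (c ^ 2 * (1 + c) * (2 + 9 / 5 * (c - 17 / 50)) +
      (1 + 2 * c) * (1 - c ^ 2) * (2 + 2 * (c - 17 / 50) + 9 / 5 * (c - 17 / 50) ^ 2)) ≤
      (1 / 2 * c ^ 2 + 2 * (1 - c ^ 2)) * (1 + c) ^ 2 *
        (2 * c ^ 2 * (1 + c) - (1 + 2 * c) * (1 - c ^ 2) *
          ((c - 17 / 50) * (2 + 2 * (c - 17 / 50) + 9 / 5 * (c - 17 / 50) ^ 2))) := by
  have hx : 0 ≤ c - 3 / 4 := by linarith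
  have hy : 0 ≤ 89 / 100 - c := by linarith
  have h : (1 / 2 * c ^ 2 + 2 * (1 - c ^ 2)) * (1 + c) ^ 2 *
        (2 * c ^ 2 * (1 + c) - (1 + 2 * c) * (1 - c ^ 2) *
          ((c - 17 / 50) * (2 + 2 * (c - 17 / 50) + 9 / 5 * (c - 17 / 50) ^ 2))) -
      c ^ 4 * (c ^ 2 * (1 + c) * (2 + 9 / 5 * (c - 17 / 50)) +
      (1 + 2 * c) * (1 - c ^ 2) * (2 + 2 * (c - 17 / 50) + 9 / 5 * (c - 17 / 50) ^ 2)) =
      (1136299090576171875 / 41322093568) * (89 / 100 - c) ^ 10 +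
      (1437589550927734375 / 2951578112) * (c - 3 / 4) ^ 1 * (89 / 100 - c) ^ 9 +
      (138621539004583984375 / 41322093568) * (c - 3 / 4) ^ 2 * (89 / 100 - c) ^ 8 +
      (65121336389692421875 / 5165261696) * (c - 3 / 4) ^ 3 * (89 / 100 - c) ^ 7 +
      (86871846963753678125 / 2951578112) * (c - 3 / 4) ^ 4 * (89 / 100 - c) ^ 6 +
      (66774426120274021125 / 1475789056) * (c - 3 / 4) ^ 5 * (89 / 100 - c) ^ 5 +
      (138072310931954435805 / 2951578112) * (c - 3 / 4) ^ 6 * (89 / 100 - c) ^ 4 +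
      (833689133074418382847 / 25826308480) * (c - 3 / 4) ^ 7 * (89 / 100 - c) ^ 3 +
      (84253975444272323169 / 5903156224) * (c - 3 / 4) ^ 8 * (89 / 100 - c) ^ 2 +
      (75558442225295403345 / 20661046784) * (c - 3 / 4) ^ 9 * (89 / 100 - c) ^ 1 +
      (17046496599741148275 / 41322093568) * (c - 3 / 4) ^ 10 := by ring
  rw [← sub_nonneg, h]
  positivity

lemma polyC (h1 : 0 ≤ c) (h2 : c ≤ 3 / 4) :
    c ^ 2 * (c ^ 2 * (1 + c) * (2 + 9 / 5 * (5 / 12)) +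
      (1 + 2 * c) * (1 - c ^ 2) * (2 + 2 * (5 / 12) + 9 / 5 * (5 / 12) ^ 2)) ≤
      (1 / 2 * c ^ 2 + 2 * (1 - c ^ 2)) * (1 + c) ^ 2 := by
  have hy : 0 ≤ 3 / 4 - c := by linarith
  have h : (1 / 2 * c ^ 2 + 2 * (1 - c ^ 2)) * (1 + c) ^ 2 -
    c ^ 2 * (c ^ 2 * (1 + c) * (2 + 9 / 5 * (5 / 12)) +
      (1 + 2 * c) * (1 - c ^ 2) * (2 + 2 * (5 / 12) + 9 / 5 * (5 / 12) ^ 2)) =
      (2048 / 243) * (3 / 4 - c) ^ 5 +
      (13312 / 243) * c ^ 1 * (3 / 4 - c) ^ 4 +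
      (31244 / 243) * c ^ 2 * (3 / 4 - c) ^ 3 +
      (30326 / 243) * c ^ 3 * (3 / 4 - c) ^ 2 +
      (38281 / 972) * c ^ 4 * (3 / 4 - c) ^ 1 +
      (679 / 1944) * c ^ 5 := by ring
  rw [← sub_nonneg, h]
  positivity

/-- if `s e^l ≤ 1`, `c ≤ 3/4` then `l ≤ 5/12` -/
lemma l_le_of_c (hs : 0 < s) (hc : 0 < c) (hsc : s ^ 2 + c ^ 2 = 1) (hT : s * exp l ≤ 1)
    (hc3 : c ≤ 3 / 4) : l ≤ 5 / 12 := by
  by_contra hcon
  rw [not_le] at hcon
  have h1 : exp (5 / 12) < exp l := Real.exp_lt_exp.2 hcon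
  have h2 : 1 + 5 / 12 + (5 / 12 : ℝ) ^ 2 / 2 + (5 / 12) ^ 3 / 6 ≤ exp (5 / 12) := by
    have := Real.sum_le_exp_of_nonneg (x := 5 / 12) (by norm_num) 4
    simp [Finset.sum_range_succ, Nat.factorial] at this
    linarith
  have h3 : (0.6614 : ℝ) ≤ s := by nlinarith
  have h4 : (0.6614 : ℝ) * (1 + 5 / 12 + (5 / 12 : ℝ) ^ 2 / 2 + (5 / 12) ^ 3 / 6) ≤ 1 := by
    calc _ ≤ s * exp (5 / 12) := mul_le_mul h3 h2 (by norm_num) hs.le
      _ ≤ s * exp l := mul_le_mul_of_nonneg_left h1.le hs.le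
      _ ≤ 1 := hT
  norm_num at h4

/-- the key inequality for `cR_pos` -/
lemma key_pos (hs : 0 < s) (hc : 0 < c) (hsc : s ^ 2 + c ^ 2 = 1) (hT : s * exp l ≤ 1)
    (hl0 : 0 ≤ l) (hl1 : l ≤ 11 / 20) (hl2 : 3 / 4 ≤ c → c ≤ 89 / 100 → l ≤ c - 17 / 50) {E Dn : ℝ}
    (hE : E = exp (2 * l) - 1) (hDn : Dn = 2 * c ^ 2 * (1 + c) - (1 + 2 * c) * (s ^ 2 * E))
    (hDc : c ^ 2 ≤ Dn) :
    c ^ 4 * (c ^ 2 * (1 + c) * E - l * Dn) ≤ (1 / 2 * c ^ 2 + 2 * s ^ 2) * (1 + c) ^ 2 * Dn * l ^ 2 := by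
  have hs2 : s ^ 2 = 1 - c ^ 2 := by linarith
  have hs2p : 0 < s ^ 2 := by positivity
  have hc1 : c ≤ 1 := by nlinarith
  have hEu : E ≤ 2 * l + 2 * l ^ 2 + 9 / 5 * l ^ 3 := by rw [hE]; exact exp_upper hl0 hl1
  have hE0 : 0 ≤ E := by rw [hE]; have := Real.add_one_le_exp (2 * l); linarith
  set e1 : ℝ := 2 + 2 * l + 9 / 5 * l ^ 2 with he1
  set e2 : ℝ := 2 + 9 / 5 * l with he2
  have hE1 : E ≤ l * e1 := by rw [he1]; linarith
  have hE2 : E - 2 * l ≤ l ^ 2 * e2 := by rw [he2]; linarith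
  have hlhs : c ^ 2 * (1 + c) * E - l * Dn ≤ l ^ 2 * (c ^ 2 * (1 + c) * e2 + (1 + 2 * c) * s ^ 2 * e1) := by
    have h1 : c ^ 2 * (1 + c) * E - l * Dn = c ^ 2 * (1 + c) * (E - 2 * l) + (1 + 2 * c) * s ^ 2 * l * E := by
      rw [hDn]; ring
    rw [h1]
    have h2 : c ^ 2 * (1 + c) * (E - 2 * l) ≤ c ^ 2 * (1 + c) * (l ^ 2 * e2) :=
      mul_le_mul_of_nonneg_left hE2 (by positivity)
    have h3 : (1 + 2 * c) * s ^ 2 * l * E ≤ (1 + 2 * c) * s ^ 2 * l * (l * e1) :=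
      mul_le_mul_of_nonneg_left hE1 (by positivity)
    have h4 : l ^ 2 * (c ^ 2 * (1 + c) * e2 + (1 + 2 * c) * s ^ 2 * e1) =
      c ^ 2 * (1 + c) * (l ^ 2 * e2) + (1 + 2 * c) * s ^ 2 * l * (l * e1) := by ring
    linarith
  have hmain : c ^ 4 * (c ^ 2 * (1 + c) * e2 + (1 + 2 * c) * s ^ 2 * e1) ≤
      (1 / 2 * c ^ 2 + 2 * s ^ 2) * (1 + c) ^ 2 * Dn := by
    rcases le_total c (3 / 4) with hcc | hcc
    · have hl3 := l_le_of_c hs hc hsc hT hcc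
      have hp := polyC hc.le hcc
      have g0' : l ^ 2 ≤ (5 / 12) ^ 2 := pow_le_pow_left₀ hl0 hl3 2
      have g1 : e1 ≤ 2 + 2 * (5 / 12) + 9 / 5 * (5 / 12) ^ 2 := by rw [he1]; linarith
      have g2 : e2 ≤ 2 + 9 / 5 * (5 / 12) := by rw [he2]; linarith
      have g3 : c ^ 2 * (1 + c) * e2 + (1 + 2 * c) * s ^ 2 * e1 ≤
          c ^ 2 * (1 + c) * (2 + 9 / 5 * (5 / 12)) +
            (1 + 2 * c) * (1 - c ^ 2) * (2 + 2 * (5 / 12) + 9 / 5 * (5 / 12) ^ 2) := by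
        rw [← hs2]
        exact add_le_add (mul_le_mul_of_nonneg_left g2 (by positivity))
          (mul_le_mul_of_nonneg_left g1 (by positivity))
      calc _ ≤ c ^ 4 * (c ^ 2 * (1 + c) * (2 + 9 / 5 * (5 / 12)) +
            (1 + 2 * c) * (1 - c ^ 2) * (2 + 2 * (5 / 12) + 9 / 5 * (5 / 12) ^ 2)) :=
            mul_le_mul_of_nonneg_left g3 (by positivity)
        _ = c ^ 2 * (c ^ 2 * (c ^ 2 * (1 + c) * (2 + 9 / 5 * (5 / 12)) +
            (1 + 2 * c) * (1 - c ^ 2) * (2 + 2 * (5 / 12) + 9 / 5 * (5 / 12) ^ 2))) := by ring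
        _ ≤ c ^ 2 * ((1 / 2 * c ^ 2 + 2 * (1 - c ^ 2)) * (1 + c) ^ 2) :=
            mul_le_mul_of_nonneg_left hp (by positivity)
        _ = (1 / 2 * c ^ 2 + 2 * s ^ 2) * (1 + c) ^ 2 * c ^ 2 := by rw [hs2]; ring
        _ ≤ _ := mul_le_mul_of_nonneg_left hDc (by positivity)
    · have hDn2 : 2 * c ^ 2 * (1 + c) - (1 + 2 * c) * s ^ 2 * (l * e1) ≤ Dn := by
        rw [hDn]
        have := mul_le_mul_of_nonneg_left hE1 (by positivity : 0 ≤ (1 + 2 * c) * s ^ 2)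
        linarith
      rcases le_total c (89 / 100) with hc4 | hc4
      · have hl2 := hl2 hcc hc4
        have hp := polyB hcc hc4
        set t : ℝ := c - 17 / 50 with ht
        have ht0 : 0 ≤ t := by rw [ht]; linarith
        have g0' : l ^ 2 ≤ t ^ 2 := pow_le_pow_left₀ hl0 hl2 2
        have g1 : e1 ≤ 2 + 2 * t + 9 / 5 * t ^ 2 := by rw [he1]; linarith
        have g2 : e2 ≤ 2 + 9 / 5 * t := by rw [he2]; linarith
        have g0 : 0 ≤ e1 := by rw [he1]; positivity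
        have g3 : c ^ 2 * (1 + c) * e2 + (1 + 2 * c) * s ^ 2 * e1 ≤
            c ^ 2 * (1 + c) * (2 + 9 / 5 * t) +
              (1 + 2 * c) * (1 - c ^ 2) * (2 + 2 * t + 9 / 5 * t ^ 2) := by
          rw [← hs2]
          exact add_le_add (mul_le_mul_of_nonneg_left g2 (by positivity))
            (mul_le_mul_of_nonneg_left g1 (by positivity))
        have g4 : l * e1 ≤ t * (2 + 2 * t + 9 / 5 * t ^ 2) := mul_le_mul hl2 g1 g0 ht0
        have g5 : 2 * c ^ 2 * (1 + c) - (1 + 2 * c) * (1 - c ^ 2) * (t * (2 + 2 * t + 9 / 5 * t ^ 2)) ≤ Dn := by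
          rw [← hs2]
          have := mul_le_mul_of_nonneg_left g4 (by positivity : 0 ≤ (1 + 2 * c) * s ^ 2)
          linarith
        calc _ ≤ c ^ 4 * (c ^ 2 * (1 + c) * (2 + 9 / 5 * t) +
              (1 + 2 * c) * (1 - c ^ 2) * (2 + 2 * t + 9 / 5 * t ^ 2)) :=
              mul_le_mul_of_nonneg_left g3 (by positivity)
          _ ≤ _ := hp
          _ ≤ (1 / 2 * c ^ 2 + 2 * (1 - c ^ 2)) * (1 + c) ^ 2 * Dn :=
              mul_le_mul_of_nonneg_left g5 (by rw [← hs2]; positivity)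
          _ = _ := by rw [hs2]
      · have hp := polyA hc4 hc1
        have g0' : l ^ 2 ≤ (11 / 20) ^ 2 := pow_le_pow_left₀ hl0 hl1 2
        have g1 : e1 ≤ 7289 / 2000 := by rw [he1]; linarith
        have g2 : e2 ≤ 299 / 100 := by rw [he2]; linarith
        have g0 : 0 ≤ e1 := by rw [he1]; positivity
        have g3 : c ^ 2 * (1 + c) * e2 + (1 + 2 * c) * s ^ 2 * e1 ≤
            c ^ 2 * (1 + c) * (299 / 100) + (1 + 2 * c) * (1 - c ^ 2) * (7289 / 2000) := by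
          rw [← hs2]
          exact add_le_add (mul_le_mul_of_nonneg_left g2 (by positivity))
            (mul_le_mul_of_nonneg_left g1 (by positivity))
        have g4 : l * e1 ≤ 80179 / 40000 := by
          calc l * e1 ≤ 11 / 20 * (7289 / 2000) := mul_le_mul hl1 g1 g0 (by norm_num)
            _ = _ := by norm_num
        have g5 : 2 * c ^ 2 * (1 + c) - (1 + 2 * c) * (1 - c ^ 2) * (80179 / 40000) ≤ Dn := by
          rw [← hs2]
          have := mul_le_mul_of_nonneg_left g4 (by positivity : 0 ≤ (1 + 2 * c) * s ^ 2)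
          linarith
        calc _ ≤ c ^ 4 * (c ^ 2 * (1 + c) * (299 / 100) + (1 + 2 * c) * (1 - c ^ 2) * (7289 / 2000)) :=
              mul_le_mul_of_nonneg_left g3 (by positivity)
          _ ≤ _ := hp
          _ ≤ (1 / 2 * c ^ 2 + 2 * (1 - c ^ 2)) * (1 + c) ^ 2 * Dn :=
              mul_le_mul_of_nonneg_left g5 (by rw [← hs2]; positivity)
          _ = _ := by rw [hs2]
  calc _ ≤ c ^ 4 * (l ^ 2 * (c ^ 2 * (1 + c) * e2 + (1 + 2 * c) * s ^ 2 * e1)) :=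
        mul_le_mul_of_nonneg_left hlhs (by positivity)
    _ = l ^ 2 * (c ^ 4 * (c ^ 2 * (1 + c) * e2 + (1 + 2 * c) * s ^ 2 * e1)) := by ring
    _ ≤ l ^ 2 * ((1 / 2 * c ^ 2 + 2 * s ^ 2) * (1 + c) ^ 2 * Dn) :=
        mul_le_mul_of_nonneg_left hmain (by positivity)
    _ = _ := by ring

/-- `cR ≥ -(1/2 + 2Y) Y l²` for `0 ≤ l ≤ 11/20`, `s e^l ≤ 1` -/
lemma cR_pos (hs : 0 < s) (hc : 0 < c) (hsc : s ^ 2 + c ^ 2 = 1) (hT : s * exp l ≤ 1)
    (hl0 : 0 ≤ l) (hl1 : l ≤ 11 / 20) (hl2 : 3 / 4 ≤ c → c ≤ 89 / 100 → l ≤ c - 17 / 50) (hC0 : 0 ≤ C)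
    (hC : C ^ 2 = 1 - (s * exp l) ^ 2) :
    -(1 / 2 + 2 * (s ^ 2 / c ^ 2)) * (s ^ 2 / c ^ 2) * l ^ 2 ≤
      c * C / (1 + C) - c ^ 2 / (1 + c) + l * (s ^ 2 / (1 + c) ^ 2) := by
  set E : ℝ := exp (2 * l) - 1 with hE
  have hexp : (exp l) ^ 2 = 1 + E := by rw [hE, ← Real.exp_nat_mul]; ring_nf
  have hC2 : C ^ 2 = c ^ 2 - s ^ 2 * E := by rw [hC, mul_pow, hexp]; linarith
  set Dn : ℝ := 2 * c ^ 2 * (1 + c) - (1 + 2 * c) * (s ^ 2 * E) with hDn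
  have hDn' : Dn = c ^ 2 + (1 + 2 * c) * C ^ 2 := by rw [hDn, hC2]; ring
  have hDc : c ^ 2 ≤ Dn := by rw [hDn']; nlinarith [mul_nonneg hc.le (sq_nonneg C), sq_nonneg C]
  have hD0 : 0 < Dn := lt_of_lt_of_le (by positivity) hDc
  have key := key_pos hs hc hsc hT hl0 hl1 hl2 hE hDn hDc
  have h1 : 2 * c ^ 2 * C ^ 2 / Dn ≤ c * C / (1 + C) := by
    rw [div_le_div_iff₀ hD0 (by positivity)]
    have : 0 ≤ c * C * (c - C) ^ 2 := by positivity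
    rw [hDn']; nlinarith
  have h2 : 2 * c ^ 2 * C ^ 2 / Dn - c ^ 2 / (1 + c) + l * (s ^ 2 / (1 + c) ^ 2) =
      -(s ^ 2 / (c ^ 4 * (1 + c) ^ 2 * Dn)) * (c ^ 4 * (c ^ 2 * (1 + c) * E - l * Dn)) := by
    have h3 : 2 * C ^ 2 * (1 + c) = Dn - s ^ 2 * E := by rw [hDn, hC2]; ring
    have h4 : 2 * c ^ 2 * C ^ 2 / Dn = c ^ 2 * (Dn - s ^ 2 * E) / ((1 + c) * Dn) := by
      rw [← h3]; field_simp
    rw [h4]
    field_simp
    ring
  have h5 : (1 / 2 + 2 * (s ^ 2 / c ^ 2)) * (s ^ 2 / c ^ 2) * l ^ 2 =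
      (s ^ 2 / (c ^ 4 * (1 + c) ^ 2 * Dn)) * ((1 / 2 * c ^ 2 + 2 * s ^ 2) * (1 + c) ^ 2 * Dn * l ^ 2) := by
    field_simp
  have h6 := mul_le_mul_of_nonneg_left key (by positivity : 0 ≤ s ^ 2 / (c ^ 4 * (1 + c) ^ 2 * Dn))
  have h7 : -(1 / 2 + 2 * (s ^ 2 / c ^ 2)) * (s ^ 2 / c ^ 2) * l ^ 2 =
    -((1 / 2 + 2 * (s ^ 2 / c ^ 2)) * (s ^ 2 / c ^ 2) * l ^ 2) := by ring
  rw [h7, h5]
  linarith

/-! ### elementary bounds of the coefficients -/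

lemma a_ge (hc : 0 < c) (hsc : s ^ 2 + c ^ 2 = 1) :
    1 + 3 / 4 * s ^ 2 ≤ 2 - 2 * c ^ 2 / (1 + c) := by
  have h1 : 2 - 2 * c ^ 2 / (1 + c) - (1 + 3 / 4 * s ^ 2) = (1 - c) ^ 2 * (1 + 3 * c) / (4 * (1 + c)) := by
    have hs2 : s ^ 2 = 1 - c ^ 2 := by linarith
    rw [hs2]; field_simp; ring
  have h2 : 0 ≤ (1 - c) ^ 2 * (1 + 3 * c) / (4 * (1 + c)) := by positivity
  linarith

/-- `Y l ≤ s/2` if `s e^l ≤ 1`, `0 ≤ l` -/
lemma two_l_le (hl0 : 0 ≤ l) : 2 * l ≤ exp l - exp (-l) := by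
  have h := Real.self_le_sinh_iff.2 hl0
  rw [Real.sinh_eq] at h
  linarith

lemma x_le (hs : 0 < s) (hc : 0 < c) (hsc : s ^ 2 + c ^ 2 = 1) (hT : s * exp l ≤ 1) (hl0 : 0 ≤ l) :
    s ^ 2 / c ^ 2 * l ≤ s / 2 := by
  have h1 := two_l_le hl0
  have h2 : exp l ≤ 1 / s := by rw [le_div_iff₀ hs]; linarith
  have h3 : s ≤ exp (-l) := by
    rw [Real.exp_neg]
    rw [le_inv_comm₀ hs (exp_pos l)]
    rwa [one_div] at h2
  have h4 : 2 * l ≤ 1 / s - s := by linarith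
  have h5 : 1 / s - s = c ^ 2 / s := by
    field_simp; linarith
  rw [h5] at h4
  calc s ^ 2 / c ^ 2 * l ≤ s ^ 2 / c ^ 2 * (c ^ 2 / s / 2) :=
        mul_le_mul_of_nonneg_left (by linarith) (by positivity)
    _ = s / 2 := by field_simp

lemma s_le (hs : 0 < s) (hc : 0 < c) (hsc : s ^ 2 + c ^ 2 = 1) : s ≤ 1 - c ^ 2 / 2 - c ^ 4 / 8 := by
  have hc1 : c ≤ 1 := by nlinarith
  have hc2 : c ^ 2 ≤ 1 := by nlinarith
  have hc4 : c ^ 4 ≤ 1 := by nlinarith [sq_nonneg (c ^ 2)]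
  apply (sq_le_sq₀ hs.le (by nlinarith)).1
  have h : (1 - c ^ 2 / 2 - c ^ 4 / 8) ^ 2 - (1 - c ^ 2) = c ^ 6 / 8 + c ^ 8 / 64 := by ring
  have h2 : 0 ≤ c ^ 6 / 8 + c ^ 8 / 64 := by positivity
  have h3 : s ^ 2 = 1 - c ^ 2 := by linarith
  rw [h3]; linarith

lemma a_sub_ge (hs : 0 < s) (hc : 0 < c) (hsc : s ^ 2 + c ^ 2 = 1) :
    33 / 100 ≤ 2 - 2 * c ^ 2 / (1 + c) - 3 / 2 * s := by
  have hc1 : c ≤ 1 := by nlinarith
  have h1 := s_le hs hc hsc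
  have hg : 0 ≤ 17 / 100 + 17 / 100 * c - 5 / 4 * c ^ 2 + 3 / 4 * c ^ 3 + 3 / 16 * c ^ 4 + 3 / 16 * c ^ 5 := by
    rcases le_total c (7 / 10) with h | h
    · have hy : 0 ≤ 7 / 10 - c := by linarith
      have : 17 / 100 + 17 / 100 * c - 5 / 4 * c ^ 2 + 3 / 4 * c ^ 3 + 3 / 16 * c ^ 4 + 3 / 16 * c ^ 5 =
        (17000 / 16807) * (7 / 10 - c) ^ 5 +
      (96900 / 16807) * c ^ 1 * (7 / 10 - c) ^ 4 +
      (156350 / 16807) * c ^ 2 * (7 / 10 - c) ^ 3 +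
      (83375 / 16807) * c ^ 3 * (7 / 10 - c) ^ 2 +
      (38415 / 134456) * c ^ 4 * (7 / 10 - c) ^ 1 +
      (16451 / 268912) * c ^ 5 := by ring
      rw [this]; positivity
    · have hx : 0 ≤ c - 7 / 10 := by linarith
      have hy : 0 ≤ 1 - c := by linarith
      have : 17 / 100 + 17 / 100 * c - 5 / 4 * c ^ 2 + 3 / 4 * c ^ 3 + 3 / 16 * c ^ 4 + 3 / 16 * c ^ 5 =
        (16451 / 3888) * (1 - c) ^ 5 +
      (21145 / 972) * (c - 7 / 10) ^ 1 * (1 - c) ^ 4 +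
      (49075 / 486) * (c - 7 / 10) ^ 2 * (1 - c) ^ 3 +
      (58100 / 243) * (c - 7 / 10) ^ 3 * (1 - c) ^ 2 +
      (59275 / 243) * (c - 7 / 10) ^ 4 * (1 - c) ^ 1 +
      (21500 / 243) * (c - 7 / 10) ^ 5 := by ring
      rw [this]; positivity
  have h2 : 2 - 2 * c ^ 2 / (1 + c) - 3 / 2 * (1 - c ^ 2 / 2 - c ^ 4 / 8) - 33 / 100 =
      (17 / 100 + 17 / 100 * c - 5 / 4 * c ^ 2 + 3 / 4 * c ^ 3 + 3 / 16 * c ^ 4 + 3 / 16 * c ^ 5) / (1 + c) := by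
    field_simp; ring
  have h3 : 0 ≤ (17 / 100 + 17 / 100 * c - 5 / 4 * c ^ 2 + 3 / 4 * c ^ 3 + 3 / 16 * c ^ 4 + 3 / 16 * c ^ 5) / (1 + c) := by
    positivity
  linarith

/-! ### the bound `β κ ≤ (17/20) (a - 3 Y l)` -/

lemma polyA1 (h1 : 3 / 5 ≤ s) (h2 : s ≤ 1) :
    9 / 4 * s ^ 2 + 9 / 28 * (1 - s ^ 2) ≤ 17 / 20 * s * (1 + s) * (1 + 3 / 4 * s ^ 2) := by
  have hx : 0 ≤ s - 3 / 5 := by linarith
  have hy : 0 ≤ 1 - s := by linarith
  have h : 17 / 20 * s * (1 + s) * (1 + 3 / 4 * s ^ 2) - (9 / 4 * s ^ 2 + 9 / 28 * (1 - s ^ 2)) =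
      (1803 / 2240) * (1 - s) ^ 4 +
      (14015 / 896) * (s - 3 / 5) ^ 1 * (1 - s) ^ 3 +
      (6545 / 128) * (s - 3 / 5) ^ 2 * (1 - s) ^ 2 +
      (57325 / 896) * (s - 3 / 5) ^ 3 * (1 - s) ^ 1 +
      (3625 / 128) * (s - 3 / 5) ^ 4 := by ring
  rw [← sub_nonneg, h]; positivity

lemma polyI1 (h1 : 2 / 5 ≤ s) (h2 : s ≤ 3 / 5) :
    (9 / 4 * s ^ 2 + 9 / 28 * (1 - s ^ 2)) * (824 / 1000 - s) ≤
      17 / 20 * s * ((1 + 3 / 4 * s ^ 2) * (1 - s ^ 2) - 3 / 5 * s ^ 2) := by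
  have hx : 0 ≤ s - 2 / 5 := by linarith
  have hy : 0 ≤ 3 / 5 - s := by linarith
  have h : 17 / 20 * s * ((1 + 3 / 4 * s ^ 2) * (1 - s ^ 2) - 3 / 5 * s ^ 2) -
      (9 / 4 * s ^ 2 + 9 / 28 * (1 - s ^ 2)) * (824 / 1000 - s) =
      (1257 / 20) * (3 / 5 - s) ^ 5 +
      (7877 / 14) * (s - 2 / 5) ^ 1 * (3 / 5 - s) ^ 4 +
      (86987 / 56) * (s - 2 / 5) ^ 2 * (3 / 5 - s) ^ 3 +
      (30677 / 16) * (s - 2 / 5) ^ 3 * (3 / 5 - s) ^ 2 +
      (61855 / 56) * (s - 2 / 5) ^ 4 * (3 / 5 - s) ^ 1 +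
      (4803 / 20) * (s - 2 / 5) ^ 5 := by ring
  rw [← sub_nonneg, h]; positivity

lemma polyI2 (h1 : 2 / 5 ≤ s) (h2 : s ≤ 3 / 5) :
    255 / 100 * s ^ 3 ≤ 68 / 100 * (9 / 4 * s ^ 2 + 9 / 28 * (1 - s ^ 2)) := by
  have hx : 0 ≤ s - 2 / 5 := by linarith
  have hy : 0 ≤ 3 / 5 - s := by linarith
  have h : 68 / 100 * (9 / 4 * s ^ 2 + 9 / 28 * (1 - s ^ 2)) - 255 / 100 * s ^ 3 =
      (663 / 20) * (3 / 5 - s) ^ 3 +
      (13311 / 140) * (s - 2 / 5) ^ 1 * (3 / 5 - s) ^ 2 +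
      (2295 / 28) * (s - 2 / 5) ^ 2 * (3 / 5 - s) ^ 1 +
      (612 / 35) * (s - 2 / 5) ^ 3 := by ring
  rw [← sub_nonneg, h]; positivity

lemma exp_neg_chord (h1 : 1 / 5 ≤ l) (h2 : l ≤ 11 / 20) : exp (-l) ≤ 96 / 100 - 68 / 100 * l := by
  have h4 : 1 + l + l ^ 2 / 2 + l ^ 3 / 6 ≤ exp l := by
    have := Real.sum_le_exp_of_nonneg (x := l) (by linarith) 4
    simp [Finset.sum_range_succ, Nat.factorial] at this
    linarith
  have hx : 0 ≤ l - 1 / 5 := by linarith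
  have hy : 0 ≤ 11 / 20 - l := by linarith
  have h3 : 0 ≤ (96 / 100 - 68 / 100 * l) * (1 + l + l ^ 2 / 2 + l ^ 3 / 6) - 1 := by
    have h : (96 / 100 - 68 / 100 * l) * (1 + l + l ^ 2 / 2 + l ^ 3 / 6) - 1 =
      (76544 / 180075) * (11 / 20 - l) ^ 4 +
      (1040224 / 180075) * (l - 1 / 5) ^ 1 * (11 / 20 - l) ^ 3 +
      (722888 / 60025) * (l - 1 / 5) ^ 2 * (11 / 20 - l) ^ 2 +
      (1383574 / 180075) * (l - 1 / 5) ^ 3 * (11 / 20 - l) ^ 1 +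
      (316363 / 360150) * (l - 1 / 5) ^ 4 := by ring
    rw [h]; positivity
  have h5 : 1 ≤ (96 / 100 - 68 / 100 * l) * exp l := by
    have : (96 / 100 - 68 / 100 * l) * (1 + l + l ^ 2 / 2 + l ^ 3 / 6) ≤
        (96 / 100 - 68 / 100 * l) * exp l :=
      mul_le_mul_of_nonneg_left h4 (by linarith)
    linarith
  rw [Real.exp_neg, inv_le_iff_one_le_mul₀ (exp_pos l)]
  exact h5

lemma beta_z1 (hN : 6 ≤ N) (hc : 0 < c) (hκ1 : κ ≤ 1 + 1 / c) :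
    9 / (4 * (N + 1)) * κ ≤ 9 / 28 * (1 + 1 / c) := by
  have h0 : 9 / (4 * (N + 1)) ≤ 9 / 28 := by
    rw [div_le_div_iff₀ (by linarith) (by norm_num)]; linarith
  have h1 : 0 ≤ 9 / (4 * (N + 1)) := by positivity
  calc _ ≤ 9 / (4 * (N + 1)) * (1 + 1 / c) := mul_le_mul_of_nonneg_left hκ1 h1
    _ ≤ _ := mul_le_mul_of_nonneg_right h0 (by positivity)

lemma beta_z2 (hN : 6 ≤ N) (hs : 0 < s) (hc : 0 < c) (hκ0 : 0 < κ)
    (hκ2 : κ ≤ ((N + 1) * s / c ^ 2 + 1 / s) * (exp (-l) - s)) :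
    9 / (4 * (N + 1)) * κ ≤ (9 / 4 * s / c ^ 2 + 9 / 28 / s) * (exp (-l) - s) := by
  have hh : 0 < (N + 1) * s / c ^ 2 + 1 / s := by positivity
  have he : 0 < exp (-l) - s := by
    by_contra hcon
    rw [not_lt] at hcon
    have := mul_nonpos_of_nonneg_of_nonpos hh.le hcon
    linarith
  have h0 : 9 / (4 * (N + 1)) ≤ 9 / 28 := by
    rw [div_le_div_iff₀ (by linarith) (by norm_num)]; linarith
  have h1 : 0 ≤ 9 / (4 * (N + 1)) := by positivity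
  calc _ ≤ 9 / (4 * (N + 1)) * (((N + 1) * s / c ^ 2 + 1 / s) * (exp (-l) - s)) :=
        mul_le_mul_of_nonneg_left hκ2 h1
    _ = (9 / 4 * s / c ^ 2 + 9 / (4 * (N + 1)) / s) * (exp (-l) - s) := by
        field_simp
    _ ≤ _ := by
        apply mul_le_mul_of_nonneg_right _ he.le
        have := div_le_div_of_nonneg_right h0 hs.le
        linarith

/-- the case `l ≥ 0`, `s ≤ 3/5` -/
lemma kap_pos_a (hs : 0 < s) (hc : 0 < c) (hsc : s ^ 2 + c ^ 2 = 1)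
    (hl0 : 0 ≤ l) (hl1 : l ≤ 11 / 20) (h35 : s ≤ 3 / 5) {z : ℝ}
    (hz1 : z ≤ 9 / 28 * (1 + 1 / c))
    (hz2 : z ≤ (9 / 4 * s / c ^ 2 + 9 / 28 / s) * (exp (-l) - s)) :
    z ≤ 17 / 20 * (1 + 3 / 4 * s ^ 2 - 3 * (s ^ 2 / c ^ 2 * l)) := by
  have hc2' : c ^ 2 = 1 - s ^ 2 := by linarith
  rcases le_total s (2 / 5) with h25 | h25
  · refine hz1.trans ?_
    have hc2 : 84 / 100 ≤ c ^ 2 := by nlinarith
    have hc9 : 9 / 10 ≤ c := by nlinarith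
    have h1 : 1 / c ≤ 10 / 9 := by rw [div_le_div_iff₀ hc (by norm_num)]; linarith
    have h2 : s ^ 2 / c ^ 2 ≤ 25 / 21 * s ^ 2 := by
      rw [div_le_iff₀ (by positivity)]; nlinarith [sq_nonneg s]
    have h3 : s ^ 2 / c ^ 2 * l ≤ 25 / 21 * s ^ 2 * (11 / 20) := mul_le_mul h2 hl1 hl0 (by positivity)
    have h4 : s ^ 2 ≤ 4 / 25 := by nlinarith
    linarith
  · have hc2 : 64 / 100 ≤ c ^ 2 := by nlinarith
    rcases le_total l (1 / 5) with hl | hl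
    · refine hz1.trans ?_
      have hc9 : 8 / 10 ≤ c := by nlinarith
      have h1 : 1 / c ≤ 5 / 4 := by rw [div_le_div_iff₀ hc (by norm_num)]; linarith
      have h2 : s ^ 2 / c ^ 2 ≤ 25 / 16 * s ^ 2 := by
        rw [div_le_iff₀ (by positivity)]; nlinarith [sq_nonneg s]
      have h3 : s ^ 2 / c ^ 2 * l ≤ 25 / 16 * s ^ 2 * (1 / 5) := mul_le_mul h2 hl hl0 (by positivity)
      have h4 : s ^ 2 ≤ 9 / 25 := by nlinarith
      linarith
    · refine hz2.trans ?_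
      have hG : 9 / 4 * s / c ^ 2 + 9 / 28 / s = (9 / 4 * s ^ 2 + 9 / 28 * (1 - s ^ 2)) / (s * c ^ 2) := by
        rw [← hc2']; field_simp
      have hG0 : 0 ≤ 9 / 4 * s / c ^ 2 + 9 / 28 / s := by positivity
      have h1 := polyI1 h25 h35
      have h2 := polyI2 h25 h35
      have h3 := exp_neg_chord hl hl1
      have g1 : (9 / 4 * s / c ^ 2 + 9 / 28 / s) * (824 / 1000 - s) ≤
          17 / 20 * ((1 + 3 / 4 * s ^ 2) - 3 / 5 * (s ^ 2 / c ^ 2)) := by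
        have e : 17 / 20 * ((1 + 3 / 4 * s ^ 2) - 3 / 5 * (s ^ 2 / c ^ 2)) =
          (17 / 20 * s * ((1 + 3 / 4 * s ^ 2) * (1 - s ^ 2) - 3 / 5 * s ^ 2)) / (s * c ^ 2) := by
          rw [← hc2']
          field_simp
        rw [hG, div_mul_eq_mul_div, e]
        exact div_le_div_of_nonneg_right h1 (by positivity)
      have g2 : 255 / 100 * (s ^ 2 / c ^ 2) ≤ 68 / 100 * (9 / 4 * s / c ^ 2 + 9 / 28 / s) := by
        have e1 : 255 / 100 * (s ^ 2 / c ^ 2) = (255 / 100 * s ^ 3) / (s * c ^ 2) := by field_simp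
        rw [hG, e1, ← mul_div_assoc]
        exact div_le_div_of_nonneg_right h2 (by positivity)
      have g3 : (9 / 4 * s / c ^ 2 + 9 / 28 / s) * (exp (-l) - s) ≤
          (9 / 4 * s / c ^ 2 + 9 / 28 / s) * (824 / 1000 - s) -
            68 / 100 * (9 / 4 * s / c ^ 2 + 9 / 28 / s) * (l - 1 / 5) := by
        have := mul_le_mul_of_nonneg_left h3 hG0
        linarith
      have g4 := mul_le_mul_of_nonneg_right g2 (by linarith : 0 ≤ l - 1 / 5)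
      linarith

lemma poly_b (h1 : 3 / 5 ≤ s) (h2 : s ≤ 1) : 3 * s / (1 + s) ≤ 1 + 3 / 4 * s ^ 2 := by
  rw [div_le_iff₀ (by linarith)]
  have hx : 0 ≤ s - 3 / 5 := by linarith
  have hyy : 0 ≤ 1 - s := by linarith
  have h : (1 + 3 / 4 * s ^ 2) * (1 + s) - 3 * s =
    (29 / 8) * (1 - s) ^ 3 + (145 / 16) * (s - 3 / 5) * (1 - s) ^ 2 +
      (25 / 2) * (s - 3 / 5) ^ 2 * (1 - s) + (125 / 16) * (s - 3 / 5) ^ 3 := by ring
  have h2 : 0 ≤ (1 + 3 / 4 * s ^ 2) * (1 + s) - 3 * s := by rw [h]; positivity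
  linarith

/-- the case `l ≥ 0`, `s ≥ 3/5` -/
lemma kap_pos_b (hs : 0 < s) (hc : 0 < c) (hsc : s ^ 2 + c ^ 2 = 1) (hT : s * exp l ≤ 1)
    (hl0 : 0 ≤ l) (h35 : 3 / 5 ≤ s) {a : ℝ} (ha : 1 + 3 / 4 * s ^ 2 ≤ a) :
    (9 / 4 * s / c ^ 2 + 9 / 28 / s) * (exp (-l) - s) ≤ 17 / 20 * (a - 3 * (s ^ 2 / c ^ 2 * l)) := by
  have hc2' : c ^ 2 = 1 - s ^ 2 := by linarith
  have hs1 : s < 1 := by nlinarith
  set y : ℝ := exp (-l) with hy
  have hy0 : 0 < y := exp_pos _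
  have hy1 : y ≤ 1 := by rw [hy]; exact Real.exp_le_one_iff.2 (by linarith)
  have hyl : exp l * y = 1 := by rw [hy, ← Real.exp_add]; simp
  have hys : s ≤ y := by
    have := mul_le_mul_of_nonneg_right hT hy0.le
    rw [mul_assoc, hyl] at this
    linarith
  have h2l := two_l_le hl0
  have hsl : s * l ≤ 1 - y := by
    have h1 : 2 * l * y ≤ 1 - y ^ 2 := by
      have := mul_le_mul_of_nonneg_right h2l hy0.le
      rw [← hy, sub_mul, hyl] at this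
      linarith
    have h2 : s * (2 * l * y) ≤ s * (1 - y ^ 2) := mul_le_mul_of_nonneg_left h1 hs.le
    have h4 : s * (1 + y) ≤ 2 * y := by
      have := mul_le_mul_of_nonneg_right hs1.le hy0.le
      linarith
    have h3 : s * (1 + y) * (1 - y) ≤ 2 * y * (1 - y) :=
      mul_le_mul_of_nonneg_right h4 (by linarith : 0 ≤ 1 - y)
    by_contra hcon
    rw [not_le] at hcon
    have h5 := mul_lt_mul_of_pos_left hcon hy0
    linarith
  have hYl : s ^ 2 / c ^ 2 * l ≤ s * (1 - y) / c ^ 2 := by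
    rw [div_mul_eq_mul_div]
    apply div_le_div_of_nonneg_right _ (by positivity)
    have := mul_le_mul_of_nonneg_left hsl hs.le
    linarith
  have hpA := polyA1 h35 hs1.le
  have hGs : (9 / 4 * s / c ^ 2 + 9 / 28 / s) * (1 - s) ≤ 17 / 20 * a := by
    have h1 : (9 / 4 * s / c ^ 2 + 9 / 28 / s) * (1 - s) ≤ 17 / 20 * (1 + 3 / 4 * s ^ 2) := by
      have e1 : (9 / 4 * s / c ^ 2 + 9 / 28 / s) * (1 - s) =
        (9 / 4 * s ^ 2 + 9 / 28 * (1 - s ^ 2)) * (1 - s) / (s * c ^ 2) := by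
        rw [← hc2']; field_simp
      have e2 : 17 / 20 * (1 + 3 / 4 * s ^ 2) =
        17 / 20 * s * (1 + s) * (1 + 3 / 4 * s ^ 2) * (1 - s) / (s * c ^ 2) := by
        rw [eq_div_iff (by positivity), hc2']; ring
      rw [e1, e2]
      exact div_le_div_of_nonneg_right (mul_le_mul_of_nonneg_right hpA (by linarith)) (by positivity)
    linarith
  have hb := (poly_b h35 hs1.le).trans ha
  have h1s : 0 < 1 - s := by linarith
  have e3 : 3 * s / (1 + s) = 3 * s * (1 - s) / c ^ 2 := by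
    have : 1 - s ^ 2 = (1 - s) * (1 + s) := by ring
    rw [hc2', this]
    field_simp
  set G : ℝ := 9 / 4 * s / c ^ 2 + 9 / 28 / s with hGdef
  have key : 0 ≤ (1 - s) * (17 / 20 * (a - 3 * (s * (1 - y) / c ^ 2)) - G * (y - s)) := by
    have e : (1 - s) * (17 / 20 * (a - 3 * (s * (1 - y) / c ^ 2)) - G * (y - s)) =
      (y - s) * (17 / 20 * a - G * (1 - s)) + (1 - y) * (17 / 20) * (a - 3 * s / (1 + s)) := by
      rw [e3]
      ring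
    rw [e]
    have t1 : 0 ≤ (y - s) * (17 / 20 * a - G * (1 - s)) := mul_nonneg (by linarith) (by linarith)
    have t2 : 0 ≤ (1 - y) * (17 / 20) * (a - 3 * s / (1 + s)) :=
      mul_nonneg (by linarith) (by linarith)
    linarith
  have key2 := nonneg_of_mul_nonneg_right key h1s
  linarith

/-- the case `l ≥ 0` -/
lemma kap_pos (hN : 6 ≤ N) (hs : 0 < s) (hc : 0 < c) (hsc : s ^ 2 + c ^ 2 = 1) (hT : s * exp l ≤ 1)
    (hl0 : 0 ≤ l) (hl1 : l ≤ 11 / 20) (hκ0 : 0 < κ) (hκ1 : κ ≤ 1 + 1 / c)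
    (hκ2 : κ ≤ ((N + 1) * s / c ^ 2 + 1 / s) * (exp (-l) - s)) :
    9 / (4 * (N + 1)) * κ ≤ 17 / 20 * (2 - 2 * c ^ 2 / (1 + c) - 3 * (s ^ 2 / c ^ 2 * l)) := by
  have hz1 := beta_z1 hN hc hκ1
  have hz2 := beta_z2 hN hs hc hκ0 hκ2
  have ha := a_ge hc hsc
  rcases le_total s (3 / 5) with h35 | h35
  · have := kap_pos_a hs hc hsc hl0 hl1 h35 hz1 hz2
    linarith
  · exact hz2.trans (kap_pos_b hs hc hsc hT hl0 h35 ha)

/-! ### the bound `β κ ≤ (17/20) (a + 3 Y L)` for `l = -L ≤ 0` -/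

lemma polyN1 (h1 : 13 / 50 ≤ c) (h2 : c ≤ 1) :
    9 / 28 * (1 + c) ^ 2 ≤ 17 / 10 * c * (1 + c - c ^ 2) := by
  have hx : 0 ≤ c - 13 / 50 := by linarith
  have hy : 0 ≤ 1 - c := by linarith
  have h : 17 / 10 * c * (1 + c - c ^ 2) - 9 / 28 * (1 + c) ^ 2 =
      (10463 / 253265) * (1 - c) ^ 3 + (276965 / 101306) * (c - 13 / 50) * (1 - c) ^ 2 +
        (1920000 / 354571) * (c - 13 / 50) ^ 2 * (1 - c) + (362500 / 354571) * (c - 13 / 50) ^ 3 := by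
    ring
  rw [← sub_nonneg, h]; positivity

lemma kap_neg_b (hs : 0 < s) (hc : 0 < c) (hsc : s ^ 2 + c ^ 2 = 1) (hL : 0 ≤ L) (hL1 : L ≤ 9 / 200)
    (hc1 : c ≤ 13 / 50) :
    (9 / 4 * s / c ^ 2 + 9 / 28 / s) * (exp L - s) ≤
      17 / 20 * (1 + 3 / 4 * s ^ 2 + 3 * (s ^ 2 / c ^ 2 * L)) := by
  have hc2' : c ^ 2 = 1 - s ^ 2 := by linarith
  have hs1 : s < 1 := by nlinarith
  have hc2 : c ^ 2 ≤ 169 / 2500 := by nlinarith
  have hs9 : 96 / 100 ≤ s := by nlinarith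
  have hpA := polyA1 (s := s) (by linarith) hs1.le
  have hE : exp L ≤ 1 + 21 / 20 * L := by
    have h1 := Real.add_one_le_exp (-L)
    have h2 : exp L * exp (-L) = 1 := by rw [← Real.exp_add]; simp
    have h3 : exp L * (1 - L) ≤ 1 := by
      have := mul_le_mul_of_nonneg_left h1 (exp_pos L).le
      rw [h2] at this
      linarith
    have h4 : 1 ≤ (1 + 21 / 20 * L) * (1 - L) := by nlinarith
    by_contra hcon
    rw [not_le] at hcon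
    have h5 := mul_lt_mul_of_pos_right hcon (by linarith : 0 < 1 - L)
    linarith
  have hG0 : 0 ≤ 9 / 4 * s / c ^ 2 + 9 / 28 / s := by positivity
  have h1 : (9 / 4 * s / c ^ 2 + 9 / 28 / s) * (1 - s) ≤ 17 / 20 * (1 + 3 / 4 * s ^ 2) := by
    have e1 : (9 / 4 * s / c ^ 2 + 9 / 28 / s) * (1 - s) =
      (9 / 4 * s ^ 2 + 9 / 28 * (1 - s ^ 2)) * (1 - s) / (s * c ^ 2) := by
      rw [← hc2']; field_simp
    have e2 : 17 / 20 * (1 + 3 / 4 * s ^ 2) =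
      17 / 20 * s * (1 + s) * (1 + 3 / 4 * s ^ 2) * (1 - s) / (s * c ^ 2) := by
      rw [eq_div_iff (by positivity), hc2']; ring
    rw [e1, e2]
    exact div_le_div_of_nonneg_right (mul_le_mul_of_nonneg_right hpA (by linarith)) (by positivity)
  have h2 : 21 / 20 * (9 / 4 * s / c ^ 2 + 9 / 28 / s) ≤ 51 / 20 * (s ^ 2 / c ^ 2) := by
    have e1 : 51 / 20 * (s ^ 2 / c ^ 2) = (51 / 20 * s ^ 3) / (s * c ^ 2) := by field_simp
    have e2 : 21 / 20 * (9 / 4 * s / c ^ 2 + 9 / 28 / s) =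
        (21 / 20 * (9 / 4 * s ^ 2 + 9 / 28 * c ^ 2)) / (s * c ^ 2) := by field_simp
    rw [e1, e2]
    apply div_le_div_of_nonneg_right _ (by positivity)
    have h3 : 96 / 100 * s ^ 2 ≤ s ^ 3 := by
      have := mul_le_mul_of_nonneg_right hs9 (sq_nonneg s)
      linarith
    nlinarith
  have h3 : (9 / 4 * s / c ^ 2 + 9 / 28 / s) * (exp L - s) ≤
      (9 / 4 * s / c ^ 2 + 9 / 28 / s) * (1 - s) + 21 / 20 * (9 / 4 * s / c ^ 2 + 9 / 28 / s) * L := by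
    have := mul_le_mul_of_nonneg_left hE hG0
    linarith
  have h4 := mul_le_mul_of_nonneg_right h2 hL
  linarith

/-- the case `l = -L ≤ 0` -/
lemma kap_neg (hN : 6 ≤ N) (hs : 0 < s) (hc : 0 < c) (hsc : s ^ 2 + c ^ 2 = 1) (hL : 0 ≤ L)
    (hκ0 : 0 < κ) (hκ1 : κ ≤ 1 + 1 / c)
    (hκ2 : κ ≤ ((N + 1) * s / c ^ 2 + 1 / s) * (exp L - s)) :
    9 / (4 * (N + 1)) * κ ≤ 17 / 20 * (2 - 2 * c ^ 2 / (1 + c) + 3 * (s ^ 2 / c ^ 2 * L)) := by
  have hz1 := beta_z1 hN hc hκ1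
  have hz2 := beta_z2 (l := -L) hN hs hc hκ0 (by rwa [neg_neg])
  rw [neg_neg] at hz2
  have ha := a_ge hc hsc
  have hc1 : c ≤ 1 := by nlinarith
  have hYL : 0 ≤ s ^ 2 / c ^ 2 * L := by positivity
  rcases le_total c (13 / 50) with hcc | hcc
  · rcases le_total L (9 / 200) with hL1 | hL1
    · have := kap_neg_b hs hc hsc hL hL1 hcc
      linarith
    · refine hz1.trans ?_
      have h1 : s ^ 2 / c ^ 2 * (9 / 200) ≤ s ^ 2 / c ^ 2 * L :=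
        mul_le_mul_of_nonneg_left hL1 (by positivity)
      have h2 : 9 / 28 * (1 + 1 / c) ≤ 51 / 20 * (s ^ 2 / c ^ 2 * (9 / 200)) := by
        have e1 : 9 / 28 * (1 + 1 / c) = (9 / 28 * c) * (1 + c) / c ^ 2 := by field_simp; ring
        have e2 : 51 / 20 * (s ^ 2 / c ^ 2 * (9 / 200)) = (459 / 4000 * (1 - c)) * (1 + c) / c ^ 2 := by
          have : s ^ 2 = (1 - c) * (1 + c) := by linarith
          rw [this]; field_simp; ring
        rw [e1, e2]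
        apply div_le_div_of_nonneg_right _ (by positivity)
        apply mul_le_mul_of_nonneg_right _ (by positivity)
        linarith
      have : 0 ≤ s ^ 2 := sq_nonneg s
      linarith
  · refine hz1.trans ?_
    have hp := polyN1 hcc hc1
    have h1 : 9 / 28 * (1 + 1 / c) ≤ 17 / 20 * (2 - 2 * c ^ 2 / (1 + c)) := by
      have e1 : 9 / 28 * (1 + 1 / c) = (9 / 28 * (1 + c) ^ 2) / (c * (1 + c)) := by
        field_simp; ring
      have e2 : 17 / 20 * (2 - 2 * c ^ 2 / (1 + c)) = (17 / 10 * c * (1 + c - c ^ 2)) / (c * (1 + c)) := by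
        field_simp
        ring
      rw [e1, e2]
      exact div_le_div_of_nonneg_right hp (by positivity)
    linarith

/-! ### assembly -/

lemma quad_nonneg {p q r x y : ℝ} (hp : 0 < p) (hd : q ^ 2 ≤ 4 * p * r) :
    0 ≤ p * x ^ 2 - q * x * y + r * y ^ 2 := by
  have h : 4 * p * (p * x ^ 2 - q * x * y + r * y ^ 2) =
    (2 * p * x - q * y) ^ 2 + (4 * p * r - q ^ 2) * y ^ 2 := by ring
  have h2 : 0 ≤ 4 * p * (p * x ^ 2 - q * x * y + r * y ^ 2) := by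
    rw [h]
    have := mul_nonneg (sub_nonneg.2 hd) (sq_nonneg y)
    positivity
  by_contra hcon
  rw [not_le] at hcon
  have := mul_neg_of_pos_of_neg (by linarith : 0 < 4 * p) hcon
  linarith

/-- `l = -L ≤ 0` -/
lemma main_neg {a z k K β : ℝ} (hN : 6 ≤ N) (hβ : β = 9 / (4 * (N + 1))) (hz : 0 ≤ z) (ha : 1 ≤ a)
    (hκ0 : 0 < κ) (hk : k = κ - 1) (hK : K = k ^ 2 / κ)
    (hA : β * κ ≤ 17 / 20 * (a + 3 * z)) :
    K / 200 ≤ (a + 3 * z) * K - 2 / 5 * z * k + 13 / 10 * (N - 4) * z ^ 2 - β * k ^ 2 := by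
  have hK0 : 0 ≤ K := by rw [hK]; positivity
  have hKκ : K * κ = k ^ 2 := by rw [hK]; field_simp
  have hβ0 : 0 < β := by rw [hβ]; positivity
  have hβ1 : β ≤ 9 / 28 := by
    rw [hβ, div_le_div_iff₀ (by linarith) (by norm_num)]; linarith
  rcases le_total κ 1 with h | h
  · have h1 : k ^ 2 ≤ K := by
      rw [← hKκ]; nlinarith
    have h2 : β * k ^ 2 ≤ 9 / 28 * K := mul_le_mul hβ1 h1 (sq_nonneg k) (by norm_num)
    have h3 : 0 ≤ z * (-k) := mul_nonneg hz (by linarith)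
    have h4 : 0 ≤ 13 / 10 * (N - 4) * z ^ 2 := by
      have : 0 ≤ N - 4 := by linarith
      positivity
    have h5 : 1 * K ≤ (a + 3 * z) * K := mul_le_mul_of_nonneg_right (by linarith) hK0
    linarith
  · have h1 : β * k ^ 2 ≤ 17 / 20 * (a + 3 * z) * K := by
      have := mul_le_mul_of_nonneg_right hA hK0
      rw [mul_assoc, mul_comm κ K, hKκ] at this
      exact this
    have h5 : 1 * K ≤ (a + 3 * z) * K := mul_le_mul_of_nonneg_right (by linarith) hK0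
    have h2 : 29 / 200 * ((a + 3 * z) * K) - 2 / 5 * z * k + 13 / 10 * (N - 4) * z ^ 2 ≥ 0 := by
      have g1 : 29 / 170 * (β * k ^ 2) ≤ 29 / 200 * ((a + 3 * z) * K) := by linarith
      have g2 : 0 ≤ 29 / 170 * (β * k ^ 2) - 2 / 5 * z * k + 13 / 10 * (N - 4) * z ^ 2 := by
        have g3 : (2 / 5 : ℝ) ^ 2 ≤ 4 * (29 / 170 * β) * (13 / 10 * (N - 4)) := by
          have : 4 * (29 / 170 * β) * (13 / 10 * (N - 4)) = 377 / 425 * (β * (N - 4)) := by ring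
          rw [this]
          have g4 : 9 / 14 ≤ β * (N - 4) := by
            rw [hβ, div_mul_eq_mul_div, div_le_div_iff₀ (by norm_num) (by linarith)]
            linarith
          linarith
        have := quad_nonneg (x := k) (y := z) (by positivity : 0 < 29 / 170 * β) g3
        linarith
      linarith
    linarith

/-- `l ≥ 0` -/
lemma main_pos {a x k K β : ℝ} (hN : 6 ≤ N) (hβ : β = 9 / (4 * (N + 1))) (hx : 0 ≤ x)
    (hxs : x ≤ s / 2) (ha : 1 + 3 / 4 * s ^ 2 ≤ a) (ha2 : 33 / 100 ≤ a - 3 / 2 * s)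
    (hκ0 : 0 < κ) (hk : k = κ - 1) (hK : K = k ^ 2 / κ)
    (hA : β * κ ≤ 17 / 20 * (a - 3 * x)) :
    K / 200 ≤ (a - 3 * x) * K + 2 / 5 * x * k + 3 / 5 * x ^ 2 - β * k ^ 2 := by
  have hK0 : 0 ≤ K := by rw [hK]; positivity
  have hKκ : K * κ = k ^ 2 := by rw [hK]; field_simp
  have hβ0 : 0 < β := by rw [hβ]; positivity
  have hβ1 : β ≤ 9 / 28 := by
    rw [hβ, div_le_div_iff₀ (by linarith) (by norm_num)]; linarith
  have hα : 33 / 100 ≤ a - 3 * x := by linarith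
  have h5 : 33 / 100 * K ≤ (a - 3 * x) * K := mul_le_mul_of_nonneg_right hα hK0
  rcases le_total κ 1 with h | h
  · have h1 : k ^ 2 ≤ K := by
      rw [← hKκ]; nlinarith
    have h2 : β * k ^ 2 ≤ 9 / 28 * k ^ 2 := mul_le_mul_of_nonneg_right hβ1 (sq_nonneg k)
    rcases le_total κ (2 / 3) with h3 | h3
    · have h6 : 3 / 2 * k ^ 2 ≤ K := by
        rw [← hKκ]; nlinarith
      have h7 := quad_nonneg (x := -k) (y := x) (p := 83 / 500) (q := 2 / 5) (r := 3 / 5)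
        (by norm_num) (by norm_num)
      have : (-k) ^ 2 = k ^ 2 := by ring
      rw [this] at h7
      have := sq_nonneg k
      linarith
    · rcases le_total (2 / 9) x with h4 | h4
      · have h6 : 0 ≤ 2 / 5 * x * k + 3 / 5 * x ^ 2 := by
          have : 2 / 5 * x * k + 3 / 5 * x ^ 2 = 2 / 5 * x * (k + 3 / 2 * x) := by ring
          rw [this]
          exact mul_nonneg (by linarith) (by linarith)
        have := sq_nonneg k
        linarith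
      · have hα2 : 1 - 3 * x + 3 * x ^ 2 ≤ a - 3 * x := by nlinarith
        have hα3 : 2 / 5 ≤ a - 3 * x := by nlinarith [sq_nonneg (x - 2 / 9)]
        have h6 : 2 / 5 * K ≤ (a - 3 * x) * K := mul_le_mul_of_nonneg_right hα3 hK0
        have h7 := quad_nonneg (x := -k) (y := x) (p := 7 / 100) (q := 2 / 5) (r := 3 / 5)
          (by norm_num) (by norm_num)
        have : (-k) ^ 2 = k ^ 2 := by ring
        rw [this] at h7
        have := sq_nonneg k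
        linarith
  · have h1 : β * k ^ 2 ≤ 17 / 20 * (a - 3 * x) * K := by
      have := mul_le_mul_of_nonneg_right hA hK0
      rw [mul_assoc, mul_comm κ K, hKκ] at this
      exact this
    have h2 : 0 ≤ x * k := mul_nonneg hx (by linarith)
    have h3 := sq_nonneg x
    linarith

/-- the real inequality of case I -/
theorem mainI (hN : 6 ≤ N) (hs : 0 < s) (hc : 0 < c) (hsc : s ^ 2 + c ^ 2 = 1) (hT : s * exp l ≤ 1)
    (hl1 : l ≤ 11 / 20) (hl2 : 3 / 4 ≤ c → c ≤ 89 / 100 → l ≤ c - 17 / 50) (hC0 : 0 ≤ C)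
    (hC : C ^ 2 = 1 - (s * exp l) ^ 2) (hκ0 : 0 < κ) (hκ1 : κ ≤ 1 + 1 / c)
    (hκ2 : κ ≤ ((N + 1) * s / c ^ 2 + 1 / s) * (exp (-l) - s)) :
    1 / 200 * ((κ - 1) ^ 2 / κ + s ^ 2 / c ^ 2 * l ^ 2) ≤
      (2 - 2 * c ^ 2 / (1 + c) - 3 * (s ^ 2 / c ^ 2 * l)) * ((κ - 1) ^ 2 / κ) +
        2 / 5 * (s ^ 2 / c ^ 2 * l) * (κ - 1) +
        (13 / 10 * (N - 4) * (s ^ 2 / c ^ 2) ^ 2 + 3 / 5 * (s ^ 2 / c ^ 2)) * l ^ 2 +
        (c * C / (1 + C) - c ^ 2 / (1 + c) + l * (s ^ 2 / (1 + c) ^ 2)) -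
        9 / (4 * (N + 1)) * (κ - 1) ^ 2 := by
  have ha := a_ge hc hsc
  have hY : 0 < s ^ 2 / c ^ 2 := by positivity
  rcases le_total l 0 with hl | hl
  · have h1 := cR_neg (L := -l) hs hc hsc (by linarith) hC0 (by rw [neg_neg]; exact hC)
    have h2 := kap_neg (L := -l) hN hs hc hsc (by linarith) hκ0 hκ1 hκ2
    have hz : 0 ≤ s ^ 2 / c ^ 2 * (-l) := mul_nonneg hY.le (by linarith)
    have h3 := main_neg (a := 2 - 2 * c ^ 2 / (1 + c)) (z := s ^ 2 / c ^ 2 * (-l)) hN rfl hz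
      (by nlinarith [sq_nonneg s]) hκ0 rfl rfl h2
    have h4 : (s ^ 2 / c ^ 2 * (-l)) ^ 2 = (s ^ 2 / c ^ 2) ^ 2 * l ^ 2 := by ring
    rw [h4] at h3
    have h5 : 0 ≤ s ^ 2 / c ^ 2 * l ^ 2 := by positivity
    have h6 : (-l) ^ 2 = l ^ 2 := by ring
    rw [h6] at h1
    linarith
  · have h1 := cR_pos hs hc hsc hT hl hl1 hl2 hC0 hC
    have h2 := kap_pos hN hs hc hsc hT hl hl1 hκ0 hκ1 hκ2
    have hx : 0 ≤ s ^ 2 / c ^ 2 * l := mul_nonneg hY.le hl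
    have h3 := main_pos (s := s) (a := 2 - 2 * c ^ 2 / (1 + c)) (x := s ^ 2 / c ^ 2 * l) hN rfl hx
      (x_le hs hc hsc hT hl) ha (a_sub_ge hs hc hsc) hκ0 rfl rfl h2
    have h4 : (s ^ 2 / c ^ 2 * l) ^ 2 = (s ^ 2 / c ^ 2) ^ 2 * l ^ 2 := by ring
    rw [h4] at h3
    have h5 : 0 ≤ s ^ 2 / c ^ 2 * l ^ 2 := by positivity
    have h6 : 0 ≤ (N - 6) * ((s ^ 2 / c ^ 2) ^ 2 * l ^ 2) := by
      have : 0 ≤ N - 6 := by linarith
      positivity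
    linarith

/-! ### bounds of `l` from legality -/

lemma legal_aux (hs : 0 < s) (hc : 0 < c) (hsc : s ^ 2 + c ^ 2 = 1) {t m : ℝ} (hm : 0 ≤ m)
    (ht : 0 ≤ t) (hA : 0 ≤ t * (1 + c) - c ^ 2) (hme : m ≤ exp t)
    (hK : s * (c ^ 2 - t * (1 - c) * (1 + 2 * c)) < m * (t * (1 + c) - c ^ 2))
    (hL : l * ((1 - c) ^ 2 * (1 + 2 * c) + s * exp l) * (1 + c) ≤ c ^ 2 * (s ^ 2 + s * exp l)) :
    l ≤ t := by
  by_contra hcon
  rw [not_le] at hcon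
  have hs2 : s ^ 2 = (1 - c) * (1 + c) := by linarith
  have h1 : exp t < exp l := Real.exp_lt_exp.2 hcon
  set T : ℝ := s * exp l with hT
  have hT0 : 0 < T := by positivity
  have h2 : s * m ≤ T := mul_le_mul_of_nonneg_left (hme.trans h1.le) hs.le
  have hq : 0 ≤ (1 - c) ^ 2 * (1 + 2 * c) := by positivity
  have h3 : t * (((1 - c) ^ 2 * (1 + 2 * c) + T) * (1 + c)) ≤ l * (((1 - c) ^ 2 * (1 + 2 * c) + T) * (1 + c)) :=
    mul_le_mul_of_nonneg_right hcon.le (by positivity)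
  have h4 : T * (t * (1 + c) - c ^ 2) ≤ s ^ 2 * (c ^ 2 - t * (1 - c) * (1 + 2 * c)) := by
    have e : t * (1 + c) * ((1 - c) ^ 2 * (1 + 2 * c)) = s ^ 2 * (t * (1 - c) * (1 + 2 * c)) := by
      rw [hs2]; ring
    linarith
  have h5 : s * m * (t * (1 + c) - c ^ 2) ≤ T * (t * (1 + c) - c ^ 2) := mul_le_mul_of_nonneg_right h2 hA
  have h6 : s * (m * (t * (1 + c) - c ^ 2)) ≤ s * (s * (c ^ 2 - t * (1 - c) * (1 + 2 * c))) := by
    linarith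
  have h7 := le_of_mul_le_mul_left h6 hs
  linarith

lemma legal_l1 (hs : 0 < s) (hc : 0 < c) (hsc : s ^ 2 + c ^ 2 = 1)
    (hL : l * ((1 - c) ^ 2 * (1 + 2 * c) + s * exp l) * (1 + c) ≤ c ^ 2 * (s ^ 2 + s * exp l)) :
    l ≤ 11 / 20 := by
  have hc1 : c ≤ 1 := by nlinarith
  have he : (17 / 10 : ℝ) ≤ exp (11 / 20) := by
    have := Real.quadratic_le_exp_of_nonneg (x := 11 / 20) (by norm_num)
    norm_num at this
    linarith
  have hA : 1 / 10 ≤ 11 / 20 * (1 + c) - c ^ 2 := by nlinarith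
  refine legal_aux hs hc hsc (m := 17 / 10) (by norm_num) (by norm_num) (by linarith) he ?_ hL
  rcases le_total c (2 / 3) with h | h
  · have h1 : c ^ 2 - 11 / 20 * (1 - c) * (1 + 2 * c) ≤ 1 / 60 := by nlinarith
    have h2 : s * (c ^ 2 - 11 / 20 * (1 - c) * (1 + 2 * c)) ≤ s * (1 / 60) :=
      mul_le_mul_of_nonneg_left h1 hs.le
    have h3 : s ≤ 1 := by nlinarith
    linarith
  · have h0 : 0 ≤ c ^ 2 - 11 / 20 * (1 - c) * (1 + 2 * c) := by nlinarith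
    have hsu : s ≤ 25 / 13 * (1 - c ^ 2) + 13 / 100 := by nlinarith [sq_nonneg (s - 13 / 50)]
    have h1 := mul_le_mul_of_nonneg_right hsu h0
    refine h1.trans_lt ?_
    rcases le_total c (9 / 10) with h9 | h9
    · have hx : 0 ≤ c - 2 / 3 := by linarith
      have hy : 0 ≤ 9 / 10 - c := by linarith
      have h2 : 17 / 10 * (11 / 20 * (1 + c) - c ^ 2) -
        (25 / 13 * (1 - c ^ 2) + 13 / 100) * (c ^ 2 - 11 / 20 * (1 - c) * (1 + 2 * c)) =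
      (8242935 / 31213) * (9 / 10 - c) ^ 4 +
      (46359825 / 62426) * (c - 2 / 3) ^ 1 * (9 / 10 - c) ^ 3 +
      (104953158 / 156065) * (c - 2 / 3) ^ 2 * (9 / 10 - c) ^ 2 +
      (33561891 / 156065) * (c - 2 / 3) ^ 3 * (9 / 10 - c) ^ 1 +
      (3923883 / 156065) * (c - 2 / 3) ^ 4 := by ring
      rw [← sub_pos, h2]
      rcases hx.eq_or_lt with h3 | h3
      · have : c = 2 / 3 := by linarith
        rw [this]; norm_num
      · positivity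
    · have hx : 0 ≤ c - 9 / 10 := by linarith
      have hy : 0 ≤ 1 - c := by linarith
      have h2 : 17 / 10 * (11 / 20 * (1 + c) - c ^ 2) -
        (25 / 13 * (1 - c ^ 2) + 13 / 100) * (c ^ 2 - 11 / 20 * (1 - c) * (1 + 2 * c)) =
      (48443 / 65) * (1 - c) ^ 4 +
      (99241 / 65) * (c - 9 / 10) ^ 1 * (1 - c) ^ 3 +
      (70128 / 65) * (c - 9 / 10) ^ 2 * (1 - c) ^ 2 +
      (18027 / 26) * (c - 9 / 10) ^ 3 * (1 - c) ^ 1 +
      (400) * (c - 9 / 10) ^ 4 := by ring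
      rw [← sub_pos, h2]
      rcases hx.eq_or_lt with h3 | h3
      · have : c = 9 / 10 := by linarith
        rw [this]; norm_num
      · positivity

lemma legal_l2 (hs : 0 < s) (hc : 0 < c) (hsc : s ^ 2 + c ^ 2 = 1) (h1 : 3 / 4 ≤ c)
    (h2 : c ≤ 89 / 100)
    (hL : l * ((1 - c) ^ 2 * (1 + 2 * c) + s * exp l) * (1 + c) ≤ c ^ 2 * (s ^ 2 + s * exp l)) :
    l ≤ c - 17 / 50 := by
  have hA : 0 ≤ (c - 17 / 50) * (1 + c) - c ^ 2 := by nlinarith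
  refine legal_aux hs hc hsc (m := 1 + (c - 17 / 50) + (c - 17 / 50) ^ 2 / 2) (by nlinarith)
    (by linarith) hA (Real.quadratic_le_exp_of_nonneg (by linarith)) ?_ hL
  have h0 : 0 ≤ c ^ 2 - (c - 17 / 50) * (1 - c) * (1 + 2 * c) := by
    nlinarith [mul_nonneg (sub_nonneg.2 h1) (sub_nonneg.2 h2)]
  have hsu : s ≤ 10 / 11 * (1 - c ^ 2) + 11 / 40 := by nlinarith [sq_nonneg (s - 11 / 20)]
  refine (mul_le_mul_of_nonneg_right hsu h0).trans_lt ?_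
  have hx : 0 ≤ c - 3 / 4 := by linarith
  have hy : 0 ≤ 89 / 100 - c := by linarith
  have h3 : (1 + (c - 17 / 50) + (c - 17 / 50) ^ 2 / 2) * ((c - 17 / 50) * (1 + c) - c ^ 2) -
      (10 / 11 * (1 - c ^ 2) + 11 / 40) * (c ^ 2 - (c - 17 / 50) * (1 - c) * (1 + 2 * c)) =
      (702763125 / 1479016) * (89 / 100 - c) ^ 5 +
      (5369376675 / 1479016) * (c - 3 / 4) ^ 1 * (89 / 100 - c) ^ 4 +
      (7501998425 / 739508) * (c - 3 / 4) ^ 2 * (89 / 100 - c) ^ 3 +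
      (10128045275 / 739508) * (c - 3 / 4) ^ 3 * (89 / 100 - c) ^ 2 +
      (13529380905 / 1479016) * (c - 3 / 4) ^ 4 * (89 / 100 - c) ^ 1 +
      (328487525 / 134456) * (c - 3 / 4) ^ 5 := by ring
  rw [← sub_pos, h3]
  rcases hx.eq_or_lt with h4 | h4
  · have : c = 3 / 4 := by linarith
    rw [this]; norm_num
  · positivity

end Crest.Agent.R230.CI
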