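import Crest.Agent.R230.WMain
import Crest.Agent.R230.CaseIReal

/-!
# Row 230: the pointwise certificate of case I (`λ ≤ 0`, `μ = 0`, `σ = 9/2`, `θ = 13/10`), all `n ≥ 5`
-/

set_option autoImplicit false

open MeasureTheory Set Filter Topology
open scoped Pointwise ENNReal

namespace Crest.Agent.R230

open WR

lemma CI.Phi_sub {s T : ℝ} (c : ℝ) : c * (Phi T - Phi s) = c * cc T / (1 + cc T) - c * cc s / (1 + cc s) := by
  unfold Phi; ring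

/-- the pointwise inequality of case I -/
theorem PP_caseI' {n : ℕ} (hn : 5 ≤ n) {s l k : ℝ} (hs : s ∈ Ioo (0 : ℝ) 1)
    (hT : s * Real.exp l ≤ 1) (hl1 : l ≤ 11 / 20)
    (hl2 : 3 / 4 ≤ cc s → cc s ≤ 89 / 100 → l ≤ cc s - 17 / 50)
    (hk0 : 0 < 1 + k) (hk1 : (1 + k) * cc s ≤ 1 + cc s)
    (hk2 : (1 + k) * (s * cc s ^ 2) ≤ (1 + ((n : ℝ) + 1) * s ^ 2) * (Real.exp (-l) - s)) :
    1 / 200 * (KK k + Y s * l ^ 2) ≤ PP n 0 (9 / 2) (13 / 10) 0 0 s l k := by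
  have hc := cc_pos' hs
  have hs0 : 0 < s := hs.1
  have hsc : s ^ 2 + cc s ^ 2 = 1 := by rw [cc_sq' hs]; ring
  have hN : (6 : ℝ) ≤ (n : ℝ) + 1 := by
    have : (5 : ℝ) ≤ n := by exact_mod_cast hn
    linarith
  have hT0 : 0 < s * Real.exp l := mul_pos hs0 (Real.exp_pos l)
  have hC : cc (s * Real.exp l) ^ 2 = 1 - (s * Real.exp l) ^ 2 := by
    unfold cc
    rw [Real.sq_sqrt]
    nlinarith
  have hκ1 : 1 + k ≤ 1 + 1 / cc s := by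
    rw [← sub_nonneg]
    have h1 : 1 + 1 / cc s - (1 + k) = (1 + cc s - (1 + k) * cc s) / cc s := by field_simp; ring
    rw [h1]
    exact div_nonneg (by linarith) hc.le
  have hκ2 : 1 + k ≤ (((n : ℝ) + 1 + 1) * s / cc s ^ 2 + 1 / s) * (Real.exp (-l) - s) := by
    have h1 : (((n : ℝ) + 1 + 1) * s / cc s ^ 2 + 1 / s) * (Real.exp (-l) - s) =
        (1 + ((n : ℝ) + 1) * s ^ 2) * (Real.exp (-l) - s) / (s * cc s ^ 2) := by
      have h2 : 1 + ((n : ℝ) + 1) * s ^ 2 = ((n : ℝ) + 1 + 1) * s ^ 2 + cc s ^ 2 := by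
        linear_combination -hsc
      rw [h2]
      field_simp
    rw [h1, le_div_iff₀ (by positivity)]
    exact hk2
  have hmain := CI.mainI (N := (n : ℝ) + 1) (s := s) (c := cc s) (l := l) (C := cc (s * Real.exp l))
    (κ := 1 + k) hN hs0 hc hsc hT hl1 hl2 (cc_nonneg _) hC hk0 hκ1 hκ2
  have e1 : (1 + k - 1) = k := by ring
  rw [e1] at hmain
  have hY : Y s = s ^ 2 / cc s ^ 2 := by unfold Y; rw [cc_sq' hs]
  have hcR : cR s l = cc s * cc (s * Real.exp l) / (1 + cc (s * Real.exp l)) -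
      cc s ^ 2 / (1 + cc s) + l * (s ^ 2 / (1 + cc s) ^ 2) := by
    unfold cR
    rw [CI.Phi_sub]
    have h1 : s ^ 2 = (1 - cc s) * (1 + cc s) := by linear_combination hsc
    have h2 : s ^ 2 / (1 + cc s) ^ 2 = (1 - cc s) / (1 + cc s) := by
      rw [h1]; field_simp
    rw [h2]
    ring
  have hPP : PP n 0 (9 / 2) (13 / 10) 0 0 s l k =
      (2 - 2 * cc s ^ 2 / (1 + cc s) - 3 * (s ^ 2 / cc s ^ 2 * l)) * (k ^ 2 / (1 + k)) +
        2 / 5 * (s ^ 2 / cc s ^ 2 * l) * k +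
        (13 / 10 * ((n : ℝ) + 1 - 4) * (s ^ 2 / cc s ^ 2) ^ 2 + 3 / 5 * (s ^ 2 / cc s ^ 2)) * l ^ 2 +
        (cc s * cc (s * Real.exp l) / (1 + cc (s * Real.exp l)) - cc s ^ 2 / (1 + cc s) +
          l * (s ^ 2 / (1 + cc s) ^ 2)) - 9 / (4 * ((n : ℝ) + 1 + 1)) * k ^ 2 := by
    unfold PP
    rw [hcR, hY]
    unfold aq KK
    have h1 : (9 / 2 : ℝ) / (2 * ((n : ℝ) + 2)) = 9 / (4 * ((n : ℝ) + 1 + 1)) := by
      rw [div_div]
      congr 1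
      ring
    rw [h1]
    ring
  rw [hPP, hY]
  unfold KK
  exact hmain

/-- the pointwise inequality of case I (first version of the hypotheses) -/
theorem PP_caseI {n : ℕ} (hn : 5 ≤ n) {s l k : ℝ} (hs : s ∈ Ioo (0 : ℝ) 1)
    (hT : s * Real.exp l ≤ 1) (hl1 : l ≤ 1 / 2)
    (hl2 : 3 / 4 ≤ cc s → cc s ≤ 21 / 25 → l ≤ cc s - 17 / 50)
    (hk0 : 0 < 1 + k) (hk1 : (1 + k) * cc s ≤ 1 + cc s)
    (hk2 : (1 + k) * (s * cc s ^ 2) ≤ (1 + ((n : ℝ) + 1) * s ^ 2) * (Real.exp (-l) - s)) :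
    1 / 200 * (KK k + Y s * l ^ 2) ≤ PP n 0 (9 / 2) (13 / 10) 0 0 s l k := by
  refine PP_caseI' hn hs hT (by linarith) (fun h1 _ => ?_) hk0 hk1 hk2
  rcases le_total (cc s) (21 / 25) with h | h
  · exact hl2 h1 h
  · linarith

/-- the pointwise block of case I in the form wanted by `concl_caseI` -/
theorem PP_caseI_nonneg' {n : ℕ} (hn : 5 ≤ n) {s l k : ℝ} (hs : s ∈ Ioo (0 : ℝ) 1)
    (hT : s * Real.exp l ≤ 1) (hl1 : l ≤ 11 / 20)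
    (hl2 : 3 / 4 ≤ cc s → cc s ≤ 89 / 100 → l ≤ cc s - 17 / 50)
    (hk0 : 0 < 1 + k) (hk1 : (1 + k) * cc s ≤ 1 + cc s)
    (hk2 : (1 + k) * (s * cc s ^ 2) ≤ (1 + ((n : ℝ) + 1) * s ^ 2) * (Real.exp (-l) - s)) :
    0 ≤ PP n 0 (9 / 2) (13 / 10) 0 0 s l k ∧ (PP n 0 (9 / 2) (13 / 10) 0 0 s l k = 0 → l = 0) := by
  have h := PP_caseI' hn hs hT hl1 hl2 hk0 hk1 hk2
  have hc := cc_pos' hs
  have hY : 0 < Y s := by
    unfold Y
    rw [← cc_sq' hs]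
    have := hs.1
    positivity
  have hK : 0 ≤ KK k := by unfold KK; positivity
  have h1 : 0 ≤ Y s * l ^ 2 := by positivity
  refine ⟨by linarith, fun h0 => ?_⟩
  rw [h0] at h
  have h2 : Y s * l ^ 2 = 0 := by linarith
  rcases mul_eq_zero.1 h2 with h3 | h3
  · exact absurd h3 hY.ne'
  · exact pow_eq_zero_iff (two_ne_zero) |>.1 h3

/-- first version of the hypotheses -/
theorem PP_caseI_nonneg {n : ℕ} (hn : 5 ≤ n) {s l k : ℝ} (hs : s ∈ Ioo (0 : ℝ) 1)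
    (hT : s * Real.exp l ≤ 1) (hl1 : l ≤ 1 / 2)
    (hl2 : 3 / 4 ≤ cc s → cc s ≤ 21 / 25 → l ≤ cc s - 17 / 50)
    (hk0 : 0 < 1 + k) (hk1 : (1 + k) * cc s ≤ 1 + cc s)
    (hk2 : (1 + k) * (s * cc s ^ 2) ≤ (1 + ((n : ℝ) + 1) * s ^ 2) * (Real.exp (-l) - s)) :
    0 ≤ PP n 0 (9 / 2) (13 / 10) 0 0 s l k ∧ (PP n 0 (9 / 2) (13 / 10) 0 0 s l k = 0 → l = 0) := by
  refine PP_caseI_nonneg' hn hs hT (by linarith) (fun h1 _ => ?_) hk0 hk1 hk2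
  rcases le_total (cc s) (21 / 25) with h | h
  · exact hl2 h1 h
  · linarith

end Crest.Agent.R230
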