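import Crest.Agent.R230.RegXneg
import Crest.Agent.R230.CaseI

/-!
# Row 230: block B6 (case II, `l > 0`, `-1 < k ≤ 0`, `σ = 3`, `θ = 1`, `Λ = 1/4`) for `n ≥ 8` (helper237)

* `B6_nine` : `n ≥ 9`, hypotheses `s e^l ≤ 1`, `l ≤ 11/20`, `l ≤ c - 17/50` on `3/4 ≤ c ≤ 89/100`
  (all consequences of legality).
* `B6_eight` : `n ≥ 8`, moreover `l (1+c) ≤ c²`.

Main tool: `hm n k ≤ (1 - 1/n) (k - log (1+k))` for `k ≤ 0`.
-/

set_option autoImplicit false

open MeasureTheory Set Filter Topology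
open scoped Pointwise ENNReal

namespace Crest.Agent.R230.WR

/-! ### one-variable certificates (Bernstein form) -/

lemma b6_F1 {x : ℝ} (h0 : 0 ≤ x) (h1 : x ≤ 1) :
    0 ≤ (((1089/2500) - (33/100) * (1 - x ^ 4)) * x ^ 4 + (1/3) * (1 - x ^ 4) ^ 2 - (313/250) * (x ^ 3 * (1 - x) ^ 2 * (1 + x) * (2 + x + x ^ 2)) - (3/22) * ((1 - x ^ 4) ^ 2 * x ^ 4)) := by
  rcases le_total x (1/2) with hy | hy
  · have hu : 0 ≤ x - 0 := by linarith
    have hw : 0 ≤ (1/2) - x := by linarith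
    have e : (((1089/2500) - (33/100) * (1 - x ^ 4)) * x ^ 4 + (1/3) * (1 - x ^ 4) ^ 2 - (313/250) * (x ^ 3 * (1 - x) ^ 2 * (1 + x) * (2 + x + x ^ 2)) - (3/22) * ((1 - x ^ 4) ^ 2 * x ^ 4)) =
          (4096/3) * (x - 0) ^ 0 * ((1/2) - x) ^ 12 +
          16384 * (x - 0) ^ 1 * ((1/2) - x) ^ 11 +
          90112 * (x - 0) ^ 2 * ((1/2) - x) ^ 10 +
          (112159232/375) * (x - 0) ^ 3 * ((1/2) - x) ^ 9 +
          (13704147968/20625) * (x - 0) ^ 4 * ((1/2) - x) ^ 8 +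
          (21380834944/20625) * (x - 0) ^ 5 * ((1/2) - x) ^ 7 +
          (23926953344/20625) * (x - 0) ^ 6 * ((1/2) - x) ^ 6 +
          (19273794688/20625) * (x - 0) ^ 7 * ((1/2) - x) ^ 5 +
          (2208742412/4125) * (x - 0) ^ 8 * ((1/2) - x) ^ 4 +
          (4368979568/20625) * (x - 0) ^ 9 * ((1/2) - x) ^ 3 +
          (1126823144/20625) * (x - 0) ^ 10 * ((1/2) - x) ^ 2 +
          (56407248/6875) * (x - 0) ^ 11 * ((1/2) - x) ^ 1 +
          (7432917/13750) * (x - 0) ^ 12 * ((1/2) - x) ^ 0 := by ring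
    rw [e]
    positivity
  rcases le_total x (3/4) with hy | hy
  · have hu : 0 ≤ x - (1/2) := by linarith
    have hw : 0 ≤ (3/4) - x := by linarith
    have e : (((1089/2500) - (33/100) * (1 - x ^ 4)) * x ^ 4 + (1/3) * (1 - x ^ 4) ^ 2 - (313/250) * (x ^ 3 * (1 - x) ^ 2 * (1 + x) * (2 + x + x ^ 2)) - (3/22) * ((1 - x ^ 4) ^ 2 * x ^ 4)) =
          (15222614016/6875) * (x - (1/2)) ^ 0 * ((3/4) - x) ^ 12 +
          (158485008384/6875) * (x - (1/2)) ^ 1 * ((3/4) - x) ^ 11 +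
          (2217200270336/20625) * (x - (1/2)) ^ 2 * ((3/4) - x) ^ 10 +
          (6091899874304/20625) * (x - (1/2)) ^ 3 * ((3/4) - x) ^ 9 +
          (10904570418304/20625) * (x - (1/2)) ^ 4 * ((3/4) - x) ^ 8 +
          (1205526055424/1875) * (x - (1/2)) ^ 5 * ((3/4) - x) ^ 7 +
          (11067849640064/20625) * (x - (1/2)) ^ 6 * ((3/4) - x) ^ 6 +
          (6250217736064/20625) * (x - (1/2)) ^ 7 * ((3/4) - x) ^ 5 +
          (209347824664/1875) * (x - (1/2)) ^ 8 * ((3/4) - x) ^ 4 +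
          (535815961904/20625) * (x - (1/2)) ^ 9 * ((3/4) - x) ^ 3 +
          (31267561172/6875) * (x - (1/2)) ^ 10 * ((3/4) - x) ^ 2 +
          (649715164/625) * (x - (1/2)) ^ 11 * ((3/4) - x) ^ 1 +
          (7397758231/41250) * (x - (1/2)) ^ 12 * ((3/4) - x) ^ 0 := by ring
    rw [e]
    positivity
  have hu : 0 ≤ x - (3/4) := by linarith
  have hw : 0 ≤ 1 - x := by linarith
  have e : (((1089/2500) - (33/100) * (1 - x ^ 4)) * x ^ 4 + (1/3) * (1 - x ^ 4) ^ 2 - (313/250) * (x ^ 3 * (1 - x) ^ 2 * (1 + x) * (2 + x + x ^ 2)) - (3/22) * ((1 - x ^ 4) ^ 2 * x ^ 4)) =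
        (7397758231/41250) * (x - (3/4)) ^ 0 * (1 - x) ^ 12 +
        (4488833224/1375) * (x - (3/4)) ^ 1 * (1 - x) ^ 11 +
        (199537853648/6875) * (x - (3/4)) ^ 2 * (1 - x) ^ 10 +
        (3133332861056/20625) * (x - (3/4)) ^ 3 * (1 - x) ^ 9 +
        (10536151840832/20625) * (x - (3/4)) ^ 4 * (1 - x) ^ 8 +
        (24026099193856/20625) * (x - (3/4)) ^ 5 * (1 - x) ^ 7 +
        (38349090418688/20625) * (x - (3/4)) ^ 6 * (1 - x) ^ 6 +
        (3949359644672/1875) * (x - (3/4)) ^ 7 * (1 - x) ^ 5 +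
        (34841024659456/20625) * (x - (3/4)) ^ 8 * (1 - x) ^ 4 +
        (1760447168512/1875) * (x - (3/4)) ^ 9 * (1 - x) ^ 3 +
        (7099177238528/20625) * (x - (3/4)) ^ 10 * (1 - x) ^ 2 +
        (46783266816/625) * (x - (3/4)) ^ 11 * (1 - x) ^ 1 +
        (4567597056/625) * (x - (3/4)) ^ 12 * (1 - x) ^ 0 := by ring
  rw [e]
  positivity

lemma b6_F2 {x : ℝ} (h0 : 0 ≤ x) (h1 : x ≤ (10/13)) :
    0 ≤ (((1089/2500) - (33/100) * (1 - x ^ 4)) * x ^ 4 + (3631/10000) * (1 - x ^ 4) ^ 2 - (127/100) * (x ^ 3 * (1 - x) ^ 2 * (1 + x) * (2 + x + x ^ 2)) - (3/22) * ((1 - x ^ 4) ^ 2 * x ^ 4)) := by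
  have hu : 0 ≤ x - 0 := by linarith
  have hw : 0 ≤ (10/13) - x := by linarith
  have e : (((1089/2500) - (33/100) * (1 - x ^ 4)) * x ^ 4 + (3631/10000) * (1 - x ^ 4) ^ 2 - (127/100) * (x ^ 3 * (1 - x) ^ 2 * (1 + x) * (2 + x + x ^ 2)) - (3/22) * ((1 - x ^ 4) ^ 2 * x ^ 4)) =
        (84595347079728511/10000000000000000) * (x - 0) ^ 0 * ((10/13) - x) ^ 12 +
        (253786041239185533/2500000000000000) * (x - 0) ^ 1 * ((10/13) - x) ^ 11 +
        (2791646453631040863/5000000000000000) * (x - 0) ^ 2 * ((10/13) - x) ^ 10 +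
        (917081103673303621/500000000000000) * (x - 0) ^ 3 * ((10/13) - x) ^ 9 +
        (86883188040173016479/22000000000000000) * (x - 0) ^ 4 * ((10/13) - x) ^ 8 +
        (79470794578863088479/13750000000000000) * (x - 0) ^ 5 * ((10/13) - x) ^ 7 +
        (159026472372788926451/27500000000000000) * (x - 0) ^ 6 * ((10/13) - x) ^ 6 +
        (53283282687665678479/13750000000000000) * (x - 0) ^ 7 * ((10/13) - x) ^ 5 +
        (36157460580584068479/22000000000000000) * (x - 0) ^ 8 * ((10/13) - x) ^ 4 +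
        (2129823891403701831/5500000000000000) * (x - 0) ^ 9 * ((10/13) - x) ^ 3 +
        (1942701077087809493/55000000000000000) * (x - 0) ^ 10 * ((10/13) - x) ^ 2 +
        (18353361787870863/27500000000000000) * (x - 0) ^ 11 * ((10/13) - x) ^ 1 +
        (70632483229953621/110000000000000000) * (x - 0) ^ 12 * ((10/13) - x) ^ 0 := by ring
  rw [e]
  positivity

lemma b6_D {x : ℝ} (h0 : (10/13) ≤ x) (h1 : x ≤ 1) :
    0 ≤ (16 * x ^ 4 * ((1 + x) ^ 2 * (1 + x ^ 2) ^ 2 - (127/100) * (x ^ 3 * (1 + x) * (2 + x + x ^ 2)) - (3/22) * ((1 + x) ^ 2 * (1 + x ^ 2) ^ 2 * x ^ 4)) - (1 + x) ^ 2 * (1 + x ^ 2) ^ 2 * (x ^ 4 + (193/100) * (1 - x ^ 4)) ^ 2) := by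
  have hu : 0 ≤ x - (10/13) := by linarith
  have hw : 0 ≤ 1 - x := by linarith
  have e : (16 * x ^ 4 * ((1 + x) ^ 2 * (1 + x ^ 2) ^ 2 - (127/100) * (x ^ 3 * (1 + x) * (2 + x + x ^ 2)) - (3/22) * ((1 + x) ^ 2 * (1 + x ^ 2) ^ 2 * x ^ 4)) - (1 + x) ^ 2 * (1 + x ^ 2) ^ 2 * (x ^ 4 + (193/100) * (1 - x ^ 4)) ^ 2) =
        (1141859719392294165389/526126590000) * (x - (10/13)) ^ 0 * (1 - x) ^ 14 +
        (1739112512654812268389/32882911875) * (x - (10/13)) ^ 1 * (1 - x) ^ 13 +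
        (6651862704537674772707/13153164750) * (x - (10/13)) ^ 2 * (1 - x) ^ 12 +
        (17985692895840384136357/6576582375) * (x - (10/13)) ^ 3 * (1 - x) ^ 11 +
        (317495187489555920918554/32882911875) * (x - (10/13)) ^ 4 * (1 - x) ^ 10 +
        (6293963765682640667152/263063295) * (x - (10/13)) ^ 5 * (1 - x) ^ 9 +
        (474613050268525421053567/10960970625) * (x - (10/13)) ^ 6 * (1 - x) ^ 8 +
        (128146535690134952295682/2192194125) * (x - (10/13)) ^ 7 * (1 - x) ^ 7 +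
        (650556907611913014143548/10960970625) * (x - (10/13)) ^ 8 * (1 - x) ^ 6 +
        (297218141501132972493256/6576582375) * (x - (10/13)) ^ 9 * (1 - x) ^ 5 +
        (6690114517724989305968/263063295) * (x - (10/13)) ^ 10 * (1 - x) ^ 4 +
        (337347783453833122386104/32882911875) * (x - (10/13)) ^ 11 * (1 - x) ^ 3 +
        (92184371762415620056304/32882911875) * (x - (10/13)) ^ 12 * (1 - x) ^ 2 +
        (610259417771451462664/1315316475) * (x - (10/13)) ^ 13 * (1 - x) ^ 1 +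
        (46051554207138884144/1315316475) * (x - (10/13)) ^ 14 * (1 - x) ^ 0 := by ring
  rw [e]
  positivity

lemma b6_8F1 {x : ℝ} (h0 : 0 ≤ x) (h1 : x ≤ 1) :
    0 ≤ (((12/25) - (2/5) * (1 - x ^ 4)) * x ^ 4 + (1/3) * (1 - x ^ 4) ^ 2 - (251/200) * (x ^ 3 * (1 - x) ^ 2 * (1 + x) * (2 + x + x ^ 2)) - (3/20) * ((1 - x ^ 4) ^ 2 * x ^ 4)) := by
  rcases le_total x (1/2) with hy | hy
  · have hu : 0 ≤ x - 0 := by linarith
    have hw : 0 ≤ (1/2) - x := by linarith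
    have e : (((12/25) - (2/5) * (1 - x ^ 4)) * x ^ 4 + (1/3) * (1 - x ^ 4) ^ 2 - (251/200) * (x ^ 3 * (1 - x) ^ 2 * (1 + x) * (2 + x + x ^ 2)) - (3/20) * ((1 - x ^ 4) ^ 2 * x ^ 4)) =
          (4096/3) * (x - 0) ^ 0 * ((1/2) - x) ^ 12 +
          16384 * (x - 0) ^ 1 * ((1/2) - x) ^ 11 +
          90112 * (x - 0) ^ 2 * ((1/2) - x) ^ 10 +
          (22431616/75) * (x - 0) ^ 3 * ((1/2) - x) ^ 9 +
          (49830496/75) * (x - 0) ^ 4 * ((1/2) - x) ^ 8 +
          (77734688/75) * (x - 0) ^ 5 * ((1/2) - x) ^ 7 +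
          (86968672/75) * (x - 0) ^ 6 * ((1/2) - x) ^ 6 +
          (70019744/75) * (x - 0) ^ 7 * ((1/2) - x) ^ 5 +
          (1603334/3) * (x - 0) ^ 8 * ((1/2) - x) ^ 4 +
          (15831352/75) * (x - 0) ^ 9 * ((1/2) - x) ^ 3 +
          (4071652/75) * (x - 0) ^ 10 * ((1/2) - x) ^ 2 +
          (202856/25) * (x - 0) ^ 11 * ((1/2) - x) ^ 1 +
          (53049/100) * (x - 0) ^ 12 * ((1/2) - x) ^ 0 := by ring
    rw [e]
    positivity
  rcases le_total x (5/8) with hy | hy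
  · have hu : 0 ≤ x - (1/2) := by linarith
    have hw : 0 ≤ (5/8) - x := by linarith
    have e : (((12/25) - (2/5) * (1 - x ^ 4)) * x ^ 4 + (1/3) * (1 - x ^ 4) ^ 2 - (251/200) * (x ^ 3 * (1 - x) ^ 2 * (1 + x) * (2 + x + x ^ 2)) - (3/20) * ((1 - x ^ 4) ^ 2 * x ^ 4)) =
          (222503632896/25) * (x - (1/2)) ^ 0 * ((5/8) - x) ^ 12 +
          (2486714761216/25) * (x - (1/2)) ^ 1 * ((5/8) - x) ^ 11 +
          (38009359040512/75) * (x - (1/2)) ^ 2 * ((5/8) - x) ^ 10 +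
          (116681833971712/75) * (x - (1/2)) ^ 3 * ((5/8) - x) ^ 9 +
          (48045644726272/15) * (x - (1/2)) ^ 4 * ((5/8) - x) ^ 8 +
          (116407957946368/25) * (x - (1/2)) ^ 5 * ((5/8) - x) ^ 7 +
          (367292025884672/75) * (x - (1/2)) ^ 6 * ((5/8) - x) ^ 6 +
          (93786895742976/25) * (x - (1/2)) ^ 7 * ((5/8) - x) ^ 5 +
          (155658377235776/75) * (x - (1/2)) ^ 8 * ((5/8) - x) ^ 4 +
          (60589715323456/75) * (x - (1/2)) ^ 9 * ((5/8) - x) ^ 3 +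
          (3146707590392/15) * (x - (1/2)) ^ 10 * ((5/8) - x) ^ 2 +
          32592780540 * (x - (1/2)) ^ 11 * ((5/8) - x) ^ 1 +
          (9156189033/4) * (x - (1/2)) ^ 12 * ((5/8) - x) ^ 0 := by ring
    rw [e]
    positivity
  rcases le_total x (3/4) with hy | hy
  · have hu : 0 ≤ x - (5/8) := by linarith
    have hw : 0 ≤ (3/4) - x := by linarith
    have e : (((12/25) - (2/5) * (1 - x ^ 4)) * x ^ 4 + (1/3) * (1 - x ^ 4) ^ 2 - (251/200) * (x ^ 3 * (1 - x) ^ 2 * (1 + x) * (2 + x + x ^ 2)) - (3/20) * ((1 - x ^ 4) ^ 2 * x ^ 4)) =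
          (9156189033/4) * (x - (5/8)) ^ 0 * ((3/4) - x) ^ 12 +
          22344353658 * (x - (5/8)) ^ 1 * ((3/4) - x) ^ 11 +
          (1455717154862/15) * (x - (5/8)) ^ 2 * ((3/4) - x) ^ 10 +
          (18454402894744/75) * (x - (5/8)) ^ 3 * ((3/4) - x) ^ 9 +
          (30089130706868/75) * (x - (5/8)) ^ 4 * ((3/4) - x) ^ 8 +
          (32730710489024/75) * (x - (5/8)) ^ 5 * ((3/4) - x) ^ 7 +
          (4777362669632/15) * (x - (5/8)) ^ 6 * ((3/4) - x) ^ 6 +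
          (466146084608/3) * (x - (5/8)) ^ 7 * ((3/4) - x) ^ 5 +
          (4095400145728/75) * (x - (5/8)) ^ 8 * ((3/4) - x) ^ 4 +
          (1516151555584/75) * (x - (5/8)) ^ 9 * ((3/4) - x) ^ 3 +
          (240484819456/25) * (x - (5/8)) ^ 10 * ((3/4) - x) ^ 2 +
          (83009677312/25) * (x - (5/8)) ^ 11 * ((3/4) - x) ^ 1 +
          (36709633024/75) * (x - (5/8)) ^ 12 * ((3/4) - x) ^ 0 := by ring
    rw [e]
    positivity
  have hu : 0 ≤ x - (3/4) := by linarith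
  have hw : 0 ≤ 1 - x := by linarith
  have e : (((12/25) - (2/5) * (1 - x ^ 4)) * x ^ 4 + (1/3) * (1 - x ^ 4) ^ 2 - (251/200) * (x ^ 3 * (1 - x) ^ 2 * (1 + x) * (2 + x + x ^ 2)) - (3/20) * ((1 - x ^ 4) ^ 2 * x ^ 4)) =
        (35849251/300) * (x - (3/4)) ^ 0 * (1 - x) ^ 12 +
        (67015684/25) * (x - (3/4)) ^ 1 * (1 - x) ^ 11 +
        (671828104/25) * (x - (3/4)) ^ 2 * (1 - x) ^ 10 +
        (11221142848/75) * (x - (3/4)) ^ 3 * (1 - x) ^ 9 +
        (39018054304/75) * (x - (3/4)) ^ 4 * (1 - x) ^ 8 +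
        (90771196928/75) * (x - (3/4)) ^ 5 * (1 - x) ^ 7 +
        (146811062272/75) * (x - (3/4)) ^ 6 * (1 - x) ^ 6 +
        (167932473344/75) * (x - (3/4)) ^ 7 * (1 - x) ^ 5 +
        (135745544192/75) * (x - (3/4)) ^ 8 * (1 - x) ^ 4 +
        (15195766784/15) * (x - (3/4)) ^ 9 * (1 - x) ^ 3 +
        (28042067968/75) * (x - (3/4)) ^ 10 * (1 - x) ^ 2 +
        (2046820352/25) * (x - (3/4)) ^ 11 * (1 - x) ^ 1 +
        (201326592/25) * (x - (3/4)) ^ 12 * (1 - x) ^ 0 := by ring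
  rw [e]
  positivity

lemma b6_8F2 {x : ℝ} (h0 : 0 ≤ x) (h1 : x ≤ (77/100)) :
    0 ≤ (((12/25) - (2/5) * (1 - x ^ 4)) * x ^ 4 + (1/3) * (1 - x ^ 4) ^ 2 - (251/200) * (x ^ 3 * (1 - x) ^ 2 * (1 + x) * (2 + x + x ^ 2)) - (3/20) * ((1 - x ^ 4) ^ 2 * x ^ 4)) := by
  rcases le_total x (77/200) with hy | hy
  · have hu : 0 ≤ x - 0 := by linarith
    have hw : 0 ≤ (77/200) - x := by linarith
    have e : (((12/25) - (2/5) * (1 - x ^ 4)) * x ^ 4 + (1/3) * (1 - x ^ 4) ^ 2 - (251/200) * (x ^ 3 * (1 - x) ^ 2 * (1 + x) * (2 + x + x ^ 2)) - (3/20) * ((1 - x ^ 4) ^ 2 * x ^ 4)) =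
          (4096000000000000000000000000/130319665565890750943763) * (x - 0) ^ 0 * ((77/200) - x) ^ 12 +
          (16384000000000000000000000000/43439888521963583647921) * (x - 0) ^ 1 * ((77/200) - x) ^ 11 +
          (8192000000000000000000000000/3949080774723962149811) * (x - 0) ^ 2 * ((77/200) - x) ^ 10 +
          (81759990993920000000000000000/11847242324171886449433) * (x - 0) ^ 3 * ((77/200) - x) ^ 9 +
          (182892640511244800000000000000/11847242324171886449433) * (x - 0) ^ 4 * ((77/200) - x) ^ 8 +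
          (289277165643764608000000000000/11847242324171886449433) * (x - 0) ^ 5 * ((77/200) - x) ^ 7 +
          (47306495525825408000000000000/1692463189167412349919) * (x - 0) ^ 6 * ((77/200) - x) ^ 6 +
          (275961336961399168000000000000/11847242324171886449433) * (x - 0) ^ 7 * ((77/200) - x) ^ 5 +
          (165879362044471988478856000000/11847242324171886449433) * (x - 0) ^ 8 * ((77/200) - x) ^ 4 +
          (70021279788120913915424000000/11847242324171886449433) * (x - 0) ^ 9 * ((77/200) - x) ^ 3 +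
          (19669226485177018873136000000/11847242324171886449433) * (x - 0) ^ 10 * ((77/200) - x) ^ 2 +
          (12083860566214529689888000000/43439888521963583647921) * (x - 0) ^ 11 * ((77/200) - x) ^ 1 +
          (18235963143713642558689056237/868797770439271672958420) * (x - 0) ^ 12 * ((77/200) - x) ^ 0 := by ring
    rw [e]
    positivity
  rcases le_total x (231/400) with hy | hy
  · have hu : 0 ≤ x - (77/200) := by linarith
    have hw : 0 ≤ (231/400) - x := by linarith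
    have e : (((12/25) - (2/5) * (1 - x ^ 4)) * x ^ 4 + (1/3) * (1 - x ^ 4) ^ 2 - (251/200) * (x ^ 3 * (1 - x) ^ 2 * (1 + x) * (2 + x + x ^ 2)) - (3/20) * ((1 - x ^ 4) ^ 2 * x ^ 4)) =
          (18673626259162769980097593586688/217199442609817918239605) * (x - (77/200)) ^ 0 * ((231/400) - x) ^ 12 +
          (212386540466893075617303564560384/217199442609817918239605) * (x - (77/200)) ^ 1 * ((231/400) - x) ^ 11 +
          (300164008209032992714369820260864/59236211620859432247165) * (x - (77/200)) ^ 2 * ((231/400) - x) ^ 10 +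
          (187313844720144993995565852260864/11847242324171886449433) * (x - (77/200)) ^ 3 * ((231/400) - x) ^ 9 +
          (391670731554990195745743231380416/11847242324171886449433) * (x - (77/200)) ^ 4 * ((231/400) - x) ^ 8 +
          (2888742822007331640061342200564992/59236211620859432247165) * (x - (77/200)) ^ 5 * ((231/400) - x) ^ 7 +
          (439945582857692206177148030141248/8462315945837061749595) * (x - (77/200)) ^ 6 * ((231/400) - x) ^ 6 +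
          (2388326743211946010689392751271232/59236211620859432247165) * (x - (77/200)) ^ 7 * ((231/400) - x) ^ 5 +
          (267143941780987278502707988863356/11847242324171886449433) * (x - (77/200)) ^ 8 * ((231/400) - x) ^ 4 +
          (104937702048424262065821965908904/11847242324171886449433) * (x - (77/200)) ^ 9 * ((231/400) - x) ^ 3 +
          (45736622008729204190194250431678/19745403873619810749055) * (x - (77/200)) ^ 10 * ((231/400) - x) ^ 2 +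
          (78519624576578476706486751295034/217199442609817918239605) * (x - (77/200)) ^ 11 * ((231/400) - x) ^ 1 +
          (66273503320248888205523406942551/2606393311317815018875260) * (x - (77/200)) ^ 12 * ((231/400) - x) ^ 0 := by ring
    rw [e]
    positivity
  rcases le_total x (539/800) with hy | hy
  · have hu : 0 ≤ x - (231/400) := by linarith
    have hw : 0 ≤ (539/800) - x := by linarith
    have e : (((12/25) - (2/5) * (1 - x ^ 4)) * x ^ 4 + (1/3) * (1 - x ^ 4) ^ 2 - (251/200) * (x ^ 3 * (1 - x) ^ 2 * (1 + x) * (2 + x + x ^ 2)) - (3/20) * ((1 - x ^ 4) ^ 2 * x ^ 4)) =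
          (67864067399934861522455968709172224/651598327829453754718815) * (x - (231/400)) ^ 0 * ((539/800) - x) ^ 12 +
          (246376213266776448839850945602803712/217199442609817918239605) * (x - (231/400)) ^ 1 * ((539/800) - x) ^ 11 +
          (111010317537396501499483471654968832/19745403873619810749055) * (x - (231/400)) ^ 2 * ((539/800) - x) ^ 10 +
          (198490224736154892201812093104260608/11847242324171886449433) * (x - (231/400)) ^ 3 * ((539/800) - x) ^ 9 +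
          (395750999705988827321107997390684096/11847242324171886449433) * (x - (231/400)) ^ 4 * ((539/800) - x) ^ 8 +
          (2777865630261584564782471726302384896/59236211620859432247165) * (x - (231/400)) ^ 5 * ((539/800) - x) ^ 7 +
          (401733495194766060530403165767685952/8462315945837061749595) * (x - (231/400)) ^ 6 * ((539/800) - x) ^ 6 +
          (2065676873973785588887913524213801664/59236211620859432247165) * (x - (231/400)) ^ 7 * ((539/800) - x) ^ 5 +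
          (218226445371055951556767212819846076/11847242324171886449433) * (x - (231/400)) ^ 8 * ((539/800) - x) ^ 4 +
          (80720805664226126062338510308364632/11847242324171886449433) * (x - (231/400)) ^ 9 * ((539/800) - x) ^ 3 +
          (99115124314251584432912879695638106/59236211620859432247165) * (x - (231/400)) ^ 10 * ((539/800) - x) ^ 2 +
          (53182715932683542840540843638829638/217199442609817918239605) * (x - (231/400)) ^ 11 * ((539/800) - x) ^ 1 +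
          (14055311177431455070519143157322637/868797770439271672958420) * (x - (231/400)) ^ 12 * ((539/800) - x) ^ 0 := by ring
    rw [e]
    positivity
  have hu : 0 ≤ x - (539/800) := by linarith
  have hw : 0 ≤ (77/100) - x := by linarith
  have e : (((12/25) - (2/5) * (1 - x ^ 4)) * x ^ 4 + (1/3) * (1 - x ^ 4) ^ 2 - (251/200) * (x ^ 3 * (1 - x) ^ 2 * (1 + x) * (2 + x + x ^ 2)) - (3/20) * ((1 - x ^ 4) ^ 2 * x ^ 4)) =
        (14055311177431455070519143157322637/868797770439271672958420) * (x - (539/800)) ^ 0 * ((77/100) - x) ^ 12 +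
        (31149151131905187582574015305106184/217199442609817918239605) * (x - (539/800)) ^ 1 * ((77/100) - x) ^ 11 +
        (33014429911916518659012394694467744/59236211620859432247165) * (x - (539/800)) ^ 2 * ((77/100) - x) ^ 10 +
        (14874568658932619275282320583975424/11847242324171886449433) * (x - (539/800)) ^ 3 * ((77/100) - x) ^ 9 +
        (22214478737424785116664415307365376/11847242324171886449433) * (x - (539/800)) ^ 4 * ((77/100) - x) ^ 8 +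
        (42814930228884499281455041034256384/19745403873619810749055) * (x - (539/800)) ^ 5 * ((77/100) - x) ^ 7 +
        (20383189918688469639150971471003648/8462315945837061749595) * (x - (539/800)) ^ 6 * ((77/100) - x) ^ 6 +
        (53886378479220226763149079293722624/19745403873619810749055) * (x - (539/800)) ^ 7 * ((77/100) - x) ^ 5 +
        (31113132841031877738074162065309696/11847242324171886449433) * (x - (539/800)) ^ 8 * ((77/100) - x) ^ 4 +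
        (21466976448001951685953021798252544/11847242324171886449433) * (x - (539/800)) ^ 9 * ((77/100) - x) ^ 3 +
        (48042034806672881888595400147861504/59236211620859432247165) * (x - (539/800)) ^ 10 * ((77/100) - x) ^ 2 +
        (45639183061929476044412748912656384/217199442609817918239605) * (x - (539/800)) ^ 11 * ((77/100) - x) ^ 1 +
        (5202104996192665639948005679300608/217199442609817918239605) * (x - (539/800)) ^ 12 * ((77/100) - x) ^ 0 := by ring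
  rw [e]
  positivity

lemma b6_8D {x : ℝ} (h0 : (77/100) ≤ x) (h1 : x ≤ 1) :
    0 ≤ (12 * x ^ 4 * ((1 + x) ^ 2 * (1 + x ^ 2) ^ 2 - (649/500) * (x ^ 3 * (1 + x) * (2 + x + x ^ 2)) - (3/20) * ((1 + x) ^ 2 * (1 + x ^ 2) ^ 2 * x ^ 4)) - (1 + x) ^ 2 * (1 + x ^ 2) ^ 2 * (x ^ 4 + (5/3) * (1 - x ^ 4)) ^ 2) := by
  have hu : 0 ≤ x - (77/100) := by linarith
  have hw : 0 ≤ 1 - x := by linarith
  have e : (12 * x ^ 4 * ((1 + x) ^ 2 * (1 + x ^ 2) ^ 2 - (649/500) * (x ^ 3 * (1 + x) * (2 + x + x ^ 2)) - (3/20) * ((1 + x) ^ 2 * (1 + x ^ 2) ^ 2 * x ^ 4)) - (1 + x) ^ 2 * (1 + x ^ 2) ^ 2 * (x ^ 4 + (5/3) * (1 - x ^ 4)) ^ 2) =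
        (28868413595081223862246906899/57964181622693749045) * (x - (77/100)) ^ 0 * (1 - x) ^ 14 +
        (255607096637986806679223259840/11592836324538749809) * (x - (77/100)) ^ 1 * (1 - x) ^ 13 +
        (2912044850592067234383889040000/11592836324538749809) * (x - (77/100)) ^ 2 * (1 - x) ^ 12 +
        (17106630626421190551747366400000/11592836324538749809) * (x - (77/100)) ^ 3 * (1 - x) ^ 11 +
        (569404049907269820454123618400000/104335526920848748281) * (x - (77/100)) ^ 4 * (1 - x) ^ 10 +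
        (161234524837692377595242560000000/11592836324538749809) * (x - (77/100)) ^ 5 * (1 - x) ^ 9 +
        (2671582166827677308209136000000000/104335526920848748281) * (x - (77/100)) ^ 6 * (1 - x) ^ 8 +
        (1214081110305387558308800000000000/34778508973616249427) * (x - (77/100)) ^ 7 * (1 - x) ^ 7 +
        (1238068400153915594080000000000000/34778508973616249427) * (x - (77/100)) ^ 8 * (1 - x) ^ 6 +
        (314178913711515152000000000000000/11592836324538749809) * (x - (77/100)) ^ 9 * (1 - x) ^ 5 +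
        (1584188345711115200000000000000000/104335526920848748281) * (x - (77/100)) ^ 10 * (1 - x) ^ 4 +
        (70389929565920000000000000000000/11592836324538749809) * (x - (77/100)) ^ 11 * (1 - x) ^ 3 +
        (170770384952000000000000000000000/104335526920848748281) * (x - (77/100)) ^ 12 * (1 - x) ^ 2 +
        (9236670400000000000000000000000/34778508973616249427) * (x - (77/100)) ^ 13 * (1 - x) ^ 1 +
        (225920000000000000000000000000/11592836324538749809) * (x - (77/100)) ^ 14 * (1 - x) ^ 0 := by ring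
  rw [e]
  positivity

/-! ### bound for `hm` -/

/-- `h_n(k) ≤ (1 - 1/n) (k - log(1+k))` for `-1 < k ≤ 0` -/
lemma hm_le_log {n : ℕ} (hn : 1 ≤ n) {k : ℝ} (hk : 0 < 1 + k) (hk0 : k ≤ 0) :
    hm n k ≤ (1 - 1 / (n : ℝ)) * (k - Real.log (1 + k)) := by
  have hn0 : (0 : ℝ) < n := by exact_mod_cast hn
  -- f(x) = (e^{nx}-1)/n - n(e^x-1) + (n-1)x is monotone
  set f : ℝ → ℝ := fun x => (Real.exp (n * x) - 1) / n - n * (Real.exp x - 1) + ((n : ℝ) - 1) * x with hf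
  have hd : ∀ x, HasDerivAt f (Real.exp (n * x) - n * Real.exp x + ((n : ℝ) - 1)) x := by
    intro x
    have h1 : HasDerivAt (fun x : ℝ => Real.exp (n * x)) (Real.exp (n * x) * n) x := by
      have := ((hasDerivAt_id x).const_mul (n : ℝ)).exp
      simpa using this
    have h2 := ((h1.sub_const 1).div_const (n : ℝ)).sub (((Real.hasDerivAt_exp x).sub_const 1).const_mul (n : ℝ))
    have h3 := h2.add ((hasDerivAt_id x).const_mul ((n : ℝ) - 1))
    refine h3.congr_deriv ?_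
    field_simp
  have hmono : Monotone f := by
    refine monotone_of_deriv_nonneg (fun x => (hd x).differentiableAt) fun x => ?_
    rw [(hd x).deriv]
    have hb := one_add_mul_le_pow (a := Real.exp x - 1) (by have := Real.exp_pos x; linarith) n
    have e : 1 + (Real.exp x - 1) = Real.exp x := by ring
    rw [e, ← Real.exp_nat_mul] at hb
    linarith
  set L := Real.log (1 + k) with hL
  have hLk : L ≤ 0 := Real.log_nonpos hk.le (by linarith)
  have h0 : f (L / n) ≤ f 0 := hmono (div_nonpos_of_nonpos_of_nonneg hLk hn0.le)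
  have e0 : f 0 = 0 := by simp [hf]
  have e1 : (n : ℝ) * (L / n) = L := by field_simp
  have e2 : Real.exp L = 1 + k := Real.exp_log hk
  have e3 : (1 + k) ^ ((1 : ℝ) / n) = Real.exp (L / n) := by
    rw [Real.rpow_def_of_pos hk, ← hL]; congr 1; ring
  rw [e0] at h0
  have h1 : (1 + k - 1) / n - n * (Real.exp (L / n) - 1) + ((n : ℝ) - 1) * (L / n) ≤ 0 := by
    have := h0
    simp only [hf] at this
    rwa [e1, e2] at this
  unfold hm
  rw [e3]
  have e4 : (1 - 1 / (n : ℝ)) * (k - L) = k - k / n - ((n : ℝ) - 1) * (L / n) := by field_simp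
  rw [e4]
  have e5 : (1 + k - 1) / (n : ℝ) = k / n := by ring
  rw [e5] at h1
  linarith

/-- `k - log(1+k)` in terms of the fourth root -/
lemma log_le_v {x k : ℝ} (hx : 0 < x) (hx1 : x ≤ 1) (hk : 1 + k = x ^ 4) :
    k - Real.log (1 + k) ≤ (1 - x) ^ 2 * (1 + x) * (2 + x + x ^ 2) / x := by
  have h := neg_log_le hx hx1
  rw [Real.log_pow] at h
  have e1 : Real.log (1 + k) = 4 * Real.log x := by rw [hk, Real.log_pow]; norm_num
  push_cast at h
  rw [e1]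
  have e2 : (1 - x) ^ 2 * (1 + x) * (2 + x + x ^ 2) / x = (x ^ 4 - 1) + 2 * ((1 - x ^ 2) / x) := by
    field_simp; ring
  rw [e2]
  linarith

lemma log_sub_nonneg {k : ℝ} (hk : 0 < 1 + k) : 0 ≤ k - Real.log (1 + k) := by
  have := Real.log_le_sub_one_of_pos hk
  linarith

/-! ### the two-variable inequalities -/

/-- the quadratic form in `z` times `x⁴` -/
lemma b6_disc {q al nu be x z : ℝ} (hq : 0 < q) (hx : 0 < x)
    (hD : 0 ≤ 4 * q * x ^ 4 * ((1 + x) ^ 2 * (1 + x ^ 2) ^ 2 - nu * (x ^ 3 * (1 + x) * (2 + x + x ^ 2)) -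
      be * ((1 + x) ^ 2 * (1 + x ^ 2) ^ 2 * x ^ 4)) - (1 + x) ^ 2 * (1 + x ^ 2) ^ 2 * (x ^ 4 + al * (1 - x ^ 4)) ^ 2) :
    0 ≤ (q * z ^ 2 - z * (1 - x ^ 4)) * x ^ 4 + (1 - al * z) * (1 - x ^ 4) ^ 2 -
      nu * (x ^ 3 * (1 - x) ^ 2 * (1 + x) * (2 + x + x ^ 2)) - be * ((1 - x ^ 4) ^ 2 * x ^ 4) := by
  have h4 : 0 < 4 * q * x ^ 4 := by positivity
  have key : 0 ≤ 4 * q * x ^ 4 * ((q * z ^ 2 - z * (1 - x ^ 4)) * x ^ 4 + (1 - al * z) * (1 - x ^ 4) ^ 2 -
      nu * (x ^ 3 * (1 - x) ^ 2 * (1 + x) * (2 + x + x ^ 2)) - be * ((1 - x ^ 4) ^ 2 * x ^ 4)) := by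
    have e : 4 * q * x ^ 4 * ((q * z ^ 2 - z * (1 - x ^ 4)) * x ^ 4 + (1 - al * z) * (1 - x ^ 4) ^ 2 -
      nu * (x ^ 3 * (1 - x) ^ 2 * (1 + x) * (2 + x + x ^ 2)) - be * ((1 - x ^ 4) ^ 2 * x ^ 4)) =
      (2 * q * z * x ^ 4 - (1 - x ^ 4) * (x ^ 4 + al * (1 - x ^ 4))) ^ 2 +
      (1 - x) ^ 2 * (4 * q * x ^ 4 * ((1 + x) ^ 2 * (1 + x ^ 2) ^ 2 - nu * (x ^ 3 * (1 + x) * (2 + x + x ^ 2)) -
      be * ((1 + x) ^ 2 * (1 + x ^ 2) ^ 2 * x ^ 4)) - (1 + x) ^ 2 * (1 + x ^ 2) ^ 2 * (x ^ 4 + al * (1 - x ^ 4)) ^ 2) := by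
      ring
    rw [e]
    have := mul_nonneg (sq_nonneg (1 - x)) hD
    have := sq_nonneg (2 * q * z * x ^ 4 - (1 - x ^ 4) * (x ^ 4 + al * (1 - x ^ 4)))
    linarith
  exact (mul_nonneg_iff_of_pos_left h4).1 key

/-- monotonicity in `z` -/
lemma b6_mono {q al nu be x z z1 : ℝ} (hz : z ≤ z1)
    (hB : q * (z + z1) * x ^ 4 ≤ (1 - x ^ 4) * (x ^ 4 + al * (1 - x ^ 4)))
    (hF : 0 ≤ (q * z1 ^ 2 - z1 * (1 - x ^ 4)) * x ^ 4 + (1 - al * z1) * (1 - x ^ 4) ^ 2 -
      nu * (x ^ 3 * (1 - x) ^ 2 * (1 + x) * (2 + x + x ^ 2)) - be * ((1 - x ^ 4) ^ 2 * x ^ 4)) :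
    0 ≤ (q * z ^ 2 - z * (1 - x ^ 4)) * x ^ 4 + (1 - al * z) * (1 - x ^ 4) ^ 2 -
      nu * (x ^ 3 * (1 - x) ^ 2 * (1 + x) * (2 + x + x ^ 2)) - be * ((1 - x ^ 4) ^ 2 * x ^ 4) := by
  have := mul_nonneg (show 0 ≤ z1 - z by linarith)
    (show 0 ≤ (1 - x ^ 4) * (x ^ 4 + al * (1 - x ^ 4)) - q * (z + z1) * x ^ 4 by linarith)
  linarith

lemma b6_nine_lo {x z : ℝ} (hx : 0 < x) (hx1 : x ≤ 1) (hz : z ≤ 33 / 100) :
    0 ≤ (4 * z ^ 2 - z * (1 - x ^ 4)) * x ^ 4 + (1 - 193 / 100 * z) * (1 - x ^ 4) ^ 2 -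
      127 / 100 * (x ^ 3 * (1 - x) ^ 2 * (1 + x) * (2 + x + x ^ 2)) - 3 / 22 * ((1 - x ^ 4) ^ 2 * x ^ 4) := by
  rcases le_total (10 / 13) x with h | h
  · refine b6_disc (by norm_num) hx ?_
    have := b6_D h hx1
    linarith
  · refine b6_mono hz ?_ ?_
    · have hy0 : 0 ≤ x ^ 4 := by positivity
      have hy : x ^ 4 ≤ (10 / 13) ^ 4 := pow_le_pow_left₀ hx.le h 4
      set y := x ^ 4
      have hy' : y ≤ 3502 / 10000 := hy.trans (by norm_num)
      nlinarith [mul_nonneg hy0 (show 0 ≤ 33 / 100 - z by linarith),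
        mul_nonneg hy0 (show 0 ≤ 3502 / 10000 - y by linarith)]
    · have := b6_F2 hx.le h
      linarith

lemma b6_nine_hi {x z : ℝ} (hx : 0 < x) (hx1 : x ≤ 1) (hz : 33 / 100 ≤ z) :
    0 ≤ (4 * z ^ 2 - z * (1 - x ^ 4)) * x ^ 4 + 1 / 3 * (1 - x ^ 4) ^ 2 -
      1252 / 1000 * (x ^ 3 * (1 - x) ^ 2 * (1 + x) * (2 + x + x ^ 2)) - 3 / 22 * ((1 - x ^ 4) ^ 2 * x ^ 4) := by
  have h := b6_F1 hx.le hx1
  have hy0 : 0 ≤ x ^ 4 := by positivity
  have h1 : 0 ≤ (z - 33 / 100) * (4 * (z + 33 / 100) - (1 - x ^ 4)) :=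
    mul_nonneg (by linarith) (by linarith)
  have := mul_nonneg h1 hy0
  linarith

lemma b6_eight_lo {x z : ℝ} (hx : 0 < x) (hx1 : x ≤ 1) (hz0 : 0 ≤ z) (hz : z ≤ 2 / 5) {nu : ℝ}
    (hnu : nu ≤ 1298 / 1000 - 43 / 400 * z) :
    0 ≤ (3 * z ^ 2 - z * (1 - x ^ 4)) * x ^ 4 + (1 - 5 / 3 * z) * (1 - x ^ 4) ^ 2 -
      nu * (x ^ 3 * (1 - x) ^ 2 * (1 + x) * (2 + x + x ^ 2)) - 3 / 20 * ((1 - x ^ 4) ^ 2 * x ^ 4) := by
  have hM : 0 ≤ x ^ 3 * (1 - x) ^ 2 * (1 + x) * (2 + x + x ^ 2) := by positivity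
  rcases le_total (77 / 100) x with h | h
  · have h1 : 0 ≤ (3 * z ^ 2 - z * (1 - x ^ 4)) * x ^ 4 + (1 - 5 / 3 * z) * (1 - x ^ 4) ^ 2 -
      1298 / 1000 * (x ^ 3 * (1 - x) ^ 2 * (1 + x) * (2 + x + x ^ 2)) - 3 / 20 * ((1 - x ^ 4) ^ 2 * x ^ 4) := by
      refine b6_disc (by norm_num) hx ?_
      have := b6_8D h hx1
      linarith
    have h2 := mul_le_mul_of_nonneg_right (show nu ≤ 1298 / 1000 by linarith) hM
    linarith
  · have h2 := mul_le_mul_of_nonneg_right hnu hM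
    have hF := b6_8F2 hx.le h
    have hy0 : 0 ≤ x ^ 4 := by positivity
    have hy : x ^ 4 ≤ (77 / 100) ^ 4 := pow_le_pow_left₀ hx.le h 4
    have hy' : x ^ 4 ≤ 3516 / 10000 := hy.trans (by norm_num)
    -- `x³(1-x)²(1+x)(2+x+x²) ≤ (1-x⁴)²` crude
    have hMle : x ^ 3 * (1 - x) ^ 2 * (1 + x) * (2 + x + x ^ 2) ≤ (1 - x ^ 4) ^ 2 := by
      have e : (1 - x ^ 4) ^ 2 - x ^ 3 * (1 - x) ^ 2 * (1 + x) * (2 + x + x ^ 2) =
        (1 - x) ^ 2 * (1 + x) * (1 + x + 2 * x ^ 2) := by ring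
      have h0 : 0 ≤ (1 - x) ^ 2 * (1 + x) * (1 + x + 2 * x ^ 2) := by positivity
      linarith
    have hB : 3 * (z + 2 / 5) * x ^ 4 + 43 / 400 * (x ^ 3 * (1 - x) ^ 2 * (1 + x) * (2 + x + x ^ 2)) ≤
        (1 - x ^ 4) * (x ^ 4 + 5 / 3 * (1 - x ^ 4)) := by
      set y := x ^ 4
      nlinarith [mul_nonneg hy0 (show 0 ≤ 2 / 5 - z by linarith),
        mul_nonneg hy0 (show 0 ≤ 3516 / 10000 - y by linarith)]
    have h3 := mul_nonneg (show 0 ≤ 2 / 5 - z by linarith)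
      (show 0 ≤ (1 - x ^ 4) * (x ^ 4 + 5 / 3 * (1 - x ^ 4)) - (3 * (z + 2 / 5) * x ^ 4 +
        43 / 400 * (x ^ 3 * (1 - x) ^ 2 * (1 + x) * (2 + x + x ^ 2))) by linarith)
    linarith

lemma b6_eight_hi {x z : ℝ} (hx : 0 < x) (hx1 : x ≤ 1) (hz : 2 / 5 ≤ z) :
    0 ≤ (3 * z ^ 2 - z * (1 - x ^ 4)) * x ^ 4 + 1 / 3 * (1 - x ^ 4) ^ 2 -
      1255 / 1000 * (x ^ 3 * (1 - x) ^ 2 * (1 + x) * (2 + x + x ^ 2)) - 3 / 20 * ((1 - x ^ 4) ^ 2 * x ^ 4) := by
  have h := b6_8F1 hx.le hx1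
  have hy0 : 0 ≤ x ^ 4 := by positivity
  have h1 : 0 ≤ (z - 2 / 5) * (3 * (z + 2 / 5) - (1 - x ^ 4)) :=
    mul_nonneg (by linarith) (by linarith)
  have := mul_nonneg h1 hy0
  linarith

/-! ### bounds for `aq` -/

/-- `(1+2c)c² ≥ (107/100)(1+c)² l` -/
lemma b6_aq_nine {s l : ℝ} (hs : s ∈ Ioo (0 : ℝ) 1) (hl : 0 < l) (hT : s * Real.exp l ≤ 1)
    (hl1 : l ≤ 11 / 20) (hl2 : 3 / 4 ≤ cc s → cc s ≤ 89 / 100 → l ≤ cc s - 17 / 50) :
    1 + 107 / 100 * (Y s * l) ≤ aq s := by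
  have hc := cc_pos' hs
  have hc1 := cc_le_one s
  have hc2 := cc_sq' hs
  have hs0 := hs.1
  have hz := Yl_le hs hl.le hT
  have hY : Y s = (1 - cc s ^ 2) / cc s ^ 2 := Y_eq hs
  set c := cc s with hcd
  have ha : aq s = 1 + (1 - c) * (1 + 2 * c) / (1 + c) := by
    unfold aq
    rw [← hcd]
    have : 1 + c ≠ 0 := by positivity
    field_simp
    ring
  rw [ha]
  have h1c : 0 < 1 + c := by linarith
  rcases le_total c (3 / 4) with h | h
  · have hs2 : s ^ 2 = 1 - c ^ 2 := by rw [hcd, cc_sq' hs]; ring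
    -- `1.07 s/2 ≤ (1-c)(1+2c)/(1+c)`
    have h2 : 107 / 100 * (s / 2) ≤ (1 - c) * (1 + 2 * c) / (1 + c) := by
      rw [le_div_iff₀ h1c]
      have hr : 0 ≤ (1 - c) * (1 + 2 * c) := mul_nonneg (by linarith) (by linarith)
      refine abs_le_of_sq_le_sq' ?_ hr |>.2
      have e : ((1 - c) * (1 + 2 * c)) ^ 2 - (107 / 100 * (s / 2) * (1 + c)) ^ 2 =
          (1 - c) * ((1 - c) * (1 + 2 * c) ^ 2 - 11449 / 40000 * (1 + c) ^ 3) := by
        have : (107 / 100 * (s / 2) * (1 + c)) ^ 2 = 11449 / 40000 * s ^ 2 * (1 + c) ^ 2 := by ring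
        rw [this, hs2]; ring
      have h3 : 0 ≤ (1 - c) * (1 + 2 * c) ^ 2 - 11449 / 40000 * (1 + c) ^ 3 := by
        nlinarith [mul_nonneg hc.le (show 0 ≤ 3 / 4 - c by linarith),
          mul_nonneg (mul_nonneg hc.le hc.le) (show 0 ≤ 3 / 4 - c by linarith)]
      have := mul_nonneg (show 0 ≤ 1 - c by linarith) h3
      linarith
    linarith
  · have hkey : 107 / 100 * (1 + c) ^ 2 * l ≤ (1 + 2 * c) * c ^ 2 := by
      rcases le_total c (89 / 100) with h' | h'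
      · have hl3 := hl2 h h'
        have h3 : 107 / 100 * (1 + c) ^ 2 * l ≤ 107 / 100 * (1 + c) ^ 2 * (c - 17 / 50) :=
          mul_le_mul_of_nonneg_left hl3 (by positivity)
        have h4 : 107 / 100 * (1 + c) ^ 2 * (c - 17 / 50) ≤ (1 + 2 * c) * c ^ 2 := by
          nlinarith [mul_nonneg (show 0 ≤ c - 3 / 4 by linarith) (show 0 ≤ 89 / 100 - c by linarith),
            mul_nonneg (mul_nonneg (show 0 ≤ c - 3 / 4 by linarith) (show 0 ≤ 89 / 100 - c by linarith)) hc.le]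
        linarith
      · have h3 : 107 / 100 * (1 + c) ^ 2 * l ≤ 107 / 100 * (1 + c) ^ 2 * (11 / 20) :=
          mul_le_mul_of_nonneg_left hl1 (by positivity)
        nlinarith [mul_nonneg (show 0 ≤ c - 89 / 100 by linarith) (show 0 ≤ 1 - c by linarith),
          mul_nonneg (mul_nonneg (show 0 ≤ c - 89 / 100 by linarith) (show 0 ≤ 1 - c by linarith)) hc.le]
    have e : 107 / 100 * (Y s * l) = (1 - c) * (107 / 100 * (1 + c) ^ 2 * l) / (c ^ 2 * (1 + c)) := by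
      rw [hY]; field_simp; ring
    have h5 : (1 - c) * (1 + 2 * c) / (1 + c) = (1 - c) * ((1 + 2 * c) * c ^ 2) / (c ^ 2 * (1 + c)) := by
      field_simp
    rw [e, h5]
    have h6 : (1 - c) * (107 / 100 * (1 + c) ^ 2 * l) ≤ (1 - c) * ((1 + 2 * c) * c ^ 2) :=
      mul_le_mul_of_nonneg_left hkey (by linarith)
    have := div_le_div_of_nonneg_right h6 (show 0 ≤ c ^ 2 * (1 + c) by positivity)
    linarith

/-- from `l (1+c) ≤ c²`: `Y l ≤ 1 - c`, `aq ≥ 1 + 4/3 (Y l)` if `Y l ≤ 1/2` -/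
lemma b6_aq_eight {s l : ℝ} (hs : s ∈ Ioo (0 : ℝ) 1) (hl : 0 < l) (hlc : l * (1 + cc s) ≤ cc s ^ 2)
    (hz2 : Y s * l ≤ 1 / 2) :
    Y s * l ≤ 1 - cc s ∧ 1 + 4 / 3 * (Y s * l) ≤ aq s ∧ l ≤ 1 / 2 - 2 / 3 * (Y s * l) := by
  have hc := cc_pos' hs
  have hc1 := cc_le_one s
  have hY : Y s = (1 - cc s ^ 2) / cc s ^ 2 := Y_eq hs
  have hY0 := Y_nonneg hs
  have hz0 : 0 ≤ Y s * l := by positivity
  set c := cc s with hcd
  have h1c : 0 < 1 + c := by linarith
  have hz : Y s * l ≤ 1 - c := by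
    rw [hY]
    have e : (1 - c ^ 2) / c ^ 2 * l = (1 - c) * (l * (1 + c)) / c ^ 2 := by ring
    rw [e, div_le_iff₀ (by positivity)]
    exact mul_le_mul_of_nonneg_left hlc (by linarith)
  -- `c²/(1+c) ≤ 1/2 - 2/3 z`
  have hmain : c ^ 2 / (1 + c) ≤ 1 / 2 - 2 / 3 * (Y s * l) := by
    rw [div_le_iff₀ h1c]
    set z := Y s * l with hzd
    nlinarith [mul_nonneg hz0 (show 0 ≤ 1 - c - z by linarith), mul_nonneg hc.le (show 0 ≤ 1 - c - z by linarith),
      mul_nonneg hz0 (show 0 ≤ 1 / 2 - z by linarith), mul_nonneg hc.le (show 0 ≤ 1 / 2 - z by linarith),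
      mul_nonneg hz0 hc.le]
  refine ⟨hz, ?_, ?_⟩
  · unfold aq
    have e : 2 * cc s ^ 2 / (1 + cc s) = 2 * (c ^ 2 / (1 + c)) := by rw [← hcd]; ring
    rw [e]
    linarith
  · have : l ≤ c ^ 2 / (1 + c) := by rw [le_div_iff₀ h1c]; exact hlc
    linarith

/-! ### reduction of `PP` -/

lemma b6_exp_le {x : ℝ} (h0 : 0 ≤ x) (h1 : x ≤ 1) : Real.exp x ≤ 1 + x + x ^ 2 / 2 + x ^ 3 * (2 / 9) := by
  have h := Real.exp_bound' h0 h1 (n := 3) (by norm_num)
  simp [Finset.sum_range_succ, Nat.factorial] at h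
  linarith

lemma b6_cR {s l : ℝ} (hs : s ∈ Ioo (0 : ℝ) 1) (hl : 0 < l) (hT : s * Real.exp l ≤ 1)
    (hl1 : l ≤ 11 / 20) (hl2 : 3 / 4 ≤ cc s → cc s ≤ 89 / 100 → l ≤ cc s - 17 / 50) :
    -(1 / 2 * (Y s * l ^ 2) + 2 * (Y s * l) ^ 2) ≤ cR s l := by
  have hc := cc_pos' hs
  have hs0 : 0 < s := hs.1
  have hsc : s ^ 2 + cc s ^ 2 = 1 := by rw [cc_sq' hs]; ring
  have hT0 : 0 < s * Real.exp l := mul_pos hs0 (Real.exp_pos l)
  have hC : cc (s * Real.exp l) ^ 2 = 1 - (s * Real.exp l) ^ 2 := by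
    unfold cc
    rw [Real.sq_sqrt]
    nlinarith
  have h := CI.cR_pos hs0 hc hsc hT hl.le hl1 hl2 (cc_nonneg _) hC
  have hY : Y s = s ^ 2 / cc s ^ 2 := by unfold Y; rw [cc_sq' hs]
  have hcR : cR s l = cc s * cc (s * Real.exp l) / (1 + cc (s * Real.exp l)) -
      cc s ^ 2 / (1 + cc s) + l * (s ^ 2 / (1 + cc s) ^ 2) := by
    unfold cR
    rw [CI.Phi_sub]
    have h1 : s ^ 2 = (1 - cc s) * (1 + cc s) := by linear_combination hsc
    have h2 : s ^ 2 / (1 + cc s) ^ 2 = (1 - cc s) / (1 + cc s) := by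
      rw [h1]; field_simp
    rw [h2]
    ring
  rw [hcR, hY]
  refine le_trans (le_of_eq ?_) h
  ring

/-- general reduction -/
lemma b6_reduce {n : ℕ} (hn : 8 ≤ n) {lm s l k x A be nu al : ℝ} (hs : s ∈ Ioo (0 : ℝ) 1) (hl : 0 < l)
    (hT : s * Real.exp l ≤ 1)
    (hl1 : l ≤ 11 / 20) (hl2 : 3 / 4 ≤ cc s → cc s ≤ 89 / 100 → l ≤ cc s - 17 / 50)
    (hk : 0 < 1 + k) (hk0 : k ≤ 0) (hx : 0 < x) (hx1 : x ≤ 1) (hkx : 1 + k = x ^ 4)
    (hA : A ≤ (n : ℝ) - 5) (hbe : 3 / (2 * ((n : ℝ) + 2)) ≤ be)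
    (hnu : (1 + 7 / (4 * (n : ℝ))) * Real.exp (l / n) ≤ nu) (hal : al ≤ aq s - 3 * (Y s * l))
    (hF : 0 ≤ (A * (Y s * l) ^ 2 - (Y s * l) * (1 - x ^ 4)) * x ^ 4 + al * (1 - x ^ 4) ^ 2 -
      nu * (x ^ 3 * (1 - x) ^ 2 * (1 + x) * (2 + x + x ^ 2)) - be * ((1 - x ^ 4) ^ 2 * x ^ 4)) :
    0 < PP n (((n : ℝ) + 1 + 3 * (1 / 4)) / ((n : ℝ) - 1)) 3 1 0 lm s l k := by
  have hnR : (8 : ℝ) ≤ n := by exact_mod_cast hn
  have hn0 : (0 : ℝ) < n := by linarith
  have hn1 : (0 : ℝ) < (n : ℝ) - 1 := by linarith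
  have hY : 0 < Y s := by
    unfold Y; rw [← cc_sq' hs]
    have := hs.1; have := cc_pos' hs
    positivity
  have hcR := b6_cR hs hl hT hl1 hl2
  set μ := ((n : ℝ) + 1 + 3 * (1 / 4)) / ((n : ℝ) - 1) with hμ
  have hμ1 : μ * ((n : ℝ) - 1) = n + 7 / 4 := by
    rw [hμ, div_mul_cancel₀ _ hn1.ne']; ring
  have hμ0 : 0 < μ := div_pos (by linarith) hn1
  -- G term
  have hG : l ^ 2 / (2 * n) ≤ Gm n l := by
    unfold Gm
    have h := Real.quadratic_le_exp_of_nonneg (x := l / n) (by positivity)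
    have h2 := mul_le_mul_of_nonneg_left (show l / n + (l / n) ^ 2 / 2 ≤ Real.exp (l / n) - 1 by linarith) hn0.le
    have e : (n : ℝ) * (l / n + (l / n) ^ 2 / 2) = l + l ^ 2 / (2 * n) := by field_simp
    linarith
  have hGt : (1 / 2 + 7 / (8 * (n : ℝ))) * (Y s * l ^ 2) ≤ μ * (((n : ℝ) - 1) * Y s * Gm n l) := by
    have e1 : μ * (((n : ℝ) - 1) * Y s * Gm n l) = (n + 7 / 4) * Y s * Gm n l := by rw [← hμ1]; ring
    have e2 : (1 / 2 + 7 / (8 * (n : ℝ))) * (Y s * l ^ 2) = (n + 7 / 4) * Y s * (l ^ 2 / (2 * n)) := by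
      field_simp; ring
    rw [e1, e2]
    exact mul_le_mul_of_nonneg_left hG (by positivity)
  -- h term
  have hL0 := log_sub_nonneg hk
  have hLv := log_le_v hx hx1 hkx
  have hh : μ * (Real.exp (l / n) * hm n k) ≤ nu * ((1 - x) ^ 2 * (1 + x) * (2 + x + x ^ 2) / x) := by
    have h1 := hm_le_log (n := n) (by omega) hk hk0
    have e : μ * (1 - 1 / (n : ℝ)) = 1 + 7 / (4 * n) := by
      have : μ * (1 - 1 / (n : ℝ)) = μ * ((n : ℝ) - 1) / n := by field_simp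
      rw [this, hμ1]; field_simp
    calc μ * (Real.exp (l / n) * hm n k) = μ * Real.exp (l / n) * hm n k := by ring
      _ ≤ μ * Real.exp (l / n) * ((1 - 1 / (n : ℝ)) * (k - Real.log (1 + k))) :=
          mul_le_mul_of_nonneg_left h1 (by positivity)
      _ = (μ * (1 - 1 / (n : ℝ))) * Real.exp (l / n) * (k - Real.log (1 + k)) := by ring
      _ = ((1 + 7 / (4 * n)) * Real.exp (l / n)) * (k - Real.log (1 + k)) := by rw [e]
      _ ≤ nu * (k - Real.log (1 + k)) := mul_le_mul_of_nonneg_right hnu hL0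
      _ ≤ nu * ((1 - x) ^ 2 * (1 + x) * (2 + x + x ^ 2) / x) := by
          refine mul_le_mul_of_nonneg_left hLv ?_
          refine le_trans ?_ hnu
          positivity
  have hkt : k = -(1 - x ^ 4) := by linarith
  have hK : KK k = (1 - x ^ 4) ^ 2 / x ^ 4 := by unfold KK; rw [hkx, hkt]; ring
  have hK0 : 0 ≤ KK k := by rw [hK]; positivity
  have haK : al * KK k ≤ (aq s - 3 * (Y s * l)) * KK k := mul_le_mul_of_nonneg_right hal hK0
  have hbk : 3 / (2 * ((n : ℝ) + 2)) * k ^ 2 ≤ be * k ^ 2 := mul_le_mul_of_nonneg_right hbe (sq_nonneg k)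
  have hAz : A * (Y s * l) ^ 2 ≤ ((n : ℝ) - 5) * (Y s * l) ^ 2 := mul_le_mul_of_nonneg_right hA (sq_nonneg _)
  have hPP : PP n μ 3 1 0 lm s l k = μ * (((n : ℝ) - 1) * Y s * Gm n l) - μ * (Real.exp (l / n) * hm n k) +
      (aq s - 3 * (Y s * l)) * KK k + (Y s * l) * k + ((n : ℝ) - 5) * (Y s * l) ^ 2 +
      2 * (Y s * l) ^ 2 + cR s l - 3 / (2 * ((n : ℝ) + 2)) * k ^ 2 := by
    unfold PP; ring
  have hF' : 0 ≤ (A * (Y s * l) ^ 2 - (Y s * l) * (1 - x ^ 4)) + al * KK k -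
      nu * ((1 - x) ^ 2 * (1 + x) * (2 + x + x ^ 2) / x) - be * (1 - x ^ 4) ^ 2 := by
    rw [hK]
    have e : (A * (Y s * l) ^ 2 - (Y s * l) * (1 - x ^ 4)) + al * ((1 - x ^ 4) ^ 2 / x ^ 4) -
      nu * ((1 - x) ^ 2 * (1 + x) * (2 + x + x ^ 2) / x) - be * (1 - x ^ 4) ^ 2 =
      ((A * (Y s * l) ^ 2 - (Y s * l) * (1 - x ^ 4)) * x ^ 4 + al * (1 - x ^ 4) ^ 2 -
      nu * (x ^ 3 * (1 - x) ^ 2 * (1 + x) * (2 + x + x ^ 2)) - be * ((1 - x ^ 4) ^ 2 * x ^ 4)) / x ^ 4 := by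
      field_simp
    rw [e]
    exact div_nonneg hF (by positivity)
  have hpos : 0 < 7 / (8 * (n : ℝ)) * (Y s * l ^ 2) := by positivity
  have hk2 : k ^ 2 = (1 - x ^ 4) ^ 2 := by rw [hkt]; ring
  have hzk : (Y s * l) * k = -((Y s * l) * (1 - x ^ 4)) := by rw [hkt]; ring
  rw [hPP, hzk]
  rw [hk2] at hbk ⊢
  linarith

lemma b6_root {k : ℝ} (hk : 0 < 1 + k) (hk0 : k ≤ 0) : ∃ x : ℝ, 0 < x ∧ x ≤ 1 ∧ 1 + k = x ^ 4 := by
  refine ⟨Real.sqrt (Real.sqrt (1 + k)), Real.sqrt_pos.2 (Real.sqrt_pos.2 hk), ?_, ?_⟩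
  · have h1 : Real.sqrt (1 + k) ≤ 1 := Real.sqrt_le_one.2 (by linarith)
    exact Real.sqrt_le_one.2 h1
  · have e : Real.sqrt (Real.sqrt (1 + k)) ^ 4 = (Real.sqrt (Real.sqrt (1 + k)) ^ 2) ^ 2 := by ring
    rw [e, Real.sq_sqrt (Real.sqrt_nonneg _), Real.sq_sqrt hk.le]

lemma b6_nu {n m : ℕ} (hm : 1 ≤ m) (hn : m ≤ n) {l e nu : ℝ} (hl : 0 < l) (he : Real.exp (l / m) ≤ e)
    (h : (1 + 7 / (4 * (m : ℝ))) * e ≤ nu) : (1 + 7 / (4 * (n : ℝ))) * Real.exp (l / n) ≤ nu := by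
  have hmR : (1 : ℝ) ≤ m := by exact_mod_cast hm
  have hnR : (m : ℝ) ≤ n := by exact_mod_cast hn
  have h1 : Real.exp (l / n) ≤ Real.exp (l / m) :=
    Real.exp_le_exp.2 (div_le_div_of_nonneg_left hl.le (by linarith) hnR)
  have h2 : 7 / (4 * (n : ℝ)) ≤ 7 / (4 * (m : ℝ)) :=
    div_le_div_of_nonneg_left (by norm_num) (by linarith) (by linarith)
  calc _ ≤ (1 + 7 / (4 * (m : ℝ))) * e :=
        mul_le_mul (by linarith) (h1.trans he) (Real.exp_pos _).le (by positivity)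
    _ ≤ nu := h

/-- `c ≤ 3/4` if `Y l ≥ 33/100` -/
lemma b6_c_le {s l : ℝ} (hs : s ∈ Ioo (0 : ℝ) 1) (hl : 0 < l)
    (hl1 : l ≤ 11 / 20) (hl2 : 3 / 4 ≤ cc s → cc s ≤ 89 / 100 → l ≤ cc s - 17 / 50)
    (hz : 33 / 100 ≤ Y s * l) : cc s ≤ 3 / 4 := by
  by_contra hcon
  push Not at hcon
  have hc := cc_pos' hs
  have hc1 := cc_le_one s
  have hY : Y s = (1 - cc s ^ 2) / cc s ^ 2 := Y_eq hs
  rw [hY] at hz
  set c := cc s with hcd
  have e : (1 - c ^ 2) / c ^ 2 * l = (1 - c ^ 2) * l / c ^ 2 := by ring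
  rw [e, le_div_iff₀ (by positivity)] at hz
  have h0 : 0 ≤ 1 - c ^ 2 := by nlinarith
  rcases le_total c (89 / 100) with h' | h'
  · have h3 := mul_le_mul_of_nonneg_left (hl2 hcon.le h') h0
    nlinarith [mul_pos (show 0 < c - 3 / 4 by linarith) hc]
  · have h3 := mul_le_mul_of_nonneg_left hl1 h0
    nlinarith

/-- **B6 for `n ≥ 9`** -/
theorem B6_nine {n : ℕ} (hn : 9 ≤ n) {lm s l k : ℝ} (hs : s ∈ Ioo (0 : ℝ) 1) (hl : 0 < l)
    (hT : s * Real.exp l ≤ 1) (hl1 : l ≤ 11 / 20)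
    (hl2 : 3 / 4 ≤ cc s → cc s ≤ 89 / 100 → l ≤ cc s - 17 / 50)
    (hk : 0 < 1 + k) (hk0 : k ≤ 0) :
    0 < PP n (((n : ℝ) + 1 + 3 * (1 / 4)) / ((n : ℝ) - 1)) 3 1 0 lm s l k := by
  have hnR : (9 : ℝ) ≤ n := by exact_mod_cast hn
  obtain ⟨x, hx, hx1, hkx⟩ := b6_root hk hk0
  have hbe : 3 / (2 * ((n : ℝ) + 2)) ≤ 3 / 22 :=
    div_le_div_of_nonneg_left (by norm_num) (by norm_num) (by linarith)
  have hz := Yl_le hs hl.le hT
  rcases le_total (Y s * l) (33 / 100) with h | h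
  · have ha := b6_aq_nine hs hl hT hl1 hl2
    refine b6_reduce (A := 4) (be := 3 / 22) (nu := 127 / 100) (al := 1 - 193 / 100 * (Y s * l))
      (by omega) hs hl hT hl1 hl2 hk hk0 hx hx1 hkx (by linarith) hbe ?_ (by linarith)
      (b6_nine_lo hx hx1 h)
    refine b6_nu (m := 9) (by norm_num) hn hl (e := 10631 / 10000) ?_ (by norm_num)
    have h1 : l / ((9 : ℕ) : ℝ) ≤ 11 / 180 := by push_cast; linarith
    refine (Real.exp_le_exp.2 h1).trans ((b6_exp_le (by norm_num) (by norm_num)).trans (by norm_num))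
  · have hc3 := b6_c_le hs hl hl1 hl2 h
    have hsc : s ^ 2 + cc s ^ 2 = 1 := by rw [cc_sq' hs]; ring
    have hl5 := CI.l_le_of_c hs.1 (cc_pos' hs) hsc hT hc3
    have ha := aq_sub_ge hs
    refine b6_reduce (A := 4) (be := 3 / 22) (nu := 1252 / 1000) (al := 1 / 3)
      (by omega) hs hl hT hl1 hl2 hk hk0 hx hx1 hkx (by linarith) hbe ?_ (by linarith)
      (b6_nine_hi hx hx1 h)
    refine b6_nu (m := 9) (by norm_num) hn hl (e := 10475 / 10000) ?_ (by norm_num)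
    have h1 : l / ((9 : ℕ) : ℝ) ≤ 5 / 108 := by push_cast; linarith
    refine (Real.exp_le_exp.2 h1).trans ((b6_exp_le (by norm_num) (by norm_num)).trans (by norm_num))

/-- **B6 for `n ≥ 8`** under `l (1+c) ≤ c²` -/
theorem B6_eight {n : ℕ} (hn : 8 ≤ n) {lm s l k : ℝ} (hs : s ∈ Ioo (0 : ℝ) 1) (hl : 0 < l)
    (hT : s * Real.exp l ≤ 1) (hlc : l * (1 + cc s) ≤ cc s ^ 2)
    (hk : 0 < 1 + k) (hk0 : k ≤ 0) :
    0 < PP n (((n : ℝ) + 1 + 3 * (1 / 4)) / ((n : ℝ) - 1)) 3 1 0 lm s l k := by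
  have hnR : (8 : ℝ) ≤ n := by exact_mod_cast hn
  obtain ⟨x, hx, hx1, hkx⟩ := b6_root hk hk0
  have hc := cc_pos' hs
  have hc1 := cc_le_one s
  have hbe : 3 / (2 * ((n : ℝ) + 2)) ≤ 3 / 20 :=
    div_le_div_of_nonneg_left (by norm_num) (by norm_num) (by linarith)
  have hz := Yl_le hs hl.le hT
  have hz2 : Y s * l ≤ 1 / 2 := by have := hs.2; linarith
  have hY0 := Y_nonneg hs
  have hz0 : 0 ≤ Y s * l := by positivity
  obtain ⟨hzc, ha, hlz⟩ := b6_aq_eight hs hl hlc hz2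
  have hl1 : l ≤ 11 / 20 := by linarith
  have hl2 : 3 / 4 ≤ cc s → cc s ≤ 89 / 100 → l ≤ cc s - 17 / 50 := by
    intro h1 h2
    have h3 : l ≤ cc s ^ 2 / (1 + cc s) := by rw [le_div_iff₀ (by linarith)]; exact hlc
    refine h3.trans ?_
    rw [div_le_iff₀ (by linarith)]
    nlinarith
  rcases le_total (Y s * l) (2 / 5) with h | h
  · -- nu = 1298/1000 - 43/400 z
    refine b6_reduce (A := 3) (be := 3 / 20) (nu := 1298 / 1000 - 43 / 400 * (Y s * l))
      (al := 1 - 5 / 3 * (Y s * l))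
      hn hs hl hT hl1 hl2 hk hk0 hx hx1 hkx (by linarith) hbe ?_ (by linarith)
      (b6_eight_lo hx hx1 hz0 h le_rfl)
    set z := Y s * l with hzd
    refine b6_nu (m := 8) (by norm_num) hn hl (e := 1 + (1 / 16 - z / 12) + (1 / 16 - z / 12) ^ 2 / 2 +
      (1 / 16 - z / 12) ^ 3 * (2 / 9)) ?_ ?_
    · have h1 : l / ((8 : ℕ) : ℝ) ≤ 1 / 16 - z / 12 := by push_cast; linarith
      exact (Real.exp_le_exp.2 h1).trans (b6_exp_le (by linarith) (by linarith))
    · push_cast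
      nlinarith [mul_nonneg hz0 (show 0 ≤ 2 / 5 - z by linarith),
        mul_nonneg (mul_nonneg hz0 hz0) (show 0 ≤ 2 / 5 - z by linarith)]
  · have hl5 : l ≤ 7 / 30 := by linarith
    have ha := aq_sub_ge hs
    refine b6_reduce (A := 3) (be := 3 / 20) (nu := 1255 / 1000) (al := 1 / 3)
      hn hs hl hT hl1 hl2 hk hk0 hx hx1 hkx (by linarith) hbe ?_ (by linarith)
      (b6_eight_hi hx hx1 h)
    refine b6_nu (m := 8) (by norm_num) hn hl (e := 10296 / 10000) ?_ (by norm_num)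
    have h1 : l / ((8 : ℕ) : ℝ) ≤ 7 / 240 := by push_cast; linarith
    refine (Real.exp_le_exp.2 h1).trans ((b6_exp_le (by norm_num) (by norm_num)).trans (by norm_num))

end Crest.Agent.R230.WR
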