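import Crest.Agent.R230.B6aux

/-!
# Row 230: block B6, the quadratic forms in the regions of `c` (see `B6big.lean`)
-/

set_option autoImplicit false

open Set

namespace Crest.Agent.R230.B6

lemma quad_case {A B C z m : ℝ} (hA : 0 ≤ A) (hzm : z ≤ m)
    (h1 : 0 ≤ A * m ^ 2 - B * m + C) (h2 : 2 * A * m ≤ B ∨ (B ^ 2 ≤ 4 * A * C ∧ 0 ≤ C)) :
    0 ≤ A * z ^ 2 - B * z + C := by
  rcases h2 with h2 | ⟨h2, hC⟩
  · have h3 : A * z ^ 2 - B * z + C = (A * m ^ 2 - B * m + C) + (m - z) * (B - A * (m + z)) := by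
      ring
    have h4 : 0 ≤ B - A * (m + z) := by nlinarith
    rw [h3]
    have : 0 ≤ m - z := by linarith
    positivity
  · rcases hA.eq_or_lt with h | h
    · rw [← h] at h2 ⊢
      have hB : B = 0 := by nlinarith [sq_nonneg B]
      rw [hB]; linarith
    · have h5 : 0 ≤ 4 * A * (A * z ^ 2 - B * z + C) := by nlinarith [sq_nonneg (2 * A * z - B)]
      by_contra hcon
      push Not at hcon
      nlinarith

/-- the function `β` -/
noncomputable def be (u : ℝ) : ℝ := 11 / 30 * u + 13 / 120 * u ^ 2 + 13 / 200 * u ^ 3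

lemma be_ge {u : ℝ} (hu : 0 ≤ u) : 11 / 30 * u ≤ be u := by
  unfold be; nlinarith [pow_nonneg hu 2, pow_nonneg hu 3]

/-- tangent bound for `u² β(u)` at `τ` -/
lemma be_tangent {u τ : ℝ} (hu : 0 ≤ u) (hτ : 0 ≤ τ) :
    (11 / 30 * (2 * τ) + 13 / 120 * (3 * τ ^ 2) + 13 / 200 * (4 * τ ^ 3)) * u ^ 2 -
      (11 / 30 * τ ^ 2 + 13 / 120 * (2 * τ ^ 3) + 13 / 200 * (3 * τ ^ 4)) * u ≤ u ^ 2 * be u := by
  have h1 : 0 ≤ u * (u - τ) ^ 2 := by positivity
  have h2 : 0 ≤ u * (u - τ) ^ 2 * (u + 2 * τ) := by positivity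
  have h3 : 0 ≤ u * (u - τ) ^ 2 * (u ^ 2 + 2 * τ * u + 3 * τ ^ 2) := by positivity
  unfold be
  nlinarith [h1, h2, h3]

/-- `a0 - b0 u + c0 u² ≥ 0` from the discriminant -/
lemma quad_nonneg {a b c u : ℝ} (hc : 0 < c) (h : b ^ 2 ≤ 4 * a * c) : 0 ≤ a - b * u + c * u ^ 2 := by
  have : 0 ≤ 4 * c * (a - b * u + c * u ^ 2) := by nlinarith [sq_nonneg (2 * c * u - b)]
  by_contra hcon
  push Not at hcon
  nlinarith

/-- concavity in `u` of `4q(1-u)(..) - t(1+2u)²` -/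
lemma concD {q d t u : ℝ} (ht0 : 0 < t) (hq0 : 0 ≤ q) (hd : 0 < d) (hu0 : 0 ≤ u) (hud : u * d ≤ t)
    (hD0 : 0 ≤ 4 * q * (1 / 5 + 11 / 8 * t) - t)
    (hD1 : 0 ≤ 4 * q * (d - t) * (1 / 5 * d + 11 / 8 * t * d + 11 / 30 * t) - t * (d + 2 * t) ^ 2) :
    t * (1 + 2 * u) ^ 2 ≤ 4 * q * (1 - u) * (1 / 5 + 11 / 8 * t + 11 / 30 * u) := by
  have e1 : t * d * (4 * q * (1 - u) * (1 / 5 + 11 / 8 * t + 11 / 30 * u) - t * (1 + 2 * u) ^ 2) =
      (t - u * d) * d * (4 * q * (1 / 5 + 11 / 8 * t) - t) +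
      u * (4 * q * (d - t) * (1 / 5 * d + 11 / 8 * t * d + 11 / 30 * t) - t * (d + 2 * t) ^ 2) +
      u * t * (t - u * d) * (4 * q * (11 / 30) + 4 * t) := by
    ring
  have h1 : 0 ≤ t - u * d := by linarith
  have e2 : 0 ≤ (t - u * d) * d * (4 * q * (1 / 5 + 11 / 8 * t) - t) +
      u * (4 * q * (d - t) * (1 / 5 * d + 11 / 8 * t * d + 11 / 30 * t) - t * (d + 2 * t) ^ 2) +
      u * t * (t - u * d) * (4 * q * (11 / 30) + 4 * t) := by
    positivity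
  rw [← e1] at e2
  have := nonneg_of_mul_nonneg_right e2 (by positivity : 0 < t * d)
  linarith

/-- region `c ∈ [3/5,1)`, `z = Y l ≤ t = 1 - c`  (`n ≤ 10`) -/
lemma regionI {t u z C : ℝ} (ht0 : 0 < t) (ht1 : t ≤ 2 / 5) (hu0 : 0 ≤ u) (hu1 : u < 1)
    (hz1 : z ≤ t) (hC : u ^ 2 * (1 / 5 + 11 / 8 * t + be u) ≤ C) :
    0 ≤ (3 / 50 / t + 1 / 2 + 41 / 5 * t) * (1 - u) * z ^ 2 - u * (1 + 2 * u) * z + C := by
  obtain ⟨q, hq⟩ : ∃ q : ℝ, q = 3 / 50 + t / 2 + 41 / 5 * t ^ 2 := ⟨_, rfl⟩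
  have hq0 : 0 < q := by rw [hq]; positivity
  have hQ : 3 / 50 / t + 1 / 2 + 41 / 5 * t = q / t := by rw [hq]; field_simp
  rw [hQ]
  have h1u : 0 < 1 - u := by linarith
  have hb := be_ge hu0
  have hb0 : 0 ≤ be u := le_trans (by positivity) hb
  suffices h : 0 ≤ q / t * (1 - u) * z ^ 2 - u * (1 + 2 * u) * z + u ^ 2 * (1 / 5 + 11 / 8 * t + be u) by
    linarith
  refine quad_case (by positivity) hz1 ?_ ?_
  · -- F(1)
    have e : q / t * (1 - u) * t ^ 2 - u * (1 + 2 * u) * t + u ^ 2 * (1 / 5 + 11 / 8 * t + be u) =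
        t * q - t * (1 + q) * u + (1 / 5 - 5 / 8 * t) * u ^ 2 + u ^ 2 * be u := by
      field_simp
      ring
    rw [e]
    have h3 := be_tangent (τ := 2 * t) hu0 (by linarith)
    have hG := G1 ht0.le ht1
    rw [← hq] at hG
    have h4 := quad_nonneg (a := t * q)
      (b := t * (1 + q + 22 / 15 * t + 26 / 15 * t ^ 2 + 78 / 25 * t ^ 3))
      (c := 1 / 5 + 101 / 120 * t + 13 / 10 * t ^ 2 + 52 / 25 * t ^ 3) (u := u) (by positivity) (by
        have := mul_nonneg ht0.le hG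
        nlinarith [this])
    nlinarith [h3, h4]
  · by_cases hcase : 2 * (q / t * (1 - u)) * t ≤ u * (1 + 2 * u)
    · exact Or.inl hcase
    · right
      push Not at hcase
      have e0 : 2 * (q / t * (1 - u)) * t = 2 * q * (1 - u) := by field_simp
      rw [e0] at hcase
      refine ⟨?_, by positivity⟩
      have hkey : t * (1 + 2 * u) ^ 2 ≤ 4 * q * (1 - u) * (1 / 5 + 11 / 8 * t + 11 / 30 * u) := by
        rcases le_or_gt (t * (1 + 2 * u)) (2 * u * (1 / 5 + 11 / 8 * t + 11 / 30 * u)) with h | h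
        · have p1 : 0 ≤ 1 / 5 + 11 / 8 * t + 11 / 30 * u := by positivity
          have p2 : t * (1 + 2 * u) * (1 + 2 * u) ≤ 2 * u * (1 / 5 + 11 / 8 * t + 11 / 30 * u) * (1 + 2 * u) :=
            mul_le_mul_of_nonneg_right h (by linarith)
          have p3 : 2 * (1 / 5 + 11 / 8 * t + 11 / 30 * u) * (u * (1 + 2 * u)) ≤
              2 * (1 / 5 + 11 / 8 * t + 11 / 30 * u) * (2 * q * (1 - u)) :=
            mul_le_mul_of_nonneg_left hcase.le (by positivity)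
          linarith
        · -- direct
          have hd : 0 < 2 / 5 + 3 / 4 * t := by positivity
          have hud : u * (2 / 5 + 3 / 4 * t) ≤ t := by nlinarith [mul_nonneg hu0 hu0]
          have hD0 := D10 ht0.le ht1
          have hD1 := D11 ht0.le ht1
          rw [← hq] at hD0 hD1
          exact concD ht0 hq0.le hd hu0 hud hD0 hD1
      have hkey2 : t * (1 + 2 * u) ^ 2 ≤ 4 * q * (1 - u) * (1 / 5 + 11 / 8 * t + be u) := by
        have : 4 * q * (1 - u) * (1 / 5 + 11 / 8 * t + 11 / 30 * u) ≤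
          4 * q * (1 - u) * (1 / 5 + 11 / 8 * t + be u) :=
          mul_le_mul_of_nonneg_left (by linarith) (by positivity)
        linarith
      have e3 : 4 * (q / t * (1 - u)) * (u ^ 2 * (1 / 5 + 11 / 8 * t + be u)) =
          u ^ 2 / t * (4 * q * (1 - u) * (1 / 5 + 11 / 8 * t + be u)) := by ring
      have e4 : (u * (1 + 2 * u)) ^ 2 = u ^ 2 / t * (t * (1 + 2 * u) ^ 2) := by field_simp
      rw [e3, e4]
      exact mul_le_mul_of_nonneg_left hkey2 (by positivity)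

/-- region `c ≤ 3/5` (`a = aq - 4/5`) -/
lemma regionII {a m u z : ℝ} (hm0 : 41 / 100 ≤ m) (hm1 : m ≤ 1 / 2) (ha : -(12 / 25) ≤ a - 3 * m)
    (ha2 : 3 / 4 ≤ a) (hu0 : 0 ≤ u) (hu1 : u < 1) (hz1 : z ≤ m) :
    0 ≤ 4 * (1 - u) * z ^ 2 - u * (1 + 2 * u) * z + u ^ 2 * (a + be u) := by
  have h1u : 0 < 1 - u := by linarith
  have hb := be_ge hu0
  have hb0 : 0 ≤ be u := le_trans (by positivity) hb
  refine quad_case (by positivity) hz1 ?_ ?_
  · have e : 4 * (1 - u) * m ^ 2 - u * (1 + 2 * u) * m + u ^ 2 * (a + be u) =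
        u ^ 2 * (a - 3 * m + be u) + m * (4 * m - u) * (1 - u) := by ring
    rw [e]
    have h2 := f2 hu0 hu1.le
    have h3 : u ^ 2 * (-(12 / 25) + be u) ≤ u ^ 2 * (a - 3 * m + be u) :=
      mul_le_mul_of_nonneg_left (by linarith) (sq_nonneg u)
    have h4 : 41 / 100 * (41 / 25 - u) ≤ m * (4 * m - u) := by nlinarith
    have h5 := mul_le_mul_of_nonneg_right h4 h1u.le
    have e2 : u ^ 2 * (-(12 / 25) + be u) = -(12 / 25) * u ^ 2 + 11 / 30 * u ^ 3 +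
        13 / 120 * u ^ 4 + 13 / 200 * u ^ 5 := by unfold be; ring
    linarith
  · by_cases hcase : 2 * (4 * (1 - u)) * m ≤ u * (1 + 2 * u)
    · exact Or.inl hcase
    · right
      push Not at hcase
      refine ⟨?_, by positivity⟩
      have h6 : u * (1 + 2 * u) < 4 * (1 - u) := by nlinarith
      have h7 : u < 16 / 25 := by
        by_contra hcon
        push Not at hcon
        nlinarith
      have h8 : (1 + 2 * u) ^ 2 ≤ 16 * (1 - u) * (a + be u) := by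
        have h9 : 16 * (1 - u) * (3 / 4 + 11 / 30 * u) ≤ 16 * (1 - u) * (a + be u) :=
          mul_le_mul_of_nonneg_left (by linarith) (by positivity)
        nlinarith
      have h10 := mul_le_mul_of_nonneg_left h8 (sq_nonneg u)
      linarith

lemma be_tangent2 {u τ : ℝ} (hu : 0 ≤ u) (hτ : 0 ≤ τ) :
    (11 / 30 * (2 * τ) + 13 / 120 * (3 * τ ^ 2)) * u ^ 2 -
      (11 / 30 * τ ^ 2 + 13 / 120 * (2 * τ ^ 3)) * u ≤ u ^ 2 * be u := by
  have h1 : 0 ≤ u * (u - τ) ^ 2 := by positivity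
  have h2 : 0 ≤ u * (u - τ) ^ 2 * (u + 2 * τ) := by positivity
  have h3 : 0 ≤ u ^ 5 := by positivity
  unfold be
  nlinarith [h1, h2, h3]

/-- region `c ≥ 4/5` (`n ≥ 11`), variable `l` -/
lemma regionIa {y u l a : ℝ} (hy0 : 0 ≤ y) (hy1 : y ≤ 9 / 16) (ha : 1 / 5 + y / 2 ≤ a) (hu0 : 0 ≤ u)
    (hu1 : u < 1) (hl1 : l ≤ 1 / 2) :
    0 ≤ y * (7 / 50 + 7 / 2 * y + 23 / 10 * y ^ 2) * (1 - u) * l ^ 2 - y * u * (1 + 2 * u) * l +
      u ^ 2 * (a + be u) := by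
  have h1u : 0 < 1 - u := by linarith
  have hb := be_ge hu0
  have hb0 : 0 ≤ be u := le_trans (by positivity) hb
  have hG := G2 hy0 hy1
  obtain ⟨q, hq⟩ : ∃ q : ℝ, q = 7 / 50 + 7 / 2 * y + 23 / 10 * y ^ 2 := ⟨_, rfl⟩
  rw [← hq] at hG ⊢
  have hq0 : 0 < q := by rw [hq]; positivity
  suffices h : 0 ≤ y * q * (1 - u) * l ^ 2 - y * u * (1 + 2 * u) * l +
      u ^ 2 * (1 / 5 + y / 2 + be u) by
    have : u ^ 2 * (1 / 5 + y / 2 + be u) ≤ u ^ 2 * (a + be u) :=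
      mul_le_mul_of_nonneg_left (by linarith) (sq_nonneg u)
    linarith
  refine quad_case (m := 1 / 2) (by positivity) hl1 ?_ ?_
  · have h3 := be_tangent2 (τ := 3 / 2 * y) hu0 (by linarith)
    have h4 := quad_nonneg (a := y / 4 * q) (b := y * (1 / 2 + q / 4 + 33 / 40 * y + 117 / 160 * y ^ 2))
      (c := 1 / 5 + 3 / 5 * y + 117 / 160 * y ^ 2) (u := u) (by positivity) (by
        have := mul_nonneg hy0 hG
        nlinarith [this])
    nlinarith [h3, h4]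
  · by_cases hcase : 2 * (y * q * (1 - u)) * (1 / 2) ≤ y * u * (1 + 2 * u)
    · exact Or.inl hcase
    · right
      push Not at hcase
      have hy : 0 < y := by
        rcases hy0.eq_or_lt with h | h
        · rw [← h] at hcase; simp at hcase
        · exact h
      have hcase' : u * (1 + 2 * u) < q * (1 - u) := by
        by_contra hcon
        push Not at hcon
        nlinarith
      refine ⟨?_, by positivity⟩
      have hkey : y * (1 + 2 * u) ^ 2 ≤ 4 * q * (1 - u) * (1 / 5 + y / 2 + 11 / 30 * u) := by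
        rcases le_or_gt (y * (1 + 2 * u)) (4 * u * (1 / 5 + y / 2 + 11 / 30 * u)) with h | h
        · have p1 : 0 ≤ 1 / 5 + y / 2 + 11 / 30 * u := by positivity
          have p2 : y * (1 + 2 * u) * (1 + 2 * u) ≤ 4 * u * (1 / 5 + y / 2 + 11 / 30 * u) * (1 + 2 * u) :=
            mul_le_mul_of_nonneg_right h (by linarith)
          have p3 : 4 * (1 / 5 + y / 2 + 11 / 30 * u) * (u * (1 + 2 * u)) ≤
              4 * (1 / 5 + y / 2 + 11 / 30 * u) * (q * (1 - u)) :=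
            mul_le_mul_of_nonneg_left hcase'.le (by positivity)
          linarith
        · have hu2 : u ≤ 41 / 100 := by
            by_contra hcon
            push Not at hcon
            nlinarith
          have d0 : 0 ≤ 4 * q * (1 / 5 + y / 2) - y := by
            rw [hq]; nlinarith [mul_nonneg hy0 hy0, mul_nonneg (mul_nonneg hy0 hy0) hy0]
          have d1 : 0 ≤ 4 * q * (1 - 41 / 100) * (1 / 5 + y / 2 + 11 / 30 * (41 / 100)) -
              y * (1 + 2 * (41 / 100)) ^ 2 := by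
            rw [hq]; nlinarith [mul_nonneg (mul_nonneg hy0 hy0) hy0, sq_nonneg (y - 1 / 40)]
          have e1 : 41 / 100 * (4 * q * (1 - u) * (1 / 5 + y / 2 + 11 / 30 * u) - y * (1 + 2 * u) ^ 2) =
              (41 / 100 - u) * (4 * q * (1 / 5 + y / 2) - y) +
              u * (4 * q * (1 - 41 / 100) * (1 / 5 + y / 2 + 11 / 30 * (41 / 100)) -
              y * (1 + 2 * (41 / 100)) ^ 2) +
              41 / 100 * u * (41 / 100 - u) * (4 * q * (11 / 30) + 4 * y) := by ring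
          have e2 : 0 ≤ (41 / 100 - u) * (4 * q * (1 / 5 + y / 2) - y) +
              u * (4 * q * (1 - 41 / 100) * (1 / 5 + y / 2 + 11 / 30 * (41 / 100)) -
              y * (1 + 2 * (41 / 100)) ^ 2) +
              41 / 100 * u * (41 / 100 - u) * (4 * q * (11 / 30) + 4 * y) := by
            have : 0 ≤ 41 / 100 - u := by linarith
            positivity
          rw [← e1] at e2
          linarith
      have hkey2 : y * (1 + 2 * u) ^ 2 ≤ 4 * q * (1 - u) * (1 / 5 + y / 2 + be u) := by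
        have : 4 * q * (1 - u) * (1 / 5 + y / 2 + 11 / 30 * u) ≤
          4 * q * (1 - u) * (1 / 5 + y / 2 + be u) :=
          mul_le_mul_of_nonneg_left (by linarith) (by positivity)
        linarith
      have := mul_le_mul_of_nonneg_left hkey2 (by positivity : 0 ≤ y * u ^ 2)
      linarith

/-- region `3/5 ≤ c ≤ 4/5` (`n ≥ 11`) -/
lemma regionIb {t u z a : ℝ} (ht0 : 1 / 5 ≤ t) (ht1 : t ≤ 2 / 5) (ha : 1 / 5 + 11 / 8 * t ≤ a)
    (hu0 : 0 ≤ u) (hu1 : u < 1) (hz1 : z ≤ 421 / 2000 + 49 / 100 * t) :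
    0 ≤ (73 / 20 + 13 / 2 * t) * (1 - u) * z ^ 2 - u * (1 + 2 * u) * z + u ^ 2 * (a + be u) := by
  have h1u : 0 < 1 - u := by linarith
  have hb := be_ge hu0
  have hb0 : 0 ≤ be u := le_trans (by positivity) hb
  have hG := G3 ht0 ht1
  obtain ⟨m, hm⟩ : ∃ m : ℝ, m = 421 / 2000 + 49 / 100 * t := ⟨_, rfl⟩
  rw [← hm] at hz1 hG
  obtain ⟨Q, hQ⟩ : ∃ Q : ℝ, Q = 73 / 20 + 13 / 2 * t := ⟨_, rfl⟩
  rw [← hQ] at hG ⊢
  have hm0 : 0 < m := by rw [hm]; positivity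
  have hQ0 : 0 < Q := by rw [hQ]; positivity
  have hm2 : m ≤ 407 / 1000 := by rw [hm]; linarith
  suffices h : 0 ≤ Q * (1 - u) * z ^ 2 - u * (1 + 2 * u) * z + u ^ 2 * (1 / 5 + 11 / 8 * t + be u) by
    have : u ^ 2 * (1 / 5 + 11 / 8 * t + be u) ≤ u ^ 2 * (a + be u) :=
      mul_le_mul_of_nonneg_left (by linarith) (sq_nonneg u)
    linarith
  refine quad_case (m := m) (by positivity) hz1 ?_ ?_
  · have h3 := be_tangent (τ := 4 / 5) hu0 (by norm_num)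
    have h4 := quad_nonneg (a := m ^ 2 * Q) (b := m + m ^ 2 * Q + 6648 / 15625)
      (c := 1 / 5 + 11 / 8 * t - 2 * m + 8698 / 9375) (u := u) (by linarith) (by linarith)
    have e : Q * (1 - u) * m ^ 2 - u * (1 + 2 * u) * m + u ^ 2 * (1 / 5 + 11 / 8 * t + be u) =
        m ^ 2 * Q - (m + m ^ 2 * Q) * u + (1 / 5 + 11 / 8 * t - 2 * m) * u ^ 2 + u ^ 2 * be u := by ring
    rw [e]
    norm_num at h3
    linarith
  · by_cases hcase : 2 * (Q * (1 - u)) * m ≤ u * (1 + 2 * u)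
    · exact Or.inl hcase
    · right
      push Not at hcase
      refine ⟨?_, by positivity⟩
      have hkey : (1 + 2 * u) ^ 2 ≤ 4 * Q * (1 - u) * (1 / 5 + 11 / 8 * t + 11 / 30 * u) := by
        rcases le_or_gt (m * (1 + 2 * u)) (2 * u * (1 / 5 + 11 / 8 * t + 11 / 30 * u)) with h | h
        · have p1 : 0 ≤ 1 / 5 + 11 / 8 * t + 11 / 30 * u := by positivity
          have p2 : m * (1 + 2 * u) * (1 + 2 * u) ≤
              2 * u * (1 / 5 + 11 / 8 * t + 11 / 30 * u) * (1 + 2 * u) :=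
            mul_le_mul_of_nonneg_right h (by linarith)
          have p3 : 2 * (1 / 5 + 11 / 8 * t + 11 / 30 * u) * (u * (1 + 2 * u)) ≤
              2 * (1 / 5 + 11 / 8 * t + 11 / 30 * u) * (2 * (Q * (1 - u)) * m) :=
            mul_le_mul_of_nonneg_left hcase.le (by positivity)
          have p4 : m * (1 + 2 * u) ^ 2 ≤ m * (4 * Q * (1 - u) * (1 / 5 + 11 / 8 * t + 11 / 30 * u)) := by
            linarith
          exact le_of_mul_le_mul_left p4 hm0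
        · have hu2 : u ≤ 1 / 2 := by
            by_contra hcon
            push Not at hcon
            rw [hm] at h
            nlinarith [mul_nonneg (by linarith : (0 : ℝ) ≤ u - 1 / 2) (by linarith : (0 : ℝ) ≤ t - 1 / 5),
              mul_nonneg (by linarith : (0 : ℝ) ≤ u - 1 / 2) (by linarith : (0 : ℝ) ≤ u - 1 / 2)]
          have hQ1 : 99 / 20 ≤ Q := by rw [hQ]; linarith
          have p5 : 19 / 40 ≤ 1 / 5 + 11 / 8 * t + 11 / 30 * u := by linarith [mul_nonneg (by norm_num : (0:ℝ) ≤ 11/30) hu0]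
          have p6 : 99 / 20 * (1 / 2) ≤ Q * (1 - u) := by nlinarith
          have p7 : 99 / 20 * (1 / 2) * (19 / 40) ≤ Q * (1 - u) * (1 / 5 + 11 / 8 * t + 11 / 30 * u) :=
            mul_le_mul p6 p5 (by norm_num) (by positivity)
          nlinarith
      have hkey2 : (1 + 2 * u) ^ 2 ≤ 4 * Q * (1 - u) * (1 / 5 + 11 / 8 * t + be u) := by
        have : 4 * Q * (1 - u) * (1 / 5 + 11 / 8 * t + 11 / 30 * u) ≤
          4 * Q * (1 - u) * (1 / 5 + 11 / 8 * t + be u) :=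
          mul_le_mul_of_nonneg_left (by linarith) (by positivity)
        linarith
      have := mul_le_mul_of_nonneg_left hkey2 (sq_nonneg u)
      linarith

/-! ### the lower bound of the `l²` terms -/

/-- `½ Y l² + cR ≥ Y l² (½ - (23/16) w) - (2+4c) w e₁² (Y l)²`, `w = (c/(1+c))²` -/
lemma L_ge {s l : ℝ} (hs : s ∈ Ioo (0 : ℝ) 1) (hl0 : 0 ≤ l) (hl1 : l ≤ 1 / 2)
    (hT : s * Real.exp l ≤ 1) :
    WR.Y s * l ^ 2 * (1 / 2 - 23 / 16 * (cc s / (1 + cc s)) ^ 2) -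
      (2 + 4 * cc s) * (cc s / (1 + cc s)) ^ 2 * (1 + l + 7 / 8 * l ^ 2) ^ 2 * (WR.Y s * l) ^ 2 ≤
    1 / 2 * (WR.Y s * l ^ 2) + WR.cR s l := by
  have hc0 := WR.cc_pos' hs
  have hc2 := WR.cc_sq' hs
  have hcR := cR_ge hs hl0 hT
  obtain ⟨hE1, hE2⟩ := exp_two_mul_le hl0 hl1
  have hE0 : 0 ≤ Real.exp (2 * l) - 1 := by
    have := Real.one_le_exp (by linarith : (0 : ℝ) ≤ 2 * l); linarith
  have hY0 := WR.Y_nonneg hs
  have hY : WR.Y s = (1 - cc s ^ 2) / cc s ^ 2 := WR.Y_eq hs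
  have hc1 : cc s < 1 := by nlinarith [mul_pos hs.1 hs.1]
  obtain ⟨c, hc⟩ : ∃ c : ℝ, c = cc s := ⟨_, rfl⟩
  obtain ⟨E, hE⟩ : ∃ E : ℝ, E = Real.exp (2 * l) - 1 := ⟨_, rfl⟩
  obtain ⟨y, hy⟩ : ∃ y : ℝ, y = WR.Y s := ⟨_, rfl⟩
  obtain ⟨e, he⟩ : ∃ e : ℝ, e = 1 + l + 7 / 8 * l ^ 2 := ⟨_, rfl⟩
  rw [← hc, ← hE, ← hy] at hcR
  rw [← hE, ← he] at hE1
  rw [← hE] at hE2 hE0
  rw [← hc] at hc0 hc1
  rw [← hy, ← hc] at hY
  rw [← hy] at hY0
  rw [← hc, ← hy, ← he]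
  have he0 : 0 ≤ e := by rw [he]; positivity
  have hrel : (1 - c) / (1 + c) = y * (c / (1 + c)) ^ 2 := by
    rw [hY]; field_simp; ring
  rw [hrel] at hcR
  have hEE : E ^ 2 ≤ (2 * l * e) ^ 2 := pow_le_pow_left₀ hE0 hE1 2
  have hw0 : 0 ≤ y * (c / (1 + c)) ^ 2 := by positivity
  have h1 : y * (c / (1 + c)) ^ 2 * (E / 2 - l + (1 / 2 + c) * y * E ^ 2) ≤
      y * (c / (1 + c)) ^ 2 * (23 / 16 * l ^ 2 + (1 / 2 + c) * y * (2 * l * e) ^ 2) := by
    apply mul_le_mul_of_nonneg_left _ hw0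
    have : (1 / 2 + c) * y * E ^ 2 ≤ (1 / 2 + c) * y * (2 * l * e) ^ 2 :=
      mul_le_mul_of_nonneg_left hEE (by positivity)
    linarith
  have e1 : y * l ^ 2 * (1 / 2 - 23 / 16 * (c / (1 + c)) ^ 2) -
      (2 + 4 * c) * (c / (1 + c)) ^ 2 * e ^ 2 * (y * l) ^ 2 = 1 / 2 * (y * l ^ 2) -
      y * (c / (1 + c)) ^ 2 * (23 / 16 * l ^ 2 + (1 / 2 + c) * y * (2 * l * e) ^ 2) := by ring
  rw [e1]
  linarith

lemma aq_eq (s : ℝ) :
    WR.aq s = 2 - 2 * cc s ^ 2 / (1 + cc s) := rfl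

/-- `l ≤ (1/s - s)/2` -/
lemma l_le_of_T {s l : ℝ} (hs : s ∈ Ioo (0 : ℝ) 1) (hl0 : 0 ≤ l) (hT : s * Real.exp l ≤ 1) :
    2 * s * l ≤ 1 - s ^ 2 := by
  have h1 := Real.self_le_sinh_iff.2 hl0
  rw [Real.sinh_eq] at h1
  have hs0 := hs.1
  have h3 : s ≤ Real.exp (-l) := by
    have h4 : Real.exp l * Real.exp (-l) = 1 := by rw [← Real.exp_add]; simp
    have h5 := Real.exp_pos (-l)
    have h6 := mul_le_mul_of_nonneg_right hT h5.le
    nlinarith
  have h7 : s * (2 * l) ≤ s * (Real.exp l - Real.exp (-l)) :=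
    mul_le_mul_of_nonneg_left (by linarith) hs0.le
  nlinarith [mul_le_mul_of_nonneg_left h3 hs0.le]

/-- reduction to the quadratic form with coefficient `Q` -/
lemma red {Q R u z a b : ℝ} (hu1 : u < 1)
    (h1 : 0 ≤ Q * (1 - u) * z ^ 2 - u * (1 + 2 * u) * z + u ^ 2 * (a + b)) (h2 : Q * z ^ 2 ≤ R) :
    0 ≤ u ^ 2 * (a - 3 * z + b) + (1 - u) * (R - z * u) := by
  have h3 : 0 ≤ (1 - u) * (R - Q * z ^ 2) := mul_nonneg (by linarith) (by linarith)
  have e : u ^ 2 * (a - 3 * z + b) + (1 - u) * (R - z * u) =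
      (Q * (1 - u) * z ^ 2 - u * (1 + 2 * u) * z + u ^ 2 * (a + b)) + (1 - u) * (R - Q * z ^ 2) := by
    ring
  rw [e]; linarith

lemma zs_aux {y c s l : ℝ} (hs0 : 0 < s) (hc0 : 0 < c) (hyc : y * c ^ 2 = s ^ 2)
    (hlT : 2 * s * l ≤ c ^ 2) : y * l ≤ s / 2 := by
  have hc20 : 0 < c ^ 2 := by positivity
  have e : y * l * (2 * c ^ 2) = s * (2 * s * l) := by
    calc y * l * (2 * c ^ 2) = 2 * (y * c ^ 2) * l := by ring
      _ = _ := by rw [hyc]; ring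
  have h1 : y * l * (2 * c ^ 2) ≤ s / 2 * (2 * c ^ 2) := by
    rw [e]; nlinarith [mul_le_mul_of_nonneg_left hlT hs0.le]
  exact le_of_mul_le_mul_right h1 (by positivity)

/-- region II -/
lemma coreII {c s y l z w u b R M : ℝ} (hc0 : 0 < c) (hc1 : c ≤ 3 / 5) (hs0 : 0 < s)
    (hc2 : c ^ 2 = 1 - s ^ 2) (hw : w = (c / (1 + c)) ^ 2) (hl0 : 0 ≤ l)
    (hlT : 2 * s * l ≤ c ^ 2) (hy0 : 0 ≤ y) (hzs : z ≤ s / 2) (hu0 : 0 ≤ u)
    (hu1 : u < 1) (hb : b = be u) (hM : 5 ≤ M)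
    (hL : y * l ^ 2 * (1 / 2 - 23 / 16 * w) - (2 + 4 * c) * w * (1 + l + 7 / 8 * l ^ 2) ^ 2 * z ^ 2 ≤
      1 / 2 * (y * l ^ 2) + R) :
    0 ≤ u ^ 2 * (2 - 2 * c ^ 2 / (1 + c) - 4 / 5 - 3 * z + b) +
      (1 - u) * (1 / 2 * (y * l ^ 2) + M * z ^ 2 + R - z * u) := by
  have h1c : (0 : ℝ) < 1 + c := by linarith
  have hcsq : c ^ 2 ≤ 9 / 25 := by
    have := pow_le_pow_left₀ hc0.le hc1 2
    norm_num at this; exact this
  have hm : s / 2 ≤ 1 / 2 - c ^ 2 / 4 := by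
    have h1 : s ^ 2 ≤ (1 - c ^ 2 / 2) ^ 2 := by
      have e : (1 - c ^ 2 / 2) ^ 2 = 1 - c ^ 2 + (c ^ 2) ^ 2 / 4 := by ring
      rw [e]; linarith [sq_nonneg (c ^ 2)]
    have h2 : s ≤ 1 - c ^ 2 / 2 := by
      have h3 : (0 : ℝ) ≤ 1 - c ^ 2 / 2 := by linarith
      exact (pow_le_pow_iff_left₀ hs0.le h3 two_ne_zero).1 h1
    linarith
  have hca : c ^ 2 / (1 + c) ≤ 9 / 40 := by
    rw [div_le_iff₀ h1c]; nlinarith
  have ha1 : 3 / 4 ≤ 2 - 2 * c ^ 2 / (1 + c) - 4 / 5 := by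
    rw [mul_div_assoc]; linarith
  have ha2 : -(12 / 25) ≤ (2 - 2 * c ^ 2 / (1 + c) - 4 / 5) - 3 * (1 / 2 - c ^ 2 / 4) := by
    have h1 : 2 * c ^ 2 / (1 + c) - 3 / 4 * c ^ 2 ≤ 9 / 50 := by
      rw [sub_le_iff_le_add, div_le_iff₀ h1c]
      nlinarith [mul_nonneg hc0.le (by linarith : (0 : ℝ) ≤ 3 / 5 - c),
        mul_nonneg (mul_nonneg hc0.le hc0.le) (by linarith : (0 : ℝ) ≤ 3 / 5 - c)]
    linarith
  rw [hb]
  refine red (Q := 4) hu1 ?_ ?_
  · exact regionII (m := 1 / 2 - c ^ 2 / 4) (by linarith) (by linarith [sq_nonneg c]) ha2 ha1 hu0 hu1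
      (by linarith)
  · have hs45 : 4 / 5 ≤ s := by
      by_contra hcon
      push Not at hcon
      have : s ^ 2 < (4 / 5) ^ 2 := pow_lt_pow_left₀ hcon hs0.le two_ne_zero
      linarith
    have hl2 : l ≤ 9 / 40 := by
      by_contra hcon
      push Not at hcon
      have := mul_lt_mul' hs45 hcon (by norm_num) hs0
      linarith
    have he : (1 + l + 7 / 8 * l ^ 2) ^ 2 ≤ 16129 / 10000 := by
      have h0 : l ^ 2 ≤ (9 / 40) ^ 2 := pow_le_pow_left₀ hl0 hl2 2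
      have h1 : 1 + l + 7 / 8 * l ^ 2 ≤ 127 / 100 := by linarith
      have h2 := pow_le_pow_left₀ (by positivity : 0 ≤ 1 + l + 7 / 8 * l ^ 2) h1 2
      norm_num at h2 ⊢
      linarith
    have hw0 : 0 ≤ w := by rw [hw]; positivity
    have hw2 : w ≤ 9 / 64 := by
      have h1 : c / (1 + c) ≤ 3 / 8 := by rw [div_le_iff₀ h1c]; linarith
      have h2 : 0 ≤ c / (1 + c) := by positivity
      have h3 := pow_le_pow_left₀ h2 h1 2
      rw [hw]; norm_num at h3 ⊢; linarith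
    have hρ : (2 + 4 * c) * w * (1 + l + 7 / 8 * l ^ 2) ^ 2 ≤ 1 := by
      have h1 : (2 + 4 * c) * w ≤ 22 / 5 * (9 / 64) :=
        mul_le_mul (by linarith) hw2 hw0 (by norm_num)
      have h2 := mul_le_mul h1 he (by positivity) (by norm_num)
      linarith
    have h3 : (2 + 4 * c) * w * (1 + l + 7 / 8 * l ^ 2) ^ 2 * z ^ 2 ≤ 1 * z ^ 2 :=
      mul_le_mul_of_nonneg_right hρ (sq_nonneg z)
    have h4 : (5 : ℝ) * z ^ 2 ≤ M * z ^ 2 := mul_le_mul_of_nonneg_right hM (sq_nonneg z)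
    have h5 : 0 ≤ y * l ^ 2 * (1 / 2 - 23 / 16 * w) :=
      mul_nonneg (by positivity) (by linarith)
    linarith

/-- region I, `n ≤ 10` -/
lemma coreI {c y l z w u b R M : ℝ} (hc0 : 3 / 5 < c) (hc1 : c < 1)
    (hw : w = (c / (1 + c)) ^ 2) (hl0 : 0 ≤ l) (hyc : y * c ^ 2 = 1 - c ^ 2)
    (hleg : l * (1 + c) ≤ c ^ 2) (hz : z = y * l) (hu0 : 0 ≤ u)
    (hu1 : u < 1) (hb : b = be u) (hM : 5 ≤ M)
    (hL : y * l ^ 2 * (1 / 2 - 23 / 16 * w) - (2 + 4 * c) * w * (1 + l + 7 / 8 * l ^ 2) ^ 2 * z ^ 2 ≤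
      1 / 2 * (y * l ^ 2) + R) :
    0 ≤ u ^ 2 * (2 - 2 * c ^ 2 / (1 + c) - 4 / 5 - 3 * z + b) +
      (1 - u) * (1 / 2 * (y * l ^ 2) + M * z ^ 2 + R - z * u) := by
  have h1c : (0 : ℝ) < 1 + c := by linarith
  have hcp : (0 : ℝ) < c := by linarith
  have ht0 : 0 < 1 - c := by linarith
  have hw0 : 0 ≤ w := by rw [hw]; positivity
  have hzt : z ≤ 1 - c := by
    have e : z * c ^ 2 = (1 - c) * ((1 + c) * l) := by
      rw [hz]
      calc y * l * c ^ 2 = (y * c ^ 2) * l := by ring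
        _ = _ := by rw [hyc]; ring
    have h1 : z * c ^ 2 ≤ (1 - c) * c ^ 2 := by
      rw [e]; exact mul_le_mul_of_nonneg_left (by linarith) ht0.le
    exact le_of_mul_le_mul_right h1 (by positivity)
  rw [hb]
  refine red (Q := 3 / 50 / (1 - c) + 1 / 2 + 41 / 5 * (1 - c)) hu1 ?_ ?_
  · refine regionI ht0 (by linarith) hu0 hu1 hzt ?_
    apply mul_le_mul_of_nonneg_left _ (sq_nonneg u)
    have h1 : 2 * c ^ 2 / (1 + c) ≤ 1 - 11 / 8 * (1 - c) := by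
      rw [div_le_iff₀ h1c]; nlinarith
    linarith
  · -- coefficient
    have hl1 : l ≤ (11 * c - 3) / 16 := by
      have h1 : l * (1 + c) ≤ (11 * c - 3) / 16 * (1 + c) := by nlinarith
      exact le_of_mul_le_mul_right h1 h1c
    have he : 1 + l + 7 / 8 * l ^ 2 ≤ 1 + (11 * c - 3) / 16 + 7 / 8 * ((11 * c - 3) / 16) ^ 2 := by
      have := pow_le_pow_left₀ hl0 hl1 2
      linarith
    have he2 : (1 + l + 7 / 8 * l ^ 2) ^ 2 ≤
        (1 + (11 * c - 3) / 16 + 7 / 8 * ((11 * c - 3) / 16) ^ 2) ^ 2 :=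
      pow_le_pow_left₀ (by positivity) he 2
    have hF4 := F4 hc0.le hc1.le
    have hρ : (2 + 4 * c) * w * (1 + l + 7 / 8 * l ^ 2) ^ 2 ≤ 41 / 5 * c - 37 / 10 := by
      have h1 : (2 + 4 * c) * c ^ 2 * (1 + l + 7 / 8 * l ^ 2) ^ 2 ≤
          (41 / 5 * c - 37 / 10) * (1 + c) ^ 2 := by
        have := mul_le_mul_of_nonneg_left he2 (by positivity : 0 ≤ (2 + 4 * c) * c ^ 2)
        linarith
      have e : (2 + 4 * c) * w * (1 + l + 7 / 8 * l ^ 2) ^ 2 =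
          (2 + 4 * c) * c ^ 2 * (1 + l + 7 / 8 * l ^ 2) ^ 2 / (1 + c) ^ 2 := by
        rw [hw]; field_simp
      rw [e, div_le_iff₀ (by positivity)]
      exact h1
    have h3 := mul_le_mul_of_nonneg_right hρ (sq_nonneg z)
    have h4 : (5 : ℝ) * z ^ 2 ≤ M * z ^ 2 := mul_le_mul_of_nonneg_right hM (sq_nonneg z)
    have hF3 := F3 hc0.le hc1.le
    have h5 : 3 / 50 / (1 - c) * z ^ 2 ≤ y * l ^ 2 * (1 / 2 - 23 / 16 * w) := by
      have e1 : y * l ^ 2 * (1 / 2 - 23 / 16 * w) = z ^ 2 *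
          ((1 / 2 * (1 + c) ^ 2 - 23 / 16 * c ^ 2) * c ^ 2 / ((1 - c) * (1 + c) ^ 3)) := by
        have hy : y = (1 - c ^ 2) / c ^ 2 := by rw [← hyc]; field_simp
        rw [hz, hw, hy]
        field_simp
        ring
      have e2 : 3 / 50 / (1 - c) * z ^ 2 = z ^ 2 * (3 / 50 * (1 + c) ^ 3 / ((1 - c) * (1 + c) ^ 3)) := by
        field_simp
      rw [e1, e2]
      apply mul_le_mul_of_nonneg_left _ (sq_nonneg z)
      apply div_le_div_of_nonneg_right _ (by positivity)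
      linarith
    nlinarith [h3, h4, h5, hL]

end Crest.Agent.R230.B6
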