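import Crest.Agent.R230.B6core
import Crest.Agent.R230.B6Star

/-!
# Row 230, block B6 (case II, `l ≥ 0`, `-1 < k ≤ 0`), tools for dimensions 7 and 8 (Lean `n = 6, 7`)
-/

set_option autoImplicit false

open MeasureTheory Set Filter Topology

namespace Crest.Agent.R230.WR

/-- constant `ρ` -/
theorem star_const {c v ρ : ℝ} (hc : 0 < c) (hc1 : c < 1) (hv : 0 ≤ v)
    (h : (2 - c ^ 2) * (1 + c - c ^ 2) ≤ ρ * ((1 + c) ^ 2 * (1 - c))) :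
    c ^ 2 * (2 - c ^ 2 - v ^ 2) * (1 + c + v - c ^ 2) ≤
      ρ * ((1 + c) ^ 2 * (1 - c) * (1 + v) * (c + v) ^ 2) := by
  obtain ⟨P, hP⟩ : ∃ P : ℝ, P = ρ * ((1 + c) ^ 2 * (1 - c)) := ⟨_, rfl⟩
  obtain ⟨A, hA⟩ : ∃ A : ℝ, A = 1 + c - c ^ 2 := ⟨_, rfl⟩
  have hA1 : 1 ≤ A := by rw [hA]; nlinarith
  have hc2 : 0 < 2 - c ^ 2 := by nlinarith
  rw [← hP, ← hA] at h
  have hP0 : 0 < P := lt_of_lt_of_le (mul_pos hc2 (by linarith)) h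
  have k1 : 0 ≤ P * (2 * c + c ^ 2) - c ^ 2 * (2 - c ^ 2) := by
    have h1 : (2 - c ^ 2) * A * (2 * c + c ^ 2) ≤ P * (2 * c + c ^ 2) :=
      mul_le_mul_of_nonneg_right h (by positivity)
    have h2 : (2 - c ^ 2) * (2 * c + c ^ 2) * 1 ≤ (2 - c ^ 2) * (2 * c + c ^ 2) * A :=
      mul_le_mul_of_nonneg_left hA1 (by positivity)
    have h3 : 0 ≤ (2 - c ^ 2) * (2 * c) := by positivity
    nlinarith
  have e : ρ * ((1 + c) ^ 2 * (1 - c) * (1 + v) * (c + v) ^ 2) -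
      c ^ 2 * (2 - c ^ 2 - v ^ 2) * (1 + c + v - c ^ 2) =
      c ^ 2 * (P - (2 - c ^ 2) * A) + v * (P * (2 * c + c ^ 2) - c ^ 2 * (2 - c ^ 2)) +
      v ^ 2 * (P * (1 + 2 * c) + c ^ 2 * A) + v ^ 3 * (P + c ^ 2) := by
    rw [hP, hA]; ring
  have h4 : 0 ≤ c ^ 2 * (P - (2 - c ^ 2) * A) := mul_nonneg (sq_nonneg _) (by linarith)
  have h5 : 0 ≤ v * (P * (2 * c + c ^ 2) - c ^ 2 * (2 - c ^ 2)) := mul_nonneg hv k1
  have h6 : 0 ≤ v ^ 2 * (P * (1 + 2 * c) + c ^ 2 * A) := by positivity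
  have h7 : 0 ≤ v ^ 3 * (P + c ^ 2) := by positivity
  linarith

/-- lower bound of `cc (s e^l)` -/
theorem cc_low {s l ζ mb : ℝ} (hs : s ∈ Ioo (0 : ℝ) 1) (hζ : 0 ≤ ζ) (hζ1 : ζ ≤ 1)
    (hl1 : l * (1 + cc s) ≤ ζ * cc s ^ 2)
    (hx : 0 < (2 - (1 - cc s)) ^ 3 * mb * (2 - (1 - cc s) * mb) -
      ((2 - (1 - cc s)) ^ 4 + (2 * ζ * (1 - (1 - cc s)) ^ 2) * (2 - (1 - cc s)) ^ 3 +
        1 / 2 * (2 * ζ * (1 - (1 - cc s)) ^ 2) ^ 2 * (2 - (1 - cc s)) ^ 2 +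
        1 / 6 * (2 * ζ * (1 - (1 - cc s)) ^ 2) ^ 3 * (2 - (1 - cc s)) +
        5 / 96 * (2 * ζ * (1 - (1 - cc s)) ^ 2) ^ 4)) :
    1 - (1 - cc s) * mb ≤ cc (s * Real.exp l) := by
  have hc := cc_pos' hs
  have hc2 := cc_sq' hs
  have hs0 := hs.1
  set c := cc s with hcdef
  have hc1 : c < 1 := by nlinarith [sq_nonneg (c - 1), mul_pos hs0 hs0]
  have e1 : 2 - (1 - c) = 1 + c := by ring
  have e2 : 1 - (1 - c) = c := by ring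
  rw [e1, e2] at hx
  obtain ⟨x, hxd⟩ : ∃ x : ℝ, x = 2 * ζ * c ^ 2 / (1 + c) := ⟨_, rfl⟩
  have hx0 : 0 ≤ x := by rw [hxd]; positivity
  have hx1 : x ≤ 1 := by
    rw [hxd, div_le_one (by linarith)]
    nlinarith
  have hlx : 2 * l ≤ x := by
    rw [hxd, le_div_iff₀ (by linarith)]
    nlinarith
  have hex : Real.exp (2 * l) ≤ 1 + x + x ^ 2 / 2 + x ^ 3 / 6 + 5 / 96 * x ^ 4 := by
    refine (Real.exp_le_exp.2 hlx).trans ?_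
    have := Real.exp_bound' hx0 hx1 (n := 4) (by norm_num)
    refine this.trans (le_of_eq ?_)
    simp only [Finset.sum_range_succ, Finset.sum_range_zero, Nat.factorial]
    push_cast
    ring
  have hmul : 1 + x + x ^ 2 / 2 + x ^ 3 / 6 + 5 / 96 * x ^ 4 ≤
      mb * (2 - (1 - c) * mb) / (1 + c) := by
    rw [le_div_iff₀ (by linarith)]
    have h1 : (1 + x + x ^ 2 / 2 + x ^ 3 / 6 + 5 / 96 * x ^ 4) * (1 + c) =
        ((1 + c) ^ 4 + (2 * ζ * c ^ 2) * (1 + c) ^ 3 + 1 / 2 * (2 * ζ * c ^ 2) ^ 2 * (1 + c) ^ 2 +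
        1 / 6 * (2 * ζ * c ^ 2) ^ 3 * (1 + c) + 5 / 96 * (2 * ζ * c ^ 2) ^ 4) / (1 + c) ^ 3 := by
      rw [hxd]
      field_simp
    rw [h1, div_le_iff₀ (by positivity)]
    linarith
  have hs2 : s ^ 2 = 1 - c ^ 2 := by linarith
  have hv : (1 - (1 - c) * mb) ^ 2 ≤ 1 - (s * Real.exp l) ^ 2 := by
    have h1 : (s * Real.exp l) ^ 2 = s ^ 2 * Real.exp (2 * l) := by
      rw [mul_pow, ← Real.exp_nat_mul]; norm_num
    have h2 : s ^ 2 * Real.exp (2 * l) ≤ s ^ 2 * (mb * (2 - (1 - c) * mb) / (1 + c)) :=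
      mul_le_mul_of_nonneg_left (hex.trans hmul) (sq_nonneg s)
    have h3 : s ^ 2 * (mb * (2 - (1 - c) * mb) / (1 + c)) = (1 - c) * (mb * (2 - (1 - c) * mb)) := by
      rw [hs2]
      field_simp
      ring
    rw [h1]
    nlinarith
  unfold cc
  exact Real.le_sqrt_of_sq_le hv

set_option maxHeartbeats 2000000 in
/-- `cR` bound with `ρ = r0 + r1 Y`, from the polynomial inequality -/
theorem cR_ge_var {s l r0 r1 mb : ℝ} (hs : s ∈ Ioo (0 : ℝ) 1) (hl : 0 ≤ l)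
    (hT : s * Real.exp l ≤ 1) (hr0 : 0 ≤ r0) (hr1 : 0 ≤ r1) (hmb : 1 < mb)
    (hlow : 1 - (1 - cc s) * mb ≤ cc (s * Real.exp l))
    (hst : ∀ t : ℝ, 0 ≤ t → t ≤ 1 →
      0 < (r0 * (1 - (1 - cc s)) ^ 2 + r1 * (1 - (1 - (1 - cc s)) ^ 2)) * (1 + (1 - (1 - cc s))) ^ 2 *
        (1 + (1 - (1 - cc s) * (1 + t * (mb - 1)))) *
        ((1 - (1 - cc s)) + (1 - (1 - cc s) * (1 + t * (mb - 1)))) ^ 2 -
        (1 - (1 - cc s)) ^ 4 * (2 - (1 - cc s) + (1 + t * (mb - 1)) *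
          (1 + (1 - (1 - cc s) * (1 + t * (mb - 1))))) *
          (1 + (1 - (1 - cc s)) + (1 - (1 - cc s) * (1 + t * (mb - 1))) - (1 - (1 - cc s)) ^ 2)) :
    -((r0 + r1 * Y s) * (Y s * l ^ 2)) ≤ cR s l := by
  have hc := cc_pos' hs
  have hc2 := cc_sq' hs
  have hs0 := hs.1
  have hY : Y s = (1 - cc s ^ 2) / cc s ^ 2 := Y_eq hs
  have hv2 := (cR_eq hs hT).2
  have hv := cc_nonneg (s * Real.exp l)
  refine cR_ge_rho hs hl hT ?_ ?_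
  · have : 0 ≤ Y s := by
      rw [hY]; apply div_nonneg _ (sq_nonneg _); rw [hc2]; nlinarith
    positivity
  have hvc : cc (s * Real.exp l) ≤ cc s := by
    have h1 := Real.one_le_exp (show 0 ≤ 2 * l by linarith)
    nlinarith [mul_nonneg (sq_nonneg s) (sub_nonneg.2 h1)]
  set c := cc s with hcdef
  set v := cc (s * Real.exp l) with hvdef
  have hc1 : c < 1 := by nlinarith [mul_pos hs0 hs0]
  have e0 : 0 < 1 - c := by linarith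
  have e2 : 1 - (1 - c) = c := by ring
  have hm1 : 0 < mb - 1 := by linarith
  obtain ⟨t, ht⟩ : ∃ t : ℝ, t = ((1 - v) / (1 - c) - 1) / (mb - 1) := ⟨_, rfl⟩
  have ht0 : 0 ≤ t := by
    rw [ht]
    apply div_nonneg _ hm1.le
    rw [sub_nonneg, le_div_iff₀ e0]
    linarith
  have ht1 : t ≤ 1 := by
    rw [ht, div_le_one hm1]
    have : (1 - v) / (1 - c) ≤ mb := by
      rw [div_le_iff₀ e0]; linarith
    linarith
  have hm : 1 + t * (mb - 1) = (1 - v) / (1 - c) := by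
    rw [ht]; field_simp; ring
  have h := hst t ht0 ht1
  rw [hm] at h
  have hvv : 1 - (1 - c) * ((1 - v) / (1 - c)) = v := by field_simp; ring
  rw [hvv, e2] at h
  have h2 : (1 - c) * (c ^ 4 * (2 - (1 - c) + (1 - v) / (1 - c) * (1 + v)) * (1 + c + v - c ^ 2)) =
      c ^ 4 * (2 - c ^ 2 - v ^ 2) * (1 + c + v - c ^ 2) := by
    field_simp
    ring
  have h3 := mul_pos e0 h
  rw [mul_sub, h2] at h3
  rw [hY]
  have h4 : (r0 + r1 * ((1 - c ^ 2) / c ^ 2)) * ((1 + c) ^ 2 * (1 - c) * (1 + v) * (c + v) ^ 2) =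
      ((1 - c) * ((r0 * c ^ 2 + r1 * (1 - c ^ 2)) * (1 + c) ^ 2 * (1 + v) * (c + v) ^ 2)) / c ^ 2 := by
    field_simp
  rw [h4, le_div_iff₀ (by positivity)]
  nlinarith [h3]

/-- the `E` condition of `B6_main` -/
theorem hE_of {s l N3 g r0 r1 : ℝ} (hs : s ∈ Ioo (0 : ℝ) 1)
    (h : -((r0 + r1 * Y s) * (Y s * l ^ 2)) ≤ cR s l) :
    (N3 - r1 + (g - r0) * (cc s ^ 2 / (1 - cc s ^ 2))) * (Y s * l) ^ 2 ≤
      g * (Y s * l ^ 2) + N3 * (Y s * l) ^ 2 + cR s l := by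
  have hc := cc_pos' hs
  have hc2 := cc_sq' hs
  have hY : Y s = (1 - cc s ^ 2) / cc s ^ 2 := Y_eq hs
  have h1 : 0 < 1 - cc s ^ 2 := by rw [hc2]; have := hs.1; nlinarith
  have e : cc s ^ 2 / (1 - cc s ^ 2) * (Y s * l) ^ 2 = Y s * l ^ 2 := by
    rw [hY]; field_simp
  have e2 : (N3 - r1 + (g - r0) * (cc s ^ 2 / (1 - cc s ^ 2))) * (Y s * l) ^ 2 =
      (N3 - r1) * (Y s * l) ^ 2 + (g - r0) * (cc s ^ 2 / (1 - cc s ^ 2) * (Y s * l) ^ 2) := by ring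
  rw [e2, e]
  nlinarith [h]

/-- `Y l ≤ ζ (1 - c)` -/
theorem Yl_le_lin {s l ζ : ℝ} (hs : s ∈ Ioo (0 : ℝ) 1) (hl1 : l * (1 + cc s) ≤ ζ * cc s ^ 2) :
    Y s * l ≤ ζ * (1 - cc s) := by
  have hc := cc_pos' hs
  have hc2 := cc_sq' hs
  have hY : Y s = (1 - cc s ^ 2) / cc s ^ 2 := Y_eq hs
  have h1 : cc s < 1 := by have := hs.1; nlinarith
  rw [hY, div_mul_eq_mul_div, div_le_iff₀ (by positivity)]
  nlinarith [mul_le_mul_of_nonneg_left hl1 (show 0 ≤ 1 - cc s by linarith)]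

/-- from `Y l ≤ zm`: `l (1-c²) ≤ zm c²` -/
theorem l_le_of_Yl {s l zm : ℝ} (hs : s ∈ Ioo (0 : ℝ) 1) (h : Y s * l ≤ zm) :
    l * (1 - cc s ^ 2) ≤ zm * cc s ^ 2 := by
  have hc := cc_pos' hs
  rw [Y_eq hs, div_mul_eq_mul_div, div_le_iff₀ (by positivity)] at h
  linarith

theorem exp_le_div {x : ℝ} (hx : x < 1) : Real.exp x ≤ 1 / (1 - x) := by
  have h := Real.one_sub_le_exp_neg x
  rw [Real.exp_neg] at h
  rw [le_div_iff₀ (by linarith)]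
  have := Real.exp_pos x
  have h2 := mul_le_mul_of_nonneg_left h this.le
  rwa [mul_inv_cancel₀ this.ne'] at h2

theorem rr_six {u : ℝ} (hu : 0 ≤ u) :
    rr (1 / (6 : ℕ)) u ≤ 1 - 388 / 1000 * u - 178 / 1000 * u ^ 2 - 1 / 10 * u ^ 3 := by
  unfold rr
  push_cast
  nlinarith [pow_nonneg hu 2, pow_nonneg hu 3]

theorem rr_seven {u : ℝ} (hu : 0 ≤ u) :
    rr (1 / (7 : ℕ)) u ≤ 1 - 38 / 100 * u - 176 / 1000 * u ^ 2 - 1 / 10 * u ^ 3 := by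
  unfold rr
  push_cast
  nlinarith [pow_nonneg hu 2, pow_nonneg hu 3]

theorem sc_two {c : ℝ} (hc : 0 < c) (h : c ≤ 618 / 1000) :
    (2 - c ^ 2) * (1 + c - c ^ 2) ≤ 2 * ((1 + c) ^ 2 * (1 - c)) := by
  have h1 : 0 ≤ 1 - c - c ^ 2 := by nlinarith
  have h2 : 0 ≤ c ^ 2 * (1 - c - c ^ 2) := by positivity
  nlinarith

theorem sc_39 {c : ℝ} (h1 : 2 / 5 ≤ c) (h : c ≤ 51 / 100) :
    (2 - c ^ 2) * (1 + c - c ^ 2) ≤ 39 / 20 * ((1 + c) ^ 2 * (1 - c)) := by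
  have h2 : 0 ≤ (c - 2 / 5) * (51 / 100 - c) := mul_nonneg (by linarith) (by linarith)
  have h3 : 0 ≤ c * ((c - 2 / 5) * (51 / 100 - c)) := mul_nonneg (by linarith) h2
  have h4 : 0 ≤ c ^ 2 * ((c - 2 / 5) * (51 / 100 - c)) := mul_nonneg (sq_nonneg c) h2
  nlinarith

theorem sc_41 {c : ℝ} (h1 : 29 / 50 ≤ c) (h : c ≤ 13 / 20) :
    (2 - c ^ 2) * (1 + c - c ^ 2) ≤ 41 / 20 * ((1 + c) ^ 2 * (1 - c)) := by
  have h2 : 0 ≤ (c - 29 / 50) * (13 / 20 - c) := mul_nonneg (by linarith) (by linarith)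
  have h3 : 0 ≤ c * ((c - 29 / 50) * (13 / 20 - c)) := mul_nonneg (by linarith) h2
  have h4 : 0 ≤ c ^ 2 * ((c - 29 / 50) * (13 / 20 - c)) := mul_nonneg (sq_nonneg c) h2
  nlinarith


/-! ### box lemmas -/

theorem boxmain {s l k lm μ M r0 r1 zm τ A κ g β N3 R : ℝ} {n : ℕ} (hn : 2 ≤ n)
    (hμ : μ * ((n : ℝ) - 1) = n + 7 / 4) (hs : s ∈ Ioo (0 : ℝ) 1)
    (hl : 0 ≤ l) (hk : 0 < 1 + k) (hk0 : k ≤ 0)
    (hg : 1 / 2 + 7 / (8 * (n : ℝ)) = g) (hβ : 3 / (2 * ((n : ℝ) + 2)) = β) (hN : (n : ℝ) - 3 = N3)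
    (hM : g * Real.exp (l / n) ≤ M)
    (hcR : -((r0 + r1 * Y s) * (Y s * l ^ 2)) ≤ cR s l)
    (hz : Y s * l ≤ zm) (hzm0 : 0 < zm)
    (hκ : κ ≤ N3 - r1 + (g - r0) * (cc s ^ 2 / (1 - cc s ^ 2))) (hκ0 : 0 ≤ κ) (hτ : 0 ≤ τ)
    (hA : A ≤ aq s) (hR0 : 0 ≤ R) (hR : rr (1 / n) (-k) ≤ R)
    (hH : 0 < 4 * (zm * (1 - -k) * κ + τ * (-k) ^ 2) * (A - M * R - β * (1 - -k)) -
        zm * (1 + (2 + τ) * -k) ^ 2) :
    0 ≤ PP n μ 3 1 0 lm s l k ∧ (PP n μ 3 1 0 lm s l k = 0 → l = 0) := by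
  have hu0 : 0 ≤ -k := by linarith
  have hu1 : 0 ≤ 1 - -k := by linarith
  subst hg hβ hN
  refine B6_main hn (M := M) (κ := κ) (zm := zm) (τ := τ) (R := R) hμ hs hl hk hk0 hM hR0 hR ?_
    hz hzm0 hκ0 hτ ?_
  · have h := hE_of (N3 := (n : ℝ) - 3) (g := 1 / 2 + 7 / (8 * (n : ℝ))) hs hcR
    have h2 := mul_le_mul_of_nonneg_right hκ (sq_nonneg (Y s * l))
    linarith
  · have e2 : 1 + k = 1 - -k := by ring
    rw [e2]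
    have h1 : 0 ≤ 4 * (zm * (1 - -k) * κ + τ * (-k) ^ 2) := by positivity
    have h2 := mul_le_mul_of_nonneg_left hA h1
    nlinarith

theorem aq_ge_of_le {s b A : ℝ} (hs : s ∈ Ioo (0 : ℝ) 1) (hb : cc s ≤ b)
    (hA : 2 * b ^ 2 ≤ (2 - A) * (1 + b)) : A ≤ aq s := by
  have hc := cc_pos' hs
  unfold aq
  have h : 2 * cc s ^ 2 / (1 + cc s) ≤ 2 - A := by
    rw [div_le_iff₀ (by linarith)]
    have h1 : cc s ^ 2 * (1 + b) ≤ b ^ 2 * (1 + cc s) := by nlinarith [mul_nonneg hc.le (sub_nonneg.2 hb)]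
    have h2 : (2 * cc s ^ 2) * (1 + b) ≤ ((2 - A) * (1 + cc s)) * (1 + b) := by nlinarith
    exact le_of_mul_le_mul_right h2 (by linarith)
  linarith

theorem g_exp_le {g x L M : ℝ} (hg : 0 ≤ g) (hx : x ≤ L) (hL : L < 1) (hM : g ≤ M * (1 - L)) :
    g * Real.exp x ≤ M := by
  have h1 := (Real.exp_le_exp.2 hx).trans (exp_le_div hL)
  have h2 := mul_le_mul_of_nonneg_left h1 hg
  refine h2.trans ?_
  rw [mul_one_div, div_le_iff₀ (by linarith)]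
  exact hM

theorem frac_mono {x y : ℝ} (hx : 0 ≤ x) (hxy : x ≤ y) (hy : y < 1) :
    x ^ 2 / (1 - x ^ 2) ≤ y ^ 2 / (1 - y ^ 2) := by
  have h2 : x ^ 2 ≤ y ^ 2 := pow_le_pow_left₀ hx hxy 2
  have h3 : y ^ 2 < 1 := by nlinarith
  rw [div_le_div_iff₀ (by linarith) (by linarith)]
  nlinarith

theorem Yl_box {s l a zm ζ : ℝ} (hs : s ∈ Ioo (0 : ℝ) 1) (hT : s * Real.exp l ≤ 1)
    (hl1 : l * (1 + cc s) ≤ ζ * cc s ^ 2) (hζ : 0 ≤ ζ) (ha0 : 0 ≤ a) (ha : a ≤ cc s)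
    (h : 1 / 2 - a ^ 2 / 4 - a ^ 4 / 12 ≤ zm ∨ ζ * (1 - a) ≤ zm) : Y s * l ≤ zm := by
  rcases h with h | h
  · have h1 := Yl_le_quart hs hT
    have h2 : a ^ 2 ≤ cc s ^ 2 := pow_le_pow_left₀ ha0 ha 2
    have h3 : a ^ 4 ≤ cc s ^ 4 := pow_le_pow_left₀ ha0 ha 4
    linarith
  · have h1 := Yl_le_lin hs hl1
    nlinarith

theorem l_box {s l b zm ζ L : ℝ} (hs : s ∈ Ioo (0 : ℝ) 1) (hl : 0 ≤ l) (hb : cc s ≤ b)
    (hl1 : l * (1 + cc s) ≤ ζ * cc s ^ 2) (hζ : 0 ≤ ζ) (hz : Y s * l ≤ zm)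
    (h : ζ * b ^ 2 ≤ L * (1 + b) ∨ (zm * b ^ 2 ≤ L * (1 - b ^ 2) ∧ b < 1)) : l ≤ L := by
  have hc := cc_pos' hs
  rcases h with h | ⟨h, hb1⟩
  · have h1 : cc s ^ 2 * (1 + b) ≤ b ^ 2 * (1 + cc s) := by
      nlinarith [mul_nonneg hc.le (sub_nonneg.2 hb)]
    have h2 : l * ((1 + cc s) * (1 + b)) ≤ L * ((1 + cc s) * (1 + b)) := by
      have h3 := mul_le_mul_of_nonneg_right hl1 (show 0 ≤ 1 + b by linarith)
      have h4 := mul_le_mul_of_nonneg_left h1 hζ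
      have h5 := mul_le_mul_of_nonneg_right h (show 0 ≤ 1 + cc s by linarith)
      linarith
    exact le_of_mul_le_mul_right h2 (mul_pos (by linarith) (by linarith))
  · have h1 := l_le_of_Yl hs hz
    have hz0 : 0 ≤ zm := by
      refine le_trans (mul_nonneg ?_ hl) hz
      unfold Y
      have := cc_sq' hs
      rw [← this]; positivity
    have h2 : cc s ^ 2 ≤ b ^ 2 := pow_le_pow_left₀ hc.le hb 2
    have h3 : 0 < 1 - b ^ 2 := by nlinarith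
    have h4 : zm * cc s ^ 2 ≤ zm * b ^ 2 := mul_le_mul_of_nonneg_left h2 hz0
    have h5 : l * (1 - b ^ 2) ≤ l * (1 - cc s ^ 2) := mul_le_mul_of_nonneg_left (by linarith) hl
    exact le_of_mul_le_mul_right (by linarith) h3

/-- box lemma, constant `ρ` -/
theorem boxc {s l k lm μ M ρ zm τ A κ g β N3 R ζ a b L : ℝ} {n : ℕ} (hn : 2 ≤ n)
    (hμ : μ * ((n : ℝ) - 1) = n + 7 / 4) (hs : s ∈ Ioo (0 : ℝ) 1)
    (hl : 0 ≤ l) (hT : s * Real.exp l ≤ 1) (hζ : 0 ≤ ζ) (hl1 : l * (1 + cc s) ≤ ζ * cc s ^ 2)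
    (hk : 0 < 1 + k) (hk0 : k ≤ 0)
    (hg : 1 / 2 + 7 / (8 * (n : ℝ)) = g) (hβ : 3 / (2 * ((n : ℝ) + 2)) = β) (hN : (n : ℝ) - 3 = N3)
    (hR0 : 0 ≤ R) (hR : rr (1 / n) (-k) ≤ R)
    (ha : a ≤ cc s) (hb : cc s ≤ b)
    (hρ : (2 - cc s ^ 2) * (1 + cc s - cc s ^ 2) ≤ ρ * ((1 + cc s) ^ 2 * (1 - cc s)))
    (ha0 : 0 ≤ a) (hb1 : b < 1) (hA : 2 * b ^ 2 ≤ (2 - A) * (1 + b)) (hzm0 : 0 < zm)
    (hz : 1 / 2 - a ^ 2 / 4 - a ^ 4 / 12 ≤ zm ∨ ζ * (1 - a) ≤ zm)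
    (hL : ζ * b ^ 2 ≤ L * (1 + b) ∨ (zm * b ^ 2 ≤ L * (1 - b ^ 2) ∧ b < 1))
    (hLn : L / n < 1) (hM : g ≤ M * (1 - L / n)) (hgρ : g ≤ ρ)
    (hκ : κ * (1 - b ^ 2) ≤ N3 * (1 - b ^ 2) - (ρ - g) * b ^ 2) (hκ0 : 0 ≤ κ) (hτ : 0 ≤ τ)
    (hH : 0 < 4 * (zm * (1 - -k) * κ + τ * (-k) ^ 2) * (A - M * R - β * (1 - -k)) -
        zm * (1 + (2 + τ) * -k) ^ 2) :
    0 ≤ PP n μ 3 1 0 lm s l k ∧ (PP n μ 3 1 0 lm s l k = 0 → l = 0) := by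
  have hc := cc_pos' hs
  have hn0 : (0 : ℝ) < n := by
    have : 0 < n := by omega
    exact_mod_cast this
  have hg0 : 0 ≤ g := by rw [← hg]; positivity
  have hzz := Yl_box hs hT hl1 hζ ha0 ha hz
  have hll := l_box hs hl hb hl1 hζ hzz hL
  have hb0 : 0 < b := by linarith
  refine boxmain (r0 := ρ) (r1 := 0) hn hμ hs hl hk hk0 hg hβ hN
    (g_exp_le hg0 (div_le_div_of_nonneg_right hll hn0.le) hLn hM) ?_ hzz hzm0 ?_ hκ0 hτ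
    (aq_ge_of_le hs hb hA) hR0 hR hH
  · have h := cR_ge_rho (ρ := ρ) hs hl hT (by linarith)
      (star_const hc (by linarith) (cc_nonneg _) hρ)
    linarith
  · have h1 := frac_mono hc.le hb hb1
    have h2 : 0 < 1 - b ^ 2 := by nlinarith
    have h3 : κ ≤ N3 - (ρ - g) * (b ^ 2 / (1 - b ^ 2)) := by
      rw [← mul_div_assoc, le_sub_iff_add_le, ← le_sub_iff_add_le', div_le_iff₀ h2]
      linarith
    have h4 := mul_le_mul_of_nonneg_left h1 (sub_nonneg.2 hgρ)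
    linarith

/-- box lemma, `ρ = r0 + r1 Y` -/
theorem boxv {s l k lm μ M r0 r1 zm τ A κ g β N3 R ζ a b L : ℝ} {n : ℕ} (hn : 2 ≤ n)
    (hμ : μ * ((n : ℝ) - 1) = n + 7 / 4) (hs : s ∈ Ioo (0 : ℝ) 1)
    (hl : 0 ≤ l) (hT : s * Real.exp l ≤ 1) (hζ : 0 ≤ ζ) (hl1 : l * (1 + cc s) ≤ ζ * cc s ^ 2)
    (hk : 0 < 1 + k) (hk0 : k ≤ 0)
    (hg : 1 / 2 + 7 / (8 * (n : ℝ)) = g) (hβ : 3 / (2 * ((n : ℝ) + 2)) = β) (hN : (n : ℝ) - 3 = N3)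
    (hR0 : 0 ≤ R) (hR : rr (1 / n) (-k) ≤ R)
    (ha : a ≤ cc s) (hb : cc s ≤ b)
    (hcR : -((r0 + r1 * Y s) * (Y s * l ^ 2)) ≤ cR s l)
    (ha0 : 0 ≤ a) (ha1 : a < 1) (hA : 2 * b ^ 2 ≤ (2 - A) * (1 + b)) (hzm0 : 0 < zm)
    (hz : 1 / 2 - a ^ 2 / 4 - a ^ 4 / 12 ≤ zm ∨ ζ * (1 - a) ≤ zm)
    (hL : ζ * b ^ 2 ≤ L * (1 + b) ∨ (zm * b ^ 2 ≤ L * (1 - b ^ 2) ∧ b < 1))
    (hLn : L / n < 1) (hM : g ≤ M * (1 - L / n)) (hgr : r0 ≤ g)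
    (hκ : κ * (1 - a ^ 2) ≤ (N3 - r1) * (1 - a ^ 2) + (g - r0) * a ^ 2) (hκ0 : 0 ≤ κ) (hτ : 0 ≤ τ)
    (hH : 0 < 4 * (zm * (1 - -k) * κ + τ * (-k) ^ 2) * (A - M * R - β * (1 - -k)) -
        zm * (1 + (2 + τ) * -k) ^ 2) :
    0 ≤ PP n μ 3 1 0 lm s l k ∧ (PP n μ 3 1 0 lm s l k = 0 → l = 0) := by
  have hc := cc_pos' hs
  have hn0 : (0 : ℝ) < n := by
    have : 0 < n := by omega
    exact_mod_cast this
  have hg0 : 0 ≤ g := by rw [← hg]; positivity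
  have hzz := Yl_box hs hT hl1 hζ ha0 ha hz
  have hll := l_box hs hl hb hl1 hζ hzz hL
  have hc1 : cc s < 1 := by have := cc_sq' hs; have := hs.1; nlinarith
  refine boxmain (r0 := r0) (r1 := r1) hn hμ hs hl hk hk0 hg hβ hN
    (g_exp_le hg0 (div_le_div_of_nonneg_right hll hn0.le) hLn hM) hcR hzz hzm0 ?_ hκ0 hτ
    (aq_ge_of_le hs hb hA) hR0 hR hH
  have h1 := frac_mono ha0 ha hc1
  have h2 : 0 < 1 - a ^ 2 := by nlinarith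
  have h3 : κ ≤ N3 - r1 + (g - r0) * (a ^ 2 / (1 - a ^ 2)) := by
    rw [← mul_div_assoc, ← sub_le_iff_le_add', le_div_iff₀ h2]
    linarith
  have h4 := mul_le_mul_of_nonneg_left h1 (sub_nonneg.2 hgr)
  linarith

end Crest.Agent.R230.WR
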