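import Crest.Agent.R230.BSix

/-!
# Row 230: block B5 for dimension `N = 6` (Lean `n = 5`)

Case II (`λ ≥ 0`), region `l > 0`, `k ≥ 0`, parameters `(σ, θ, Λ) = (3, 1, 1/4)`, `μ = 27/16`.
The proof splits the range of `c = cc s` into boxes with rational constants.
-/

set_option autoImplicit false

open MeasureTheory Set Filter Topology

namespace Crest.Agent.R230.WR.BSix

/-! ### tangent bounds for `hm 5`, `k ≥ 0` -/


lemma tpA {y : ℝ} (h0 : 1 ≤ y) (h1 : y ≤ 13 / 10) :
    0 ≤ ((6/25) + (4/25) * y ^ 5) * (1 + y + y ^ 2 + y ^ 3 + y ^ 4) ^ 2 - (4 + 3 * y + 2 * y ^ 2 + y ^ 3) * y ^ 5 := by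
  have hu : 0 ≤ y - 1 := by linarith
  have hw : 0 ≤ (13/10) - y := by linarith
  have e : ((6/25) + (4/25) * y ^ 5) * (1 + y + y ^ 2 + y ^ 3 + y ^ 4) ^ 2 - (4 + 3 * y + 2 * y ^ 2 + y ^ 3) * y ^ 5 =
      (500000000000/19683) * (y - 1) ^ 2 * ((13/10) - y) ^ 11 +
      (6280000000000/19683) * (y - 1) ^ 3 * ((13/10) - y) ^ 10 +
      (35879000000000/19683) * (y - 1) ^ 4 * ((13/10) - y) ^ 9 +
      (41027000000000/6561) * (y - 1) ^ 5 * ((13/10) - y) ^ 8 +
      (93897430000000/6561) * (y - 1) ^ 6 * ((13/10) - y) ^ 7 +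
      (150545120000000/6561) * (y - 1) ^ 7 * ((13/10) - y) ^ 6 +
      (172539984380000/6561) * (y - 1) ^ 8 * ((13/10) - y) ^ 5 +
      (141361348804000/6561) * (y - 1) ^ 9 * ((13/10) - y) ^ 4 +
      (81137919106400/6561) * (y - 1) ^ 10 * ((13/10) - y) ^ 3 +
      (93220218559760/19683) * (y - 1) ^ 11 * ((13/10) - y) ^ 2 +
      (21438715267384/19683) * (y - 1) ^ 12 * ((13/10) - y) ^ 1 +
      (56077268949332/492075) * (y - 1) ^ 13 * ((13/10) - y) ^ 0 := by ring
  rw [e]
  generalize y - 1 = u at *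
  generalize (13/10) - y = w at *
  positivity

lemma tpP {y : ℝ} (h0 : 1 ≤ y) (h1 : y ≤ 13 / 10) :
    0 ≤ ((1397/5000) + (157/1250) * y ^ 5) * (1 + y + y ^ 2 + y ^ 3 + y ^ 4) ^ 2 - (4 + 3 * y + 2 * y ^ 2 + y ^ 3) * y ^ 5 := by
  rcases le_total y (43/40) with hy | hy
  · have hu : 0 ≤ y - 1 := by linarith
    have hw : 0 ≤ (43/40) - y := by linarith
    have e : ((1397/5000) + (157/1250) * y ^ 5) * (1 + y + y ^ 2 + y ^ 3 + y ^ 4) ^ 2 - (4 + 3 * y + 2 * y ^ 2 + y ^ 3) * y ^ 5 =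
      (83886080000000000000/1594323) * (y - 1) ^ 0 * ((43/40) - y) ^ 13 +
      (899258777600000000000/1594323) * (y - 1) ^ 1 * ((43/40) - y) ^ 12 +
      (1441414512640000000000/531441) * (y - 1) ^ 2 * ((43/40) - y) ^ 11 +
      (12251708260352000000000/1594323) * (y - 1) ^ 3 * ((43/40) - y) ^ 10 +
      (22551192810291200000000/1594323) * (y - 1) ^ 4 * ((43/40) - y) ^ 9 +
      (3107048755953664000000/177147) * (y - 1) ^ 5 * ((43/40) - y) ^ 8 +
      (7777907626002841600000/531441) * (y - 1) ^ 6 * ((43/40) - y) ^ 7 +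
      (4211719292361072640000/531441) * (y - 1) ^ 7 * ((43/40) - y) ^ 6 +
      (465175552210190848000/177147) * (y - 1) ^ 8 * ((43/40) - y) ^ 5 +
      (1082495405710369925120/1594323) * (y - 1) ^ 9 * ((43/40) - y) ^ 4 +
      (689735349132119844608/1594323) * (y - 1) ^ 10 * ((43/40) - y) ^ 3 +
      (810096753842797077536/2657205) * (y - 1) ^ 11 * ((43/40) - y) ^ 2 +
      (4316101517014261727324/39858075) * (y - 1) ^ 12 * ((43/40) - y) ^ 1 +
      (29859386612363567882911/1992903750) * (y - 1) ^ 13 * ((43/40) - y) ^ 0 := by ring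
    rw [e]
    generalize y - 1 = u at *
    generalize (43/40) - y = w at *
    positivity
  rcases le_total y (23/20) with hy | hy
  · have hu : 0 ≤ y - (43/40) := by linarith
    have hw : 0 ≤ (23/20) - y := by linarith
    have e : ((1397/5000) + (157/1250) * y ^ 5) * (1 + y + y ^ 2 + y ^ 3 + y ^ 4) ^ 2 - (4 + 3 * y + 2 * y ^ 2 + y ^ 3) * y ^ 5 =
      (29859386612363567882911/1992903750) * (y - (43/40)) ^ 0 * ((23/20) - y) ^ 13 +
      (280269488035369839294743/996451875) * (y - (43/40)) ^ 1 * ((23/20) - y) ^ 12 +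
      (790729894670402819138572/332150625) * (y - (43/40)) ^ 2 * ((23/20) - y) ^ 11 +
      (11925081898245295244503784/996451875) * (y - (43/40)) ^ 3 * ((23/20) - y) ^ 10 +
      (7955014926108066866062984/199290375) * (y - (43/40)) ^ 4 * ((23/20) - y) ^ 9 +
      (10360057328983019648252368/110716875) * (y - (43/40)) ^ 5 * ((23/20) - y) ^ 8 +
      (52854280031843814683734144/332150625) * (y - (43/40)) ^ 6 * ((23/20) - y) ^ 7 +
      (66215496607001742930066688/332150625) * (y - (43/40)) ^ 7 * ((23/20) - y) ^ 6 +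
      (20421856786206589935036544/110716875) * (y - (43/40)) ^ 8 * ((23/20) - y) ^ 5 +
      (24861125766416050298207488/199290375) * (y - (43/40)) ^ 9 * ((23/20) - y) ^ 4 +
      (59836347498247540582679552/996451875) * (y - (43/40)) ^ 10 * ((23/20) - y) ^ 3 +
      (6480463938265259988465664/332150625) * (y - (43/40)) ^ 11 * ((23/20) - y) ^ 2 +
      (3826095654872828106020864/996451875) * (y - (43/40)) ^ 12 * ((23/20) - y) ^ 1 +
      (344810517359744687353856/996451875) * (y - (43/40)) ^ 13 * ((23/20) - y) ^ 0 := by ring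
    rw [e]
    generalize y - (43/40) = u at *
    generalize (23/20) - y = w at *
    positivity
  have hu : 0 ≤ y - (23/20) := by linarith
  have hw : 0 ≤ (13/10) - y := by linarith
  have e : ((1397/5000) + (157/1250) * y ^ 5) * (1 + y + y ^ 2 + y ^ 3 + y ^ 4) ^ 2 - (4 + 3 * y + 2 * y ^ 2 + y ^ 3) * y ^ 5 =
      (84182255214781417811/1992903750) * (y - (23/20)) ^ 0 * ((13/10) - y) ^ 13 +
      (707448592197801097993/996451875) * (y - (23/20)) ^ 1 * ((13/10) - y) ^ 12 +
      (1804348278600271270772/332150625) * (y - (23/20)) ^ 2 * ((13/10) - y) ^ 11 +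
      (24999770096446693916584/996451875) * (y - (23/20)) ^ 3 * ((13/10) - y) ^ 10 +
      (15571464551512067482184/199290375) * (y - (23/20)) ^ 4 * ((13/10) - y) ^ 9 +
      (19207744570878983347568/110716875) * (y - (23/20)) ^ 5 * ((13/10) - y) ^ 8 +
      (93944503628848952822144/332150625) * (y - (23/20)) ^ 6 * ((13/10) - y) ^ 7 +
      (113973011219906694879488/332150625) * (y - (23/20)) ^ 7 * ((13/10) - y) ^ 6 +
      (34326048044601660873344/110716875) * (y - (23/20)) ^ 8 * ((13/10) - y) ^ 5 +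
      (41092861028447568005888/199290375) * (y - (23/20)) ^ 9 * ((13/10) - y) ^ 4 +
      (97829482286433346788352/996451875) * (y - (23/20)) ^ 10 * ((13/10) - y) ^ 3 +
      (10532154550127572465664/332150625) * (y - (23/20)) ^ 11 * ((13/10) - y) ^ 2 +
      (6207275259227941771264/996451875) * (y - (23/20)) ^ 12 * ((13/10) - y) ^ 1 +
      (560437275695774765056/996451875) * (y - (23/20)) ^ 13 * ((13/10) - y) ^ 0 := by ring
  rw [e]
  generalize y - (23/20) = u at *
  generalize (13/10) - y = w at *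
  positivity

lemma tpQ {y : ℝ} (h0 : 1 ≤ y) (h1 : y ≤ 13 / 10) :
    0 ≤ ((403/1250) + (967/10000) * y ^ 5) * (1 + y + y ^ 2 + y ^ 3 + y ^ 4) ^ 2 - (4 + 3 * y + 2 * y ^ 2 + y ^ 3) * y ^ 5 := by
  rcases le_total y (43/40) with hy | hy
  · have hu : 0 ≤ y - 1 := by linarith
    have hw : 0 ≤ (43/40) - y := by linarith
    have e : ((403/1250) + (967/10000) * y ^ 5) * (1 + y + y ^ 2 + y ^ 3 + y ^ 4) ^ 2 - (4 + 3 * y + 2 * y ^ 2 + y ^ 3) * y ^ 5 =
      (320444825600000000000/1594323) * (y - 1) ^ 0 * ((43/40) - y) ^ 13 +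
      (3863667015680000000000/1594323) * (y - 1) ^ 1 * ((43/40) - y) ^ 12 +
      (7124794998784000000000/531441) * (y - 1) ^ 2 * ((43/40) - y) ^ 11 +
      (71790710226944000000000/1594323) * (y - 1) ^ 3 * ((43/40) - y) ^ 10 +
      (163211119677538304000000/1594323) * (y - 1) ^ 4 * ((43/40) - y) ^ 9 +
      (29443309287777894400000/177147) * (y - 1) ^ 5 * ((43/40) - y) ^ 8 +
      (105265721365385789440000/531441) * (y - 1) ^ 6 * ((43/40) - y) ^ 7 +
      (93123994740476975104000/531441) * (y - 1) ^ 7 * ((43/40) - y) ^ 6 +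
      (20358128435627739535360/177147) * (y - 1) ^ 8 * ((43/40) - y) ^ 5 +
      (87853766404016175223040/1594323) * (y - 1) ^ 9 * ((43/40) - y) ^ 4 +
      (29887501762886275665056/1594323) * (y - 1) ^ 10 * ((43/40) - y) ^ 3 +
      (11367340981752703231052/2657205) * (y - 1) ^ 11 * ((43/40) - y) ^ 2 +
      (46731347241825197463061/79716150) * (y - 1) ^ 12 * ((43/40) - y) ^ 1 +
      (580821768963358330570541/15943230000) * (y - 1) ^ 13 * ((43/40) - y) ^ 0 := by ring
    rw [e]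
    generalize y - 1 = u at *
    generalize (43/40) - y = w at *
    positivity
  rcases le_total y (23/20) with hy | hy
  · have hu : 0 ≤ y - (43/40) := by linarith
    have hw : 0 ≤ (23/20) - y := by linarith
    have e : ((403/1250) + (967/10000) * y ^ 5) * (1 + y + y ^ 2 + y ^ 3 + y ^ 4) ^ 2 - (4 + 3 * y + 2 * y ^ 2 + y ^ 3) * y ^ 5 =
      (580821768963358330570541/15943230000) * (y - (43/40)) ^ 0 * ((23/20) - y) ^ 13 +
      (2877548272341138551110933/7971615000) * (y - (43/40)) ^ 1 * ((23/20) - y) ^ 12 +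
      (1046248793596794612567833/664301250) * (y - (43/40)) ^ 2 * ((23/20) - y) ^ 11 +
      (3944941561392969009005063/996451875) * (y - (43/40)) ^ 3 * ((23/20) - y) ^ 10 +
      (1263677689935308486716963/199290375) * (y - (43/40)) ^ 4 * ((23/20) - y) ^ 9 +
      (773565956516424163363726/110716875) * (y - (43/40)) ^ 5 * ((23/20) - y) ^ 8 +
      (2106269795403187799676208/332150625) * (y - (43/40)) ^ 6 * ((23/20) - y) ^ 7 +
      (2195557855448313797461216/332150625) * (y - (43/40)) ^ 7 * ((23/20) - y) ^ 6 +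
      (868625478433301815913008/110716875) * (y - (43/40)) ^ 8 * ((23/20) - y) ^ 5 +
      (1515872399637528450286816/199290375) * (y - (43/40)) ^ 9 * ((23/20) - y) ^ 4 +
      (5045709376001630284974464/996451875) * (y - (43/40)) ^ 10 * ((23/20) - y) ^ 3 +
      (713464681751838698222848/332150625) * (y - (43/40)) ^ 11 * ((23/20) - y) ^ 2 +
      (523305183266069734869248/996451875) * (y - (43/40)) ^ 12 * ((23/20) - y) ^ 1 +
      (56357938137395569889792/996451875) * (y - (43/40)) ^ 13 * ((23/20) - y) ^ 0 := by ring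
    rw [e]
    generalize y - (43/40) = u at *
    generalize (23/20) - y = w at *
    positivity
  have hu : 0 ≤ y - (23/20) := by linarith
  have hw : 0 ≤ (13/10) - y := by linarith
  have e : ((403/1250) + (967/10000) * y ^ 5) * (1 + y + y ^ 2 + y ^ 3 + y ^ 4) ^ 2 - (4 + 3 * y + 2 * y ^ 2 + y ^ 3) * y ^ 5 =
      (110074097924600722441/15943230000) * (y - (23/20)) ^ 0 * ((13/10) - y) ^ 13 +
      (1124364473463171636683/7971615000) * (y - (23/20)) ^ 1 * ((13/10) - y) ^ 12 +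
      (850168909368223757383/664301250) * (y - (23/20)) ^ 2 * ((13/10) - y) ^ 11 +
      (6796359807445413559663/996451875) * (y - (23/20)) ^ 3 * ((13/10) - y) ^ 10 +
      (4770121127023653686363/199290375) * (y - (23/20)) ^ 4 * ((13/10) - y) ^ 9 +
      (6502808140155451077626/110716875) * (y - (23/20)) ^ 5 * ((13/10) - y) ^ 8 +
      (34605782693556041992208/332150625) * (y - (23/20)) ^ 6 * ((13/10) - y) ^ 7 +
      (45112528859683175390816/332150625) * (y - (23/20)) ^ 7 * ((13/10) - y) ^ 6 +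
      (14452647122200564410608/110716875) * (y - (23/20)) ^ 8 * ((13/10) - y) ^ 5 +
      (18253324361894156995616/199290375) * (y - (23/20)) ^ 9 * ((13/10) - y) ^ 4 +
      (45536044649100652776064/996451875) * (y - (23/20)) ^ 10 * ((13/10) - y) ^ 3 +
      (5108218217206237422848/332150625) * (y - (23/20)) ^ 11 * ((13/10) - y) ^ 2 +
      (3122282955061895842048/996451875) * (y - (23/20)) ^ 12 * ((13/10) - y) ^ 1 +
      (291196746760349128192/996451875) * (y - (23/20)) ^ 13 * ((13/10) - y) ^ 0 := by ring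
  rw [e]
  generalize y - (23/20) = u at *
  generalize (13/10) - y = w at *
  positivity

lemma tpR {y : ℝ} (h0 : 1 ≤ y) (h1 : y ≤ 13 / 10) :
    0 ≤ ((3659/10000) + (371/5000) * y ^ 5) * (1 + y + y ^ 2 + y ^ 3 + y ^ 4) ^ 2 - (4 + 3 * y + 2 * y ^ 2 + y ^ 3) * y ^ 5 := by
  rcases le_total y (23/20) with hy | hy
  · have hu : 0 ≤ y - 1 := by linarith
    have hw : 0 ≤ (23/20) - y := by linarith
    have e : ((3659/10000) + (371/5000) * y ^ 5) * (1 + y + y ^ 2 + y ^ 3 + y ^ 4) ^ 2 - (4 + 3 * y + 2 * y ^ 2 + y ^ 3) * y ^ 5 =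
      (82124800000000000/1594323) * (y - 1) ^ 0 * ((23/20) - y) ^ 13 +
      (985108480000000000/1594323) * (y - 1) ^ 1 * ((23/20) - y) ^ 12 +
      (1798227968000000000/531441) * (y - 1) ^ 2 * ((23/20) - y) ^ 11 +
      (17826149632000000000/1594323) * (y - 1) ^ 3 * ((23/20) - y) ^ 10 +
      (39567309171712000000/1594323) * (y - 1) ^ 4 * ((23/20) - y) ^ 9 +
      (6902244380134400000/177147) * (y - 1) ^ 5 * ((23/20) - y) ^ 8 +
      (23570301584631680000/531441) * (y - 1) ^ 6 * ((23/20) - y) ^ 7 +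
      (19601077666670336000/531441) * (y - 1) ^ 7 * ((23/20) - y) ^ 6 +
      (3944184106452457280/177147) * (y - 1) ^ 8 * ((23/20) - y) ^ 5 +
      (15233252646530383840/1594323) * (y - 1) ^ 9 * ((23/20) - y) ^ 4 +
      (4467916279172166472/1594323) * (y - 1) ^ 10 * ((23/20) - y) ^ 3 +
      (1397182931668887478/2657205) * (y - 1) ^ 11 * ((23/20) - y) ^ 2 +
      (4506337966426059713/79716150) * (y - 1) ^ 12 * ((23/20) - y) ^ 1 +
      (22348437138185791133/7971615000) * (y - 1) ^ 13 * ((23/20) - y) ^ 0 := by ring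
    rw [e]
    generalize y - 1 = u at *
    generalize (23/20) - y = w at *
    positivity
  have hu : 0 ≤ y - (23/20) := by linarith
  have hw : 0 ≤ (13/10) - y := by linarith
  have e : ((3659/10000) + (371/5000) * y ^ 5) * (1 + y + y ^ 2 + y ^ 3 + y ^ 4) ^ 2 - (4 + 3 * y + 2 * y ^ 2 + y ^ 3) * y ^ 5 =
      (22348437138185791133/7971615000) * (y - (23/20)) ^ 0 * ((13/10) - y) ^ 13 +
      (65212784475112299079/3985807500) * (y - (23/20)) ^ 1 * ((13/10) - y) ^ 12 +
      (14543752612420248179/332150625) * (y - (23/20)) ^ 2 * ((13/10) - y) ^ 11 +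
      (255049244100856859638/996451875) * (y - (23/20)) ^ 3 * ((13/10) - y) ^ 10 +
      (351650224668998713838/199290375) * (y - (23/20)) ^ 4 * ((13/10) - y) ^ 9 +
      (786146906122540075076/110716875) * (y - (23/20)) ^ 5 * ((13/10) - y) ^ 8 +
      (5877367900785472411808/332150625) * (y - (23/20)) ^ 6 * ((13/10) - y) ^ 7 +
      (9778583317091124910016/332150625) * (y - (23/20)) ^ 7 * ((13/10) - y) ^ 6 +
      (3761146801506500410208/110716875) * (y - (23/20)) ^ 8 * ((13/10) - y) ^ 5 +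
      (5474272140134263274816/199290375) * (y - (23/20)) ^ 9 * ((13/10) - y) ^ 4 +
      (15293044716542006212864/996451875) * (y - (23/20)) ^ 10 * ((13/10) - y) ^ 3 +
      (1881506724771745960448/332150625) * (y - (23/20)) ^ 11 * ((13/10) - y) ^ 2 +
      (1241704603643315419648/996451875) * (y - (23/20)) ^ 12 * ((13/10) - y) ^ 1 +
      (123544750342419438592/996451875) * (y - (23/20)) ^ 13 * ((13/10) - y) ^ 0 := by ring
  rw [e]
  generalize y - (23/20) = u at *
  generalize (13/10) - y = w at *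
  positivity

lemma tpS {y : ℝ} (h0 : 1 ≤ y) (h1 : y ≤ 13 / 10) :
    0 ≤ ((21/50) + (53/1000) * y ^ 5) * (1 + y + y ^ 2 + y ^ 3 + y ^ 4) ^ 2 - (4 + 3 * y + 2 * y ^ 2 + y ^ 3) * y ^ 5 := by
  rcases le_total y (23/20) with hy | hy
  · have hu : 0 ≤ y - 1 := by linarith
    have hw : 0 ≤ (23/20) - y := by linarith
    have e : ((21/50) + (53/1000) * y ^ 5) * (1 + y + y ^ 2 + y ^ 3 + y ^ 4) ^ 2 - (4 + 3 * y + 2 * y ^ 2 + y ^ 3) * y ^ 5 =
      (149504000000000000/1594323) * (y - 1) ^ 0 * ((23/20) - y) ^ 13 +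
      (1868902400000000000/1594323) * (y - 1) ^ 1 * ((23/20) - y) ^ 12 +
      (3575818240000000000/531441) * (y - 1) ^ 2 * ((23/20) - y) ^ 11 +
      (37415767040000000000/1594323) * (y - 1) ^ 3 * ((23/20) - y) ^ 10 +
      (88416062773760000000/1594323) * (y - 1) ^ 4 * ((23/20) - y) ^ 9 +
      (16596849611392000000/177147) * (y - 1) ^ 5 * ((23/20) - y) ^ 8 +
      (61816341868230400000/531441) * (y - 1) ^ 6 * ((23/20) - y) ^ 7 +
      (57047478322108480000/531441) * (y - 1) ^ 7 * ((23/20) - y) ^ 6 +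
      (13029070701601974400/177147) * (y - 1) ^ 8 * ((23/20) - y) ^ 5 +
      (58833858986033909600/1594323) * (y - 1) ^ 9 * ((23/20) - y) ^ 4 +
      (20977207119394475480/1594323) * (y - 1) ^ 10 * ((23/20) - y) ^ 3 +
      (1674749324920531354/531441) * (y - 1) ^ 11 * ((23/20) - y) ^ 2 +
      (7231118648932419959/15943230) * (y - 1) ^ 12 * ((23/20) - y) ^ 1 +
      (47144527507827913019/1594323000) * (y - 1) ^ 13 * ((23/20) - y) ^ 0 := by ring
    rw [e]
    generalize y - 1 = u at *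
    generalize (23/20) - y = w at *
    positivity
  rcases le_total y (49/40) with hy | hy
  · have hu : 0 ≤ y - (23/20) := by linarith
    have hw : 0 ≤ (49/40) - y := by linarith
    have e : ((21/50) + (53/1000) * y ^ 5) * (1 + y + y ^ 2 + y ^ 3 + y ^ 4) ^ 2 - (4 + 3 * y + 2 * y ^ 2 + y ^ 3) * y ^ 5 =
      (48275996168015782931456/199290375) * (y - (23/20)) ^ 0 * ((49/40) - y) ^ 13 +
      (571148650450967865262592/199290375) * (y - (23/20)) ^ 1 * ((49/40) - y) ^ 12 +
      (1031481954056539916709376/66430125) * (y - (23/20)) ^ 2 * ((49/40) - y) ^ 11 +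
      (10156104923724739498767104/199290375) * (y - (23/20)) ^ 3 * ((49/40) - y) ^ 10 +
      (4500623693583165859064128/39858075) * (y - (23/20)) ^ 4 * ((49/40) - y) ^ 9 +
      (3944408373147407240087392/22143375) * (y - (23/20)) ^ 5 * ((49/40) - y) ^ 8 +
      (13652908868497334512159552/66430125) * (y - (23/20)) ^ 6 * ((49/40) - y) ^ 7 +
      (11644779612650506129964128/66430125) * (y - (23/20)) ^ 7 * ((49/40) - y) ^ 6 +
      (2442738221146081317355348/22143375) * (y - (23/20)) ^ 8 * ((49/40) - y) ^ 5 +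
      (2012615254092214090219222/39858075) * (y - (23/20)) ^ 9 * ((49/40) - y) ^ 4 +
      (3251871291029004196350266/199290375) * (y - (23/20)) ^ 10 * ((49/40) - y) ^ 3 +
      (234214911469282975013209/66430125) * (y - (23/20)) ^ 11 * ((49/40) - y) ^ 2 +
      (365539116976961300945327/797161500) * (y - (23/20)) ^ 12 * ((49/40) - y) ^ 1 +
      (43825736085075698893237/1594323000) * (y - (23/20)) ^ 13 * ((49/40) - y) ^ 0 := by ring
    rw [e]
    generalize y - (23/20) = u at *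
    generalize (49/40) - y = w at *
    positivity
  have hu : 0 ≤ y - (49/40) := by linarith
  have hw : 0 ≤ (13/10) - y := by linarith
  have e : ((21/50) + (53/1000) * y ^ 5) * (1 + y + y ^ 2 + y ^ 3 + y ^ 4) ^ 2 - (4 + 3 * y + 2 * y ^ 2 + y ^ 3) * y ^ 5 =
      (43825736085075698893237/1594323000) * (y - (49/40)) ^ 0 * ((13/10) - y) ^ 13 +
      (102097726064511392333377/398580750) * (y - (49/40)) ^ 1 * ((13/10) - y) ^ 12 +
      (72871246621344458734636/66430125) * (y - (49/40)) ^ 2 * ((13/10) - y) ^ 11 +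
      (614891665795876175595728/199290375) * (y - (49/40)) ^ 3 * ((13/10) - y) ^ 10 +
      (288216630280605406838752/39858075) * (y - (49/40)) ^ 4 * ((13/10) - y) ^ 9 +
      (350264851412298222603136/22143375) * (y - (49/40)) ^ 5 * ((13/10) - y) ^ 8 +
      (2004878678266880326100992/66430125) * (y - (49/40)) ^ 6 * ((13/10) - y) ^ 7 +
      (2996821384348517616787456/66430125) * (y - (49/40)) ^ 7 * ((13/10) - y) ^ 6 +
      (1102869160656208174538752/22143375) * (y - (49/40)) ^ 8 * ((13/10) - y) ^ 5 +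
      (1571410827888860260827136/39858075) * (y - (49/40)) ^ 9 * ((13/10) - y) ^ 4 +
      (4329226955564791053418496/199290375) * (y - (49/40)) ^ 10 * ((13/10) - y) ^ 3 +
      (525977505745196834357248/66430125) * (y - (49/40)) ^ 11 * ((13/10) - y) ^ 2 +
      (342477164454921667346432/199290375) * (y - (49/40)) ^ 12 * ((13/10) - y) ^ 1 +
      (33562707739661620477952/199290375) * (y - (49/40)) ^ 13 * ((13/10) - y) ^ 0 := by ring
  rw [e]
  generalize y - (49/40) = u at *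
  generalize (13/10) - y = w at *
  positivity



lemma hm5_eq' {k : ℝ} (hk : 0 ≤ k) (hk1 : 1 + k ≤ 7 / 2) :
    ∃ y : ℝ, 1 ≤ y ∧ y ≤ 13 / 10 ∧ y ^ 5 = 1 + k ∧ hm 5 k = y ^ 5 - 5 * y + 4 := by
  have h : ((1 + k) ^ ((1 : ℝ) / (5 : ℕ))) ^ 5 = 1 + k := by
    rw [one_div, Real.rpow_inv_natCast_pow (by linarith) (by norm_num)]
  refine ⟨(1 + k) ^ ((1 : ℝ) / (5 : ℕ)), Real.one_le_rpow (by linarith) (by norm_num), ?_, h, ?_⟩
  · refine le_of_pow_le_pow_left₀ (n := 5) (by norm_num) (by norm_num) ?_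
    rw [h]; norm_num; linarith
  · rw [h]
    unfold hm
    push_cast
    ring

lemma tan_of_poly' {c0 c1 : ℝ}
    (hp : ∀ y : ℝ, 1 ≤ y → y ≤ 13 / 10 → 0 ≤ (c1 + c0 * y ^ 5) * (1 + y + y ^ 2 + y ^ 3 + y ^ 4) ^ 2 -
      (4 + 3 * y + 2 * y ^ 2 + y ^ 3) * y ^ 5) {k : ℝ} (hk : 0 ≤ k) (hk1 : 1 + k ≤ 7 / 2) :
    hm 5 k * (1 + k) ≤ k ^ 2 * (c1 + c0 * (1 + k)) := by
  obtain ⟨y, h0, h1, h5, hh⟩ := hm5_eq' hk hk1
  rw [hh, ← h5]
  have hjy : k = y ^ 5 - 1 := by linarith
  have key := mul_nonneg (sq_nonneg (y - 1)) (hp y h0 h1)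
  rw [hjy]
  nlinarith [key]


lemma tkA {k : ℝ} (hk : 0 ≤ k) (hk1 : 1 + k ≤ 7 / 2) :
    hm 5 k * (1 + k) ≤ k ^ 2 * ((6/25) + (4/25) * (1 + k)) :=
  tan_of_poly' (fun _ h0 h1 => tpA h0 h1) hk hk1

lemma tkP {k : ℝ} (hk : 0 ≤ k) (hk1 : 1 + k ≤ 7 / 2) :
    hm 5 k * (1 + k) ≤ k ^ 2 * ((1397/5000) + (157/1250) * (1 + k)) :=
  tan_of_poly' (fun _ h0 h1 => tpP h0 h1) hk hk1

lemma tkQ {k : ℝ} (hk : 0 ≤ k) (hk1 : 1 + k ≤ 7 / 2) :
    hm 5 k * (1 + k) ≤ k ^ 2 * ((403/1250) + (967/10000) * (1 + k)) :=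
  tan_of_poly' (fun _ h0 h1 => tpQ h0 h1) hk hk1

lemma tkR {k : ℝ} (hk : 0 ≤ k) (hk1 : 1 + k ≤ 7 / 2) :
    hm 5 k * (1 + k) ≤ k ^ 2 * ((3659/10000) + (371/5000) * (1 + k)) :=
  tan_of_poly' (fun _ h0 h1 => tpR h0 h1) hk hk1

lemma tkS {k : ℝ} (hk : 0 ≤ k) (hk1 : 1 + k ≤ 7 / 2) :
    hm 5 k * (1 + k) ≤ k ^ 2 * ((21/50) + (53/1000) * (1 + k)) :=
  tan_of_poly' (fun _ h0 h1 => tpS h0 h1) hk hk1


/-! ### two-variable inequalities -/

lemma box5A {q D B u z kM : ℝ} (hq : 0 < q) (hB : 0 ≤ B) (hz : 0 ≤ z) (h1 : z * kM ≤ u)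
    (h2 : 0 ≤ D - B * kM) {t k : ℝ} (ht : 0 < t) (hk : 0 ≤ k) (hkM : k ≤ kM) :
    0 < q * (1 + k) * t ^ 2 + (u * k - z * k ^ 2) * t + k ^ 2 * (D - B * k) := by
  have a1 : 0 ≤ u * k - z * k ^ 2 := by
    have : z * k ≤ z * kM := mul_le_mul_of_nonneg_left hkM hz
    have : 0 ≤ (u - z * k) * k := mul_nonneg (by linarith) hk
    linarith
  have a2 : 0 ≤ D - B * k := by
    have : B * k ≤ B * kM := mul_le_mul_of_nonneg_left hkM hB
    linarith
  have a3 : 0 < q * (1 + k) * t ^ 2 := by positivity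
  have a4 : 0 ≤ (u * k - z * k ^ 2) * t := mul_nonneg a1 ht.le
  have a5 : 0 ≤ k ^ 2 * (D - B * k) := mul_nonneg (sq_nonneg k) a2
  linarith

lemma box5B {q D B u z kM : ℝ} (hq : 0 < q) (hB : 0 ≤ B) (hkM0 : 0 < kM)
    (h1 : u ^ 2 < 4 * q * D) (h2 : (z * kM - u) ^ 2 < 4 * q * (1 + kM) * (D - B * kM))
    {t k : ℝ} (ht : 0 < t) (hk : 0 ≤ k) (hkM : k ≤ kM) :
    0 < q * (1 + k) * t ^ 2 + (u * k - z * k ^ 2) * t + k ^ 2 * (D - B * k) := by
  have hf : 0 < 4 * q * (1 + k) * (D - B * k) - (z * k - u) ^ 2 := by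
    have e : kM * (4 * q * (1 + k) * (D - B * k) - (z * k - u) ^ 2) =
        (kM - k) * (4 * q * D - u ^ 2) + k * (4 * q * (1 + kM) * (D - B * kM) - (z * kM - u) ^ 2) +
          (4 * q * B + z ^ 2) * (k * (kM - k) * kM) := by ring
    have a1 : 0 ≤ (4 * q * B + z ^ 2) * (k * (kM - k) * kM) := by
      have : 0 ≤ kM - k := by linarith
      positivity
    have a2 : 0 < kM * (4 * q * (1 + k) * (D - B * k) - (z * k - u) ^ 2) := by
      rw [e]
      rcases eq_or_lt_of_le hk with h | h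
      · rw [← h]
        have := mul_pos hkM0 (show 0 < 4 * q * D - u ^ 2 by linarith)
        simp
        linarith
      · have b1 := mul_pos h (show 0 < 4 * q * (1 + kM) * (D - B * kM) - (z * kM - u) ^ 2 by linarith)
        have b2 := mul_nonneg (show 0 ≤ kM - k by linarith) (show 0 ≤ 4 * q * D - u ^ 2 by linarith)
        linarith
    exact (mul_pos_iff_of_pos_left hkM0).1 a2
  have e : 4 * q * (1 + k) * (q * (1 + k) * t ^ 2 + (u * k - z * k ^ 2) * t + k ^ 2 * (D - B * k)) =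
      (2 * q * (1 + k) * t + (u * k - z * k ^ 2)) ^ 2 +
        k ^ 2 * (4 * q * (1 + k) * (D - B * k) - (z * k - u) ^ 2) := by ring
  have hpos : 0 < 4 * q * (1 + k) * (q * (1 + k) * t ^ 2 + (u * k - z * k ^ 2) * t + k ^ 2 * (D - B * k)) := by
    rw [e]
    rcases eq_or_lt_of_le hk with h | h
    · rw [← h]; simp; positivity
    · have := mul_pos (pow_pos h 2) hf
      have := sq_nonneg (2 * q * (1 + k) * t + (u * k - z * k ^ 2))
      linarith
  exact (mul_pos_iff_of_pos_left (by positivity)).1 hpos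

lemma cubic_pos {A0 A1 A2 A3 a b : ℝ} (hab : a < b)
    (b0 : 0 < A0 + A1 * a + A2 * a ^ 2 + A3 * a ^ 3)
    (b1 : 0 < 3 * (A0 + A1 * a + A2 * a ^ 2 + A3 * a ^ 3) + (b - a) * (A1 + 2 * A2 * a + 3 * A3 * a ^ 2))
    (b2 : 0 < 3 * (A0 + A1 * b + A2 * b ^ 2 + A3 * b ^ 3) - (b - a) * (A1 + 2 * A2 * b + 3 * A3 * b ^ 2))
    (b3 : 0 < A0 + A1 * b + A2 * b ^ 2 + A3 * b ^ 3) {x : ℝ} (hx : a ≤ x) (hx' : x ≤ b) :
    0 < A0 + A1 * x + A2 * x ^ 2 + A3 * x ^ 3 := by
  have hu : 0 ≤ x - a := by linarith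
  have hw : 0 ≤ b - x := by linarith
  have hba : 0 < b - a := by linarith
  have e : (b - a) ^ 3 * (A0 + A1 * x + A2 * x ^ 2 + A3 * x ^ 3) =
      (A0 + A1 * a + A2 * a ^ 2 + A3 * a ^ 3) * (b - x) ^ 3 +
      (3 * (A0 + A1 * a + A2 * a ^ 2 + A3 * a ^ 3) + (b - a) * (A1 + 2 * A2 * a + 3 * A3 * a ^ 2)) *
        ((b - x) ^ 2 * (x - a)) +
      (3 * (A0 + A1 * b + A2 * b ^ 2 + A3 * b ^ 3) - (b - a) * (A1 + 2 * A2 * b + 3 * A3 * b ^ 2)) *
        ((b - x) * (x - a) ^ 2) +
      (A0 + A1 * b + A2 * b ^ 2 + A3 * b ^ 3) * (x - a) ^ 3 := by ring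
  have hpos : 0 < (b - a) ^ 3 * (A0 + A1 * x + A2 * x ^ 2 + A3 * x ^ 3) := by
    rw [e]
    have c1 := mul_nonneg b1.le (mul_nonneg (pow_nonneg hw 2) hu)
    have c2 := mul_nonneg b2.le (mul_nonneg hw (pow_nonneg hu 2))
    rcases eq_or_lt_of_le hu with h | h
    · have hb : 0 < b - x := by linarith
      have c0 := mul_pos b0 (pow_pos hb 3)
      have c3 := mul_nonneg b3.le (pow_nonneg hu 3)
      linarith
    · have c0 := mul_nonneg b0.le (pow_nonneg hw 3)
      have c3 := mul_pos b3 (pow_pos h 3)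
      linarith
  exact (mul_pos_iff_of_pos_left (pow_pos hba 3)).1 hpos

/-- hazard version: `t ≤ (5/2 - k)/7` -/
lemma box5C {q D B u z k0 kM : ℝ} (hq : 0 < q) (hB : 0 ≤ B) (hz : 0 ≤ z) (hk00 : 0 < k0) (hk0M : k0 < kM)
    (h1 : u ^ 2 < 4 * q * D) (h2 : (z * k0 - u) ^ 2 < 4 * q * (1 + k0) * (D - B * k0))
    (h3 : 2 * q * (1 + k0) * (5 / 2 - k0) / 7 ≤ z * k0 ^ 2 - u * k0)
    (b0 : 0 < q * (1 + k0) * (5 / 2 - k0) ^ 2 / 49 + (u * k0 - z * k0 ^ 2) * (5 / 2 - k0) / 7 +
      k0 ^ 2 * (D - B * k0))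
    (b1 : 0 < 3 * (25 * q / 196 + (5 * q / 196 + 5 * u / 14) * k0 + (-(4 * q) / 49 - u / 7 - 5 * z / 14 + D) * k0 ^ 2 +
        (q / 49 + z / 7 - B) * k0 ^ 3) +
      (kM - k0) * ((5 * q / 196 + 5 * u / 14) + 2 * (-(4 * q) / 49 - u / 7 - 5 * z / 14 + D) * k0 +
        3 * (q / 49 + z / 7 - B) * k0 ^ 2))
    (b2 : 0 < 3 * (25 * q / 196 + (5 * q / 196 + 5 * u / 14) * kM + (-(4 * q) / 49 - u / 7 - 5 * z / 14 + D) * kM ^ 2 +
        (q / 49 + z / 7 - B) * kM ^ 3) -
      (kM - k0) * ((5 * q / 196 + 5 * u / 14) + 2 * (-(4 * q) / 49 - u / 7 - 5 * z / 14 + D) * kM +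
        3 * (q / 49 + z / 7 - B) * kM ^ 2))
    (b3 : 0 < 25 * q / 196 + (5 * q / 196 + 5 * u / 14) * kM + (-(4 * q) / 49 - u / 7 - 5 * z / 14 + D) * kM ^ 2 +
        (q / 49 + z / 7 - B) * kM ^ 3)
    {t k : ℝ} (ht : 0 < t) (hk : 0 ≤ k) (hkM : k ≤ kM) (htk : 1 + k ≤ 7 / 2 * (1 - 2 * t)) :
    0 < q * (1 + k) * t ^ 2 + (u * k - z * k ^ 2) * t + k ^ 2 * (D - B * k) := by
  rcases le_total k k0 with h | h
  · exact box5B hq hB hk00 h1 h2 ht hk h
  · set tb := (5 / 2 - k) / 7 with htb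
    have htt : t ≤ tb := by rw [htb]; linarith
    have hk3 : 2 * q * (1 + k) * (5 / 2 - k) / 7 ≤ z * k ^ 2 - u * k := by
      have e : k0 * (z * k ^ 2 - u * k - 2 * q * (1 + k) * (5 / 2 - k) / 7) =
          k * (z * k0 ^ 2 - u * k0 - 2 * q * (1 + k0) * (5 / 2 - k0) / 7) +
          (z + 2 * q / 7) * (k0 * k * (k - k0)) + 5 * q / 7 * (k - k0) := by ring
      have a1 := mul_nonneg hk (show 0 ≤ z * k0 ^ 2 - u * k0 - 2 * q * (1 + k0) * (5 / 2 - k0) / 7 by linarith)
      have a2 : 0 ≤ (z + 2 * q / 7) * (k0 * k * (k - k0)) := by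
        have : 0 ≤ k - k0 := by linarith
        positivity
      have a3 : 0 ≤ 5 * q / 7 * (k - k0) := by
        have : 0 ≤ k - k0 := by linarith
        positivity
      have a4 : 0 ≤ k0 * (z * k ^ 2 - u * k - 2 * q * (1 + k) * (5 / 2 - k) / 7) := by rw [e]; linarith
      have a5 := (mul_nonneg_iff_of_pos_left hk00).1 a4
      linarith
    have hmono : q * (1 + k) * tb ^ 2 + (u * k - z * k ^ 2) * tb + k ^ 2 * (D - B * k) ≤
        q * (1 + k) * t ^ 2 + (u * k - z * k ^ 2) * t + k ^ 2 * (D - B * k) := by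
      have a6 : q * (1 + k) * (t + tb) ≤ z * k ^ 2 - u * k := by
        have a7 : q * (1 + k) * (t + tb) ≤ q * (1 + k) * (2 * tb) :=
          mul_le_mul_of_nonneg_left (by linarith) (by positivity)
        have a8 : q * (1 + k) * (2 * tb) = 2 * q * (1 + k) * (5 / 2 - k) / 7 := by rw [htb]; ring
        linarith
      have := mul_nonneg (show 0 ≤ tb - t by linarith) (show 0 ≤ z * k ^ 2 - u * k - q * (1 + k) * (t + tb) by linarith)
      linarith
    refine lt_of_lt_of_le ?_ hmono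
    have e : q * (1 + k) * tb ^ 2 + (u * k - z * k ^ 2) * tb + k ^ 2 * (D - B * k) =
        25 * q / 196 + (5 * q / 196 + 5 * u / 14) * k + (-(4 * q) / 49 - u / 7 - 5 * z / 14 + D) * k ^ 2 +
        (q / 49 + z / 7 - B) * k ^ 3 := by rw [htb]; ring
    rw [e]
    refine cubic_pos hk0M ?_ b1 b2 b3 h hkM
    have e0 : 25 * q / 196 + (5 * q / 196 + 5 * u / 14) * k0 + (-(4 * q) / 49 - u / 7 - 5 * z / 14 + D) * k0 ^ 2 +
        (q / 49 + z / 7 - B) * k0 ^ 3 = q * (1 + k0) * (5 / 2 - k0) ^ 2 / 49 +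
        (u * k0 - z * k0 ^ 2) * (5 / 2 - k0) / 7 + k0 ^ 2 * (D - B * k0) := by ring
    rw [e0]; exact b0

/-! ### reduction of `PP` -/

lemma core5 {lm s l k c0 c1 aL q D B u z W e0 : ℝ} (hs : s ∈ Ioo (0 : ℝ) 1) (hl : 0 < l) (hk : 0 ≤ k)
    (htan : hm 5 k * (1 + k) ≤ k ^ 2 * (c1 + c0 * (1 + k))) (hc0 : 0 ≤ c0) (hc1 : 0 ≤ c1)
    (ha : aL ≤ aq s)
    (he : ∃ e1, 0 ≤ e1 ∧ Real.exp (l / 5) ≤ e0 + e1 * l ∧ 27 / 16 * e1 * (l * k) ≤ W * (Y s * l))
    (hq : q * (Y s * l) ^ 2 ≤ 27 / 40 * (Y s * l ^ 2) + 2 * (Y s * l) ^ 2 + cR s l)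
    (hD : D ≤ aL - 27 / 16 * e0 * (c0 + c1) - 3 / 14) (hB : 3 / 14 + 27 / 16 * e0 * c0 ≤ B)
    (hu : u ≤ 1 - W * (c0 + c1)) (hz : 2 + W * c0 ≤ z)
    (hF : 0 < q * (1 + k) * (Y s * l) ^ 2 + (u * k - z * k ^ 2) * (Y s * l) + k ^ 2 * (D - B * k)) :
    0 < PP 5 (27 / 16) 3 1 0 lm s l k := by
  obtain ⟨e1, he1, hexp', hlk⟩ := he
  have hY := Y_nonneg hs
  have hG := Gm5_lower hl.le
  have h1k : 0 < 1 + k := by linarith
  set K := k ^ 2 / (1 + k) with hK
  have hKK : KK k = K := rfl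
  have hKj : K * (1 + k) = k ^ 2 := by rw [hK]; field_simp
  have hexp := Real.exp_pos (l / 5)
  have hHH : 0 ≤ k ^ 2 * (c1 + c0 * (1 + k)) := by positivity
  have hh : Real.exp (l / 5) * (hm 5 k * (1 + k)) ≤ (e0 + e1 * l) * (k ^ 2 * (c1 + c0 * (1 + k))) := by
    calc Real.exp (l / 5) * (hm 5 k * (1 + k)) ≤ Real.exp (l / 5) * (k ^ 2 * (c1 + c0 * (1 + k))) :=
          mul_le_mul_of_nonneg_left htan hexp.le
      _ ≤ (e0 + e1 * l) * (k ^ 2 * (c1 + c0 * (1 + k))) := mul_le_mul_of_nonneg_right hexp' hHH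
  have hYG : Y s * (l ^ 2 / 10) ≤ Y s * Gm 5 l := mul_le_mul_of_nonneg_left hG hY
  have hPP : PP 5 (27 / 16) 3 1 0 lm s l k = 27 / 16 * (4 * (Y s * Gm 5 l) - Real.exp (l / 5) * hm 5 k) +
      (aq s * K - 3 * (Y s * l) * K) + (Y s * l) * k + 2 * (Y s * l) ^ 2 + cR s l - 3 / 14 * k ^ 2 := by
    unfold PP
    rw [hKK]
    push_cast
    ring
  have hmul : 0 < (1 + k) * PP 5 (27 / 16) 3 1 0 lm s l k := by
    rw [hPP]
    have e : (1 + k) * (27 / 16 * (4 * (Y s * Gm 5 l) - Real.exp (l / 5) * hm 5 k) +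
      (aq s * K - 3 * (Y s * l) * K) + (Y s * l) * k + 2 * (Y s * l) ^ 2 + cR s l - 3 / 14 * k ^ 2) =
      (1 + k) * (27 / 4 * (Y s * Gm 5 l) + 2 * (Y s * l) ^ 2 + cR s l) -
      27 / 16 * (Real.exp (l / 5) * (hm 5 k * (1 + k))) + aq s * (K * (1 + k)) -
      3 * (Y s * l) * (K * (1 + k)) + (Y s * l) * k * (1 + k) - 3 / 14 * k ^ 2 * (1 + k) := by ring
    rw [e, hKj]
    have a1 : (1 + k) * (q * (Y s * l) ^ 2) ≤ (1 + k) * (27 / 4 * (Y s * Gm 5 l) + 2 * (Y s * l) ^ 2 + cR s l) :=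
      mul_le_mul_of_nonneg_left (by linarith) h1k.le
    have a2 : aL * k ^ 2 ≤ aq s * k ^ 2 := mul_le_mul_of_nonneg_right ha (sq_nonneg k)
    have a3 : 27 / 16 * e1 * (l * k) * (k * (c1 + c0 * (1 + k))) ≤ W * (Y s * l) * (k * (c1 + c0 * (1 + k))) :=
      mul_le_mul_of_nonneg_right hlk (by positivity)
    have a4 : D * k ^ 2 ≤ (aL - 27 / 16 * e0 * (c0 + c1) - 3 / 14) * k ^ 2 :=
      mul_le_mul_of_nonneg_right hD (sq_nonneg k)
    have a5 : (3 / 14 + 27 / 16 * e0 * c0) * k ^ 3 ≤ B * k ^ 3 := mul_le_mul_of_nonneg_right hB (by positivity)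
    have ht0 : 0 ≤ Y s * l := mul_nonneg hY hl.le
    have a6 : u * (k * (Y s * l)) ≤ (1 - W * (c0 + c1)) * (k * (Y s * l)) :=
      mul_le_mul_of_nonneg_right hu (by positivity)
    have a7 : (2 + W * c0) * (k ^ 2 * (Y s * l)) ≤ z * (k ^ 2 * (Y s * l)) :=
      mul_le_mul_of_nonneg_right hz (by positivity)
    nlinarith
  exact (mul_pos_iff_of_pos_left h1k).1 hmul

/-! ### boxes -/

/-- common numerical side conditions -/
structure Cst5 (clo chi vM EM XM q aL : ℝ) : Prop where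
  clo0 : 0 ≤ clo
  v0 : 0 ≤ vM
  kX : (2 + EM) * ((1 + clo) * (1 + clo * vM) - clo ^ 2 * (1 + vM)) ≤
      XM * ((1 + vM) ^ 2 * ((1 + clo) * (1 + clo * vM)))
  kq1 : (q - 2) * (1 - clo ^ 2) ≤ (27 / 40 - XM) * clo ^ 2
  kq2 : (q - 2) * (1 - chi ^ 2) ≤ (27 / 40 - XM) * chi ^ 2
  ka : 2 * chi ^ 2 ≤ (2 - aL) * (1 + chi)

/-- the geometric data of a box: conclusions used by `core5` -/
lemma geo {clo chi vM EM XM q aL : ℝ} (k : Cst5 clo chi vM EM XM q aL) {s l : ℝ}
    (hs : s ∈ Ioo (0 : ℝ) 1) (hl : 0 < l) (hT : s * Real.exp l ≤ 1)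
    (hc : clo ≤ cc s) (hc' : cc s ≤ chi)
    (hC : vM * cc s ≤ cc (s * Real.exp l)) (hE : Real.exp (2 * l) - 1 ≤ EM) :
    aL ≤ aq s ∧ q * (Y s * l) ^ 2 ≤ 27 / 40 * (Y s * l ^ 2) + 2 * (Y s * l) ^ 2 + cR s l := by
  have hcp := cc_pos' hs
  have hc2 := cc_sq' hs
  have hc1 : cc s < 1 := by nlinarith [pow_pos hs.1 2]
  have hE0 : 0 ≤ Real.exp (2 * l) - 1 := by
    have := Real.add_one_le_exp (2 * l); linarith
  have hY : Y s = (1 - cc s ^ 2) / cc s ^ 2 := by unfold Y; rw [hc2]; ring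
  have hYp : 0 < Y s := by rw [hY]; exact div_pos (by nlinarith) (by positivity)
  constructor
  · unfold aq
    rw [le_sub_comm, div_le_iff₀ (by linarith)]
    have h1 : 2 * cc s ^ 2 * (1 + chi) ≤ 2 * chi ^ 2 * (1 + cc s) := by
      have e : 2 * chi ^ 2 * (1 + cc s) - 2 * cc s ^ 2 * (1 + chi) =
        2 * (chi - cc s) * (chi + cc s + chi * cc s) := by ring
      have h0 : 0 ≤ 2 * (chi - cc s) * (chi + cc s + chi * cc s) := by
        have h2 : 0 ≤ chi := le_trans hcp.le hc'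
        have h3 : 0 ≤ chi - cc s := by linarith
        positivity
      linarith
    have h2 : 0 < 1 + chi := by linarith
    have h3 := mul_le_mul_of_nonneg_right k.ka (show 0 ≤ 1 + cc s by linarith)
    have h4 : (2 * cc s ^ 2) * (1 + chi) ≤ ((2 - aL) * (1 + cc s)) * (1 + chi) := by linarith
    exact le_of_mul_le_mul_right h4 h2
  · have hX : (1 + Real.exp (2 * l)) * cc s ^ 2 *
        ((1 + cc s) * (1 + cc (s * Real.exp l)) - cc s * (cc s + cc (s * Real.exp l))) ≤
        XM * ((cc s + cc (s * Real.exp l)) ^ 2 * ((1 + cc s) * (1 + cc (s * Real.exp l)))) := by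
      have h := X_bound hc k.clo0 hcp hc1 k.v0 hC hE hE0 k.kX
      have e : 2 + (Real.exp (2 * l) - 1) = 1 + Real.exp (2 * l) := by ring
      rwa [e] at h
    have hcR := cR_lower hs hl hT hX
    have hlin : (q - 2) * (1 - cc s ^ 2) ≤ (27 / 40 - XM) * cc s ^ 2 := by
      have h1 := k.kq1
      have h2 := k.kq2
      have b1 : clo ^ 2 ≤ cc s ^ 2 := pow_le_pow_left₀ k.clo0 hc 2
      have b2 : cc s ^ 2 ≤ chi ^ 2 := pow_le_pow_left₀ hcp.le hc' 2
      rcases le_total 0 (27 / 40 - XM + (q - 2)) with h | h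
      · nlinarith [mul_le_mul_of_nonneg_left b1 h]
      · nlinarith [mul_le_mul_of_nonpos_left b2 h]
    have hYq : (q - 2) * Y s ≤ 27 / 40 - XM := by
      rw [hY, ← mul_div_assoc, div_le_iff₀ (by positivity)]
      exact hlin
    have h3 := mul_le_mul_of_nonneg_right hYq (show 0 ≤ Y s * l ^ 2 by positivity)
    nlinarith

/-- data from `exp l ≤ U` -/
lemma geo1 {clo vM EM U : ℝ} (clo0 : 0 < clo) (k1 : U ^ 2 - 1 ≤ EM)
    (k2 : EM * (1 - clo ^ 2) ≤ (1 - vM ^ 2) * clo ^ 2) {s l : ℝ}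
    (hs : s ∈ Ioo (0 : ℝ) 1) (hT : s * Real.exp l ≤ 1) (hl : 0 < l)
    (hc : clo ≤ cc s) (hU : Real.exp l ≤ U) :
    vM * cc s ≤ cc (s * Real.exp l) ∧ Real.exp (2 * l) - 1 ≤ EM := by
  have hcp := cc_pos' hs
  have hc2 := cc_sq' hs
  have hc1 : cc s < 1 := by nlinarith [pow_pos hs.1 2]
  have hEE : Real.exp l ^ 2 = Real.exp (2 * l) := by rw [← Real.exp_nat_mul]; norm_num
  have hE : Real.exp (2 * l) - 1 ≤ EM := by
    rw [← hEE]
    have := pow_le_pow_left₀ (Real.exp_pos l).le hU 2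
    linarith
  have hE0 : 0 ≤ Real.exp (2 * l) - 1 := by
    have := Real.add_one_le_exp (2 * l); linarith
  refine ⟨?_, hE⟩
  have h1 := sq_cC hs hT
  have h2 : (vM * cc s) ^ 2 ≤ cc (s * Real.exp l) ^ 2 := by
    rw [h1, mul_pow]
    have b1 : clo ^ 2 ≤ cc s ^ 2 := pow_le_pow_left₀ clo0.le hc 2
    have h3 : (1 - cc s ^ 2) * (Real.exp (2 * l) - 1) ≤ (1 - cc s ^ 2) * EM :=
      mul_le_mul_of_nonneg_left hE (by nlinarith)
    have hEM0 : 0 ≤ EM := hE0.trans hE
    have hv2 : 0 ≤ 1 - vM ^ 2 := by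
      by_contra hneg
      rw [not_le] at hneg
      have a1 : (1 - vM ^ 2) * clo ^ 2 < 0 := mul_neg_of_neg_of_pos hneg (by positivity)
      have a2 : 0 ≤ EM * (1 - clo ^ 2) := mul_nonneg hEM0 (by nlinarith)
      linarith
    have h4 := mul_le_mul_of_nonneg_left b1 hv2
    have h5 := mul_le_mul_of_nonneg_left b1 hEM0
    nlinarith
  exact le_of_pow_le_pow_left₀ (n := 2) (by norm_num) (cc_nonneg _) h2

/-- data from `s exp l ≤ T` -/
lemma geo2 {chi vM EM T : ℝ} (v0 : 0 ≤ vM) (hT1 : T ≤ 1)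
    (k1 : vM ^ 2 * chi ^ 2 ≤ 1 - T ^ 2) (k2 : (1 - vM ^ 2) * chi ^ 2 ≤ EM * (1 - chi ^ 2))
    (k6 : chi < 1) (k8 : vM ≤ 1) {s l : ℝ}
    (hs : s ∈ Ioo (0 : ℝ) 1) (hc' : cc s ≤ chi) (hT : s * Real.exp l ≤ T) :
    vM * cc s ≤ cc (s * Real.exp l) ∧ Real.exp (2 * l) - 1 ≤ EM := by
  have hcp := cc_pos' hs
  have hc2 := cc_sq' hs
  have hT' : s * Real.exp l ≤ 1 := hT.trans hT1
  have hTp : 0 < s * Real.exp l := mul_pos hs.1 (Real.exp_pos _)
  have h1 := sq_cC hs hT'
  have hC2 : cc (s * Real.exp l) ^ 2 = 1 - (s * Real.exp l) ^ 2 := cc_sq ⟨by linarith, hT'⟩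
  have hs2 : 0 < 1 - cc s ^ 2 := by rw [hc2]; have := hs.1; nlinarith [pow_pos hs.1 2]
  have b2 : cc s ^ 2 ≤ chi ^ 2 := pow_le_pow_left₀ hcp.le hc' 2
  have hTT : (s * Real.exp l) ^ 2 ≤ T ^ 2 := pow_le_pow_left₀ hTp.le hT 2
  have hv2 : 0 ≤ 1 - vM ^ 2 := by nlinarith
  have hvc : vM ^ 2 * cc s ^ 2 ≤ cc (s * Real.exp l) ^ 2 := by
    have := mul_le_mul_of_nonneg_left b2 (sq_nonneg vM)
    linarith
  have hsE : (1 - cc s ^ 2) * (Real.exp (2 * l) - 1) ≤ (1 - vM ^ 2) * cc s ^ 2 := by linarith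
  constructor
  · refine le_of_pow_le_pow_left₀ (n := 2) (by norm_num) (cc_nonneg _) ?_
    rw [mul_pow]; exact hvc
  · have h3 : (1 - vM ^ 2) * cc s ^ 2 ≤ (1 - vM ^ 2) * chi ^ 2 := mul_le_mul_of_nonneg_left b2 hv2
    have hEM0 : 0 ≤ EM := by
      by_contra hneg
      rw [not_le] at hneg
      have hchi0 : 0 < chi := lt_of_lt_of_le hcp hc'
      have a1 : EM * (1 - chi ^ 2) < 0 := mul_neg_of_neg_of_pos hneg (by nlinarith)
      have a2 : 0 ≤ (1 - vM ^ 2) * chi ^ 2 := by positivity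
      linarith
    have h4 : EM * (1 - chi ^ 2) ≤ EM * (1 - cc s ^ 2) := mul_le_mul_of_nonneg_left (by linarith) hEM0
    have h5 : (1 - cc s ^ 2) * (Real.exp (2 * l) - 1) ≤ (1 - cc s ^ 2) * EM := by linarith
    exact le_of_mul_le_mul_left h5 hs2

lemma exp_type0 {l W t k eM : ℝ} (he : Real.exp (l / 5) ≤ eM) (hW : W = 0) :
    ∃ e1 : ℝ, 0 ≤ e1 ∧ Real.exp (l / 5) ≤ eM + e1 * l ∧ 27 / 16 * e1 * (l * k) ≤ W * t :=
  ⟨0, le_rfl, by simpa using he, by rw [hW]; simp⟩

lemma exp_type1 {s l W k chi slo : ℝ} (hs : s ∈ Ioo (0 : ℝ) 1) (hl : 0 < l)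
    (hl2 : Real.exp (2 * l) - 1 ≤ 1426 / 1000) (hkk : k * cc s ≤ 17 / 20 * s)
    (hslo : 0 < slo) (hslo' : slo ≤ s) (hc' : cc s ≤ chi)
    (hW : 27 / 16 * (21 / 100) * (17 / 20) * chi ≤ W * slo) :
    ∃ e1 : ℝ, 0 ≤ e1 ∧ Real.exp (l / 5) ≤ 1 + e1 * l ∧ 27 / 16 * e1 * (l * k) ≤ W * (Y s * l) := by
  have hcp := cc_pos' hs
  have hc2 := cc_sq' hs
  refine ⟨21 / 100, by norm_num, ?_, ?_⟩
  · have hl3 : l ≤ 9 / 20 := by
      by_contra hneg
      rw [not_le] at hneg
      have h1 : Real.exp (9 / 10) < Real.exp (2 * l) := Real.exp_lt_exp.2 (by linarith)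
      have h2 := Real.sum_le_exp_of_nonneg (x := 9 / 10) (by norm_num) 4
      simp [Finset.sum_range_succ, Nat.factorial] at h2
      norm_num at h2
      linarith
    have h := Real.exp_bound' (x := l / 5) (by positivity) (by linarith) (n := 3) (by norm_num)
    simp [Finset.sum_range_succ, Nat.factorial] at h
    norm_num at h
    have h5 : (l / 5) ^ 3 ≤ (9 / 100) * (l / 5) ^ 2 := by
      have : 0 ≤ (l / 5) ^ 2 * (9 / 100 - l / 5) := mul_nonneg (by positivity) (by linarith)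
      linarith
    have h6 : (l / 5) ^ 2 ≤ (9 / 100) * (l / 5) := by
      have : 0 ≤ (l / 5) * (9 / 100 - l / 5) := mul_nonneg (by positivity) (by linarith)
      linarith
    linarith
  · have hYs : Y s * cc s ^ 2 = s ^ 2 := by unfold Y; rw [hc2]; field_simp [ (one_sub_sq_pos hs).ne']
    have hW0 : 27 / 16 * (21 / 100) * (17 / 20) * cc s ≤ W * s := by
      have hWn : 0 ≤ W := by
        by_contra hneg
        rw [not_le] at hneg
        have a1 : W * slo < 0 := mul_neg_of_neg_of_pos hneg hslo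
        have a2 : 0 ≤ 27 / 16 * (21 / 100) * (17 / 20) * chi := by
          have : 0 < chi := lt_of_lt_of_le hcp hc'
          positivity
        linarith
      have := mul_le_mul_of_nonneg_left hslo' hWn
      linarith
    -- multiply by `c²`
    have hc2p : 0 < cc s ^ 2 := by positivity
    have h1 : (27 / 16 * (21 / 100) * k) * cc s ^ 2 ≤ (W * Y s) * cc s ^ 2 := by
      have e : (W * Y s) * cc s ^ 2 = (W * s) * s := by rw [mul_assoc, hYs]; ring
      rw [e]
      have a3 := mul_le_mul_of_nonneg_right hW0 hs.1.le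
      have a4 := mul_le_mul_of_nonneg_left hkk hcp.le
      nlinarith
    have h2 := le_of_mul_le_mul_right h1 hc2p
    have h3 := mul_le_mul_of_nonneg_right h2 hl.le
    linarith

/-- the hazard bound: `1 + k ≤ (7/2)(1 - 2 t)` -/
lemma haz_t {s l k : ℝ} (hs : s ∈ Ioo (0 : ℝ) 1) (hs' : 2 / 5 ≤ s) (hl : 0 < l) (hT : s * Real.exp l ≤ 1)
    (hk : 0 ≤ k) (hh : (1 + k) * (s * cc s ^ 2) ≤ (1 + 6 * s ^ 2) * (Real.exp (-l) - s)) :
    1 + k ≤ 7 / 2 * (1 - 2 * (Y s * l)) := by
  have hcp := cc_pos' hs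
  have hc2 := cc_sq' hs
  have hTp : 0 < s * Real.exp l := mul_pos hs.1 (Real.exp_pos _)
  have h1 := sq_cC hs hT
  have hC2 : cc (s * Real.exp l) ^ 2 = 1 - (s * Real.exp l) ^ 2 := cc_sq ⟨by linarith, hT⟩
  have hsT : s ≤ s * Real.exp l := by
    have := Real.one_le_exp hl.le
    nlinarith [hs.1]
  -- `(e^{-l} - s) T = s (1 - T)`
  have e1 : (Real.exp (-l) - s) * (s * Real.exp l) = s * (1 - s * Real.exp l) := by
    have : Real.exp (-l) * Real.exp l = 1 := by rw [← Real.exp_add]; simp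
    linear_combination s * this
  set T := s * Real.exp l with hTd
  have h2 : (1 + k) * (s * cc s ^ 2) * (T * (1 + T)) ≤ (1 + 6 * s ^ 2) * (s * cc T ^ 2) := by
    have a1 := mul_le_mul_of_nonneg_right hh (show 0 ≤ T * (1 + T) by positivity)
    have a2 : (1 + 6 * s ^ 2) * (Real.exp (-l) - s) * (T * (1 + T)) = (1 + 6 * s ^ 2) * (s * cc T ^ 2) := by
      rw [hC2]
      linear_combination (1 + 6 * s ^ 2) * (1 + T) * e1
    linarith
  have h3 : s * (1 + s) ≤ T * (1 + T) := by nlinarith [hs.1]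
  have h4 : (1 + k) * cc s ^ 2 * (s * (1 + s)) ≤ (1 + 6 * s ^ 2) * cc T ^ 2 := by
    have a3 : ((1 + k) * cc s ^ 2 * (s * (1 + s))) * s ≤ ((1 + 6 * s ^ 2) * cc T ^ 2) * s := by
      have a4 := mul_le_mul_of_nonneg_left h3 (show 0 ≤ (1 + k) * (s * cc s ^ 2) by have := hs.1; positivity)
      linarith
    exact le_of_mul_le_mul_right a3 hs.1
  have h5 : 1 + 6 * s ^ 2 ≤ 7 / 2 * (s * (1 + s)) := by nlinarith [hs.2]
  have hquad := Real.quadratic_le_exp_of_nonneg (x := 2 * l) (by positivity)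
  have hYs : Y s * cc s ^ 2 = s ^ 2 := by unfold Y; rw [hc2]; field_simp [(one_sub_sq_pos hs).ne']
  have h6 : cc T ^ 2 ≤ cc s ^ 2 * (1 - 2 * (Y s * l)) := by
    have e2 : cc s ^ 2 * (1 - 2 * (Y s * l)) = cc s ^ 2 - 2 * s ^ 2 * l := by
      linear_combination (-2 * l) * hYs
    rw [e2, h1]
    have hs2 : 1 - cc s ^ 2 = s ^ 2 := by linarith
    rw [hs2]
    have : s ^ 2 * (2 * l) ≤ s ^ 2 * (Real.exp (2 * l) - 1) :=
      mul_le_mul_of_nonneg_left (by nlinarith) (sq_nonneg s)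
    linarith
  have h7 : 0 < s * (1 + s) := by have := hs.1; positivity
  have h8 : (1 + k) * (cc s ^ 2 * (s * (1 + s))) ≤ (7 / 2 * (1 - 2 * (Y s * l))) * (cc s ^ 2 * (s * (1 + s))) := by
    have b1 : (1 + 6 * s ^ 2) * cc T ^ 2 ≤ (7 / 2 * (s * (1 + s))) * cc T ^ 2 :=
      mul_le_mul_of_nonneg_right h5 (sq_nonneg _)
    have b2 := mul_le_mul_of_nonneg_left h6 (show 0 ≤ 7 / 2 * (s * (1 + s)) by positivity)
    linarith
  exact le_of_mul_le_mul_right h8 (by positivity)

/-- the numerical side conditions of the two-variable part -/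
structure Alg (aL q D B u z W e0 c0 c1 : ℝ) : Prop where
  hq : 0 < q
  hB0 : 0 ≤ B
  hz0 : 0 ≤ z
  he0 : 0 ≤ e0
  hc0 : 0 ≤ c0
  hc1 : 0 ≤ c1
  hD : D ≤ aL - 27 / 16 * e0 * (c0 + c1) - 3 / 14
  hB : 3 / 14 + 27 / 16 * e0 * c0 ≤ B
  hu : u ≤ 1 - W * (c0 + c1)
  hz : 2 + W * c0 ≤ z

lemma k_le {s k clo shi kM : ℝ} (hs : s ∈ Ioo (0 : ℝ) 1) (hc : clo ≤ cc s) (hclo : 0 < clo) (hk : 0 ≤ k)
    (hkk : k * cc s ≤ 17 / 20 * s) (hshi : 0 ≤ shi) (h1 : 1 - clo ^ 2 ≤ shi ^ 2)
    (h2 : 17 / 20 * shi ≤ kM * clo) : k ≤ kM := by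
  have hc2 := cc_sq' hs
  have hsle : s ≤ shi := by
    have : s ^ 2 ≤ shi ^ 2 := by
      have := pow_le_pow_left₀ hclo.le hc 2
      linarith
    exact le_of_pow_le_pow_left₀ (n := 2) (by norm_num) hshi this
  have h3 : k * clo ≤ kM * clo := by
    have := mul_le_mul_of_nonneg_left hc hk
    linarith
  exact le_of_mul_le_mul_right h3 hclo

lemma s_ge {s chi slo : ℝ} (hs : s ∈ Ioo (0 : ℝ) 1) (hc' : cc s ≤ chi) (h : slo ^ 2 ≤ 1 - chi ^ 2) :
    slo ≤ s := by
  have hc2 := cc_sq' hs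
  have hcp := cc_pos' hs
  have := pow_le_pow_left₀ hcp.le hc' 2
  exact le_of_pow_le_pow_left₀ (n := 2) (by norm_num) hs.1.le (by linarith)



lemma fin5 {clo chi vM EM XM q aL D B u z W e0 c0 c1 : ℝ} (k5 : Cst5 clo chi vM EM XM q aL)
    (al : Alg aL q D B u z W e0 c0 c1) {lm s l k : ℝ} (hs : s ∈ Ioo (0 : ℝ) 1) (hl : 0 < l) (hk : 0 ≤ k)
    (hT : s * Real.exp l ≤ 1) (hc : clo ≤ cc s) (hc' : cc s ≤ chi)
    (htan : hm 5 k * (1 + k) ≤ k ^ 2 * (c1 + c0 * (1 + k)))
    (hg : vM * cc s ≤ cc (s * Real.exp l) ∧ Real.exp (2 * l) - 1 ≤ EM)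
    (he : ∃ e1, 0 ≤ e1 ∧ Real.exp (l / 5) ≤ e0 + e1 * l ∧ 27 / 16 * e1 * (l * k) ≤ W * (Y s * l))
    (hF : 0 < q * (1 + k) * (Y s * l) ^ 2 + (u * k - z * k ^ 2) * (Y s * l) + k ^ 2 * (D - B * k)) :
    0 < PP 5 (27 / 16) 3 1 0 lm s l k := by
  obtain ⟨ha, hq⟩ := geo k5 hs hl hT hc hc' hg.1 hg.2
  exact core5 hs hl hk htan al.hc0 al.hc1 ha he hq al.hD al.hB al.hu al.hz hF

/-! ### the table -/

lemma by1 : Cst5 (497/500) 1 (124/125) (517/400) (2087/5000) (14546/625) 1 := by
  constructor <;> norm_num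

lemma al1 : Alg 1 (14546/625) (261/5000) (5077/10000) 1 2 0 (5433/5000) (4/25) (6/25) := by
  constructor <;> norm_num

lemma by2 : Cst5 (121/125) (497/500) (239/250) (3141/2500) (879/2000) (688/125) (10089/10000) := by
  constructor <;> norm_num

lemma al2 : Alg (10089/10000) (688/125) (1111/10000) (4263/10000) (-1087/10000) (23439/10000) (13687/5000) 1 (157/1250) (1397/5000) := by
  constructor <;> norm_num

lemma by3 : Cst5 (116/125) (121/125) (453/500) (11043/10000) (4593/10000) (33381/10000) (10477/10000) := by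
  constructor <;> norm_num

lemma al3 : Alg (10477/10000) (33381/10000) (1499/10000) (4263/10000) (5293/10000) (1073/500) (581/500) 1 (157/1250) (1397/5000) := by
  constructor <;> norm_num

lemma by4 : Cst5 (437/500) (116/125) (851/1000) (8879/10000) (2391/5000) (13183/5000) (5533/5000) := by
  constructor <;> norm_num

lemma al4 : Alg (5533/5000) (13183/5000) (261/1250) (4263/10000) (6961/10000) (20943/10000) (7503/10000) 1 (157/1250) (1397/5000) := by
  constructor <;> norm_num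

lemma by5 : Cst5 (421/500) (437/500) (861/1000) (6277/10000) (4437/10000) (12817/5000) (11847/10000) := by
  constructor <;> norm_num

lemma al5 : Alg (11847/10000) (12817/5000) (1477/5000) (4843/10000) (979/1250) (20867/10000) (2709/5000) 1 (4/25) (6/25) := by
  constructor <;> norm_num

lemma by6 : Cst5 (19/25) (421/500) (157/200) (9349/10000) (729/1250) (4251/2000) (6151/5000) := by
  constructor <;> norm_num

lemma al6 : Alg (6151/5000) (4251/2000) (1543/5000) (151/400) (8029/10000) (4091/2000) (2351/5000) 1 (967/10000) (403/1250) := by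
  constructor <;> norm_num

lemma by7 : Cst5 (27/40) (19/25) (341/500) (1463/2000) (6631/10000) (20099/10000) (3359/2500) := by
  constructor <;> norm_num

lemma al7 : Alg (3359/2500) (20099/10000) (211/500) (151/400) (8523/10000) (20341/10000) (3523/10000) 1 (967/10000) (403/1250) := by
  constructor <;> norm_num

lemma by8 : Cst5 (121/200) (27/40) (569/1000) (283/500) (7649/10000) (19247/10000) (14559/10000) := by
  constructor <;> norm_num

lemma al8 : Alg (14559/10000) (19247/10000) (4989/10000) (679/2000) (8787/10000) (4041/2000) (689/2500) 1 (371/5000) (3659/10000) := by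
  constructor <;> norm_num

lemma by9 : Cst5 (14/25) (121/200) (501/1000) (173/400) (8253/10000) (4783/2500) (7719/5000) := by
  constructor <;> norm_num

lemma al9 : Alg (7719/5000) (4783/2500) (1467/2500) (679/2000) (562/625) (2017/1000) (2289/10000) 1 (371/5000) (3659/10000) := by
  constructor <;> norm_num

lemma by10 : Cst5 (27/50) (14/25) (241/500) (877/2500) (8321/10000) (9641/5000) (15979/10000) := by
  constructor <;> norm_num

lemma al10 : Alg (15979/10000) (9641/5000) (6763/10000) (151/400) (4573/5000) (20197/10000) (2037/10000) 1 (967/10000) (403/1250) := by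
  constructor <;> norm_num

lemma by11 : Cst5 (497/1000) (27/50) (381/1000) (3519/10000) (997/1000) (9337/5000) (4053/2500) := by
  constructor <;> norm_num

lemma al11 : Alg (4053/2500) (9337/5000) (3321/5000) (679/2000) (9149/10000) (1259/625) (1933/10000) 1 (371/5000) (3659/10000) := by
  constructor <;> norm_num

lemma by12 : Cst5 (453/1000) (497/1000) (301/1000) (373/1250) (1423/1250) (18479/10000) (16699/10000) := by
  constructor <;> norm_num

lemma al12 : Alg (16699/10000) (18479/10000) (3287/5000) (1519/5000) (9183/10000) (5023/2500) (863/5000) 1 (53/1000) (21/50) := by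
  constructor <;> norm_num

lemma by13 : Cst5 (2/5) (453/1000) (213/1000) (493/2000) (6659/5000) (1144/625) (687/400) := by
  constructor <;> norm_num

lemma al13 : Alg (687/400) (1144/625) (141/200) (1519/5000) (371/400) (10041/5000) (1531/10000) 1 (53/1000) (21/50) := by
  constructor <;> norm_num

lemma by14 : Cst5 (81/250) (2/5) (111/1000) (941/5000) (16221/10000) (4549/2500) (8857/5000) := by
  constructor <;> norm_num

lemma al14 : Alg (8857/5000) (4549/2500) (7589/10000) (1519/5000) (4689/5000) (2007/1000) (263/2000) 1 (53/1000) (21/50) := by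
  constructor <;> norm_num

lemma by15 : Cst5 0 (81/250) 0 (1173/10000) (21173/10000) (4577/2500) (9207/5000) := by
  constructor <;> norm_num

lemma al15 : Alg (9207/5000) (4577/2500) (2211/2500) (679/2000) (1909/2000) (20077/10000) (129/1250) 1 (371/5000) (3659/10000) := by
  constructor <;> norm_num

/-- **Block B5, dimension `N = 6`.** -/
theorem B5six {lm s l k : ℝ} (hs : s ∈ Ioo (0 : ℝ) 1) (hl : 0 < l) (hk : 0 ≤ k)
    (hT : s * Real.exp l ≤ 1)
    (h1 : s ≤ 27 / 50 → Real.exp l ≤ 15141 / 10000 * (1 - 2 * s ^ 2 / 3))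
    (h2 : s * Real.exp l ≤ 3 / 4 ∨
      1 + 63 * cc s ^ 7 / (3437 / 1000 * s + cc s) ≤ (2 - s * Real.exp l) ^ 6)
    (hkap : (1 + k) * cc s ≤ cc s + 17 / 20 * s)
    (hhaz : (1 + k) * (s * cc s ^ 2) ≤ (1 + 6 * s ^ 2) * (Real.exp (-l) - s)) :
    0 < PP 5 (27 / 16) 3 1 0 lm s l k := by
  have hc2 := cc_sq' hs
  have hcp := cc_pos' hs
  have hYp : 0 < Y s := by unfold Y; exact div_pos (pow_pos hs.1 2) (one_sub_sq_pos hs)
  have ht : 0 < Y s * l := mul_pos hYp hl
  have hc1 : cc s ≤ 1 := by nlinarith [sq_nonneg s]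
  have hkk : k * cc s ≤ 17 / 20 * s := by linarith
  have hU : ∀ chi U : ℝ, 421 / 500 ≤ cc s → cc s ≤ chi → 15141 / 10000 * (1 + 2 * chi ^ 2) / 3 ≤ U →
      Real.exp l ≤ U := by
    intro chi U ha hb hU
    have hs' : s ≤ 27 / 50 := by
      have : s ^ 2 ≤ (27 / 50 : ℝ) ^ 2 := by nlinarith
      exact le_of_pow_le_pow_left₀ (n := 2) (by norm_num) (by norm_num) this
    have h3 := h1 hs'
    have h4 : cc s ^ 2 ≤ chi ^ 2 := pow_le_pow_left₀ hcp.le hb 2
    have h5 : s ^ 2 = 1 - cc s ^ 2 := by linarith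
    rw [h5] at h3
    refine h3.trans (le_trans ?_ hU)
    linarith
  have hhz : cc s ≤ 27 / 50 → 1 + k ≤ 7 / 2 * (1 - 2 * (Y s * l)) := by
    intro h
    refine haz_t hs ?_ hl hT hk hhaz
    exact s_ge hs h (by norm_num)

  rcases le_total (497/500) (cc s) with h11 | h11
  · have hkM : k ≤ (117/1250) := k_le (clo := (497/500)) (shi := (10939/100000)) hs h11 (by norm_num) hk hkk (by norm_num) (by norm_num) (by norm_num)
    have hg := geo1 (clo := (497/500)) (vM := (124/125)) (EM := (517/400)) (U := (15141/10000)) (by norm_num) (by norm_num) (by norm_num) hs hT hl h11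
      (hU 1 _ (le_trans (by norm_num) h11) hc1 (by norm_num))
    have he5 : Real.exp (l / 5) ≤ (5433/5000) := exp_div5_le (by norm_num)
      ((hU 1 (15141/10000) (le_trans (by norm_num) h11) hc1 (by norm_num)).trans (by norm_num))
    exact fin5 by1 al1 hs hl hk hT h11 hc1 (tkA hk (by linarith)) hg (exp_type0 he5 rfl)
      (box5A (kM := (117/1250)) al1.hq al1.hB0 al1.hz0 (by norm_num) (by norm_num) ht hk hkM)
  rcases le_total (121/125) (cc s) with h12 | h12
  · have hkM : k ≤ (551/2500) := k_le (clo := (121/125)) (shi := (3137/12500)) hs h12 (by norm_num) hk hkk (by norm_num) (by norm_num) (by norm_num)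
    have hg := geo1 (clo := (121/125)) (vM := (239/250)) (EM := (3141/2500)) (U := (15021/10000)) (by norm_num) (by norm_num) (by norm_num) hs hT hl h12
      (hU (497/500) _ (le_trans (by norm_num) h12) h11 (by norm_num))
    exact fin5 by2 al2 hs hl hk hT h12 h11 (tkP hk (by linarith)) hg (exp_type1 (chi := (497/500)) (slo := (5469/50000)) hs hl (hg.2.trans (by norm_num)) hkk (by norm_num)
      (s_ge hs h11 (by norm_num)) h11 (by norm_num))
      (box5B (kM := (551/2500)) al2.hq al2.hB0 (by norm_num) (by norm_num) (by norm_num) ht hk hkM)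
  rcases le_total (116/125) (cc s) with h13 | h13
  · have hkM : k ≤ (3413/10000) := k_le (clo := (116/125)) (shi := (37259/100000)) hs h13 (by norm_num) hk hkk (by norm_num) (by norm_num) (by norm_num)
    have hg := geo1 (clo := (116/125)) (vM := (453/500)) (EM := (11043/10000)) (U := (7253/5000)) (by norm_num) (by norm_num) (by norm_num) hs hT hl h13
      (hU (121/125) _ (le_trans (by norm_num) h13) h12 (by norm_num))
    exact fin5 by3 al3 hs hl hk hT h13 h12 (tkP hk (by linarith)) hg (exp_type1 (chi := (121/125)) (slo := (5019/20000)) hs hl (hg.2.trans (by norm_num)) hkk (by norm_num)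
      (s_ge hs h12 (by norm_num)) h12 (by norm_num))
      (box5B (kM := (3413/10000)) al3.hq al3.hB0 (by norm_num) (by norm_num) (by norm_num) ht hk hkM)
  rcases le_total (437/500) (cc s) with h14 | h14
  · have hkM : k ≤ (2363/5000) := k_le (clo := (437/500)) (shi := (48593/100000)) hs h14 (by norm_num) hk hkk (by norm_num) (by norm_num) (by norm_num)
    have hg := geo1 (clo := (437/500)) (vM := (851/1000)) (EM := (8879/10000)) (U := (687/500)) (by norm_num) (by norm_num) (by norm_num) hs hT hl h14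
      (hU (116/125) _ (le_trans (by norm_num) h14) h13 (by norm_num))
    exact fin5 by4 al4 hs hl hk hT h14 h13 (tkP hk (by linarith)) hg (exp_type1 (chi := (116/125)) (slo := (18629/50000)) hs hl (hg.2.trans (by norm_num)) hkk (by norm_num)
      (s_ge hs h13 (by norm_num)) h13 (by norm_num))
      (box5B (kM := (2363/5000)) al4.hq al4.hB0 (by norm_num) (by norm_num) (by norm_num) ht hk hkM)
  rcases le_total (421/500) (cc s) with h15 | h15
  · have hkM : k ≤ (5447/10000) := k_le (clo := (421/500)) (shi := (13487/25000)) hs h15 (by norm_num) hk hkk (by norm_num) (by norm_num) (by norm_num)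
    have hg := geo1 (clo := (421/500)) (vM := (861/1000)) (EM := (6277/10000)) (U := (6379/5000)) (by norm_num) (by norm_num) (by norm_num) hs hT hl h15
      (hU (437/500) _ (le_trans (by norm_num) h15) h14 (by norm_num))
    exact fin5 by5 al5 hs hl hk hT h15 h14 (tkA hk (by linarith)) hg (exp_type1 (chi := (437/500)) (slo := (3037/6250)) hs hl (hg.2.trans (by norm_num)) hkk (by norm_num)
      (s_ge hs h14 (by norm_num)) h14 (by norm_num))
      (box5B (kM := (5447/10000)) al5.hq al5.hB0 (by norm_num) (by norm_num) (by norm_num) ht hk hkM)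
  rcases le_total (19/25) (cc s) with h16 | h16
  · have hkM : k ≤ (7269/10000) := k_le (clo := (19/25)) (shi := (64993/100000)) hs h16 (by norm_num) hk hkk (by norm_num) (by norm_num) (by norm_num)
    have hg := geo2 (chi := (421/500)) (vM := (157/200)) (EM := (9349/10000)) (T := (3/4)) (by norm_num) (by norm_num) (by norm_num) (by norm_num)
      (by norm_num) (by norm_num) hs h15 (T_of (clo := (19/25)) (shi := (64993/100000)) hs h16 (by norm_num) (by norm_num) (by norm_num) (by norm_num)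
      (by norm_num) hT h2)
    exact fin5 by6 al6 hs hl hk hT h16 h15 (tkQ hk (by linarith)) hg (exp_type1 (chi := (421/500)) (slo := (53947/100000)) hs hl (hg.2.trans (by norm_num)) hkk (by norm_num)
      (s_ge hs h15 (by norm_num)) h15 (by norm_num))
      (box5B (kM := (7269/10000)) al6.hq al6.hB0 (by norm_num) (by norm_num) (by norm_num) ht hk hkM)
  rcases le_total (27/40) (cc s) with h17 | h17
  · have hkM : k ≤ (2323/2500) := k_le (clo := (27/40)) (shi := (36891/50000)) hs h17 (by norm_num) hk hkk (by norm_num) (by norm_num) (by norm_num)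
    have hg := geo2 (chi := (19/25)) (vM := (341/500)) (EM := (1463/2000)) (T := (8551/10000)) (by norm_num) (by norm_num) (by norm_num) (by norm_num)
      (by norm_num) (by norm_num) hs h16 (T_of (clo := (27/40)) (shi := (36891/50000)) hs h17 (by norm_num) (by norm_num) (by norm_num) (by norm_num)
      (by norm_num) hT h2)
    exact fin5 by7 al7 hs hl hk hT h17 h16 (tkQ hk (by linarith)) hg (exp_type1 (chi := (19/25)) (slo := (2031/3125)) hs hl (hg.2.trans (by norm_num)) hkk (by norm_num)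
      (s_ge hs h16 (by norm_num)) h16 (by norm_num))
      (box5B (kM := (2323/2500)) al7.hq al7.hB0 (by norm_num) (by norm_num) (by norm_num) ht hk hkM)
  rcases le_total (121/200) (cc s) with h18 | h18
  · have hkM : k ≤ (11187/10000) := k_le (clo := (121/200)) (shi := (79623/100000)) hs h18 (by norm_num) hk hkk (by norm_num) (by norm_num) (by norm_num)
    have hg := geo2 (chi := (27/40)) (vM := (569/1000)) (EM := (283/500)) (T := (577/625)) (by norm_num) (by norm_num) (by norm_num) (by norm_num)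
      (by norm_num) (by norm_num) hs h17 (T_of (clo := (121/200)) (shi := (79623/100000)) hs h18 (by norm_num) (by norm_num) (by norm_num) (by norm_num)
      (by norm_num) hT h2)
    exact fin5 by8 al8 hs hl hk hT h18 h17 (tkR hk (by linarith)) hg (exp_type1 (chi := (27/40)) (slo := (73781/100000)) hs hl (hg.2.trans (by norm_num)) hkk (by norm_num)
      (s_ge hs h17 (by norm_num)) h17 (by norm_num))
      (box5B (kM := (11187/10000)) al8.hq al8.hB0 (by norm_num) (by norm_num) (by norm_num) ht hk hkM)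
  rcases le_total (14/25) (cc s) with h19 | h19
  · have hkM : k ≤ (786/625) := k_le (clo := (14/25)) (shi := (1657/2000)) hs h19 (by norm_num) hk hkk (by norm_num) (by norm_num) (by norm_num)
    have hg := geo2 (chi := (121/200)) (vM := (501/1000)) (EM := (173/400)) (T := (1191/1250)) (by norm_num) (by norm_num) (by norm_num) (by norm_num)
      (by norm_num) (by norm_num) hs h18 (T_of (clo := (14/25)) (shi := (1657/2000)) hs h19 (by norm_num) (by norm_num) (by norm_num) (by norm_num)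
      (by norm_num) hT h2)
    exact fin5 by9 al9 hs hl hk hT h19 h18 (tkR hk (by linarith)) hg (exp_type1 (chi := (121/200)) (slo := (39811/50000)) hs hl (hg.2.trans (by norm_num)) hkk (by norm_num)
      (s_ge hs h18 (by norm_num)) h18 (by norm_num))
      (box5B (kM := (786/625)) al9.hq al9.hB0 (by norm_num) (by norm_num) (by norm_num) ht hk hkM)
  rcases le_total (27/50) (cc s) with h20 | h20
  · have hkM : k ≤ (13249/10000) := k_le (clo := (27/50)) (shi := (84167/100000)) hs h20 (by norm_num) hk hkk (by norm_num) (by norm_num) (by norm_num)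
    have hg := geo2 (chi := (14/25)) (vM := (241/500)) (EM := (877/2500)) (T := (2407/2500)) (by norm_num) (by norm_num) (by norm_num) (by norm_num)
      (by norm_num) (by norm_num) hs h19 (T_of (clo := (27/50)) (shi := (84167/100000)) hs h20 (by norm_num) (by norm_num) (by norm_num) (by norm_num)
      (by norm_num) hT h2)
    exact fin5 by10 al10 hs hl hk hT h20 h19 (tkQ hk (by linarith)) hg (exp_type1 (chi := (14/25)) (slo := (82849/100000)) hs hl (hg.2.trans (by norm_num)) hkk (by norm_num)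
      (s_ge hs h19 (by norm_num)) h19 (by norm_num))
      (box5B (kM := (13249/10000)) al10.hq al10.hB0 (by norm_num) (by norm_num) (by norm_num) ht hk hkM)
  rcases le_total (497/1000) (cc s) with h21 | h21
  · have hkM : k ≤ (14841/10000) := k_le (clo := (497/1000)) (shi := (10847/12500)) hs h21 (by norm_num) hk hkk (by norm_num) (by norm_num) (by norm_num)
    have hg := geo2 (chi := (27/50)) (vM := (381/1000)) (EM := (3519/10000)) (T := (4893/5000)) (by norm_num) (by norm_num) (by norm_num) (by norm_num)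
      (by norm_num) (by norm_num) hs h20 (T_of (clo := (497/1000)) (shi := (10847/12500)) hs h21 (by norm_num) (by norm_num) (by norm_num) (by norm_num)
      (by norm_num) hT h2)
    exact fin5 by11 al11 hs hl hk hT h21 h20 (tkR hk (by linarith)) hg (exp_type1 (chi := (27/50)) (slo := (42083/50000)) hs hl (hg.2.trans (by norm_num)) hkk (by norm_num)
      (s_ge hs h20 (by norm_num)) h20 (by norm_num))
      (box5C (k0 := (227/200)) (kM := (14841/10000)) al11.hq al11.hB0 al11.hz0 (by norm_num) (by norm_num) (by norm_num) (by norm_num)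
      (by norm_num) (by norm_num) (by norm_num) (by norm_num) (by norm_num) ht hk hkM (hhz (le_trans h20 (by norm_num))))
  rcases le_total (453/1000) (cc s) with h22 | h22
  · have hkM : k ≤ (16729/10000) := k_le (clo := (453/1000)) (shi := (2786/3125)) hs h22 (by norm_num) hk hkk (by norm_num) (by norm_num) (by norm_num)
    have hg := geo2 (chi := (497/1000)) (vM := (301/1000)) (EM := (373/1250)) (T := (9887/10000)) (by norm_num) (by norm_num) (by norm_num) (by norm_num)
      (by norm_num) (by norm_num) hs h21 (T_of (clo := (453/1000)) (shi := (2786/3125)) hs h22 (by norm_num) (by norm_num) (by norm_num) (by norm_num)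
      (by norm_num) hT h2)
    exact fin5 by12 al12 hs hl hk hT h22 h21 (tkS hk (by linarith)) hg (exp_type1 (chi := (497/1000)) (slo := (3471/4000)) hs hl (hg.2.trans (by norm_num)) hkk (by norm_num)
      (s_ge hs h21 (by norm_num)) h21 (by norm_num))
      (box5C (k0 := (567/500)) (kM := (16729/10000)) al12.hq al12.hB0 al12.hz0 (by norm_num) (by norm_num) (by norm_num) (by norm_num)
      (by norm_num) (by norm_num) (by norm_num) (by norm_num) (by norm_num) ht hk hkM (hhz (le_trans h21 (by norm_num))))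
  rcases le_total (2/5) (cc s) with h23 | h23
  · have hkM : k ≤ (19477/10000) := k_le (clo := (2/5)) (shi := (22913/25000)) hs h23 (by norm_num) hk hkk (by norm_num) (by norm_num) (by norm_num)
    have hg := geo2 (chi := (453/1000)) (vM := (213/1000)) (EM := (493/2000)) (T := (9953/10000)) (by norm_num) (by norm_num) (by norm_num) (by norm_num)
      (by norm_num) (by norm_num) hs h22 (T_of (clo := (2/5)) (shi := (22913/25000)) hs h23 (by norm_num) (by norm_num) (by norm_num) (by norm_num)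
      (by norm_num) hT h2)
    exact fin5 by13 al13 hs hl hk hT h23 h22 (tkS hk (by linarith)) hg (exp_type1 (chi := (453/1000)) (slo := (89151/100000)) hs hl (hg.2.trans (by norm_num)) hkk (by norm_num)
      (s_ge hs h22 (by norm_num)) h22 (by norm_num))
      (box5C (k0 := (1133/1000)) (kM := (19477/10000)) al13.hq al13.hB0 al13.hz0 (by norm_num) (by norm_num) (by norm_num) (by norm_num)
      (by norm_num) (by norm_num) (by norm_num) (by norm_num) (by norm_num) ht hk hkM (hhz (le_trans h22 (by norm_num))))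
  rcases le_total (81/250) (cc s) with h24 | h24
  · have hkM : k ≤ (1241/500) := k_le (clo := (81/250)) (shi := (47303/50000)) hs h24 (by norm_num) hk hkk (by norm_num) (by norm_num) (by norm_num)
    have hg := geo2 (chi := (2/5)) (vM := (111/1000)) (EM := (941/5000)) (T := (999/1000)) (by norm_num) (by norm_num) (by norm_num) (by norm_num)
      (by norm_num) (by norm_num) hs h23 (T_of (clo := (81/250)) (shi := (47303/50000)) hs h24 (by norm_num) (by norm_num) (by norm_num) (by norm_num)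
      (by norm_num) hT h2)
    exact fin5 by14 al14 hs hl hk hT h24 h23 (tkS hk (by linarith)) hg (exp_type1 (chi := (2/5)) (slo := (91651/100000)) hs hl (hg.2.trans (by norm_num)) hkk (by norm_num)
      (s_ge hs h23 (by norm_num)) h23 (by norm_num))
      (box5C (k0 := (567/500)) (kM := (1241/500)) al14.hq al14.hB0 al14.hz0 (by norm_num) (by norm_num) (by norm_num) (by norm_num)
      (by norm_num) (by norm_num) (by norm_num) (by norm_num) (by norm_num) ht hk hkM (hhz (le_trans h23 (by norm_num))))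
  · have hkM : k ≤ (5/2) := by linarith [hhz (le_trans h24 (by norm_num))]
    have hg := geo2 (chi := (81/250)) (vM := 0) (EM := (1173/10000)) (T := 1) (by norm_num) (by norm_num) (by norm_num) (by norm_num)
      (by norm_num) (by norm_num) hs h24 hT
    exact fin5 by15 al15 hs hl hk hT hcp.le h24 (tkR hk (by linarith)) hg (exp_type1 (chi := (81/250)) (slo := (18921/20000)) hs hl (hg.2.trans (by norm_num)) hkk (by norm_num)
      (s_ge hs h24 (by norm_num)) h24 (by norm_num))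
      (box5C (k0 := (1141/1000)) (kM := (5/2)) al15.hq al15.hB0 al15.hz0 (by norm_num) (by norm_num) (by norm_num) (by norm_num)
      (by norm_num) (by norm_num) (by norm_num) (by norm_num) (by norm_num) ht hk hkM (hhz (le_trans h24 (by norm_num))))

end Crest.Agent.R230.WR.BSix
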