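import Crest.Agent.R230.Apriori2

/-!
# Row 230: fixed cone comparison (helper446)

Let `L u = 1 - (1-e) u` on `[0,1]`.  If at one point `t₁` the mass fraction of `r^n` beyond `t₁` is at most the
mass fraction of `L^n` beyond `t₁`, then the same holds at every `t ≥ t₁` (`cone_cmp`).  For the transport `tau`
this gives upper bounds in the tail (`tau_le_of_cone`).
-/

set_option autoImplicit false

open MeasureTheory Set Filter Topology
open scoped Pointwise ENNReal

namespace Crest.Agent.R230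

lemma int_coneLine (n : ℕ) {e a b : ℝ} (he : e < 1) :
    ∫ u in a..b, (1 - (1 - e) * u) ^ n =
      ((1 - (1 - e) * a) ^ (n + 1) - (1 - (1 - e) * b) ^ (n + 1)) / ((n + 1) * (1 - e)) := by
  have hn : (n : ℝ) + 1 ≠ 0 := by positivity
  have hb : (1 - e) ≠ 0 := by linarith
  have hd : ∀ u ∈ uIcc a b, HasDerivAt
      (fun u => -(1 - (1 - e) * u) ^ (n + 1) / ((n + 1) * (1 - e))) ((1 - (1 - e) * u) ^ n) u := by
    intro u _
    have h1 : HasDerivAt (fun u => 1 - (1 - e) * u) (-(1 - e)) u := by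
      have := ((hasDerivAt_id u).const_mul (1 - e)).const_sub 1
      exact this.congr_deriv (by simp)
    have h2 := ((h1.fun_pow (n + 1)).fun_neg).div_const (((n : ℝ) + 1) * (1 - e))
    refine h2.congr_deriv ?_
    simp only [Nat.add_sub_cancel]
    push_cast
    field_simp
  rw [intervalIntegral.integral_eq_sub_of_hasDerivAt hd]
  · field_simp
    ring
  · exact Continuous.intervalIntegrable (by fun_prop) _ _

/-- **fixed cone comparison** -/
theorem cone_cmp {r : ℝ → ℝ} (hr : Prof r) {n : ℕ} (hn : 1 ≤ n) {e t₁ t₂ : ℝ} (he0 : 0 ≤ e) (he : e < 1)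
    (ht₁ : 0 < t₁) (h12 : t₁ ≤ t₂) (ht₂ : t₂ ≤ 1)
    (h1 : (∫ u in t₁..1, r u ^ n) * (1 - e ^ (n + 1)) ≤
      ((1 - (1 - e) * t₁) ^ (n + 1) - e ^ (n + 1)) * ∫ u in (0 : ℝ)..1, r u ^ n) :
    (∫ u in t₂..1, r u ^ n) * (1 - e ^ (n + 1)) ≤
      ((1 - (1 - e) * t₂) ^ (n + 1) - e ^ (n + 1)) * ∫ u in (0 : ℝ)..1, r u ^ n := by
  have hn0 : n ≠ 0 := by omega
  have he1 : e ^ (n + 1) < 1 := pow_lt_one₀ he0 he (by omega)
  set I := ∫ u in (0 : ℝ)..1, r u ^ n with hI
  have hmem : ∀ {x : ℝ}, 0 ≤ x → x ≤ 1 → x ∈ Icc (-1 : ℝ) 1 := fun h h' => ⟨by linarith, h'⟩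
  have hint : ∀ {a b : ℝ}, 0 ≤ a → a ≤ 1 → 0 ≤ b → b ≤ 1 →
      IntervalIntegrable (fun x => r x ^ n) volume a b :=
    fun ha ha' hb hb' => prof_intervalIntegrable hr n (hmem ha ha') (hmem hb hb')
  have hIpos : 0 < I := by
    refine intervalIntegral.intervalIntegral_pos_of_pos_on (hint le_rfl zero_le_one zero_le_one le_rfl) ?_
      one_pos
    intro x hx
    exact pow_pos (hr.pos x ⟨by linarith [hx.1], hx.2⟩) n
  set M : ℝ := (1 - e ^ (n + 1)) / ((n + 1) * (1 - e)) with hM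
  have hMpos : 0 < M := div_pos (by linarith) (mul_pos (by positivity) (by linarith))
  set lam : ℝ := (I / M) ^ ((1 : ℝ) / n) with hlam
  have hlam0 : 0 < lam := Real.rpow_pos_of_pos (div_pos hIpos hMpos) _
  have hlamn : lam ^ n = I / M := by
    rw [hlam, ← Real.rpow_natCast, ← Real.rpow_mul (div_pos hIpos hMpos).le]
    have : (1 : ℝ) / n * n = 1 := by field_simp
    rw [this, Real.rpow_one]
  set L : ℝ → ℝ := fun u => lam * (1 - (1 - e) * u) with hL
  have hLc : Continuous L := by rw [hL]; fun_prop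
  have hL0 : ∀ {u : ℝ}, 0 ≤ u → u ≤ 1 → 0 ≤ L u := by
    intro u h0 h1'
    refine mul_nonneg hlam0.le ?_
    nlinarith
  have hLint : ∀ a b : ℝ, ∫ u in a..b, L u ^ n =
      I * (((1 - (1 - e) * a) ^ (n + 1) - (1 - (1 - e) * b) ^ (n + 1)) / (1 - e ^ (n + 1))) := by
    intro a b
    have e1 : (fun u => L u ^ n) = fun u => lam ^ n * (1 - (1 - e) * u) ^ n := by
      funext u
      rw [hL]
      simp only [mul_pow]
    rw [e1, intervalIntegral.integral_const_mul, int_coneLine n he, hlamn, hM]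
    have h2 : (1 - e) ≠ 0 := by linarith
    have h3 : (1 - e ^ (n + 1)) ≠ 0 := by linarith
    have h4 : (n : ℝ) + 1 ≠ 0 := by positivity
    field_simp
  have hLt : ∀ t : ℝ, ∫ u in t..1, L u ^ n =
      I * (((1 - (1 - e) * t) ^ (n + 1) - e ^ (n + 1)) / (1 - e ^ (n + 1))) := by
    intro t
    rw [hLint]
    have : 1 - (1 - e) * 1 = e := by ring
    rw [this]
  have he1' : 0 < 1 - e ^ (n + 1) := by linarith
  have hLi : ∀ a b : ℝ, IntervalIntegrable (fun u => L u ^ n) volume a b := fun a b =>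
    Continuous.intervalIntegrable (by fun_prop) _ _
  -- reformulate
  have key : ∀ t : ℝ, ((∫ u in t..1, r u ^ n) * (1 - e ^ (n + 1)) ≤
      ((1 - (1 - e) * t) ^ (n + 1) - e ^ (n + 1)) * I) ↔
      (∫ u in t..1, r u ^ n) ≤ ∫ u in t..1, L u ^ n := by
    intro t
    rw [hLt, ← mul_div_assoc, le_div_iff₀ he1', mul_comm I]
  rw [key] at h1 ⊢
  by_contra hcon
  push Not at hcon
  have ht₂0 : 0 < t₂ := lt_of_lt_of_le ht₁ h12
  have ht₁1 : t₁ ≤ 1 := h12.trans ht₂
  -- point y with r y > L y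
  have hy : ∃ y ∈ Icc t₂ 1, L y < r y := by
    by_contra hy
    push Not at hy
    have : (∫ u in t₂..1, r u ^ n) ≤ ∫ u in t₂..1, L u ^ n :=
      intervalIntegral.integral_mono_on ht₂ (hint ht₂0.le ht₂ zero_le_one le_rfl) (hLi _ _)
        (fun u hu => pow_le_pow_left₀ (hr.nonneg' (hmem (ht₂0.le.trans hu.1) hu.2)) (hy u hu) n)
    linarith
  obtain ⟨y, hy, hyL⟩ := hy
  have hsplit_r : (∫ u in t₁..t₂, r u ^ n) + (∫ u in t₂..1, r u ^ n) = ∫ u in t₁..1, r u ^ n :=
    intervalIntegral.integral_add_adjacent_intervals (hint ht₁.le ht₁1 ht₂0.le ht₂)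
      (hint ht₂0.le ht₂ zero_le_one le_rfl)
  have hsplit_L : (∫ u in t₁..t₂, L u ^ n) + (∫ u in t₂..1, L u ^ n) = ∫ u in t₁..1, L u ^ n :=
    intervalIntegral.integral_add_adjacent_intervals (hLi _ _) (hLi _ _)
  have hx : ∃ x ∈ Icc t₁ t₂, r x < L x := by
    by_contra hx
    push Not at hx
    have : (∫ u in t₁..t₂, L u ^ n) ≤ ∫ u in t₁..t₂, r u ^ n :=
      intervalIntegral.integral_mono_on h12 (hLi _ _) (hint ht₁.le ht₁1 ht₂0.le ht₂)
        (fun u hu => pow_le_pow_left₀ (hL0 (ht₁.le.trans hu.1) (hu.2.trans ht₂)) (hx u hu) n)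
    linarith
  obtain ⟨x, hx, hxL⟩ := hx
  have hxy : x < y := by
    rcases lt_or_eq_of_le (hx.2.trans hy.1) with h | h
    · exact h
    · rw [h] at hxL; exact absurd hxL (not_lt.2 hyL.le)
  have hx0 : 0 < x := lt_of_lt_of_le ht₁ hx.1
  -- r < L on [0,x]
  have hleft : ∀ u ∈ Icc 0 x, r u < L u := by
    intro u hu
    by_contra hcu
    push Not at hcu
    have hux : u < x := by
      rcases lt_or_eq_of_le hu.2 with h | h
      · exact h
      · rw [h] at hcu; exact absurd hxL (not_lt.2 hcu)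
    have huy : 0 < y - u := by linarith
    have ha : 0 ≤ (y - x) / (y - u) := div_nonneg (by linarith) huy.le
    have hb : 0 ≤ (x - u) / (y - u) := div_nonneg (by linarith) huy.le
    have hab : (y - x) / (y - u) + (x - u) / (y - u) = 1 := by
      rw [← add_div, show y - x + (x - u) = y - u by ring]
      exact div_self huy.ne'
    have hcc := hr.conc.2 (hmem hu.1 (hux.le.trans (hx.2.trans ht₂))) (hmem (ht₂0.le.trans hy.1) hy.2)
      ha hb hab
    simp only [smul_eq_mul] at hcc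
    have hxe : (y - x) / (y - u) * u + (x - u) / (y - u) * y = x := by
      field_simp
      ring
    rw [hxe] at hcc
    have hLe : (y - x) / (y - u) * L u + (x - u) / (y - u) * L y = L x := by
      simp only [hL]
      field_simp
      ring
    have h3 : (y - x) / (y - u) * L u ≤ (y - x) / (y - u) * r u :=
      mul_le_mul_of_nonneg_left hcu (div_nonneg (by linarith) huy.le)
    have h4 : (x - u) / (y - u) * L y ≤ (x - u) / (y - u) * r y :=
      mul_le_mul_of_nonneg_left hyL.le (div_nonneg (by linarith) huy.le)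
    linarith
  have hstrict : (∫ u in (0 : ℝ)..t₁, r u ^ n) < ∫ u in (0 : ℝ)..t₁, L u ^ n := by
    refine intervalIntegral.integral_lt_integral_of_continuousOn_of_le_of_exists_lt ht₁ ?_ ?_ ?_ ?_
    · exact (hr.cont.pow n).mono (fun u hu => hmem hu.1 (hu.2.trans ht₁1))
    · exact (hLc.pow n).continuousOn
    · intro u hu
      exact pow_le_pow_left₀ (hr.nonneg' (hmem hu.1.le (hu.2.trans ht₁1)))
        (hleft u ⟨hu.1.le, hu.2.trans hx.1⟩).le n
    · refine ⟨0, ⟨le_rfl, ht₁.le⟩, ?_⟩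
      exact pow_lt_pow_left₀ (hleft 0 ⟨le_rfl, hx0.le⟩) (hr.nonneg' (hmem le_rfl zero_le_one)) hn0
  have hr01 : (∫ u in (0 : ℝ)..t₁, r u ^ n) + (∫ u in t₁..1, r u ^ n) = I :=
    intervalIntegral.integral_add_adjacent_intervals (hint le_rfl zero_le_one ht₁.le ht₁1)
      (hint ht₁.le ht₁1 zero_le_one le_rfl)
  have hL01 : (∫ u in (0 : ℝ)..t₁, L u ^ n) + (∫ u in t₁..1, L u ^ n) = ∫ u in (0 : ℝ)..1, L u ^ n :=
    intervalIntegral.integral_add_adjacent_intervals (hLi _ _) (hLi _ _)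
  have hLI : ∫ u in (0 : ℝ)..1, L u ^ n = I := by
    rw [hLt]
    simp only [mul_zero, sub_zero, one_pow]
    rw [div_self he1'.ne', mul_one]
  linarith

section

variable {r : ℝ → ℝ} (hr : Prof r) {n : ℕ} (hn : 1 ≤ n)
include hr hn

/-- fixed cone comparison for the transport -/
theorem cone_tau {e s₁ s : ℝ} (he0 : 0 ≤ e) (he : e < 1) (hs₁ : 0 < s₁) (h12 : s₁ ≤ s) (hs : s ≤ 1)
    (h1 : hB n s₁ * (1 - e ^ (n + 1)) ≤
      ((1 - (1 - e) * tau n r s₁) ^ (n + 1) - e ^ (n + 1)) * hB n 0) :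
    hB n s * (1 - e ^ (n + 1)) ≤ ((1 - (1 - e) * tau n r s) ^ (n + 1) - e ^ (n + 1)) * hB n 0 := by
  have hq : 0 < mom n r / w n := div_pos (hr.mom_pos' n) (w_pos' n)
  have hs₁' : s₁ ∈ Icc (-1 : ℝ) 1 := ⟨by linarith, by linarith⟩
  have hs' : s ∈ Icc (-1 : ℝ) 1 := ⟨by linarith, hs⟩
  have hT1 := tau_pos hr n (s := s₁) ⟨hs₁, h12.trans hs⟩
  have hTT : tau n r s₁ ≤ tau n r s := (tau_strictMonoOn hr n).monotoneOn hs₁' hs' h12
  have hT := (tau_mem_Icc hr n hs').2
  have e0 := integral_tau_one hr n (s := 0) (by norm_num)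
  rw [tau_zero hr n] at e0
  have e1 := integral_tau_one hr n hs₁'
  have e2 := integral_tau_one hr n hs'
  have h := cone_cmp hr hn he0 he hT1 hTT hT (by
    rw [e0, e1]
    have := mul_le_mul_of_nonneg_left h1 hq.le
    linarith)
  rw [e0, e2] at h
  have h5 : mom n r / w n * (hB n s * (1 - e ^ (n + 1))) ≤ mom n r / w n *
      (((1 - (1 - e) * tau n r s) ^ (n + 1) - e ^ (n + 1)) * hB n 0) := by linarith
  exact le_of_mul_le_mul_left h5 hq

/-- upper bound for the transport beyond `s₁` -/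
theorem tau_le_of_cone {e s₁ s T₁ t : ℝ} (he0 : 0 ≤ e) (he : e < 1) (hs₁ : 0 < s₁) (h12 : s₁ ≤ s) (hs : s ≤ 1)
    (hT₁ : tau n r s₁ ≤ T₁) (hT₁' : T₁ ≤ 1)
    (h1 : hB n s₁ * (1 - e ^ (n + 1)) ≤ ((1 - (1 - e) * T₁) ^ (n + 1) - e ^ (n + 1)) * hB n 0)
    (h2 : ((1 - (1 - e) * t) ^ (n + 1) - e ^ (n + 1)) * hB n 0 ≤ hB n s * (1 - e ^ (n + 1))) :
    tau n r s ≤ t := by
  have hH := hB_zero_pos n
  have hs₁' : s₁ ∈ Icc (-1 : ℝ) 1 := ⟨by linarith, by linarith⟩
  have hs' : s ∈ Icc (-1 : ℝ) 1 := ⟨by linarith, hs⟩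
  have hT := (tau_mem_Icc hr n hs').2
  have h3 := cone_tau hr hn he0 he hs₁ h12 hs (by
    refine h1.trans ?_
    refine mul_le_mul_of_nonneg_right ?_ hH.le
    have : (1 - (1 - e) * T₁) ^ (n + 1) ≤ (1 - (1 - e) * tau n r s₁) ^ (n + 1) := by
      refine pow_le_pow_left₀ (by nlinarith) ?_ _
      have := mul_le_mul_of_nonneg_left hT₁ (show 0 ≤ 1 - e by linarith)
      linarith
    linarith)
  have h4 := le_of_mul_le_mul_right (h2.trans h3) hH
  by_contra hlt
  push Not at hlt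
  have h5 : (1 - (1 - e) * tau n r s) ^ (n + 1) < (1 - (1 - e) * t) ^ (n + 1) := by
    refine pow_lt_pow_left₀ ?_ (by nlinarith) (by omega)
    have := mul_lt_mul_of_pos_left hlt (show 0 < 1 - e by linarith)
    linarith
  linarith

end

end Crest.Agent.R230
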