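import Crest.Agent.R230.Cyl89

/-!
The cylinder bound up to `F₀ ≤ 9/10` (helper640): sharper numerical version of `Cyl89`.

* `tau_le_of_NleB90` : `τ(s) ≤ (w (n-1) / w n)^n ∫_0^s c^n` if `∫_0^s c^n ≤ (9/10) ∫_0^1 c^n`.
-/

set_option autoImplicit false

open MeasureTheory Set Filter Topology
open scoped Pointwise ENNReal

namespace Crest.Agent.R230

namespace AP90

open AP6

/-- Padé lower bound for `-log` -/
lemma log_pd1 {z : ℝ} (hz : 0 < z) (hz1 : z ≤ 1) :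
    3 * (1 - z ^ 2) / (z ^ 2 + 4 * z + 1) ≤ -Real.log z := by
  have hd : ∀ x ∈ Ioi (0 : ℝ), HasDerivAt
      (fun x : ℝ => Real.log x + 3 * (1 - x ^ 2) / (x ^ 2 + 4 * x + 1))
      ((x - 1) ^ 4 / (x * (x ^ 2 + 4 * x + 1) ^ 2)) x := by
    intro x hx
    have hx' : (0 : ℝ) < x := hx
    have h1 := Real.hasDerivAt_log hx'.ne'
    have h2 : HasDerivAt (fun x : ℝ => 3 * (1 - x ^ 2)) (-(6 * x)) x := by
      have := ((hasDerivAt_pow 2 x).const_sub 1).const_mul 3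
      refine this.congr_deriv ?_
      norm_num
      ring
    have h3 : HasDerivAt (fun x : ℝ => x ^ 2 + 4 * x + 1) (2 * x + 4) x := by
      have := ((hasDerivAt_pow 2 x).add ((hasDerivAt_id x).const_mul 4)).add_const 1
      refine this.congr_deriv ?_
      norm_num
    have h4 : x ^ 2 + 4 * x + 1 ≠ 0 := by positivity
    refine (h1.add (h2.div h3 h4)).congr_deriv ?_
    field_simp
    ring
  have hm : MonotoneOn (fun x : ℝ => Real.log x + 3 * (1 - x ^ 2) / (x ^ 2 + 4 * x + 1))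
      (Ioi 0) := by
    refine monotoneOn_of_deriv_nonneg (convex_Ioi 0)
      (fun x hx => (hd x hx).continuousAt.continuousWithinAt) ?_ ?_
    · rw [interior_Ioi]
      exact fun x hx => (hd x hx).differentiableAt.differentiableWithinAt
    · rw [interior_Ioi]
      intro x hx
      rw [(hd x hx).deriv]
      have : (0 : ℝ) < x := hx
      positivity
  have h := hm (show z ∈ Ioi (0 : ℝ) from hz) (show (1 : ℝ) ∈ Ioi (0 : ℝ) by simp) hz1
  simp only [Real.log_one] at h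
  norm_num at h
  linarith

/-- Simpson upper bound for `-log` -/
lemma log_pd2 {z : ℝ} (hz : 0 < z) (hz1 : z ≤ 1) :
    -Real.log z ≤ (1 - z) * (1 + 10 * z + z ^ 2) / (6 * z * (1 + z)) := by
  have hd : ∀ x ∈ Ioi (0 : ℝ), HasDerivAt
      (fun x : ℝ => Real.log x + (1 - x) * (1 + 10 * x + x ^ 2) / (6 * x * (1 + x)))
      (-((x - 1) ^ 4 / (6 * x ^ 2 * (1 + x) ^ 2))) x := by
    intro x hx
    have hx' : (0 : ℝ) < x := hx
    have h1 := Real.hasDerivAt_log hx'.ne'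
    have h2 : HasDerivAt (fun x : ℝ => (1 - x) * (1 + 10 * x + x ^ 2))
        (-1 * (1 + 10 * x + x ^ 2) + (1 - x) * (10 + 2 * x)) x := by
      have a1 : HasDerivAt (fun x : ℝ => 1 - x) (-1) x := by
        simpa using (hasDerivAt_id x).const_sub 1
      have a2 : HasDerivAt (fun x : ℝ => 1 + 10 * x + x ^ 2) (10 + 2 * x) x := by
        have := (((hasDerivAt_id x).const_mul 10).const_add 1).add (hasDerivAt_pow 2 x)
        refine this.congr_deriv ?_
        norm_num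
      exact a1.mul a2
    have h3 : HasDerivAt (fun x : ℝ => 6 * x * (1 + x)) (6 * (1 + x) + 6 * x * 1) x := by
      have a1 : HasDerivAt (fun x : ℝ => 6 * x) 6 x := by
        simpa using (hasDerivAt_id x).const_mul 6
      have a2 : HasDerivAt (fun x : ℝ => 1 + x) 1 x := by
        simpa using (hasDerivAt_id x).const_add 1
      exact a1.mul a2
    have h4 : 6 * x * (1 + x) ≠ 0 := by positivity
    refine (h1.add (h2.div h3 h4)).congr_deriv ?_
    field_simp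
    ring
  have hm : AntitoneOn (fun x : ℝ => Real.log x +
      (1 - x) * (1 + 10 * x + x ^ 2) / (6 * x * (1 + x))) (Ioi 0) := by
    refine antitoneOn_of_deriv_nonpos (convex_Ioi 0)
      (fun x hx => (hd x hx).continuousAt.continuousWithinAt) ?_ ?_
    · rw [interior_Ioi]
      exact fun x hx => (hd x hx).differentiableAt.differentiableWithinAt
    · rw [interior_Ioi]
      intro x hx
      rw [(hd x hx).deriv]
      have : (0 : ℝ) < x := hx
      have : 0 ≤ (x - 1) ^ 4 / (6 * x ^ 2 * (1 + x) ^ 2) := by positivity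
      linarith
  have h := hm (show z ∈ Ioi (0 : ℝ) from hz) (show (1 : ℝ) ∈ Ioi (0 : ℝ) by simp) hz1
  simp only [Real.log_one] at h
  norm_num at h
  linarith

/-- the polynomial inequality -/
lemma poly_bd {z : ℝ} (hz : 0 ≤ z) (hz1 : z ≤ 1) :
    6 * (3 * (1 + z) ^ 2 * (1 + z ^ 2)) ^ 3 * ((1 + 4 * z + z ^ 2) * (1 + z ^ 2)) ≤
      (6 * (3 * (1 + z) ^ 2 * (1 + z ^ 2)) ^ 3 +
        6 * (3 * (1 + z) ^ 2 * (1 + z ^ 2) - 2 * z ^ 3 * (1 + 10 * z + z ^ 2)) *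
          (3 * (1 + z) ^ 2 * (1 + z ^ 2)) ^ 2 +
        3 * (3 * (1 + z) ^ 2 * (1 + z ^ 2) - 2 * z ^ 3 * (1 + 10 * z + z ^ 2)) ^ 2 *
          (3 * (1 + z) ^ 2 * (1 + z ^ 2)) +
        (3 * (1 + z) ^ 2 * (1 + z ^ 2) - 2 * z ^ 3 * (1 + 10 * z + z ^ 2)) ^ 3) *
        (12 * (1 / 10 + 9 / 10 * z ^ 4)) := by
  have key : (0 : ℝ) ≤ 1782/5 + 9234/5 * z ^ 1 + 4050 * z ^ 2 + 15066/5 * z ^ 3 + (-8910) * z ^ 4 + (-163134/5) * z ^ 5 + (-246294/5) * z ^ 6 + (-114318/5) * z ^ 7 + 63126 * z ^ 8 + 806982/5 * z ^ 9 + 984174/5 * z ^ 10 + 598542/5 * z ^ 11 + 4638/5 * z ^ 12 + (-254202/5) * z ^ 13 + (-171618/5) * z ^ 14 + 149094/5 * z ^ 15 + 69444/5 * z ^ 16 + 9504/5 * z ^ 17 + 432/5 * z ^ 18 := by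
    rcases le_total z (1 / 2) with h | h
    · have h1 : 0 ≤ 1 / 2 - z := by linarith
      calc (0 : ℝ) ≤ 467140608/5 * (z ^ 0 * (1 / 2 - z) ^ 18) +
      9618849792/5 * (z ^ 1 * (1 / 2 - z) ^ 17) +
      18675007488 * (z ^ 2 * (1 / 2 - z) ^ 16) +
      567517446144/5 * (z ^ 3 * (1 / 2 - z) ^ 15) +
      483678978048 * (z ^ 4 * (1 / 2 - z) ^ 14) +
      7666479415296/5 * (z ^ 5 * (1 / 2 - z) ^ 13) +
      18716602687488/5 * (z ^ 6 * (1 / 2 - z) ^ 12) +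
      35933591015424/5 * (z ^ 7 * (1 / 2 - z) ^ 11) +
      54907717625856/5 * (z ^ 8 * (1 / 2 - z) ^ 10) +
      67140211436544/5 * (z ^ 9 * (1 / 2 - z) ^ 9) +
      65689334850048/5 * (z ^ 10 * (1 / 2 - z) ^ 8) +
      51144693188352/5 * (z ^ 11 * (1 / 2 - z) ^ 7) +
      6266785621632 * (z ^ 12 * (1 / 2 - z) ^ 6) +
      14832088996032/5 * (z ^ 13 * (1 / 2 - z) ^ 5) +
      5276641955616/5 * (z ^ 14 * (1 / 2 - z) ^ 4) +
      270747697008 * (z ^ 15 * (1 / 2 - z) ^ 3) +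
      47007661920 * (z ^ 16 * (1 / 2 - z) ^ 2) +
      4961324400 * (z ^ 17 * (1 / 2 - z) ^ 1) +
      248970000 * (z ^ 18 * (1 / 2 - z) ^ 0) := by positivity
        _ = _ := by ring
    · have h1 : 0 ≤ z - 1 / 2 := by linarith
      have h2 : 0 ≤ 1 - z := by linarith
      calc (0 : ℝ) ≤ 248970000 * ((z - 1 / 2) ^ 0 * (1 - z) ^ 18) +
      4001595600 * ((z - 1 / 2) ^ 1 * (1 - z) ^ 17) +
      30692272320 * ((z - 1 / 2) ^ 2 * (1 - z) ^ 16) +
      159813170832 * ((z - 1 / 2) ^ 3 * (1 - z) ^ 15) +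
      3482708332416/5 * ((z - 1 / 2) ^ 4 * (1 - z) ^ 14) +
      13987176892416/5 * ((z - 1 / 2) ^ 5 * (1 - z) ^ 13) +
      49998019709952/5 * ((z - 1 / 2) ^ 6 * (1 - z) ^ 12) +
      148334810167296/5 * ((z - 1 / 2) ^ 7 * (1 - z) ^ 11) +
      351295531628544/5 * ((z - 1 / 2) ^ 8 * (1 - z) ^ 10) +
      131213052801024 * ((z - 1 / 2) ^ 9 * (1 - z) ^ 9) +
      964300992872448/5 * ((z - 1 / 2) ^ 10 * (1 - z) ^ 8) +
      1114237630808064/5 * ((z - 1 / 2) ^ 11 * (1 - z) ^ 7) +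
      201501367074816 * ((z - 1 / 2) ^ 12 * (1 - z) ^ 6) +
      705373063348224/5 * ((z - 1 / 2) ^ 13 * (1 - z) ^ 5) +
      375015044284416/5 * ((z - 1 / 2) ^ 14 * (1 - z) ^ 4) +
      146454073049088/5 * ((z - 1 / 2) ^ 15 * (1 - z) ^ 3) +
      39648856375296/5 * ((z - 1 / 2) ^ 16 * (1 - z) ^ 2) +
      6653441212416/5 * ((z - 1 / 2) ^ 17 * (1 - z) ^ 1) +
      521838526464/5 * ((z - 1 / 2) ^ 18 * (1 - z) ^ 0) := by positivity
        _ = _ := by ring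
  have h1 : 0 ≤ 1 - z := by linarith
  have h2 := mul_nonneg h1 key
  have e : (6 * (3 * (1 + z) ^ 2 * (1 + z ^ 2)) ^ 3 +
        6 * (3 * (1 + z) ^ 2 * (1 + z ^ 2) - 2 * z ^ 3 * (1 + 10 * z + z ^ 2)) *
          (3 * (1 + z) ^ 2 * (1 + z ^ 2)) ^ 2 +
        3 * (3 * (1 + z) ^ 2 * (1 + z ^ 2) - 2 * z ^ 3 * (1 + 10 * z + z ^ 2)) ^ 2 *
          (3 * (1 + z) ^ 2 * (1 + z ^ 2)) +
        (3 * (1 + z) ^ 2 * (1 + z ^ 2) - 2 * z ^ 3 * (1 + 10 * z + z ^ 2)) ^ 3) *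
        (12 * (1 / 10 + 9 / 10 * z ^ 4)) -
      6 * (3 * (1 + z) ^ 2 * (1 + z ^ 2)) ^ 3 * ((1 + 4 * z + z ^ 2) * (1 + z ^ 2)) =
      (1 - z) * (1782/5 + 9234/5 * z ^ 1 + 4050 * z ^ 2 + 15066/5 * z ^ 3 + (-8910) * z ^ 4 + (-163134/5) * z ^ 5 + (-246294/5) * z ^ 6 + (-114318/5) * z ^ 7 + 63126 * z ^ 8 + 806982/5 * z ^ 9 + 984174/5 * z ^ 10 + 598542/5 * z ^ 11 + 4638/5 * z ^ 12 + (-254202/5) * z ^ 13 + (-171618/5) * z ^ 14 + 149094/5 * z ^ 15 + 69444/5 * z ^ 16 + 9504/5 * z ^ 17 + 432/5 * z ^ 18) := by ring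
  rw [← sub_nonneg, e]
  exact h2

/-- the derivative inequality -/
lemma ineq4 {Y : ℝ} (hY : 0 < Y) (hY1 : Y < 1) :
    1 ≤ Real.exp (EE Y) * (-Real.log Y / (1 - Y)) * (1 / 10 + 9 / 10 * Y) := by
  obtain ⟨z, hz0, hz1, hzY⟩ : ∃ z : ℝ, 0 < z ∧ z < 1 ∧ z ^ 4 = Y := by
    refine ⟨Real.sqrt (Real.sqrt Y), by positivity, ?_, ?_⟩
    · rw [Real.sqrt_lt' one_pos, one_pow, Real.sqrt_lt' one_pos]
      linarith
    · have : Real.sqrt (Real.sqrt Y) ^ 4 = (Real.sqrt (Real.sqrt Y) ^ 2) ^ 2 := by ring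
      rw [this, Real.sq_sqrt (Real.sqrt_nonneg _), Real.sq_sqrt hY.le]
  subst hzY
  have hlog : Real.log (z ^ 4) = 4 * Real.log z := by rw [Real.log_pow]; norm_num
  have hb1 := log_pd1 hz0 hz1.le
  have hb2 := log_pd2 hz0 hz1.le
  have hz4 : 0 < 1 - z ^ 4 := by
    have := pow_lt_one₀ hz0.le hz1 (n := 4) (by norm_num)
    linarith
  set D := 3 * (1 + z) ^ 2 * (1 + z ^ 2) with hD
  have hDpos : 0 < D := by positivity
  set A := D - 2 * z ^ 3 * (1 + 10 * z + z ^ 2) with hA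
  -- lower bound of E
  have hE : A / D ≤ EE (z ^ 4) := by
    unfold EE
    rw [hlog]
    have h1 : -(4 * z ^ 4 * ((1 - z) * (1 + 10 * z + z ^ 2) / (6 * z * (1 + z)))) ≤
        z ^ 4 * (4 * Real.log z) := by
      have := mul_le_mul_of_nonneg_left hb2 (show 0 ≤ 4 * z ^ 4 by positivity)
      linarith
    have h2 : -(4 * z ^ 4 * ((1 - z) * (1 + 10 * z + z ^ 2) / (6 * z * (1 + z)))) / (1 - z ^ 4) =
        -(2 * z ^ 3 * (1 + 10 * z + z ^ 2)) / D := by
      have e : 1 - z ^ 4 = (1 - z) * ((1 + z) * (1 + z ^ 2)) := by ring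
      have h3 : 1 - z ≠ 0 := by linarith
      rw [e, hD]
      field_simp
      norm_num
    have h3 := div_le_div_of_nonneg_right h1 hz4.le
    rw [h2] at h3
    have h4 : A / D = 1 + -(2 * z ^ 3 * (1 + 10 * z + z ^ 2)) / D := by
      rw [hA]; field_simp; ring
    rw [h4]
    linarith
  have hE0 : 0 ≤ A / D := by
    refine div_nonneg ?_ hDpos.le
    have h1 : z ^ 3 ≤ 1 := pow_le_one₀ hz0.le hz1.le
    have h2 : 0 ≤ 1 + 10 * z + z ^ 2 := by positivity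
    have h3 : 2 * z ^ 3 * (1 + 10 * z + z ^ 2) ≤ 2 * z * (1 + 10 * z + z ^ 2) := by
      have : z ^ 3 ≤ z := by
        calc z ^ 3 ≤ z ^ 1 := pow_le_pow_of_le_one hz0.le hz1.le (by norm_num)
          _ = z := pow_one z
      exact mul_le_mul_of_nonneg_right (by linarith) h2
    rw [hA, hD]
    nlinarith [mul_nonneg hz0.le (sub_nonneg.2 hz1.le), pow_pos hz0 2, pow_pos hz0 3,
      mul_nonneg (pow_pos hz0 2).le (sub_nonneg.2 hz1.le),
      mul_nonneg (pow_pos hz0 3).le (sub_nonneg.2 hz1.le), sq_nonneg (1 - z),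
      mul_nonneg hz0.le (sq_nonneg (1 - z)), mul_nonneg (pow_pos hz0 2).le (sq_nonneg (1 - z))]
  set e := A / D with he
  have hexp : 1 + e + e ^ 2 / 2 + e ^ 3 / 6 ≤ Real.exp (EE (z ^ 4)) := by
    have h1 := Real.sum_le_exp_of_nonneg hE0 4
    have h2 : ∑ i ∈ Finset.range 4, e ^ i / (i.factorial : ℝ) = 1 + e + e ^ 2 / 2 + e ^ 3 / 6 := by
      simp [Finset.sum_range_succ, Nat.factorial]
    rw [h2] at h1
    exact h1.trans (Real.exp_le_exp.2 hE)
  have hL : 12 / ((1 + 4 * z + z ^ 2) * (1 + z ^ 2)) ≤ -Real.log (z ^ 4) / (1 - z ^ 4) := by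
    rw [hlog, le_div_iff₀ hz4]
    have : 12 / ((1 + 4 * z + z ^ 2) * (1 + z ^ 2)) * (1 - z ^ 4) =
        4 * (3 * (1 - z ^ 2) / (z ^ 2 + 4 * z + 1)) := by
      have : 1 + 4 * z + z ^ 2 ≠ 0 := by positivity
      have : z ^ 2 + 4 * z + 1 ≠ 0 := by positivity
      field_simp
      ring
    rw [this]
    linarith
  have hpoly := poly_bd hz0.le hz1.le
  rw [← hD, ← hA] at hpoly
  have hprod : 1 ≤ (1 + e + e ^ 2 / 2 + e ^ 3 / 6) *
      (12 / ((1 + 4 * z + z ^ 2) * (1 + z ^ 2))) * (1 / 10 + 9 / 10 * z ^ 4) := by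
    have h1 : (1 + e + e ^ 2 / 2 + e ^ 3 / 6) *
        (12 / ((1 + 4 * z + z ^ 2) * (1 + z ^ 2))) * (1 / 10 + 9 / 10 * z ^ 4) =
        ((6 * D ^ 3 + 6 * A * D ^ 2 + 3 * A ^ 2 * D + A ^ 3) *
        (12 * (1 / 10 + 9 / 10 * z ^ 4))) /
          (6 * D ^ 3 * ((1 + 4 * z + z ^ 2) * (1 + z ^ 2))) := by
      rw [he]
      have : 1 + 4 * z + z ^ 2 ≠ 0 := by positivity
      field_simp
      ring
    rw [h1, one_le_div (by positivity)]
    exact hpoly
  calc (1 : ℝ) ≤ (1 + e + e ^ 2 / 2 + e ^ 3 / 6) *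
      (12 / ((1 + 4 * z + z ^ 2) * (1 + z ^ 2))) * (1 / 10 + 9 / 10 * z ^ 4) := hprod
    _ ≤ Real.exp (EE (z ^ 4)) * (-Real.log (z ^ 4) / (1 - z ^ 4)) *
        (1 / 10 + 9 / 10 * z ^ 4) := by
      refine mul_le_mul_of_nonneg_right ?_ (by positivity)
      refine mul_le_mul hexp hL (by positivity) (Real.exp_pos _).le

lemma ineq3 {Y : ℝ} (hY : 0 ≤ Y) (hY1 : Y < 1) :
    -Real.log (1 - 9 / 10 * (1 - Y)) ≤ 9 / 10 * (1 - Y) * Real.exp (EE Y) := by
  set M : ℝ → ℝ := fun Y => 9 / 10 * (1 - Y) * Real.exp (EE Y) +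
    Real.log (1 - 9 / 10 * (1 - Y)) with hM
  have hEd : ∀ x ∈ Ioo (0 : ℝ) 1, HasDerivAt EE ((Real.log x + (1 - x)) / (1 - x) ^ 2) x := by
    intro x hx
    have h1 : HasDerivAt (fun x : ℝ => x * Real.log x) (Real.log x + 1) x :=
      Real.hasDerivAt_mul_log hx.1.ne'
    have h2 : HasDerivAt (fun x : ℝ => 1 - x) (-1) x := by
      simpa using (hasDerivAt_id x).const_sub 1
    have h3 : (1 - x) ≠ 0 := by linarith [hx.2]
    have h4 := (h1.div h2 h3).const_add 1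
    unfold EE
    refine h4.congr_deriv ?_
    field_simp
    ring
  have hMd : ∀ x ∈ Ioo (0 : ℝ) 1, HasDerivAt M
      (9 / 10 * Real.exp (EE x) * (Real.log x / (1 - x)) +
        9 / 10 / (1 / 10 + 9 / 10 * x)) x := by
    intro x hx
    have h3 : (1 - x) ≠ 0 := by linarith [hx.2]
    have h4 : (0 : ℝ) < 1 / 10 + 9 / 10 * x := by linarith [hx.1]
    have h2 : HasDerivAt (fun x : ℝ => 9 / 10 * (1 - x)) (-(9 / 10)) x := by
      simpa using ((hasDerivAt_id x).const_sub 1).const_mul (9 / 10 : ℝ)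
    have h5 := h2.mul (hEd x hx).exp
    have h6 : HasDerivAt (fun x : ℝ => 1 - 9 / 10 * (1 - x)) (9 / 10) x := by
      simpa using h2.const_sub 1
    have h7 : (1 : ℝ) - 9 / 10 * (1 - x) = 1 / 10 + 9 / 10 * x := by ring
    have h8 := h6.log (by rw [h7]; exact h4.ne')
    refine (h5.add h8).congr_deriv ?_
    rw [h7]
    field_simp
    ring
  have hEc : ContinuousOn EE (Ico 0 1) := by
    unfold EE
    refine continuousOn_const.add (ContinuousOn.div Real.continuous_mul_log.continuousOn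
      (by fun_prop) (fun x hx => ?_))
    have := hx.2
    intro h
    linarith
  have hMc : ContinuousOn M (Ico 0 1) := by
    refine ContinuousOn.add (ContinuousOn.mul (by fun_prop) hEc.rexp)
      (ContinuousOn.log (by fun_prop) (fun x hx => ?_))
    have := hx.1
    intro h
    linarith
  have hanti : AntitoneOn M (Ico 0 1) := by
    refine antitoneOn_of_deriv_nonpos (convex_Ico 0 1) hMc ?_ ?_
    · rw [interior_Ico]
      exact fun x hx => (hMd x hx).differentiableAt.differentiableWithinAt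
    · rw [interior_Ico]
      intro x hx
      rw [(hMd x hx).deriv]
      have h4 : (0 : ℝ) < 1 / 10 + 9 / 10 * x := by linarith [hx.1]
      have h5 := ineq4 hx.1 hx.2
      have h6 : 9 / 10 / (1 / 10 + 9 / 10 * x) ≤
          9 / 10 * (Real.exp (EE x) * (-Real.log x / (1 - x))) := by
        rw [div_le_iff₀ h4]
        nlinarith
      have h7 : 9 / 10 * (Real.exp (EE x) * (-Real.log x / (1 - x))) =
          -(9 / 10 * Real.exp (EE x) * (Real.log x / (1 - x))) := by ring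
      linarith
  have h0 : 0 ≤ M Y := by
    have hlim : Tendsto (fun x : ℝ => Real.log (1 - 9 / 10 * (1 - x))) (𝓝[<] 1) (𝓝 0) := by
      have : ContinuousAt (fun x : ℝ => Real.log (1 - 9 / 10 * (1 - x))) 1 := by
        refine ContinuousAt.log (by fun_prop) (by norm_num)
      have h2 := this.tendsto
      norm_num at h2
      exact h2.mono_left nhdsWithin_le_nhds
    refine le_of_tendsto hlim ?_
    have h3 : Ioo Y 1 ∈ 𝓝[<] (1 : ℝ) := Ioo_mem_nhdsLT hY1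
    filter_upwards [h3] with x hx
    have hx0 : x ∈ Ico (0 : ℝ) 1 := ⟨hY.trans hx.1.le, hx.2⟩
    have h4 := hanti ⟨hY, hY1⟩ hx0 hx.1.le
    refine le_trans ?_ h4
    simp only [hM]
    have : 0 ≤ 9 / 10 * (1 - x) * Real.exp (EE x) :=
      mul_nonneg (by linarith [hx.2]) (Real.exp_pos _).le
    linarith
  simp only [hM] at h0
  linarith

/-- `-log Q ≤ (1-Q) exp(EE Y)` if `1 - Q ≤ (9/10) (1-Y)` -/
lemma ineq5 {Y Q : ℝ} (hY : 0 ≤ Y) (hY1 : Y < 1) (hQ1 : Q < 1)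
    (h : 1 - Q ≤ 9 / 10 * (1 - Y)) : -Real.log Q ≤ (1 - Q) * Real.exp (EE Y) := by
  set Q0 := 1 - 9 / 10 * (1 - Y) with hQ0
  have hQ0Q : Q0 ≤ Q := by linarith
  have hQ0p : 0 < Q0 := by linarith
  have hQp : 0 < Q := by linarith
  have h3 := ineq3 hY hY1
  rw [← hQ0] at h3
  have h4 : 9 / 10 * (1 - Y) = 1 - Q0 := by rw [hQ0]; ring
  rw [h4] at h3
  -- `log Q ≥ convex combination`
  have hQ01 : 0 < 1 - Q0 := by linarith
  obtain ⟨_, hcc⟩ := strictConcaveOn_log_Ioi.concaveOn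
  have ha : 0 ≤ (1 - Q) / (1 - Q0) := div_nonneg (by linarith) hQ01.le
  have hb : 0 ≤ (Q - Q0) / (1 - Q0) := div_nonneg (by linarith) hQ01.le
  have hab : (1 - Q) / (1 - Q0) + (Q - Q0) / (1 - Q0) = 1 := by field_simp; ring
  have hconc := hcc (show Q0 ∈ Ioi (0 : ℝ) from hQ0p)
    (show (1 : ℝ) ∈ Ioi (0 : ℝ) by simp) ha hb hab
  simp only [smul_eq_mul, Real.log_one, mul_zero, add_zero, mul_one] at hconc
  have e1 : (1 - Q) / (1 - Q0) * Q0 + (Q - Q0) / (1 - Q0) = Q := by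
    field_simp
    ring
  rw [e1] at hconc
  have h5 : (1 - Q) / (1 - Q0) * (-Real.log Q0) ≤ (1 - Q) / (1 - Q0) * ((1 - Q0) * Real.exp (EE Y)) :=
    mul_le_mul_of_nonneg_left h3 (div_nonneg (by linarith) hQ01.le)
  have e2 : (1 - Q) / (1 - Q0) * ((1 - Q0) * Real.exp (EE Y)) = (1 - Q) * Real.exp (EE Y) := by
    field_simp
  rw [e2] at h5
  linarith

/-- the truncated cone inequality, `n = k+1` -/
lemma ineqE (k : ℕ) {q y : ℝ} (hy : 0 ≤ y) (hyq : y ≤ q) (hq : 0 < q) (hq1 : q < 1)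
    (h : 1 - q ^ (k + 2) ≤ 9 / 10 * (1 - y ^ (k + 2))) :
    (1 - q) * ((1 - y ^ (k + 2)) / (k + 2)) ^ (k + 1) ≤
      (1 - q ^ (k + 2)) / (k + 2) * ((1 - y ^ (k + 1)) / (k + 1)) ^ (k + 1) := by
  have hy1 : y < 1 := lt_of_le_of_lt hyq hq1
  have hY0 : 0 ≤ y ^ (k + 2) := by positivity
  have hY1 : y ^ (k + 2) < 1 := pow_lt_one₀ hy hy1 (by omega)
  have hQ1 : q ^ (k + 2) < 1 := pow_lt_one₀ hq.le hq1 (by omega)
  have hQ0 : 0 < q ^ (k + 2) := by positivity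
  have hk1 : (0 : ℝ) < (k : ℝ) + 1 := by positivity
  have hk2 : (0 : ℝ) < (k : ℝ) + 2 := by positivity
  have h1 := ineq1 k hy hy1
  have h2 := ineq2 (k + 1) hq hq1
  have h5 := ineq5 hY0 hY1 hQ1 h
  set m0 := 1 / ((k : ℝ) + 2) + y ^ (k + 2) * Real.log y / (1 - y ^ (k + 2)) with hm0
  -- `EE (y^(k+2)) = (k+2) m0`
  have hEE : EE (y ^ (k + 2)) = ((k : ℝ) + 2) * m0 := by
    unfold EE
    rw [hm0, Real.log_pow]
    push_cast
    field_simp
  have hexp : Real.exp (EE (y ^ (k + 2))) = Real.exp m0 ^ (k + 2) := by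
    rw [hEE, ← Real.exp_nat_mul]
    push_cast
    ring_nf
  rw [hexp, Real.log_pow] at h5
  push_cast at h5 h2
  -- h5 : -((k+2) log q) ≤ (1-Q) X^{k+2}
  set X := Real.exp m0 with hX
  have hX0 : 0 < X := Real.exp_pos _
  set Q := q ^ (k + 2) with hQ
  set Y := y ^ (k + 2) with hY
  have hlq : 0 < -Real.log q := by
    have := Real.log_neg hq hq1
    linarith
  -- `(1-q) ≤ (1-Q)/(k+2) * X^{k+1}`
  have h6 : (1 - q) ≤ (1 - Q) / (k + 2) * X ^ (k + 1) := by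
    have h7 : (1 - q) ^ (k + 2) ≤ ((1 - Q) / (k + 2) * X ^ (k + 1)) ^ (k + 2) := by
      have h8 : -Real.log q ≤ (1 - Q) / (k + 2) * X ^ (k + 2) := by
        rw [div_mul_eq_mul_div, le_div_iff₀ hk2]
        linarith
      have h9 := pow_le_pow_left₀ hlq.le h8 (k + 1)
      have h10 : ((k : ℝ) + 2) * (1 - q) ^ (k + 2) ≤
          ((1 - Q) / (k + 2) * X ^ (k + 2)) ^ (k + 1) * (1 - Q) := by
        have e : (k : ℝ) + 1 + 1 = k + 2 := by ring
        rw [e] at h2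
        exact h2.trans (mul_le_mul_of_nonneg_right h9 (by linarith))
      have h11 : (1 - q) ^ (k + 2) ≤
          ((1 - Q) / (k + 2) * X ^ (k + 2)) ^ (k + 1) * (1 - Q) / (k + 2) := by
        rw [le_div_iff₀ hk2]
        linarith
      refine h11.trans (le_of_eq ?_)
      rw [mul_pow, mul_pow, ← pow_mul, ← pow_mul, mul_comm (k + 2) (k + 1), pow_succ ((1 - Q) / _) (k + 1)]
      ring
    exact le_of_pow_le_pow_left₀ (by omega)
      (mul_nonneg (div_nonneg (by linarith) hk2.le) (by positivity)) h7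
  have h12 : X * ((1 - Y) / (k + 2)) ≤ (1 - y ^ (k + 1)) / (k + 1) := by
    rw [← mul_div_assoc]
    exact h1
  have hYd : 0 ≤ (1 - Y) / (k + 2) := div_nonneg (by linarith) hk2.le
  calc (1 - q) * ((1 - Y) / (k + 2)) ^ (k + 1)
      ≤ ((1 - Q) / (k + 2) * X ^ (k + 1)) * ((1 - Y) / (k + 2)) ^ (k + 1) :=
        mul_le_mul_of_nonneg_right h6 (by positivity)
    _ = (1 - Q) / (k + 2) * (X * ((1 - Y) / (k + 2))) ^ (k + 1) := by rw [mul_pow]; ring
    _ ≤ (1 - Q) / (k + 2) * ((1 - y ^ (k + 1)) / (k + 1)) ^ (k + 1) := by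
        refine mul_le_mul_of_nonneg_left ?_ (div_nonneg (by linarith) hk2.le)
        exact pow_le_pow_left₀ (by positivity) h12 _

/-- **the truncated cone comparison and the resulting bound** (`n = k+2`) -/
theorem main (k : ℕ) {r : ℝ → ℝ} (hr : Prof r) {x : ℝ} (hx : x ∈ Ioo (0 : ℝ) 1)
    (hp : ∫ u in (0 : ℝ)..x, r u ^ (k + 2) ≤ 9 / 10 * ∫ u in (0 : ℝ)..1, r u ^ (k + 2)) :
    x * (∫ u in (0 : ℝ)..1, r u ^ (k + 2)) ^ (k + 2) ≤
      (∫ u in (0 : ℝ)..x, r u ^ (k + 2)) * (∫ u in (0 : ℝ)..1, r u ^ (k + 1)) ^ (k + 2) := by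
  have hxI : x ∈ Icc (-1 : ℝ) 1 := ⟨by linarith [hx.1], hx.2.le⟩
  have hρ := hr.pos x ⟨by linarith [hx.1], hx.2⟩
  obtain ⟨β, hβ, hline⟩ := prof_support hr hx
  set ρ := r x with hρdef
  have h0 : (0 : ℝ) ∈ Icc (-1 : ℝ) 1 := by norm_num
  have h1 : (1 : ℝ) ∈ Icc (-1 : ℝ) 1 := by norm_num
  have hri : ∀ (j : ℕ) {a b : ℝ}, a ∈ Icc (-1 : ℝ) 1 → b ∈ Icc (-1 : ℝ) 1 →
      IntervalIntegrable (fun u => r u ^ j) volume a b :=
    fun j a b ha hb => prof_intervalIntegrable hr j ha hb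
  have hrc : ContinuousOn r (Icc (-1) 1) := hr.cont
  set P := ∫ u in (0 : ℝ)..x, r u ^ (k + 2) with hP
  set Q := ∫ u in x..1, r u ^ (k + 2) with hQ
  have hPQ : ∫ u in (0 : ℝ)..1, r u ^ (k + 2) = P + Q :=
    (intervalIntegral.integral_add_adjacent_intervals (hri _ h0 hxI) (hri _ hxI h1)).symm
  rw [hPQ] at hp ⊢
  -- the slope `σ`
  have hHc : Continuous (fun σ : ℝ => ∫ u in (0 : ℝ)..x, (ρ - σ * (u - x)) ^ (k + 2)) := by
    refine intervalIntegral.continuous_parametric_intervalIntegral_of_continuous' ?_ _ _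
    fun_prop
  have hH0 : ∫ u in (0 : ℝ)..x, (ρ - 0 * (u - x)) ^ (k + 2) ≤ P := by
    have := le_integral_left hr (k + 2) (x := x) ⟨hx.1.le, hx.2.le⟩
    simpa using this
  have hHβ : P ≤ ∫ u in (0 : ℝ)..x, (ρ - β * (u - x)) ^ (k + 2) := by
    refine intervalIntegral.integral_mono_on hx.1.le (hri _ h0 hxI)
      (Continuous.intervalIntegrable (by fun_prop) _ _) (fun u hu => ?_)
    exact pow_le_pow_left₀ (hr.nonneg' ⟨by linarith [hu.1], by linarith [hu.2, hx.2]⟩)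
      (hline u ⟨by linarith [hu.1], by linarith [hu.2, hx.2]⟩) _
  obtain ⟨σ, hσ, hσP⟩ : ∃ σ ∈ Icc 0 β, ∫ u in (0 : ℝ)..x, (ρ - σ * (u - x)) ^ (k + 2) = P :=
    intermediate_value_Icc hβ hHc.continuousOn ⟨hH0, hHβ⟩
  set l : ℝ → ℝ := fun u => ρ - σ * (u - x) with hl
  have hlc : Continuous l := by simp only [hl]; fun_prop
  have hla : Antitone l := fun a b hab => by
    simp only [hl]
    have := mul_le_mul_of_nonneg_left hab hσ.1
    linarith
  have hlx : l x = r x := by simp [hl, hρdef]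
  have hrl : ∀ u ∈ Icc x 1, r u ≤ l u := by
    intro u hu
    have h2 := hline u ⟨by linarith [hu.1, hx.1], hu.2⟩
    have h3 : σ * (u - x) ≤ β * (u - x) := mul_le_mul_of_nonneg_right hσ.2 (by linarith [hu.1])
    simp only [hl]
    linarith
  have hrantiI : AntitoneOn r (Icc 0 1) := hr.antitoneOn_right
  -- head
  have hhead : ∫ u in (0 : ℝ)..x, l u ^ (k + 1) ≤ ∫ u in (0 : ℝ)..x, r u ^ (k + 1) := by
    have hsub : Icc 0 x ⊆ Icc (-1 : ℝ) 1 := Icc_subset_Icc (by norm_num) hx.2.le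
    have hsub2 : Icc 0 x ⊆ Icc (0 : ℝ) 1 := Icc_subset_Icc le_rfl hx.2.le
    refine head_le k hx.1 (hrc.mono hsub) hlc.continuousOn ?_ hlx
      (fun u hu => hr.pos u ⟨by linarith [hu.1], by linarith [hu.2, hx.2]⟩) ?_
      (hrantiI.mono hsub2) hσP
    · refine (hr.conc.subset hsub (convex_Icc _ _)).sub ?_
      refine ⟨convex_Icc _ _, fun a _ b _ s t _ _ hst => le_of_eq ?_⟩
      simp only [hl, smul_eq_mul]
      have : s = 1 - t := by linarith
      rw [this]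
      ring
    · intro u hu
      have h2 : l x ≤ l u := hla hu.2
      rw [hlx] at h2
      linarith
  -- the truncation point `b`
  have hlI : ∀ (j : ℕ) (c d : ℝ), IntervalIntegrable (fun u => l u ^ j) volume c d :=
    fun j c d => (hlc.pow j).intervalIntegrable c d
  have hGc : Continuous (fun b : ℝ => ∫ u in x..b, l u ^ (k + 2)) :=
    intervalIntegral.continuous_primitive (fun a b => hlI _ a b) x
  have hr0 : ∀ u ∈ Icc x 1, 0 ≤ r u := fun u hu => hr.nonneg' ⟨by linarith [hu.1, hx.1], hu.2⟩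
  have hQ0 : 0 ≤ Q := intervalIntegral.integral_nonneg hx.2.le fun u hu => pow_nonneg (hr0 u hu) _
  have hQ1 : Q ≤ ∫ u in x..1, l u ^ (k + 2) :=
    intervalIntegral.integral_mono_on hx.2.le (hri _ hxI h1) (hlI _ _ _)
      (fun u hu => pow_le_pow_left₀ (hr0 u hu) (hrl u hu) _)
  obtain ⟨b, hb, hbQ⟩ : ∃ b ∈ Icc x 1, ∫ u in x..b, l u ^ (k + 2) = Q :=
    intermediate_value_Icc hx.2.le hGc.continuousOn
      ⟨by simpa using hQ0, hQ1⟩
  have htail : ∫ u in x..b, l u ^ (k + 1) ≤ ∫ u in x..1, r u ^ (k + 1) :=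
    tail_le k hb.1 hb.2 (hrc.mono (Icc_subset_Icc (by linarith [hx.1]) le_rfl)) hlc hr0
      (fun u hu => hr.pos u ⟨by linarith [hu.1, hx.1], hu.2⟩) hrl hla hbQ
  have hsum : ∫ u in (0 : ℝ)..b, l u ^ (k + 1) ≤ ∫ u in (0 : ℝ)..1, r u ^ (k + 1) := by
    rw [← intervalIntegral.integral_add_adjacent_intervals (hlI _ 0 x) (hlI _ x b),
      ← intervalIntegral.integral_add_adjacent_intervals (hri _ h0 hxI) (hri _ hxI h1)]
    exact add_le_add hhead htail
  have hsum2 : ∫ u in (0 : ℝ)..b, l u ^ (k + 2) = P + Q := by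
    rw [← intervalIntegral.integral_add_adjacent_intervals (hlI _ 0 x) (hlI _ x b), hbQ]
    rw [← hσP]
  have hP0 : 0 ≤ P := intervalIntegral.integral_nonneg hx.1.le fun u hu =>
    pow_nonneg (hr.nonneg' ⟨by linarith [hu.1], by linarith [hu.2, hx.2]⟩) _
  have hlb0 : 0 ≤ l b := (hr0 b hb).trans (hrl b hb)
  have hI10 : 0 ≤ ∫ u in (0 : ℝ)..b, l u ^ (k + 1) := by
    refine intervalIntegral.integral_nonneg (hx.1.le.trans hb.1) fun u hu => ?_
    exact pow_nonneg (hlb0.trans (hla hu.2)) _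
  suffices h : x * (P + Q) ^ (k + 2) ≤ P * (∫ u in (0 : ℝ)..b, l u ^ (k + 1)) ^ (k + 2) from
    h.trans (mul_le_mul_of_nonneg_left (pow_le_pow_left₀ hI10 hsum _) hP0)
  rcases hσ.1.eq_or_lt with hs | hs
  · -- `σ = 0`
    have hl2 : ∀ (j : ℕ) (d : ℝ), ∫ u in (0 : ℝ)..d, l u ^ j = d * ρ ^ j := by
      intro j d
      simp [hl, ← hs]
    have e1 : P = x * ρ ^ (k + 2) := by rw [← hσP]; exact hl2 (k + 2) x
    rw [← hsum2, hl2, hl2, e1]
    refine le_of_eq ?_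
    rw [mul_pow, mul_pow, ← pow_mul, ← pow_mul]
    have : (k + 2) * (k + 2) = (k + 2) + (k + 1) * (k + 2) := by ring
    rw [this, pow_add]
    ring
  · -- `σ > 0`
    set A := ρ + σ * x with hA
    set v := l b with hv
    have hl0 : l 0 = A := by simp only [hl, hA]; ring
    have hAρ : ρ < A := by
      have := mul_pos hs hx.1
      linarith
    have hA0 : 0 < A := hρ.trans hAρ
    have hvρ : v ≤ ρ := by
      have := hla hb.1
      rwa [hlx] at this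
    have eP : P = (A ^ (k + 3) - ρ ^ (k + 3)) / (((k : ℝ) + 3) * σ) := by
      have := int_line (k + 2) (ρ := ρ) (x := x) (a := 0) (b := x) hs
      rw [← hσP, this]
      simp only [sub_self, mul_zero, sub_zero, zero_sub, mul_neg, sub_neg_eq_add]
      push_cast
      rw [← hA]
      ring_nf
    have ePQ : P + Q = (A ^ (k + 3) - v ^ (k + 3)) / (((k : ℝ) + 3) * σ) := by
      have := int_line (k + 2) (ρ := ρ) (x := x) (a := 0) (b := b) hs
      rw [← hsum2]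
      simp only [hl] at hv ⊢
      rw [this, hv]
      simp only [zero_sub, mul_neg, sub_neg_eq_add]
      push_cast
      rw [← hA]
      ring_nf
    have eI : ∫ u in (0 : ℝ)..b, l u ^ (k + 1) =
        (A ^ (k + 2) - v ^ (k + 2)) / (((k : ℝ) + 2) * σ) := by
      have := int_line (k + 1) (ρ := ρ) (x := x) (a := 0) (b := b) hs
      simp only [hl] at hv ⊢
      rw [this, hv]
      simp only [zero_sub, mul_neg, sub_neg_eq_add]
      push_cast
      rw [← hA]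
      ring_nf
    have ex : x = (A - ρ) / σ := by rw [hA]; field_simp; ring
    -- scale
    set q := ρ / A with hq
    set y := v / A with hy
    have hq0 : 0 < q := div_pos hρ hA0
    have hq1 : q < 1 := (div_lt_one hA0).2 hAρ
    have hy0 : 0 ≤ y := div_nonneg hlb0 hA0.le
    have hyq : y ≤ q := div_le_div_of_nonneg_right hvρ hA0.le
    have eρ : ρ = q * A := by rw [hq]; field_simp
    have ev : v = y * A := by rw [hy]; field_simp
    have hk3 : (0 : ℝ) < (k : ℝ) + 3 := by positivity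
    have hcond : 1 - q ^ (k + 3) ≤ 9 / 10 * (1 - y ^ (k + 3)) := by
      rw [ePQ, eP, eρ, ev, mul_pow, mul_pow] at hp
      have hAk : 0 < A ^ (k + 3) := by positivity
      have e1 : (A ^ (k + 3) - q ^ (k + 3) * A ^ (k + 3)) / (((k : ℝ) + 3) * σ) =
          (1 - q ^ (k + 3)) * (A ^ (k + 3) / (((k : ℝ) + 3) * σ)) := by ring
      have e2 : 9 / 10 * ((A ^ (k + 3) - y ^ (k + 3) * A ^ (k + 3)) / (((k : ℝ) + 3) * σ)) =
          9 / 10 * (1 - y ^ (k + 3)) * (A ^ (k + 3) / (((k : ℝ) + 3) * σ)) := by ring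
      rw [e1, e2] at hp
      exact le_of_mul_le_mul_right hp (by positivity)
    have hE := ineqE (k + 1) hy0 hyq hq0 hq1 hcond
    push_cast at hE
    have c1 : (k : ℝ) + 1 + 2 = k + 3 := by ring
    have c2 : (k : ℝ) + 1 + 1 = k + 2 := by ring
    rw [c1, c2] at hE
    have d1 : k + 1 + 2 = k + 3 := by ring
    have d2 : k + 1 + 1 = k + 2 := by ring
    rw [d1, d2] at hE
    have hmul := mul_le_mul_of_nonneg_left hE
      (show 0 ≤ A / σ * (A ^ (k + 3) / σ) ^ (k + 2) by positivity)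
    rw [eI, ePQ, eP, ex, eρ, ev]
    have f1 : (A - q * A) / σ * ((A ^ (k + 3) - (y * A) ^ (k + 3)) / (((k : ℝ) + 3) * σ)) ^ (k + 2) =
        A / σ * (A ^ (k + 3) / σ) ^ (k + 2) * ((1 - q) * ((1 - y ^ (k + 3)) / (k + 3)) ^ (k + 2)) := by
      have : (A ^ (k + 3) - (y * A) ^ (k + 3)) / (((k : ℝ) + 3) * σ) =
          (A ^ (k + 3) / σ) * ((1 - y ^ (k + 3)) / (k + 3)) := by
        rw [mul_pow]; field_simp
      rw [this, mul_pow]
      ring
    have f2 : (A ^ (k + 3) - (q * A) ^ (k + 3)) / (((k : ℝ) + 3) * σ) *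
        ((A ^ (k + 2) - (y * A) ^ (k + 2)) / (((k : ℝ) + 2) * σ)) ^ (k + 2) =
        A / σ * (A ^ (k + 3) / σ) ^ (k + 2) *
          ((1 - q ^ (k + 3)) / (k + 3) * ((1 - y ^ (k + 2)) / (k + 2)) ^ (k + 2)) := by
      have g1 : (A ^ (k + 2) - (y * A) ^ (k + 2)) / (((k : ℝ) + 2) * σ) =
          (A ^ (k + 2) / σ) * ((1 - y ^ (k + 2)) / (k + 2)) := by
        rw [mul_pow]; field_simp
      have g2 : (A ^ (k + 3) - (q * A) ^ (k + 3)) / (((k : ℝ) + 3) * σ) =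
          (A ^ (k + 3) / σ) * ((1 - q ^ (k + 3)) / (k + 3)) := by
        rw [mul_pow]; field_simp
      have g3 : A ^ (k + 3) / σ * (A ^ (k + 2) / σ) ^ (k + 2) =
          A / σ * (A ^ (k + 3) / σ) ^ (k + 2) := by
        rw [div_pow, div_pow, ← pow_mul, ← pow_mul]
        have : (k + 3) * (k + 2) = (k + 2) + (k + 2) * (k + 2) := by ring
        rw [this, pow_add A (k + 2), pow_succ A (k + 2)]
        field_simp
      rw [g1, g2, mul_pow, ← g3]
      ring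
    rw [f1, f2]
    exact hmul

end AP90

/-- **(AP6)** for `N ≤ N_B`: `τ(s) ≤ (w (n-1)/w n)^n ∫_0^s c^n` whenever `F₀(s) ≤ 9/10`. -/
theorem tau_le_of_NleB90 {r : ℝ → ℝ} (hr : Prof r) {n : ℕ} (hn : 2 ≤ n) (hN : NleB n r) {s : ℝ}
    (hs : s ∈ Ioo (0 : ℝ) 1) (hF : lB n s ≤ 9 / 10 * hB n 0) :
    tau n r s ≤ (w (n - 1) / w n) ^ n * lB n s := by
  obtain ⟨k, rfl⟩ : ∃ k, n = k + 2 := ⟨n - 2, by omega⟩
  have hs' : s ∈ Icc (-1 : ℝ) 1 := ⟨by linarith [hs.1], hs.2.le⟩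
  have hT : tau (k + 2) r s ∈ Ioo (0 : ℝ) 1 :=
    ⟨tau_pos hr _ ⟨hs.1, hs.2.le⟩, tau_lt_one hr _ ⟨hs.1.le, hs.2⟩⟩
  have hm := hr.mom_pos' (k + 2)
  have hw := w_pos' (k + 2)
  have hw2 := w_eq_two_hB (k + 2)
  have hm2 := mom_eq_two hr (k + 2)
  have hm1 := mom_eq_two hr (k + 1)
  have hm1p := hr.mom_pos' (k + 1)
  have hz := integral_zero_tau hr (k + 2) hs'
  set T := tau (k + 2) r s with hTdef
  have hl0 := lB_pos (k + 2) (s := s) ⟨hs.1, hs.2.le⟩
  have key := AP90.main k hr hT (by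
    rw [hz]
    have : ∫ u in (0 : ℝ)..1, r u ^ (k + 2) = mom (k + 2) r / w (k + 2) * hB (k + 2) 0 := by
      have e : ∫ u in (0 : ℝ)..1, r u ^ (k + 2) = mom (k + 2) r / 2 := by linarith
      rw [e, hw2]
      have := (hB_zero_pos (k + 2)).ne'
      field_simp
    rw [this]
    have h1 := mul_le_mul_of_nonneg_left hF (show 0 ≤ mom (k + 2) r / w (k + 2) by positivity)
    linarith)
  rw [hz] at key
  have e2 : ∫ u in (0 : ℝ)..1, r u ^ (k + 2) = mom (k + 2) r / 2 := by linarith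
  have e1 : ∫ u in (0 : ℝ)..1, r u ^ (k + 1) = mom (k + 1) r / 2 := by linarith
  rw [e1, e2] at key
  unfold NleB at hN
  have d1 : k + 2 - 1 = k + 1 := by omega
  rw [d1] at hN ⊢
  set M := mom (k + 2) r with hMdef
  set M1 := mom (k + 1) r with hM1def
  set W := w (k + 2) with hWdef
  set W1 := w (k + 1) with hW1def
  set L := lB (k + 2) s with hLdef
  -- `T M^{k+1} W ≤ L M1^{k+2}`
  have h1 : T * M ^ (k + 1) * W ≤ L * M1 ^ (k + 2) := by
    have h2 : (T * M ^ (k + 1) * W) * (M / (W * 2 ^ (k + 2))) ≤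
        (L * M1 ^ (k + 2)) * (M / (W * 2 ^ (k + 2))) := by
      have a1 : (T * M ^ (k + 1) * W) * (M / (W * 2 ^ (k + 2))) = T * (M / 2) ^ (k + 2) := by
        rw [div_pow, pow_succ M (k + 1)]
        field_simp
      have a2 : (L * M1 ^ (k + 2)) * (M / (W * 2 ^ (k + 2))) = M / W * L * (M1 / 2) ^ (k + 2) := by
        rw [div_pow]
        field_simp
      rw [a1, a2]
      exact key
    exact le_of_mul_le_mul_right h2 (by positivity)
  have h3 : T * W ^ (k + 2) * (M ^ (k + 1)) ≤ W1 ^ (k + 2) * L * (M ^ (k + 1)) := by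
    have h4 := mul_le_mul_of_nonneg_right h1 (show 0 ≤ W ^ (k + 1) by positivity)
    have h5 := mul_le_mul_of_nonneg_left hN hl0.le
    calc T * W ^ (k + 2) * (M ^ (k + 1)) = T * M ^ (k + 1) * W * W ^ (k + 1) := by
          rw [pow_succ W (k + 1)]; ring
      _ ≤ L * M1 ^ (k + 2) * W ^ (k + 1) := h4
      _ = L * (M1 ^ (k + 2) * W ^ (k + 1)) := by ring
      _ ≤ L * (W1 ^ (k + 2) * M ^ (k + 1)) := h5
      _ = _ := by ring
  have h6 := le_of_mul_le_mul_right h3 (by positivity)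
  rw [div_pow, div_mul_eq_mul_div, le_div_iff₀ (by positivity)]
  exact h6

end Crest.Agent.R230
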