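import Crest.Agent.R230.APLin
import Crest.Agent.R230.Cyl90
import Crest.Agent.R230.ConeCmp
import Crest.Agent.R230.Kappa6

/-!
# Row 230 (helper941): bounds on the transport in dimension 6 (`n = 5`)

* `tsix1` : `τ(s) ≤ 1.5141 s (1 - 2 s²/3)` for `s ≤ 11/20`;
* `tsix2` : `τ(s) ≤ 3/4` or `1 + 63 F̄₀(s) ≤ (2 - τ(s))^6`.
-/

set_option autoImplicit false

open MeasureTheory Set Filter Topology
open scoped Pointwise ENNReal

namespace Crest.Agent.R230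

namespace TSix

set_option maxHeartbeats 2000000 in
lemma P1_nonneg {x : ℝ} (hx : 0 ≤ x) (hx2 : x ≤ 1 / 2) :
    0 ≤ (1 + 127 / 100 * x ^ 2) * (1 - 2 * x + 2 * x ^ 2 - x ^ 3 + x ^ 4 / 5) ^ 5 -
      9912 / 10000 * (1 - 5 / 2 * x + 10 / 3 * x ^ 2 - 5 / 2 * x ^ 3 + x ^ 4 - x ^ 5 / 6) ^ 4 := by
  have h0 : 0 ≤ 1 / 2 - x := by linarith
  have h1 : (1 + 127 / 100 * x ^ 2) * (1 - 2 * x + 2 * x ^ 2 - x ^ 3 + x ^ 4 / 5) ^ 5 -
      9912 / 10000 * (1 - 5 / 2 * x + 10 / 3 * x ^ 2 - 5 / 2 * x ^ 3 + x ^ 4 - x ^ 5 / 6) ^ 4 =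
      (23068672/625 : ℝ) * (1 / 2 - x) ^ 22 +
      (392167424/625 : ℝ) * x ^ 1 * (1 / 2 - x) ^ 21 +
      (3485990912/625 : ℝ) * x ^ 2 * (1 / 2 - x) ^ 20 +
      (4137811968/125 : ℝ) * x ^ 3 * (1 / 2 - x) ^ 19 +
      (89093644288/625 : ℝ) * x ^ 4 * (1 / 2 - x) ^ 18 +
      (290646540288/625 : ℝ) * x ^ 5 * (1 / 2 - x) ^ 17 +
      (6652933357568/5625 : ℝ) * x ^ 6 * (1 / 2 - x) ^ 16 +
      (13472409100288/5625 : ℝ) * x ^ 7 * (1 / 2 - x) ^ 15 +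
      (66192132353024/16875 : ℝ) * x ^ 8 * (1 / 2 - x) ^ 14 +
      (17732871723008/3375 : ℝ) * x ^ 9 * (1 / 2 - x) ^ 13 +
      (97879525363712/16875 : ℝ) * x ^ 10 * (1 / 2 - x) ^ 12 +
      (5962378059776/1125 : ℝ) * x ^ 11 * (1 / 2 - x) ^ 11 +
      (4514929265632/1125 : ℝ) * x ^ 12 * (1 / 2 - x) ^ 10 +
      (4713295597376/1875 : ℝ) * x ^ 13 * (1 / 2 - x) ^ 9 +
      (161937353888/125 : ℝ) * x ^ 14 * (1 / 2 - x) ^ 8 +
      (340126862112/625 : ℝ) * x ^ 15 * (1 / 2 - x) ^ 7 +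
      (114759753476/625 : ℝ) * x ^ 16 * (1 / 2 - x) ^ 6 +
      (30415963544/625 : ℝ) * x ^ 17 * (1 / 2 - x) ^ 5 +
      (30603680838/3125 : ℝ) * x ^ 18 * (1 / 2 - x) ^ 4 +
      (4427581594/3125 : ℝ) * x ^ 19 * (1 / 2 - x) ^ 3 +
      (3345535981/25000 : ℝ) * x ^ 20 * (1 / 2 - x) ^ 2 +
      (83960087/12500 : ℝ) * x ^ 21 * (1 / 2 - x) ^ 1 +
      (54880279/625000 : ℝ) * x ^ 22 := by ring
  rw [h1]
  positivity

set_option maxHeartbeats 2000000 in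
lemma P2_nonneg {x : ℝ} (hx : 0 ≤ x) (hx2 : x ≤ 1 / 2) :
    0 ≤ (1 + 127 / 100 * x ^ 2) ^ 6 * (183 / 4096 + 3913 / 4096 * (1 - x) ^ 6) -
      (1 + 127 / 100 * x ^ 2 - x) ^ 6 := by
  have h0 : 0 ≤ 1 / 2 - x := by linarith
  have h1 : (1 + 127 / 100 * x ^ 2) ^ 6 * (183 / 4096 + 3913 / 4096 * (1 - x) ^ 6) -
      (1 + 127 / 100 * x ^ 2 - x) ^ 6 =
      (35136 : ℝ) * x ^ 1 * (1 / 2 - x) ^ 17 +
      (553392 : ℝ) * x ^ 2 * (1 / 2 - x) ^ 16 +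
      (98057448/25 : ℝ) * x ^ 3 * (1 / 2 - x) ^ 15 +
      (84247458/5 : ℝ) * x ^ 4 * (1 / 2 - x) ^ 14 +
      (24708963711/500 : ℝ) * x ^ 5 * (1 / 2 - x) ^ 13 +
      (1682231613/16 : ℝ) * x ^ 6 * (1 / 2 - x) ^ 12 +
      (1676752144533/10000 : ℝ) * x ^ 7 * (1 / 2 - x) ^ 11 +
      (20364353825433/100000 : ℝ) * x ^ 8 * (1 / 2 - x) ^ 10 +
      (15109537596778111/80000000 : ℝ) * x ^ 9 * (1 / 2 - x) ^ 9 +
      (42355370091525873/320000000 : ℝ) * x ^ 10 * (1 / 2 - x) ^ 8 +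
      (5448612285158532789/80000000000 : ℝ) * x ^ 11 * (1 / 2 - x) ^ 7 +
      (7738017474518322937/320000000000 : ℝ) * x ^ 12 * (1 / 2 - x) ^ 6 +
      (326792858258477539029/64000000000000 : ℝ) * x ^ 13 * (1 / 2 - x) ^ 5 +
      (18981553037436808887/51200000000000 : ℝ) * x ^ 14 * (1 / 2 - x) ^ 4 +
      (40365366536979621/25600000000000 : ℝ) * x ^ 15 * (1 / 2 - x) ^ 3 +
      (489324398207110923/8192000000000 : ℝ) * x ^ 16 * (1 / 2 - x) ^ 2 +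
      (27139168407160326699/1024000000000000 : ℝ) * x ^ 17 * (1 / 2 - x) ^ 1 +
      (14222761172909552809/4096000000000000 : ℝ) * x ^ 18 := by ring
  rw [h1]
  positivity


lemma hB4_zero : hB 4 0 = 8 / 15 := by
  have h0 : w 0 = 2 := by
    unfold w
    simp
    norm_num
  have h2 := w_rec 0
  have h4 := w_rec 2
  have h5 := w_eq_two_hB 4
  norm_num at h2 h4
  rw [h0] at h2
  linarith

/-- the algebraic core: at the point with `F̄₀ = 183/4096` every truncated linear profile gives `T ≤ 3/4` -/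
lemma core {T R e b : ℝ} (he0 : 0 ≤ e) (heb : e ≤ b) (hb1 : b ≤ 1) (hT0 : 0 < T) (hTR : T ≤ R) (hR1 : R ≤ 1)
    (h2 : T * (1 - e) = R * (1 - b))
    (h3 : T * SA 6 b = 3913 / 4096 * (R * SA 6 e))
    (h4 : R * SA 5 e ^ 5 ≤ 7434 / 10000 * SA 6 e ^ 4) : T ≤ 3 / 4 := by
  have hR0 : 0 < R := hT0.trans_le hTR
  have hb6 : e < 1 → b ^ 6 = 183 / 4096 + 3913 / 4096 * e ^ 6 := by
    intro he
    have h5 : (1 - b) * SA 6 b = (1 - b ^ 6) / ((6 : ℕ) : ℝ) := one_sub_mul_SA 6 b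
    have h6 : (1 - e) * SA 6 e = (1 - e ^ 6) / ((6 : ℕ) : ℝ) := one_sub_mul_SA 6 e
    have h7 : R * ((1 - b) * SA 6 b) = R * (3913 / 4096 * ((1 - e) * SA 6 e)) := by
      calc R * ((1 - b) * SA 6 b) = (R * (1 - b)) * SA 6 b := by ring
        _ = (1 - e) * (T * SA 6 b) := by rw [← h2]; ring
        _ = _ := by rw [h3]; ring
    have h8 := mul_left_cancel₀ hR0.ne' h7
    rw [h5, h6] at h8
    push_cast at h8
    linarith
  rcases le_or_gt e (1 / 2) with he2 | he2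
  · -- `R ≤ 1`
    have h5 := hb6 (by linarith)
    have h6 : ((1 + 3 * e) / 4) ^ 6 ≤ b ^ 6 := by
      rw [h5]
      have h7 : 183 / 4096 + 3913 / 4096 * e ^ 6 - ((1 + 3 * e) / 4) ^ 6 =
          (1 - 2 * e) * (182 + 346 * e + 557 * e ^ 2 + 574 * e ^ 3 - 67 * e ^ 4 - 1592 * e ^ 5) / 4096 := by
        ring
      have h8 : 0 ≤ 182 + 346 * e + 557 * e ^ 2 + 574 * e ^ 3 - 67 * e ^ 4 - 1592 * e ^ 5 := by
        have e1 : e ^ 5 ≤ (1 / 2 : ℝ) ^ 5 := pow_le_pow_left₀ he0 he2 5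
        have e2 : e ^ 4 ≤ (1 / 2 : ℝ) ^ 4 := pow_le_pow_left₀ he0 he2 4
        have e3 : 0 ≤ e ^ 2 := by positivity
        have e4 : 0 ≤ e ^ 3 := by positivity
        norm_num at e1 e2
        linarith
      have h9 : 0 ≤ (1 - 2 * e) * (182 + 346 * e + 557 * e ^ 2 + 574 * e ^ 3 - 67 * e ^ 4 - 1592 * e ^ 5) / 4096 :=
        div_nonneg (mul_nonneg (by linarith) h8) (by norm_num)
      linarith
    have h7 : (1 + 3 * e) / 4 ≤ b := le_of_pow_le_pow_left₀ (by norm_num) (he0.trans heb) h6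
    have h8 : T * (1 - e) ≤ 3 / 4 * (1 - e) := by
      rw [h2]
      have : R * (1 - b) ≤ 1 * (1 - b) := mul_le_mul_of_nonneg_right hR1 (by linarith)
      linarith
    exact le_of_mul_le_mul_right h8 (by linarith)
  · rcases eq_or_lt_of_le (heb.trans hb1) with he1 | he1
    · -- flat profile
      have hb : b = 1 := le_antisymm hb1 (he1 ▸ heb)
      rw [hb, he1, SA_one _ (by norm_num)] at h3
      rw [he1, SA_one _ (by norm_num), SA_one _ (by norm_num)] at h4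
      linarith
    · set x := 1 - e with hx
      have hx0 : 0 < x := by linarith
      have hx2 : x ≤ 1 / 2 := by linarith
      have hex : e = 1 - x := by rw [hx]; ring
      have h5 := hb6 he1
      have hP1 := P1_nonneg hx0.le hx2
      have hP2 := P2_nonneg hx0.le hx2
      have hS5 : SA 5 e = 1 - 2 * x + 2 * x ^ 2 - x ^ 3 + x ^ 4 / 5 := by
        rw [hex]; unfold SA; simp only [Finset.sum_range_succ, Finset.sum_range_zero]; push_cast; ring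
      have hS6 : SA 6 e = 1 - 5 / 2 * x + 10 / 3 * x ^ 2 - 5 / 2 * x ^ 3 + x ^ 4 - x ^ 5 / 6 := by
        rw [hex]; unfold SA; simp only [Finset.sum_range_succ, Finset.sum_range_zero]; push_cast; ring
      rw [← hS5, ← hS6] at hP1
      have hS5pos : 0 < SA 5 e := SA_pos 5 (by norm_num) he0
      set q := 1 + 127 / 100 * x ^ 2 with hq
      have hqpos : 0 < q := by positivity
      have hRq : R ≤ 3 / 4 * q := by
        have : R * SA 5 e ^ 5 ≤ (3 / 4 * q) * SA 5 e ^ 5 := by nlinarith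
        exact le_of_mul_le_mul_right this (by positivity)
      by_contra hcon
      push Not at hcon
      have h6 : x < (1 - b) * q := by
        have h7 : 3 / 4 * x < R * (1 - b) := by rw [← h2]; nlinarith
        have h8 : R * (1 - b) ≤ (3 / 4 * q) * (1 - b) := mul_le_mul_of_nonneg_right hRq (by linarith)
        linarith
      have h7 : b * q < q - x := by linarith
      have h8 : (b * q) ^ 6 < (q - x) ^ 6 :=
        pow_lt_pow_left₀ h7 (mul_nonneg (he0.trans heb) hqpos.le) (by norm_num)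
      rw [mul_pow, h5, hex] at h8
      have : q ^ 6 * (183 / 4096 + 3913 / 4096 * (1 - x) ^ 6) - (q - x) ^ 6 < 0 := by linarith
      linarith

end TSix

open TSix

/-- `τ ≤ 3/4` at the point with `F̄₀ = 183/4096` -/
theorem tau_le_star {r : ℝ → ℝ} (hr : Prof r) (hN : NleB 5 r) {s : ℝ} (hs : s ∈ Ioo (0 : ℝ) 1)
    (hp : hB 5 s = 183 / 4096 * hB 5 0) : tau 5 r s ≤ 3 / 4 := by
  obtain ⟨e, b, R, he0, heb, hb1, hb0, hTR, hR1, h2, h3, h4⟩ := trunc_lin (by norm_num) hr hN hs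
  have hT : 0 < tau 5 r s := tau_pos hr 5 ⟨hs.1, hs.2.le⟩
  have hH := hB_zero_pos 5
  have hl : lB 5 s = 3913 / 4096 * hB 5 0 := by
    have := lB_add_hB 5 s
    linarith
  refine core he0 heb hb1 hT hTR hR1 h2 ?_ ?_
  · have h5 : (tau 5 r s * SA 6 b) * hB 5 0 = (3913 / 4096 * (R * SA 6 e)) * hB 5 0 := by
      calc (tau 5 r s * SA 6 b) * hB 5 0 = tau 5 r s * SA (5 + 1) b * hB 5 0 := rfl
        _ = lB 5 s * (R * SA (5 + 1) e) := h3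
        _ = _ := by rw [hl]; ring
    exact mul_right_cancel₀ hH.ne' h5
  · have h5 : R * SA 5 e ^ 5 * hB 5 0 ^ 4 ≤ hB 4 0 ^ 5 * SA 6 e ^ 4 := h4
    rw [hB5_zero, hB4_zero] at h5
    have hpi := Real.pi_gt_d4
    have hS5 : 0 < SA 5 e := SA_pos 5 (by norm_num) he0
    have hS6 : 0 < SA 6 e := SA_pos 6 (by norm_num) he0
    have hR0 : 0 < R := hT.trans_le hTR
    have h6 : (5 * 3.1415 / 32 : ℝ) ^ 4 ≤ (5 * Real.pi / 32) ^ 4 :=
      pow_le_pow_left₀ (by norm_num) (by linarith) 4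
    have h7 : R * SA 5 e ^ 5 * (5 * 3.1415 / 32 : ℝ) ^ 4 ≤ R * SA 5 e ^ 5 * (5 * Real.pi / 32) ^ 4 :=
      mul_le_mul_of_nonneg_left h6 (by positivity)
    have h8 : (8 / 15 : ℝ) ^ 5 ≤ 7434 / 10000 * (5 * 3.1415 / 32 : ℝ) ^ 4 := by norm_num
    have h9 : (8 / 15 : ℝ) ^ 5 * SA 6 e ^ 4 ≤ 7434 / 10000 * (5 * 3.1415 / 32 : ℝ) ^ 4 * SA 6 e ^ 4 :=
      mul_le_mul_of_nonneg_right h8 (by positivity)
    have h10 : (R * SA 5 e ^ 5) * (5 * 3.1415 / 32 : ℝ) ^ 4 ≤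
        (7434 / 10000 * SA 6 e ^ 4) * (5 * 3.1415 / 32 : ℝ) ^ 4 := by linarith
    exact le_of_mul_le_mul_right h10 (by norm_num)

/-- the special point exists -/
lemma exists_star : ∃ s ∈ Ioo (0 : ℝ) 1, hB 5 s = 183 / 4096 * hB 5 0 := by
  have hH := hB_zero_pos 5
  have hc : ContinuousOn (hB 5) (Icc 0 1) := fun x _ => (hasDerivAt_hB 5 x).continuousAt.continuousWithinAt
  have h := intermediate_value_Ioo' (zero_le_one) hc
  have hmem : 183 / 4096 * hB 5 0 ∈ Ioo (hB 5 1) (hB 5 0) := by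
    rw [hB_one]
    exact ⟨by positivity, by linarith⟩
  obtain ⟨s, hs, hse⟩ := h hmem
  exact ⟨s, hs, hse⟩

/-- **dimension 6**: `τ ≤ 3/4` or the cone bound -/
theorem tsix2 {r : ℝ → ℝ} (hr : Prof r) (hN : NleB 5 r) {s : ℝ} (hs : s ∈ Ioo (0 : ℝ) 1) :
    tau 5 r s ≤ 3 / 4 ∨ hB 5 0 + 63 * hB 5 s ≤ (2 - tau 5 r s) ^ 6 * hB 5 0 := by
  obtain ⟨s₁, hs₁, hp⟩ := exists_star
  have hT₁ := tau_le_star hr hN hs₁ hp
  have hH := hB_zero_pos 5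
  rcases le_total s s₁ with h | h
  · left
    exact ((tau_strictMonoOn hr 5).monotoneOn ⟨by linarith [hs.1], hs.2.le⟩ ⟨by linarith [hs₁.1], hs₁.2.le⟩ h).trans
      hT₁
  · right
    have h1 := cone_tau hr (n := 5) (by norm_num) (e := 1 / 2) (s₁ := s₁) (s := s) (by norm_num) (by norm_num)
      hs₁.1 h hs.2.le (by
        rw [hp]
        have hTn := (tau_pos hr 5 ⟨hs₁.1, hs₁.2.le⟩).le
        have h2 : (1 - (1 - 1 / 2 : ℝ) * (3 / 4)) ^ (5 + 1) ≤ (1 - (1 - 1 / 2) * tau 5 r s₁) ^ (5 + 1) :=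
          pow_le_pow_left₀ (by norm_num) (by linarith) _
        have h3 : ((1 - (1 - 1 / 2 : ℝ) * (3 / 4)) ^ (5 + 1) - (1 / 2) ^ (5 + 1)) * hB 5 0 ≤
            ((1 - (1 - 1 / 2) * tau 5 r s₁) ^ (5 + 1) - (1 / 2) ^ (5 + 1)) * hB 5 0 :=
          mul_le_mul_of_nonneg_right (by linarith) hH.le
        refine le_trans (le_of_eq ?_) h3
        ring)
    have h2 : (1 - (1 - 1 / 2 : ℝ) * tau 5 r s) ^ (5 + 1) = (2 - tau 5 r s) ^ 6 / 64 := by ring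
    rw [h2] at h1
    norm_num at h1
    linarith

/-- explicit form of `tsix2` -/
theorem tsix2' {r : ℝ → ℝ} (hr : Prof r) (hN : NleB 5 r) {s : ℝ} (hs : s ∈ Ioo (0 : ℝ) 1) :
    tau 5 r s ≤ 3 / 4 ∨ 1 + 63 * (Real.sqrt (1 - s ^ 2) ^ 7 / (3.437 * s + Real.sqrt (1 - s ^ 2))) ≤
      (2 - tau 5 r s) ^ 6 := by
  rcases tsix2 hr hN hs with h | h
  · exact Or.inl h
  · right
    have hH := hB_zero_pos 5
    have hc : 0 < Real.sqrt (1 - s ^ 2) := sqrt_pos_of_mem ⟨by linarith [hs.1], hs.2⟩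
    have h1 := haz2 5 (s := s) ⟨hs.1.le, hs.2.le⟩
    have hBp := hB_pos 5 ⟨hs.1.le, hs.2⟩
    have h2 : hB 5 0 * Real.sqrt (1 - s ^ 2) ^ 7 ≤ (3.437 * s + Real.sqrt (1 - s ^ 2)) * hB 5 s := by
      refine le_trans (by simpa using h1) (mul_le_mul_of_nonneg_right ?_ hBp.le)
      have h3 : 7 * hB 5 0 ≤ 3.437 := by
        rw [hB5_zero]
        have := Real.pi_lt_d4
        norm_num
        linarith
      have := mul_le_mul_of_nonneg_right h3 hs.1.le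
      norm_num at this ⊢
      linarith
    have hD : 0 < 3.437 * s + Real.sqrt (1 - s ^ 2) := by have := hs.1; positivity
    have h3 : Real.sqrt (1 - s ^ 2) ^ 7 / (3.437 * s + Real.sqrt (1 - s ^ 2)) * hB 5 0 ≤ hB 5 s := by
      rw [div_mul_eq_mul_div, div_le_iff₀ hD]
      linarith
    have h4 : (1 + 63 * (Real.sqrt (1 - s ^ 2) ^ 7 / (3.437 * s + Real.sqrt (1 - s ^ 2)))) * hB 5 0 ≤
        (2 - tau 5 r s) ^ 6 * hB 5 0 := by linarith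
    exact le_of_mul_le_mul_right h4 hH

lemma sqrt_pow5_le {x : ℝ} (hx : x ∈ Icc (0 : ℝ) 1) :
    Real.sqrt (1 - x ^ 2) ^ 5 ≤ 1 - 5 / 2 * x ^ 2 + 15 / 8 * x ^ 4 := by
  have h0 : 0 ≤ 1 - x ^ 2 := by nlinarith [hx.1, hx.2]
  have hs := Real.sqrt_nonneg (1 - x ^ 2)
  have hpos : 0 ≤ 1 - 5 / 2 * x ^ 2 + 15 / 8 * x ^ 4 := by nlinarith [sq_nonneg (x ^ 2 - 2 / 3)]
  refine le_of_pow_le_pow_left₀ (n := 2) (by norm_num) hpos ?_
  have h1 : (Real.sqrt (1 - x ^ 2) ^ 5) ^ 2 = (1 - x ^ 2) ^ 5 := by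
    rw [← pow_mul, mul_comm, pow_mul, Real.sq_sqrt h0]
  rw [h1]
  have h2 : (1 - 5 / 2 * x ^ 2 + 15 / 8 * x ^ 4) ^ 2 - (1 - x ^ 2) ^ 5 =
      x ^ 6 * (5 / 8 - 95 / 64 * x ^ 2 + x ^ 4) := by ring
  have h3 : 0 ≤ 5 / 8 - 95 / 64 * x ^ 2 + x ^ 4 := by nlinarith [sq_nonneg (x ^ 2 - 95 / 128)]
  have h4 : 0 ≤ x ^ 6 * (5 / 8 - 95 / 64 * x ^ 2 + x ^ 4) := by positivity
  linarith

lemma lB5_le {s : ℝ} (hs : s ∈ Icc (0 : ℝ) 1) : lB 5 s ≤ s - 5 / 6 * s ^ 3 + 3 / 8 * s ^ 5 := by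
  have h1 : lB 5 s ≤ ∫ x in (0 : ℝ)..s, (1 - 5 / 2 * x ^ 2 + 15 / 8 * x ^ 4) := by
    refine intervalIntegral.integral_mono_on hs.1 (intervalIntegrable_cpow 5 _ _)
      (Continuous.intervalIntegrable (by fun_prop) _ _) ?_
    intro x hx
    exact sqrt_pow5_le ⟨hx.1, hx.2.trans hs.2⟩
  have h2 : ∫ x in (0 : ℝ)..s, (1 - 5 / 2 * x ^ 2 + 15 / 8 * x ^ 4) = s - 5 / 6 * s ^ 3 + 3 / 8 * s ^ 5 := by
    have hd : ∀ x ∈ uIcc (0 : ℝ) s, HasDerivAt (fun x : ℝ => x - 5 / 6 * x ^ 3 + 3 / 8 * x ^ 5)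
        (1 - 5 / 2 * x ^ 2 + 15 / 8 * x ^ 4) x := by
      intro x _
      have := ((hasDerivAt_id x).sub ((hasDerivAt_pow 3 x).const_mul (5 / 6))).add
        ((hasDerivAt_pow 5 x).const_mul (3 / 8))
      refine this.congr_deriv ?_
      norm_num
      ring
    rw [intervalIntegral.integral_eq_sub_of_hasDerivAt hd (Continuous.intervalIntegrable (by fun_prop) _ _)]
    norm_num
  linarith

/-- **dimension 6**, small `s` -/
theorem tsix1 {r : ℝ → ℝ} (hr : Prof r) (hN : NleB 5 r) {s : ℝ} (hs : s ∈ Ioc (0 : ℝ) (11 / 20)) :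
    tau 5 r s ≤ 1.5141 * s * (1 - 2 * s ^ 2 / 3) := by
  have hs0 := hs.1
  have hs1 := hs.2
  have h1 := lB5_le (s := s) ⟨hs0.le, by linarith⟩
  have h2 : lB 5 s ≤ s * (1 - 2 * s ^ 2 / 3) := by
    have h3 : 0 ≤ s ^ 3 * (1 / 6 - 3 / 8 * s ^ 2) := by
      have : 0 ≤ 1 / 6 - 3 / 8 * s ^ 2 := by nlinarith
      positivity
    nlinarith
  have hpi := Real.pi_gt_d6
  have h4 : lB 5 s ≤ 9 / 10 * hB 5 0 := by
    rw [hB5_zero]
    have h5 : s * (1 - 2 * s ^ 2 / 3) ≤ 44 / 100 := by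
      nlinarith [sq_nonneg (s - 11 / 20), mul_nonneg hs0.le (sub_nonneg.2 hs1), mul_nonneg (sq_nonneg s) (sub_nonneg.2 hs1)]
    linarith
  have h5 := tau_le_of_NleB90 hr (n := 5) (by norm_num) hN (s := s) ⟨hs0, by linarith⟩ h4
  have h6 : (w (5 - 1) / w 5) ^ 5 ≤ 1.5141 := by
    rw [w_eq_two_hB, w_eq_two_hB, mul_div_mul_left _ _ (by norm_num : (2 : ℝ) ≠ 0), hB5_zero]
    have h7 : hB (5 - 1) 0 = 8 / 15 := hB4_zero
    rw [h7]
    have h8 : (8 / 15 : ℝ) / (5 * Real.pi / 32) ≤ (8 / 15 : ℝ) / (5 * 3.141592 / 32) :=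
      div_le_div_of_nonneg_left (by norm_num) (by norm_num) (by linarith)
    have h9 : 0 ≤ (8 / 15 : ℝ) / (5 * Real.pi / 32) := by positivity
    refine (pow_le_pow_left₀ h9 h8 5).trans ?_
    norm_num
  have h7 : 0 ≤ lB 5 s := lB_nonneg 5 ⟨hs0.le, by linarith⟩
  calc tau 5 r s ≤ (w (5 - 1) / w 5) ^ 5 * lB 5 s := h5
    _ ≤ 1.5141 * lB 5 s := mul_le_mul_of_nonneg_right h6 h7
    _ ≤ 1.5141 * (s * (1 - 2 * s ^ 2 / 3)) := mul_le_mul_of_nonneg_left h2 (by norm_num)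
    _ = _ := by ring

end Crest.Agent.R230
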