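import Crest.Agent.R230.BSix
import Crest.Agent.R230.TSix

/-!
# Row 230: block B6, `N = 6`, on profiles
-/

set_option autoImplicit false

open Set

namespace Crest.Agent.R230.WR

theorem B6six_prof {r : ℝ → ℝ} (hr : Prof r) (hN : NleB 5 r) {s lm : ℝ} (hs : s ∈ Ioo (0 : ℝ) 1)
    (hl : 0 < ll 5 r s) (hk : kk 5 r s < 0) :
    0 < PP 5 (27 / 16) 3 1 0 lm s (ll 5 r s) (kk 5 r s) := by
  have ht : tau 5 r s = s * Real.exp (ll 5 r s) := tau_eq hr 5 ⟨hs.1.le, hs.2.le⟩
  have h1k := one_add_kk_pos hr 5 hs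
  have htle : tau 5 r s ≤ 1 := (tau_lt_one hr 5 ⟨hs.1.le, hs.2⟩).le
  have hs2 := tsix2' hr hN hs
  refine BSix.B6six hs hl (by linarith) hk (ht ▸ htle) (fun h => ?_) ?_
  · have h1 := tsix1 hr hN (s := s) ⟨hs.1, by linarith⟩
    rw [ht] at h1
    have h2 : s * Real.exp (ll 5 r s) ≤ s * (15141 / 10000 * (1 - 2 * s ^ 2 / 3)) := by
      norm_num at h1 ⊢
      linarith
    exact le_of_mul_le_mul_left h2 hs.1
  · rw [ht] at hs2
    rcases hs2 with h | h
    · left; norm_num at h ⊢; exact h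
    · right
      have hcc : cc s = Real.sqrt (1 - s ^ 2) := rfl
      rw [hcc]
      norm_num at h ⊢
      rw [mul_div_assoc]
      exact h

end Crest.Agent.R230.WR
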