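import Crest.Agent.R230.OneDAll
import Crest.Agent.R230.Apriori2
import Crest.Agent.R230.CaseI

/-!
# Row 230: case I for profiles with legal lines (all `n ≥ 5`)

`caseI_of_legal` : the pointwise inequality of case I for a profile `r` at a legal `s`.
`concl_caseI_legal` : the conclusion of the one dimensional lemma for `-(n+1)/(9/2) ≤ λ ≤ 0`.
-/

set_option autoImplicit false

open MeasureTheory Set Filter Topology
open scoped Pointwise ENNReal

namespace Crest.Agent.R230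

open WR

variable {n : ℕ} {r : ℝ → ℝ}

lemma mul_exp_ll (hr : Prof r) {s : ℝ} (hs : s ∈ Ioo (0 : ℝ) 1) :
    s * Real.exp (ll n r s) = tau n r s := by
  rw [exp_ll hr n ⟨hs.1, hs.2.le⟩]
  have := hs.1.ne'
  field_simp

/-- the hazard bound `κ ≤ (1 + (n+1) s²)/(s c²) (e^{-l} - s)` -/
theorem kk_hazard (hr : Prof r) {s : ℝ} (hs : s ∈ Ioo (0 : ℝ) 1) :
    (1 + kk n r s) * (s * cc s ^ 2) ≤
      (1 + ((n : ℝ) + 1) * s ^ 2) * (Real.exp (-(ll n r s)) - s) := by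
  have hT := tau_pos hr n (s := s) ⟨hs.1, hs.2.le⟩
  have hs0 := hs.1
  have hc := cc_pos' hs
  have h1 := haz1 n (s := s) ⟨hs.1.le, hs.2.le⟩
  have h2 := dtau_mul_hB_le hr n (s := s) ⟨hs.1.le, hs.2⟩
  have hd := dtau_pos hr n (s := s) ⟨by linarith [hs.1], hs.2⟩
  have hcc : Real.sqrt (1 - s ^ 2) = cc s := rfl
  rw [hcc] at h1 h2
  have h3 : dtau n r s * (s * cc s ^ 2) ≤ (1 + ((n : ℝ) + 1) * s ^ 2) * (1 - tau n r s) := by
    have h4 := mul_le_mul_of_nonneg_left h1 hd.le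
    have h5 := mul_le_mul_of_nonneg_left h2 (by positivity : 0 ≤ 1 + ((n : ℝ) + 1) * s ^ 2)
    have h6 : (dtau n r s * (s * cc s ^ 2)) * cc s ^ n ≤
        ((1 + ((n : ℝ) + 1) * s ^ 2) * (1 - tau n r s)) * cc s ^ n := by
      rw [pow_add] at h4
      linarith
    exact le_of_mul_le_mul_right h6 (pow_pos hc n)
  have he : Real.exp (-(ll n r s)) = s / tau n r s := by
    rw [Real.exp_neg, exp_ll hr n ⟨hs.1, hs.2.le⟩, inv_div]
  rw [he]
  have e1 : (1 + kk n r s) * (s * cc s ^ 2) = s * (dtau n r s * (s * cc s ^ 2)) / tau n r s := by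
    unfold kk
    field_simp
    ring
  have e2 : (1 + ((n : ℝ) + 1) * s ^ 2) * (s / tau n r s - s) =
      s * ((1 + ((n : ℝ) + 1) * s ^ 2) * (1 - tau n r s)) / tau n r s := by
    field_simp
  rw [e1, e2]
  exact div_le_div_of_nonneg_right (mul_le_mul_of_nonneg_left h3 hs0.le) hT.le

/-- `κ c ≤ 1 + c` -/
theorem kk_le_cone (hr : Prof r) {s : ℝ} (hs : s ∈ Ioo (0 : ℝ) 1) :
    (1 + kk n r s) * cc s ≤ 1 + cc s := by
  have hT := tau_pos hr n (s := s) ⟨hs.1, hs.2.le⟩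
  have h := kappa_le hr n hs
  have hcc : Real.sqrt (1 - s ^ 2) = cc s := rfl
  rw [hcc] at h
  have e : (1 + kk n r s) * cc s = s * dtau n r s * cc s / tau n r s := by
    unfold kk
    field_simp
    ring
  rw [e, div_le_iff₀ hT]
  exact h

theorem kk_pos (hr : Prof r) {s : ℝ} (hs : s ∈ Ioo (0 : ℝ) 1) : 0 < 1 + kk n r s := by
  have hT := tau_pos hr n (s := s) ⟨hs.1, hs.2.le⟩
  have hd := dtau_pos hr n (s := s) ⟨by linarith [hs.1], hs.2⟩
  have := hs.1
  have e : 1 + kk n r s = s * dtau n r s / tau n r s := by unfold kk; ring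
  rw [e]
  positivity

/-- legality gives `l ≤ 11/20` and `l ≤ c - 17/50` for `c ∈ [3/4, 89/100]` -/
theorem ll_le_of_legal (hr : Prof r) {s : ℝ} (hs : s ∈ Ioo (0 : ℝ) 1) (hL : Legal n r s) :
    ll n r s ≤ 11 / 20 ∧ (3 / 4 ≤ cc s → cc s ≤ 89 / 100 → ll n r s ≤ cc s - 17 / 50) := by
  have hc := cc_pos' hs
  have hsc : s ^ 2 + cc s ^ 2 = 1 := by rw [cc_sq' hs]; ring
  have hT := mul_exp_ll (n := n) hr hs
  unfold Legal at hL
  rw [← hT] at hL
  exact ⟨CI.legal_l1 hs.1 hc hsc hL, fun h1 h2 => CI.legal_l2 hs.1 hc hsc h1 h2 hL⟩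

/-- the pointwise block of case I for a profile -/
theorem caseI_of_legal (hn : 5 ≤ n) (hr : Prof r) {s : ℝ} (hs : s ∈ Ioo (0 : ℝ) 1)
    (hL : Legal n r s) :
    0 ≤ PP n 0 (9 / 2) (13 / 10) 0 0 s (ll n r s) (kk n r s) ∧
      (PP n 0 (9 / 2) (13 / 10) 0 0 s (ll n r s) (kk n r s) = 0 → ll n r s = 0) := by
  obtain ⟨h1, h2⟩ := ll_le_of_legal hr hs hL
  have hT : s * Real.exp (ll n r s) ≤ 1 := by
    rw [mul_exp_ll hr hs]
    exact (tau_lt_one hr n ⟨hs.1.le, hs.2⟩).le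
  exact PP_caseI_nonneg' hn hs hT h1 h2 (kk_pos hr hs) (kk_le_cone hr hs) (kk_hazard hr hs)

/-- case I of the one dimensional lemma for a profile all of whose lines are legal -/
theorem concl_caseI_legal (hn : 5 ≤ n) (hr : Prof r) (hN : NleB n r)
    (hL : ∀ s ∈ Ioo (0 : ℝ) 1, Legal n r s)
    (hlamL : -((n : ℝ) + 1) / (9 / 2) ≤ lam n r) (hlam : lam n r ≤ 0) : Concl n r := by
  have hU1 := hU_of_legal (by omega) hr hL
  have n0 : NI n (fun _ => (0 : ℝ)) := NI_cont continuousOn_const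
  have j0 : JJ n (fun _ => (0 : ℝ)) = 0 := by unfold JJ; simp
  rw [div_le_iff₀ (by norm_num)] at hlamL
  refine master hr hn hN (μ := 0) (σ := 9 / 2) (θ := 13 / 10) (ξ := 0) le_rfl (by norm_num) ?_ n0
    (U := UX n r) hU1 ?_ ?_
  · have : 0 ≤ (-(lam n r)) * (((n : ℝ) + 1) + 9 / 2 * lam n r) :=
      mul_nonneg (by linarith) (by linarith)
    linarith
  · intro s hs
    rw [PP_lm, add_zero]
    exact (caseI_of_legal hn hr hs (hL s hs)).1
  · intro s hs h
    rw [PP_lm, add_zero] at h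
    exact (caseI_of_legal hn hr hs (hL s hs)).2 h

end Crest.Agent.R230
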