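import Crest.Agent.R230.BFive6
import Crest.Agent.R230.BSixProf
import Crest.Agent.R230.Kappa6
import Crest.Agent.R230.CaseIProf

/-!
# Row 230: case II, `l > 0`, dimension `N = 6`, on profiles (blocks B5 and B6)
-/

set_option autoImplicit false

open Set

namespace Crest.Agent.R230.WR

theorem B5six_prof {r : ℝ → ℝ} (hr : Prof r) (hN : NleB 5 r) {s lm : ℝ} (hs : s ∈ Ioo (0 : ℝ) 1)
    (hl : 0 < ll 5 r s) (hk : 0 ≤ kk 5 r s) :
    0 < PP 5 (27 / 16) 3 1 0 lm s (ll 5 r s) (kk 5 r s) := by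
  have ht : s * Real.exp (ll 5 r s) = tau 5 r s := mul_exp_ll hr hs
  have htle : tau 5 r s ≤ 1 := (tau_lt_one hr 5 ⟨hs.1.le, hs.2⟩).le
  have hs2 := tsix2' hr hN hs
  have hcc : cc s = Real.sqrt (1 - s ^ 2) := rfl
  refine BSix.B5six hs hl hk (ht.le.trans htle) (fun h => ?_) ?_ ?_ ?_
  · have h1 := tsix1 hr hN (s := s) ⟨hs.1, by linarith⟩
    rw [← ht] at h1
    have h2 : s * Real.exp (ll 5 r s) ≤ s * (15141 / 10000 * (1 - 2 * s ^ 2 / 3)) := by
      norm_num at h1 ⊢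
      linarith
    exact le_of_mul_le_mul_left h2 hs.1
  · rw [← ht] at hs2
    rcases hs2 with h | h
    · left; norm_num at h ⊢; exact h
    · right
      rw [hcc]
      norm_num at h ⊢
      rw [mul_div_assoc]
      exact h
  · have h6 := kappa6 hr hs
    rw [← hcc] at h6
    have htp := tau_pos hr 5 (s := s) ⟨hs.1, hs.2.le⟩
    have e : 1 + kk 5 r s = s * dtau 5 r s / tau 5 r s := one_add_kk 5
    rw [e, div_mul_eq_mul_div, div_le_iff₀ htp]
    exact h6
  · have h7 := kk_hazard (n := 5) hr hs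
    norm_num at h7 ⊢
    exact h7

/-- case II, `l > 0`, for `N = 6` -/
theorem caseII_pos_six {r : ℝ → ℝ} (hr : Prof r) (hN : NleB 5 r) {s lm : ℝ} (hs : s ∈ Ioo (0 : ℝ) 1)
    (hl : 0 < ll 5 r s) : 0 < PP 5 (27 / 16) 3 1 0 lm s (ll 5 r s) (kk 5 r s) := by
  rcases lt_or_ge (kk 5 r s) 0 with h | h
  · exact B6six_prof hr hN hs hl h
  · exact B5six_prof hr hN hs hl h

end Crest.Agent.R230.WR
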