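import Crest.Agent.R230.WMain

/-!
# Row 230: elementary bounds for the terms of the certificate density

`hm_le` : `hm n k ≤ F k²` for `k ≥ 0` (a Padé bound), `hm_le_neg` : `hm n k ≤ γ KK k` for `k ≤ 0`,
`Gm_ge` : `Gm n l ≥ l²/(2n+|l|)` for `l ≤ 0`, `cR_ge₁`, `cR_ge₂` : lower bounds of `cR` for `l ≤ 0`.
-/

set_option autoImplicit false

open MeasureTheory Set Filter Topology

namespace Crest.Agent.R230.WR

/-- monotonicity on `[1, ∞)` -/
lemma nonneg_right {f f' : ℝ → ℝ} (h : ∀ x, 1 ≤ x → HasDerivAt f (f' x) x) (h0 : f 1 = 0)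
    (h' : ∀ x, 1 ≤ x → 0 ≤ f' x) {x : ℝ} (hx : 1 ≤ x) : 0 ≤ f x := by
  have hmono : MonotoneOn f (Ici 1) := by
    refine monotoneOn_of_deriv_nonneg (convex_Ici 1) (fun x hx => (h x hx).continuousAt.continuousWithinAt)
      (fun x hx => ?_) (fun x hx => ?_)
    · rw [interior_Ici] at hx
      exact (h x (le_of_lt hx)).differentiableAt.differentiableWithinAt
    · rw [interior_Ici] at hx
      rw [(h x (le_of_lt hx)).deriv]
      exact h' x (le_of_lt hx)
  have := hmono (mem_Ici.2 le_rfl) (mem_Ici.2 hx) hx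
  rwa [h0] at this

/-- monotonicity on `(0, 1]` -/
lemma nonneg_left {f f' : ℝ → ℝ} (h : ∀ x ∈ Ioc (0 : ℝ) 1, HasDerivAt f (f' x) x) (h0 : f 1 = 0)
    (h' : ∀ x ∈ Ioc (0 : ℝ) 1, f' x ≤ 0) {x : ℝ} (hx : x ∈ Ioc (0 : ℝ) 1) : 0 ≤ f x := by
  have hmono : AntitoneOn f (Ioc 0 1) := by
    refine antitoneOn_of_deriv_nonpos (convex_Ioc 0 1)
      (fun x hx => (h x hx).continuousAt.continuousWithinAt) (fun x hx => ?_) (fun x hx => ?_)
    · rw [interior_Ioc] at hx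
      exact (h x ⟨hx.1, hx.2.le⟩).differentiableAt.differentiableWithinAt
    · rw [interior_Ioc] at hx
      rw [(h x ⟨hx.1, hx.2.le⟩).deriv]
      exact h' x ⟨hx.1, hx.2.le⟩
  have := hmono hx (right_mem_Ioc.2 one_pos) hx.2
  rwa [h0] at this

/-- monotonicity on `[0, ∞)` -/
lemma nonneg_zero {f f' : ℝ → ℝ} (h : ∀ x, 0 ≤ x → HasDerivAt f (f' x) x) (h0 : f 0 = 0)
    (h' : ∀ x, 0 ≤ x → 0 ≤ f' x) {x : ℝ} (hx : 0 ≤ x) : 0 ≤ f x := by
  have hmono : MonotoneOn f (Ici 0) := by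
    refine monotoneOn_of_deriv_nonneg (convex_Ici 0) (fun x hx => (h x hx).continuousAt.continuousWithinAt)
      (fun x hx => ?_) (fun x hx => ?_)
    · rw [interior_Ici] at hx
      exact (h x (le_of_lt hx)).differentiableAt.differentiableWithinAt
    · rw [interior_Ici] at hx
      rw [(h x (le_of_lt hx)).deriv]
      exact h' x (le_of_lt hx)
  have := hmono (mem_Ici.2 le_rfl) (mem_Ici.2 hx) hx
  rwa [h0] at this

/-- the Padé inequality: `(κ^p - 1)(1 + (1-p/2)k + (1-p)(2-p)k²/12) ≥ p (κ² - 1)/2`, `κ = 1 + k ≥ 1`. -/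
theorem pade {p : ℝ} (hp0 : 0 ≤ p) (hp1 : p ≤ 1) {x : ℝ} (hx : 1 ≤ x) :
    p / 2 * (x ^ 2 - 1) ≤
      (x ^ p - 1) * (1 + (1 - p / 2) * (x - 1) + (1 - p) * (2 - p) / 12 * (x - 1) ^ 2) := by
  obtain ⟨A, hA⟩ : ∃ A : ℝ, A = (1 + p) * (2 + p) / 12 := ⟨_, rfl⟩
  obtain ⟨B, hB⟩ : ∃ B : ℝ, B = (2 - p) * (2 + p) / 6 := ⟨_, rfl⟩
  obtain ⟨C, hC⟩ : ∃ C : ℝ, C = (1 - p) * (2 - p) / 12 := ⟨_, rfl⟩
  have hder : ∀ (a : ℝ) (x : ℝ), 1 ≤ x → HasDerivAt (fun x : ℝ => x ^ a) (a * x ^ (a - 1)) x :=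
    fun a x hx => Real.hasDerivAt_rpow_const (Or.inl (by positivity))
  -- third derivative
  have h3 : ∀ x : ℝ, 1 ≤ x → 0 ≤ p * (p - 1) * A * ((p - 2) * x ^ (p - 2 - 1)) +
      B * (p + 1) * p * ((p - 1) * x ^ (p - 1 - 1)) + C * (p + 2) * (p + 1) * (p * x ^ (p - 1)) := by
    intro x hx
    have hx0 : 0 < x := by linarith
    have e1 : x ^ (p - 1 - 1) = x ^ (p - 2 - 1) * x := by
      rw [← Real.rpow_add_one hx0.ne']; ring_nf
    have e2 : x ^ (p - 1) = x ^ (p - 2 - 1) * x * x := by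
      rw [← Real.rpow_add_one hx0.ne', ← Real.rpow_add_one hx0.ne']; ring_nf
    rw [e1, e2]
    have e3 : p * (p - 1) * A * ((p - 2) * x ^ (p - 2 - 1)) +
        B * (p + 1) * p * ((p - 1) * (x ^ (p - 2 - 1) * x)) +
        C * (p + 2) * (p + 1) * (p * (x ^ (p - 2 - 1) * x * x)) =
        p * (1 - p) * (1 + p) * (2 - p) * (2 + p) / 12 * x ^ (p - 2 - 1) * (x - 1) ^ 2 := by
      rw [hA, hB, hC]; ring
    rw [e3]
    have : 0 ≤ x ^ (p - 2 - 1) := (Real.rpow_pos_of_pos hx0 _).le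
    have h1 : 0 ≤ 1 - p := by linarith
    have h2 : 0 ≤ 2 - p := by linarith
    positivity
  have h2 : ∀ x : ℝ, 1 ≤ x → 0 ≤ p * (p - 1) * A * x ^ (p - 2) + B * (p + 1) * p * x ^ (p - 1) +
      C * (p + 2) * (p + 1) * x ^ p - 2 * C - p := by
    intro x hx
    refine nonneg_right (f := fun x : ℝ => p * (p - 1) * A * x ^ (p - 2) + B * (p + 1) * p * x ^ (p - 1) +
      C * (p + 2) * (p + 1) * x ^ p - 2 * C - p) (fun x hx => ?_) ?_ h3 hx
    · exact (((((hder (p - 2) x hx).const_mul _).fun_add ((hder (p - 1) x hx).const_mul _)).fun_add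
        ((hder p x hx).const_mul _)).sub_const _).sub_const _
    · simp only [Real.one_rpow]
      rw [hA, hB, hC]; ring
  have h1 : ∀ x : ℝ, 1 ≤ x → 0 ≤ A * p * x ^ (p - 1) + B * (p + 1) * x ^ p +
      C * (p + 2) * x ^ (p + 1) - B - 2 * C * x - p * x := by
    intro x hx
    refine nonneg_right (f := fun x : ℝ => A * p * x ^ (p - 1) + B * (p + 1) * x ^ p +
      C * (p + 2) * x ^ (p + 1) - B - 2 * C * x - p * x) (f' := fun x => p * (p - 1) * A * x ^ (p - 2) +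
      B * (p + 1) * p * x ^ (p - 1) + C * (p + 2) * (p + 1) * x ^ p - 2 * C - p) (fun x hx => ?_) ?_ h2 hx
    · refine (((((((hder (p - 1) x hx).const_mul (A * p)).fun_add
        ((hder p x hx).const_mul (B * (p + 1)))).fun_add
        ((hder (p + 1) x hx).const_mul (C * (p + 2)))).sub_const B).fun_sub
        ((hasDerivAt_id' x).const_mul (2 * C))).fun_sub ((hasDerivAt_id' x).const_mul p)).congr_deriv ?_
      have e1 : p - 1 - 1 = p - 2 := by ring
      have e2 : p + 1 - 1 = p := by ring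
      rw [e1, e2]; ring
    · simp only [Real.one_rpow]
      rw [hA, hB, hC]; ring
  have h0 : 0 ≤ A * x ^ p + B * x ^ (p + 1) + C * x ^ (p + 2) - A - B * x - C * x ^ 2 -
      p / 2 * (x ^ 2 - 1) := by
    refine nonneg_right (f := fun x : ℝ => A * x ^ p + B * x ^ (p + 1) + C * x ^ (p + 2) - A - B * x -
      C * x ^ 2 - p / 2 * (x ^ 2 - 1)) (f' := fun x => A * p * x ^ (p - 1) + B * (p + 1) * x ^ p +
      C * (p + 2) * x ^ (p + 1) - B - 2 * C * x - p * x) (fun x hx => ?_) ?_ h1 hx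
    · refine (((((((hder p x hx).const_mul A).fun_add ((hder (p + 1) x hx).const_mul B)).fun_add
        ((hder (p + 2) x hx).const_mul C)).sub_const A).fun_sub
        ((hasDerivAt_id' x).const_mul B)).fun_sub ((hasDerivAt_pow 2 x).const_mul C) |>.fun_sub
        (((hasDerivAt_pow 2 x).sub_const 1).const_mul (p / 2))).congr_deriv ?_
      have e1 : p + 1 - 1 = p := by ring
      have e2 : p + 2 - 1 = p + 1 := by ring
      rw [e1, e2]
      push_cast
      ring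
    · simp only [Real.one_rpow]
      ring
  have hx0 : 0 < x := by linarith
  have e1 : x ^ (p + 1) = x ^ p * x := Real.rpow_add_one hx0.ne' p
  have e2 : x ^ (p + 2) = x ^ p * x * x := by
    rw [show p + 2 = p + 1 + 1 by ring, Real.rpow_add_one hx0.ne', Real.rpow_add_one hx0.ne']
  rw [e1, e2] at h0
  have e4 : (x ^ p - 1) * (1 + (1 - p / 2) * (x - 1) + (1 - p) * (2 - p) / 12 * (x - 1) ^ 2) -
      p / 2 * (x ^ 2 - 1) = A * x ^ p + B * (x ^ p * x) + C * (x ^ p * x * x) - A - B * x - C * x ^ 2 -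
      p / 2 * (x ^ 2 - 1) := by
    rw [hA, hB, hC]; ring
  linarith

/-- `hm n k ≤ γ k² (1 + e k) / (1 + 3 e k + γ e k²)`, `γ = (n-1)/(2n)`, `e = (2n-1)/(6n)`, cleared of
denominators. -/
theorem hm_le {n : ℕ} (hn : 1 ≤ n) {k : ℝ} (hk : 0 ≤ k) :
    hm n k ≤ ((n : ℝ) - 1) * (6 * n + (2 * n - 1) * k) /
      (12 * n ^ 2 + 6 * n * (2 * n - 1) * k + (n - 1) * (2 * n - 1) * k ^ 2) * k ^ 2 := by
  have hn1 : (1 : ℝ) ≤ n := by exact_mod_cast hn
  have hn0 : (0 : ℝ) < n := by linarith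
  have h := pade (p := 1 / n) (by positivity) (by rw [div_le_one hn0]; exact hn1)
    (x := 1 + k) (by linarith)
  set z : ℝ := (1 + k) ^ ((1 : ℝ) / n) with hz
  have h2 : 0 < 12 * (n : ℝ) ^ 2 + 6 * n * (2 * n - 1) * k + (n - 1) * (2 * n - 1) * k ^ 2 := by
    have : 0 ≤ (n : ℝ) - 1 := by linarith
    have : 0 ≤ 2 * (n : ℝ) - 1 := by linarith
    positivity
  unfold hm
  rw [← hz, div_mul_eq_mul_div, le_div_iff₀ h2]
  have h3 : (z - 1) * (12 * (n : ℝ) ^ 2 + 6 * n * (2 * n - 1) * k + (n - 1) * (2 * n - 1) * k ^ 2) =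
      12 * n ^ 2 * ((z - 1) * (1 + (1 - 1 / n / 2) * (1 + k - 1) +
        (1 - 1 / n) * (2 - 1 / n) / 12 * (1 + k - 1) ^ 2)) := by
    field_simp
    ring
  have h4 : 12 * (n : ℝ) ^ 2 * (1 / n / 2 * ((1 + k) ^ 2 - 1)) = 6 * n * (k ^ 2 + 2 * k) := by
    field_simp
    ring
  have h5 := mul_le_mul_of_nonneg_left h (show 0 ≤ 12 * (n : ℝ) ^ 2 by positivity)
  rw [h4, ← h3] at h5
  nlinarith [mul_le_mul_of_nonneg_left h5 hn0.le]

/-- `hm n k ≤ γ K(k)` for `-1 < k ≤ 0` -/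
theorem hm_le_neg {n : ℕ} (hn : 1 ≤ n) {k : ℝ} (hk : 0 < 1 + k) (hk0 : k ≤ 0) :
    hm n k ≤ ((n : ℝ) - 1) / (2 * n) * KK k := by
  have hn1 : (1 : ℝ) ≤ n := by exact_mod_cast hn
  have hn0 : (0 : ℝ) < n := by linarith
  set p : ℝ := 1 / n with hp
  have hnp : (n : ℝ) * p = 1 := by rw [hp]; field_simp
  have hp1 : p ≤ 1 := by rw [hp, div_le_one hn0]; exact hn1
  have hp0 : 0 ≤ p := by positivity
  set g : ℝ := ((n : ℝ) - 1) / (2 * n) with hg
  have hg2 : 2 * g = 1 - p := by rw [hg, hp]; field_simp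
  -- first derivative
  have h1 : ∀ x ∈ Ioc (0 : ℝ) 1, g * (1 - (x ^ 2)⁻¹) - 1 + x ^ (p - 1) ≤ 0 := by
    intro x hx
    have := nonneg_left (f := fun x => -(g * (1 - (x ^ 2)⁻¹) - 1 + x ^ (p - 1)))
      (f' := fun x => -(g * (2 * (x ^ 3)⁻¹) + (p - 1) * x ^ (p - 1 - 1))) (fun x hx => ?_) ?_ ?_ hx
    · linarith
    · have hx0 := hx.1.ne'
      have e := ((((hasDerivAt_pow 2 x).fun_inv (pow_ne_zero 2 hx0)).const_sub 1).const_mul g)
      have e2 := Real.hasDerivAt_rpow_const (x := x) (p := p - 1) (Or.inl hx0)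
      refine ((e.sub_const 1).fun_add e2).fun_neg.congr_deriv ?_
      field_simp
      push_cast
      ring
    · simp
    · intro x hx
      have hx0 := hx.1
      have e1 : x ^ (p - 1 - 1) ≤ (x ^ 3)⁻¹ := by
        rw [← Real.rpow_natCast x 3, ← Real.rpow_neg hx0.le]
        apply Real.rpow_le_rpow_of_exponent_ge hx0 hx.2
        push_cast
        linarith
      have e2 : g * (2 * (x ^ 3)⁻¹) = (1 - p) * (x ^ 3)⁻¹ := by rw [← hg2]; ring
      rw [e2]
      nlinarith [mul_le_mul_of_nonneg_left e1 (show 0 ≤ 1 - p by linarith)]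
  have h0 := nonneg_left (f := fun x => g * (x - 2 + x⁻¹) - (x - 1) + n * (x ^ p - 1))
      (f' := fun x => g * (1 - (x ^ 2)⁻¹) - 1 + x ^ (p - 1)) (fun x hx => ?_) ?_ h1
      (x := 1 + k) ⟨hk, by linarith⟩
  · unfold hm KK
    rw [← hp]
    have hk1 := hk.ne'
    have e1 : g * (1 + k - 2 + (1 + k)⁻¹) = g * (k ^ 2 / (1 + k)) := by
      field_simp
      ring
    have h0' : 0 ≤ g * (1 + k - 2 + (1 + k)⁻¹) - (1 + k - 1) + n * ((1 + k) ^ p - 1) := h0
    rw [e1] at h0'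
    linarith
  · have hx0 := hx.1.ne'
    have e := ((((hasDerivAt_id' x).sub_const 2).fun_add (hasDerivAt_inv hx0)).const_mul g).fun_sub
      ((hasDerivAt_id' x).sub_const 1)
    have e2 := ((Real.hasDerivAt_rpow_const (x := x) (p := p) (Or.inl hx0)).sub_const 1).const_mul (n : ℝ)
    refine (e.fun_add e2).congr_deriv ?_
    have : (n : ℝ) * (p * x ^ (p - 1)) = x ^ (p - 1) := by rw [← mul_assoc, hnp, one_mul]
    rw [this]
    ring
  · show g * (1 - 2 + (1 : ℝ)⁻¹) - (1 - 1) + n * ((1 : ℝ) ^ p - 1) = 0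
    rw [Real.one_rpow]
    norm_num

/-- `e^{-x} ≥ (2-x)/(2+x)` -/
lemma exp_neg_ge {x : ℝ} (hx : 0 ≤ x) : (2 - x) ≤ (2 + x) * Real.exp (-x) := by
  have := nonneg_zero (f := fun x => (2 + x) * Real.exp (-x) - (2 - x))
    (f' := fun x => 1 - (1 + x) * Real.exp (-x)) (fun x _ => ?_) (by simp) (fun x hx => ?_) hx
  · linarith
  · have h1 : HasDerivAt (fun x : ℝ => Real.exp (-x)) (-Real.exp (-x)) x := by
      have := (hasDerivAt_neg x).exp
      simpa using this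
    have h2 := (((hasDerivAt_id' x).const_add 2).fun_mul h1).fun_sub ((hasDerivAt_id' x).const_sub 2)
    refine h2.congr_deriv ?_
    ring
  · have h1 := Real.add_one_le_exp x
    have h2 : (1 + x) * Real.exp (-x) ≤ Real.exp x * Real.exp (-x) :=
      mul_le_mul_of_nonneg_right (by linarith) (Real.exp_pos _).le
    rw [← Real.exp_add, add_neg_cancel, Real.exp_zero] at h2
    linarith

/-- `Gm n l ≥ l²/(2n - l)` for `l ≤ 0` -/
theorem Gm_ge {n : ℕ} (hn : 1 ≤ n) {l : ℝ} (hl : l ≤ 0) : l ^ 2 / (2 * n - l) ≤ Gm n l := by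
  have hn1 : (1 : ℝ) ≤ n := by exact_mod_cast hn
  have hn0 : (0 : ℝ) < n := by linarith
  have h := exp_neg_ge (x := -l / n) (by apply div_nonneg <;> linarith)
  unfold Gm
  have e : -(-l / (n : ℝ)) = l / n := by ring
  rw [e] at h
  rw [div_le_iff₀ (by linarith)]
  have h2 : (2 * (n : ℝ) + l) ≤ (2 * n - l) * Real.exp (l / n) := by
    have := mul_le_mul_of_nonneg_left h hn0.le
    have e1 : (n : ℝ) * (2 - -l / n) = 2 * n + l := by field_simp; ring
    have e2 : (n : ℝ) * ((2 + -l / n) * Real.exp (l / n)) = (2 * n - l) * Real.exp (l / n) := by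
      field_simp; ring
    rwa [e1, e2] at this
  nlinarith [mul_le_mul_of_nonneg_left h2 hn0.le]

/-- `cR ≥ l (1-c)/(1+c)` for `l ≤ 0` -/
theorem cR_ge₁ {s l : ℝ} (hs : s ∈ Ioo (0 : ℝ) 1) (hl : l ≤ 0) :
    l * ((1 - cc s) / (1 + cc s)) ≤ cR s l := by
  have h1 : s * Real.exp l ≤ s := by
    have := Real.exp_le_one_iff.2 hl
    nlinarith [hs.1]
  have h2 : 0 ≤ s * Real.exp l := mul_nonneg hs.1.le (Real.exp_pos _).le
  have h3 := Phi_anti h2 h1
  have h4 := cc_nonneg s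
  unfold cR
  nlinarith [mul_nonneg h4 (sub_nonneg.2 h3)]

lemma hasDerivAt_Phi {t : ℝ} (ht : t ∈ Ioo (0 : ℝ) 1) :
    HasDerivAt Phi (-t / cc t / (1 + cc t) ^ 2) t := by
  have hc : HasDerivAt cc (-t / cc t) t := Poinc.hasDerivAt_c ht.1.le ht.2
  have h := hc.fun_div (hc.const_add 1) (one_add_cc_pos t).ne'
  refine h.congr_deriv ?_
  have h1 := (cc_pos' ht).ne'
  have h2 := (one_add_cc_pos t).ne'
  field_simp
  ring

/-- `cR ≥ -(Y/2) l²` for `l ≤ 0` -/
theorem cR_ge₂ {s l : ℝ} (hs : s ∈ Ioo (0 : ℝ) 1) (hl : l ≤ 0) : -(Y s / 2) * l ^ 2 ≤ cR s l := by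
  have hc := cc_pos' hs
  have hcs := cc_sq' hs
  have hc1 : 0 < 1 + cc s := one_add_cc_pos s
  have hT : ∀ x : ℝ, 0 ≤ x → s * Real.exp (-x) ∈ Ioo (0 : ℝ) 1 ∧ s * Real.exp (-x) ≤ s := by
    intro x hx
    have h1 : Real.exp (-x) ≤ 1 := Real.exp_le_one_iff.2 (by linarith)
    have h2 := Real.exp_pos (-x)
    have h3 : s * Real.exp (-x) ≤ s := by nlinarith [hs.1]
    exact ⟨⟨mul_pos hs.1 h2, by linarith [hs.2]⟩, h3⟩
  have key := nonneg_zero (f := fun x => cc s * (Phi (s * Real.exp (-x)) - Phi s) +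
      (-x) * ((1 - cc s) / (1 + cc s)) + Y s / 2 * x ^ 2)
    (f' := fun x => cc s * (-(s * Real.exp (-x)) / cc (s * Real.exp (-x)) /
      (1 + cc (s * Real.exp (-x))) ^ 2 * (-(s * Real.exp (-x)))) - (1 - cc s) / (1 + cc s) + Y s * x)
    (fun x hx => ?_) (by simp) (fun x hx => ?_) (x := -l) (by linarith)
  · simp only [neg_neg] at key
    unfold cR
    nlinarith [key]
  · have h1 : HasDerivAt (fun x : ℝ => s * Real.exp (-x)) (-(s * Real.exp (-x))) x := by
      have := ((hasDerivAt_neg x).exp).const_mul s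
      refine this.congr_deriv ?_
      ring
    have h2 := (hasDerivAt_Phi (hT x hx).1).comp x h1
    have h3 := (((h2.sub_const (Phi s)).const_mul (cc s)).fun_add
      ((hasDerivAt_neg x).mul_const ((1 - cc s) / (1 + cc s)))).fun_add
      ((hasDerivAt_pow 2 x).const_mul (Y s / 2))
    refine h3.congr_deriv ?_
    push_cast
    ring
  · have hT1 := (hT x hx).1
    have hTs := (hT x hx).2
    set T : ℝ := s * Real.exp (-x) with hTdef
    have hC := cc_pos' hT1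
    have hCs := cc_sq' hT1
    have hC1 : 0 < 1 + cc T := one_add_cc_pos T
    have hcC : cc s ≤ cc T := cc_anti hT1.1.le hTs
    have hCle : cc T ≤ 1 := cc_le_one T
    have e1 : cc s * (-T / cc T / (1 + cc T) ^ 2 * -T) = cc s * (1 - cc T) / (cc T * (1 + cc T)) := by
      have hT2 : T ^ 2 = (1 - cc T) * (1 + cc T) := by nlinarith
      field_simp
      rw [hT2]
      ring
    rw [e1]
    -- `1 - e^{-2x} ≤ 2x`
    have h1 : cc T ^ 2 - cc s ^ 2 ≤ 2 * x * s ^ 2 := by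
      have h2 := Real.add_one_le_exp (-(2 * x))
      have h3 : T ^ 2 = s ^ 2 * Real.exp (-(2 * x)) := by
        rw [hTdef, mul_pow, ← Real.exp_nat_mul]
        congr 2
        push_cast
        ring
      rw [hCs, hcs]
      nlinarith [sq_nonneg s]
    have h2 : (cc T ^ 2 - cc s ^ 2) / (2 * cc s ^ 2) ≤ Y s * x := by
      unfold Y
      rw [← hcs, div_le_iff₀ (by positivity)]
      have : s ^ 2 / cc s ^ 2 * x * (2 * cc s ^ 2) = 2 * x * s ^ 2 := by field_simp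
      rw [this]
      exact h1
    have h3 : (1 - cc s) / (1 + cc s) - cc s * (1 - cc T) / (cc T * (1 + cc T)) ≤
        (cc T ^ 2 - cc s ^ 2) / (2 * cc s ^ 2) := by
      rw [div_sub_div _ _ hc1.ne' (by positivity), div_le_div_iff₀ (by positivity) (by positivity)]
      generalize cc T = C at *
      generalize cc s = c at *
      have e : (C ^ 2 - c ^ 2) * ((1 + c) * (C * (1 + C))) -
          ((1 - c) * (C * (1 + C)) - (1 + c) * (c * (1 - C))) * (2 * c ^ 2) =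
          (C - c) * (C * (C + c) * (1 + c) * (1 + C) - 2 * c ^ 2 * (1 + C + c - c * C)) := by ring
      have h4 : 2 * c ^ 2 * (1 + C + c - c * C) ≤ C * (C + c) * (1 + c) * (1 + C) := by
        have a1 : c * (c + c) ≤ C * (C + c) := by nlinarith
        have a2 : 1 + C + c - c * C ≤ (1 + c) * (1 + C) := by nlinarith [mul_pos hc hC]
        have a3 : 0 < (1 + c) * (1 + C) := by positivity
        nlinarith [mul_le_mul_of_nonneg_right a1 a3.le, mul_le_mul_of_nonneg_left a2 (show 0 ≤ 2 * c ^ 2 by positivity)]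
      nlinarith [mul_nonneg (sub_nonneg.2 hcC) (sub_nonneg.2 h4)]
    linarith

end Crest.Agent.R230.WR
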