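import Crest.Agent.R230.WMain
import Crest.Agent.R230.HmBound
import Crest.Agent.R230.CaseI

/-!
# Row 230: block B5 (case II, `l ≥ 0`, `k ≥ 0`), tools

`σ = 3`, `θ = 1`, `μ = (n + 7/4)/(n-1)`.
-/

set_option autoImplicit false

open MeasureTheory Set Filter Topology
open scoped Pointwise ENNReal

namespace Crest.Agent.R230.B5

open WR

/-- tangent bound of `c²/(1+c)` as a function of `c²` -/
lemma psi_tangent {c c0 : ℝ} (hc : 0 ≤ c) (h0 : 0 ≤ c0) :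
    c ^ 2 / (1 + c) ≤ c0 ^ 2 / (1 + c0) + (2 + c0) / (2 * (1 + c0) ^ 2) * (c ^ 2 - c0 ^ 2) := by
  have h : c0 ^ 2 / (1 + c0) + (2 + c0) / (2 * (1 + c0) ^ 2) * (c ^ 2 - c0 ^ 2) - c ^ 2 / (1 + c) =
      (c - c0) ^ 2 * ((2 + c0) * c + c0) / (2 * (1 + c0) ^ 2 * (1 + c)) := by
    field_simp
    ring
  rw [← sub_nonneg, h]
  positivity

/-- `exp u ≤ 1 + (26/25) u` -/
lemma exp_le1 {u : ℝ} (h0 : 0 ≤ u) (h1 : u ≤ 3 / 40) : Real.exp u ≤ 1 + 26 / 25 * u := by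
  have h := Real.exp_bound' (x := u) h0 (by linarith) (n := 3) (by norm_num)
  simp [Finset.sum_range_succ, Nat.factorial] at h
  nlinarith [mul_nonneg h0 h0, mul_nonneg h0 (sub_nonneg.2 h1),
    mul_nonneg (mul_nonneg h0 h0) (sub_nonneg.2 h1)]

/-- `exp u ≤ 1 + (51/50) u` -/
lemma exp_le2 {u : ℝ} (h0 : 0 ≤ u) (h1 : u ≤ 3 / 100) : Real.exp u ≤ 1 + 51 / 50 * u := by
  have h := Real.exp_bound' (x := u) h0 (by linarith) (n := 3) (by norm_num)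
  simp [Finset.sum_range_succ, Nat.factorial] at h
  nlinarith [mul_nonneg h0 h0, mul_nonneg h0 (sub_nonneg.2 h1),
    mul_nonneg (mul_nonneg h0 h0) (sub_nonneg.2 h1)]

lemma exp_neg_chord {l L u : ℝ} (h0 : 0 ≤ l) (h1 : l ≤ L) (hu : u ≤ 1 - L / 2) :
    Real.exp (-l) ≤ 1 - u * l := by
  have h := CI.exp_neg_le h0
  nlinarith [mul_nonneg h0 (sub_nonneg.2 h1), mul_nonneg h0 (sub_nonneg.2 hu)]

/-- `c² ≤ al²/(al²+k²)` -/
lemma z_le {s c k al : ℝ} (hc : 0 < c) (hsc : s ^ 2 + c ^ 2 = 1) (hk : 0 ≤ k)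
    (hal : 0 < al) (h : (1 + k) * c ≤ c + al * s) : c ^ 2 ≤ al ^ 2 / (al ^ 2 + k ^ 2) := by
  have h1 : k * c ≤ al * s := by linarith
  have h2 : (k * c) ^ 2 ≤ (al * s) ^ 2 := pow_le_pow_left₀ (by positivity) h1 2
  rw [le_div_iff₀ (by positivity)]
  have h3 : s ^ 2 = 1 - c ^ 2 := by linarith
  rw [mul_pow, mul_pow, h3] at h2
  linarith

lemma Gm_ge_pos {n : ℕ} (hn : 1 ≤ n) {l : ℝ} (hl : 0 ≤ l) : l ^ 2 / (2 * n) ≤ Gm n l := by
  have hn0 : (0 : ℝ) < n := by exact_mod_cast hn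
  have h := Real.quadratic_le_exp_of_nonneg (x := l / n) (by positivity)
  unfold Gm
  have h2 : (n : ℝ) * (1 + l / n + (l / n) ^ 2 / 2) ≤ n * Real.exp (l / n) :=
    mul_le_mul_of_nonneg_left h hn0.le
  have e : (n : ℝ) * (1 + l / n + (l / n) ^ 2 / 2) = n + l + l ^ 2 / (2 * n) := by
    field_simp
  rw [e] at h2
  linarith

/-- the factor `ρ` of `hm n k ≤ ρ K` -/
noncomputable def rh (n k : ℝ) : ℝ :=
  (n - 1) * (6 * n + (2 * n - 1) * k) * (1 + k) /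
    (12 * n ^ 2 + 6 * n * (2 * n - 1) * k + (n - 1) * (2 * n - 1) * k ^ 2)

lemma rh_nonneg {n k : ℝ} (hn : 1 ≤ n) (hk : 0 ≤ k) : 0 ≤ rh n k := by
  unfold rh
  have h1 : 0 ≤ n - 1 := by linarith
  have h2 : 0 ≤ 2 * n - 1 := by linarith
  positivity

lemma hm_le_rh {n : ℕ} (hn : 1 ≤ n) {k : ℝ} (hk : 0 ≤ k) : hm n k ≤ rh n k * KK k := by
  have h := hm_le hn hk
  refine h.trans (le_of_eq ?_)
  unfold rh KK
  have h1 : 1 + k ≠ 0 := by positivity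
  field_simp

/-- lower bound of `PP` for `l ≥ 0`, `k ≥ 0` -/
theorem core {n : ℕ} (hn : 6 ≤ n) {s l k E : ℝ} (hs : s ∈ Ioo (0 : ℝ) 1) (hl : 0 ≤ l) (hk : 0 ≤ k)
    (hT : s * Real.exp l ≤ 1) (hl1 : l * (1 + cc s) ≤ cc s ^ 2) (hE : Real.exp (l / n) ≤ E) :
    KK k * (aq s - 3 * (Y s * l) - 3 / (2 * ((n : ℝ) + 2)) * (1 + k) -
      ((n : ℝ) + 1 + 3 * (1 / 4)) / ((n : ℝ) - 1) * (E * rh n k)) + Y s * l * k +
      ((n : ℝ) - 5) * (Y s * l) ^ 2 + 7 / (8 * n) * (Y s * l ^ 2) ≤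
      PP n (((n : ℝ) + 1 + 3 * (1 / 4)) / ((n : ℝ) - 1)) 3 1 0 0 s l k := by
  have hn6 : (6 : ℝ) ≤ n := by exact_mod_cast hn
  have hc := cc_pos' hs
  have hsc : s ^ 2 + cc s ^ 2 = 1 := by rw [cc_sq' hs]; ring
  have hc1 : cc s ≤ 1 := cc_le_one s
  have hY : Y s = s ^ 2 / cc s ^ 2 := by unfold Y; rw [cc_sq' hs]
  have hY0 : 0 < Y s := by rw [hY]; have := hs.1; positivity
  have hT0 : 0 < s * Real.exp l := mul_pos hs.1 (Real.exp_pos l)
  have hC : cc (s * Real.exp l) ^ 2 = 1 - (s * Real.exp l) ^ 2 := by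
    unfold cc
    rw [Real.sq_sqrt]
    nlinarith
  have hl2 : l ≤ 1 / 2 := by
    by_contra hcon
    rw [not_le] at hcon
    nlinarith
  have hcR0 := CI.cR_pos (C := cc (s * Real.exp l)) hs.1 hc hsc hT hl (by linarith) (fun h1 h2 => by
    by_contra hcon
    rw [not_le] at hcon
    nlinarith) (cc_nonneg _) hC
  have hcR : cR s l = cc s * cc (s * Real.exp l) / (1 + cc (s * Real.exp l)) -
      cc s ^ 2 / (1 + cc s) + l * (s ^ 2 / (1 + cc s) ^ 2) := by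
    unfold cR
    rw [CI.Phi_sub]
    have h1 : s ^ 2 = (1 - cc s) * (1 + cc s) := by linear_combination hsc
    have h2 : s ^ 2 / (1 + cc s) ^ 2 = (1 - cc s) / (1 + cc s) := by
      rw [h1]; field_simp
    rw [h2]
    ring
  rw [← hcR, ← hY] at hcR0
  have hG := Gm_ge_pos (n := n) (by omega) hl
  have hh := hm_le_rh (n := n) (by omega) hk
  have hKk : (1 + k) * KK k = k ^ 2 := by unfold KK; field_simp
  have hK0 : 0 ≤ KK k := by unfold KK; positivity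
  have hr0 := rh_nonneg (n := (n : ℝ)) (by linarith) hk
  have hE0 : 0 < E := (Real.exp_pos _).trans_le hE
  set μ : ℝ := ((n : ℝ) + 1 + 3 * (1 / 4)) / ((n : ℝ) - 1) with hμ
  have hμ0 : 0 ≤ μ := by rw [hμ]; apply div_nonneg <;> linarith
  have hμn : μ * ((n : ℝ) - 1) = n + 7 / 4 := by
    rw [hμ, div_mul_cancel₀ _ (by linarith)]; ring
  have h1 : Real.exp (l / n) * hm n k ≤ E * (rh n k * KK k) := by
    rcases le_total 0 (hm n k) with h | h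
    · exact mul_le_mul hE hh h hE0.le
    · have h3 : Real.exp (l / n) * hm n k ≤ 0 := mul_nonpos_of_nonneg_of_nonpos (Real.exp_pos _).le h
      have h4 : 0 ≤ E * (rh n k * KK k) := by positivity
      linarith
  have h2 : (7 / (8 * n) + 1 / 2) * (Y s * l ^ 2) ≤ μ * (((n : ℝ) - 1) * Y s * Gm n l) := by
    have e1 : μ * (((n : ℝ) - 1) * Y s * Gm n l) = (n + 7 / 4) * (Y s * Gm n l) := by
      rw [← hμn]; ring
    rw [e1]
    have h3 : (n + 7 / 4) * (Y s * (l ^ 2 / (2 * n))) ≤ (n + 7 / 4) * (Y s * Gm n l) := by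
      apply mul_le_mul_of_nonneg_left _ (by linarith)
      exact mul_le_mul_of_nonneg_left hG hY0.le
    refine le_trans (le_of_eq ?_) h3
    field_simp
    ring
  have h3 := mul_le_mul_of_nonneg_left h1 hμ0
  have hPP : PP n μ 3 1 0 0 s l k = μ * (((n : ℝ) - 1) * Y s * Gm n l) -
      μ * (Real.exp (l / n) * hm n k) + (aq s - 3 * (Y s * l)) * KK k + Y s * l * k +
      ((n : ℝ) - 3) * (Y s * l) ^ 2 + cR s l - 3 / (2 * ((n : ℝ) + 2)) * k ^ 2 := by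
    unfold PP; ring
  rw [hPP, ← hKk]
  have e2 : -(1 / 2 + 2 * Y s) * Y s * l ^ 2 = -(1 / 2) * (Y s * l ^ 2) - 2 * (Y s * l) ^ 2 := by ring
  rw [e2] at hcR0
  linarith

/-- hazard bound for `x = Y l` -/
lemma haz_x {s c k l u N : ℝ} (hs : 0 < s) (hc : 0 < c) (hsc : s ^ 2 + c ^ 2 = 1) (hN : 0 ≤ N)
    (hu : Real.exp (-l) ≤ 1 - u * l)
    (h : (1 + k) * (s * c ^ 2) ≤ (1 + N * s ^ 2) * (Real.exp (-l) - s)) :
    u * l ≤ c ^ 2 * (1 / (1 + s) - (1 + k) * (s / (1 + N * s ^ 2))) ∧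
    u * (s ^ 2 / c ^ 2 * l) ≤ s ^ 2 / (1 + s) - (1 + k) * (s ^ 3 / (1 + N * s ^ 2)) := by
  have hD : 0 < 1 + N * s ^ 2 := by positivity
  have h1 : (1 + k) * (s * c ^ 2) / (1 + N * s ^ 2) ≤ Real.exp (-l) - s := by
    rw [div_le_iff₀ hD]; linarith
  have h2 : c ^ 2 / (1 + s) = 1 - s := by
    have : c ^ 2 = (1 - s) * (1 + s) := by linarith
    rw [this]; field_simp
  have h3 : u * l ≤ c ^ 2 * (1 / (1 + s) - (1 + k) * (s / (1 + N * s ^ 2))) := by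
    have e : c ^ 2 * (1 / (1 + s) - (1 + k) * (s / (1 + N * s ^ 2))) =
      c ^ 2 / (1 + s) - (1 + k) * (s * c ^ 2) / (1 + N * s ^ 2) := by ring
    rw [e, h2]; linarith
  refine ⟨h3, ?_⟩
  have h4 := mul_le_mul_of_nonneg_left h3 (by positivity : 0 ≤ s ^ 2 / c ^ 2)
  have e1 : s ^ 2 / c ^ 2 * (u * l) = u * (s ^ 2 / c ^ 2 * l) := by ring
  have e2 : s ^ 2 / c ^ 2 * (c ^ 2 * (1 / (1 + s) - (1 + k) * (s / (1 + N * s ^ 2)))) =
      s ^ 2 / (1 + s) - (1 + k) * (s ^ 3 / (1 + N * s ^ 2)) := by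
    field_simp
  rw [e1, e2] at h4
  exact h4

/-- linear combination step -/
lemma comb2 {a x z zb X0 X1 A0 A1 Q R δ : ℝ} (ha : A0 - A1 * z ≤ a) (hx : x ≤ X0 - X1 * z)
    (hQ : 0 ≤ Q) (hsl : 0 ≤ A1 - Q * X1) (hz : z ≤ zb)
    (hmain : δ ≤ A0 - A1 * zb - Q * (X0 - X1 * zb) - R) : δ ≤ a - Q * x - R := by
  have h1 := mul_le_mul_of_nonneg_left hx hQ
  have h2 := mul_le_mul_of_nonneg_left hz hsl
  linarith

lemma fin1a {k x a M m δ : ℝ} (hk : 0 ≤ k) (hk1 : k ≤ 1 / 2) (hx : 0 ≤ x) (hm : 0 ≤ m)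
    (h : δ ≤ a - M) : δ * KK k ≤ KK k * (a - 3 * x - M) + x * k + m * x ^ 2 := by
  have hK : 0 ≤ KK k := by unfold KK; positivity
  have hKk : KK k * (1 + k) = k ^ 2 := by unfold KK; field_simp
  have h1 : 3 * KK k ≤ k := by
    have h2 : 3 * KK k * (1 + k) ≤ k * (1 + k) := by nlinarith
    exact le_of_mul_le_mul_right h2 (by linarith)
  have h2 := mul_le_mul_of_nonneg_left h hK
  have h3 := mul_le_mul_of_nonneg_left h1 hx
  have h4 : 0 ≤ m * x ^ 2 := by positivity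
  linarith

lemma fin1b {k x a M m δ : ℝ} (hk : 0 ≤ k) (hm : 0 < m)
    (h : δ ≤ a - M - (2 * k - 1) ^ 2 / (4 * m * (1 + k))) :
    δ * KK k ≤ KK k * (a - 3 * x - M) + x * k + m * x ^ 2 := by
  have hK : 0 ≤ KK k := by unfold KK; positivity
  have h2 := mul_le_mul_of_nonneg_left h hK
  have e : KK k * (a - 3 * x - M) + x * k + m * x ^ 2 -
      KK k * (a - M - (2 * k - 1) ^ 2 / (4 * m * (1 + k))) =
      (2 * m * (1 + k) * x - k * (2 * k - 1)) ^ 2 / (4 * m * (1 + k) ^ 2) := by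
    unfold KK
    field_simp
    ring
  have h3 : 0 ≤ (2 * m * (1 + k) * x - k * (2 * k - 1)) ^ 2 / (4 * m * (1 + k) ^ 2) := by positivity
  linarith

lemma fin2 {k x a b M m C D δ : ℝ} (hk : 0 < k) (hm : 0 < m) (hCD : C ^ 2 ≤ 4 * m * D)
    (h : δ ≤ a - ((2 * k - 1) * k - C * (1 + k)) / k ^ 2 * x -
      (D * (1 + k) / k ^ 2 + b * (1 + k) + M)) :
    δ * KK k ≤ KK k * (a - 3 * x - b * (1 + k) - M) + x * k + m * x ^ 2 := by
  have hK : 0 ≤ KK k := by unfold KK; positivity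
  have h2 := mul_le_mul_of_nonneg_left h hK
  have e : KK k * (a - 3 * x - b * (1 + k) - M) + x * k + m * x ^ 2 -
      KK k * (a - ((2 * k - 1) * k - C * (1 + k)) / k ^ 2 * x -
      (D * (1 + k) / k ^ 2 + b * (1 + k) + M)) = m * x ^ 2 - C * x + D := by
    unfold KK
    field_simp
    ring
  have h3 : 0 ≤ m * x ^ 2 - C * x + D := by
    have h4 : 4 * m * (m * x ^ 2 - C * x + D) = (2 * m * x - C) ^ 2 + (4 * m * D - C ^ 2) := by ring
    have h5 : 0 ≤ 4 * m * (m * x ^ 2 - C * x + D) := by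
      rw [h4]; have := sq_nonneg (2 * m * x - C); linarith
    exact nonneg_of_mul_nonneg_right h5 (by linarith)
  linarith

/-- `k ≤ n/2` from the hazard bound -/
lemma k_le_half {s c k l N : ℝ} (hs : 0 < s) (hc : 0 < c) (hsc : s ^ 2 + c ^ 2 = 1) (hN : 1 ≤ N)
    (hl : 0 ≤ l) (hsN : 2 ≤ (N - 1) * s)
    (h : (1 + k) * (s * c ^ 2) ≤ (1 + N * s ^ 2) * (Real.exp (-l) - s)) : 1 + k ≤ (N + 1) / 2 := by
  have he : Real.exp (-l) ≤ 1 := Real.exp_le_one_iff.2 (by linarith)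
  have hs1 : s < 1 := by nlinarith
  have h1 : (1 + k) * (s * c ^ 2) ≤ (1 + N * s ^ 2) * (1 - s) :=
    h.trans (mul_le_mul_of_nonneg_left (by linarith) (by positivity))
  have hc2 : c ^ 2 = (1 - s) * (1 + s) := by linarith
  rw [hc2] at h1
  have h2 : (1 + k) * (s * (1 + s)) * (1 - s) ≤ (1 + N * s ^ 2) * (1 - s) := by linarith
  have h3 := le_of_mul_le_mul_right h2 (by linarith)
  have h4 : 1 + N * s ^ 2 ≤ (N + 1) / 2 * (s * (1 + s)) := by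
    nlinarith [mul_nonneg (sub_nonneg.2 hsN) (sub_nonneg.2 hs1.le)]
  have h5 : (1 + k) * (s * (1 + s)) ≤ (N + 1) / 2 * (s * (1 + s)) := h3.trans h4
  exact le_of_mul_le_mul_right h5 (by positivity)

end Crest.Agent.R230.B5
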