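import Crest.Agent.R230.BFiveCore

/-!
# Row 230: block B5 (case II, `l ≥ 0`, `k ≥ 0`), `n = 6` (dimension 7)
-/

set_option autoImplicit false
set_option maxHeartbeats 1000000

open MeasureTheory Set Filter Topology
open scoped Pointwise ENNReal

namespace Crest.Agent.R230.B5

open WR

lemma rh_eq6 (k : ℝ) : rh 6 k = (5 * (36 + 11 * k) * (1 + k) / (432 + 396 * k + 55 * k ^ 2)) := by
  unfold rh; norm_num

lemma r1a_6 {k : ℝ} (h0 : 0 ≤ k) (h1 : k ≤ 1 / 2) :
    1 / 100 ≤ 2 - 2 * ((6859 / 60840) + (56699 / 136890) / (961 / 900 + k ^ 2)) - (3 / 16) * (1 + k) -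
      (31 / 20) * ((5 * (36 + 11 * k) * (1 + k) / (432 + 396 * k + 55 * k ^ 2)) * (1 + (91 / 600) * ((6859 / 60840) + (56699 / 136890) / (961 / 900 + k ^ 2)))) := by
  have hk : 0 ≤ k := by linarith
  have hx : 0 ≤ k - 0 := by linarith
  have hy : 0 ≤ 1 / 2 - k := by linarith
  have e : 2 - 2 * ((6859 / 60840) + (56699 / 136890) / (961 / 900 + k ^ 2)) - (3 / 16) * (1 + k) -
      (31 / 20) * ((5 * (36 + 11 * k) * (1 + k) / (432 + 396 * k + 55 * k ^ 2)) * (1 + (91 / 600) * ((6859 / 60840) + (56699 / 136890) / (961 / 900 + k ^ 2)))) - 1 / 100 =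
      ((4591580159 / 2925000) * (1 / 2 - k) ^ 5 +
        (1093031168233 / 210600000) * k ^ 1 * (1 / 2 - k) ^ 4 +
        (13143804886643 / 1825200000) * k ^ 2 * (1 / 2 - k) ^ 3 +
        (12428068409323 / 1825200000) * k ^ 3 * (1 / 2 - k) ^ 2 +
        (817481392249 / 171112500) * k ^ 4 * (1 / 2 - k) ^ 1 +
        (156051380417 / 101400000) * k ^ 5) /
        ((961 / 900 + k ^ 2) * (432 + 396 * k + 55 * k ^ 2)) := by
    field_simp
    ring
  rw [← sub_nonneg, e]
  positivity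

lemma r1b_6 {k : ℝ} (h0 : 1 / 2 ≤ k) (h1 : k ≤ 1) :
    1 / 100 ≤ 2 - 2 * ((32 / 405) + (6727 / 14580) / (961 / 900 + k ^ 2)) - (3 / 16) * (1 + k) -
      (31 / 20) * ((5 * (36 + 11 * k) * (1 + k) / (432 + 396 * k + 55 * k ^ 2)) * (1 + (91 / 600) * ((32 / 405) + (6727 / 14580) / (961 / 900 + k ^ 2)))) - (2 * k - 1) ^ 2 / (4 * (1 + k)) := by
  have hk : 0 ≤ k := by linarith
  have hx : 0 ≤ k - 1 / 2 := by linarith
  have hy : 0 ≤ 1 - k := by linarith
  have e : 2 - 2 * ((32 / 405) + (6727 / 14580) / (961 / 900 + k ^ 2)) - (3 / 16) * (1 + k) -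
      (31 / 20) * ((5 * (36 + 11 * k) * (1 + k) / (432 + 396 * k + 55 * k ^ 2)) * (1 + (91 / 600) * ((32 / 405) + (6727 / 14580) / (961 / 900 + k ^ 2)))) - (2 * k - 1) ^ 2 / (4 * (1 + k)) - 1 / 100 =
      ((1916063707 / 112500) * (1 - k) ^ 6 +
        (153064616731 / 1012500) * (k - 1 / 2) ^ 1 * (1 - k) ^ 5 +
        (383579676652 / 759375) * (k - 1 / 2) ^ 2 * (1 - k) ^ 4 +
        (836134963463 / 1012500) * (k - 1 / 2) ^ 3 * (1 - k) ^ 3 +
        (115151004073 / 168750) * (k - 1 / 2) ^ 4 * (1 - k) ^ 2 +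
        (63077363576 / 253125) * (k - 1 / 2) ^ 5 * (1 - k) ^ 1 +
        (16240764152 / 759375) * (k - 1 / 2) ^ 6) /
        ((961 / 900 + k ^ 2) * (432 + 396 * k + 55 * k ^ 2) * (4 * (1 + k))) := by
    field_simp
    ring
  rw [← sub_nonneg, e]
  positivity

lemma wline6 {s : ℝ} (h0 : 139 / 200 ≤ s) (h1 : s ≤ 1) :
    (-169 / 5000) + (397 / 2500) * s ≤ s ^ 3 / (1 + 7 * s ^ 2) := by
  have hx : 0 ≤ s - 139 / 200 := by linarith
  have hy : 0 ≤ 1 - s := by linarith
  rw [le_div_iff₀ (by positivity)]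
  have e : s ^ 3 - ((-169 / 5000) + (397 / 2500) * s) * (1 + 7 * s ^ 2) =
      (83059 / 9302500) * (1 - s) ^ 3 +
        (10849 / 93025) * (s - 139 / 200) ^ 1 * (1 - s) ^ 2 +
        (816 / 3721) * (s - 139 / 200) ^ 2 * (1 - s) ^ 1 := by ring
  rw [← sub_nonneg, e]
  positivity

lemma mline6 {s : ℝ} (h0 : 139 / 200 ≤ s) (h1 : s ≤ 1) :
    1 / (1 + s) - 2 * (s / (1 + 7 * s ^ 2)) ≤ (2729 / 10000) := by
  have hx : 0 ≤ s - 139 / 200 := by linarith
  have hy : 0 ≤ 1 - s := by linarith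
  have hs : 0 < s := by linarith
  have e : (2729 / 10000) - (1 / (1 + s) - 2 * (s / (1 + 7 * s ^ 2))) =
      ((116432357 / 2269810000) * (1 - s) ^ 3 +
        (46402726 / 5674525) * (s - 139 / 200) ^ 1 * (1 - s) ^ 2 +
        (4342064 / 226981) * (s - 139 / 200) ^ 2 * (1 - s) ^ 1 +
        (2931200 / 226981) * (s - 139 / 200) ^ 3) / ((1 + s) * (1 + 7 * s ^ 2)) := by
    field_simp
    ring
  rw [← sub_nonneg, e]
  positivity

lemma r20_6 {k : ℝ} (h0 : 1 ≤ k) (h1 : k ≤ 3 / 2) :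
    0 ≤ (((2 * k - 1) * k - 6 / 25 * (1 + k)) / k ^ 2) ∧ 0 ≤ (1650 / 1681) - (((2 * k - 1) * k - 6 / 25 * (1 + k)) / k ^ 2) * ((13850 / 31329 - (1 + k) * (794 / 8475)) / (459 / 500)) ∧
    1 / 100 ≤ (79954 / 42025) - (1650 / 1681) * (961 / 900 / (961 / 900 + k ^ 2)) - (((2 * k - 1) * k - 6 / 25 * (1 + k)) / k ^ 2) * (((18229 / 35400 - (1 + k) * (1 / 8)) / (459 / 500)) - ((13850 / 31329 - (1 + k) * (794 / 8475)) / (459 / 500)) * (961 / 900 / (961 / 900 + k ^ 2))) - ((9 / 625) * (1 + k) / k ^ 2 + (3 / 16) * (1 + k) + (31 / 20) * ((102771 / 100000) * (5 * (36 + 11 * k) * (1 + k) / (432 + 396 * k + 55 * k ^ 2)))) := by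
  have hk : 0 < k := by linarith
  have hx : 0 ≤ k - 1 := by linarith
  have hy : 0 ≤ 3 / 2 - k := by linarith
  refine ⟨?_, ?_, ?_⟩
  · have e : (2 * k - 1) * k - 6 / 25 * (1 + k) =
      (52 / 25) * (3 / 2 - k) ^ 2 +
        (242 / 25) * (k - 1) ^ 1 * (3 / 2 - k) ^ 1 +
        (48 / 5) * (k - 1) ^ 2 := by ring
    rw [e]
    positivity
  · have e : (1650 / 1681) - (((2 * k - 1) * k - 6 / 25 * (1 + k)) / k ^ 2) * ((13850 / 31329 - (1 + k) * (794 / 8475)) / (459 / 500)) =
      ((22870513986316 / 3719398460625) * (3 / 2 - k) ^ 3 +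
        (28563006225952 / 1239799486875) * (k - 1) ^ 1 * (3 / 2 - k) ^ 2 +
        (21520688157043 / 743879692125) * (k - 1) ^ 2 * (3 / 2 - k) ^ 1 +
        (606424760117 / 49591979475) * (k - 1) ^ 3) /
        (459 / 500 * k ^ 2) := by
      field_simp
      ring
    rw [e]
    positivity
  · have e : (79954 / 42025) - (1650 / 1681) * (961 / 900 / (961 / 900 + k ^ 2)) - (((2 * k - 1) * k - 6 / 25 * (1 + k)) / k ^ 2) * (((18229 / 35400 - (1 + k) * (1 / 8)) / (459 / 500)) - ((13850 / 31329 - (1 + k) * (794 / 8475)) / (459 / 500)) * (961 / 900 / (961 / 900 + k ^ 2))) - ((9 / 625) * (1 + k) / k ^ 2 + (3 / 16) * (1 + k) + (31 / 20) * ((102771 / 100000) * (5 * (36 + 11 * k) * (1 + k) / (432 + 396 * k + 55 * k ^ 2)))) - 1 / 100 =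
      ((52431866302880011248499 / 3841208760210468750) * (3 / 2 - k) ^ 7 +
        (41832111653695252192441 / 374752074166875000) * (k - 1) ^ 1 * (3 / 2 - k) ^ 6 +
        (22350385710547930221521 / 57871318421250000) * (k - 1) ^ 2 * (3 / 2 - k) ^ 5 +
        (44933184728801285589166357 / 61459340163367500000) * (k - 1) ^ 3 * (3 / 2 - k) ^ 4 +
        (100224644332298406700904203 / 122918680326735000000) * (k - 1) ^ 4 * (3 / 2 - k) ^ 3 +
        (21865179348729590174043641 / 40972893442245000000) * (k - 1) ^ 5 * (3 / 2 - k) ^ 2 +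
        (128924530927917414735607 / 682881557370750000) * (k - 1) ^ 6 * (3 / 2 - k) ^ 1 +
        (503530703313075704371 / 18210174863220000) * (k - 1) ^ 7) /
        ((961 / 900 + k ^ 2) * (432 + 396 * k + 55 * k ^ 2) * k ^ 2) := by
      field_simp
      ring
    rw [← sub_nonneg, e]
    positivity

lemma r21_6 {k : ℝ} (h0 : 3 / 2 ≤ k) (h1 : k ≤ 11 / 5) :
    0 ≤ (((2 * k - 1) * k - 6 / 25 * (1 + k)) / k ^ 2) ∧ 0 ≤ (10 / 9) - (((2 * k - 1) * k - 6 / 25 * (1 + k)) / k ^ 2) * ((14350 / 34969 - (1 + k) * (794 / 8475)) / (459 / 500)) ∧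
    1 / 100 ≤ (35 / 18) - (10 / 9) * (961 / 900 / (961 / 900 + k ^ 2)) - (((2 * k - 1) * k - 6 / 25 * (1 + k)) / k ^ 2) * (((18869 / 37400 - (1 + k) * (1 / 8)) / (459 / 500)) - ((14350 / 34969 - (1 + k) * (794 / 8475)) / (459 / 500)) * (961 / 900 / (961 / 900 + k ^ 2))) - ((9 / 625) * (1 + k) / k ^ 2 + (3 / 16) * (1 + k) + (31 / 20) * ((102771 / 100000) * (5 * (36 + 11 * k) * (1 + k) / (432 + 396 * k + 55 * k ^ 2)))) := by
  have hk : 0 < k := by linarith
  have hx : 0 ≤ k - 3 / 2 := by linarith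
  have hy : 0 ≤ 11 / 5 - k := by linarith
  refine ⟨?_, ?_, ?_⟩
  · have e : (2 * k - 1) * k - 6 / 25 * (1 + k) =
      (240 / 49) * (11 / 5 - k) ^ 2 +
        (4066 / 245) * (k - 3 / 2) ^ 1 * (11 / 5 - k) ^ 1 +
        (3356 / 245) * (k - 3 / 2) ^ 2 := by ring
    rw [e]
    positivity
  · have e : (10 / 9) - (((2 * k - 1) * k - 6 / 25 * (1 + k)) / k ^ 2) * ((14350 / 34969 - (1 + k) * (794 / 8475)) / (459 / 500)) =
      ((7398196495 / 1355363471) * (11 / 5 - k) ^ 3 +
        (434421674657 / 20330452065) * (k - 3 / 2) ^ 1 * (11 / 5 - k) ^ 2 +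
        (14206728286232 / 508261301625) * (k - 3 / 2) ^ 2 * (11 / 5 - k) ^ 1 +
        (6215745379412 / 508261301625) * (k - 3 / 2) ^ 3) /
        (459 / 500 * k ^ 2) := by
      field_simp
      ring
    rw [e]
    positivity
  · have e : (35 / 18) - (10 / 9) * (961 / 900 / (961 / 900 + k ^ 2)) - (((2 * k - 1) * k - 6 / 25 * (1 + k)) / k ^ 2) * (((18869 / 37400 - (1 + k) * (1 / 8)) / (459 / 500)) - ((14350 / 34969 - (1 + k) * (794 / 8475)) / (459 / 500)) * (961 / 900 / (961 / 900 + k ^ 2))) - ((9 / 625) * (1 + k) / k ^ 2 + (3 / 16) * (1 + k) + (31 / 20) * ((102771 / 100000) * (5 * (36 + 11 * k) * (1 + k) / (432 + 396 * k + 55 * k ^ 2)))) - 1 / 100 =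
      ((18243855065144622875 / 6828299481082464) * (11 / 5 - k) ^ 7 +
        (235298002697588524949 / 10242449221623696) * (k - 3 / 2) ^ 1 * (11 / 5 - k) ^ 6 +
        (15196290276379511501413 / 180749103911006400) * (k - 3 / 2) ^ 2 * (11 / 5 - k) ^ 5 +
        (7825472677776855592736459 / 46091021497306632000) * (k - 3 / 2) ^ 3 * (11 / 5 - k) ^ 4 +
        (2618748770552481718217761 / 12803061527029620000) * (k - 3 / 2) ^ 4 * (11 / 5 - k) ^ 3 +
        (8489495231714187871947541 / 57613776871633290000) * (k - 3 / 2) ^ 5 * (11 / 5 - k) ^ 2 +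
        (566820767131009342126103 / 9602296145272215000) * (k - 3 / 2) ^ 6 * (11 / 5 - k) ^ 1 +
        (36776599265508331472524 / 3600861054477080625) * (k - 3 / 2) ^ 7) /
        ((961 / 900 + k ^ 2) * (432 + 396 * k + 55 * k ^ 2) * k ^ 2) := by
      field_simp
      ring
    rw [← sub_nonneg, e]
    positivity

lemma r22_6 {k : ℝ} (h0 : 11 / 5 ≤ k) (h1 : k ≤ 3) :
    0 ≤ (((2 * k - 1) * k - 0 * (1 + k)) / k ^ 2) ∧ 0 ≤ (152 / 121) - (((2 * k - 1) * k - 0 * (1 + k)) / k ^ 2) * ((14650 / 37249 - (1 + k) * (794 / 8475)) / (459 / 500)) ∧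
    1 / 100 ≤ (1909 / 968) - (152 / 121) * (961 / 900 / (961 / 900 + k ^ 2)) - (((2 * k - 1) * k - 0 * (1 + k)) / k ^ 2) * (((19349 / 38600 - (1 + k) * (1 / 8)) / (459 / 500)) - ((14650 / 37249 - (1 + k) * (794 / 8475)) / (459 / 500)) * (961 / 900 / (961 / 900 + k ^ 2))) - ((0) * (1 + k) / k ^ 2 + (3 / 16) * (1 + k) + (31 / 20) * ((102771 / 100000) * (5 * (36 + 11 * k) * (1 + k) / (432 + 396 * k + 55 * k ^ 2)))) := by
  have hk : 0 < k := by linarith
  have hx : 0 ≤ k - 11 / 5 := by linarith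
  have hy : 0 ≤ 3 - k := by linarith
  refine ⟨?_, ?_, ?_⟩
  · have e : (2 * k - 1) * k - 0 * (1 + k) =
      (187 / 16) * (3 - k) ^ 2 +
        (265 / 8) * (k - 11 / 5) ^ 1 * (3 - k) ^ 1 +
        (375 / 16) * (k - 11 / 5) ^ 2 := by ring
    rw [e]
    positivity
  · have e : (152 / 121) - (((2 * k - 1) * k - 0 * (1 + k)) / k ^ 2) * ((14650 / 37249 - (1 + k) * (794 / 8475)) / (459 / 500)) =
      ((48162345941 / 5050964400) * (3 - k) ^ 3 +
        (2027376375853 / 55560608400) * (k - 11 / 5) ^ 1 * (3 - k) ^ 2 +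
        (5683149822763 / 122233338480) * (k - 11 / 5) ^ 2 * (3 - k) ^ 1 +
        (160756932959 / 8148889232) * (k - 11 / 5) ^ 3) /
        (459 / 500 * k ^ 2) := by
      field_simp
      ring
    rw [e]
    positivity
  · have e : (1909 / 968) - (152 / 121) * (961 / 900 / (961 / 900 + k ^ 2)) - (((2 * k - 1) * k - 0 * (1 + k)) / k ^ 2) * (((19349 / 38600 - (1 + k) * (1 / 8)) / (459 / 500)) - ((14650 / 37249 - (1 + k) * (794 / 8475)) / (459 / 500)) * (961 / 900 / (961 / 900 + k ^ 2))) - ((0) * (1 + k) / k ^ 2 + (3 / 16) * (1 + k) + (31 / 20) * ((102771 / 100000) * (5 * (36 + 11 * k) * (1 + k) / (432 + 396 * k + 55 * k ^ 2)))) - 1 / 100 =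
      ((413350575510813585337 / 125684157358080000) * (3 - k) ^ 7 +
        (791157775650186972388177 / 22790727200931840000) * (k - 11 / 5) ^ 1 * (3 - k) ^ 6 +
        (57041205252136426057368541 / 376046998815375360000) * (k - 11 / 5) ^ 2 * (3 - k) ^ 5 +
        (90158280997968575244678193 / 250697999210250240000) * (k - 11 / 5) ^ 3 * (3 - k) ^ 4 +
        (208146481076686861555902929 / 413651698696912896000) * (k - 11 / 5) ^ 4 * (3 - k) ^ 3 +
        (5118012853453497568451791 / 12256346628056678400) * (k - 11 / 5) ^ 5 * (3 - k) ^ 2 +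
        (78035653171361498564531 / 408544887601889280) * (k - 11 / 5) ^ 6 * (3 - k) ^ 1 +
        (18265652154933468297013 / 490253865122267136) * (k - 11 / 5) ^ 7) /
        ((961 / 900 + k ^ 2) * (432 + 396 * k + 55 * k ^ 2) * k ^ 2) := by
      field_simp
      ring
    rw [← sub_nonneg, e]
    positivity

/-- block B5 for `n = 6`: case II (`σ = 3`, `θ = 1`, `Λ = 1/4`), `l ≥ 0`, `k ≥ 0` -/
theorem PP_pp6 {s l k : ℝ} (hs : s ∈ Ioo (0 : ℝ) 1) (hl : 0 ≤ l) (hk : 0 ≤ k)
    (hT : s * Real.exp l ≤ 1) (hl1 : l * (1 + cc s) ≤ 7 / 8 * cc s ^ 2)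
    (hk1 : (1 + k) * cc s ≤ cc s + 31 / 30 * s)
    (hk2 : (1 + k) * (s * cc s ^ 2) ≤ (1 + 7 * s ^ 2) * (Real.exp (-l) - s)) :
    1 / 100 * KK k + 7 / 48 * (Y s * l ^ 2) ≤
      PP 6 ((((6 : ℕ) : ℝ) + 1 + 3 * (1 / 4)) / (((6 : ℕ) : ℝ) - 1)) 3 1 0 0 s l k := by
  have hc := cc_pos' hs
  have hs0 := hs.1
  have hsc : s ^ 2 + cc s ^ 2 = 1 := by rw [cc_sq' hs]; ring
  have hc1 : cc s ≤ 1 := cc_le_one s
  have hz : cc s ^ 2 ≤ 961 / 900 / (961 / 900 + k ^ 2) := by
    have h := z_le (al := 31 / 30) hc hsc hk (by norm_num) hk1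
    norm_num at h ⊢
    exact h
  have hY : Y s = s ^ 2 / cc s ^ 2 := by unfold Y; rw [cc_sq' hs]
  have hY0 : 0 < Y s := by rw [hY]; positivity
  have hx : 0 ≤ Y s * l := mul_nonneg hY0.le hl
  have hlc : l * (1 + cc s) ≤ cc s ^ 2 := by nlinarith [sq_nonneg (cc s)]
  have hlp : l ≤ 7 / 8 * (cc s ^ 2 / (1 + cc s)) := by
    rw [← mul_div_assoc, le_div_iff₀ (by linarith)]
    linarith
  have haq : aq s = 2 - 2 * (cc s ^ 2 / (1 + cc s)) := by unfold aq; ring
  have hR0 := rh_nonneg (n := 6) (k := k) (by norm_num) hk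
  have hmu : ((((6 : ℕ) : ℝ) + 1 + 3 * (1 / 4)) / (((6 : ℕ) : ℝ) - 1)) = 31 / 20 := by norm_num
  have hcn : ((6 : ℕ) : ℝ) = 6 := by norm_num
  rcases le_total k 1 with hk3 | hk3
  · -- `k ≤ 1`
    have hp2 : cc s ^ 2 / (1 + cc s) ≤ 1 / 2 := by
      rw [div_le_iff₀ (by linarith)]; nlinarith
    have hE : Real.exp (l / ((6 : ℕ) : ℝ)) ≤ 1 + 26 / 25 * (l / 6) := by
      rw [hcn]
      exact exp_le1 (by positivity) (by linarith)
    have hcore := core (n := 6) (by norm_num) hs hl hk hT hlc hE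
    rw [hcn] at hcore
    have hEE : 1 + 26 / 25 * (l / 6) ≤ 1 + 91 / 600 * (cc s ^ 2 / (1 + cc s)) := by linarith
    rw [hcn]
    set ψ := cc s ^ 2 / (1 + cc s) with hψdef
    rcases le_total k (1 / 2) with hk4 | hk4
    · have hψ : ψ ≤ (6859 / 60840) + (56699 / 136890) / (961 / 900 + k ^ 2) := by
        have h := psi_tangent (c := cc s) (c0 := 19 / 20) hc.le (by norm_num)
        rw [← hψdef] at h
        have h2 : (56699 / 136890) / (961 / 900 + k ^ 2) = (590 / 1521) * (961 / 900 / (961 / 900 + k ^ 2)) := by ring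
        rw [h2]
        norm_num at h ⊢
        linarith
      have hr := r1a_6 hk hk4
      rw [← rh_eq6] at hr
      have h3 : (1 + 26 / 25 * (l / 6)) * rh 6 k ≤
          rh 6 k * (1 + 91 / 600 * ((6859 / 60840) + (56699 / 136890) / (961 / 900 + k ^ 2))) := by
        rw [mul_comm (rh 6 k)]
        apply mul_le_mul_of_nonneg_right _ hR0
        linarith
      have hfin := fin1a (m := (6 : ℝ) - 5) (a := aq s) (M := (3 / (2 * (6 + 2)) * (1 + k) + (6 + 1 + 3 * (1 / 4)) / (6 - 1) * ((1 + 26 / 25 * (l / 6)) * rh 6 k))) (δ := 1 / 100) hk hk4 hx (by norm_num) (by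
        rw [haq]; norm_num at hr ⊢; linarith)
      linarith
    · have hψ : ψ ≤ (32 / 405) + (6727 / 14580) / (961 / 900 + k ^ 2) := by
        have h := psi_tangent (c := cc s) (c0 := 4 / 5) hc.le (by norm_num)
        rw [← hψdef] at h
        have h2 : (6727 / 14580) / (961 / 900 + k ^ 2) = (35 / 81) * (961 / 900 / (961 / 900 + k ^ 2)) := by ring
        rw [h2]
        norm_num at h ⊢
        linarith
      have hr := r1b_6 hk4 hk3
      rw [← rh_eq6] at hr
      have h3 : (1 + 26 / 25 * (l / 6)) * rh 6 k ≤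
          rh 6 k * (1 + 91 / 600 * ((32 / 405) + (6727 / 14580) / (961 / 900 + k ^ 2))) := by
        rw [mul_comm (rh 6 k)]
        apply mul_le_mul_of_nonneg_right _ hR0
        linarith
      have hfin := fin1b (m := (6 : ℝ) - 5) (a := aq s) (M := (3 / (2 * (6 + 2)) * (1 + k) + (6 + 1 + 3 * (1 / 4)) / (6 - 1) * ((1 + 26 / 25 * (l / 6)) * rh 6 k))) (δ := 1 / 100) (x := Y s * l) hk (by norm_num) (by
        rw [haq]; norm_num at hr ⊢; linarith)
      linarith
  · -- `k ≥ 1`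
    have hz1 : cc s ^ 2 ≤ 961 / 1861 := by
      refine hz.trans ?_
      rw [div_le_div_iff₀ (by positivity) (by norm_num)]
      nlinarith
    have hsb : 139 / 200 ≤ s := by nlinarith
    have hl2 : l ≤ 33 / 125 := by
      have h := psi_tangent (c := cc s) (c0 := 18 / 25) hc.le (by norm_num)
      norm_num at h
      linarith
    have hch1 := exp_neg_chord (u := (217 / 250)) hl hl2 (by norm_num)
    have hh1 := (haz_x (N := 7) hs0 hc hsc (by norm_num) hch1 hk2).1
    have hl3 : l ≤ 163 / 1000 := by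
      have hm := mline6 hsb hs.2.le
      have h1 : 1 / (1 + s) - (1 + k) * (s / (1 + 7 * s ^ 2)) ≤ (2729 / 10000) := by
        have h2 : 2 * (s / (1 + 7 * s ^ 2)) ≤ (1 + k) * (s / (1 + 7 * s ^ 2)) :=
          mul_le_mul_of_nonneg_right (by linarith) (by positivity)
        linarith
      have h2 : cc s ^ 2 * (1 / (1 + s) - (1 + k) * (s / (1 + 7 * s ^ 2))) ≤ cc s ^ 2 * (2729 / 10000) :=
        mul_le_mul_of_nonneg_left h1 (by positivity)
      linarith
    have hch2 := exp_neg_chord (u := (459 / 500)) hl hl3 (by norm_num)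
    have hh2 := (haz_x (N := 7) hs0 hc hsc (by norm_num) hch2 hk2).2
    have hw := wline6 hsb hs.2.le
    have hs1 : 1 - (200 / 339) * cc s ^ 2 ≤ s := by
      have h1 : cc s ^ 2 = (1 - s) * (1 + s) := by linarith
      have h2 : (1 - s) * (339 / 200) ≤ (1 - s) * (1 + s) :=
        mul_le_mul_of_nonneg_left (by linarith) (by linarith [hs.2])
      linarith
    have hE : Real.exp (l / ((6 : ℕ) : ℝ)) ≤ (102771 / 100000) := by
      rw [hcn]
      have := exp_le2 (u := l / 6) (by positivity) (by linarith)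
      linarith
    have hcore := core (n := 6) (by norm_num) hs hl hk hT hlc hE
    rw [hcn] at hcore
    have hkN := k_le_half (N := 7) hs0 hc hsc (by norm_num) hl (by linarith) hk2
    have hk00 : 0 < k := by linarith
    rw [hcn]
    rw [← hY] at hh2
    have hwk : (1 + k) * ((-169 / 5000) + (397 / 2500) * s) ≤ (1 + k) * (s ^ 3 / (1 + 7 * s ^ 2)) :=
      mul_le_mul_of_nonneg_left hw (by linarith)
    have hsk : (1 + k) * ((397 / 2500) * (1 - (200 / 339) * cc s ^ 2)) ≤ (1 + k) * ((397 / 2500) * s) :=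
      mul_le_mul_of_nonneg_left (by linarith) (by linarith)
    have hs2 : s ^ 2 = 1 - cc s ^ 2 := by linarith
    rcases le_total k (3 / 2) with hk5 | hk5
    · obtain ⟨hQ, hsl, hmain⟩ := r20_6 hk3 hk5
      rw [← rh_eq6] at hmain
      have htan := psi_tangent (c := cc s) (c0 := 16 / 25) hc.le (by norm_num)
      have htan2 := psi_tangent (c := s) (c0 := 77 / 100) hs0.le (by norm_num)
      have hX : Y s * l ≤ ((18229 / 35400 - (1 + k) * (1 / 8)) / (459 / 500)) - ((13850 / 31329 - (1 + k) * (794 / 8475)) / (459 / 500)) * cc s ^ 2 := by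
        have h5 : (459 / 500) * (Y s * l) ≤ 18229 / 35400 - (1 + k) * (1 / 8) -
            (13850 / 31329 - (1 + k) * (794 / 8475)) * cc s ^ 2 := by
          norm_num at htan2
          linarith
        have h6 : ((18229 / 35400 - (1 + k) * (1 / 8)) / (459 / 500)) - ((13850 / 31329 - (1 + k) * (794 / 8475)) / (459 / 500)) * cc s ^ 2 = (18229 / 35400 - (1 + k) * (1 / 8) -
            (13850 / 31329 - (1 + k) * (794 / 8475)) * cc s ^ 2) / (459 / 500) := by ring
        rw [h6, le_div_iff₀ (by norm_num)]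
        linarith
      have ha : (79954 / 42025) - (1650 / 1681) * cc s ^ 2 ≤ aq s := by
        rw [haq]
        norm_num at htan ⊢
        linarith
      have hc2 := comb2 ha hX hQ hsl hz hmain
      have hfin := fin2 (k := k) (x := Y s * l) (a := aq s) (b := (3 / 16))
        (M := (31 / 20) * ((102771 / 100000) * rh 6 k)) (m := (6 : ℝ) - 5)
        (C := 6 / 25) (D := (9 / 625)) (δ := 1 / 100) hk00 (by norm_num) (by norm_num) (by linarith)
      have e1 : KK k * (aq s - 3 * (Y s * l) - (3 / 16) * (1 + k) - (31 / 20) * ((102771 / 100000) * rh 6 k)) =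
          KK k * (aq s - 3 * (Y s * l) - 3 / (2 * (6 + 2)) * (1 + k) -
            (6 + 1 + 3 * (1 / 4)) / (6 - 1) * ((102771 / 100000) * rh 6 k)) := by norm_num
      rw [e1] at hfin
      linarith
    · rcases le_total k (11 / 5) with hk6 | hk6
      · obtain ⟨hQ, hsl, hmain⟩ := r21_6 hk5 hk6
        rw [← rh_eq6] at hmain
        have htan := psi_tangent (c := cc s) (c0 := 1 / 2) hc.le (by norm_num)
        have htan2 := psi_tangent (c := s) (c0 := 87 / 100) hs0.le (by norm_num)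
        have hX : Y s * l ≤ ((18869 / 37400 - (1 + k) * (1 / 8)) / (459 / 500)) - ((14350 / 34969 - (1 + k) * (794 / 8475)) / (459 / 500)) * cc s ^ 2 := by
          have h5 : (459 / 500) * (Y s * l) ≤ 18869 / 37400 - (1 + k) * (1 / 8) -
              (14350 / 34969 - (1 + k) * (794 / 8475)) * cc s ^ 2 := by
            norm_num at htan2
            linarith
          have h6 : ((18869 / 37400 - (1 + k) * (1 / 8)) / (459 / 500)) - ((14350 / 34969 - (1 + k) * (794 / 8475)) / (459 / 500)) * cc s ^ 2 = (18869 / 37400 - (1 + k) * (1 / 8) -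
              (14350 / 34969 - (1 + k) * (794 / 8475)) * cc s ^ 2) / (459 / 500) := by ring
          rw [h6, le_div_iff₀ (by norm_num)]
          linarith
        have ha : (35 / 18) - (10 / 9) * cc s ^ 2 ≤ aq s := by
          rw [haq]
          norm_num at htan ⊢
          linarith
        have hc2 := comb2 ha hX hQ hsl hz hmain
        have hfin := fin2 (k := k) (x := Y s * l) (a := aq s) (b := (3 / 16))
          (M := (31 / 20) * ((102771 / 100000) * rh 6 k)) (m := (6 : ℝ) - 5)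
          (C := 6 / 25) (D := (9 / 625)) (δ := 1 / 100) hk00 (by norm_num) (by norm_num) (by linarith)
        have e1 : KK k * (aq s - 3 * (Y s * l) - (3 / 16) * (1 + k) - (31 / 20) * ((102771 / 100000) * rh 6 k)) =
            KK k * (aq s - 3 * (Y s * l) - 3 / (2 * (6 + 2)) * (1 + k) -
              (6 + 1 + 3 * (1 / 4)) / (6 - 1) * ((102771 / 100000) * rh 6 k)) := by norm_num
        rw [e1] at hfin
        linarith
      · obtain ⟨hQ, hsl, hmain⟩ := r22_6 hk6 (by linarith)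
        rw [← rh_eq6] at hmain
        have htan := psi_tangent (c := cc s) (c0 := 3 / 8) hc.le (by norm_num)
        have htan2 := psi_tangent (c := s) (c0 := 93 / 100) hs0.le (by norm_num)
        have hX : Y s * l ≤ ((19349 / 38600 - (1 + k) * (1 / 8)) / (459 / 500)) - ((14650 / 37249 - (1 + k) * (794 / 8475)) / (459 / 500)) * cc s ^ 2 := by
          have h5 : (459 / 500) * (Y s * l) ≤ 19349 / 38600 - (1 + k) * (1 / 8) -
              (14650 / 37249 - (1 + k) * (794 / 8475)) * cc s ^ 2 := by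
            norm_num at htan2
            linarith
          have h6 : ((19349 / 38600 - (1 + k) * (1 / 8)) / (459 / 500)) - ((14650 / 37249 - (1 + k) * (794 / 8475)) / (459 / 500)) * cc s ^ 2 = (19349 / 38600 - (1 + k) * (1 / 8) -
              (14650 / 37249 - (1 + k) * (794 / 8475)) * cc s ^ 2) / (459 / 500) := by ring
          rw [h6, le_div_iff₀ (by norm_num)]
          linarith
        have ha : (1909 / 968) - (152 / 121) * cc s ^ 2 ≤ aq s := by
          rw [haq]
          norm_num at htan ⊢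
          linarith
        have hc2 := comb2 ha hX hQ hsl hz hmain
        have hfin := fin2 (k := k) (x := Y s * l) (a := aq s) (b := (3 / 16))
          (M := (31 / 20) * ((102771 / 100000) * rh 6 k)) (m := (6 : ℝ) - 5)
          (C := 0) (D := (0)) (δ := 1 / 100) hk00 (by norm_num) (by norm_num) (by linarith)
        have e1 : KK k * (aq s - 3 * (Y s * l) - (3 / 16) * (1 + k) - (31 / 20) * ((102771 / 100000) * rh 6 k)) =
            KK k * (aq s - 3 * (Y s * l) - 3 / (2 * (6 + 2)) * (1 + k) -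
              (6 + 1 + 3 * (1 / 4)) / (6 - 1) * ((102771 / 100000) * rh 6 k)) := by norm_num
        rw [e1] at hfin
        linarith

end Crest.Agent.R230.B5
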