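import Crest.Agent.R230.BFiveCore

/-!
# Row 230: block B5 (case II, `l ≥ 0`, `k ≥ 0`), `n = 7` (dimension 8)
-/

set_option autoImplicit false
set_option maxHeartbeats 1000000

open MeasureTheory Set Filter Topology
open scoped Pointwise ENNReal

namespace Crest.Agent.R230.B5

open WR

lemma rh_eq7 (k : ℝ) : rh 7 k = (6 * (42 + 13 * k) * (1 + k) / (588 + 546 * k + 78 * k ^ 2)) := by
  unfold rh; norm_num

lemma r1a_7 {k : ℝ} (h0 : 0 ≤ k) (h1 : k ≤ 1 / 2) :
    1 / 100 ≤ 2 - 2 * ((6859 / 60840) + (2655 / 5408) / (81 / 64 + k ^ 2)) - (1 / 6) * (1 + k) -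
      (35 / 24) * ((6 * (42 + 13 * k) * (1 + k) / (588 + 546 * k + 78 * k ^ 2)) * (1 + (26 / 175) * ((6859 / 60840) + (2655 / 5408) / (81 / 64 + k ^ 2)))) := by
  have hk : 0 ≤ k := by linarith
  have hx : 0 ≤ k - 0 := by linarith
  have hy : 0 ≤ 1 / 2 - k := by linarith
  have e : 2 - 2 * ((6859 / 60840) + (2655 / 5408) / (81 / 64 + k ^ 2)) - (1 / 6) * (1 + k) -
      (35 / 24) * ((6 * (42 + 13 * k) * (1 + k) / (588 + 546 * k + 78 * k ^ 2)) * (1 + (26 / 175) * ((6859 / 60840) + (2655 / 5408) / (81 / 64 + k ^ 2)))) - 1 / 100 =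
      ((18644661 / 5200) * (1 / 2 - k) ^ 5 +
        (302887323 / 20800) * k ^ 1 * (1 / 2 - k) ^ 4 +
        (41225141507 / 1622400) * k ^ 2 * (1 / 2 - k) ^ 3 +
        (125517100303 / 4867200) * k ^ 3 * (1 / 2 - k) ^ 2 +
        (75455008483 / 4867200) * k ^ 4 * (1 / 2 - k) ^ 1 +
        (447240627 / 108160) * k ^ 5) /
        ((81 / 64 + k ^ 2) * (588 + 546 * k + 78 * k ^ 2)) := by
    field_simp
    ring
  rw [← sub_nonneg, e]
  positivity

lemma r1b_7 {k : ℝ} (h0 : 1 / 2 ≤ k) (h1 : k ≤ 1) :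
    1 / 100 ≤ 2 - 2 * ((32 / 405) + (35 / 64) / (81 / 64 + k ^ 2)) - (1 / 6) * (1 + k) -
      (35 / 24) * ((6 * (42 + 13 * k) * (1 + k) / (588 + 546 * k + 78 * k ^ 2)) * (1 + (26 / 175) * ((32 / 405) + (35 / 64) / (81 / 64 + k ^ 2)))) - (2 * k - 1) ^ 2 / (8 * (1 + k)) := by
  have hk : 0 ≤ k := by linarith
  have hx : 0 ≤ k - 1 / 2 := by linarith
  have hy : 0 ≤ 1 - k := by linarith
  have e : 2 - 2 * ((32 / 405) + (35 / 64) / (81 / 64 + k ^ 2)) - (1 / 6) * (1 + k) -
      (35 / 24) * ((6 * (42 + 13 * k) * (1 + k) / (588 + 546 * k + 78 * k ^ 2)) * (1 + (26 / 175) * ((32 / 405) + (35 / 64) / (81 / 64 + k ^ 2)))) - (2 * k - 1) ^ 2 / (8 * (1 + k)) - 1 / 100 =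
      ((9237131 / 100) * (1 - k) ^ 6 +
        (1972913963 / 2700) * (k - 1 / 2) ^ 1 * (1 - k) ^ 5 +
        (19235013461 / 8100) * (k - 1 / 2) ^ 2 * (1 - k) ^ 4 +
        (32726707103 / 8100) * (k - 1 / 2) ^ 3 * (1 - k) ^ 3 +
        (2542805789 / 675) * (k - 1 / 2) ^ 4 * (1 - k) ^ 2 +
        (3655176127 / 2025) * (k - 1 / 2) ^ 5 * (1 - k) ^ 1 +
        (138294668 / 405) * (k - 1 / 2) ^ 6) /
        ((81 / 64 + k ^ 2) * (588 + 546 * k + 78 * k ^ 2) * (8 * (1 + k))) := by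
    field_simp
    ring
  rw [← sub_nonneg, e]
  positivity

lemma wline7 {s : ℝ} (h0 : 83 / 125 ≤ s) (h1 : s ≤ 1) :
    (-533 / 20000) + (11 / 80) * s ≤ s ^ 3 / (1 + 8 * s ^ 2) := by
  have hx : 0 ≤ s - 83 / 125 := by linarith
  have hy : 0 ≤ 1 - s := by linarith
  rw [le_div_iff₀ (by positivity)]
  have e : s ^ 3 - ((-533 / 20000) + (11 / 80) * s) * (1 + 8 * s ^ 2) =
      (22979 / 11854080) * (1 - s) ^ 3 +
        (490607 / 3951360) * (s - 83 / 125) ^ 1 * (1 - s) ^ 2 +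
        (224575 / 790272) * (s - 83 / 125) ^ 2 * (1 - s) ^ 1 +
        (146875 / 2370816) * (s - 83 / 125) ^ 3 := by ring
  rw [← sub_nonneg, e]
  positivity

lemma mline7 {s : ℝ} (h0 : 83 / 125 ≤ s) (h1 : s ≤ 1) :
    1 / (1 + s) - 2 * (s / (1 + 8 * s ^ 2)) ≤ (3077 / 10000) := by
  have hx : 0 ≤ s - 83 / 125 := by linarith
  have hy : 0 ≤ 1 - s := by linarith
  have hs : 0 < s := by linarith
  have e : (3077 / 10000) - (1 / (1 + s) - 2 * (s / (1 + 8 * s ^ 2))) =
      ((180653 / 11576250) * (1 - s) ^ 3 +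
        (7611791 / 987840) * (s - 83 / 125) ^ 1 * (1 - s) ^ 2 +
        (1919075 / 98784) * (s - 83 / 125) ^ 2 * (1 - s) ^ 1 +
        (8415625 / 592704) * (s - 83 / 125) ^ 3) / ((1 + s) * (1 + 8 * s ^ 2)) := by
    field_simp
    ring
  rw [← sub_nonneg, e]
  positivity

lemma r20_7 {k : ℝ} (h0 : 1 ≤ k) (h1 : k ≤ 3 / 2) :
    0 ≤ (((2 * k - 1) * k - 12 / 25 * (1 + k)) / k ^ 2) ∧ 0 ≤ (1650 / 1681) - (((2 * k - 1) * k - 12 / 25 * (1 + k)) / k ^ 2) * ((13850 / 31329 - (1 + k) * (275 / 3328)) / (897 / 1000)) ∧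
    1 / 100 ≤ (79954 / 42025) - (1650 / 1681) * (81 / 64 / (81 / 64 + k ^ 2)) - (((2 * k - 1) * k - 12 / 25 * (1 + k)) / k ^ 2) * (((18229 / 35400 - (1 + k) * (2217 / 20000)) / (897 / 1000)) - ((13850 / 31329 - (1 + k) * (275 / 3328)) / (897 / 1000)) * (81 / 64 / (81 / 64 + k ^ 2))) - ((18 / 625) * (1 + k) / k ^ 2 + (1 / 6) * (1 + k) + (35 / 24) * ((72091 / 70000) * (6 * (42 + 13 * k) * (1 + k) / (588 + 546 * k + 78 * k ^ 2)))) := by
  have hk : 0 < k := by linarith
  have hx : 0 ≤ k - 1 := by linarith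
  have hy : 0 ≤ 3 / 2 - k := by linarith
  refine ⟨?_, ?_, ?_⟩
  · have e : (2 * k - 1) * k - 12 / 25 * (1 + k) =
      (4 / 25) * (3 / 2 - k) ^ 2 +
        (134 / 25) * (k - 1) ^ 1 * (3 / 2 - k) ^ 1 +
        (36 / 5) * (k - 1) ^ 2 := by ring
    rw [e]
    positivity
  · have e : (1650 / 1681) - (((2 * k - 1) * k - 12 / 25 * (1 + k)) / k ^ 2) * ((13850 / 31329 - (1 + k) * (275 / 3328)) / (897 / 1000)) =
      ((380934130279 / 54770610960) * (3 / 2 - k) ^ 3 +
        (1835312671663 / 73027481280) * (k - 1) ^ 1 * (3 / 2 - k) ^ 2 +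
        (13350217779073 / 438164887680) * (k - 1) ^ 2 * (3 / 2 - k) ^ 1 +
        (303234881039 / 24342493760) * (k - 1) ^ 3) /
        (897 / 1000 * k ^ 2) := by
      field_simp
      ring
    rw [e]
    positivity
  · have e : (79954 / 42025) - (1650 / 1681) * (81 / 64 / (81 / 64 + k ^ 2)) - (((2 * k - 1) * k - 12 / 25 * (1 + k)) / k ^ 2) * (((18229 / 35400 - (1 + k) * (2217 / 20000)) / (897 / 1000)) - ((13850 / 31329 - (1 + k) * (275 / 3328)) / (897 / 1000)) * (81 / 64 / (81 / 64 + k ^ 2))) - ((18 / 625) * (1 + k) / k ^ 2 + (1 / 6) * (1 + k) + (35 / 24) * ((72091 / 70000) * (6 * (42 + 13 * k) * (1 + k) / (588 + 546 * k + 78 * k ^ 2)))) - 1 / 100 =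
      ((6199045322305808599 / 136470105642000) * (3 / 2 - k) ^ 7 +
        (1032108290319279103981 / 2729402112840000) * (k - 1) ^ 1 * (3 / 2 - k) ^ 6 +
        (7305208809991462845649 / 5458804225680000) * (k - 1) ^ 2 * (3 / 2 - k) ^ 5 +
        (28475469729905818286549 / 10917608451360000) * (k - 1) ^ 3 * (3 / 2 - k) ^ 4 +
        (13194080721873941309441 / 4367043380544000) * (k - 1) ^ 4 * (3 / 2 - k) ^ 3 +
        (3025575202132860118673 / 1455681126848000) * (k - 1) ^ 5 * (3 / 2 - k) ^ 2 +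
        (228730711639102940937 / 291136225369600) * (k - 1) ^ 6 * (3 / 2 - k) ^ 1 +
        (63689107169073519 / 506323870208) * (k - 1) ^ 7) /
        ((81 / 64 + k ^ 2) * (588 + 546 * k + 78 * k ^ 2) * k ^ 2) := by
      field_simp
      ring
    rw [← sub_nonneg, e]
    positivity

lemma r21_7 {k : ℝ} (h0 : 3 / 2 ≤ k) (h1 : k ≤ 11 / 5) :
    0 ≤ (((2 * k - 1) * k - 12 / 25 * (1 + k)) / k ^ 2) ∧ 0 ≤ (10 / 9) - (((2 * k - 1) * k - 12 / 25 * (1 + k)) / k ^ 2) * ((14350 / 34969 - (1 + k) * (275 / 3328)) / (897 / 1000)) ∧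
    1 / 100 ≤ (35 / 18) - (10 / 9) * (81 / 64 / (81 / 64 + k ^ 2)) - (((2 * k - 1) * k - 12 / 25 * (1 + k)) / k ^ 2) * (((18869 / 37400 - (1 + k) * (2217 / 20000)) / (897 / 1000)) - ((14350 / 34969 - (1 + k) * (275 / 3328)) / (897 / 1000)) * (81 / 64 / (81 / 64 + k ^ 2))) - ((18 / 625) * (1 + k) / k ^ 2 + (1 / 6) * (1 + k) + (35 / 24) * ((72091 / 70000) * (6 * (42 + 13 * k) * (1 + k) / (588 + 546 * k + 78 * k ^ 2)))) := by
  have hk : 0 < k := by linarith
  have hx : 0 ≤ k - 3 / 2 := by linarith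
  have hy : 0 ≤ 11 / 5 - k := by linarith
  refine ⟨?_, ?_, ?_⟩
  · have e : (2 * k - 1) * k - 12 / 25 * (1 + k) =
      (180 / 49) * (11 / 5 - k) ^ 2 +
        (3382 / 245) * (k - 3 / 2) ^ 1 * (11 / 5 - k) ^ 1 +
        (2972 / 245) * (k - 3 / 2) ^ 2 := by ring
    rw [e]
    positivity
  · have e : (10 / 9) - (((2 * k - 1) * k - 12 / 25 * (1 + k)) / k ^ 2) * ((14350 / 34969 - (1 + k) * (275 / 3328)) / (897 / 1000)) =
      ((54571735815 / 9979313344) * (11 / 5 - k) ^ 3 +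
        (417759049853 / 19958626688) * (k - 3 / 2) ^ 1 * (11 / 5 - k) ^ 2 +
        (4016502013999 / 149689700160) * (k - 3 / 2) ^ 2 * (11 / 5 - k) ^ 1 +
        (53956986227 / 4677803130) * (k - 3 / 2) ^ 3) /
        (897 / 1000 * k ^ 2) := by
      field_simp
      ring
    rw [e]
    positivity
  · have e : (35 / 18) - (10 / 9) * (81 / 64 / (81 / 64 + k ^ 2)) - (((2 * k - 1) * k - 12 / 25 * (1 + k)) / k ^ 2) * (((18869 / 37400 - (1 + k) * (2217 / 20000)) / (897 / 1000)) - ((14350 / 34969 - (1 + k) * (275 / 3328)) / (897 / 1000)) * (81 / 64 / (81 / 64 + k ^ 2))) - ((18 / 625) * (1 + k) / k ^ 2 + (1 / 6) * (1 + k) + (35 / 24) * ((72091 / 70000) * (6 * (42 + 13 * k) * (1 + k) / (588 + 546 * k + 78 * k ^ 2)))) - 1 / 100 =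
      ((634985693146643203125 / 57313112562754048) * (11 / 5 - k) ^ 7 +
        (33320133798059143125 / 355982065607168) * (k - 3 / 2) ^ 1 * (11 / 5 - k) ^ 6 +
        (2761140735965894745975 / 8187587508964864) * (k - 3 / 2) ^ 2 * (11 / 5 - k) ^ 5 +
        (5498959087571932465165 / 8187587508964864) * (k - 3 / 2) ^ 3 * (11 / 5 - k) ^ 4 +
        (49043895899548075556683 / 61406906317236480) * (k - 3 / 2) ^ 4 * (11 / 5 - k) ^ 3 +
        (87121625530651684381853 / 153517265793091200) * (k - 3 / 2) ^ 5 * (11 / 5 - k) ^ 2 +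
        (5716564009021828933613 / 25586210965515200) * (k - 3 / 2) ^ 6 * (11 / 5 - k) ^ 1 +
        (126566887037065117933 / 3358190189223870) * (k - 3 / 2) ^ 7) /
        ((81 / 64 + k ^ 2) * (588 + 546 * k + 78 * k ^ 2) * k ^ 2) := by
      field_simp
      ring
    rw [← sub_nonneg, e]
    positivity

lemma r22_7 {k : ℝ} (h0 : 11 / 5 ≤ k) (h1 : k ≤ 7 / 2) :
    0 ≤ (((2 * k - 1) * k - 0 * (1 + k)) / k ^ 2) ∧ 0 ≤ (152 / 121) - (((2 * k - 1) * k - 0 * (1 + k)) / k ^ 2) * ((14650 / 37249 - (1 + k) * (275 / 3328)) / (897 / 1000)) ∧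
    1 / 100 ≤ (1909 / 968) - (152 / 121) * (81 / 64 / (81 / 64 + k ^ 2)) - (((2 * k - 1) * k - 0 * (1 + k)) / k ^ 2) * (((19349 / 38600 - (1 + k) * (2217 / 20000)) / (897 / 1000)) - ((14650 / 37249 - (1 + k) * (275 / 3328)) / (897 / 1000)) * (81 / 64 / (81 / 64 + k ^ 2))) - ((0) * (1 + k) / k ^ 2 + (1 / 6) * (1 + k) + (35 / 24) * ((72091 / 70000) * (6 * (42 + 13 * k) * (1 + k) / (588 + 546 * k + 78 * k ^ 2)))) := by
  have hk : 0 < k := by linarith
  have hx : 0 ≤ k - 11 / 5 := by linarith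
  have hy : 0 ≤ 7 / 2 - k := by linarith
  refine ⟨?_, ?_, ?_⟩
  · have e : (2 * k - 1) * k - 0 * (1 + k) =
      (748 / 169) * (7 / 2 - k) ^ 2 +
        (2510 / 169) * (k - 11 / 5) ^ 1 * (7 / 2 - k) ^ 1 +
        (2100 / 169) * (k - 11 / 5) ^ 2 := by ring
    rw [e]
    positivity
  · have e : (152 / 121) - (((2 * k - 1) * k - 0 * (1 + k)) / k ^ 2) * ((14650 / 37249 - (1 + k) * (275 / 3328)) / (897 / 1000)) =
      ((108705564681 / 53193434450) * (7 / 2 - k) ^ 3 +
        (165434748184807 / 18724088926400) * (k - 11 / 5) ^ 1 * (7 / 2 - k) ^ 2 +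
        (1046658196035613 / 82385991276160) * (k - 11 / 5) ^ 2 * (7 / 2 - k) ^ 1 +
        (50072395591827 / 8238599127616) * (k - 11 / 5) ^ 3) /
        (897 / 1000 * k ^ 2) := by
      field_simp
      ring
    rw [e]
    positivity
  · have e : (1909 / 968) - (152 / 121) * (81 / 64 / (81 / 64 + k ^ 2)) - (((2 * k - 1) * k - 0 * (1 + k)) / k ^ 2) * (((19349 / 38600 - (1 + k) * (2217 / 20000)) / (897 / 1000)) - ((14650 / 37249 - (1 + k) * (275 / 3328)) / (897 / 1000)) * (81 / 64 / (81 / 64 + k ^ 2))) - ((0) * (1 + k) / k ^ 2 + (1 / 6) * (1 + k) + (35 / 24) * ((72091 / 70000) * (6 * (42 + 13 * k) * (1 + k) / (588 + 546 * k + 78 * k ^ 2)))) - 1 / 100 =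
      ((103430040734131082279 / 454258046716608550) * (7 / 2 - k) ^ 7 +
        (39785224260378931857823 / 14536257494931473600) * (k - 11 / 5) ^ 1 * (7 / 2 - k) ^ 6 +
        (865072949843899914821751 / 63959532977698483840) * (k - 11 / 5) ^ 2 * (7 / 2 - k) ^ 5 +
        (924397092687333214185341 / 25583813191079393536) * (k - 11 / 5) ^ 3 * (7 / 2 - k) ^ 4 +
        (32018474604505836664447915 / 562843890203746657792) * (k - 11 / 5) ^ 4 * (7 / 2 - k) ^ 3 +
        (29915226872991637598243025 / 562843890203746657792) * (k - 11 / 5) ^ 5 * (7 / 2 - k) ^ 2 +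
        (15441820451310837189633125 / 562843890203746657792) * (k - 11 / 5) ^ 6 * (7 / 2 - k) ^ 1 +
        (3412177857410910373078125 / 562843890203746657792) * (k - 11 / 5) ^ 7) /
        ((81 / 64 + k ^ 2) * (588 + 546 * k + 78 * k ^ 2) * k ^ 2) := by
      field_simp
      ring
    rw [← sub_nonneg, e]
    positivity

/-- block B5 for `n = 7`: case II (`σ = 3`, `θ = 1`, `Λ = 1/4`), `l ≥ 0`, `k ≥ 0` -/
theorem PP_pp7 {s l k : ℝ} (hs : s ∈ Ioo (0 : ℝ) 1) (hl : 0 ≤ l) (hk : 0 ≤ k)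
    (hT : s * Real.exp l ≤ 1) (hl1 : l * (1 + cc s) ≤ cc s ^ 2)
    (hk1 : (1 + k) * cc s ≤ cc s + 9 / 8 * s)
    (hk2 : (1 + k) * (s * cc s ^ 2) ≤ (1 + 8 * s ^ 2) * (Real.exp (-l) - s)) :
    1 / 100 * KK k + 1 / 8 * (Y s * l ^ 2) ≤
      PP 7 ((((7 : ℕ) : ℝ) + 1 + 3 * (1 / 4)) / (((7 : ℕ) : ℝ) - 1)) 3 1 0 0 s l k := by
  have hc := cc_pos' hs
  have hs0 := hs.1
  have hsc : s ^ 2 + cc s ^ 2 = 1 := by rw [cc_sq' hs]; ring
  have hc1 : cc s ≤ 1 := cc_le_one s
  have hz : cc s ^ 2 ≤ 81 / 64 / (81 / 64 + k ^ 2) := by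
    have h := z_le (al := 9 / 8) hc hsc hk (by norm_num) hk1
    norm_num at h ⊢
    exact h
  have hY : Y s = s ^ 2 / cc s ^ 2 := by unfold Y; rw [cc_sq' hs]
  have hY0 : 0 < Y s := by rw [hY]; positivity
  have hx : 0 ≤ Y s * l := mul_nonneg hY0.le hl
  have hlc : l * (1 + cc s) ≤ cc s ^ 2 := by nlinarith [sq_nonneg (cc s)]
  have hlp : l ≤ 1 * (cc s ^ 2 / (1 + cc s)) := by
    rw [← mul_div_assoc, le_div_iff₀ (by linarith)]
    linarith
  have haq : aq s = 2 - 2 * (cc s ^ 2 / (1 + cc s)) := by unfold aq; ring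
  have hR0 := rh_nonneg (n := 7) (k := k) (by norm_num) hk
  have hmu : ((((7 : ℕ) : ℝ) + 1 + 3 * (1 / 4)) / (((7 : ℕ) : ℝ) - 1)) = 35 / 24 := by norm_num
  have hcn : ((7 : ℕ) : ℝ) = 7 := by norm_num
  rcases le_total k 1 with hk3 | hk3
  · -- `k ≤ 1`
    have hp2 : cc s ^ 2 / (1 + cc s) ≤ 1 / 2 := by
      rw [div_le_iff₀ (by linarith)]; nlinarith
    have hE : Real.exp (l / ((7 : ℕ) : ℝ)) ≤ 1 + 26 / 25 * (l / 7) := by
      rw [hcn]
      exact exp_le1 (by positivity) (by linarith)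
    have hcore := core (n := 7) (by norm_num) hs hl hk hT hlc hE
    rw [hcn] at hcore
    have hEE : 1 + 26 / 25 * (l / 7) ≤ 1 + 26 / 175 * (cc s ^ 2 / (1 + cc s)) := by linarith
    rw [hcn]
    set ψ := cc s ^ 2 / (1 + cc s) with hψdef
    rcases le_total k (1 / 2) with hk4 | hk4
    · have hψ : ψ ≤ (6859 / 60840) + (2655 / 5408) / (81 / 64 + k ^ 2) := by
        have h := psi_tangent (c := cc s) (c0 := 19 / 20) hc.le (by norm_num)
        rw [← hψdef] at h
        have h2 : (2655 / 5408) / (81 / 64 + k ^ 2) = (590 / 1521) * (81 / 64 / (81 / 64 + k ^ 2)) := by ring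
        rw [h2]
        norm_num at h ⊢
        linarith
      have hr := r1a_7 hk hk4
      rw [← rh_eq7] at hr
      have h3 : (1 + 26 / 25 * (l / 7)) * rh 7 k ≤
          rh 7 k * (1 + 26 / 175 * ((6859 / 60840) + (2655 / 5408) / (81 / 64 + k ^ 2))) := by
        rw [mul_comm (rh 7 k)]
        apply mul_le_mul_of_nonneg_right _ hR0
        linarith
      have hfin := fin1a (m := (7 : ℝ) - 5) (a := aq s) (M := (3 / (2 * (7 + 2)) * (1 + k) + (7 + 1 + 3 * (1 / 4)) / (7 - 1) * ((1 + 26 / 25 * (l / 7)) * rh 7 k))) (δ := 1 / 100) hk hk4 hx (by norm_num) (by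
        rw [haq]; norm_num at hr ⊢; linarith)
      linarith
    · have hψ : ψ ≤ (32 / 405) + (35 / 64) / (81 / 64 + k ^ 2) := by
        have h := psi_tangent (c := cc s) (c0 := 4 / 5) hc.le (by norm_num)
        rw [← hψdef] at h
        have h2 : (35 / 64) / (81 / 64 + k ^ 2) = (35 / 81) * (81 / 64 / (81 / 64 + k ^ 2)) := by ring
        rw [h2]
        norm_num at h ⊢
        linarith
      have hr := r1b_7 hk4 hk3
      rw [← rh_eq7] at hr
      have h3 : (1 + 26 / 25 * (l / 7)) * rh 7 k ≤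
          rh 7 k * (1 + 26 / 175 * ((32 / 405) + (35 / 64) / (81 / 64 + k ^ 2))) := by
        rw [mul_comm (rh 7 k)]
        apply mul_le_mul_of_nonneg_right _ hR0
        linarith
      have hfin := fin1b (m := (7 : ℝ) - 5) (a := aq s) (M := (3 / (2 * (7 + 2)) * (1 + k) + (7 + 1 + 3 * (1 / 4)) / (7 - 1) * ((1 + 26 / 25 * (l / 7)) * rh 7 k))) (δ := 1 / 100) (x := Y s * l) hk (by norm_num) (by
        rw [haq]; norm_num at hr ⊢; linarith)
      linarith
  · -- `k ≥ 1`
    have hz1 : cc s ^ 2 ≤ 81 / 145 := by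
      refine hz.trans ?_
      rw [div_le_div_iff₀ (by positivity) (by norm_num)]
      nlinarith
    have hsb : 83 / 125 ≤ s := by nlinarith
    have hl2 : l ≤ 8 / 25 := by
      have h := psi_tangent (c := cc s) (c0 := 3 / 4) hc.le (by norm_num)
      norm_num at h
      linarith
    have hch1 := exp_neg_chord (u := (21 / 25)) hl hl2 (by norm_num)
    have hh1 := (haz_x (N := 8) hs0 hc hsc (by norm_num) hch1 hk2).1
    have hl3 : l ≤ 41 / 200 := by
      have hm := mline7 hsb hs.2.le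
      have h1 : 1 / (1 + s) - (1 + k) * (s / (1 + 8 * s ^ 2)) ≤ (3077 / 10000) := by
        have h2 : 2 * (s / (1 + 8 * s ^ 2)) ≤ (1 + k) * (s / (1 + 8 * s ^ 2)) :=
          mul_le_mul_of_nonneg_right (by linarith) (by positivity)
        linarith
      have h2 : cc s ^ 2 * (1 / (1 + s) - (1 + k) * (s / (1 + 8 * s ^ 2))) ≤ cc s ^ 2 * (3077 / 10000) :=
        mul_le_mul_of_nonneg_left h1 (by positivity)
      linarith
    have hch2 := exp_neg_chord (u := (897 / 1000)) hl hl3 (by norm_num)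
    have hh2 := (haz_x (N := 8) hs0 hc hsc (by norm_num) hch2 hk2).2
    have hw := wline7 hsb hs.2.le
    have hs1 : 1 - (125 / 208) * cc s ^ 2 ≤ s := by
      have h1 : cc s ^ 2 = (1 - s) * (1 + s) := by linarith
      have h2 : (1 - s) * (208 / 125) ≤ (1 - s) * (1 + s) :=
        mul_le_mul_of_nonneg_left (by linarith) (by linarith [hs.2])
      linarith
    have hE : Real.exp (l / ((7 : ℕ) : ℝ)) ≤ (72091 / 70000) := by
      rw [hcn]
      have := exp_le2 (u := l / 7) (by positivity) (by linarith)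
      linarith
    have hcore := core (n := 7) (by norm_num) hs hl hk hT hlc hE
    rw [hcn] at hcore
    have hkN := k_le_half (N := 8) hs0 hc hsc (by norm_num) hl (by linarith) hk2
    have hk00 : 0 < k := by linarith
    rw [hcn]
    rw [← hY] at hh2
    have hwk : (1 + k) * ((-533 / 20000) + (11 / 80) * s) ≤ (1 + k) * (s ^ 3 / (1 + 8 * s ^ 2)) :=
      mul_le_mul_of_nonneg_left hw (by linarith)
    have hsk : (1 + k) * ((11 / 80) * (1 - (125 / 208) * cc s ^ 2)) ≤ (1 + k) * ((11 / 80) * s) :=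
      mul_le_mul_of_nonneg_left (by linarith) (by linarith)
    have hs2 : s ^ 2 = 1 - cc s ^ 2 := by linarith
    rcases le_total k (3 / 2) with hk5 | hk5
    · obtain ⟨hQ, hsl, hmain⟩ := r20_7 hk3 hk5
      rw [← rh_eq7] at hmain
      have htan := psi_tangent (c := cc s) (c0 := 16 / 25) hc.le (by norm_num)
      have htan2 := psi_tangent (c := s) (c0 := 77 / 100) hs0.le (by norm_num)
      have hX : Y s * l ≤ ((18229 / 35400 - (1 + k) * (2217 / 20000)) / (897 / 1000)) - ((13850 / 31329 - (1 + k) * (275 / 3328)) / (897 / 1000)) * cc s ^ 2 := by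
        have h5 : (897 / 1000) * (Y s * l) ≤ 18229 / 35400 - (1 + k) * (2217 / 20000) -
            (13850 / 31329 - (1 + k) * (275 / 3328)) * cc s ^ 2 := by
          norm_num at htan2
          linarith
        have h6 : ((18229 / 35400 - (1 + k) * (2217 / 20000)) / (897 / 1000)) - ((13850 / 31329 - (1 + k) * (275 / 3328)) / (897 / 1000)) * cc s ^ 2 = (18229 / 35400 - (1 + k) * (2217 / 20000) -
            (13850 / 31329 - (1 + k) * (275 / 3328)) * cc s ^ 2) / (897 / 1000) := by ring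
        rw [h6, le_div_iff₀ (by norm_num)]
        linarith
      have ha : (79954 / 42025) - (1650 / 1681) * cc s ^ 2 ≤ aq s := by
        rw [haq]
        norm_num at htan ⊢
        linarith
      have hc2 := comb2 ha hX hQ hsl hz hmain
      have hfin := fin2 (k := k) (x := Y s * l) (a := aq s) (b := (1 / 6))
        (M := (35 / 24) * ((72091 / 70000) * rh 7 k)) (m := (7 : ℝ) - 5)
        (C := 12 / 25) (D := (18 / 625)) (δ := 1 / 100) hk00 (by norm_num) (by norm_num) (by linarith)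
      have e1 : KK k * (aq s - 3 * (Y s * l) - (1 / 6) * (1 + k) - (35 / 24) * ((72091 / 70000) * rh 7 k)) =
          KK k * (aq s - 3 * (Y s * l) - 3 / (2 * (7 + 2)) * (1 + k) -
            (7 + 1 + 3 * (1 / 4)) / (7 - 1) * ((72091 / 70000) * rh 7 k)) := by norm_num
      rw [e1] at hfin
      linarith
    · rcases le_total k (11 / 5) with hk6 | hk6
      · obtain ⟨hQ, hsl, hmain⟩ := r21_7 hk5 hk6
        rw [← rh_eq7] at hmain
        have htan := psi_tangent (c := cc s) (c0 := 1 / 2) hc.le (by norm_num)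
        have htan2 := psi_tangent (c := s) (c0 := 87 / 100) hs0.le (by norm_num)
        have hX : Y s * l ≤ ((18869 / 37400 - (1 + k) * (2217 / 20000)) / (897 / 1000)) - ((14350 / 34969 - (1 + k) * (275 / 3328)) / (897 / 1000)) * cc s ^ 2 := by
          have h5 : (897 / 1000) * (Y s * l) ≤ 18869 / 37400 - (1 + k) * (2217 / 20000) -
              (14350 / 34969 - (1 + k) * (275 / 3328)) * cc s ^ 2 := by
            norm_num at htan2
            linarith
          have h6 : ((18869 / 37400 - (1 + k) * (2217 / 20000)) / (897 / 1000)) - ((14350 / 34969 - (1 + k) * (275 / 3328)) / (897 / 1000)) * cc s ^ 2 = (18869 / 37400 - (1 + k) * (2217 / 20000) -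
              (14350 / 34969 - (1 + k) * (275 / 3328)) * cc s ^ 2) / (897 / 1000) := by ring
          rw [h6, le_div_iff₀ (by norm_num)]
          linarith
        have ha : (35 / 18) - (10 / 9) * cc s ^ 2 ≤ aq s := by
          rw [haq]
          norm_num at htan ⊢
          linarith
        have hc2 := comb2 ha hX hQ hsl hz hmain
        have hfin := fin2 (k := k) (x := Y s * l) (a := aq s) (b := (1 / 6))
          (M := (35 / 24) * ((72091 / 70000) * rh 7 k)) (m := (7 : ℝ) - 5)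
          (C := 12 / 25) (D := (18 / 625)) (δ := 1 / 100) hk00 (by norm_num) (by norm_num) (by linarith)
        have e1 : KK k * (aq s - 3 * (Y s * l) - (1 / 6) * (1 + k) - (35 / 24) * ((72091 / 70000) * rh 7 k)) =
            KK k * (aq s - 3 * (Y s * l) - 3 / (2 * (7 + 2)) * (1 + k) -
              (7 + 1 + 3 * (1 / 4)) / (7 - 1) * ((72091 / 70000) * rh 7 k)) := by norm_num
        rw [e1] at hfin
        linarith
      · obtain ⟨hQ, hsl, hmain⟩ := r22_7 hk6 (by linarith)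
        rw [← rh_eq7] at hmain
        have htan := psi_tangent (c := cc s) (c0 := 3 / 8) hc.le (by norm_num)
        have htan2 := psi_tangent (c := s) (c0 := 93 / 100) hs0.le (by norm_num)
        have hX : Y s * l ≤ ((19349 / 38600 - (1 + k) * (2217 / 20000)) / (897 / 1000)) - ((14650 / 37249 - (1 + k) * (275 / 3328)) / (897 / 1000)) * cc s ^ 2 := by
          have h5 : (897 / 1000) * (Y s * l) ≤ 19349 / 38600 - (1 + k) * (2217 / 20000) -
              (14650 / 37249 - (1 + k) * (275 / 3328)) * cc s ^ 2 := by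
            norm_num at htan2
            linarith
          have h6 : ((19349 / 38600 - (1 + k) * (2217 / 20000)) / (897 / 1000)) - ((14650 / 37249 - (1 + k) * (275 / 3328)) / (897 / 1000)) * cc s ^ 2 = (19349 / 38600 - (1 + k) * (2217 / 20000) -
              (14650 / 37249 - (1 + k) * (275 / 3328)) * cc s ^ 2) / (897 / 1000) := by ring
          rw [h6, le_div_iff₀ (by norm_num)]
          linarith
        have ha : (1909 / 968) - (152 / 121) * cc s ^ 2 ≤ aq s := by
          rw [haq]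
          norm_num at htan ⊢
          linarith
        have hc2 := comb2 ha hX hQ hsl hz hmain
        have hfin := fin2 (k := k) (x := Y s * l) (a := aq s) (b := (1 / 6))
          (M := (35 / 24) * ((72091 / 70000) * rh 7 k)) (m := (7 : ℝ) - 5)
          (C := 0) (D := (0)) (δ := 1 / 100) hk00 (by norm_num) (by norm_num) (by linarith)
        have e1 : KK k * (aq s - 3 * (Y s * l) - (1 / 6) * (1 + k) - (35 / 24) * ((72091 / 70000) * rh 7 k)) =
            KK k * (aq s - 3 * (Y s * l) - 3 / (2 * (7 + 2)) * (1 + k) -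
              (7 + 1 + 3 * (1 / 4)) / (7 - 1) * ((72091 / 70000) * rh 7 k)) := by norm_num
        rw [e1] at hfin
        linarith

end Crest.Agent.R230.B5
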