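import Crest.Agent.R230.BFiveN6
import Crest.Agent.R230.BFiveN7
import Crest.Agent.R230.CaseIProf
import Crest.Agent.R230.LTail7
import Crest.Agent.R230.LegalF
import Crest.Agent.R230.Apriori3

/-!
# Row 230: block B5 (case II, `l > 0`, `k ≥ 0`) for profiles, `n = 6, 7`
-/

set_option autoImplicit false

open MeasureTheory Set Filter Topology
open scoped Pointwise ENNReal

namespace Crest.Agent.R230.B5

open WR

lemma kk_le_al {n : ℕ} {r : ℝ → ℝ} (hr : Prof r) {α : ℝ} (hα : 1 ≤ α)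
    (hαn : (n : ℝ) ^ 2 ≤ α ^ 2 * (5 * n + 4)) {s : ℝ} (hs : s ∈ Ioo (0 : ℝ) 1) :
    (1 + kk n r s) * cc s ≤ cc s + α * s := by
  have hT := tau_pos hr n (s := s) ⟨hs.1, hs.2.le⟩
  have h := kappa_le' hr n hα hαn hs
  have hcc : Real.sqrt (1 - s ^ 2) = cc s := rfl
  rw [hcc] at h
  have e : (1 + kk n r s) * cc s = s * dtau n r s * cc s / tau n r s := by
    unfold kk
    field_simp
    ring
  rw [e, div_le_iff₀ hT]
  exact h

/-- block B5, `n = 6` -/
theorem pos_six {r : ℝ → ℝ} (hr : Prof r) (hN : NleB 6 r) {s : ℝ} (hs : s ∈ Ioo (0 : ℝ) 1)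
    (hl : 0 < ll 6 r s) (hk : 0 ≤ kk 6 r s) :
    0 < PP 6 ((((6 : ℕ) : ℝ) + 1 + 3 * (1 / 4)) / (((6 : ℕ) : ℝ) - 1)) 3 1 0 0 s (ll 6 r s)
      (kk 6 r s) := by
  have hT : s * Real.exp (ll 6 r s) ≤ 1 := by
    rw [mul_exp_ll hr hs]
    exact (tau_lt_one hr 6 ⟨hs.1.le, hs.2⟩).le
  have h := PP_pp6 hs hl.le hk hT (ll_seven hr hN hs)
    (kk_le_al hr (by norm_num) (by norm_num) hs) (by
      have := kk_hazard (n := 6) hr hs
      norm_num at this ⊢
      exact this)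
  have hY : 0 < Y s := by
    unfold Y
    rw [← cc_sq' hs]
    have := hs.1
    have := cc_pos' hs
    positivity
  have hK : 0 ≤ KK (kk 6 r s) := by unfold KK; positivity
  have h2 : 0 < Y s * ll 6 r s ^ 2 := by positivity
  linarith

/-- block B5, `n = 7` -/
theorem pos_seven {r : ℝ → ℝ} (hr : Prof r) (hN : NleB 7 r) {s : ℝ} (hs : s ∈ Ioo (0 : ℝ) 1)
    (hl : 0 < ll 7 r s) (hk : 0 ≤ kk 7 r s) :
    0 < PP 7 ((((7 : ℕ) : ℝ) + 1 + 3 * (1 / 4)) / (((7 : ℕ) : ℝ) - 1)) 3 1 0 0 s (ll 7 r s)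
      (kk 7 r s) := by
  have hT : s * Real.exp (ll 7 r s) ≤ 1 := by
    rw [mul_exp_ll hr hs]
    exact (tau_lt_one hr 7 ⟨hs.1.le, hs.2⟩).le
  have h := PP_pp7 hs hl.le hk hT (ll_simple_all (by norm_num) (by norm_num) hr hN s hs)
    (kk_le_al hr (by norm_num) (by norm_num) hs) (by
      have := kk_hazard (n := 7) hr hs
      norm_num at this ⊢
      exact this)
  have hY : 0 < Y s := by
    unfold Y
    rw [← cc_sq' hs]
    have := hs.1
    have := cc_pos' hs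
    positivity
  have hK : 0 ≤ KK (kk 7 r s) := by unfold KK; positivity
  have h2 : 0 < Y s * ll 7 r s ^ 2 := by positivity
  linarith

end Crest.Agent.R230.B5
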