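import Mathlib

/-!
# One-dimensional equality lemma (row 230)

Quantile functions and the equality case of one-dimensional Prekopa–Leindler for densities that
are continuous and positive on an interval.
-/

set_option autoImplicit false

open MeasureTheory Set Filter Topology
open scoped ENNReal

namespace Crest.Agent.R230

/-- The quantile function of a positive continuous density on an interval. -/
theorem exists_quantile {f : ℝ → ℝ} {a b : ℝ} (hab : a < b) (hc : ContinuousOn f (Ioo a b))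
    (hpos : ∀ s ∈ Ioo a b, 0 < f s) (hi : IntervalIntegrable f volume a b)
    (h1 : ∫ s in a..b, f s = 1) :
    ∃ s : ℝ → ℝ, (∀ τ ∈ Ioo (0:ℝ) 1, s τ ∈ Ioo a b ∧ HasDerivAt s (f (s τ))⁻¹ τ) ∧
      (∀ x ∈ Ioo a b, ∃ τ ∈ Ioo (0:ℝ) 1, s τ = x) := by
  set F : ℝ → ℝ := fun x => ∫ t in a..x, f t with hF
  have hisub : ∀ {x y : ℝ}, x ∈ Icc a b → y ∈ Icc a b → IntervalIntegrable f volume x y := by
    intro x y hx hy
    exact hi.mono_set (by rw [uIcc_of_le hab.le]; exact uIcc_subset_Icc hx hy)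
  have hFc : ContinuousOn F (Icc a b) := by
    have := intervalIntegral.continuousOn_primitive_interval' (μ := volume) hi
      (a := a) (by rw [uIcc_of_le hab.le]; exact left_mem_Icc.2 hab.le)
    rwa [uIcc_of_le hab.le] at this
  have hFa : F a = 0 := by simp [hF]
  have hFb : F b = 1 := h1
  have hFm : StrictMonoOn F (Icc a b) := by
    intro x hx y hy hxy
    have h2 : F y - F x = ∫ t in x..y, f t :=
      intervalIntegral.integral_interval_sub_left (hisub (left_mem_Icc.2 hab.le) hy)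
        (hisub (left_mem_Icc.2 hab.le) hx)
    have h3 : 0 < ∫ t in x..y, f t :=
      intervalIntegral.intervalIntegral_pos_of_pos_on (hisub hx hy)
        (fun t ht => hpos t ⟨hx.1.trans_lt ht.1, ht.2.trans_le hy.2⟩) hxy
    linarith
  have hFd : ∀ x ∈ Ioo a b, HasDerivAt F (f x) x := by
    intro x hx
    refine intervalIntegral.integral_hasDerivAt_right
      (hisub (left_mem_Icc.2 hab.le) (Ioo_subset_Icc_self hx)) ?_ ?_
    · exact hc.stronglyMeasurableAtFilter isOpen_Ioo x hx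
    · exact hc.continuousAt (Ioo_mem_nhds hx.1 hx.2)
  have hsurj : ∀ τ ∈ Ioo (0:ℝ) 1, ∃ x, x ∈ Ioo a b ∧ F x = τ := by
    intro τ hτ
    have := intermediate_value_Ioo hab.le hFc (by rw [hFa, hFb]; exact hτ)
    obtain ⟨x, hx, h⟩ := this
    exact ⟨x, hx, h⟩
  choose! s hs using hsurj
  have hsm : StrictMonoOn s (Ioo 0 1) := by
    intro x hx y hy hxy
    by_contra hcon
    push Not at hcon
    have := hFm.monotoneOn (Ioo_subset_Icc_self (hs y hy).1) (Ioo_subset_Icc_self (hs x hx).1) hcon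
    rw [(hs y hy).2, (hs x hx).2] at this
    linarith
  have hFmem : ∀ x ∈ Ioo a b, F x ∈ Ioo (0:ℝ) 1 := by
    intro x hx
    constructor
    · rw [← hFa]; exact hFm (left_mem_Icc.2 hab.le) (Ioo_subset_Icc_self hx) hx.1
    · rw [← hFb]; exact hFm (Ioo_subset_Icc_self hx) (right_mem_Icc.2 hab.le) hx.2
  have hsF : ∀ x ∈ Ioo a b, s (F x) = x := by
    intro x hx
    have h2 := hs (F x) (hFmem x hx)
    exact hFm.injOn (Ioo_subset_Icc_self h2.1) (Ioo_subset_Icc_self hx) h2.2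
  have himg : s '' Ioo 0 1 = Ioo a b := by
    apply Subset.antisymm
    · rintro _ ⟨τ, hτ, rfl⟩
      exact (hs τ hτ).1
    · intro x hx
      exact ⟨F x, hFmem x hx, hsF x hx⟩
  have hsc : ∀ τ ∈ Ioo (0:ℝ) 1, ContinuousAt s τ := by
    intro τ hτ
    apply hsm.continuousAt_of_image_mem_nhds (Ioo_mem_nhds hτ.1 hτ.2)
    rw [himg]
    exact Ioo_mem_nhds (hs τ hτ).1.1 (hs τ hτ).1.2
  refine ⟨s, fun τ hτ => ⟨(hs τ hτ).1, ?_⟩, fun x hx => ⟨F x, hFmem x hx, hsF x hx⟩⟩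
  refine HasDerivAt.of_local_left_inverse (hsc τ hτ) (hFd _ (hs τ hτ).1) (hpos _ (hs τ hτ).1).ne' ?_
  filter_upwards [Ioo_mem_nhds hτ.1 hτ.2] with y hy
  exact (hs y hy).2

/-- weighted AM–GM for the transport Jacobian. -/
theorem amgm_one_le {lam x y : ℝ} (h0 : 0 < lam) (h1 : lam < 1) (hx : 0 < x) (hy : 0 < y) :
    1 ≤ (lam * x⁻¹ + (1 - lam) * y⁻¹) * (x ^ lam * y ^ (1 - lam)) := by
  have h := Real.geom_mean_le_arith_mean2_weighted h0.le (by linarith : (0:ℝ) ≤ 1 - lam)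
    (inv_pos.2 hx).le (inv_pos.2 hy).le (by ring)
  have hp : 0 < x ^ lam * y ^ (1 - lam) := by positivity
  calc (1:ℝ) = (x⁻¹ ^ lam * y⁻¹ ^ (1 - lam)) * (x ^ lam * y ^ (1 - lam)) := by
        rw [Real.inv_rpow hx.le, Real.inv_rpow hy.le]
        field_simp
    _ ≤ _ := mul_le_mul_of_nonneg_right h hp.le

theorem amgm_eq_one {lam x y : ℝ} (h0 : 0 < lam) (h1 : lam < 1) (hx : 0 < x) (hy : 0 < y)
    (h : (lam * x⁻¹ + (1 - lam) * y⁻¹) * (x ^ lam * y ^ (1 - lam)) = 1) : x = y := by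
  by_contra hne
  have hne' : x⁻¹ ≠ y⁻¹ := fun h => hne (inv_injective h)
  have hlog := strictConcaveOn_log_Ioi.2 (inv_pos.2 hx) (inv_pos.2 hy) hne' h0
    (by linarith : (0:ℝ) < 1 - lam) (by ring)
  simp only [smul_eq_mul] at hlog
  have hA : 0 < lam * x⁻¹ + (1 - lam) * y⁻¹ := by
    have : 0 < 1 - lam := by linarith
    positivity
  have hB : 0 < x ^ lam * y ^ (1 - lam) := by positivity
  have h2 := congrArg Real.log h
  rw [Real.log_mul hA.ne' hB.ne', Real.log_one, Real.log_mul (by positivity) (by positivity),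
    Real.log_rpow hx, Real.log_rpow hy] at h2
  rw [Real.log_inv, Real.log_inv] at hlog
  linarith

/-- Equality in one-dimensional Prekopa–Leindler: the densities are translates. -/
theorem one_dim_eq {f g : ℝ → ℝ} {h : ℝ → ℝ≥0∞} {a b c d lam : ℝ} (hl0 : 0 < lam) (hl1 : lam < 1)
    (hab : a < b) (hcd : c < d)
    (hfc : ContinuousOn f (Ioo a b)) (hfp : ∀ s ∈ Ioo a b, 0 < f s)
    (hfi : IntervalIntegrable f volume a b) (hf1 : ∫ s in a..b, f s = 1)
    (hgc : ContinuousOn g (Ioo c d)) (hgp : ∀ s ∈ Ioo c d, 0 < g s)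
    (hgi : IntervalIntegrable g volume c d) (hg1 : ∫ s in c..d, g s = 1)
    (hh : ∀ s ∈ Ioo a b, ∀ t ∈ Ioo c d,
      ENNReal.ofReal (f s ^ lam * g t ^ (1 - lam)) ≤ h (lam * s + (1 - lam) * t))
    (hint : ∫⁻ x, h x ≤ 1) :
    ∃ c0 : ℝ, c = a + c0 ∧ d = b + c0 ∧ ∀ s ∈ Ioo a b, g (s + c0) = f s := by
  obtain ⟨s, hs, hs'⟩ := exists_quantile hab hfc hfp hfi hf1
  obtain ⟨t, ht, ht'⟩ := exists_quantile hcd hgc hgp hgi hg1
  have hl1' : 0 < 1 - lam := by linarith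
  set r : ℝ → ℝ := fun τ => lam * s τ + (1 - lam) * t τ with hr
  set r' : ℝ → ℝ := fun τ => lam * (f (s τ))⁻¹ + (1 - lam) * (g (t τ))⁻¹ with hr'
  have hrd : ∀ τ ∈ Ioo (0:ℝ) 1, HasDerivAt r (r' τ) τ := fun τ hτ =>
    ((hs τ hτ).2.const_mul lam).add ((ht τ hτ).2.const_mul (1 - lam))
  have hr'pos : ∀ τ ∈ Ioo (0:ℝ) 1, 0 < r' τ := by
    intro τ hτ
    have h1 := hfp _ (hs τ hτ).1
    have h2 := hgp _ (ht τ hτ).1
    simp only [hr']
    positivity
  have hrm : StrictMonoOn r (Ioo 0 1) := by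
    apply strictMonoOn_of_deriv_pos (convex_Ioo _ _)
    · exact fun τ hτ => (hrd τ hτ).continuousAt.continuousWithinAt
    · intro τ hτ
      rw [interior_Ioo] at hτ
      rw [(hrd τ hτ).deriv]
      exact hr'pos τ hτ
  set ψ : ℝ → ℝ := fun τ => r' τ * (f (s τ) ^ lam * g (t τ) ^ (1 - lam)) with hψ
  have hsc : ContinuousOn s (Ioo 0 1) := fun τ hτ => (hs τ hτ).2.continuousAt.continuousWithinAt
  have htc : ContinuousOn t (Ioo 0 1) := fun τ hτ => (ht τ hτ).2.continuousAt.continuousWithinAt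
  have hfs : ContinuousOn (fun τ => f (s τ)) (Ioo 0 1) := hfc.comp hsc fun τ hτ => (hs τ hτ).1
  have hgt : ContinuousOn (fun τ => g (t τ)) (Ioo 0 1) := hgc.comp htc fun τ hτ => (ht τ hτ).1
  have hfs0 : ∀ τ ∈ Ioo (0:ℝ) 1, f (s τ) ≠ 0 := fun τ hτ => (hfp _ (hs τ hτ).1).ne'
  have hgt0 : ∀ τ ∈ Ioo (0:ℝ) 1, g (t τ) ≠ 0 := fun τ hτ => (hgp _ (ht τ hτ).1).ne'
  have hψc : ContinuousOn ψ (Ioo 0 1) := by
    simp only [hψ, hr']
    exact ((continuousOn_const.mul (hfs.inv₀ hfs0)).add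
      (continuousOn_const.mul (hgt.inv₀ hgt0))).mul
      ((hfs.rpow_const fun τ hτ => Or.inl (hfs0 τ hτ)).mul
        (hgt.rpow_const fun τ hτ => Or.inl (hgt0 τ hτ)))
  have hψ1 : ∀ τ ∈ Ioo (0:ℝ) 1, 1 ≤ ψ τ := fun τ hτ =>
    amgm_one_le hl0 hl1 (hfp _ (hs τ hτ).1) (hgp _ (ht τ hτ).1)
  -- the transported integral
  have hle : ∫⁻ τ in Ioo (0:ℝ) 1, ENNReal.ofReal (ψ τ) ≤ 1 := by
    calc ∫⁻ τ in Ioo (0:ℝ) 1, ENNReal.ofReal (ψ τ)
        ≤ ∫⁻ τ in Ioo (0:ℝ) 1, ENNReal.ofReal |r' τ| * h (r τ) := by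
          apply setLIntegral_mono' measurableSet_Ioo
          intro τ hτ
          rw [abs_of_pos (hr'pos τ hτ)]
          simp only [hψ]
          rw [ENNReal.ofReal_mul (hr'pos τ hτ).le]
          gcongr
          exact hh _ (hs τ hτ).1 _ (ht τ hτ).1
      _ = ∫⁻ x in r '' Ioo 0 1, h x := by
          rw [lintegral_image_eq_lintegral_abs_deriv_mul measurableSet_Ioo
            (fun τ hτ => (hrd τ hτ).hasDerivWithinAt) hrm.injOn]
      _ ≤ ∫⁻ x, h x := setLIntegral_le_lintegral _ _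
      _ ≤ 1 := hint
  have hone : ∫⁻ _ in Ioo (0:ℝ) 1, (1:ℝ≥0∞) = 1 := by simp
  have hae : (fun _ => (1:ℝ≥0∞)) =ᵐ[volume.restrict (Ioo (0:ℝ) 1)]
      fun τ => ENNReal.ofReal (ψ τ) := by
    apply ae_eq_of_ae_le_of_lintegral_le
    · filter_upwards [ae_restrict_mem measurableSet_Ioo] with τ hτ
      simpa using ENNReal.ofReal_le_ofReal (hψ1 τ hτ)
    · rw [hone]; exact ENNReal.one_ne_top
    · exact (hψc.aemeasurable measurableSet_Ioo).ennreal_ofReal
    · rw [hone]; exact hle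
  have hae' : (fun _ => (1:ℝ)) =ᵐ[volume.restrict (Ioo (0:ℝ) 1)] ψ := by
    filter_upwards [hae, ae_restrict_mem measurableSet_Ioo] with τ hτ hmem
    have h2 : (0:ℝ) ≤ ψ τ := by linarith [hψ1 τ hmem]
    have h3 := congrArg ENNReal.toReal hτ
    simpa [ENNReal.toReal_ofReal h2] using h3
  have heq : EqOn (fun _ => (1:ℝ)) ψ (Ioo 0 1) :=
    Measure.eqOn_open_of_ae_eq hae' isOpen_Ioo continuousOn_const hψc
  have hfg : ∀ τ ∈ Ioo (0:ℝ) 1, f (s τ) = g (t τ) := fun τ hτ =>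
    amgm_eq_one hl0 hl1 (hfp _ (hs τ hτ).1) (hgp _ (ht τ hτ).1) (heq hτ).symm
  -- the difference of the quantile functions is constant
  have hconst : ∀ τ ∈ Ioo (0:ℝ) 1, t τ - s τ = t (1/2) - s (1/2) := by
    intro τ hτ
    have hd : ∀ x ∈ Ioo (0:ℝ) 1, HasDerivAt (fun y => t y - s y) 0 x := by
      intro x hx
      have := (ht x hx).2.sub (hs x hx).2
      rwa [hfg x hx, sub_self] at this
    have hdo : DifferentiableOn ℝ (fun y => t y - s y) (Ioo 0 1) :=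
      fun x hx => (hd x hx).differentiableAt.differentiableWithinAt
    exact isOpen_Ioo.is_const_of_deriv_eq_zero (convex_Ioo _ _).isPreconnected hdo
      (fun x hx => (hd x hx).deriv) hτ (by norm_num)
  set c0 : ℝ := t (1/2) - s (1/2) with hc0
  have hts : ∀ τ ∈ Ioo (0:ℝ) 1, t τ = s τ + c0 := fun τ hτ => by
    have := hconst τ hτ; linarith
  have key : ∀ x ∈ Ioo a b, x + c0 ∈ Ioo c d ∧ g (x + c0) = f x := by
    intro x hx
    obtain ⟨τ, hτ, rfl⟩ := hs' x hx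
    rw [← hts τ hτ]
    exact ⟨(ht τ hτ).1, (hfg τ hτ).symm⟩
  have key2 : ∀ y ∈ Ioo c d, y - c0 ∈ Ioo a b := by
    intro y hy
    obtain ⟨τ, hτ, rfl⟩ := ht' y hy
    rw [hts τ hτ, add_sub_cancel_right]
    exact (hs τ hτ).1
  have hset : Ioo c d = Ioo (a + c0) (b + c0) := by
    ext y
    constructor
    · intro hy
      have := key2 y hy
      exact ⟨by linarith [this.1], by linarith [this.2]⟩
    · intro hy
      have := (key (y - c0) ⟨by linarith [hy.1], by linarith [hy.2]⟩).1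
      rwa [sub_add_cancel] at this
  have hcl : Icc c d = Icc (a + c0) (b + c0) := by
    rw [← closure_Ioo hcd.ne, ← closure_Ioo (by linarith : a + c0 < b + c0).ne, hset]
  refine ⟨c0, ?_, ?_, fun x hx => (key x hx).2⟩
  · have h1 : c ∈ Icc (a + c0) (b + c0) := hcl ▸ left_mem_Icc.2 hcd.le
    have h2 : a + c0 ∈ Icc c d := hcl ▸ left_mem_Icc.2 (by linarith)
    linarith [h1.1, h2.1]
  · have h1 : d ∈ Icc (a + c0) (b + c0) := hcl ▸ right_mem_Icc.2 hcd.le
    have h2 : b + c0 ∈ Icc c d := hcl ▸ right_mem_Icc.2 (by linarith)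
    linarith [h1.2, h2.2]

end Crest.Agent.R230
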