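import Crest.Agent.R230.Shadow
import Crest.Agent.R230.BM
import Crest.Agent.R230.BMeqOne

/-!
# Slices of convex bodies by the hyperplanes `⟨x,u⟩ = s` (row 230)
-/

set_option autoImplicit false
set_option linter.unusedSectionVars false

open MeasureTheory Set Filter Topology
open scoped ENNReal Pointwise

namespace Crest.Agent.R230

variable {V : Type*} [NormedAddCommGroup V] [InnerProductSpace ℝ V] [MeasurableSpace V]
  [BorelSpace V] [FiniteDimensional ℝ V]

/-- The slice of `K` at height `s` in direction `u`, as a subset of `u^⊥`. -/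
def slc (u : V) (K : Set V) (s : ℝ) : Set (ℝ ∙ u)ᗮ := {y | fib u (s, y) ∈ K}

theorem inner_fib {u : V} (hu : ‖u‖ = 1) (p : ℝ × (ℝ ∙ u)ᗮ) : inner ℝ (fib u p) u = p.1 := by
  unfold fib
  have h2 : inner ℝ (p.2 : V) u = 0 := by
    rw [real_inner_comm]
    exact Submodule.mem_orthogonal_singleton_iff_inner_right.1 p.2.2
  rw [inner_add_left, h2, add_zero, inner_smul_left, real_inner_self_eq_norm_sq, hu]
  simp

theorem fib_comb (u : V) (p q : ℝ × (ℝ ∙ u)ᗮ) (a b : ℝ) :
    fib u (a * p.1 + b * q.1, a • p.2 + b • q.2) = a • fib u p + b • fib u q := by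
  unfold fib
  simp only [Submodule.coe_add, Submodule.coe_smul, smul_add, add_smul, mul_smul]
  abel

theorem isCompact_slc {K : Set V} (hK : IsCompact K) (u : V) (s : ℝ) : IsCompact (slc u K s) := by
  rw [Metric.isCompact_iff_isClosed_bounded]
  constructor
  · exact hK.isClosed.preimage ((continuous_fib u).comp (continuous_const.prodMk continuous_id))
  · obtain ⟨R, hR⟩ := hK.isBounded.exists_norm_le
    rw [isBounded_iff_forall_norm_le]
    refine ⟨R + ‖s • u‖, fun y hy => ?_⟩
    have h1 := hR _ hy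
    have h2 : (y : V) = fib u (s, y) - s • u := by unfold fib; simp
    calc ‖y‖ = ‖(y : V)‖ := rfl
      _ ≤ ‖fib u (s, y)‖ + ‖s • u‖ := by rw [h2]; exact norm_sub_le _ _
      _ ≤ R + ‖s • u‖ := by linarith

theorem slc_comb (u : V) (K L : Set V) (s t a b : ℝ) :
    a • slc u K s + b • slc u L t ⊆ slc u (a • K + b • L) (a * s + b * t) := by
  rintro _ ⟨_, ⟨y, hy, rfl⟩, _, ⟨z, hz, rfl⟩, rfl⟩
  show fib u (a * s + b * t, a • y + b • z) ∈ a • K + b • L
  have := fib_comb u (s, y) (t, z) a b
  simp only at this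
  rw [this]
  exact add_mem_add (smul_mem_smul_set hy) (smul_mem_smul_set hz)

/-- The volume of the slice. -/
noncomputable def vs (u : V) (K : Set V) (s : ℝ) : ℝ := volume.real (slc u K s)

theorem vs_nonneg (u : V) (K : Set V) (s : ℝ) : 0 ≤ vs u K s := measureReal_nonneg

theorem vs_comb {K L : Set V} (hK : IsCompact K) (hL : IsCompact L) (u : V) (s t : ℝ) {lam : ℝ}
    (h0 : 0 < lam) (h1 : lam < 1) :
    vs u K s ^ lam * vs u L t ^ (1 - lam) ≤
      vs u (lam • K + (1 - lam) • L) (lam * s + (1 - lam) * t) := by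
  have hC : IsCompact (lam • K + (1 - lam) • L) := (hK.smul lam).add (hL.smul _)
  have h := BM_mult_real (isCompact_slc hK u s) (isCompact_slc hL u t) (t := 1 - lam)
    (by linarith) (by linarith)
  rw [sub_sub_cancel] at h
  refine h.trans ?_
  exact measureReal_mono (slc_comb u K L s t lam (1 - lam))
    (isCompact_slc hC u _).measure_lt_top.ne

/-- The lower and the upper end of `K` in direction `u`. -/
theorem exists_ends {K : Set V} (hK : IsCompact K) (hc : Convex ℝ K)
    (hi : (interior K).Nonempty) {u : V} (hu : ‖u‖ = 1) :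
    ∃ a b : ℝ, a < b ∧ (∀ x ∈ K, a ≤ inner ℝ x u ∧ inner ℝ x u ≤ b) ∧
      (∃ x ∈ K, inner ℝ x u = a) ∧ (∃ x ∈ K, inner ℝ x u = b) ∧
      ∀ s ∈ Ioo a b, ∃ x ∈ interior K, inner ℝ x u = s := by
  have hne : K.Nonempty := hi.mono interior_subset
  obtain ⟨p, hp, hpm⟩ := hK.exists_isMinOn hne (f := fun x : V => (inner ℝ x u : ℝ)) (by fun_prop)
  obtain ⟨q, hq, hqm⟩ := hK.exists_isMaxOn hne (f := fun x : V => (inner ℝ x u : ℝ)) (by fun_prop)
  have hsurj : ∀ s ∈ Ioo (inner ℝ p u : ℝ) (inner ℝ q u), ∃ x ∈ interior K, inner ℝ x u = s := by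
    intro s hs
    obtain ⟨z, hz⟩ := hi
    -- the image of the interior is convex and its closure contains both ends
    have himc : Convex ℝ ((fun x : V => (inner ℝ x u : ℝ)) '' interior K) := by
      have := hc.interior.linear_image ((innerₗ V).flip u)
      exact this
    have hcl : ∀ x ∈ K, (inner ℝ x u : ℝ) ∈ closure ((fun x : V => (inner ℝ x u : ℝ)) '' interior K) := by
      intro x hx
      have h1 : x ∈ closure (interior K) := by
        rw [hc.closure_interior_eq_closure_of_nonempty_interior ⟨z, hz⟩]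
        exact subset_closure hx
      exact image_closure_subset_closure_image (by fun_prop) ⟨x, h1, rfl⟩
    have hord : OrdConnected ((fun x : V => (inner ℝ x u : ℝ)) '' interior K) := himc.ordConnected
    obtain ⟨s1, hs1, hs1'⟩ : ∃ s1 ∈ (fun x : V => (inner ℝ x u : ℝ)) '' interior K, s1 < s := by
      have := mem_closure_iff.1 (hcl p hp) (Iio s) isOpen_Iio hs.1
      obtain ⟨s1, h1, h2⟩ := this
      exact ⟨s1, h2, h1⟩
    obtain ⟨s2, hs2, hs2'⟩ : ∃ s2 ∈ (fun x : V => (inner ℝ x u : ℝ)) '' interior K, s < s2 := by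
      have := mem_closure_iff.1 (hcl q hq) (Ioi s) isOpen_Ioi hs.2
      obtain ⟨s2, h1, h2⟩ := this
      exact ⟨s2, h2, h1⟩
    obtain ⟨x, hx, hxs⟩ := hord.out hs1 hs2 ⟨hs1'.le, hs2'.le⟩
    exact ⟨x, hx, hxs⟩
  refine ⟨inner ℝ p u, inner ℝ q u, ?_, fun x hx => ⟨hpm hx, hqm hx⟩, ⟨p, hp, rfl⟩, ⟨q, hq, rfl⟩,
    hsurj⟩
  -- strict inequality
  obtain ⟨z, hz⟩ := hi
  obtain ⟨ε, hε, hball⟩ := Metric.isOpen_iff.1 isOpen_interior z hz
  have h1 : z + (ε / 2) • u ∈ K := by
    apply interior_subset; apply hball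
    rw [mem_ball_iff_norm, add_sub_cancel_left, norm_smul, hu, mul_one, Real.norm_eq_abs,
      abs_of_pos (by positivity)]
    linarith
  have h2 : z - (ε / 2) • u ∈ K := by
    apply interior_subset; apply hball
    rw [mem_ball_iff_norm, sub_sub_cancel_left, norm_neg, norm_smul, hu, mul_one, Real.norm_eq_abs,
      abs_of_pos (by positivity)]
    linarith
  have h3 : (inner ℝ (z + (ε / 2) • u) u : ℝ) = inner ℝ z u + ε / 2 := by
    rw [inner_add_left, inner_smul_left, real_inner_self_eq_norm_sq, hu]; simp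
  have h4 : (inner ℝ (z - (ε / 2) • u) u : ℝ) = inner ℝ z u - ε / 2 := by
    rw [inner_sub_left, inner_smul_left, real_inner_self_eq_norm_sq, hu]; simp
  have h5 : (inner ℝ p u : ℝ) ≤ inner ℝ z u - ε / 2 := h4 ▸ hpm h2
  have h6 : (inner ℝ z u : ℝ) + ε / 2 ≤ inner ℝ q u := h3 ▸ hqm h1
  linarith

theorem vs_pos {K : Set V} (hK : IsCompact K) {u : V} (hu : ‖u‖ = 1) {x : V}
    (hx : x ∈ interior K) : 0 < vs u K (inner ℝ x u) := by
  unfold vs
  rw [measureReal_def, ENNReal.toReal_pos_iff]
  refine ⟨?_, (isCompact_slc hK u _).measure_lt_top⟩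
  apply Measure.measure_pos_of_nonempty_interior
  refine ⟨(ℝ ∙ u)ᗮ.orthogonalProjectionOnto x, ?_⟩
  rw [mem_interior_iff_mem_nhds]
  have hc : Continuous fun y : (ℝ ∙ u)ᗮ => fib u (inner ℝ x u, y) :=
    (continuous_fib u).comp (continuous_const.prodMk continuous_id)
  apply hc.continuousAt
  show K ∈ 𝓝 (fib u (inner ℝ x u, (ℝ ∙ u)ᗮ.orthogonalProjectionOnto x))
  rw [fib_proj hu]
  exact mem_interior_iff_mem_nhds.1 hx

theorem vs_eq_zero {K : Set V} {u : V} (hu : ‖u‖ = 1) {s : ℝ}
    (h : ∀ x ∈ K, (inner ℝ x u : ℝ) ≠ s) : vs u K s = 0 := by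
  unfold vs
  have : slc u K s = ∅ := by
    ext y
    simp only [slc, mem_ofPred_eq, mem_empty_iff_false, iff_false]
    intro hy
    exact h _ hy (inner_fib hu _)
  rw [this]; simp

theorem continuousOn_vs {K : Set V} (hK : IsCompact K) (hc : Convex ℝ K) {u : V} (hu : ‖u‖ = 1)
    {a b : ℝ} (h : ∀ s ∈ Ioo a b, ∃ x ∈ interior K, inner ℝ x u = s) :
    ContinuousOn (vs u K) (Ioo a b) := by
  have hpos : ∀ s ∈ Ioo a b, 0 < vs u K s := by
    intro s hs
    obtain ⟨x, hx, rfl⟩ := h s hs
    exact vs_pos hK hu hx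
  have hconc : ConcaveOn ℝ (Ioo a b) (fun s => Real.log (vs u K s)) := by
    refine ⟨convex_Ioo a b, ?_⟩
    intro s hs t ht p q hp hq hpq
    rcases hp.eq_or_lt with hp0 | hp0
    · have hq1 : q = 1 := by linarith
      simp [← hp0, hq1]
    rcases hq.eq_or_lt with hq0 | hq0
    · have hp1 : p = 1 := by linarith
      simp [← hq0, hp1]
    have hq' : q = 1 - p := by linarith
    subst hq'
    have h1 := vs_comb hK hK u s t hp0 (by linarith)
    have h2 : p • K + (1 - p) • K = K := by
      rw [← hc.add_smul hp (by linarith)]; simp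
    rw [h2] at h1
    have hs' := hpos s hs
    have ht' := hpos t ht
    have h3 := Real.log_le_log (by positivity) h1
    rw [Real.log_mul (by positivity) (by positivity), Real.log_rpow hs', Real.log_rpow ht'] at h3
    simpa using h3
  have h4 := hconc.continuousOn isOpen_Ioo
  refine (Real.continuous_exp.comp_continuousOn h4).congr ?_
  intro s hs
  simp only [Function.comp]
  rw [Real.exp_log (hpos s hs)]

/-- Fubini along the slices. -/
theorem integral_slc {K : Set V} (hK : IsCompact K) {u : V} (hu : ‖u‖ = 1) {φ : ℝ → ℝ}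
    (hφ : Continuous φ) :
    Integrable (fun s => φ s * vs u K s) volume ∧
      ∫ x in K, φ (inner ℝ x u) = ∫ s, φ s * vs u K s := by
  have hmp := measurePreserving_fib hu
  have hKm := hK.measurableSet
  have hpre : MeasurableSet (fib u ⁻¹' K) := hmp.measurable hKm
  -- the function on the product
  set F : ℝ × (ℝ ∙ u)ᗮ → ℝ := (fib u ⁻¹' K).indicator (fun p => φ p.1) with hF
  have hF' : F = (K.indicator fun x => φ (inner ℝ x u)) ∘ fib u := by
    funext p
    by_cases hp : fib u p ∈ K
    · have hp' : p ∈ fib u ⁻¹' K := hp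
      simp only [hF, Function.comp]
      rw [indicator_of_mem hp', indicator_of_mem hp, inner_fib hu]
    · have hp' : p ∉ fib u ⁻¹' K := hp
      simp only [hF, Function.comp]
      rw [indicator_of_notMem hp', indicator_of_notMem hp]
  have hG : Integrable (K.indicator fun x => φ (inner ℝ x u)) (volume : Measure V) := by
    rw [integrable_indicator_iff hKm]
    apply ContinuousOn.integrableOn_compact hK
    fun_prop
  have hFi : Integrable F ((volume : Measure ℝ).prod (volume : Measure (ℝ ∙ u)ᗮ)) := by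
    rw [hF']
    exact hmp.integrable_comp_of_integrable hG
  have hsec : ∀ s, ∫ y, F (s, y) = φ s * vs u K s := by
    intro s
    have : (fun y => F (s, y)) = (slc u K s).indicator (fun _ => φ s) := by
      funext y
      by_cases hp : fib u (s, y) ∈ K
      · have hp' : (s, y) ∈ fib u ⁻¹' K := hp
        have hp2 : y ∈ slc u K s := hp
        simp only [hF]
        rw [indicator_of_mem hp', indicator_of_mem hp2]
      · have hp' : (s, y) ∉ fib u ⁻¹' K := hp
        have hp2 : y ∉ slc u K s := hp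
        simp only [hF]
        rw [indicator_of_notMem hp', indicator_of_notMem hp2]
    rw [this, integral_indicator_const _ (isCompact_slc hK u s).measurableSet]
    simp [vs, mul_comm]
  constructor
  · have := hFi.integral_prod_left
    simpa only [hsec] using this
  · rw [← integral_indicator hKm]
    have hme : AEStronglyMeasurable (K.indicator fun x => φ (inner ℝ x u)) (volume : Measure V) :=
      hG.aestronglyMeasurable
    calc ∫ x, K.indicator (fun x => φ (inner ℝ x u)) x
        = ∫ p, F p ∂((volume : Measure ℝ).prod (volume : Measure (ℝ ∙ u)ᗮ)) := by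
          rw [hF', ← hmp.map_eq, integral_map hmp.measurable.aemeasurable]
          · rfl
          · rw [hmp.map_eq]; exact hme
      _ = ∫ s, ∫ y, F (s, y) := integral_prod _ hFi
      _ = _ := by simp only [hsec]

theorem integral_slc_interval {K : Set V} (hK : IsCompact K) {u : V} (hu : ‖u‖ = 1) {a b : ℝ}
    (hab : a < b) (h : ∀ x ∈ K, a ≤ (inner ℝ x u : ℝ) ∧ inner ℝ x u ≤ b) {φ : ℝ → ℝ}
    (hφ : Continuous φ) :
    IntervalIntegrable (fun s => φ s * vs u K s) volume a b ∧
      ∫ x in K, φ (inner ℝ x u) = ∫ s in a..b, φ s * vs u K s := by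
  obtain ⟨h1, h2⟩ := integral_slc hK hu hφ
  refine ⟨h1.intervalIntegrable, ?_⟩
  rw [h2, intervalIntegral.integral_of_le hab.le, ← integral_Icc_eq_integral_Ioc]
  symm
  apply setIntegral_eq_integral_of_forall_compl_eq_zero
  intro s hs
  rw [vs_eq_zero hu, mul_zero]
  intro x hx hxs
  exact hs (hxs ▸ ⟨(h x hx).1, (h x hx).2⟩)

theorem lintegral_slc {K : Set V} (hK : IsCompact K) {u : V} (hu : ‖u‖ = 1) :
    ∫⁻ s, ENNReal.ofReal (vs u K s) = volume K := by
  have hmp := measurePreserving_fib hu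
  rw [← hmp.measure_preimage hK.measurableSet.nullMeasurableSet,
    Measure.prod_apply (hmp.measurable hK.measurableSet)]
  congr 1
  funext s
  rw [vs, measureReal_def, ENNReal.ofReal_toReal (isCompact_slc hK u s).measure_lt_top.ne]
  rfl

end Crest.Agent.R230
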