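import Mathlib
import Crest.Agent.Lib.PrekopaLeindler

/-!
# Brunn–Minkowski inequality for compact sets (row 230)
-/

set_option autoImplicit false

open MeasureTheory Set Module
open scoped ENNReal Pointwise

namespace Crest.Agent.R230

open Crest.Agent.Lib.PrekopaLeindler

section

variable {E : Type*} [NormedAddCommGroup E] [NormedSpace ℝ E] [MeasurableSpace E] [BorelSpace E]
  {μ : Measure E}

/-- multiplicative form of Brunn–Minkowski. -/
theorem bm_mul (hPL : PL E μ) {A B : Set E} (hA : IsCompact A) (hB : IsCompact B)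
    {t : ℝ} (ht0 : 0 < t) (ht1 : t < 1) :
    μ A ^ (1 - t) * μ B ^ t ≤ μ ((1 - t) • A + t • B) := by
  have hAm : MeasurableSet A := hA.measurableSet
  have hBm : MeasurableSet B := hB.measurableSet
  have hC : IsCompact ((1 - t) • A + t • B) := (hA.smul _).add (hB.smul _)
  have hCm : MeasurableSet ((1 - t) • A + t • B) := hC.measurableSet
  have h := hPL t ht0 ht1 (A.indicator 1) (B.indicator 1) (((1 - t) • A + t • B).indicator 1)
    ((measurable_one).indicator hAm) ((measurable_one).indicator hBm)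
    ((measurable_one).indicator hCm) ?_
  · rwa [lintegral_indicator_one hAm, lintegral_indicator_one hBm,
      lintegral_indicator_one hCm] at h
  · intro x y
    by_cases hx : x ∈ A
    · by_cases hy : y ∈ B
      · have hxy : (1 - t) • x + t • y ∈ (1 - t) • A + t • B :=
          add_mem_add (smul_mem_smul_set hx) (smul_mem_smul_set hy)
        simp [hx, hy, hxy]
      · have : (0:ℝ≥0∞) ^ t = 0 := ENNReal.zero_rpow_of_pos ht0
        simp [hy, this]
    · have : (0:ℝ≥0∞) ^ (1 - t) = 0 := ENNReal.zero_rpow_of_pos (by linarith)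
      simp [hx, this]

/-- **Brunn–Minkowski** for compact sets, real form. -/
theorem bm [FiniteDimensional ℝ E] [μ.IsAddHaarMeasure] (hPL : PL E μ)
    {A B : Set E} (hA : IsCompact A) (hB : IsCompact B) (hAn : A.Nonempty) (hBn : B.Nonempty)
    (hn : 0 < finrank ℝ E) :
    (μ A).toReal ^ ((1:ℝ) / finrank ℝ E) + (μ B).toReal ^ ((1:ℝ) / finrank ℝ E) ≤
      (μ (A + B)).toReal ^ ((1:ℝ) / finrank ℝ E) := by
  set n := finrank ℝ E with hn'
  have hn0 : (0:ℝ) < n := by exact_mod_cast hn
  have hinv : (0:ℝ) < 1 / n := by positivity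
  have hAf : μ A ≠ ∞ := hA.measure_lt_top.ne
  have hBf : μ B ≠ ∞ := hB.measure_lt_top.ne
  have hABf : μ (A + B) ≠ ∞ := (hA.add hB).measure_lt_top.ne
  obtain ⟨a0, ha0⟩ := hAn
  obtain ⟨b0, hb0⟩ := hBn
  have hB' : (μ B).toReal ≤ (μ (A + B)).toReal := by
    apply ENNReal.toReal_mono hABf
    calc μ B = μ ((fun x => a0 + x) '' B) := by rw [image_add_left, measure_preimage_add]
      _ ≤ μ (A + B) := by
        apply measure_mono
        rintro _ ⟨y, hy, rfl⟩
        exact add_mem_add ha0 hy
  have hA' : (μ A).toReal ≤ (μ (A + B)).toReal := by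
    apply ENNReal.toReal_mono hABf
    calc μ A = μ ((fun x => x + b0) '' A) := by rw [image_add_right, measure_preimage_add_right]
      _ ≤ μ (A + B) := by
        apply measure_mono
        rintro _ ⟨y, hy, rfl⟩
        exact add_mem_add hy hb0
  rcases eq_or_ne (μ A) 0 with hA0 | hA0
  · rw [hA0]
    simp only [ENNReal.toReal_zero]
    rw [Real.zero_rpow hinv.ne', zero_add]
    exact Real.rpow_le_rpow ENNReal.toReal_nonneg hB' hinv.le
  rcases eq_or_ne (μ B) 0 with hB0 | hB0
  · rw [hB0]
    simp only [ENNReal.toReal_zero]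
    rw [Real.zero_rpow hinv.ne', add_zero]
    exact Real.rpow_le_rpow ENNReal.toReal_nonneg hA' hinv.le
  set a : ℝ := (μ A).toReal ^ ((1:ℝ) / n) with ha
  set b : ℝ := (μ B).toReal ^ ((1:ℝ) / n) with hb
  have hAp : 0 < (μ A).toReal := ENNReal.toReal_pos hA0 hAf
  have hBp : 0 < (μ B).toReal := ENNReal.toReal_pos hB0 hBf
  have hapos : 0 < a := Real.rpow_pos_of_pos hAp _
  have hbpos : 0 < b := Real.rpow_pos_of_pos hBp _
  have han : a ^ n = (μ A).toReal := by
    rw [ha, ← Real.rpow_natCast, ← Real.rpow_mul hAp.le]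
    rw [one_div, inv_mul_cancel₀ hn0.ne', Real.rpow_one]
  have hbn : b ^ n = (μ B).toReal := by
    rw [hb, ← Real.rpow_natCast, ← Real.rpow_mul hBp.le]
    rw [one_div, inv_mul_cancel₀ hn0.ne', Real.rpow_one]
  have hs : 0 < a + b := by positivity
  have key := bm_mul hPL (hA.smul a⁻¹) (hB.smul b⁻¹) (t := b / (a + b)) (by positivity)
    ((div_lt_one hs).2 (by linarith))
  have e1 : μ (a⁻¹ • A) = 1 := by
    rw [Measure.addHaar_smul, ← hn', abs_of_pos (by positivity), inv_pow, han,
      ← ENNReal.ofReal_toReal hAf, ENNReal.toReal_ofReal hAp.le, ← ENNReal.ofReal_mul (by positivity),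
      inv_mul_cancel₀ hAp.ne', ENNReal.ofReal_one]
  have e2 : μ (b⁻¹ • B) = 1 := by
    rw [Measure.addHaar_smul, ← hn', abs_of_pos (by positivity), inv_pow, hbn,
      ← ENNReal.ofReal_toReal hBf, ENNReal.toReal_ofReal hBp.le, ← ENNReal.ofReal_mul (by positivity),
      inv_mul_cancel₀ hBp.ne', ENNReal.ofReal_one]
  have e3 : (1 - b / (a + b)) • (a⁻¹ • A) + (b / (a + b)) • (b⁻¹ • B) = (a + b)⁻¹ • (A + B) := by
    rw [smul_smul, smul_smul, smul_add]
    congr 2
    · field_simp
      ring
    · field_simp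
  rw [e1, e2, e3, ENNReal.one_rpow, ENNReal.one_rpow, one_mul, Measure.addHaar_smul, ← hn',
    abs_of_pos (by positivity), inv_pow, ← ENNReal.ofReal_toReal hABf,
    ← ENNReal.ofReal_mul (by positivity), ← ENNReal.ofReal_one,
    ENNReal.ofReal_le_ofReal_iff (by positivity)] at key
  have h4 : (a + b) ^ n ≤ (μ (A + B)).toReal := by
    have h5 : 0 < (a + b) ^ n := by positivity
    have := mul_le_mul_of_nonneg_left key h5.le
    rwa [mul_one, ← mul_assoc, mul_inv_cancel₀ h5.ne', one_mul] at this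
  calc a + b = ((a + b) ^ n) ^ ((1:ℝ) / n) := by
        rw [← Real.rpow_natCast, ← Real.rpow_mul hs.le, one_div, mul_inv_cancel₀ hn0.ne',
          Real.rpow_one]
    _ ≤ _ := Real.rpow_le_rpow (by positivity) h4 hinv.le

end

end Crest.Agent.R230
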