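import Crest.Agent.R230.WMain

/-!
# Row 230: block B6 for dimension `N = 6` (Lean `n = 5`)

Case II (`λ ≥ 0`), region `l > 0`, `-1 < k < 0`, parameters `(σ, θ, Λ) = (3, 1, 1/4)`, `μ = 27/16`.
The proof splits the range of `c = cc s` into boxes with rational constants.
-/

set_option autoImplicit false

open MeasureTheory Set Filter Topology

namespace Crest.Agent.R230.WR.BSix

/-! ### tangent bounds for `hm 5` -/

lemma tanPolyA {y : ℝ} (h0 : 0 ≤ y) (h1 : y ≤ 1) :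
    0 ≤ ((6/25) + (4/25) * y ^ 5) * (1 + y + y ^ 2 + y ^ 3 + y ^ 4) ^ 2 - (4 + 3 * y + 2 * y ^ 2 + y ^ 3) * y ^ 5 := by
  have hu : 0 ≤ y - 0 := by linarith
  have hw : 0 ≤ 1 - y := by linarith
  have e : ((6/25) + (4/25) * y ^ 5) * (1 + y + y ^ 2 + y ^ 3 + y ^ 4) ^ 2 - (4 + 3 * y + 2 * y ^ 2 + y ^ 3) * y ^ 5 =
      (6/25) * (y - 0) ^ 0 * (1 - y) ^ 13 +
      (18/5) * (y - 0) ^ 1 * (1 - y) ^ 12 +
      (126/5) * (y - 0) ^ 2 * (1 - y) ^ 11 +
      (546/5) * (y - 0) ^ 3 * (1 - y) ^ 10 +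
      (1638/5) * (y - 0) ^ 4 * (1 - y) ^ 9 +
      (3582/5) * (y - 0) ^ 5 * (1 - y) ^ 8 +
      1163 * (y - 0) ^ 6 * (1 - y) ^ 7 +
      1395 * (y - 0) ^ 7 * (1 - y) ^ 6 +
      1206 * (y - 0) ^ 8 * (1 - y) ^ 5 +
      714 * (y - 0) ^ 9 * (1 - y) ^ 4 +
      261 * (y - 0) ^ 10 * (1 - y) ^ 3 +
      45 * (y - 0) ^ 11 * (1 - y) ^ 2 := by ring
  rw [e]
  generalize y - 0 = u at *
  generalize 1 - y = w at *
  positivity

lemma tanPolyB {y : ℝ} (h0 : 0 ≤ y) (h1 : y ≤ 1) :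
    0 ≤ ((347/2000) + (99/400) * y ^ 5) * (1 + y + y ^ 2 + y ^ 3 + y ^ 4) ^ 2 - (4 + 3 * y + 2 * y ^ 2 + y ^ 3) * y ^ 5 := by
  rcases le_total y (1/2) with hy | hy
  · have hu : 0 ≤ y - 0 := by linarith
    have hw : 0 ≤ (1/2) - y := by linarith
    have e : ((347/2000) + (99/400) * y ^ 5) * (1 + y + y ^ 2 + y ^ 3 + y ^ 4) ^ 2 - (4 + 3 * y + 2 * y ^ 2 + y ^ 3) * y ^ 5 =
      (177664/125) * (y - 0) ^ 0 * ((1/2) - y) ^ 13 +
      (2487296/125) * (y - 0) ^ 1 * ((1/2) - y) ^ 12 +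
      (16123008/125) * (y - 0) ^ 2 * ((1/2) - y) ^ 11 +
      (64092288/125) * (y - 0) ^ 3 * ((1/2) - y) ^ 10 +
      (34877664/25) * (y - 0) ^ 4 * ((1/2) - y) ^ 9 +
      (342982416/125) * (y - 0) ^ 5 * ((1/2) - y) ^ 8 +
      (501396984/125) * (y - 0) ^ 6 * ((1/2) - y) ^ 7 +
      (550941972/125) * (y - 0) ^ 7 * ((1/2) - y) ^ 6 +
      (454114542/125) * (y - 0) ^ 8 * ((1/2) - y) ^ 5 +
      (55305929/25) * (y - 0) ^ 9 * ((1/2) - y) ^ 4 +
      (120487022/125) * (y - 0) ^ 10 * ((1/2) - y) ^ 3 +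
      (141666717/500) * (y - 0) ^ 11 * ((1/2) - y) ^ 2 +
      (25053561/500) * (y - 0) ^ 12 * ((1/2) - y) ^ 1 +
      (8010639/2000) * (y - 0) ^ 13 * ((1/2) - y) ^ 0 := by ring
    rw [e]
    generalize y - 0 = u at *
    generalize (1/2) - y = w at *
    positivity
  rcases le_total y (3/4) with hy | hy
  · have hu : 0 ≤ y - (1/2) := by linarith
    have hw : 0 ≤ (3/4) - y := by linarith
    have e : ((347/2000) + (99/400) * y ^ 5) * (1 + y + y ^ 2 + y ^ 3 + y ^ 4) ^ 2 - (4 + 3 * y + 2 * y ^ 2 + y ^ 3) * y ^ 5 =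
      (4101447168/125) * (y - (1/2)) ^ 0 * ((3/4) - y) ^ 13 +
      (54323373312/125) * (y - (1/2)) ^ 1 * ((3/4) - y) ^ 12 +
      (330550100736/125) * (y - (1/2)) ^ 2 * ((3/4) - y) ^ 11 +
      (1222598893696/125) * (y - (1/2)) ^ 3 * ((3/4) - y) ^ 10 +
      (612827851168/25) * (y - (1/2)) ^ 4 * ((3/4) - y) ^ 9 +
      (5489681706672/125) * (y - (1/2)) ^ 5 * ((3/4) - y) ^ 8 +
      (7224891127968/125) * (y - (1/2)) ^ 6 * ((3/4) - y) ^ 7 +
      (7062543548784/125) * (y - (1/2)) ^ 7 * ((3/4) - y) ^ 6 +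
      (5119508126274/125) * (y - (1/2)) ^ 8 * ((3/4) - y) ^ 5 +
      (542527092783/25) * (y - (1/2)) ^ 9 * ((3/4) - y) ^ 4 +
      (1018849210179/125) * (y - (1/2)) ^ 10 * ((3/4) - y) ^ 3 +
      (512355141057/250) * (y - (1/2)) ^ 11 * ((3/4) - y) ^ 2 +
      (308255832239/1000) * (y - (1/2)) ^ 12 * ((3/4) - y) ^ 1 +
      (41771045093/2000) * (y - (1/2)) ^ 13 * ((3/4) - y) ^ 0 := by ring
    rw [e]
    generalize y - (1/2) = u at *
    generalize (3/4) - y = w at *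
    positivity
  rcases le_total y (7/8) with hy | hy
  · have hu : 0 ≤ y - (3/4) := by linarith
    have hw : 0 ≤ (7/8) - y := by linarith
    have e : ((347/2000) + (99/400) * y ^ 5) * (1 + y + y ^ 2 + y ^ 3 + y ^ 4) ^ 2 - (4 + 3 * y + 2 * y ^ 2 + y ^ 3) * y ^ 5 =
      (21386775087616/125) * (y - (3/4)) ^ 0 * ((7/8) - y) ^ 13 +
      (259215128102144/125) * (y - (3/4)) ^ 1 * ((7/8) - y) ^ 12 +
      (1437144942404352/125) * (y - (3/4)) ^ 2 * ((7/8) - y) ^ 11 +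
      (4819728088601472/125) * (y - (3/4)) ^ 3 * ((7/8) - y) ^ 10 +
      (2178378845978976/25) * (y - (3/4)) ^ 4 * ((7/8) - y) ^ 9 +
      (17481983390191344/125) * (y - (3/4)) ^ 5 * ((7/8) - y) ^ 8 +
      (20455975072943136/125) * (y - (3/4)) ^ 6 * ((7/8) - y) ^ 7 +
      (17618408896461648/125) * (y - (3/4)) ^ 7 * ((7/8) - y) ^ 6 +
      (11131491563215878/125) * (y - (3/4)) ^ 8 * ((7/8) - y) ^ 5 +
      (1015055161624631/25) * (y - (3/4)) ^ 9 * ((7/8) - y) ^ 4 +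
      (1616358162517163/125) * (y - (3/4)) ^ 10 * ((7/8) - y) ^ 3 +
      (679027108209279/250) * (y - (3/4)) ^ 11 * ((7/8) - y) ^ 2 +
      (338279506978113/1000) * (y - (3/4)) ^ 12 * ((7/8) - y) ^ 1 +
      (38573101614681/2000) * (y - (3/4)) ^ 13 * ((7/8) - y) ^ 0 := by ring
    rw [e]
    generalize y - (3/4) = u at *
    generalize (7/8) - y = w at *
    positivity
  have hu : 0 ≤ y - (7/8) := by linarith
  have hw : 0 ≤ 1 - y := by linarith
  have e : ((347/2000) + (99/400) * y ^ 5) * (1 + y + y ^ 2 + y ^ 3 + y ^ 4) ^ 2 - (4 + 3 * y + 2 * y ^ 2 + y ^ 3) * y ^ 5 =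
      (38573101614681/2000) * (y - (7/8)) ^ 0 * (1 - y) ^ 13 +
      (8158540700637/50) * (y - (7/8)) ^ 1 * (1 - y) ^ 12 +
      (15370102931316/25) * (y - (7/8)) ^ 2 * (1 - y) ^ 11 +
      (41133965681312/25) * (y - (7/8)) ^ 3 * (1 - y) ^ 10 +
      (119874116022528/25) * (y - (7/8)) ^ 4 * (1 - y) ^ 9 +
      (1827346795892736/125) * (y - (7/8)) ^ 5 * (1 - y) ^ 8 +
      (175131251490816/5) * (y - (7/8)) ^ 6 * (1 - y) ^ 7 +
      (1486883733110784/25) * (y - (7/8)) ^ 7 * (1 - y) ^ 6 +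
      (353935196946432/5) * (y - (7/8)) ^ 8 * (1 - y) ^ 5 +
      (1473885883072512/25) * (y - (7/8)) ^ 9 * (1 - y) ^ 4 +
      33795889692672 * (y - (7/8)) ^ 10 * (1 - y) ^ 3 +
      (63738388414464/5) * (y - (7/8)) ^ 11 * (1 - y) ^ 2 +
      2856153251840 * (y - (7/8)) ^ 12 * (1 - y) ^ 1 +
      (1443109011456/5) * (y - (7/8)) ^ 13 * (1 - y) ^ 0 := by ring
  rw [e]
  generalize y - (7/8) = u at *
  generalize 1 - y = w at *
  positivity

lemma tanPolyC {y : ℝ} (h0 : 0 ≤ y) (h1 : y ≤ 1) :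
    0 ≤ ((1297/10000) + (1683/5000) * y ^ 5) * (1 + y + y ^ 2 + y ^ 3 + y ^ 4) ^ 2 - (4 + 3 * y + 2 * y ^ 2 + y ^ 3) * y ^ 5 := by
  rcases le_total y (1/2) with hy | hy
  · have hu : 0 ≤ y - 0 := by linarith
    have hw : 0 ≤ (1/2) - y := by linarith
    have e : ((1297/10000) + (1683/5000) * y ^ 5) * (1 + y + y ^ 2 + y ^ 3 + y ^ 4) ^ 2 - (4 + 3 * y + 2 * y ^ 2 + y ^ 3) * y ^ 5 =
      (664064/625) * (y - 0) ^ 0 * ((1/2) - y) ^ 13 +
      (9296896/625) * (y - 0) ^ 1 * ((1/2) - y) ^ 12 +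
      (60263808/625) * (y - 0) ^ 2 * ((1/2) - y) ^ 11 +
      (239561088/625) * (y - 0) ^ 3 * ((1/2) - y) ^ 10 +
      (130364064/125) * (y - 0) ^ 4 * ((1/2) - y) ^ 9 +
      (1281845952/625) * (y - 0) ^ 5 * ((1/2) - y) ^ 8 +
      (1872962808/625) * (y - 0) ^ 6 * ((1/2) - y) ^ 7 +
      (2055183384/625) * (y - 0) ^ 7 * ((1/2) - y) ^ 6 +
      (1688909994/625) * (y - 0) ^ 8 * ((1/2) - y) ^ 5 +
      (40909136/25) * (y - 0) ^ 9 * ((1/2) - y) ^ 4 +
      (88290656/125) * (y - 0) ^ 10 * ((1/2) - y) ^ 3 +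
      (2045877/10) * (y - 0) ^ 11 * ((1/2) - y) ^ 2 +
      (8849421/250) * (y - 0) ^ 12 * ((1/2) - y) ^ 1 +
      (2744007/1000) * (y - 0) ^ 13 * ((1/2) - y) ^ 0 := by ring
    rw [e]
    generalize y - 0 = u at *
    generalize (1/2) - y = w at *
    positivity
  rcases le_total y (3/4) with hy | hy
  · have hu : 0 ≤ y - (1/2) := by linarith
    have hw : 0 ≤ (3/4) - y := by linarith
    have e : ((1297/10000) + (1683/5000) * y ^ 5) * (1 + y + y ^ 2 + y ^ 3 + y ^ 4) ^ 2 - (4 + 3 * y + 2 * y ^ 2 + y ^ 3) * y ^ 5 =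
      (2809863168/125) * (y - (1/2)) ^ 0 * ((3/4) - y) ^ 13 +
      (36668717568/125) * (y - (1/2)) ^ 1 * ((3/4) - y) ^ 12 +
      (43856076288/25) * (y - (1/2)) ^ 2 * ((3/4) - y) ^ 11 +
      (158926505216/25) * (y - (1/2)) ^ 3 * ((3/4) - y) ^ 10 +
      (388792856896/25) * (y - (1/2)) ^ 4 * ((3/4) - y) ^ 9 +
      (16919910745056/625) * (y - (1/2)) ^ 5 * ((3/4) - y) ^ 8 +
      (21512741642304/625) * (y - (1/2)) ^ 6 * ((3/4) - y) ^ 7 +
      (20169582233952/625) * (y - (1/2)) ^ 7 * ((3/4) - y) ^ 6 +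
      (13893425402292/625) * (y - (1/2)) ^ 8 * ((3/4) - y) ^ 5 +
      (1382353764966/125) * (y - (1/2)) ^ 9 * ((3/4) - y) ^ 4 +
      (2399197872558/625) * (y - (1/2)) ^ 10 * ((3/4) - y) ^ 3 +
      (546102497757/625) * (y - (1/2)) ^ 11 * ((3/4) - y) ^ 2 +
      (289768048979/2500) * (y - (1/2)) ^ 12 * ((3/4) - y) ^ 1 +
      (33672441713/5000) * (y - (1/2)) ^ 13 * ((3/4) - y) ^ 0 := by ring
    rw [e]
    generalize y - (1/2) = u at *
    generalize (3/4) - y = w at *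
    positivity
  rcases le_total y (7/8) with hy | hy
  · have hu : 0 ≤ y - (3/4) := by linarith
    have hw : 0 ≤ (7/8) - y := by linarith
    have e : ((1297/10000) + (1683/5000) * y ^ 5) * (1 + y + y ^ 2 + y ^ 3 + y ^ 4) ^ 2 - (4 + 3 * y + 2 * y ^ 2 + y ^ 3) * y ^ 5 =
      (34480580314112/625) * (y - (3/4)) ^ 0 * ((7/8) - y) ^ 13 +
      (375648833970688/625) * (y - (3/4)) ^ 1 * ((7/8) - y) ^ 12 +
      (1828755081752064/625) * (y - (3/4)) ^ 2 * ((7/8) - y) ^ 11 +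
      (5216208530959104/625) * (y - (3/4)) ^ 3 * ((7/8) - y) ^ 10 +
      (1916769180676032/125) * (y - (3/4)) ^ 4 * ((7/8) - y) ^ 9 +
      (11703674305786464/625) * (y - (3/4)) ^ 5 * ((7/8) - y) ^ 8 +
      (9412578315214656/625) * (y - (3/4)) ^ 6 * ((7/8) - y) ^ 7 +
      (4778504973869088/625) * (y - (3/4)) ^ 7 * ((7/8) - y) ^ 6 +
      (1585140839293788/625) * (y - (3/4)) ^ 8 * ((7/8) - y) ^ 5 +
      (157716218538358/125) * (y - (3/4)) ^ 9 * ((7/8) - y) ^ 4 +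
      (777212416614334/625) * (y - (3/4)) ^ 10 * ((7/8) - y) ^ 3 +
      (502508884279011/625) * (y - (3/4)) ^ 11 * ((7/8) - y) ^ 2 +
      (660326077993437/2500) * (y - (3/4)) ^ 12 * ((7/8) - y) ^ 1 +
      (175744276092309/5000) * (y - (3/4)) ^ 13 * ((7/8) - y) ^ 0 := by ring
    rw [e]
    generalize y - (3/4) = u at *
    generalize (7/8) - y = w at *
    positivity
  have hu : 0 ≤ y - (7/8) := by linarith
  have hw : 0 ≤ 1 - y := by linarith
  have e : ((1297/10000) + (1683/5000) * y ^ 5) * (1 + y + y ^ 2 + y ^ 3 + y ^ 4) ^ 2 - (4 + 3 * y + 2 * y ^ 2 + y ^ 3) * y ^ 5 =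
      (175744276092309/5000) * (y - (7/8)) ^ 0 * (1 - y) ^ 13 +
      (81217475560329/125) * (y - (7/8)) ^ 1 * (1 - y) ^ 12 +
      (678915836783688/125) * (y - (7/8)) ^ 2 * (1 - y) ^ 11 +
      (3391864970471488/125) * (y - (7/8)) ^ 3 * (1 - y) ^ 10 +
      (11313425559335424/125) * (y - (7/8)) ^ 4 * (1 - y) ^ 9 +
      (133308709983074304/625) * (y - (7/8)) ^ 5 * (1 - y) ^ 8 +
      (9155452398600192/25) * (y - (7/8)) ^ 6 * (1 - y) ^ 7 +
      (58101788859826176/125) * (y - (7/8)) ^ 7 * (1 - y) ^ 6 +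
      436917516632064 * (y - (7/8)) ^ 8 * (1 - y) ^ 5 +
      (37609826489991168/125) * (y - (7/8)) ^ 9 * (1 - y) ^ 4 +
      (738711155245056/5) * (y - (7/8)) ^ 10 * (1 - y) ^ 3 +
      (1226056396701696/25) * (y - (7/8)) ^ 11 * (1 - y) ^ 2 +
      (49366354100224/5) * (y - (7/8)) ^ 12 * (1 - y) ^ 1 +
      (22780506537984/25) * (y - (7/8)) ^ 13 * (1 - y) ^ 0 := by ring
  rw [e]
  generalize y - (7/8) = u at *
  generalize 1 - y = w at *
  positivity


lemma hm5_eq {j : ℝ} (hj : 0 < j) (hj1 : j < 1) :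
    ∃ y : ℝ, 0 < y ∧ y < 1 ∧ y ^ 5 = 1 - j ∧ hm 5 (-j) = y ^ 5 - 5 * y + 4 := by
  refine ⟨(1 - j) ^ ((1 : ℝ) / (5 : ℕ)), Real.rpow_pos_of_pos (by linarith) _,
    Real.rpow_lt_one (by linarith) (by linarith) (by norm_num), ?_, ?_⟩
  · rw [one_div, Real.rpow_inv_natCast_pow (by linarith) (by norm_num)]
  · have h : ((1 - j) ^ ((1 : ℝ) / (5 : ℕ))) ^ 5 = 1 - j := by
      rw [one_div, Real.rpow_inv_natCast_pow (by linarith) (by norm_num)]
    rw [h]
    unfold hm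
    rw [← sub_eq_add_neg]
    push_cast
    ring

lemma tan_of_poly {c0 c1 : ℝ}
    (hp : ∀ y : ℝ, 0 ≤ y → y ≤ 1 → 0 ≤ (c1 + c0 * y ^ 5) * (1 + y + y ^ 2 + y ^ 3 + y ^ 4) ^ 2 -
      (4 + 3 * y + 2 * y ^ 2 + y ^ 3) * y ^ 5) {j : ℝ} (hj : 0 < j) (hj1 : j < 1) :
    hm 5 (-j) ≤ c0 * j ^ 2 + c1 * (j ^ 2 / (1 - j)) := by
  obtain ⟨y, h0, h1, h5, hh⟩ := hm5_eq hj hj1
  rw [hh, ← h5]
  have hjy : j = 1 - y ^ 5 := by linarith
  have hy5 : 0 < y ^ 5 := pow_pos h0 5
  have key := mul_nonneg (sq_nonneg (1 - y)) (hp y h0.le h1.le)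
  rw [← mul_div_assoc, ← sub_le_iff_le_add', le_div_iff₀ hy5, hjy]
  nlinarith [key]

lemma tanA {j : ℝ} (hj : 0 < j) (hj1 : j < 1) :
    hm 5 (-j) ≤ (4/25) * j ^ 2 + (6/25) * (j ^ 2 / (1 - j)) :=
  tan_of_poly (fun _ h0 h1 => tanPolyA h0 h1) hj hj1

lemma tanB {j : ℝ} (hj : 0 < j) (hj1 : j < 1) :
    hm 5 (-j) ≤ (99/400) * j ^ 2 + (347/2000) * (j ^ 2 / (1 - j)) :=
  tan_of_poly (fun _ h0 h1 => tanPolyB h0 h1) hj hj1

lemma tanC {j : ℝ} (hj : 0 < j) (hj1 : j < 1) :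
    hm 5 (-j) ≤ (1683/5000) * j ^ 2 + (1297/10000) * (j ^ 2 / (1 - j)) :=
  tan_of_poly (fun _ h0 h1 => tanPolyC h0 h1) hj hj1

/-! ### lower bound for `cR` -/

lemma cR_lower {s l X : ℝ} (hs : s ∈ Ioo (0 : ℝ) 1) (hl : 0 < l) (hT : s * Real.exp l ≤ 1)
    (hX : (1 + (Real.exp (2 * l))) * cc s ^ 2 *
      ((1 + cc s) * (1 + cc (s * Real.exp l)) - cc s * (cc s + cc (s * Real.exp l))) ≤
      X * ((cc s + cc (s * Real.exp l)) ^ 2 * ((1 + cc s) * (1 + cc (s * Real.exp l))))) :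
    -(X * (Y s * l ^ 2)) ≤ cR s l := by
  have hc := cc_pos' hs
  have hT0 : 0 < s * Real.exp l := mul_pos hs.1 (Real.exp_pos _)
  have hC := cc_nonneg (s * Real.exp l)
  have hc2 := cc_sq' hs
  have hC2 : cc (s * Real.exp l) ^ 2 = 1 - (s * Real.exp l) ^ 2 := cc_sq ⟨by linarith, hT⟩
  have hEE : Real.exp l ^ 2 = Real.exp (2 * l) := by rw [← Real.exp_nat_mul]; norm_num
  rw [mul_pow, hEE] at hC2
  set E := Real.exp (2 * l) - 1 with hE
  have hE1 : Real.exp (2 * l) = 1 + E := by rw [hE]; ring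
  have hE0 : 0 < E := by
    rw [hE]; have := Real.add_one_lt_exp (x := 2 * l) (by positivity); linarith
  have hlog : 2 * E / (E + 2) ≤ 2 * l := by
    have h := Real.le_log_one_add_of_nonneg (x := E) hE0.le
    rwa [← hE1, Real.log_exp] at h
  rw [hE1] at hC2 hX
  unfold cR Phi Y
  rw [show 1 - s ^ 2 = cc s ^ 2 from hc2.symm]
  generalize cc s = c at *
  generalize cc (s * Real.exp l) = C at *
  have hs2 : s ^ 2 = 1 - c ^ 2 := by linarith
  have hCc : C ^ 2 = c ^ 2 - (1 - c ^ 2) * E := by rw [hC2, hs2]; ring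
  have hl0 : E / (2 + E) ≤ l := by
    rw [div_le_iff₀ (by linarith)]
    rw [div_le_iff₀ (by linarith)] at hlog
    linarith
  set l0 := E / (2 + E) with hl0d
  have hl00 : 0 < l0 := by positivity
  have h1c : 0 < 1 + c := by linarith
  have h1C : 0 < 1 + C := by linarith
  have hcC : 0 < c + C := by linarith
  have hs2p : 0 < s ^ 2 := by have := hs.1; positivity
  have hc1 : c < 1 := by nlinarith
  have hX0 : 0 ≤ X := by
    by_contra hneg
    rw [not_le] at hneg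
    have h1 : X * ((c + C) ^ 2 * ((1 + c) * (1 + C))) < 0 := mul_neg_of_neg_of_pos hneg (by positivity)
    have h2 : 0 ≤ (1 + (1 + E)) * c ^ 2 * ((1 + c) * (1 + C) - c * (c + C)) := by
      refine mul_nonneg (by positivity) ?_
      nlinarith
    linarith
  have hsq : l0 ^ 2 ≤ l ^ 2 := by nlinarith
  have hstep : -(X * (s ^ 2 / c ^ 2 * l0 ^ 2)) ≤ c * (C / (1 + C) - c / (1 + c)) + l0 * ((1 - c) / (1 + c)) := by
    -- X ≥ X0, and equality for X0
    have hXi : (2 + E) * c ^ 2 * ((1 + c) * (1 + C) - c * (c + C)) / ((c + C) ^ 2 * ((1 + c) * (1 + C))) ≤ X := by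
      rw [div_le_iff₀ (by positivity)]
      linarith
    have hmul := mul_le_mul_of_nonneg_right hXi (show 0 ≤ s ^ 2 / c ^ 2 * l0 ^ 2 by positivity)
    refine le_trans (neg_le_neg hmul) (le_of_eq ?_)
    have hE2 : (1 - c ^ 2) * E = c ^ 2 - C ^ 2 := by linarith
    rw [hl0d, hs2]
    have h2E : (2 + E) ≠ 0 := by positivity
    have e1 : (1 - c ^ 2) ≠ 0 := by rw [← hs2]; exact hs2p.ne'
    have hEq : E = (c ^ 2 - C ^ 2) / (1 - c ^ 2) := by field_simp; linarith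
    have h3 : (2 + E) = (2 - c ^ 2 - C ^ 2) / (1 - c ^ 2) := by rw [hEq]; field_simp; ring
    have h4 : 2 - c ^ 2 - C ^ 2 ≠ 0 := by
      intro h0; rw [h3, h0] at h2E; simp at h2E
    rw [h3, hEq]
    have h1c' := h1c.ne'
    have h1C' := h1C.ne'
    have hcC' := hcC.ne'
    field_simp
    ring
  have hXY : X * (s ^ 2 / c ^ 2 * l0 ^ 2) ≤ X * (s ^ 2 / c ^ 2 * l ^ 2) :=
    mul_le_mul_of_nonneg_left (mul_le_mul_of_nonneg_left hsq (by positivity)) hX0
  have hll : l0 * ((1 - c) / (1 + c)) ≤ l * ((1 - c) / (1 + c)) :=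
    mul_le_mul_of_nonneg_right hl0 (div_nonneg (by linarith) h1c.le)
  linarith

/-! ### the two-variable inequality -/

lemma box_pos {q tM D B j0 x0 : ℝ} (hq : 0 < q) (hB : 0 ≤ B) (hj0 : 0 < j0)
    (hQ0 : 1 < 4 * q * D) (hQ1 : (1 + 2 * j0) ^ 2 < 4 * q * (1 - j0) * (D + B * j0))
    (hm : 2 * q * tM * (1 - j0) ≤ j0 + 2 * j0 ^ 2)
    (hk : 0 < (D - 2 * tM + 3 * B * x0) + B * (j0 - x0))
    (hd : (-(q * tM ^ 2) - tM * (1 + 4 * x0) + 2 * D * x0 + 3 * B * x0 ^ 2) ^ 2 <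
      4 * ((D - 2 * tM + 3 * B * x0) + B * (j0 - x0)) *
        (q * tM ^ 2 * (1 - x0) - tM * (x0 + 2 * x0 ^ 2) + D * x0 ^ 2 + B * x0 ^ 3))
    {t j : ℝ} (ht : 0 < t) (htM : t ≤ tM) (hj : 0 < j) (hj1 : j < 1) :
    0 < q * (1 - j) * t ^ 2 - (j + 2 * j ^ 2) * t + j ^ 2 * (D + B * j) := by
  rcases le_total j j0 with h | h
  · have hf : 0 < 4 * q * (1 - j) * (D + B * j) - (1 + 2 * j) ^ 2 := by
      have e : j0 * (4 * q * (1 - j) * (D + B * j) - (1 + 2 * j) ^ 2) =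
          (j0 - j) * (4 * q * D - 1) + j * (4 * q * (1 - j0) * (D + B * j0) - (1 + 2 * j0) ^ 2) +
          (4 * q * B + 4) * (j * (j0 - j) * j0) := by ring
      have h1 : 0 ≤ (j0 - j) * (4 * q * D - 1) := mul_nonneg (by linarith) (by linarith)
      have h2 : 0 < j * (4 * q * (1 - j0) * (D + B * j0) - (1 + 2 * j0) ^ 2) :=
        mul_pos hj (by linarith)
      have h3 : 0 ≤ (4 * q * B + 4) * (j * (j0 - j) * j0) :=
        mul_nonneg (by positivity) (mul_nonneg (mul_nonneg hj.le (by linarith)) hj0.le)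
      have h4 : 0 < j0 * (4 * q * (1 - j) * (D + B * j) - (1 + 2 * j) ^ 2) := by rw [e]; linarith
      exact (mul_pos_iff_of_pos_left hj0).1 h4
    have e : 4 * q * (1 - j) * (q * (1 - j) * t ^ 2 - (j + 2 * j ^ 2) * t + j ^ 2 * (D + B * j)) =
        (2 * q * (1 - j) * t - (j + 2 * j ^ 2)) ^ 2 +
          j ^ 2 * (4 * q * (1 - j) * (D + B * j) - (1 + 2 * j) ^ 2) := by ring
    have h5 : 0 < 4 * q * (1 - j) * (q * (1 - j) * t ^ 2 - (j + 2 * j ^ 2) * t + j ^ 2 * (D + B * j)) := by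
      rw [e]
      have := mul_pos (pow_pos hj 2) hf
      have := sq_nonneg (2 * q * (1 - j) * t - (j + 2 * j ^ 2))
      linarith
    exact (mul_pos_iff_of_pos_left (mul_pos (by positivity) (by linarith))).1 h5
  · have h1 : q * (1 - j) * (t + tM) ≤ j + 2 * j ^ 2 := by
      have h2 : q * (1 - j) * (t + tM) ≤ 2 * q * tM * (1 - j0) := by
        have h3 : (1 - j) * (t + tM) ≤ (1 - j0) * (2 * tM) :=
          mul_le_mul (by linarith) (by linarith) (by linarith) (by linarith)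
        have := mul_le_mul_of_nonneg_left h3 hq.le
        linarith
      nlinarith
    have hmono : q * (1 - j) * tM ^ 2 - (j + 2 * j ^ 2) * tM + j ^ 2 * (D + B * j) ≤
        q * (1 - j) * t ^ 2 - (j + 2 * j ^ 2) * t + j ^ 2 * (D + B * j) := by
      have := mul_nonneg (show 0 ≤ tM - t by linarith) (show 0 ≤ (j + 2 * j ^ 2) - q * (1 - j) * (t + tM) by linarith)
      linarith
    refine lt_of_lt_of_le ?_ hmono
    set k2 := (D - 2 * tM + 3 * B * x0) + B * (j0 - x0) with hk2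
    set dp := -(q * tM ^ 2) - tM * (1 + 4 * x0) + 2 * D * x0 + 3 * B * x0 ^ 2 with hdp
    set p0 := q * tM ^ 2 * (1 - x0) - tM * (x0 + 2 * x0 ^ 2) + D * x0 ^ 2 + B * x0 ^ 3 with hp0
    have e : q * (1 - j) * tM ^ 2 - (j + 2 * j ^ 2) * tM + j ^ 2 * (D + B * j) =
        p0 + dp * (j - x0) + k2 * (j - x0) ^ 2 + B * (j - j0) * (j - x0) ^ 2 := by
      rw [hk2, hdp, hp0]; ring
    rw [e]
    have h6 : 0 ≤ B * (j - j0) * (j - x0) ^ 2 := by
      have : 0 ≤ j - j0 := by linarith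
      positivity
    have h7 : 0 < p0 + dp * (j - x0) + k2 * (j - x0) ^ 2 := by
      have h8 : 0 < 4 * k2 * (p0 + dp * (j - x0) + k2 * (j - x0) ^ 2) := by
        have e2 : 4 * k2 * (p0 + dp * (j - x0) + k2 * (j - x0) ^ 2) =
          (2 * k2 * (j - x0) + dp) ^ 2 + (4 * k2 * p0 - dp ^ 2) := by ring
        rw [e2]
        have := sq_nonneg (2 * k2 * (j - x0) + dp)
        linarith
      exact (mul_pos_iff_of_pos_left (by positivity)).1 h8
    linarith

/-! ### reduction of `PP` -/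

lemma Gm5_lower {l : ℝ} (hl : 0 ≤ l) : l ^ 2 / 10 ≤ Gm 5 l := by
  unfold Gm
  have h := Real.quadratic_le_exp_of_nonneg (x := l / 5) (by positivity)
  push_cast
  nlinarith

lemma core {lm s l j c0 c1 aL eM q D B : ℝ} (hs : s ∈ Ioo (0 : ℝ) 1) (hl : 0 < l) (hj : 0 < j)
    (hj1 : j < 1) (htan : hm 5 (-j) ≤ c0 * j ^ 2 + c1 * (j ^ 2 / (1 - j))) (hc0 : 0 ≤ c0)
    (hc1 : 0 ≤ c1) (ha : aL ≤ aq s) (he : Real.exp (l / 5) ≤ eM)
    (hq : q * (Y s * l) ^ 2 ≤ 27 / 40 * (Y s * l ^ 2) + 2 * (Y s * l) ^ 2 + cR s l)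
    (hD : D ≤ aL - 27 / 16 * eM * (c0 + c1) - 3 / 14) (hB : B ≤ 3 / 14 + 27 / 16 * eM * c0)
    (hF : 0 < q * (1 - j) * (Y s * l) ^ 2 - (j + 2 * j ^ 2) * (Y s * l) + j ^ 2 * (D + B * j)) :
    0 < PP 5 (27 / 16) 3 1 0 lm s l (-j) := by
  have hY := Y_nonneg hs
  have hG := Gm5_lower hl.le
  have h1j : 0 < 1 - j := by linarith
  set K := j ^ 2 / (1 - j) with hK
  have hK0 : 0 ≤ K := by positivity
  have hKK : KK (-j) = K := by unfold KK; rw [hK, neg_sq, ← sub_eq_add_neg]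
  have hKj : K * (1 - j) = j ^ 2 := by rw [hK]; field_simp
  have hexp := Real.exp_pos (l / 5)
  have hh : Real.exp (l / 5) * hm 5 (-j) ≤ eM * (c0 * j ^ 2 + c1 * K) := by
    have h0 : 0 ≤ c0 * j ^ 2 + c1 * K := by positivity
    calc Real.exp (l / 5) * hm 5 (-j) ≤ Real.exp (l / 5) * (c0 * j ^ 2 + c1 * K) :=
          mul_le_mul_of_nonneg_left htan hexp.le
      _ ≤ eM * (c0 * j ^ 2 + c1 * K) := mul_le_mul_of_nonneg_right he h0
  have haK : aL * K ≤ aq s * K := mul_le_mul_of_nonneg_right ha hK0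
  have hYG : Y s * (l ^ 2 / 10) ≤ Y s * Gm 5 l := mul_le_mul_of_nonneg_left hG hY
  have hPP : PP 5 (27 / 16) 3 1 0 lm s l (-j) = 27 / 16 * (4 * (Y s * Gm 5 l) - Real.exp (l / 5) * hm 5 (-j)) +
      (aq s * K - 3 * (Y s * l) * K) - (Y s * l) * j + 2 * (Y s * l) ^ 2 + cR s l - 3 / 14 * j ^ 2 := by
    unfold PP
    rw [hKK]
    push_cast
    ring
  have hge : q * (Y s * l) ^ 2 - (Y s * l) * j - 3 * (Y s * l) * K + (aL - 27 / 16 * eM * c1) * K -
      (3 / 14 + 27 / 16 * eM * c0) * j ^ 2 ≤ PP 5 (27 / 16) 3 1 0 lm s l (-j) := by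
    rw [hPP]
    linarith
  refine lt_of_lt_of_le ?_ hge
  have hmul : 0 < (1 - j) * (q * (Y s * l) ^ 2 - (Y s * l) * j - 3 * (Y s * l) * K + (aL - 27 / 16 * eM * c1) * K -
      (3 / 14 + 27 / 16 * eM * c0) * j ^ 2) := by
    have e : (1 - j) * (q * (Y s * l) ^ 2 - (Y s * l) * j - 3 * (Y s * l) * K + (aL - 27 / 16 * eM * c1) * K -
      (3 / 14 + 27 / 16 * eM * c0) * j ^ 2) = q * (1 - j) * (Y s * l) ^ 2 - (Y s * l) * j * (1 - j) -
      3 * (Y s * l) * (K * (1 - j)) + (aL - 27 / 16 * eM * c1) * (K * (1 - j)) -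
      (3 / 14 + 27 / 16 * eM * c0) * j ^ 2 * (1 - j) := by ring
    rw [e, hKj]
    have h2 := mul_le_mul_of_nonneg_right hD (sq_nonneg j)
    have h3 := mul_le_mul_of_nonneg_right hB (show 0 ≤ j ^ 3 by positivity)
    nlinarith
  exact (mul_pos_iff_of_pos_left h1j).1 hmul

/-! ### bound for the remainder constant -/

lemma X_bound {c C E clo vM EM XM : ℝ} (hc : clo ≤ c) (hclo : 0 ≤ clo) (hc0 : 0 < c) (hc1 : c < 1)
    (hv : 0 ≤ vM) (hC : vM * c ≤ C) (hE : E ≤ EM) (hE0 : 0 ≤ E)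
    (hXM : (2 + EM) * ((1 + clo) * (1 + clo * vM) - clo ^ 2 * (1 + vM)) ≤
      XM * ((1 + vM) ^ 2 * ((1 + clo) * (1 + clo * vM)))) :
    (2 + E) * c ^ 2 * ((1 + c) * (1 + C) - c * (c + C)) ≤ XM * ((c + C) ^ 2 * ((1 + c) * (1 + C))) := by
  have hC0 : 0 ≤ C := le_trans (by positivity) hC
  have hd0 : 0 < (1 + clo) * (1 + clo * vM) := by positivity
  have hn0 : 0 ≤ (1 + clo) * (1 + clo * vM) - clo ^ 2 * (1 + vM) := by
    have : clo < 1 := lt_of_le_of_lt hc hc1
    nlinarith [mul_nonneg hclo hv]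
  have hEM0 : 0 ≤ EM := le_trans hE0 hE
  -- `c (c+C) d0 ≥ clo² (1+vM) (1+c)(1+C)`
  have h1 : clo ^ 2 * (1 + vM) * ((1 + c) * (1 + C)) ≤ c * (c + C) * ((1 + clo) * (1 + clo * vM)) := by
    have s1 : c * (1 + vM) * (1 + C) ≤ (c + C) * (1 + vM * c) := by
      nlinarith [mul_nonneg (show 0 ≤ 1 - c by linarith) (show 0 ≤ C - vM * c by linarith)]
    have s2 : clo ^ 2 * ((1 + c) * (1 + c * vM)) ≤ c ^ 2 * ((1 + clo) * (1 + clo * vM)) := by
      have : c ^ 2 * ((1 + clo) * (1 + clo * vM)) - clo ^ 2 * ((1 + c) * (1 + c * vM)) =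
        (c - clo) * ((c + clo) + c * clo * (1 + vM)) := by ring
      have h3 : 0 ≤ (c - clo) * ((c + clo) + c * clo * (1 + vM)) :=
        mul_nonneg (by linarith) (by positivity)
      linarith
    have hp : 0 < 1 + vM * c := by positivity
    have s3 : (clo ^ 2 * (1 + vM) * ((1 + c) * (1 + C))) * (1 + vM * c) ≤
        (c * (c + C) * ((1 + clo) * (1 + clo * vM))) * (1 + vM * c) := by
      calc (clo ^ 2 * (1 + vM) * ((1 + c) * (1 + C))) * (1 + vM * c)
          = (1 + vM) * (1 + C) * (clo ^ 2 * ((1 + c) * (1 + c * vM))) := by ring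
        _ ≤ (1 + vM) * (1 + C) * (c ^ 2 * ((1 + clo) * (1 + clo * vM))) :=
            mul_le_mul_of_nonneg_left s2 (by positivity)
        _ = c * ((1 + clo) * (1 + clo * vM)) * (c * (1 + vM) * (1 + C)) := by ring
        _ ≤ c * ((1 + clo) * (1 + clo * vM)) * ((c + C) * (1 + vM * c)) :=
            mul_le_mul_of_nonneg_left s1 (by positivity)
        _ = (c * (c + C) * ((1 + clo) * (1 + clo * vM))) * (1 + vM * c) := by ring
    exact le_of_mul_le_mul_right s3 hp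
  have h2 : ((1 + c) * (1 + C) - c * (c + C)) * ((1 + clo) * (1 + clo * vM)) ≤
      ((1 + clo) * (1 + clo * vM) - clo ^ 2 * (1 + vM)) * ((1 + c) * (1 + C)) := by nlinarith
  have hN0 : 0 ≤ (1 + c) * (1 + C) - c * (c + C) := by nlinarith
  have hcv : c ^ 2 * (1 + vM) ^ 2 ≤ (c + C) ^ 2 := by
    have : 0 ≤ c * (1 + vM) := by positivity
    have h5 : c * (1 + vM) ≤ c + C := by linarith
    calc c ^ 2 * (1 + vM) ^ 2 = (c * (1 + vM)) ^ 2 := by ring
      _ ≤ (c + C) ^ 2 := pow_le_pow_left₀ this h5 2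
  have hXM0 : 0 ≤ XM := by
    by_contra hneg
    rw [not_le] at hneg
    have a1 : XM * ((1 + vM) ^ 2 * ((1 + clo) * (1 + clo * vM))) < 0 :=
      mul_neg_of_neg_of_pos hneg (by positivity)
    have a2 : 0 ≤ (2 + EM) * ((1 + clo) * (1 + clo * vM) - clo ^ 2 * (1 + vM)) :=
      mul_nonneg (by linarith) hn0
    linarith
  have hfin : ((2 + E) * c ^ 2 * ((1 + c) * (1 + C) - c * (c + C))) * ((1 + clo) * (1 + clo * vM)) ≤
      (XM * ((c + C) ^ 2 * ((1 + c) * (1 + C)))) * ((1 + clo) * (1 + clo * vM)) := by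
    calc ((2 + E) * c ^ 2 * ((1 + c) * (1 + C) - c * (c + C))) * ((1 + clo) * (1 + clo * vM))
        = (2 + E) * c ^ 2 * (((1 + c) * (1 + C) - c * (c + C)) * ((1 + clo) * (1 + clo * vM))) := by ring
      _ ≤ (2 + EM) * c ^ 2 * (((1 + clo) * (1 + clo * vM) - clo ^ 2 * (1 + vM)) * ((1 + c) * (1 + C))) := by
          refine mul_le_mul (mul_le_mul_of_nonneg_right (by linarith) (sq_nonneg c)) h2
            (mul_nonneg hN0 hd0.le) (by positivity)
      _ = ((2 + EM) * ((1 + clo) * (1 + clo * vM) - clo ^ 2 * (1 + vM))) * (c ^ 2 * ((1 + c) * (1 + C))) := by ring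
      _ ≤ (XM * ((1 + vM) ^ 2 * ((1 + clo) * (1 + clo * vM)))) * (c ^ 2 * ((1 + c) * (1 + C))) :=
          mul_le_mul_of_nonneg_right hXM (by positivity)
      _ = (XM * ((1 + c) * (1 + C)) * ((1 + clo) * (1 + clo * vM))) * (c ^ 2 * (1 + vM) ^ 2) := by ring
      _ ≤ (XM * ((1 + c) * (1 + C)) * ((1 + clo) * (1 + clo * vM))) * (c + C) ^ 2 :=
          mul_le_mul_of_nonneg_left hcv (by positivity)
      _ = (XM * ((c + C) ^ 2 * ((1 + c) * (1 + C)))) * ((1 + clo) * (1 + clo * vM)) := by ring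
  exact le_of_mul_le_mul_right hfin hd0

/-! ### boxes -/

/-- the numerical side conditions of a box -/
structure Cst (clo chi vM EM XM tM eM q aL D B j0 x0 c0 c1 : ℝ) : Prop where
  clo0 : 0 ≤ clo
  v0 : 0 ≤ vM
  kX : (2 + EM) * ((1 + clo) * (1 + clo * vM) - clo ^ 2 * (1 + vM)) ≤
      XM * ((1 + vM) ^ 2 * ((1 + clo) * (1 + clo * vM)))
  kq1 : (q - 2) * (1 - clo ^ 2) ≤ (27 / 40 - XM) * clo ^ 2
  kq2 : (q - 2) * (1 - chi ^ 2) ≤ (27 / 40 - XM) * chi ^ 2
  ka : 2 * chi ^ 2 ≤ (2 - aL) * (1 + chi)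
  ka2 : aL ≤ 2
  kD : D ≤ aL - 27 / 16 * eM * (c0 + c1) - 3 / 14
  kB : B ≤ 3 / 14 + 27 / 16 * eM * c0
  kc0 : 0 ≤ c0
  kc1 : 0 ≤ c1
  hq : 0 < q
  hB : 0 ≤ B
  hj0 : 0 < j0
  hQ0 : 1 < 4 * q * D
  hQ1 : (1 + 2 * j0) ^ 2 < 4 * q * (1 - j0) * (D + B * j0)
  hm : 2 * q * tM * (1 - j0) ≤ j0 + 2 * j0 ^ 2
  hk : 0 < (D - 2 * tM + 3 * B * x0) + B * (j0 - x0)
  hd : (-(q * tM ^ 2) - tM * (1 + 4 * x0) + 2 * D * x0 + 3 * B * x0 ^ 2) ^ 2 <
      4 * ((D - 2 * tM + 3 * B * x0) + B * (j0 - x0)) *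
        (q * tM ^ 2 * (1 - x0) - tM * (x0 + 2 * x0 ^ 2) + D * x0 ^ 2 + B * x0 ^ 3)

section box

variable {clo chi vM EM XM tM eM q aL D B j0 x0 c0 c1 : ℝ}

lemma box0 (k : Cst clo chi vM EM XM tM eM q aL D B j0 x0 c0 c1) {lm s l j : ℝ}
    (hs : s ∈ Ioo (0 : ℝ) 1) (hl : 0 < l) (hT : s * Real.exp l ≤ 1) (hj : 0 < j) (hj1 : j < 1)
    (hc : clo ≤ cc s) (hc' : cc s ≤ chi)
    (htan : hm 5 (-j) ≤ c0 * j ^ 2 + c1 * (j ^ 2 / (1 - j)))
    (hC : vM * cc s ≤ cc (s * Real.exp l)) (hE : Real.exp (2 * l) - 1 ≤ EM)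
    (ht : Y s * l ≤ tM) (he : Real.exp (l / 5) ≤ eM) : 0 < PP 5 (27 / 16) 3 1 0 lm s l (-j) := by
  have hcp := cc_pos' hs
  have hc2 := cc_sq' hs
  have hc1 : cc s < 1 := by nlinarith [pow_pos hs.1 2]
  have hE0 : 0 ≤ Real.exp (2 * l) - 1 := by
    have := Real.add_one_le_exp (2 * l); linarith
  have hY : Y s = (1 - cc s ^ 2) / cc s ^ 2 := by unfold Y; rw [hc2]; ring
  have hYp : 0 < Y s := by rw [hY]; exact div_pos (by nlinarith) (by positivity)
  have ha : aL ≤ aq s := by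
    unfold aq
    rw [le_sub_comm, div_le_iff₀ (by linarith)]
    have h1 : 2 * cc s ^ 2 * (1 + chi) ≤ 2 * chi ^ 2 * (1 + cc s) := by
      have e : 2 * chi ^ 2 * (1 + cc s) - 2 * cc s ^ 2 * (1 + chi) =
        2 * (chi - cc s) * (chi + cc s + chi * cc s) := by ring
      have h0 : 0 ≤ 2 * (chi - cc s) * (chi + cc s + chi * cc s) := by
        have h2 : 0 ≤ chi := le_trans hcp.le hc'
        have h3 : 0 ≤ chi - cc s := by linarith
        positivity
      linarith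
    have h2 : 0 < 1 + chi := by linarith
    have h3 := mul_le_mul_of_nonneg_right k.ka (show 0 ≤ 1 + cc s by linarith)
    have h4 : (2 * cc s ^ 2) * (1 + chi) ≤ ((2 - aL) * (1 + cc s)) * (1 + chi) := by linarith
    exact le_of_mul_le_mul_right h4 h2
  have hX : (1 + Real.exp (2 * l)) * cc s ^ 2 *
      ((1 + cc s) * (1 + cc (s * Real.exp l)) - cc s * (cc s + cc (s * Real.exp l))) ≤
      XM * ((cc s + cc (s * Real.exp l)) ^ 2 * ((1 + cc s) * (1 + cc (s * Real.exp l)))) := by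
    have h := X_bound hc k.clo0 hcp hc1 k.v0 hC hE hE0 k.kX
    have e : 2 + (Real.exp (2 * l) - 1) = 1 + Real.exp (2 * l) := by ring
    rwa [e] at h
  have hcR := cR_lower hs hl hT hX
  have hq : q * (Y s * l) ^ 2 ≤ 27 / 40 * (Y s * l ^ 2) + 2 * (Y s * l) ^ 2 + cR s l := by
    have hlin : (q - 2) * (1 - cc s ^ 2) ≤ (27 / 40 - XM) * cc s ^ 2 := by
      have h1 := k.kq1
      have h2 := k.kq2
      have b1 : clo ^ 2 ≤ cc s ^ 2 := pow_le_pow_left₀ k.clo0 hc 2
      have b2 : cc s ^ 2 ≤ chi ^ 2 := pow_le_pow_left₀ hcp.le hc' 2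
      rcases le_total 0 (27 / 40 - XM + (q - 2)) with h | h
      · nlinarith [mul_le_mul_of_nonneg_left b1 h]
      · nlinarith [mul_le_mul_of_nonpos_left b2 h]
    have hYq : (q - 2) * Y s ≤ 27 / 40 - XM := by
      rw [hY, ← mul_div_assoc, div_le_iff₀ (by positivity)]
      exact hlin
    have h3 := mul_le_mul_of_nonneg_right hYq (show 0 ≤ Y s * l ^ 2 by positivity)
    nlinarith
  exact core hs hl hj hj1 htan k.kc0 k.kc1 ha he hq k.kD k.kB
    (box_pos k.hq k.hB k.hj0 k.hQ0 k.hQ1 k.hm k.hk k.hd (mul_pos hYp hl) ht hj hj1)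

lemma exp_div5_le {l : ℝ} {eM : ℝ} (he : 0 ≤ eM) (h : Real.exp l ≤ eM ^ 5) : Real.exp (l / 5) ≤ eM := by
  have e : Real.exp (l / 5) ^ 5 = Real.exp l := by
    rw [← Real.exp_nat_mul]; congr 1; push_cast; ring
  exact le_of_pow_le_pow_left₀ (n := 5) (by norm_num) he (by rw [e]; exact h)

lemma sq_cC {s l : ℝ} (hs : s ∈ Ioo (0 : ℝ) 1) (hT : s * Real.exp l ≤ 1) :
    cc (s * Real.exp l) ^ 2 = cc s ^ 2 - (1 - cc s ^ 2) * (Real.exp (2 * l) - 1) := by
  have hT0 : 0 < s * Real.exp l := mul_pos hs.1 (Real.exp_pos _)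
  have hEE : Real.exp l ^ 2 = Real.exp (2 * l) := by rw [← Real.exp_nat_mul]; norm_num
  rw [cc_sq ⟨by linarith, hT⟩, mul_pow, hEE, cc_sq' hs]
  ring

/-- boxes with `exp l ≤ U` -/
lemma box1 (k : Cst clo chi vM EM XM tM eM q aL D B j0 x0 c0 c1) {U lM : ℝ}
    (hlM : 0 ≤ lM) (k1 : U ^ 2 - 1 ≤ EM) (k2 : EM * (1 - clo ^ 2) ≤ (1 - vM ^ 2) * clo ^ 2)
    (k3 : U ≤ 1 + lM + lM ^ 2 / 2 + lM ^ 3 / 6) (k4 : lM * (1 - clo ^ 2) ≤ tM * clo ^ 2)
    (k5 : U ≤ eM ^ 5) (k6 : 0 ≤ eM) (k7 : 0 < clo)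
    {lm s l j : ℝ}
    (hs : s ∈ Ioo (0 : ℝ) 1) (hl : 0 < l) (hT : s * Real.exp l ≤ 1) (hj : 0 < j) (hj1 : j < 1)
    (hc : clo ≤ cc s) (hc' : cc s ≤ chi)
    (htan : hm 5 (-j) ≤ c0 * j ^ 2 + c1 * (j ^ 2 / (1 - j))) (hU : Real.exp l ≤ U) :
    0 < PP 5 (27 / 16) 3 1 0 lm s l (-j) := by
  have hcp := cc_pos' hs
  have hc2 := cc_sq' hs
  have hc1 : cc s < 1 := by nlinarith [pow_pos hs.1 2]
  have hEE : Real.exp l ^ 2 = Real.exp (2 * l) := by rw [← Real.exp_nat_mul]; norm_num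
  have hE : Real.exp (2 * l) - 1 ≤ EM := by
    rw [← hEE]
    have := pow_le_pow_left₀ (Real.exp_pos l).le hU 2
    linarith
  have hE0 : 0 ≤ Real.exp (2 * l) - 1 := by
    have := Real.add_one_le_exp (2 * l); linarith
  have hl2 : l ≤ lM := by
    by_contra hneg
    rw [not_le] at hneg
    have h1 : Real.exp lM < Real.exp l := Real.exp_lt_exp.2 hneg
    have h2 : 1 + lM + lM ^ 2 / 2 + lM ^ 3 / 6 ≤ Real.exp lM := by
      have := Real.sum_le_exp_of_nonneg hlM 4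
      simp [Finset.sum_range_succ, Nat.factorial] at this
      linarith
    linarith
  refine box0 k hs hl hT hj hj1 hc hc' htan ?_ hE ?_ (exp_div5_le k6 (hU.trans k5))
  · have h1 := sq_cC hs hT
    have h2 : (vM * cc s) ^ 2 ≤ cc (s * Real.exp l) ^ 2 := by
      rw [h1, mul_pow]
      have b1 : clo ^ 2 ≤ cc s ^ 2 := pow_le_pow_left₀ k.clo0 hc 2
      have h3 : (1 - cc s ^ 2) * (Real.exp (2 * l) - 1) ≤ (1 - cc s ^ 2) * EM :=
        mul_le_mul_of_nonneg_left hE (by nlinarith)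
      have hEM0 : 0 ≤ EM := hE0.trans hE
      have hv2 : 0 ≤ 1 - vM ^ 2 := by
        by_contra hneg
        rw [not_le] at hneg
        have a1 : (1 - vM ^ 2) * clo ^ 2 < 0 := mul_neg_of_neg_of_pos hneg (by positivity)
        have a2 : 0 ≤ EM * (1 - clo ^ 2) := mul_nonneg hEM0 (by nlinarith)
        linarith
      have h4 := mul_le_mul_of_nonneg_left b1 hv2
      have h5 := mul_le_mul_of_nonneg_left b1 hEM0
      nlinarith
    exact le_of_pow_le_pow_left₀ (n := 2) (by norm_num) (cc_nonneg _) h2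
  · have hY : Y s = (1 - cc s ^ 2) / cc s ^ 2 := by unfold Y; rw [hc2]; ring
    rw [hY, div_mul_eq_mul_div, div_le_iff₀ (by positivity)]
    have b1 : clo ^ 2 ≤ cc s ^ 2 := pow_le_pow_left₀ k.clo0 hc 2
    have hs2 : 0 ≤ 1 - cc s ^ 2 := by nlinarith
    have htM : 0 ≤ tM := by
      by_contra hneg
      rw [not_le] at hneg
      have a1 : tM * clo ^ 2 < 0 := mul_neg_of_neg_of_pos hneg (by positivity)
      have a2 : 0 ≤ lM * (1 - clo ^ 2) := mul_nonneg hlM (by nlinarith)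
      linarith
    have h3 : (1 - cc s ^ 2) * l ≤ (1 - cc s ^ 2) * lM := mul_le_mul_of_nonneg_left hl2 hs2
    have h4 := mul_le_mul_of_nonneg_left b1 htM
    have h5 := mul_le_mul_of_nonneg_left b1 hlM
    nlinarith

/-- boxes with `s exp l ≤ T` -/
lemma box2 (k : Cst clo chi vM EM XM tM eM q aL D B j0 x0 c0 c1) {T : ℝ} (hT1 : T ≤ 1)
    (k1 : vM ^ 2 * chi ^ 2 ≤ 1 - T ^ 2) (k2 : (1 - vM ^ 2) * chi ^ 2 ≤ EM * (1 - chi ^ 2))
    (k3 : (1 - vM ^ 2) * (1 - clo ^ 2) ≤ 2 * tM * (1 - clo ^ 2) + 2 * tM ^ 2 * clo ^ 2)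
    (k4 : 1 + EM ≤ eM ^ 10) (k5 : 0 ≤ eM) (k6 : chi < 1) (k7 : 0 ≤ tM) (k8 : vM ≤ 1)
    {lm s l j : ℝ}
    (hs : s ∈ Ioo (0 : ℝ) 1) (hl : 0 < l) (hj : 0 < j) (hj1 : j < 1)
    (hc : clo ≤ cc s) (hc' : cc s ≤ chi)
    (htan : hm 5 (-j) ≤ c0 * j ^ 2 + c1 * (j ^ 2 / (1 - j))) (hT : s * Real.exp l ≤ T) :
    0 < PP 5 (27 / 16) 3 1 0 lm s l (-j) := by
  have hcp := cc_pos' hs
  have hc2 := cc_sq' hs
  have hT' : s * Real.exp l ≤ 1 := hT.trans hT1
  have hTp : 0 < s * Real.exp l := mul_pos hs.1 (Real.exp_pos _)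
  have h1 := sq_cC hs hT'
  have hC2 : cc (s * Real.exp l) ^ 2 = 1 - (s * Real.exp l) ^ 2 := cc_sq ⟨by linarith, hT'⟩
  have hs2 : 0 < 1 - cc s ^ 2 := by rw [hc2]; have := hs.1; nlinarith [pow_pos hs.1 2]
  have b2 : cc s ^ 2 ≤ chi ^ 2 := pow_le_pow_left₀ hcp.le hc' 2
  have b1 : clo ^ 2 ≤ cc s ^ 2 := pow_le_pow_left₀ k.clo0 hc 2
  have hTT : (s * Real.exp l) ^ 2 ≤ T ^ 2 := pow_le_pow_left₀ hTp.le hT 2
  have hv2 : 0 ≤ 1 - vM ^ 2 := by nlinarith [k.v0]
  have hvc : vM ^ 2 * cc s ^ 2 ≤ cc (s * Real.exp l) ^ 2 := by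
    have := mul_le_mul_of_nonneg_left b2 (sq_nonneg vM)
    linarith
  have hsE : (1 - cc s ^ 2) * (Real.exp (2 * l) - 1) ≤ (1 - vM ^ 2) * cc s ^ 2 := by linarith
  have hE : Real.exp (2 * l) - 1 ≤ EM := by
    have h3 : (1 - vM ^ 2) * cc s ^ 2 ≤ (1 - vM ^ 2) * chi ^ 2 := mul_le_mul_of_nonneg_left b2 hv2
    have hEM0 : 0 ≤ EM := by
      by_contra hneg
      rw [not_le] at hneg
      have hchi0 : 0 < chi := lt_of_lt_of_le hcp hc'
      have a1 : EM * (1 - chi ^ 2) < 0 := mul_neg_of_neg_of_pos hneg (by nlinarith)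
      have a2 : 0 ≤ (1 - vM ^ 2) * chi ^ 2 := by positivity
      linarith
    have h4 : EM * (1 - chi ^ 2) ≤ EM * (1 - cc s ^ 2) := mul_le_mul_of_nonneg_left (by linarith) hEM0
    have h5 : (1 - cc s ^ 2) * (Real.exp (2 * l) - 1) ≤ (1 - cc s ^ 2) * EM := by linarith
    exact le_of_mul_le_mul_left h5 hs2
  refine box0 k hs hl hT' hj hj1 hc hc' htan ?_ hE ?_ ?_
  · refine le_of_pow_le_pow_left₀ (n := 2) (by norm_num) (cc_nonneg _) ?_
    rw [mul_pow]; exact hvc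
  · have hY : Y s = (1 - cc s ^ 2) / cc s ^ 2 := by unfold Y; rw [hc2]; ring
    have hquad := Real.quadratic_le_exp_of_nonneg (x := 2 * l) (by positivity)
    by_contra hneg
    rw [not_le, hY, div_mul_eq_mul_div, lt_div_iff₀ (by positivity)] at hneg
    -- `tM c² < (1-c²) l`
    have h3 : (1 - cc s ^ 2) * (2 * l + 2 * l ^ 2) ≤ (1 - vM ^ 2) * cc s ^ 2 := by
      refine le_trans (mul_le_mul_of_nonneg_left ?_ hs2.le) hsE
      nlinarith
    -- multiply by `(1-c²)`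
    have h4 : (1 - cc s ^ 2) * ((1 - cc s ^ 2) * (2 * l + 2 * l ^ 2)) ≤
        (1 - cc s ^ 2) * ((1 - vM ^ 2) * cc s ^ 2) := mul_le_mul_of_nonneg_left h3 hs2.le
    have h5 : 0 ≤ tM * cc s ^ 2 := by positivity
    have h6 : (tM * cc s ^ 2) ^ 2 < ((1 - cc s ^ 2) * l) ^ 2 := pow_lt_pow_left₀ hneg h5 (by norm_num)
    have h7 : 2 * (1 - cc s ^ 2) * (tM * cc s ^ 2) + 2 * (tM * cc s ^ 2) ^ 2 <
        (1 - cc s ^ 2) * ((1 - vM ^ 2) * cc s ^ 2) := by
      have a1 : 2 * (1 - cc s ^ 2) * (tM * cc s ^ 2) ≤ 2 * (1 - cc s ^ 2) * ((1 - cc s ^ 2) * l) :=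
        mul_le_mul_of_nonneg_left hneg.le (by linarith)
      have a2 : (1 - cc s ^ 2) * ((1 - cc s ^ 2) * (2 * l + 2 * l ^ 2)) =
        2 * (1 - cc s ^ 2) * ((1 - cc s ^ 2) * l) + 2 * ((1 - cc s ^ 2) * l) ^ 2 := by ring
      linarith
    have h8 : 2 * (1 - cc s ^ 2) * tM + 2 * tM ^ 2 * cc s ^ 2 < (1 - cc s ^ 2) * (1 - vM ^ 2) := by
      have hcp2 : 0 < cc s ^ 2 := by positivity
      have a3 : (2 * (1 - cc s ^ 2) * tM + 2 * tM ^ 2 * cc s ^ 2) * cc s ^ 2 <
        ((1 - cc s ^ 2) * (1 - vM ^ 2)) * cc s ^ 2 := by linarith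
      exact lt_of_mul_lt_mul_right a3 hcp2.le
    -- contradiction by linear interpolation in `c²`
    have hclo1 : clo ^ 2 ≤ cc s ^ 2 := b1
    have h9 : (1 - vM ^ 2) * (1 - cc s ^ 2) ≤ 2 * tM * (1 - cc s ^ 2) + 2 * tM ^ 2 * cc s ^ 2 := by
      have a4 := k.clo0
      rcases le_total (1 - vM ^ 2) (2 * tM) with hh | hh
      · have := mul_le_mul_of_nonneg_right hh hs2.le
        have : 0 ≤ 2 * tM ^ 2 * cc s ^ 2 := by positivity
        linarith
      · have a5 : 0 ≤ (1 - vM ^ 2 - 2 * tM) * (cc s ^ 2 - clo ^ 2) := mul_nonneg (by linarith) (by linarith)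
        have a6 : 0 ≤ 2 * tM ^ 2 * (cc s ^ 2 - clo ^ 2) := by
          have : 0 ≤ cc s ^ 2 - clo ^ 2 := by linarith
          positivity
        linarith
    linarith
  · refine exp_div5_le k5 ?_
    have hEE : Real.exp l ^ 2 = Real.exp (2 * l) := by rw [← Real.exp_nat_mul]; norm_num
    have h10 : Real.exp l ^ 2 ≤ (eM ^ 5) ^ 2 := by
      rw [hEE, ← pow_mul]; norm_num; linarith
    exact le_of_pow_le_pow_left₀ (n := 2) (by norm_num) (by positivity) h10

end box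

/-! ### the table -/

lemma bx1 : Cst (241/250) 1 (949/1000) (517/400) (2247/5000) (317/10000) (5433/5000) (49651/10000) 1 (261/5000) (1269/2500) (187/1000) (2/5) (4/25) (6/25) := by
  constructor <;> norm_num

lemma bx2 : Cst (459/500) (241/250) (893/1000) (10817/10000) (467/1000) (343/5000) (10761/10000) (6229/2000) (1317/1250) (1129/10000) (631/1250) (57/250) (7/25) (4/25) (6/25) := by
  constructor <;> norm_num

lemma bx3 : Cst (859/1000) (459/500) (419/500) (2093/2500) (1209/2500) (541/5000) (2657/2500) (6347/2500) (2803/2500) (759/5000) (6581/10000) (53/200) (8/25) (99/400) (347/2000) := by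
  constructor <;> norm_num

lemma bx4 : Cst (421/500) (859/1000) (877/1000) (351/625) (17/40) (229/2500) (1307/1250) (2609/1000) (12061/10000) (143/500) (993/2000) (61/250) (61/100) (4/25) (6/25) := by
  constructor <;> norm_num

lemma bx5 : Cst (757/1000) (421/500) (157/200) (9349/10000) (731/1250) (1583/10000) (10683/10000) (2121/1000) (6151/5000) (2569/10000) (1651/2500) (297/1000) (9/25) (99/400) (347/2000) := by
  constructor <;> norm_num

lemma bx6 : Cst (337/500) (757/1000) (341/500) (359/500) (6603/10000) (2253/10000) (10557/10000) (10061/5000) (3369/2500) (3833/10000) (819/1250) (349/1000) (9/20) (99/400) (347/2000) := by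
  constructor <;> norm_num

lemma bx7 : Cst (61/100) (337/500) (73/125) (2743/5000) (927/1250) (2823/10000) (653/625) (3889/2000) (3643/2500) (2503/5000) (3253/5000) (48/125) (13/25) (99/400) (347/2000) := by
  constructor <;> norm_num

lemma bx8 : Cst (561/1000) (61/100) (1/2) (889/2000) (8299/10000) (1631/5000) (83/80) (9541/5000) (15377/10000) (507/1000) (1607/2000) (407/1000) (27/50) (1683/5000) (1297/10000) := by
  constructor <;> norm_num

lemma bx9 : Cst (523/1000) (561/1000) (217/500) (233/625) (9117/10000) (3577/10000) (5161/5000) (1182/625) (15967/10000) (5701/10000) (1601/2000) (423/1000) (57/100) (1683/5000) (1297/10000) := by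
  constructor <;> norm_num

lemma bx10 : Cst (493/1000) (523/1000) (191/500) (201/625) (1971/2000) (1903/5000) (10283/10000) (1883/1000) (2051/1250) (6173/10000) (7983/10000) (87/200) (59/100) (1683/5000) (1297/10000) := by
  constructor <;> norm_num

lemma bx11 : Cst (117/250) (493/1000) (17/50) (71/250) (10527/10000) (3979/10000) (5127/5000) (18787/10000) (2093/1250) (1633/2500) (7967/10000) (443/1000) (61/100) (1683/5000) (1297/10000) := by
  constructor <;> norm_num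

lemma bx12 : Cst (447/1000) (117/250) (61/200) (159/625) (11139/10000) (4113/10000) (1023/1000) (18769/10000) (2127/1250) (6823/10000) (7953/10000) (449/1000) (31/50) (1683/5000) (1297/10000) := by
  constructor <;> norm_num

lemma bx13 : Cst (427/1000) (447/1000) (273/1000) (2311/10000) (11763/10000) (4229/10000) (10211/10000) (4687/2500) (8619/5000) (353/500) (3971/5000) (227/500) (63/100) (1683/5000) (1297/10000) := by
  constructor <;> norm_num

lemma bx14 : Cst (51/125) (427/1000) (243/1000) (2099/10000) (12391/10000) (4331/10000) (10193/10000) (9371/5000) (4361/2500) (91/125) (1983/2500) (459/1000) (16/25) (1683/5000) (1297/10000) := by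
  constructor <;> norm_num

lemma bx15 : Cst (97/250) (51/125) (213/1000) (1907/10000) (327/250) (2213/5000) (10177/10000) (3747/2000) (3527/2000) (1871/2500) (7923/10000) (463/1000) (13/20) (1683/5000) (1297/10000) := by
  constructor <;> norm_num

lemma bx16 : Cst (183/500) (97/250) (91/500) (857/5000) (13853/10000) (4519/10000) (127/125) (18741/10000) (1783/1000) (1923/2500) (7913/10000) (467/1000) (13/20) (1683/5000) (1297/10000) := by
  constructor <;> norm_num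

lemma bx17 : Cst (169/500) (183/500) (18/125) (303/2000) (14909/10000) (4621/10000) (10143/10000) (9369/5000) (9019/5000) (7913/10000) (494/625) (59/125) (33/50) (1683/5000) (1297/10000) := by
  constructor <;> norm_num

lemma bx18 : Cst (59/200) (169/500) (93/1000) (1279/10000) (16539/10000) (4743/10000) (5061/5000) (18737/10000) (4573/2500) (1023/1250) (1973/2500) (477/1000) (67/100) (1683/5000) (1297/10000) := by
  constructor <;> norm_num

lemma bx19 : Cst (19/100) (59/200) 0 (477/5000) (20319/10000) (491/1000) (2523/2500) (9353/5000) (3731/2000) (857/1000) (63/80) (121/250) (69/100) (1683/5000) (1297/10000) := by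
  constructor <;> norm_num

lemma bx20 : Cst 0 (19/100) 0 (3/80) (163/80) (5001/10000) (10037/10000) (19489/10000) (19393/10000) (10119/10000) (3167/5000) (99/200) (77/100) (99/400) (347/2000) := by
  constructor <;> norm_num

lemma T_of {s l clo shi T : ℝ} (hs : s ∈ Ioo (0 : ℝ) 1) (hc : clo ≤ cc s) (hclo : 0 ≤ clo)
    (hshi : 0 ≤ shi) (h1 : 1 - clo ^ 2 ≤ shi ^ 2) (hT : 3 / 4 ≤ T)
    (k : (2 - T) ^ 6 ≤ 1 + 63 * clo ^ 7 / (3437 / 1000 * shi + clo)) (hx : s * Real.exp l ≤ 1)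
    (h2 : s * Real.exp l ≤ 3 / 4 ∨ 1 + 63 * cc s ^ 7 / (3437 / 1000 * s + cc s) ≤ (2 - s * Real.exp l) ^ 6) :
    s * Real.exp l ≤ T := by
  rcases h2 with h2 | h2
  · exact h2.trans hT
  · by_contra hneg
    rw [not_le] at hneg
    have hcp := cc_pos' hs
    have hc2 := cc_sq' hs
    have hsle : s ≤ shi := by
      have : s ^ 2 ≤ shi ^ 2 := by
        have := pow_le_pow_left₀ hclo hc 2
        linarith
      exact le_of_pow_le_pow_left₀ (n := 2) (by norm_num) hshi this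
    have hs0 := hs.1
    have hshi0 : 0 < shi := lt_of_lt_of_le hs0 hsle
    have h3 : (2 - s * Real.exp l) ^ 6 < (2 - T) ^ 6 := pow_lt_pow_left₀ (by linarith) (by linarith) (by norm_num)
    have h4 : 63 * clo ^ 7 / (3437 / 1000 * shi + clo) ≤ 63 * cc s ^ 7 / (3437 / 1000 * s + cc s) := by
      rw [div_le_div_iff₀ (by positivity) (by positivity)]
      have a1 : clo ^ 7 ≤ cc s ^ 7 := pow_le_pow_left₀ hclo hc 7
      have a2 : clo ^ 6 ≤ cc s ^ 6 := pow_le_pow_left₀ hclo hc 6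
      have a3 : clo ^ 7 * s ≤ cc s ^ 7 * shi := mul_le_mul a1 hsle hs0.le (by positivity)
      have a4 : clo ^ 7 * cc s ≤ cc s ^ 7 * clo := by
        have := mul_le_mul_of_nonneg_left a2 (show 0 ≤ clo * cc s by positivity)
        calc clo ^ 7 * cc s = clo * cc s * clo ^ 6 := by ring
          _ ≤ clo * cc s * cc s ^ 6 := this
          _ = cc s ^ 7 * clo := by ring
      nlinarith
    linarith

/-- **Block B6, dimension `N = 6`.** -/
theorem B6six {lm s l k : ℝ} (hs : s ∈ Ioo (0 : ℝ) 1) (hl : 0 < l) (hk : -1 < k) (hk0 : k < 0)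
    (hT : s * Real.exp l ≤ 1)
    (h1 : s ≤ 27 / 50 → Real.exp l ≤ 15141 / 10000 * (1 - 2 * s ^ 2 / 3))
    (h2 : s * Real.exp l ≤ 3 / 4 ∨
      1 + 63 * cc s ^ 7 / (3437 / 1000 * s + cc s) ≤ (2 - s * Real.exp l) ^ 6) :
    0 < PP 5 (27 / 16) 3 1 0 lm s l k := by
  obtain ⟨j, rfl⟩ : ∃ j, k = -j := ⟨-k, by ring⟩
  have hj : 0 < j := by linarith
  have hj1 : j < 1 := by linarith
  have hc2 := cc_sq' hs
  have hcp := cc_pos' hs
  have hc1 : cc s ≤ 1 := by nlinarith [sq_nonneg s]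
  have hU : ∀ chi U : ℝ, 421 / 500 ≤ cc s → cc s ≤ chi → 15141 / 10000 * (1 + 2 * chi ^ 2) / 3 ≤ U →
      Real.exp l ≤ U := by
    intro chi U ha hb hU
    have hs' : s ≤ 27 / 50 := by
      have : s ^ 2 ≤ (27 / 50 : ℝ) ^ 2 := by nlinarith
      exact le_of_pow_le_pow_left₀ (n := 2) (by norm_num) (by norm_num) this
    have h3 := h1 hs'
    have h4 : cc s ^ 2 ≤ chi ^ 2 := pow_le_pow_left₀ hcp.le hb 2
    have h5 : s ^ 2 = 1 - cc s ^ 2 := by linarith
    rw [h5] at h3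
    refine h3.trans (le_trans ?_ hU)
    linarith

  rcases le_total (241/250) (cc s) with h11 | h11
  · exact box1 bx1 (U := (15141/10000)) (lM := (2079/5000)) (by norm_num) (by norm_num) (by norm_num) (by norm_num)
      (by norm_num) (by norm_num) (by norm_num) (by norm_num) hs hl hT hj hj1 h11 hc1 (tanA hj hj1)
      (hU 1 _ (le_trans (by norm_num) h11) hc1 (by norm_num))
  rcases le_total (459/500) (cc s) with h12 | h12
  · exact box1 bx2 (U := (3607/2500)) (lM := (459/1250)) (by norm_num) (by norm_num) (by norm_num) (by norm_num)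
      (by norm_num) (by norm_num) (by norm_num) (by norm_num) hs hl hT hj hj1 h12 h11 (tanA hj hj1)
      (hU (241/250) _ (le_trans (by norm_num) h12) h11 (by norm_num))
  rcases le_total (859/1000) (cc s) with h13 | h13
  · exact box1 bx3 (U := (6777/5000)) (lM := (761/2500)) (by norm_num) (by norm_num) (by norm_num) (by norm_num)
      (by norm_num) (by norm_num) (by norm_num) (by norm_num) hs hl hT hj hj1 h13 h12 (tanB hj hj1)
      (hU (459/500) _ (le_trans (by norm_num) h13) h12 (by norm_num))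
  rcases le_total (421/500) (cc s) with h14 | h14
  · exact box1 bx4 (U := (781/625)) (lM := (223/1000)) (by norm_num) (by norm_num) (by norm_num) (by norm_num)
      (by norm_num) (by norm_num) (by norm_num) (by norm_num) hs hl hT hj hj1 h14 h13 (tanA hj hj1)
      (hU (859/1000) _ (le_trans (by norm_num) h14) h13 (by norm_num))
  rcases le_total (757/1000) (cc s) with h15 | h15
  · exact box2 bx5 (T := (3/4)) (by norm_num) (by norm_num) (by norm_num) (by norm_num)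
      (by norm_num) (by norm_num) (by norm_num) (by norm_num) (by norm_num) hs hl hj hj1 h15 h14 (tanB hj hj1)
      (T_of (clo := (757/1000)) (shi := (32671/50000)) hs h15 (by norm_num) (by norm_num) (by norm_num) (by norm_num)
      (by norm_num) hT h2)
  rcases le_total (337/500) (cc s) with h16 | h16
  · exact box2 bx6 (T := (8563/10000)) (by norm_num) (by norm_num) (by norm_num) (by norm_num)
      (by norm_num) (by norm_num) (by norm_num) (by norm_num) (by norm_num) hs hl hj hj1 h16 h15 (tanB hj hj1)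
      (T_of (clo := (337/500)) (shi := (36937/50000)) hs h16 (by norm_num) (by norm_num) (by norm_num) (by norm_num)
      (by norm_num) hT h2)
  rcases le_total (61/100) (cc s) with h17 | h17
  · exact box2 bx7 (T := (1149/1250)) (by norm_num) (by norm_num) (by norm_num) (by norm_num)
      (by norm_num) (by norm_num) (by norm_num) (by norm_num) (by norm_num) hs hl hj hj1 h17 h16 (tanB hj hj1)
      (T_of (clo := (61/100)) (shi := (79241/100000)) hs h17 (by norm_num) (by norm_num) (by norm_num) (by norm_num)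
      (by norm_num) hT h2)
  rcases le_total (561/1000) (cc s) with h18 | h18
  · exact box2 bx8 (T := (4761/5000)) (by norm_num) (by norm_num) (by norm_num) (by norm_num)
      (by norm_num) (by norm_num) (by norm_num) (by norm_num) (by norm_num) hs hl hj hj1 h18 h17 (tanC hj hj1)
      (T_of (clo := (561/1000)) (shi := (41391/50000)) hs h18 (by norm_num) (by norm_num) (by norm_num) (by norm_num)
      (by norm_num) hT h2)
  rcases le_total (523/1000) (cc s) with h19 | h19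
  · exact box2 bx9 (T := (9699/10000)) (by norm_num) (by norm_num) (by norm_num) (by norm_num)
      (by norm_num) (by norm_num) (by norm_num) (by norm_num) (by norm_num) hs hl hj hj1 h19 h18 (tanC hj hj1)
      (T_of (clo := (523/1000)) (shi := (42617/50000)) hs h19 (by norm_num) (by norm_num) (by norm_num) (by norm_num)
      (by norm_num) hT h2)
  rcases le_total (493/1000) (cc s) with h20 | h20
  · exact box2 bx10 (T := (4899/5000)) (by norm_num) (by norm_num) (by norm_num) (by norm_num)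
      (by norm_num) (by norm_num) (by norm_num) (by norm_num) (by norm_num) hs hl hj hj1 h20 h19 (tanC hj hj1)
      (T_of (clo := (493/1000)) (shi := (87003/100000)) hs h20 (by norm_num) (by norm_num) (by norm_num) (by norm_num)
      (by norm_num) hT h2)
  rcases le_total (117/250) (cc s) with h21 | h21
  · exact box2 bx11 (T := (4929/5000)) (by norm_num) (by norm_num) (by norm_num) (by norm_num)
      (by norm_num) (by norm_num) (by norm_num) (by norm_num) (by norm_num) hs hl hj hj1 h21 h20 (tanC hj hj1)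
      (T_of (clo := (117/250)) (shi := (88373/100000)) hs h21 (by norm_num) (by norm_num) (by norm_num) (by norm_num)
      (by norm_num) hT h2)
  rcases le_total (447/1000) (cc s) with h22 | h22
  · exact box2 bx12 (T := (9897/10000)) (by norm_num) (by norm_num) (by norm_num) (by norm_num)
      (by norm_num) (by norm_num) (by norm_num) (by norm_num) (by norm_num) hs hl hj hj1 h22 h21 (tanC hj hj1)
      (T_of (clo := (447/1000)) (shi := (44727/50000)) hs h22 (by norm_num) (by norm_num) (by norm_num) (by norm_num)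
      (by norm_num) hT h2)
  rcases le_total (427/1000) (cc s) with h23 | h23
  · exact box2 bx13 (T := (397/400)) (by norm_num) (by norm_num) (by norm_num) (by norm_num)
      (by norm_num) (by norm_num) (by norm_num) (by norm_num) (by norm_num) hs hl hj hj1 h23 h22 (tanC hj hj1)
      (T_of (clo := (427/1000)) (shi := (45213/50000)) hs h23 (by norm_num) (by norm_num) (by norm_num) (by norm_num)
      (by norm_num) hT h2)
  rcases le_total (51/125) (cc s) with h24 | h24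
  · exact box2 bx14 (T := (4973/5000)) (by norm_num) (by norm_num) (by norm_num) (by norm_num)
      (by norm_num) (by norm_num) (by norm_num) (by norm_num) (by norm_num) hs hl hj hj1 h24 h23 (tanC hj hj1)
      (T_of (clo := (51/125)) (shi := (91299/100000)) hs h24 (by norm_num) (by norm_num) (by norm_num) (by norm_num)
      (by norm_num) hT h2)
  rcases le_total (97/250) (cc s) with h25 | h25
  · exact box2 bx15 (T := (4981/5000)) (by norm_num) (by norm_num) (by norm_num) (by norm_num)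
      (by norm_num) (by norm_num) (by norm_num) (by norm_num) (by norm_num) hs hl hj hj1 h25 h24 (tanC hj hj1)
      (T_of (clo := (97/250)) (shi := (46083/50000)) hs h25 (by norm_num) (by norm_num) (by norm_num) (by norm_num)
      (by norm_num) hT h2)
  rcases le_total (183/500) (cc s) with h26 | h26
  · exact box2 bx16 (T := (399/400)) (by norm_num) (by norm_num) (by norm_num) (by norm_num)
      (by norm_num) (by norm_num) (by norm_num) (by norm_num) (by norm_num) hs hl hj hj1 h26 h25 (tanC hj hj1)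
      (T_of (clo := (183/500)) (shi := (46531/50000)) hs h26 (by norm_num) (by norm_num) (by norm_num) (by norm_num)
      (by norm_num) hT h2)
  rcases le_total (169/500) (cc s) with h27 | h27
  · exact box2 bx17 (T := (4993/5000)) (by norm_num) (by norm_num) (by norm_num) (by norm_num)
      (by norm_num) (by norm_num) (by norm_num) (by norm_num) (by norm_num) hs hl hj hj1 h27 h26 (tanC hj hj1)
      (T_of (clo := (169/500)) (shi := (18823/20000)) hs h27 (by norm_num) (by norm_num) (by norm_num) (by norm_num)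
      (by norm_num) hT h2)
  rcases le_total (59/200) (cc s) with h28 | h28
  · exact box2 bx18 (T := (1999/2000)) (by norm_num) (by norm_num) (by norm_num) (by norm_num)
      (by norm_num) (by norm_num) (by norm_num) (by norm_num) (by norm_num) hs hl hj hj1 h28 h27 (tanC hj hj1)
      (T_of (clo := (59/200)) (shi := (1911/2000)) hs h28 (by norm_num) (by norm_num) (by norm_num) (by norm_num)
      (by norm_num) hT h2)
  rcases le_total (19/100) (cc s) with h29 | h29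
  · exact box2 bx19 (T := 1) (by norm_num) (by norm_num) (by norm_num) (by norm_num)
      (by norm_num) (by norm_num) (by norm_num) (by norm_num) (by norm_num) hs hl hj hj1 h29 h28 (tanC hj hj1)
      (T_of (clo := (19/100)) (shi := (98179/100000)) hs h29 (by norm_num) (by norm_num) (by norm_num) (by norm_num)
      (by norm_num) hT h2)
  exact box2 bx20 (T := 1) (by norm_num) (by norm_num) (by norm_num) (by norm_num)
      (by norm_num) (by norm_num) (by norm_num) (by norm_num) (by norm_num) hs hl hj hj1 hcp.le h29 (tanB hj hj1)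
      hT

end Crest.Agent.R230.WR.BSix
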