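import Crest.Agent.R230.Basic
import Crest.Agent.R230.BM

set_option autoImplicit false

open MeasureTheory Set
open scoped Pointwise ENNReal

namespace Crest.Agent.R230

/-! ### K: base case (helper852)

`petty_two_of` proves the planar Petty inequality from the two facts `exists_frame`,
`sh_eq_shadow` of section A (in dimension 2). -/

/-- the statement of `exists_frame` in the plane -/
def FrameHyp : Prop := ∀ e : E (1 + 1), ‖e‖ = 1 → Nonempty (Frame e)

/-- the statement of `sh_eq_shadow` in the plane -/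
def ShadowHyp : Prop := ∀ (K : Set (E (1 + 1))), IsCompact K → Convex ℝ K → ∀ (e : E (1 + 1)),
  ‖e‖ = 1 → ∀ (F : Frame e) (c : ℝ), 0 ≤ c → sh K (c • e) = c * vol (F.shadow K)

/-- rotation by a right angle in the plane -/
noncomputable def rot : E 2 →ₗᵢ[ℝ] E 2 where
  toFun x := !₂[-(x 1), x 0]
  map_add' x y := by
    ext i; fin_cases i <;> simp [add_comm]
  map_smul' c x := by
    ext i; fin_cases i <;> simp
  norm_map' x := by
    simp [EuclideanSpace.norm_eq, Fin.sum_univ_two, add_comm]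

noncomputable def rotE : E 2 ≃ₗᵢ[ℝ] E 2 := rot.toLinearIsometryEquiv rfl

theorem rotE_apply (x : E 2) : rotE x = !₂[-(x 1), x 0] := rfl

theorem inner_rotE (x : E 2) : inner ℝ x (rotE x) = 0 := by
  rw [rotE_apply]
  simp [PiLp.inner_apply, Fin.sum_univ_two]
  ring

/-- the coordinate of the line -/
theorem mp_coord : MeasurePreserving (fun x : E 1 => x 0) volume volume := by
  have h1 := EuclideanSpace.volume_preserving_symm_measurableEquiv_toLp (Fin 1)
  have h2 := MeasureTheory.volume_preserving_funUnique (Fin 1) ℝ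
  exact h2.comp h1

theorem norm_E1 (x : E 1) : ‖x‖ = |x 0| := by
  simp [EuclideanSpace.norm_eq, Real.sqrt_sq_eq_abs]

theorem kappa_one : κ 1 = 2 := by
  unfold κ vol
  have h : Metric.ball (0 : E 1) 1 = (fun x : E 1 => x 0) ⁻¹' (Set.Ioo (-1) 1) := by
    ext x
    simp [norm_E1, abs_lt]
  rw [h, mp_coord.measure_preimage measurableSet_Ioo.nullMeasurableSet, Real.volume_Ioo]
  norm_num

theorem volume_segment_E1 (a b : E 1) : volume (segment ℝ a b) = ENNReal.ofReal ‖a - b‖ := by
  have h : segment ℝ a b = (fun x : E 1 => x 0) ⁻¹' (Set.uIcc (a 0) (b 0)) := by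
    rw [← segment_eq_uIcc]
    ext x
    constructor
    · rintro ⟨s, t, hs, ht, hst, rfl⟩
      exact ⟨s, t, hs, ht, hst, by simp⟩
    · rintro ⟨s, t, hs, ht, hst, h⟩
      refine ⟨s, t, hs, ht, hst, ?_⟩
      ext i
      fin_cases i
      simpa using h
  rw [h, mp_coord.measure_preimage measurableSet_uIcc.nullMeasurableSet, Real.volume_interval,
    norm_E1]
  congr 1
  rw [abs_sub_comm]
  simp

theorem shadow_subset_ball {e : E 2} (he : ‖e‖ = 1) (F : Frame e) {K : Set (E 2)} {R : ℝ}
    (hR : K ⊆ Metric.closedBall 0 R) : F.shadow K ⊆ Metric.closedBall 0 R := by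
  rintro y ⟨t, ht⟩
  have h1 := hR ht
  rw [mem_closedBall_zero_iff] at h1 ⊢
  refine le_trans ?_ h1
  have h2 : ‖t • e + F.ι y‖ ^ 2 = t ^ 2 + ‖y‖ ^ 2 := by
    rw [@norm_add_sq_real, norm_smul, he, inner_smul_left, real_inner_comm, F.inner_eq,
      F.ι.norm_map]
    simp
  have h3 : ‖y‖ ^ 2 ≤ ‖t • e + F.ι y‖ ^ 2 := by rw [h2]; nlinarith [sq_nonneg t]
  exact le_of_sq_le_sq h3 (norm_nonneg _) 

theorem volume_shadow_lt_top {e : E 2} (he : ‖e‖ = 1) (F : Frame e) {K : Set (E 2)}
    (hK : IsCompact K) : volume (F.shadow K) < ⊤ := by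
  obtain ⟨R, hR⟩ := hK.isBounded.subset_closedBall 0
  exact (measure_mono (shadow_subset_ball he F hR)).trans_lt (isCompact_closedBall _ _).measure_lt_top

theorem exists_polar (u : E 2) : ∃ e : E 2, ‖e‖ = 1 ∧ u = ‖u‖ • e := by
  by_cases hu : u = 0
  · refine ⟨EuclideanSpace.single 0 1, by simp, by simp [hu]⟩
  · refine ⟨‖u‖⁻¹ • u, ?_, ?_⟩
    · rw [norm_smul, norm_inv, norm_norm, inv_mul_cancel₀ (norm_ne_zero_iff.2 hu)]
    · rw [smul_smul, mul_inv_cancel₀ (norm_ne_zero_iff.2 hu), one_smul]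

theorem inner_rot_le_sh (exists_frame : FrameHyp) (sh_eq_shadow : ShadowHyp) {K : Set (E 2)} (hK : IsCompact K) (hKc : Convex ℝ K) {x y : E 2}
    (hx : x ∈ K) (hy : y ∈ K) (u : E 2) : inner ℝ (x - y) (rotE u) ≤ sh K u := by
  obtain ⟨e, he, hu⟩ := exists_polar u
  obtain ⟨F⟩ := exists_frame e he
  rw [hu, sh_eq_shadow K hK hKc e he F ‖u‖ (norm_nonneg u), map_smul, inner_smul_right]
  refine mul_le_mul_of_nonneg_left ?_ (norm_nonneg u)
  obtain ⟨t, a, rfl⟩ := F.surj x
  obtain ⟨s, b, rfl⟩ := F.surj y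
  have hseg : segment ℝ a b ⊆ F.shadow K := by
    rintro _ ⟨α, β, hα, hβ, hαβ, rfl⟩
    refine ⟨α * t + β * s, ?_⟩
    have := hKc hx hy hα hβ hαβ
    convert this using 1
    rw [map_add, map_smul, map_smul, smul_add, smul_add, smul_smul, smul_smul, add_smul]
    abel
  have hvol : ‖a - b‖ ≤ vol (F.shadow K) := by
    unfold vol
    have h1 := measure_mono (μ := volume) hseg
    rw [volume_segment_E1] at h1
    exact (ENNReal.ofReal_le_iff_le_toReal (volume_shadow_lt_top he F hK).ne).1 h1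
  refine le_trans ?_ hvol
  have e1 : t • e + F.ι a - (s • e + F.ι b) = (t - s) • e + F.ι (a - b) := by
    rw [map_sub, sub_smul]; abel
  rw [e1, inner_add_left, inner_smul_left, inner_rotE, mul_zero, zero_add]
  refine (real_inner_le_norm _ _).trans ?_
  rw [F.ι.norm_map, LinearIsometryEquiv.norm_map, he, mul_one]

theorem PB_subset_ball_two (exists_frame : FrameHyp) (sh_eq_shadow : ShadowHyp)
    {K : Set (E 2)} (hK : IsCompact K) (hKc : Convex ℝ K) :
    ∃ C : ℝ, PB K ⊆ Metric.closedBall 0 C := by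
  obtain ⟨R, hR⟩ := hK.isBounded.subset_closedBall 0
  refine ⟨vol (Metric.closedBall (0 : E 1) R), fun x hx => ?_⟩
  rw [mem_closedBall_zero_iff]
  obtain ⟨e, he, hu⟩ := exists_polar x
  obtain ⟨F⟩ := exists_frame e he
  have h1 := hx x
  rw [real_inner_self_eq_norm_sq] at h1
  have h2 : sh K x = ‖x‖ * vol (F.shadow K) := by
    conv_lhs => rw [hu]
    exact sh_eq_shadow K hK hKc e he F ‖x‖ (norm_nonneg x)
  have h3 : vol (F.shadow K) ≤ vol (Metric.closedBall (0 : E 1) R) :=
    vol_mono (isCompact_closedBall _ _) (shadow_subset_ball he F hR)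
  rw [h2] at h1
  by_contra hcon
  push Not at hcon
  have h4 : 0 < ‖x‖ := lt_of_le_of_lt (vol_nonneg _) hcon
  nlinarith

theorem petty_two_of (exists_frame : FrameHyp) (sh_eq_shadow : ShadowHyp) : PettyIneq 2 := by
  intro K hK
  have hKK : IsCompact (K - K) := by
    rw [sub_eq_add_neg]; exact hK.isCompact.add hK.isCompact.neg
  have h1 : rotE ⁻¹' (K - K) ⊆ PB K := by
    intro z hz u
    obtain ⟨x, hx, y, hy, hxy⟩ := hz
    have := inner_rot_le_sh exists_frame sh_eq_shadow hK.isCompact hK.convex hx hy u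
    have h2 : x - y = rotE z := hxy
    rw [h2, LinearIsometryEquiv.inner_map_map] at this
    exact this
  obtain ⟨C, hC⟩ := PB_subset_ball_two exists_frame sh_eq_shadow hK.isCompact hK.convex
  have h2 : vol (rotE ⁻¹' (K - K)) ≤ vol (PB K) := by
    unfold vol
    exact ENNReal.toReal_mono
      ((measure_mono hC).trans_lt (isCompact_closedBall _ _).measure_lt_top).ne (measure_mono h1)
  have h3 : vol (rotE ⁻¹' (K - K)) = vol (K - K) := by
    unfold vol
    rw [rotE.measurePreserving.measure_preimage hKK.measurableSet.nullMeasurableSet]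
  have h4 := BM_add (E := E 2) (by simp) hK.isCompact hK.isCompact.neg hK.nonempty
    hK.nonempty.neg
  have h5 : rt (-K) = rt K := by
    unfold rt
    congr 1
    rw [measureReal_def, measureReal_def, Measure.measure_neg]
  rw [h5, ← sub_eq_add_neg] at h4
  have hf : Module.finrank ℝ (E 2) = 2 := by simp
  have h6 := rt_pow (E := E 2) (by simp) K
  have h7 := rt_pow (E := E 2) (by simp) (K - K)
  rw [hf] at h6 h7
  have h8 : 4 * vol K ≤ vol (K - K) := by
    have e6 : vol K = rt K ^ 2 := h6.symm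
    have e7 : vol (K - K) = rt (K - K) ^ 2 := h7.symm
    rw [e6, e7]
    have := rt_nonneg K
    nlinarith
  rw [h3] at h2
  have : (κ (2 - 1)) = 2 := kappa_one
  rw [this]
  norm_num
  linarith

end Crest.Agent.R230
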