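import Crest.Agent.R230.Defs

/-!
# Row 230: elementary facts on convex bodies, volume, support functions
-/

set_option autoImplicit false

open MeasureTheory Set
open scoped Pointwise ENNReal

namespace Crest.Agent.R230

variable {n : ℕ}

lemma CB.nonempty {K : Set (E n)} (hK : CB K) : K.Nonempty := hK.interior_nonempty.mono interior_subset

lemma CB.vadd {K : Set (E n)} (hK : CB K) (a : E n) : CB (a +ᵥ K) := by
  refine ⟨hK.isCompact.vadd a, hK.convex.vadd a, ?_⟩
  rw [interior_vadd]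
  exact hK.interior_nonempty.vadd_set

lemma CB.smul {K : Set (E n)} (hK : CB K) {r : ℝ} (hr : r ≠ 0) : CB (r • K) := by
  refine ⟨hK.isCompact.smul r, hK.convex.smul r, ?_⟩
  rw [interior_smul₀ hr]
  exact hK.interior_nonempty.smul_set

lemma CB.add {K L : Set (E n)} (hK : CB K) (hL : IsCompact L) (hLc : Convex ℝ L) (hL0 : L.Nonempty) :
    CB (K + L) := by
  refine ⟨hK.isCompact.add hL, hK.convex.add hLc, ?_⟩
  obtain ⟨y, hy⟩ := hL0
  obtain ⟨x, hx⟩ := hK.interior_nonempty
  exact ⟨x + y, (subset_interior_add_left (Set.add_mem_add hx hy))⟩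

lemma CB.image {K : Set (E n)} (hK : CB K) (T : E n ≃ₗ[ℝ] E n) : CB (T '' K) := by
  have hc : Continuous (T : E n → E n) := T.toLinearMap.continuous_of_finiteDimensional
  refine ⟨hK.isCompact.image hc, hK.convex.linear_image (T : E n →ₗ[ℝ] E n), ?_⟩
  have h := (T.toContinuousLinearEquiv.toHomeomorph).image_interior K
  have h2 : interior (T '' K) = T '' interior K := h.symm
  rw [h2]
  exact hK.interior_nonempty.image _

lemma CB.vol_pos {K : Set (E n)} (hK : CB K) : 0 < vol K := by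
  unfold vol
  refine ENNReal.toReal_pos ?_ hK.isCompact.measure_lt_top.ne
  exact ((isOpen_interior.measure_pos volume hK.interior_nonempty).trans_le
    (measure_mono interior_subset)).ne'

lemma vol_nonneg (K : Set (E n)) : 0 ≤ vol K := ENNReal.toReal_nonneg

lemma vol_mono {K L : Set (E n)} (hL : IsCompact L) (h : K ⊆ L) : vol K ≤ vol L :=
  ENNReal.toReal_mono hL.measure_lt_top.ne (measure_mono h)

lemma vol_vadd (a : E n) (K : Set (E n)) : vol (a +ᵥ K) = vol K := by
  unfold vol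
  rw [measure_vadd]

lemma vol_smul (r : ℝ) (K : Set (E n)) : vol (r • K) = |r| ^ n * vol K := by
  unfold vol
  rw [Measure.addHaar_smul, ENNReal.toReal_mul, ENNReal.toReal_ofReal (abs_nonneg _)]
  simp [abs_pow]

lemma vol_image (T : E n ≃ₗ[ℝ] E n) (K : Set (E n)) :
    vol (T '' K) = |LinearMap.det (T : E n →ₗ[ℝ] E n)| * vol K := by
  unfold vol
  have := Measure.addHaar_image_linearMap (volume : Measure (E n)) (T : E n →ₗ[ℝ] E n) K
  have h2 : ((T : E n →ₗ[ℝ] E n) : E n → E n) '' K = T '' K := rfl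
  rw [h2] at this
  rw [this, ENNReal.toReal_mul, ENNReal.toReal_ofReal (abs_nonneg _)]

lemma det_pos' (T : E n ≃ₗ[ℝ] E n) :
    0 < |LinearMap.det (T : E n →ₗ[ℝ] E n)| := by
  rw [abs_pos]
  exact (LinearEquiv.isUnit_det' T).ne_zero

/-! ### support functions -/

lemma bddAbove_inner {K : Set (E n)} (hK : IsCompact K) (u : E n) :
    BddAbove ((fun x : E n => inner ℝ x u) '' K) :=
  (hK.image (by fun_prop)).bddAbove

lemma le_hs {K : Set (E n)} (hK : IsCompact K) {x : E n} (hx : x ∈ K) (u : E n) :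
    inner ℝ x u ≤ hs K u :=
  le_csSup (bddAbove_inner hK u) ⟨x, hx, rfl⟩

lemma hs_le {K : Set (E n)} (hK : K.Nonempty) {u : E n} {c : ℝ} (h : ∀ x ∈ K, inner ℝ x u ≤ c) :
    hs K u ≤ c :=
  csSup_le (hK.image _) (by rintro _ ⟨x, hx, rfl⟩; exact h x hx)

lemma exists_hs_eq {K : Set (E n)} (hK : IsCompact K) (hK0 : K.Nonempty) (u : E n) :
    ∃ x ∈ K, inner ℝ x u = hs K u := by
  obtain ⟨x, hx, h⟩ := hK.exists_isMaxOn hK0 (f := fun x : E n => inner ℝ x u) (by fun_prop)
  exact ⟨x, hx, le_antisymm (le_hs hK hx u) (hs_le hK0 fun y hy => h hy)⟩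

lemma hs_mono {K L : Set (E n)} (hK0 : K.Nonempty) (hL : IsCompact L) (h : K ⊆ L) (u : E n) :
    hs K u ≤ hs L u := hs_le hK0 fun _ hx => le_hs hL (h hx) u

lemma hs_zero {K : Set (E n)} (hK0 : K.Nonempty) : hs K 0 = 0 := by
  unfold hs
  have : (fun x : E n => inner ℝ x (0 : E n)) '' K = {0} := by
    ext y; simp only [inner_zero_right, mem_image, mem_singleton_iff]
    constructor
    · rintro ⟨_, _, rfl⟩; rfl
    · rintro rfl; exact ⟨hK0.some, hK0.some_mem, rfl⟩
  rw [this, csSup_singleton]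

lemma hs_smul_set {r : ℝ} (hr : 0 ≤ r) (K : Set (E n)) (u : E n) : hs (r • K) u = r * hs K u := by
  unfold hs
  have : (fun x : E n => inner ℝ x u) '' (r • K) = r • ((fun x : E n => inner ℝ x u) '' K) := by
    ext y
    simp only [mem_image, mem_smul_set]
    constructor
    · rintro ⟨x, ⟨z, hz, rfl⟩, rfl⟩
      exact ⟨_, ⟨z, hz, rfl⟩, by simp [inner_smul_left]⟩
    · rintro ⟨x, ⟨z, hz, rfl⟩, rfl⟩
      exact ⟨_, ⟨z, hz, rfl⟩, by simp [inner_smul_left]⟩
  rw [this, Real.sSup_smul_of_nonneg hr, smul_eq_mul]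

lemma hs_smul {c : ℝ} (hc : 0 ≤ c) (K : Set (E n)) (u : E n) : hs K (c • u) = c * hs K u := by
  unfold hs
  have : (fun x : E n => inner ℝ x (c • u)) '' K = c • ((fun x : E n => inner ℝ x u) '' K) := by
    ext y
    simp only [mem_image, mem_smul_set]
    constructor
    · rintro ⟨x, hx, rfl⟩
      exact ⟨_, ⟨x, hx, rfl⟩, by simp [inner_smul_right]⟩
    · rintro ⟨_, ⟨z, hz, rfl⟩, rfl⟩
      exact ⟨z, hz, by simp [inner_smul_right]⟩
  rw [this, Real.sSup_smul_of_nonneg hc, smul_eq_mul]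

lemma hs_add_le {K : Set (E n)} (hK : IsCompact K) (hK0 : K.Nonempty) (u v : E n) :
    hs K (u + v) ≤ hs K u + hs K v :=
  hs_le hK0 fun x hx => by
    rw [inner_add_right]
    exact add_le_add (le_hs hK hx u) (le_hs hK hx v)

lemma hs_vadd {K : Set (E n)} (hK : IsCompact K) (hK0 : K.Nonempty) (a u : E n) :
    hs (a +ᵥ K) u = inner ℝ a u + hs K u := by
  apply le_antisymm
  · refine hs_le hK0.vadd_set ?_
    rintro _ ⟨x, hx, rfl⟩
    simp only [vadd_eq_add, inner_add_left]
    gcongr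
    exact le_hs hK hx u
  · obtain ⟨x, hx, h⟩ := exists_hs_eq hK hK0 u
    rw [← h, ← inner_add_left]
    exact le_hs (hK.vadd a) ⟨x, hx, rfl⟩ u

lemma hs_nonneg {K : Set (E n)} (h0 : (0 : E n) ∈ K) (u : E n) : 0 ≤ hs K u := by
  unfold hs
  apply Real.sSup_nonneg'
  exact ⟨0, ⟨0, h0, by simp⟩, le_rfl⟩

/-- membership in a closed convex set through its support function -/
lemma mem_of_forall_le_hs {K : Set (E n)} (hK : IsCompact K) (hKc : Convex ℝ K) (hK0 : K.Nonempty)
    {x : E n} (h : ∀ u : E n, inner ℝ x u ≤ hs K u) : x ∈ K := by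
  by_contra hx
  obtain ⟨f, s, hf1, hf2⟩ := geometric_hahn_banach_closed_point hKc hK.isClosed hx
  set v := (InnerProductSpace.toDual ℝ (E n)).symm f with hv
  have hfv : ∀ y, f y = inner ℝ y v := by
    intro y
    rw [hv, real_inner_comm, InnerProductSpace.toDual_symm_apply]
  have h1 : hs K v ≤ s := hs_le hK0 fun y hy => by rw [← hfv]; exact (hf1 y hy).le
  have h2 := h v
  rw [← hfv] at h2
  linarith

lemma subset_of_hs_le {K L : Set (E n)} (hK : IsCompact K) (hL : IsCompact L) (hLc : Convex ℝ L)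
    (hL0 : L.Nonempty) (h : ∀ u : E n, hs K u ≤ hs L u) : K ⊆ L := fun _ hx =>
  mem_of_forall_le_hs hL hLc hL0 fun u => (le_hs hK hx u).trans (h u)

lemma eq_of_hs_eq {K L : Set (E n)} (hK : IsCompact K) (hKc : Convex ℝ K) (hK0 : K.Nonempty)
    (hL : IsCompact L) (hLc : Convex ℝ L) (hL0 : L.Nonempty) (h : ∀ u : E n, hs K u = hs L u) :
    K = L :=
  Subset.antisymm (subset_of_hs_le hK hL hLc hL0 fun u => (h u).le)
    (subset_of_hs_le hL hK hKc hK0 fun u => (h u).ge)

end Crest.Agent.R230
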