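import Crest.Agent.R230.Prod

/-! Row 230: from coordinates to `EuclideanSpace`, the simplex as a polytope. -/

set_option autoImplicit false
open MeasureTheory Set Filter Topology
open scoped ENNReal Pointwise

namespace Crest.Agent.R230.Simp

theorem proj_set_eq {m : ℕ} {K : Set (Fin (m + 1) → ℝ)} {h : (Fin (m + 1) → ℝ) → ℝ}
    (hK : IsCompact K) (hc : Convex ℝ K) (hi : (interior K).Nonempty) (hs : IsSh K h) :
    (⋂ u ∈ Metric.sphere (0 : EuclideanSpace ℝ (Fin (m + 1))) 1,
      {x : EuclideanSpace ℝ (Fin (m + 1)) | inner ℝ x u ≤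
        ((μHE[m + 1 - 1] : Measure (EuclideanSpace ℝ (Fin (m + 1))))
          ((fun y => y - inner ℝ y u • u) '' (WithLp.ofLp ⁻¹' K))).toReal}) =
      WithLp.ofLp ⁻¹' (PB h) := by
  set e := EuclideanSpace.equiv (Fin (m + 1)) ℝ with he
  have hmp := PiLp.volume_preserving_ofLp (Fin (m + 1))
  have hK' : IsCompact (WithLp.ofLp ⁻¹' K : Set (EuclideanSpace ℝ (Fin (m + 1)))) := by
    have : (WithLp.ofLp ⁻¹' K : Set (EuclideanSpace ℝ (Fin (m + 1)))) = e.symm '' K := by
      rw [e.symm.image_eq_preimage_symm]; rfl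
    rw [this]
    exact hK.image e.symm.continuous
  have hc' : Convex ℝ (WithLp.ofLp ⁻¹' K : Set (EuclideanSpace ℝ (Fin (m + 1)))) :=
    hc.linear_preimage e.toLinearEquiv.toLinearMap
  have hi' : (interior (WithLp.ofLp ⁻¹' K : Set (EuclideanSpace ℝ (Fin (m + 1))))).Nonempty := by
    obtain ⟨x, hx⟩ := hi
    refine ⟨e.symm x, ?_⟩
    have h2 : (WithLp.ofLp ⁻¹' (interior K) : Set (EuclideanSpace ℝ (Fin (m + 1)))) ⊆
        interior (WithLp.ofLp ⁻¹' K) :=
      interior_maximal (preimage_mono interior_subset) (isOpen_interior.preimage e.continuous)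
    exact h2 hx
  have hvol : ∀ t u, volume (lap (WithLp.ofLp ⁻¹' K : Set (EuclideanSpace ℝ (Fin (m + 1)))) u t) =
      volume (plap K (WithLp.ofLp u) t) := by
    intro t u
    rw [← hmp.measure_preimage (isCompact_plap hK _ t).measurableSet.nullMeasurableSet]
    rfl
  have hvolK : volume (WithLp.ofLp ⁻¹' K : Set (EuclideanSpace ℝ (Fin (m + 1)))) = volume K :=
    hmp.measure_preimage hK.measurableSet.nullMeasurableSet
  have hsh : ∀ u : EuclideanSpace ℝ (Fin (m + 1)), ‖u‖ = 1 →
      ((μHE[m + 1 - 1] : Measure (EuclideanSpace ℝ (Fin (m + 1))))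
          ((fun y => y - inner ℝ y u • u) '' (WithLp.ofLp ⁻¹' K))).toReal = h (WithLp.ofLp u) := by
    intro u hu
    have h1 := tendsto_shadow (V := EuclideanSpace ℝ (Fin (m + 1))) (m := m) (by simp) hK' hc' hi' hu
    have h2 := hs (WithLp.ofLp u)
    simp_rw [hvol, hvolK] at h1
    exact tendsto_nhds_unique h1 h2
  have hinner : ∀ x u : EuclideanSpace ℝ (Fin (m + 1)), inner ℝ x u =
      ∑ i, (WithLp.ofLp x) i * (WithLp.ofLp u) i := by
    intro x u
    rw [PiLp.inner_apply]
    apply Finset.sum_congr rfl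
    intro i _
    simp [mul_comm]
  ext x
  simp only [mem_iInter, mem_sphere_iff_norm, sub_zero, mem_ofPred_eq, mem_preimage, PB]
  constructor
  · intro hx u
    by_cases hu : u = 0
    · subst hu
      rw [hs.zero]
      simp
    · set w : EuclideanSpace ℝ (Fin (m + 1)) := WithLp.toLp 2 u with hw
      have hw0 : w ≠ 0 := by
        intro h0
        apply hu
        have := congrArg WithLp.ofLp h0
        simpa [hw] using this
      have hn : 0 < ‖w‖ := norm_pos_iff.2 hw0
      have h1 : ‖‖w‖⁻¹ • w‖ = 1 := by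
        rw [norm_smul, norm_inv, norm_norm, inv_mul_cancel₀ hn.ne']
      have h2 := hx (‖w‖⁻¹ • w) h1
      rw [hsh _ h1, hinner] at h2
      have h3 : (WithLp.ofLp (‖w‖⁻¹ • w)) = ‖w‖⁻¹ • u := rfl
      rw [h3, hs.smul (inv_pos.2 hn)] at h2
      simp only [Pi.smul_apply, smul_eq_mul] at h2
      have h4 : ∑ i, (WithLp.ofLp x) i * (‖w‖⁻¹ * u i) = ‖w‖⁻¹ * ∑ i, (WithLp.ofLp x) i * u i := by
        rw [Finset.mul_sum]
        apply Finset.sum_congr rfl
        intro i _; ring
      rw [h4] at h2
      exact le_of_mul_le_mul_left h2 (inv_pos.2 hn)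
  · intro hx u hu
    rw [hsh u hu, hinner]
    exact hx _

theorem volume_proj_set {m : ℕ} {K : Set (Fin (m + 1) → ℝ)} {h : (Fin (m + 1) → ℝ) → ℝ}
    (hK : IsCompact K) (hc : Convex ℝ K) (hi : (interior K).Nonempty) (hs : IsSh K h) :
    volume (⋂ u ∈ Metric.sphere (0 : EuclideanSpace ℝ (Fin (m + 1))) 1,
      {x : EuclideanSpace ℝ (Fin (m + 1)) | inner ℝ x u ≤
        ((μHE[m + 1 - 1] : Measure (EuclideanSpace ℝ (Fin (m + 1))))
          ((fun y => y - inner ℝ y u • u) '' (WithLp.ofLp ⁻¹' K))).toReal}) =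
      volume (PB h) := by
  rw [proj_set_eq hK hc hi hs]
  exact (PiLp.volume_preserving_ofLp (Fin (m + 1))).measure_preimage
    (isClosed_PB h).measurableSet.nullMeasurableSet

/-! ### The simplex as a polytope -/

theorem convex_corner (n : ℕ) (c : ℝ) : Convex ℝ (corner n c) := by
  intro x hx y hy a b ha hb hab
  refine ⟨fun i => ?_, ?_⟩
  · exact add_nonneg (mul_nonneg ha (hx.1 i)) (mul_nonneg hb (hy.1 i))
  · have : ∑ i, (a • x + b • y) i = a * ∑ i, x i + b * ∑ i, y i := by
      simp [Finset.sum_add_distrib, Finset.mul_sum]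
    rw [this]
    calc a * ∑ i, x i + b * ∑ i, y i ≤ a * c + b * c :=
          add_le_add (mul_le_mul_of_nonneg_left hx.2 ha) (mul_le_mul_of_nonneg_left hy.2 hb)
      _ = c := by rw [← add_mul, hab, one_mul]

/-- Vertices of the standard simplex. -/
noncomputable def verts (n : ℕ) : Finset (Fin n → ℝ) := by
  classical exact insert 0 (Finset.univ.image fun i => Pi.single i 1)

theorem convexHull_verts (n : ℕ) : convexHull ℝ (verts n : Set (Fin n → ℝ)) = corner n 1 := by
  classical
  apply Subset.antisymm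
  · apply convexHull_min _ (convex_corner n 1)
    intro x hx
    simp only [verts, Finset.coe_insert, Finset.coe_image, Finset.coe_univ, image_univ,
      Set.mem_insert_iff, mem_range] at hx
    rcases hx with rfl | ⟨i, rfl⟩
    · exact ⟨fun i => le_rfl, by simp⟩
    · refine ⟨fun j => ?_, by simp⟩
      by_cases hj : j = i
      · subst hj; simp
      · simp [hj]
  · intro x hx
    have h1 : x = ∑ o : Option (Fin n), (o.elim (1 - ∑ i, x i) x : ℝ) •
        (o.elim 0 (fun i => Pi.single i 1) : Fin n → ℝ) := by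
      rw [Fintype.sum_option]
      funext j
      simp [Finset.sum_apply, Pi.single_apply]
    rw [h1]
    apply (convex_convexHull ℝ _).sum_mem
    · intro o _
      cases o with
      | none => simpa using hx.2
      | some i => exact hx.1 i
    · rw [Fintype.sum_option]
      simp
    · intro o _
      apply subset_convexHull
      cases o with
      | none => simp [verts]
      | some i => simp [verts]

theorem interior_corner_nonempty (n : ℕ) : (interior (corner n 1)).Nonempty := by
  have hopen : IsOpen {x : Fin n → ℝ | (∀ i, 0 < x i) ∧ ∑ i, x i < 1} := by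
    apply IsOpen.inter
    · have : {x : Fin n → ℝ | ∀ i, 0 < x i} = ⋂ i, {x : Fin n → ℝ | 0 < x i} := by
        ext x; simp
      show IsOpen {x : Fin n → ℝ | ∀ i, 0 < x i}
      rw [this]
      exact isOpen_iInter_of_finite fun i => isOpen_lt continuous_const (continuous_apply i)
    · exact isOpen_lt (continuous_finsetSum _ fun i _ => continuous_apply i) continuous_const
  refine ⟨fun _ => 1 / (n + 1), ?_⟩
  apply interior_maximal _ hopen
  · refine ⟨fun i => by positivity, ?_⟩
    simp only [Finset.sum_const, Finset.card_univ, Fintype.card_fin, nsmul_eq_mul]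
    rw [mul_one_div, div_lt_one (by positivity)]
    linarith
  · rintro x ⟨h1, h2⟩
    exact ⟨fun i => (h1 i).le, h2.le⟩

theorem isCompact_corner (n : ℕ) : IsCompact (corner n 1) := by
  rw [← convexHull_verts]
  exact (verts n).finite_toSet.isCompact_convexHull ℝ

theorem good_corner {n : ℕ} (hn : 0 < n) :
    Good n (1 / n.factorial) (((n : ℝ) / n.factorial) ^ n * (n + 1)) := by
  refine ⟨⟨verts n, fun u => n / n.factorial * ms u, ?_, ?_, ?_, by positivity, ?_⟩⟩
  · rw [convexHull_verts]; exact interior_corner_nonempty n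
  · rw [convexHull_verts]; exact isSh_corner n
  · rw [convexHull_verts, volume_corner_one, ENNReal.toReal_ofReal (by positivity)]
  · exact volume_PB_corner hn

end Crest.Agent.R230.Simp
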