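import Crest.Agent.R230.HmBound
import Crest.Agent.R230.CRbound

/-!
# Row 230: case II, region `l ≥ 0`, `k ≥ 0` (block B5): real variable lemmas
-/

set_option autoImplicit false

open MeasureTheory Set Filter Topology
open scoped Pointwise ENNReal

namespace Crest.Agent.R230.WR

/-- `hm n k ≤ (n-1)/(n(2+k)) k²` for `0 ≤ k ≤ n - 2` -/
lemma hm_le_simple {n : ℕ} (hn : 5 ≤ n) {k : ℝ} (hk : 0 ≤ k) (hk2 : k ≤ (n : ℝ) - 2) :
    hm n k ≤ ((n : ℝ) - 1) / (n * (2 + k)) * k ^ 2 := by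
  have hn5 : (5 : ℝ) ≤ n := by exact_mod_cast hn
  refine (hm_le (by omega) hk).trans (mul_le_mul_of_nonneg_right ?_ (sq_nonneg k))
  set m : ℝ := (n : ℝ) with hm
  have h1 : 0 < m - 1 := by linarith
  have h2 : 0 < 2 * m - 1 := by linarith
  have hD : 0 < 12 * m ^ 2 + 6 * m * (2 * m - 1) * k + (m - 1) * (2 * m - 1) * k ^ 2 := by positivity
  have hD2 : 0 < m * (2 + k) := by positivity
  rw [div_le_div_iff₀ hD hD2]
  have key : (m - 1) * (12 * m ^ 2 + 6 * m * (2 * m - 1) * k + (m - 1) * (2 * m - 1) * k ^ 2) -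
      (m - 1) * (6 * m + (2 * m - 1) * k) * (m * (2 + k)) =
      (m - 1) * (k * ((2 * m - 1) * (m - 2 - k) + (m - 2))) := by ring
  have : 0 ≤ (m - 1) * (k * ((2 * m - 1) * (m - 2 - k) + (m - 2))) := by
    have h3 : 0 ≤ m - 2 - k := by linarith
    have h4 : 0 ≤ m - 2 := by linarith
    positivity
  linarith

/-- `exp(l/n) ≤ 1 + (17/16) l/n` -/
lemma exp_div_le {n : ℕ} (hn : 5 ≤ n) {l : ℝ} (hl : 0 ≤ l) (hl2 : l ≤ 1 / 2) :
    Real.exp (l / n) ≤ 1 + 17 / 16 * (l / n) := by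
  have hn5 : (5 : ℝ) ≤ n := by exact_mod_cast hn
  have hx0 : 0 ≤ l / n := by positivity
  have hx : l / n ≤ 1 / 10 := by
    rw [div_le_iff₀ (by linarith)]
    linarith
  set x := l / n with hxd
  have h1 := exp_neg_ge hx0
  have h2 : Real.exp x * Real.exp (-x) = 1 := by rw [← Real.exp_add]; simp
  have hp := Real.exp_pos x
  -- (2 - x) e^x ≤ 2 + x
  have h3 : (2 - x) * Real.exp x ≤ 2 + x := by
    have := mul_le_mul_of_nonneg_right h1 hp.le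
    have e : (2 + x) * Real.exp (-x) * Real.exp x = 2 + x := by
      rw [mul_assoc, mul_comm (Real.exp (-x)), h2, mul_one]
    linarith
  have h4 : (2 - x) * Real.exp x ≤ (2 - x) * (1 + 17 / 16 * x) := by nlinarith
  exact le_of_mul_le_mul_left h4 (by linarith)

/-- `Gm ≥ l²/(2n)` for `l ≥ 0` -/
lemma Gm_ge_pos {n : ℕ} (hn : 1 ≤ n) {l : ℝ} (hl : 0 ≤ l) : l ^ 2 / (2 * n) ≤ Gm n l := by
  have hn0 : (0 : ℝ) < n := by exact_mod_cast hn
  have h := Real.quadratic_le_exp_of_nonneg (x := l / n) (by positivity)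
  unfold Gm
  have h2 := mul_le_mul_of_nonneg_left h hn0.le
  have e : (n : ℝ) * (1 + l / n + (l / n) ^ 2 / 2) = n + l + l ^ 2 / (2 * n) := by
    field_simp
  rw [e] at h2
  linarith

set_option maxHeartbeats 800000 in
/-- lower bound of `cR` with a lower bound `v c` for `cc (s e^l)` -/
theorem cR_ge_delta {s l v δ : ℝ} (hs : s ∈ Ioo (0 : ℝ) 1) (hl : 0 ≤ l) (hl2 : l ≤ 1 / 2)
    (hT : s * Real.exp l ≤ 1) (hv0 : 0 ≤ v) (hv : v * cc s ≤ cc (s * Real.exp l))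
    (hd : 49 / 4 * cc s ^ 2 * (1 + cc s * v + 2 * cc s) ≤
      2 * δ * (1 + cc s) ^ 2 * (1 + v) ^ 2 * (1 + cc s * v)) :
    -(Y s * l ^ 2 * (3 / 8 + δ * Y s)) ≤ cR s l := by
  obtain ⟨h, hv2⟩ := cR_eq hs hT
  rw [h]
  have hc := cc_pos' hs
  have hc2 := cc_sq' hs
  have hc1 := cc_le_one s
  have hY := Y_nonneg hs
  have hE := exp_two_le hl (by linarith)
  have hE0 : 0 ≤ Real.exp (2 * l) - 1 := by
    have := Real.one_le_exp (show 0 ≤ 2 * l by linarith)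
    linarith
  have hC0 := cc_nonneg (s * Real.exp l)
  set E : ℝ := Real.exp (2 * l) - 1 with hEd
  set c := cc s with hcdef
  set C := cc (s * Real.exp l) with hCdef
  have hsY : s ^ 2 = Y s * c ^ 2 := by
    rw [Y_eq_cc hs, ← hcdef, div_mul_cancel₀ _ (by positivity)]
  have hEl : E ≤ 7 / 2 * l := by nlinarith
  have hE2 : E ^ 2 ≤ (7 / 2 * l) ^ 2 := pow_le_pow_left₀ hE0 hEl 2
  have hcC : 0 < c + C := by positivity
  have h1C : 0 < 1 + C := by positivity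
  -- identity
  have hid : c * (1 + c) * E / ((c + C) * (1 + C)) =
      E / 2 + s ^ 2 * E ^ 2 * (1 + 2 * c + C) / (2 * (c + C) ^ 2 * (1 + C)) := by
    have h5 : s ^ 2 * E = (c - C) * (c + C) := by linarith
    have h6 : s ^ 2 * E ^ 2 = (c - C) * (c + C) * E := by
      calc s ^ 2 * E ^ 2 = (s ^ 2 * E) * E := by ring
        _ = _ := by rw [h5]
    rw [h6]
    field_simp
    ring
  rw [hid]
  have e : s ^ 2 / (1 + c) ^ 2 * (l - (E / 2 + s ^ 2 * E ^ 2 * (1 + 2 * c + C) / (2 * (c + C) ^ 2 * (1 + C)))) =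
      -(Y s * (c ^ 2 / (1 + c) ^ 2 * (E / 2 - l) +
        Y s * (c ^ 4 * E ^ 2 * (1 + 2 * c + C) / (2 * (1 + c) ^ 2 * (c + C) ^ 2 * (1 + C))))) := by
    rw [hsY]
    field_simp
    ring
  rw [e, neg_le_neg_iff, mul_assoc (Y s)]
  refine mul_le_mul_of_nonneg_left ?_ hY
  have h1 : c ^ 2 / (1 + c) ^ 2 ≤ 1 / 4 := by
    rw [div_le_div_iff₀ (by positivity) (by norm_num)]
    nlinarith
  have h3 : c ^ 2 / (1 + c) ^ 2 * (E / 2 - l) ≤ 3 / 8 * l ^ 2 := by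
    have hl3 : E / 2 - l ≤ 3 / 2 * l ^ 2 := by linarith
    have h0 : 0 ≤ c ^ 2 / (1 + c) ^ 2 := by positivity
    calc c ^ 2 / (1 + c) ^ 2 * (E / 2 - l) ≤ c ^ 2 / (1 + c) ^ 2 * (3 / 2 * l ^ 2) :=
          mul_le_mul_of_nonneg_left hl3 h0
      _ ≤ 1 / 4 * (3 / 2 * l ^ 2) := mul_le_mul_of_nonneg_right h1 (by positivity)
      _ = _ := by ring
  have h4 : c ^ 4 * E ^ 2 * (1 + 2 * c + C) / (2 * (1 + c) ^ 2 * (c + C) ^ 2 * (1 + C)) ≤ δ * l ^ 2 := by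
    rw [div_le_iff₀ (by positivity)]
    -- monotonicity in C
    have hcv : 0 ≤ c * v := by positivity
    have g1 : (1 + 2 * c + C) * (1 + c * v) ≤ (1 + 2 * c + c * v) * (1 + C) := by
      nlinarith [mul_nonneg hc.le (show 0 ≤ C - c * v by linarith)]
    have g2 : c ^ 2 * (1 + v) ^ 2 ≤ (c + C) ^ 2 := by
      have : c * (1 + v) ≤ c + C := by linarith
      calc c ^ 2 * (1 + v) ^ 2 = (c * (1 + v)) ^ 2 := by ring
        _ ≤ _ := pow_le_pow_left₀ (by positivity) this 2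
    have g3 : 0 < 1 + c * v := by positivity
    -- chain
    have s1 : c ^ 4 * E ^ 2 * (1 + 2 * c + C) ≤ c ^ 4 * (7 / 2 * l) ^ 2 * (1 + 2 * c + C) :=
      mul_le_mul_of_nonneg_right (mul_le_mul_of_nonneg_left hE2 (by positivity)) (by positivity)
    have s2 : (c ^ 4 * (7 / 2 * l) ^ 2 * (1 + 2 * c + C)) * (1 + c * v) ≤
        c ^ 4 * (7 / 2 * l) ^ 2 * ((1 + 2 * c + c * v) * (1 + C)) := by
      rw [mul_assoc (c ^ 4 * (7 / 2 * l) ^ 2)]
      exact mul_le_mul_of_nonneg_left g1 (by positivity)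
    have s3 : c ^ 4 * (7 / 2 * l) ^ 2 * ((1 + 2 * c + c * v) * (1 + C)) ≤
        (2 * δ * (1 + c) ^ 2 * (1 + v) ^ 2 * (1 + c * v)) * (c ^ 2 * l ^ 2 * (1 + C)) := by
      have : 0 ≤ c ^ 2 * l ^ 2 * (1 + C) := by positivity
      have := mul_le_mul_of_nonneg_right hd this
      calc c ^ 4 * (7 / 2 * l) ^ 2 * ((1 + 2 * c + c * v) * (1 + C)) =
          49 / 4 * c ^ 2 * (1 + c * v + 2 * c) * (c ^ 2 * l ^ 2 * (1 + C)) := by ring
        _ ≤ _ := this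
    have hδ : 0 ≤ δ := by
      by_contra hneg
      push Not at hneg
      have a1 : 0 < 49 / 4 * c ^ 2 * (1 + c * v + 2 * c) := by positivity
      have a2 : 2 * δ * (1 + c) ^ 2 * (1 + v) ^ 2 * (1 + c * v) ≤ 0 := by
        have h7 : 0 ≤ 2 * (1 + c) ^ 2 * (1 + v) ^ 2 * (1 + c * v) := by positivity
        calc 2 * δ * (1 + c) ^ 2 * (1 + v) ^ 2 * (1 + c * v) =
            δ * (2 * (1 + c) ^ 2 * (1 + v) ^ 2 * (1 + c * v)) := by ring
          _ ≤ 0 := mul_nonpos_of_nonpos_of_nonneg hneg.le h7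
      linarith
    have s4 : (2 * δ * (1 + c) ^ 2 * (1 + v) ^ 2 * (1 + c * v)) * (c ^ 2 * l ^ 2 * (1 + C)) ≤
        (δ * l ^ 2 * (2 * (1 + c) ^ 2 * (c + C) ^ 2 * (1 + C))) * (1 + c * v) := by
      have h7 : 0 ≤ 2 * δ * l ^ 2 * (1 + c) ^ 2 * (1 + C) * (1 + c * v) := by positivity
      calc (2 * δ * (1 + c) ^ 2 * (1 + v) ^ 2 * (1 + c * v)) * (c ^ 2 * l ^ 2 * (1 + C)) =
          (2 * δ * l ^ 2 * (1 + c) ^ 2 * (1 + C) * (1 + c * v)) * (c ^ 2 * (1 + v) ^ 2) := by ring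
        _ ≤ (2 * δ * l ^ 2 * (1 + c) ^ 2 * (1 + C) * (1 + c * v)) * (c + C) ^ 2 :=
          mul_le_mul_of_nonneg_left g2 h7
        _ = _ := by ring
    have s5 := (mul_le_mul_of_nonneg_right s1 g3.le).trans (s2.trans (s3.trans s4))
    exact le_of_mul_le_mul_right s5 g3
  have h5 : Y s * (c ^ 4 * E ^ 2 * (1 + 2 * c + C) / (2 * (1 + c) ^ 2 * (c + C) ^ 2 * (1 + C))) ≤
      Y s * (δ * l ^ 2) := mul_le_mul_of_nonneg_left h4 hY
  have e2 : l ^ 2 * (3 / 8 + δ * Y s) = 3 / 8 * l ^ 2 + Y s * (δ * l ^ 2) := by ring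
  rw [e2]
  linarith

/-- tangent line bound for `a` -/
lemma aq_tan (s : ℝ) {c₀ : ℝ} (h0 : 0 ≤ c₀) :
    2 - 2 * c₀ ^ 2 / (1 + c₀) - (2 + c₀) / (1 + c₀) ^ 2 * (cc s ^ 2 - c₀ ^ 2) ≤ aq s := by
  unfold aq
  have hc := cc_nonneg s
  set c := cc s with hcd
  have e : 2 - 2 * c ^ 2 / (1 + c) -
      (2 - 2 * c₀ ^ 2 / (1 + c₀) - (2 + c₀) / (1 + c₀) ^ 2 * (c ^ 2 - c₀ ^ 2)) =
      (c - c₀) ^ 2 * ((2 + c₀) * c + c₀) / ((1 + c₀) ^ 2 * (1 + c)) := by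
    field_simp
    ring
  have : 0 ≤ (c - c₀) ^ 2 * ((2 + c₀) * c + c₀) / ((1 + c₀) ^ 2 * (1 + c)) := by positivity
  linarith

set_option maxHeartbeats 1600000 in
/-- reduction: `(1+k) PP ≥ k² (…) ` -/
theorem PP_red {n : ℕ} (hn : 5 ≤ n) {s l k δ ε α : ℝ} (hs : s ∈ Ioo (0 : ℝ) 1) (hl : 0 ≤ l)
    (hl2 : l ≤ 1 / 2) (hk : 0 < k) (hk2 : k ≤ (n : ℝ) - 2) (hα : k * cc s ≤ α * s)
    (hcR : -(Y s * l ^ 2 * (3 / 8 + δ * Y s)) ≤ cR s l)
    (hε : (17 * (4 * n + 7) * α) ^ 2 ≤ 2 * ε * (n + 7) * (64 * n) ^ 2 * n) :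
    k ^ 2 * (aq s - 3 / (2 * (n + 2)) * (1 + k) - (1 + 7 / (4 * n)) * ((1 + k) / (2 + k)) - ε -
      (2 - 1 / k) * (Y s * l) + ((n : ℝ) - 3 - δ) * (1 + k) * (Y s * l) ^ 2 / k ^ 2) ≤
    (1 + k) * PP n (((n : ℝ) + 1 + 3 * (1 / 4)) / ((n : ℝ) - 1)) 3 1 0 0 s l k := by
  have hn5 : (5 : ℝ) ≤ n := by exact_mod_cast hn
  have hY := Y_nonneg hs
  have hG := Gm_ge_pos (n := n) (by omega) hl
  have hh := hm_le_simple hn hk.le hk2
  have hex := exp_div_le hn hl hl2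
  have hex0 := (Real.exp_pos (l / n)).le
  unfold PP KK
  set G := Gm n l
  set H := hm n k
  set m : ℝ := (n : ℝ) with hmd
  set e := Real.exp (l / m) with he
  set a := aq s
  set y := Y s with hy
  have hm1 : 0 < m - 1 := by linarith
  have hm0 : 0 < m := by linarith
  have hc := cc_pos' hs
  have hs0 := hs.1
  have hYe : y = s ^ 2 / cc s ^ 2 := Y_eq_cc hs
  have hy0 : 0 < y := by rw [hYe]; positivity
  have hk2Y : k ^ 2 ≤ α ^ 2 * y := by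
    have h1 : (k * cc s) ^ 2 ≤ (α * s) ^ 2 := pow_le_pow_left₀ (by positivity) hα 2
    rw [hYe, ← mul_div_assoc, le_div_iff₀ (by positivity)]
    nlinarith
  -- the quadratic in `l`
  have hquad : 0 ≤ (1 + k) * y * ((m + 7) / (8 * m)) * l ^ 2 -
      (1 + k) * (17 * (4 * m + 7) / (64 * m ^ 2)) * (k ^ 2 / (2 + k)) * l + ε * k ^ 2 := by
    set A : ℝ := (1 + k) * y * ((m + 7) / (8 * m)) with hA
    set B : ℝ := (1 + k) * (17 * (4 * m + 7) / (64 * m ^ 2)) * (k ^ 2 / (2 + k)) with hB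
    have hA0 : 0 < A := by positivity
    have hdisc : B ^ 2 ≤ 4 * A * (ε * k ^ 2) := by
      have e1 : B ^ 2 = (1 + k) * k ^ 2 * ((1 + k) / (2 + k) ^ 2) *
          ((17 * (4 * m + 7) / (64 * m ^ 2)) ^ 2 * k ^ 2) := by
        rw [hB]; field_simp
      have e2 : (1 + k) / (2 + k) ^ 2 ≤ 1 / 4 := by
        rw [div_le_div_iff₀ (by positivity) (by norm_num)]
        nlinarith
      have e3 : (17 * (4 * m + 7) / (64 * m ^ 2)) ^ 2 * k ^ 2 ≤
          (17 * (4 * m + 7) / (64 * m ^ 2)) ^ 2 * (α ^ 2 * y) :=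
        mul_le_mul_of_nonneg_left hk2Y (by positivity)
      have e4 : (17 * (4 * m + 7) / (64 * m ^ 2)) ^ 2 * (α ^ 2 * y) ≤ 2 * ε * (m + 7) / m * y := by
        have e5 : (17 * (4 * m + 7) / (64 * m ^ 2)) ^ 2 * (α ^ 2 * y) =
            (17 * (4 * m + 7) * α) ^ 2 / (64 * m ^ 2) ^ 2 * y := by
          field_simp
        rw [e5]
        refine mul_le_mul_of_nonneg_right ?_ hy0.le
        rw [div_le_div_iff₀ (by positivity) hm0]
        have := mul_le_mul_of_nonneg_right hε hm0.le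
        calc (17 * (4 * m + 7) * α) ^ 2 * m ≤ 2 * ε * (m + 7) * (64 * m) ^ 2 * m * m := this
          _ = _ := by ring
      have e6 : 0 ≤ (17 * (4 * m + 7) / (64 * m ^ 2)) ^ 2 * k ^ 2 := by positivity
      have e7 : (1 + k) * k ^ 2 * ((1 + k) / (2 + k) ^ 2) ≤ (1 + k) * k ^ 2 * (1 / 4) :=
        mul_le_mul_of_nonneg_left e2 (by positivity)
      calc B ^ 2 ≤ (1 + k) * k ^ 2 * (1 / 4) * ((17 * (4 * m + 7) / (64 * m ^ 2)) ^ 2 * k ^ 2) := by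
            rw [e1]; exact mul_le_mul_of_nonneg_right e7 e6
        _ ≤ (1 + k) * k ^ 2 * (1 / 4) * (2 * ε * (m + 7) / m * y) :=
            mul_le_mul_of_nonneg_left (e3.trans e4) (by positivity)
        _ = 4 * A * (ε * k ^ 2) := by rw [hA]; field_simp; ring
    have h4 : 4 * A * (A * l ^ 2 - B * l + ε * k ^ 2) = (2 * A * l - B) ^ 2 + (4 * A * (ε * k ^ 2) - B ^ 2) := by
      ring
    have h5 : 0 ≤ 4 * A * (A * l ^ 2 - B * l + ε * k ^ 2) := by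
      rw [h4]; nlinarith [sq_nonneg (2 * A * l - B)]
    exact nonneg_of_mul_nonneg_right h5 (by positivity)
  -- `mu` terms
  have hmu : (m + 1 + 3 * (1 / 4)) / (m - 1) * ((m - 1) * y * G - e * H) =
      (m + 7 / 4) * y * G - (m + 7 / 4) / (m - 1) * (e * H) := by
    field_simp
    ring
  have t1 : (m + 7 / 4) * y * (l ^ 2 / (2 * m)) ≤ (m + 7 / 4) * y * G :=
    mul_le_mul_of_nonneg_left hG (by positivity)
  have t2 : (m + 7 / 4) / (m - 1) * (e * H) ≤ (m + 7 / 4) / m * (1 + 17 / 16 * (l / m)) * (k ^ 2 / (2 + k)) := by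
    have q1 : e * H ≤ e * ((m - 1) / (m * (2 + k)) * k ^ 2) := mul_le_mul_of_nonneg_left hh hex0
    have q2 : e * ((m - 1) / (m * (2 + k)) * k ^ 2) ≤
        (1 + 17 / 16 * (l / m)) * ((m - 1) / (m * (2 + k)) * k ^ 2) :=
      mul_le_mul_of_nonneg_right hex (by positivity)
    calc (m + 7 / 4) / (m - 1) * (e * H) ≤ (m + 7 / 4) / (m - 1) *
          ((1 + 17 / 16 * (l / m)) * ((m - 1) / (m * (2 + k)) * k ^ 2)) :=
          mul_le_mul_of_nonneg_left (q1.trans q2) (by positivity)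
      _ = _ := by field_simp
  rw [hmu]
  have hk1 : 0 < 1 + k := by linarith
  have t3 := mul_le_mul_of_nonneg_left t1 hk1.le
  have t4 := mul_le_mul_of_nonneg_left t2 hk1.le
  have t5 := mul_le_mul_of_nonneg_left hcR hk1.le
  have e1 : k ^ 2 * (a - 3 / (2 * (m + 2)) * (1 + k) - (1 + 7 / (4 * m)) * ((1 + k) / (2 + k)) - ε -
      (2 - 1 / k) * (y * l) + (m - 3 - δ) * (1 + k) * (y * l) ^ 2 / k ^ 2) =
      k ^ 2 * a - 3 / (2 * (m + 2)) * (1 + k) * k ^ 2 - (1 + 7 / (4 * m)) * (1 + k) * (k ^ 2 / (2 + k)) -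
      ε * k ^ 2 - (2 * k ^ 2 - k) * (y * l) + (m - 3 - δ) * (1 + k) * (y * l) ^ 2 := by
    field_simp
  have e2 : (1 + k) * ((m + 7 / 4) * y * G - (m + 7 / 4) / (m - 1) * (e * H) +
      (a - 3 * y * l) * (k ^ 2 / (1 + k)) + (3 - 2 * 1) * (y * l * k) +
      (1 * (m - 3) * y ^ 2 + (3 - 3 * 1) * y) * l ^ 2 + cR s l - 3 / (2 * (m + 2)) * k ^ 2 +
      0 * (y * (l - 0))) = (1 + k) * ((m + 7 / 4) * y * G) - (1 + k) * ((m + 7 / 4) / (m - 1) * (e * H)) +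
      (a - 3 * y * l) * k ^ 2 + (1 + k) * (y * l * k) + (1 + k) * (m - 3) * (y * l) ^ 2 + (1 + k) * cR s l -
      3 / (2 * (m + 2)) * (1 + k) * k ^ 2 := by
    field_simp
    ring
  rw [e1, e2]
  have e3 : (1 + k) * ((m + 7 / 4) * y * (l ^ 2 / (2 * m))) -
      (1 + k) * ((m + 7 / 4) / m * (1 + 17 / 16 * (l / m)) * (k ^ 2 / (2 + k))) +
      (1 + k) * (-(y * l ^ 2 * (3 / 8 + δ * y))) =
      ((1 + k) * y * ((m + 7) / (8 * m)) * l ^ 2 -
        (1 + k) * (17 * (4 * m + 7) / (64 * m ^ 2)) * (k ^ 2 / (2 + k)) * l + ε * k ^ 2) -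
      (1 + 7 / (4 * m)) * (1 + k) * (k ^ 2 / (2 + k)) - ε * k ^ 2 - δ * (1 + k) * (y * l) ^ 2 := by
    field_simp
    ring
  nlinarith [t3, t4, t5, e3, hquad]

end Crest.Agent.R230.WR
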