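import Crest.Agent.R230.CaseIIppA

/-!
# Row 230: block B5: hazard consequences and the three region lemmas
-/

set_option autoImplicit false

open MeasureTheory Set Filter Topology
open scoped Pointwise ENNReal

namespace Crest.Agent.R230.WR

/-- `k ≤ m/2` -/
lemma k_le_half {m s c l k α : ℝ} (hm : 5 ≤ m) (hs : 0 < s) (hs1 : s < 1) (hc : 0 < c)
    (hcs : c ^ 2 = 1 - s ^ 2) (hl : 0 ≤ l) (hk : 0 ≤ k) (hα : k * c ≤ α * s) (hα0 : 0 ≤ α)
    (hαm : 4 * α ^ 2 * 4 ≤ m ^ 2 * (m ^ 2 - 4))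
    (hz : (1 + k) * s * c ^ 2 ≤ (1 + (m + 1) * s ^ 2) * (Real.exp (-l) - s)) : k ≤ m / 2 := by
  rcases le_total (2 / m) s with h | h
  · have he : Real.exp (-l) ≤ 1 := Real.exp_le_one_iff.2 (by linarith)
    have hM : 0 ≤ 1 + (m + 1) * s ^ 2 := by positivity
    have h1 : (1 + k) * s * c ^ 2 ≤ (1 + (m + 1) * s ^ 2) * (1 - s) :=
      hz.trans (mul_le_mul_of_nonneg_left (by linarith) hM)
    rw [hcs] at h1
    have h2 : (1 - s) * ((1 + k) * s * (1 + s)) ≤ (1 - s) * (1 + (m + 1) * s ^ 2) := by nlinarith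
    have h3 : (1 + k) * s * (1 + s) ≤ 1 + (m + 1) * s ^ 2 := le_of_mul_le_mul_left h2 (by linarith)
    have h4 : 2 ≤ m * s := by
      rw [div_le_iff₀ (by linarith)] at h
      linarith
    have h5 : 0 ≤ (1 - s) * (m * s - 2) := mul_nonneg (by linarith) (by linarith)
    have h6 : (s * (1 + s)) * (1 + k) ≤ (s * (1 + s)) * (1 + m / 2) := by nlinarith
    have := le_of_mul_le_mul_left h6 (by positivity)
    linarith
  · have h1 : (k * c) ^ 2 ≤ (α * s) ^ 2 := pow_le_pow_left₀ (by positivity) hα 2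
    have h2 : k ^ 2 * (1 - s ^ 2) ≤ α ^ 2 * s ^ 2 := by rw [← hcs]; nlinarith
    have h3 : m * s ≤ 2 := by
      rw [le_div_iff₀ (by linarith)] at h
      linarith
    have h4 : m ^ 2 * s ^ 2 ≤ 4 := by nlinarith [mul_nonneg (show (0:ℝ) ≤ m by linarith) hs.le]
    -- k² (m² - 4) ≤ 4 α²
    have h5 : k ^ 2 * (m ^ 2 - 4) ≤ α ^ 2 * 4 := by
      have e1 : k ^ 2 * (m ^ 2 - 4) ≤ k ^ 2 * (m ^ 2 - m ^ 2 * s ^ 2) :=
        mul_le_mul_of_nonneg_left (by linarith) (sq_nonneg k)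
      have e2 : k ^ 2 * (m ^ 2 - m ^ 2 * s ^ 2) ≤ α ^ 2 * (m ^ 2 * s ^ 2) := by
        have := mul_le_mul_of_nonneg_left h2 (sq_nonneg m)
        nlinarith
      have e3 : α ^ 2 * (m ^ 2 * s ^ 2) ≤ α ^ 2 * 4 := mul_le_mul_of_nonneg_left h4 (sq_nonneg α)
      linarith
    have h6 : 0 < m ^ 2 - 4 := by nlinarith
    have h7 : k ^ 2 * (m ^ 2 - 4) ≤ (m / 2) ^ 2 * (m ^ 2 - 4) := by nlinarith
    have h8 : k ^ 2 ≤ (m / 2) ^ 2 := le_of_mul_le_mul_right h7 h6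
    exact (pow_le_pow_iff_left₀ hk (by linarith) two_ne_zero).1 h8

/-- hazard: `s e^l (M + κ c²) ≤ M` -/
lemma haz_T {m s c l k : ℝ} 
    (hz : (1 + k) * s * c ^ 2 ≤ (1 + (m + 1) * s ^ 2) * (Real.exp (-l) - s)) :
    s * Real.exp l * ((1 + (m + 1) * s ^ 2) + (1 + k) * c ^ 2) ≤ 1 + (m + 1) * s ^ 2 := by
  have hp := Real.exp_pos l
  have h1 := mul_le_mul_of_nonneg_right hz hp.le
  have h2 : Real.exp (-l) * Real.exp l = 1 := by rw [← Real.exp_add]; simp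
  have e : (1 + (m + 1) * s ^ 2) * (Real.exp (-l) - s) * Real.exp l =
      (1 + (m + 1) * s ^ 2) * (Real.exp (-l) * Real.exp l) - (1 + (m + 1) * s ^ 2) * (s * Real.exp l) := by ring
  rw [e, h2] at h1
  linarith

/-- hazard: `2 Y l ≤ 1 - 2 w + 3 w² c²` -/
lemma haz_X {m s l k : ℝ} (hm : 0 ≤ m) (hs : s ∈ Ioo (0 : ℝ) 1) (hk : 0 ≤ k) (hl : 0 ≤ l)
    (hz : (1 + k) * s * cc s ^ 2 ≤ (1 + (m + 1) * s ^ 2) * (Real.exp (-l) - s)) :
    2 * (Y s * l) ≤ 1 - 2 * ((1 + k) / ((m + 2) - (m + 1) * cc s ^ 2)) +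
      3 * ((1 + k) / ((m + 2) - (m + 1) * cc s ^ 2)) ^ 2 * cc s ^ 2 := by
  have hT := haz_T hz
  have hc := cc_pos' hs
  have hc2 := cc_sq' hs
  have hs0 := hs.1
  set y := cc s ^ 2 with hy
  have hy0 : 0 < y := by positivity
  have hM : (m + 2) - (m + 1) * y = 1 + (m + 1) * s ^ 2 := by rw [hc2]; ring
  have hM0 : 0 < 1 + (m + 1) * s ^ 2 := by positivity
  rw [hM]
  set M := 1 + (m + 1) * s ^ 2 with hMd
  set w := (1 + k) / M with hw
  have hw0 : 0 < w := by positivity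
  have h1 : s * Real.exp l * (1 + w * y) ≤ 1 := by
    have e : s * Real.exp l * (1 + w * y) = s * Real.exp l * (M + (1 + k) * y) / M := by
      rw [hw]; field_simp
    rw [e, div_le_one hM0]
    exact hT
  have hexp : 1 + 2 * l ≤ Real.exp l ^ 2 := by
    have := Real.add_one_le_exp (2 * l)
    have e : Real.exp (2 * l) = Real.exp l ^ 2 := by rw [two_mul, Real.exp_add, sq]
    linarith
  have h2 : s ^ 2 * (1 + 2 * l) * (1 + w * y) ^ 2 ≤ 1 := by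
    have h3 : (s * Real.exp l * (1 + w * y)) ^ 2 ≤ 1 := by
      have h0 : 0 ≤ s * Real.exp l * (1 + w * y) := by
        have := Real.exp_pos l
        positivity
      calc (s * Real.exp l * (1 + w * y)) ^ 2 ≤ 1 ^ 2 := pow_le_pow_left₀ h0 h1 2
        _ = 1 := by norm_num
    calc s ^ 2 * (1 + 2 * l) * (1 + w * y) ^ 2 ≤ s ^ 2 * Real.exp l ^ 2 * (1 + w * y) ^ 2 :=
          mul_le_mul_of_nonneg_right (mul_le_mul_of_nonneg_left hexp (by positivity)) (by positivity)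
      _ = (s * Real.exp l * (1 + w * y)) ^ 2 := by ring
      _ ≤ 1 := h3
  have hz0 : 0 < w * y := by positivity
  set z := w * y with hzd
  have h4 : 1 ≤ (1 - 2 * z + 3 * z ^ 2) * (1 + z) ^ 2 := by
    have e : (1 - 2 * z + 3 * z ^ 2) * (1 + z) ^ 2 = 1 + 4 * z ^ 3 + 3 * z ^ 4 := by ring
    rw [e]
    have : 0 ≤ 4 * z ^ 3 + 3 * z ^ 4 := by positivity
    linarith
  have h5 : s ^ 2 * (1 + 2 * l) ≤ 1 - 2 * z + 3 * z ^ 2 :=
    le_of_mul_le_mul_right (h2.trans h4) (by positivity)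
  -- divide by y
  have hYe : Y s * y = s ^ 2 := by rw [Y_eq_cc hs, ← hy]; field_simp
  have h6 : y * (2 * (Y s * l)) ≤ y * (1 - 2 * w + 3 * w ^ 2 * y) := by
    have e1 : y * (2 * (Y s * l)) = 2 * (Y s * y) * l := by ring
    have e2 : y * (1 - 2 * w + 3 * w ^ 2 * y) = y - 2 * z + 3 * z ^ 2 := by rw [hzd]; ring
    rw [e1, e2, hYe, hc2]
    linarith
  exact le_of_mul_le_mul_left h6 hy0

/-- hazard: lower bound of `cc (s e^l)` -/
lemma haz_v {m s l k κ₀ v : ℝ} (hm : 0 ≤ m) (hs : s ∈ Ioo (0 : ℝ) 1) (hκ0 : 0 ≤ κ₀) (hκ : κ₀ ≤ 1 + k)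
    (hl : 0 ≤ l) (hv : 0 ≤ v) (hT1 : s * Real.exp l ≤ 1)
    (hz : (1 + k) * s * cc s ^ 2 ≤ (1 + (m + 1) * s ^ 2) * (Real.exp (-l) - s))
    (hcond : v ^ 2 * ((1 + κ₀) + (m + 1 - κ₀) * s ^ 2) ^ 2 ≤ κ₀ * ((2 + κ₀) + (2 * m + 2 - κ₀) * s ^ 2)) :
    v * cc s ≤ cc (s * Real.exp l) := by
  have hT := haz_T hz
  have hc := cc_pos' hs
  have hc2 := cc_sq' hs
  have hs0 := hs.1
  have hp := Real.exp_pos l
  have hT0 : 0 < s * Real.exp l := by positivity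
  have hC := cc_sq (t := s * Real.exp l) ⟨by linarith, hT1⟩
  have hC0 := cc_nonneg (s * Real.exp l)
  set T := s * Real.exp l with hTd
  set y := cc s ^ 2 with hy
  have hy0 : 0 < y := by positivity
  set M := 1 + (m + 1) * s ^ 2 with hMd
  have hM0 : 0 < M := by positivity
  have h1 : T * (M + κ₀ * y) ≤ M := by
    refine le_trans ?_ hT
    refine mul_le_mul_of_nonneg_left ?_ hT0.le
    have := mul_le_mul_of_nonneg_right hκ hy0.le
    linarith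
  have hD0 : 0 < M + κ₀ * y := by positivity
  have h2 : T ^ 2 * (M + κ₀ * y) ^ 2 ≤ M ^ 2 := by
    calc T ^ 2 * (M + κ₀ * y) ^ 2 = (T * (M + κ₀ * y)) ^ 2 := by ring
      _ ≤ M ^ 2 := pow_le_pow_left₀ (by positivity) h1 2
  have e1 : M + κ₀ * y = (1 + κ₀) + (m + 1 - κ₀) * s ^ 2 := by rw [hMd, hc2]; ring
  have e2 : 2 * M + κ₀ * y = (2 + κ₀) + (2 * m + 2 - κ₀) * s ^ 2 := by rw [hMd, hc2]; ring
  rw [← e1, ← e2] at hcond
  have h3 : (v ^ 2 * y) * (M + κ₀ * y) ^ 2 ≤ (1 - T ^ 2) * (M + κ₀ * y) ^ 2 := by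
    have := mul_le_mul_of_nonneg_left hcond hy0.le
    nlinarith
  have h4 : v ^ 2 * y ≤ 1 - T ^ 2 := le_of_mul_le_mul_right h3 (by positivity)
  rw [← hC] at h4
  have h5 : (v * cc s) ^ 2 ≤ cc T ^ 2 := by rw [mul_pow]; exact h4
  exact (pow_le_pow_iff_left₀ (by positivity) hC0 two_ne_zero).1 h5

/-- the reduced function -/
noncomputable def GG (m A1 ε a k X : ℝ) : ℝ :=
  a - 3 / (2 * (m + 2)) * (1 + k) - (1 + 7 / (4 * m)) * ((1 + k) / (2 + k)) - ε -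
      (2 - 1 / k) * X + A1 * (1 + k) * X ^ 2 / k ^ 2

/-- region A: `k ≤ 1/2` -/
lemma GG_A {m A1 ε a k X A2 y P Q : ℝ} (hk : 0 < k) (hk2 : k ≤ 1 / 2) (hA1 : 0 ≤ A1) (hX : 0 ≤ X)
    (hQ : 0 ≤ Q) (hA2 : 0 < A2) (hy : y * (A2 + k ^ 2) ≤ A2) (ha : P - Q * y ≤ a)
    (hfin : 0 < P - Q * (A2 / (A2 + k ^ 2)) - 3 / (2 * (m + 2)) * (1 + k) -
      (1 + 7 / (4 * m)) * ((1 + k) / (2 + k)) - ε) : 0 < GG m A1 ε a k X := by
  unfold GG
  have h1 : y ≤ A2 / (A2 + k ^ 2) := by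
    rw [le_div_iff₀ (by positivity)]; exact hy
  have h2 := mul_le_mul_of_nonneg_left h1 hQ
  have h3 : (2 - 1 / k) * X ≤ 0 := by
    refine mul_nonpos_of_nonpos_of_nonneg ?_ hX
    have : 2 ≤ 1 / k := by
      rw [le_div_iff₀ hk]; linarith
    linarith
  have h4 : 0 ≤ A1 * (1 + k) * X ^ 2 / k ^ 2 := by positivity
  linarith

/-- region B: completing the square -/
lemma GG_B {m A1 ε a k X A2 y P Q : ℝ} (hk : 0 < k) (hA1 : 0 < A1)
    (hQ : 0 ≤ Q) (hA2 : 0 < A2) (hy : y * (A2 + k ^ 2) ≤ A2) (ha : P - Q * y ≤ a)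
    (hfin : 0 < P - Q * (A2 / (A2 + k ^ 2)) - 3 / (2 * (m + 2)) * (1 + k) -
      (1 + 7 / (4 * m)) * ((1 + k) / (2 + k)) - ε - (2 * k - 1) ^ 2 / (4 * (1 + k) * A1)) :
    0 < GG m A1 ε a k X := by
  unfold GG
  have h1 : y ≤ A2 / (A2 + k ^ 2) := by
    rw [le_div_iff₀ (by positivity)]; exact hy
  have h2 := mul_le_mul_of_nonneg_left h1 hQ
  have h3 : -((2 * k - 1) ^ 2 / (4 * (1 + k) * A1)) ≤
      -((2 - 1 / k) * X) + A1 * (1 + k) * X ^ 2 / k ^ 2 := by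
    have e : -((2 - 1 / k) * X) + A1 * (1 + k) * X ^ 2 / k ^ 2 + (2 * k - 1) ^ 2 / (4 * (1 + k) * A1) =
        (2 * A1 * (1 + k) * (X / k) - (2 * k - 1)) ^ 2 / (4 * (1 + k) * A1) := by
      field_simp
      ring
    have : 0 ≤ (2 * A1 * (1 + k) * (X / k) - (2 * k - 1)) ^ 2 / (4 * (1 + k) * A1) := by positivity
    linarith
  linarith

/-- region C: the hazard bound for `X` -/
lemma GG_C {m A1 ε a k X A2 y P Q ξ L M₀ : ℝ} (hm : 0 ≤ m) (hk : 0 < k) (hA1 : 0 ≤ A1)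
    (hQ : 0 ≤ Q) (hA2 : 0 < A2) (hy0 : 0 ≤ y) (hy : y * (A2 + k ^ 2) ≤ A2) (ha : P - Q * y ≤ a)
    (hX : 2 * X ≤ 1 - 2 * ((1 + k) / ((m + 2) - (m + 1) * y)) +
      3 * ((1 + k) / ((m + 2) - (m + 1) * y)) ^ 2 * y)
    (hlin : 0 ≤ 2 - 1 / k - 2 * ξ * (1 + k) * A1 / k ^ 2)
    (hL : 2 - 1 / k - 2 * ξ * (1 + k) * A1 / k ^ 2 ≤ L) (hM₀ : 0 < M₀)
    (hM : M₀ * (A2 + k ^ 2) ≤ (m + 2) * k ^ 2 + A2)
    (hmono : L * (m + 1) * (1 + k) ≤ Q * M₀ ^ 2)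
    (hfin : 0 < P - Q * (A2 / (A2 + k ^ 2)) - 3 / (2 * (m + 2)) * (1 + k) -
      (1 + 7 / (4 * m)) * ((1 + k) / (2 + k)) - ε -
      (2 - 1 / k - 2 * ξ * (1 + k) * A1 / k ^ 2) *
        (1 / 2 - (1 + k) * (A2 + k ^ 2) / ((m + 2) * k ^ 2 + A2) +
          3 / 2 * (1 + k) ^ 2 * A2 * (A2 + k ^ 2) / ((m + 2) * k ^ 2 + A2) ^ 2) -
      A1 * (1 + k) * ξ ^ 2 / k ^ 2) :
    0 < GG m A1 ε a k X := by
  unfold GG
  set yk := A2 / (A2 + k ^ 2) with hyk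
  have hAk : 0 < A2 + k ^ 2 := by positivity
  have hyk0 : 0 < yk := by positivity
  have hyk1 : yk ≤ 1 := by
    rw [hyk, div_le_one hAk]; nlinarith [sq_nonneg k]
  have h1 : y ≤ yk := by
    rw [hyk, le_div_iff₀ hAk]; exact hy
  set Mk := (m + 2) - (m + 1) * yk with hMk
  set M := (m + 2) - (m + 1) * y with hMd
  have hMk0 : 1 ≤ Mk := by
    have := mul_le_mul_of_nonneg_left hyk1 (show 0 ≤ m + 1 by linarith)
    linarith
  have hMM : Mk ≤ M := by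
    have := mul_le_mul_of_nonneg_left h1 (show 0 ≤ m + 1 by linarith)
    linarith
  have hM1 : 0 < M := by linarith
  have hMkpos : 0 < Mk := by linarith
  have hMke : Mk = ((m + 2) * k ^ 2 + A2) / (A2 + k ^ 2) := by
    rw [hMk, hyk]; field_simp; ring
  have hM₀k : M₀ ≤ Mk := by
    rw [hMke, le_div_iff₀ hAk]; exact hM
  set wk := (1 + k) / Mk with hwk
  set w := (1 + k) / M with hw
  have hwk0 : 0 < wk := by positivity
  have hw0 : 0 < w := by positivity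
  have hwwk : w ≤ wk := div_le_div_of_nonneg_left (by linarith) hMkpos hMM
  set u := yk - y with hu
  have hu0 : 0 ≤ u := by linarith
  have hMu : M = Mk + (m + 1) * u := by rw [hMd, hMk, hu]; ring
  -- tangent for `w`
  have ht : wk - (1 + k) * ((m + 1) * u) / Mk ^ 2 ≤ w := by
    have e : w - (wk - (1 + k) * ((m + 1) * u) / Mk ^ 2) =
        (1 + k) * ((m + 1) * u) ^ 2 / (Mk ^ 2 * M) := by
      rw [hw, hwk, hMu]
      have : Mk + (m + 1) * u ≠ 0 := by rw [← hMu]; exact hM1.ne'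
      field_simp
      ring
    have : 0 ≤ (1 + k) * ((m + 1) * u) ^ 2 / (Mk ^ 2 * M) := by positivity
    linarith
  have hw2 : w ^ 2 * y ≤ wk ^ 2 * yk := by
    have := pow_le_pow_left₀ hw0.le hwwk 2
    exact mul_le_mul this h1 hy0 (by positivity)
  set q := (1 + k) * ((m + 1) * u) / Mk ^ 2 with hq
  have hX2 : X ≤ (1 / 2 - wk + 3 / 2 * wk ^ 2 * yk) + q := by linarith
  set lin := 2 - 1 / k - 2 * ξ * (1 + k) * A1 / k ^ 2 with hlind
  -- slope condition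
  have hslope : lin * q ≤ Q * u := by
    have e : lin * q = (lin * (m + 1) * (1 + k)) * u / Mk ^ 2 := by rw [hq]; ring
    rw [e, div_le_iff₀ (by positivity)]
    have s1 : lin * (m + 1) * (1 + k) ≤ L * (m + 1) * (1 + k) :=
      mul_le_mul_of_nonneg_right (mul_le_mul_of_nonneg_right hL (by linarith)) (by linarith)
    have s2 : Q * M₀ ^ 2 ≤ Q * Mk ^ 2 :=
      mul_le_mul_of_nonneg_left (pow_le_pow_left₀ hM₀.le hM₀k 2) hQ
    have s3 := mul_le_mul_of_nonneg_right ((s1.trans hmono).trans s2) hu0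
    linarith
  have hXlin := mul_le_mul_of_nonneg_left hX2 hlin
  -- quadratic part
  have hquad : 2 * ξ * (1 + k) * A1 / k ^ 2 * X - A1 * (1 + k) * ξ ^ 2 / k ^ 2 ≤
      A1 * (1 + k) * X ^ 2 / k ^ 2 := by
    have e : A1 * (1 + k) * X ^ 2 / k ^ 2 - (2 * ξ * (1 + k) * A1 / k ^ 2 * X - A1 * (1 + k) * ξ ^ 2 / k ^ 2) =
        A1 * (1 + k) * (X - ξ) ^ 2 / k ^ 2 := by ring
    have : 0 ≤ A1 * (1 + k) * (X - ξ) ^ 2 / k ^ 2 := by positivity
    linarith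
  have hwe : 1 / 2 - wk + 3 / 2 * wk ^ 2 * yk =
      1 / 2 - (1 + k) * (A2 + k ^ 2) / ((m + 2) * k ^ 2 + A2) +
          3 / 2 * (1 + k) ^ 2 * A2 * (A2 + k ^ 2) / ((m + 2) * k ^ 2 + A2) ^ 2 := by
    have hE : (m + 2) * k ^ 2 + A2 ≠ 0 := by positivity
    rw [hwk, hMke, hyk]
    field_simp
  rw [← hwe] at hfin
  have hQy : Q * y = Q * yk - Q * u := by rw [hu]; ring
  have e9 : (2 - 1 / k) * X = lin * X + 2 * ξ * (1 + k) * A1 / k ^ 2 * X := by rw [hlind]; ring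
  have e10 : lin * (1 / 2 - wk + 3 / 2 * wk ^ 2 * yk + q) =
      lin * (1 / 2 - wk + 3 / 2 * wk ^ 2 * yk) + lin * q := by ring
  rw [e9]
  linarith

end Crest.Agent.R230.WR
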