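import Crest.Agent.R230.CaseIIppB

/-!
# Row 230: block B5: one-variable certificates (generated)
-/

set_option autoImplicit false
set_option maxHeartbeats 4000000
set_option linter.style.longLine false
set_option linter.unusedVariables false

open Set

namespace Crest.Agent.R230.WR

lemma GG_posA_5 {a k X y A1 : ℝ} (hk : 0 < k) (hk2 : k ≤ 1 / 2) (hA1 : 0 ≤ A1) (hX : 0 ≤ X)
    (hy : y * ((289/400) + k ^ 2) ≤ (289/400))
    (ha : ∀ c₀ : ℝ, 0 ≤ c₀ → 2 - 2 * c₀ ^ 2 / (1 + c₀) - (2 + c₀) / (1 + c₀) ^ 2 * (y - c₀ ^ 2) ≤ a) :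
    0 < GG 5 A1 (1/80) a k X := by
  have ha' : (7/4) - (3/4) * y ≤ a := by
    have := ha 1 (by norm_num)
    norm_num at this
    linarith
  refine GG_A (A2 := (289/400)) (P := (7/4)) (Q := (3/4)) (y := y) hk hk2 hA1 hX (by norm_num)
    (by norm_num) hy ha' ?_
  have hv : 0 ≤ (1/2) - k := by linarith
  have h : (7/4) - (3/4) * ((289/400) / ((289/400) + k ^ 2)) - 3 / (2 * (5 + 2)) * (1 + k) -
      (1 + 7 / (4 * 5)) * ((1 + k) / (2 + k)) - (1/80) = (1/1000) +
      ((393329/175000) * ((1/2) - k)^4 +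
        (2221543/700000) * k * ((1/2) - k)^3 +
        (1535633/700000) * k^2 * ((1/2) - k)^2 +
        (2341001/700000) * k^3 * ((1/2) - k) +
        (260719/140000) * k^4) /
      (((289/400) + k ^ 2) * (2 + k)) := by
    field_simp
    ring
  rw [h]
  positivity

lemma GG_posB_5 {a k X y : ℝ} (hk2 : 1 / 2 ≤ k) (hk3 : k ≤ (5/2))
    (hy0 : 0 ≤ y) (hy : y * ((289/400) + k ^ 2) ≤ (289/400))
    (ha : ∀ c₀ : ℝ, 0 ≤ c₀ → 2 - 2 * c₀ ^ 2 / (1 + c₀) - (2 + c₀) / (1 + c₀) ^ 2 * (y - c₀ ^ 2) ≤ a)
    (hX : 2 * X ≤ 1 - 2 * ((1 + k) / ((5 + 2) - (5 + 1) * y)) +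
      3 * ((1 + k) / ((5 + 2) - (5 + 1) * y)) ^ 2 * y) :
    0 < GG 5 1 (1/80) a k X := by
  have hk : 0 < k := by linarith
  rcases le_total k (21/20) with hkb | hkb
  · have ha' : (5437/2890) - (270/289) * y ≤ a := by
      have := ha (7/10) (by norm_num)
      norm_num at this
      linarith
    have hu : 0 ≤ k - (1/2) := by linarith
    have hv : 0 ≤ (21/20) - k := by linarith
    refine GG_B (A2 := (289/400)) (P := (5437/2890)) (Q := (270/289)) (y := y) hk (by norm_num) (by norm_num)
      (by norm_num) hy ha' ?_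
    have h : (5437/2890) - (270/289) * ((289/400) / ((289/400) + k ^ 2)) - 3 / (2 * (5 + 2)) * (1 + k) -
        (1 + 7 / (4 * 5)) * ((1 + k) / (2 + k)) - (1/80) - (2 * k - 1) ^ 2 / (4 * (1 + k) * 1) = (1/1000) +
        ((90782715/29618743) * ((21/20) - k)^5 +
        (4465401949/148093715) * (k - (1/2)) * ((21/20) - k)^4 +
        (272583911361/2961874300) * (k - (1/2))^2 * ((21/20) - k)^3 +
        (343217518253/2961874300) * (k - (1/2))^3 * ((21/20) - k)^2 +
        (39240877373/740468575) * (k - (1/2))^4 * ((21/20) - k) +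
        (250357347/296187430) * (k - (1/2))^5) /
        (((289/400) + k ^ 2) * (2 + k) * (1 + k)) := by
      field_simp
      ring
    rw [h]
    positivity
  rcases le_total k (73/40) with hkb | hkb
  · have ha' : (32911/16820) - (980/841) * y ≤ a := by
      have := ha (9/20) (by norm_num)
      norm_num at this
      linarith
    have hkb' : k ≤ (73/40) := by linarith
    have hu : 0 ≤ k - (21/20) := by linarith
    have hv : 0 ≤ (73/40) - k := by linarith
    have hk2' : (441/400) ≤ k ^ 2 := by nlinarith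
    refine GG_C (A2 := (289/400)) (P := (32911/16820)) (Q := (980/841)) (ξ := (3/20)) (L := (106/73)) (M₀ := (231/50)) (y := y)
      (by norm_num) hk (by norm_num) (by norm_num) (by norm_num) hy0 hy ha' hX ?_ ?_ (by norm_num) ?_ ?_ ?_
    · have e : 2 - 1 / k - 2 * (3/20) * (1 + k) * 1 / k ^ 2 = (2 * k ^ 2 - k - (3/10) * (1 + k)) / k ^ 2 := by
        field_simp
        try ring
      rw [e]
      refine div_nonneg ?_ (by positivity)
      nlinarith
    · have e1 : 1 / (73/40) ≤ 1 / k := one_div_le_one_div_of_le hk hkb'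
      have e2 : 0 ≤ 2 * (3/20) * (1 + k) * 1 / k ^ 2 := by positivity
      have e3 : (2 : ℝ) - 1 / (73/40) = (106/73) := by norm_num
      linarith
    · linarith
    · linarith
    · have h : (32911/16820) - (980/841) * ((289/400) / ((289/400) + k ^ 2)) - 3 / (2 * (5 + 2)) * (1 + k) -
        (1 + 7 / (4 * 5)) * ((1 + k) / (2 + k)) - (1/80) -
        (2 - 1 / k - 2 * (3/20) * (1 + k) * 1 / k ^ 2) *
        (1 / 2 - (1 + k) * ((289/400) + k ^ 2) / ((5 + 2) * k ^ 2 + (289/400)) +
          3 / 2 * (1 + k) ^ 2 * (289/400) * ((289/400) + k ^ 2) / ((5 + 2) * k ^ 2 + (289/400)) ^ 2) -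
        1 * (1 + k) * (3/20) ^ 2 / k ^ 2 = (1/1000) +
        ((161934800764538400768/3446536946754268205) * ((73/40) - k)^10 +
        (11771536883136082032128/17232684733771341025) * (k - (21/20)) * ((73/40) - k)^9 +
        (582487443358683343284736/120628793136399387175) * (k - (21/20))^2 * ((73/40) - k)^8 +
        (2559166618260218541595392/120628793136399387175) * (k - (21/20))^3 * ((73/40) - k)^7 +
        (7519199490370106639030624/120628793136399387175) * (k - (21/20))^4 * ((73/40) - k)^6 +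
        (3024775734461598216848264/24125758627279877435) * (k - (21/20))^5 * ((73/40) - k)^5 +
        (20830526198524663092973836/120628793136399387175) * (k - (21/20))^6 * ((73/40) - k)^4 +
        (664554286426644621193162/4159613556427565075) * (k - (21/20))^7 * ((73/40) - k)^3 +
        (11431563193144984424813489/120628793136399387175) * (k - (21/20))^8 * ((73/40) - k)^2 +
        (3928113177380450853958669/120628793136399387175) * (k - (21/20))^9 * ((73/40) - k) +
        (238644675941635248939009/48251517254559754870) * (k - (21/20))^10) /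
        (((289/400) + k ^ 2) * (2 + k) * ((5 + 2) * k ^ 2 + (289/400)) ^ 2 * k ^ 2) := by
        field_simp
        ring
      rw [h]
      positivity
  have ha' : (37109/19220) - (1020/961) * y ≤ a := by
    have := ha (11/20) (by norm_num)
    norm_num at this
    linarith
  have hkb' : k ≤ (5/2) := by linarith
  have hu : 0 ≤ k - (73/40) := by linarith
  have hv : 0 ≤ (5/2) - k := by linarith
  have hk2' : (5329/1600) ≤ k ^ 2 := by nlinarith
  refine GG_C (A2 := (289/400)) (P := (37109/19220)) (Q := (1020/961)) (ξ := 0) (L := (8/5)) (M₀ := (593/100)) (y := y)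
    (by norm_num) hk (by norm_num) (by norm_num) (by norm_num) hy0 hy ha' hX ?_ ?_ (by norm_num) ?_ ?_ ?_
  · have e : 2 - 1 / k - 2 * 0 * (1 + k) * 1 / k ^ 2 = (2 * k ^ 2 - k - 0 * (1 + k)) / k ^ 2 := by
      field_simp
      try ring
    rw [e]
    refine div_nonneg ?_ (by positivity)
    nlinarith
  · have e1 : 1 / (5/2) ≤ 1 / k := one_div_le_one_div_of_le hk hkb'
    have e2 : 0 ≤ 2 * 0 * (1 + k) * 1 / k ^ 2 := by positivity
    have e3 : (2 : ℝ) - 1 / (5/2) = (8/5) := by norm_num
    linarith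
  · linarith
  · linarith
  · have h : (37109/19220) - (1020/961) * ((289/400) / ((289/400) + k ^ 2)) - 3 / (2 * (5 + 2)) * (1 + k) -
      (1 + 7 / (4 * 5)) * ((1 + k) / (2 + k)) - (1/80) -
      (2 - 1 / k - 2 * 0 * (1 + k) * 1 / k ^ 2) *
      (1 / 2 - (1 + k) * ((289/400) + k ^ 2) / ((5 + 2) * k ^ 2 + (289/400)) +
        3 / 2 * (1 + k) ^ 2 * (289/400) * ((289/400) + k ^ 2) / ((5 + 2) * k ^ 2 + (289/400)) ^ 2) -
      1 * (1 + k) * 0 ^ 2 / k ^ 2 = (1/1000) +
      ((7472891401269915679771/1538921828445226470) * ((5/2) - k)^10 +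
        (307608937556371442828863/3847304571113066175) * (k - (73/40)) * ((5/2) - k)^9 +
        (6814069754865290328418/12213665305120845) * (k - (73/40))^2 * ((5/2) - k)^8 +
        (2847325926096806596668634/1282434857037688725) * (k - (73/40))^3 * ((5/2) - k)^7 +
        (1448985123079972480635344/256486971407537745) * (k - (73/40))^4 * ((5/2) - k)^6 +
        (4137722750745036129480736/427478285679229575) * (k - (73/40))^5 * ((5/2) - k)^5 +
        (14585876884715063661144736/1282434857037688725) * (k - (73/40))^6 * ((5/2) - k)^4 +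
        (11657927987887931717035168/1282434857037688725) * (k - (73/40))^7 * ((5/2) - k)^3 +
        (405902700157742271133312/85495657135845915) * (k - (73/40))^8 * ((5/2) - k)^2 +
        (225910200697049957808640/153892182844522647) * (k - (73/40))^9 * ((5/2) - k) +
        (4500004059881358592000/21984597549217521) * (k - (73/40))^10) /
      (((289/400) + k ^ 2) * (2 + k) * ((5 + 2) * k ^ 2 + (289/400)) ^ 2 * k ^ 2) := by
      field_simp
      ring
    rw [h]
    positivity

lemma GG_posA_6 {a k X y A1 : ℝ} (hk : 0 < k) (hk2 : k ≤ 1 / 2) (hA1 : 0 ≤ A1) (hX : 0 ≤ X)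
    (hy : y * ((10609/10000) + k ^ 2) ≤ (10609/10000))
    (ha : ∀ c₀ : ℝ, 0 ≤ c₀ → 2 - 2 * c₀ ^ 2 / (1 + c₀) - (2 + c₀) / (1 + c₀) ^ 2 * (y - c₀ ^ 2) ≤ a) :
    0 < GG 6 A1 (13/1000) a k X := by
  have ha' : (7/4) - (3/4) * y ≤ a := by
    have := ha 1 (by norm_num)
    norm_num at this
    linarith
  refine GG_A (A2 := (10609/10000)) (P := (7/4)) (Q := (3/4)) (y := y) hk hk2 hA1 hX (by norm_num)
    (by norm_num) hy ha' ?_
  have hv : 0 ≤ (1/2) - k := by linarith
  have h : (7/4) - (3/4) * ((10609/10000) / ((10609/10000) + k ^ 2)) - 3 / (2 * (6 + 2)) * (1 + k) -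
      (1 + 7 / (4 * 6)) * ((1 + k) / (2 + k)) - (13/1000) = (1/1000) +
      ((2429461/468750) * ((1/2) - k)^4 +
        (33407741/2500000) * k * ((1/2) - k)^3 +
        (231267701/15000000) * k^2 * ((1/2) - k)^2 +
        (21077759/1875000) * k^3 * ((1/2) - k) +
        (3816371/1000000) * k^4) /
      (((10609/10000) + k ^ 2) * (2 + k)) := by
    field_simp
    ring
  rw [h]
  positivity

lemma GG_posB_6 {a k X y : ℝ} (hk2 : 1 / 2 ≤ k) (hk3 : k ≤ 3)
    (hy0 : 0 ≤ y) (hy : y * ((10609/10000) + k ^ 2) ≤ (10609/10000))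
    (ha : ∀ c₀ : ℝ, 0 ≤ c₀ → 2 - 2 * c₀ ^ 2 / (1 + c₀) - (2 + c₀) / (1 + c₀) ^ 2 * (y - c₀ ^ 2) ≤ a)
    (hX : 2 * X ≤ 1 - 2 * ((1 + k) / ((6 + 2) - (6 + 1) * y)) +
      3 * ((1 + k) / ((6 + 2) - (6 + 1) * y)) ^ 2 * y) :
    0 < GG 6 2 (13/1000) a k X := by
  have hk : 0 < k := by linarith
  rcases le_total k (29/20) with hkb | hkb
  · have ha' : (613/320) - (65/64) * y ≤ a := by
      have := ha (3/5) (by norm_num)
      norm_num at this
      linarith
    have hu : 0 ≤ k - (1/2) := by linarith
    have hv : 0 ≤ (29/20) - k := by linarith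
    refine GG_B (A2 := (10609/10000)) (P := (613/320)) (Q := (65/64)) (y := y) hk (by norm_num) (by norm_num)
      (by norm_num) hy ha' ?_
    have h : (613/320) - (65/64) * ((10609/10000) / ((10609/10000) + k ^ 2)) - 3 / (2 * (6 + 2)) * (1 + k) -
        (1 + 7 / (4 * 6)) * ((1 + k) / (2 + k)) - (13/1000) - (2 * k - 1) ^ 2 / (4 * (1 + k) * 2) = (1/1000) +
        ((3687063/24760990) * ((29/20) - k)^5 +
        (2981949867/1238049500) * (k - (1/2)) * ((29/20) - k)^4 +
        (380727502733/37141485000) * (k - (1/2))^2 * ((29/20) - k)^3 +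
        (1266397698703/74282970000) * (k - (1/2))^3 * ((29/20) - k)^2 +
        (724352350813/74282970000) * (k - (1/2))^4 * ((29/20) - k) +
        (484312681/74282970000) * (k - (1/2))^5) /
        (((10609/10000) + k ^ 2) * (2 + k) * (1 + k)) := by
      field_simp
      ring
    rw [h]
    positivity
  rcases le_total k (21/8) with hkb | hkb
  · have ha' : (28817/14580) - (940/729) * y ≤ a := by
      have := ha (7/20) (by norm_num)
      norm_num at this
      linarith
    have hkb' : k ≤ (21/8) := by linarith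
    have hu : 0 ≤ k - (29/20) := by linarith
    have hv : 0 ≤ (21/8) - k := by linarith
    have hk2' : (841/400) ≤ k ^ 2 := by nlinarith
    refine GG_C (A2 := (10609/10000)) (P := (28817/14580)) (Q := (940/729)) (ξ := (3/20)) (L := (34/21)) (M₀ := (113/20)) (y := y)
      (by norm_num) hk (by norm_num) (by norm_num) (by norm_num) hy0 hy ha' hX ?_ ?_ (by norm_num) ?_ ?_ ?_
    · have e : 2 - 1 / k - 2 * (3/20) * (1 + k) * 2 / k ^ 2 = (2 * k ^ 2 - k - (3/5) * (1 + k)) / k ^ 2 := by
        field_simp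
        try ring
      rw [e]
      refine div_nonneg ?_ (by positivity)
      nlinarith
    · have e1 : 1 / (21/8) ≤ 1 / k := one_div_le_one_div_of_le hk hkb'
      have e2 : 0 ≤ 2 * (3/20) * (1 + k) * 2 / k ^ 2 := by positivity
      have e3 : (2 : ℝ) - 1 / (21/8) = (34/21) := by norm_num
      linarith
    · linarith
    · linarith
    · have h : (28817/14580) - (940/729) * ((10609/10000) / ((10609/10000) + k ^ 2)) - 3 / (2 * (6 + 2)) * (1 + k) -
        (1 + 7 / (4 * 6)) * ((1 + k) / (2 + k)) - (13/1000) -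
        (2 - 1 / k - 2 * (3/20) * (1 + k) * 2 / k ^ 2) *
        (1 / 2 - (1 + k) * ((10609/10000) + k ^ 2) / ((6 + 2) * k ^ 2 + (10609/10000)) +
          3 / 2 * (1 + k) ^ 2 * (10609/10000) * ((10609/10000) + k ^ 2) / ((6 + 2) * k ^ 2 + (10609/10000)) ^ 2) -
        2 * (1 + k) * (3/20) ^ 2 / k ^ 2 = (1/1000) +
        ((2041455425829831960187264/554756472799770048046875) * ((21/8) - k)^10 +
        (162619191329091629011063744/1664269418399310144140625) * (k - (29/20)) * ((21/8) - k)^9 +
        (5249533585573571632887114416/4992808255197930432421875) * (k - (29/20))^2 * ((21/8) - k)^8 +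
        (735745491172560027858896224/119827398124750330378125) * (k - (29/20))^3 * ((21/8) - k)^7 +
        (65897255239527511058641329536/2995684953118758259453125) * (k - (29/20))^4 * ((21/8) - k)^6 +
        (768455798433506866911250377988/14978424765593791297265625) * (k - (29/20))^5 * ((21/8) - k)^5 +
        (1195055924096838855702639098321/14978424765593791297265625) * (k - (29/20))^6 * ((21/8) - k)^4 +
        (411570604097651203694724016096/4992808255197930432421875) * (k - (29/20))^7 * ((21/8) - k)^3 +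
        (6058462355632624977253023997/110951294559954009609375) * (k - (29/20))^8 * ((21/8) - k)^2 +
        (187568782776571833952466749/8876103564796320768750) * (k - (29/20))^9 * ((21/8) - k) +
        (10852990838799160061683031/2958701188265440256250) * (k - (29/20))^10) /
        (((10609/10000) + k ^ 2) * (2 + k) * ((6 + 2) * k ^ 2 + (10609/10000)) ^ 2 * k ^ 2) := by
        field_simp
        ring
      rw [h]
      positivity
  have ha' : (41363/21780) - (1060/1089) * y ≤ a := by
    have := ha (13/20) (by norm_num)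
    norm_num at this
    linarith
  have hkb' : k ≤ 3 := by linarith
  have hu : 0 ≤ k - (21/8) := by linarith
  have hv : 0 ≤ 3 - k := by linarith
  have hk2' : (441/64) ≤ k ^ 2 := by nlinarith
  refine GG_C (A2 := (10609/10000)) (P := (41363/21780)) (Q := (1060/1089)) (ξ := (1/20)) (L := (5/3)) (M₀ := (353/50)) (y := y)
    (by norm_num) hk (by norm_num) (by norm_num) (by norm_num) hy0 hy ha' hX ?_ ?_ (by norm_num) ?_ ?_ ?_
  · have e : 2 - 1 / k - 2 * (1/20) * (1 + k) * 2 / k ^ 2 = (2 * k ^ 2 - k - (1/5) * (1 + k)) / k ^ 2 := by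
      field_simp
      try ring
    rw [e]
    refine div_nonneg ?_ (by positivity)
    nlinarith
  · have e1 : 1 / 3 ≤ 1 / k := one_div_le_one_div_of_le hk hkb'
    have e2 : 0 ≤ 2 * (1/20) * (1 + k) * 2 / k ^ 2 := by positivity
    have e3 : (2 : ℝ) - 1 / 3 = (5/3) := by norm_num
    linarith
  · linarith
  · linarith
  · have h : (41363/21780) - (1060/1089) * ((10609/10000) / ((10609/10000) + k ^ 2)) - 3 / (2 * (6 + 2)) * (1 + k) -
      (1 + 7 / (4 * 6)) * ((1 + k) / (2 + k)) - (13/1000) -
      (2 - 1 / k - 2 * (1/20) * (1 + k) * 2 / k ^ 2) *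
      (1 / 2 - (1 + k) * ((10609/10000) + k ^ 2) / ((6 + 2) * k ^ 2 + (10609/10000)) +
        3 / 2 * (1 + k) ^ 2 * (10609/10000) * ((10609/10000) + k ^ 2) / ((6 + 2) * k ^ 2 + (10609/10000)) ^ 2) -
      2 * (1 + k) * (1/20) ^ 2 / k ^ 2 = (1/1000) +
      ((1105163225806140604131653/145363952636718750) * (3 - k)^10 +
        (230211293359768539293033/2642980957031250) * (k - (21/8)) * (3 - k)^9 +
        (33327301066946638879815262/72681976318359375) * (k - (21/8))^2 * (3 - k)^8 +
        (21226317726517345407771496/14536395263671875) * (k - (21/8))^3 * (3 - k)^7 +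
        (226074806223883611952753639/72681976318359375) * (k - (21/8))^4 * (3 - k)^6 +
        (335760506102921673927446984/72681976318359375) * (k - (21/8))^5 * (3 - k)^5 +
        (14041995480017032399134508/2907279052734375) * (k - (21/8))^6 * (3 - k)^4 +
        (254339963534821216577033312/72681976318359375) * (k - (21/8))^7 * (3 - k)^3 +
        (4873832723427912873101056/2907279052734375) * (k - (21/8))^8 * (3 - k)^2 +
        (1053437111626218326448128/2202484130859375) * (k - (21/8))^9 * (3 - k) +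
        (7398181524395718148096/120135498046875) * (k - (21/8))^10) /
      (((10609/10000) + k ^ 2) * (2 + k) * ((6 + 2) * k ^ 2 + (10609/10000)) ^ 2 * k ^ 2) := by
      field_simp
      ring
    rw [h]
    positivity

lemma GG_posA_7 {a k X y A1 : ℝ} (hk : 0 < k) (hk2 : k ≤ 1 / 2) (hA1 : 0 ≤ A1) (hX : 0 ≤ X)
    (hy : y * ((81/64) + k ^ 2) ≤ (81/64))
    (ha : ∀ c₀ : ℝ, 0 ≤ c₀ → 2 - 2 * c₀ ^ 2 / (1 + c₀) - (2 + c₀) / (1 + c₀) ^ 2 * (y - c₀ ^ 2) ≤ a) :
    0 < GG 7 A1 (23/2000) a k X := by
  have ha' : (7/4) - (3/4) * y ≤ a := by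
    have := ha 1 (by norm_num)
    norm_num at this
    linarith
  refine GG_A (A2 := (81/64)) (P := (7/4)) (Q := (3/4)) (y := y) hk hk2 hA1 hX (by norm_num)
    (by norm_num) hy ha' ?_
  have hv : 0 ≤ (1/2) - k := by linarith
  have h : (7/4) - (3/4) * ((81/64) / ((81/64) + k ^ 2)) - 3 / (2 * (7 + 2)) * (1 + k) -
      (1 + 7 / (4 * 7)) * ((1 + k) / (2 + k)) - (23/2000) = (1/1000) +
      ((1269/160) * ((1/2) - k)^4 +
        (15363/640) * k * ((1/2) - k)^3 +
        (59807/1920) * k^2 * ((1/2) - k)^2 +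
        (42211/1920) * k^3 * ((1/2) - k) +
        (863/128) * k^4) /
      (((81/64) + k ^ 2) * (2 + k)) := by
    field_simp
    ring
  rw [h]
  positivity

lemma GG_posB_7 {a k X y : ℝ} (hk2 : 1 / 2 ≤ k) (hk3 : k ≤ (7/2))
    (hy0 : 0 ≤ y) (hy : y * ((81/64) + k ^ 2) ≤ (81/64))
    (ha : ∀ c₀ : ℝ, 0 ≤ c₀ → 2 - 2 * c₀ ^ 2 / (1 + c₀) - (2 + c₀) / (1 + c₀) ^ 2 * (y - c₀ ^ 2) ≤ a)
    (hX : 2 * X ≤ 1 - 2 * ((1 + k) / ((7 + 2) - (7 + 1) * y)) +
      3 * ((1 + k) / ((7 + 2) - (7 + 1) * y)) ^ 2 * y) :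
    0 < GG 7 2 (23/2000) a k X := by
  have hk : 0 < k := by linarith
  rcases le_total k (63/40) with hkb | hkb
  · have ha' : (41363/21780) - (1060/1089) * y ≤ a := by
      have := ha (13/20) (by norm_num)
      norm_num at this
      linarith
    have hu : 0 ≤ k - (1/2) := by linarith
    have hv : 0 ≤ (63/40) - k := by linarith
    refine GG_B (A2 := (81/64)) (P := (41363/21780)) (Q := (1060/1089)) (y := y) hk (by norm_num) (by norm_num)
      (by norm_num) hy ha' ?_
    have h : (41363/21780) - (1060/1089) * ((81/64) / ((81/64) + k ^ 2)) - 3 / (2 * (7 + 2)) * (1 + k) -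
        (1 + 7 / (4 * 7)) * ((1 + k) / (2 + k)) - (23/2000) - (2 * k - 1) ^ 2 / (4 * (1 + k) * 2) = (1/1000) +
        ((15594275000/53364064809) * ((63/40) - k)^5 +
        (436310266000/160092194427) * (k - (1/2)) * ((63/40) - k)^4 +
        (1018748265925/106728129618) * (k - (1/2))^2 * ((63/40) - k)^3 +
        (4766445551425/320184388854) * (k - (1/2))^3 * ((63/40) - k)^2 +
        (151807261586/17788021603) * (k - (1/2))^4 * ((63/40) - k) +
        (150600069/1617092873) * (k - (1/2))^5) /
        (((81/64) + k ^ 2) * (2 + k) * (1 + k)) := by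
      field_simp
      ring
    rw [h]
    positivity
  rcases le_total k (121/40) with hkb | hkb
  · have ha' : (3353/1690) - (230/169) * y ≤ a := by
      have := ha (3/10) (by norm_num)
      norm_num at this
      linarith
    have hkb' : k ≤ (121/40) := by linarith
    have hu : 0 ≤ k - (63/40) := by linarith
    have hv : 0 ≤ (121/40) - k := by linarith
    have hk2' : (3969/1600) ≤ k ^ 2 := by nlinarith
    refine GG_C (A2 := (81/64)) (P := (3353/1690)) (Q := (230/169)) (ξ := (3/20)) (L := (202/121)) (M₀ := (629/100)) (y := y)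
      (by norm_num) hk (by norm_num) (by norm_num) (by norm_num) hy0 hy ha' hX ?_ ?_ (by norm_num) ?_ ?_ ?_
    · have e : 2 - 1 / k - 2 * (3/20) * (1 + k) * 2 / k ^ 2 = (2 * k ^ 2 - k - (3/5) * (1 + k)) / k ^ 2 := by
        field_simp
        try ring
      rw [e]
      refine div_nonneg ?_ (by positivity)
      nlinarith
    · have e1 : 1 / (121/40) ≤ 1 / k := one_div_le_one_div_of_le hk hkb'
      have e2 : 0 ≤ 2 * (3/20) * (1 + k) * 2 / k ^ 2 := by positivity
      have e3 : (2 : ℝ) - 1 / (121/40) = (202/121) := by norm_num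
      linarith
    · linarith
    · linarith
    · have h : (3353/1690) - (230/169) * ((81/64) / ((81/64) + k ^ 2)) - 3 / (2 * (7 + 2)) * (1 + k) -
        (1 + 7 / (4 * 7)) * ((1 + k) / (2 + k)) - (23/2000) -
        (2 - 1 / k - 2 * (3/20) * (1 + k) * 2 / k ^ 2) *
        (1 / 2 - (1 + k) * ((81/64) + k ^ 2) / ((7 + 2) * k ^ 2 + (81/64)) +
          3 / 2 * (1 + k) ^ 2 * (81/64) * ((81/64) + k ^ 2) / ((7 + 2) * k ^ 2 + (81/64)) ^ 2) -
        2 * (1 + k) * (3/20) ^ 2 / k ^ 2 = (1/1000) +
        ((25248418781229796203/11200909379384551424) * ((121/40) - k)^10 +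
        (2665680398580728997459/36402955482999792128) * (k - (63/40)) * ((121/40) - k)^9 +
        (123191990576974937911617/145611821931999168512) * (k - (63/40))^2 * ((121/40) - k)^8 +
        (93926311988859495016281/18201477741499896064) * (k - (63/40))^3 * ((121/40) - k)^7 +
        (1400111868187973707032285/72805910965999584256) * (k - (63/40))^4 * ((121/40) - k)^6 +
        (425446436222427887959059/9100738870749948032) * (k - (63/40))^5 * ((121/40) - k)^5 +
        (5535018840330346015336491/72805910965999584256) * (k - (63/40))^6 * ((121/40) - k)^4 +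
        (1499290128420275479097223/18201477741499896064) * (k - (63/40))^7 * ((121/40) - k)^3 +
        (8344601177133409424310231/145611821931999168512) * (k - (63/40))^8 * ((121/40) - k)^2 +
        (847344582193733557301025/36402955482999792128) * (k - (63/40))^9 * ((121/40) - k) +
        (615187992208697347395177/145611821931999168512) * (k - (63/40))^10) /
        (((81/64) + k ^ 2) * (2 + k) * ((7 + 2) * k ^ 2 + (81/64)) ^ 2 * k ^ 2) := by
        field_simp
        ring
      rw [h]
      positivity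
  have ha' : (41363/21780) - (1060/1089) * y ≤ a := by
    have := ha (13/20) (by norm_num)
    norm_num at this
    linarith
  have hkb' : k ≤ (7/2) := by linarith
  have hu : 0 ≤ k - (121/40) := by linarith
  have hv : 0 ≤ (7/2) - k := by linarith
  have hk2' : (14641/1600) ≤ k ^ 2 := by nlinarith
  refine GG_C (A2 := (81/64)) (P := (41363/21780)) (Q := (1060/1089)) (ξ := 0) (L := (12/7)) (M₀ := (401/50)) (y := y)
    (by norm_num) hk (by norm_num) (by norm_num) (by norm_num) hy0 hy ha' hX ?_ ?_ (by norm_num) ?_ ?_ ?_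
  · have e : 2 - 1 / k - 2 * 0 * (1 + k) * 2 / k ^ 2 = (2 * k ^ 2 - k - 0 * (1 + k)) / k ^ 2 := by
      field_simp
      try ring
    rw [e]
    refine div_nonneg ?_ (by positivity)
    nlinarith
  · have e1 : 1 / (7/2) ≤ 1 / k := one_div_le_one_div_of_le hk hkb'
    have e2 : 0 ≤ 2 * 0 * (1 + k) * 2 / k ^ 2 := by positivity
    have e3 : (2 : ℝ) - 1 / (7/2) = (12/7) := by norm_num
    linarith
  · linarith
  · linarith
  · have h : (41363/21780) - (1060/1089) * ((81/64) / ((81/64) + k ^ 2)) - 3 / (2 * (7 + 2)) * (1 + k) -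
      (1 + 7 / (4 * 7)) * ((1 + k) / (2 + k)) - (23/2000) -
      (2 - 1 / k - 2 * 0 * (1 + k) * 2 / k ^ 2) *
      (1 / 2 - (1 + k) * ((81/64) + k ^ 2) / ((7 + 2) * k ^ 2 + (81/64)) +
        3 / 2 * (1 + k) ^ 2 * (81/64) * ((81/64) + k ^ 2) / ((7 + 2) * k ^ 2 + (81/64)) ^ 2) -
      2 * (1 + k) * 0 ^ 2 / k ^ 2 = (1/1000) +
      ((1551417980289633046701/12262132515602) * ((7/2) - k)^10 +
        (18000520873556075233047/12262132515602) * (k - (121/40)) * ((7/2) - k)^9 +
        (516848187132535855991040/67441728835811) * (k - (121/40))^2 * ((7/2) - k)^8 +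
        (3197717243496730196748225/134883457671622) * (k - (121/40))^3 * ((7/2) - k)^7 +
        (285636344179105157587448625/5934872137551368) * (k - (121/40))^4 * ((7/2) - k)^6 +
        (397658325428249630304178125/5934872137551368) * (k - (121/40))^5 * ((7/2) - k)^5 +
        (48063436961606868261318750/741859017193921) * (k - (121/40))^6 * ((7/2) - k)^4 +
        (63748627414373545123921875/1483718034387842) * (k - (121/40))^7 * ((7/2) - k)^3 +
        (13875583579736968489218750/741859017193921) * (k - (121/40))^8 * ((7/2) - k)^2 +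
        (3580629649207292165625000/741859017193921) * (k - (121/40))^9 * ((7/2) - k) +
        (37814180031672187500000/67441728835811) * (k - (121/40))^10) /
      (((81/64) + k ^ 2) * (2 + k) * ((7 + 2) * k ^ 2 + (81/64)) ^ 2 * k ^ 2) := by
      field_simp
      ring
    rw [h]
    positivity

lemma GG_posA_8 {a k X y A1 : ℝ} (hk : 0 < k) (hk2 : k ≤ 1 / 2) (hA1 : 0 ≤ A1) (hX : 0 ≤ X)
    (hy : y * ((14641/10000) + k ^ 2) ≤ (14641/10000))
    (ha : ∀ c₀ : ℝ, 0 ≤ c₀ → 2 - 2 * c₀ ^ 2 / (1 + c₀) - (2 + c₀) / (1 + c₀) ^ 2 * (y - c₀ ^ 2) ≤ a) :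
    0 < GG 8 A1 (21/2000) a k X := by
  have ha' : (7/4) - (3/4) * y ≤ a := by
    have := ha 1 (by norm_num)
    norm_num at this
    linarith
  refine GG_A (A2 := (14641/10000)) (P := (7/4)) (Q := (3/4)) (y := y) hk hk2 hA1 hX (by norm_num)
    (by norm_num) hy ha' ?_
  have hv : 0 ≤ (1/2) - k := by linarith
  have h : (7/4) - (3/4) * ((14641/10000) / ((14641/10000) + k ^ 2)) - 3 / (2 * (8 + 2)) * (1 + k) -
      (1 + 7 / (4 * 8)) * ((1 + k) / (2 + k)) - (21/2000) = (1/1000) +
      ((26836953/2500000) * ((1/2) - k)^4 +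
        (174857463/5000000) * k * ((1/2) - k)^3 +
        (237301653/5000000) * k^2 * ((1/2) - k)^2 +
        (165424041/5000000) * k^3 * ((1/2) - k) +
        (9711189/1000000) * k^4) /
      (((14641/10000) + k ^ 2) * (2 + k)) := by
    field_simp
    ring
  rw [h]
  positivity

lemma GG_posB_8 {a k X y : ℝ} (hk2 : 1 / 2 ≤ k) (hk3 : k ≤ 4)
    (hy0 : 0 ≤ y) (hy : y * ((14641/10000) + k ^ 2) ≤ (14641/10000))
    (ha : ∀ c₀ : ℝ, 0 ≤ c₀ → 2 - 2 * c₀ ^ 2 / (1 + c₀) - (2 + c₀) / (1 + c₀) ^ 2 * (y - c₀ ^ 2) ≤ a)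
    (hX : 2 * X ≤ 1 - 2 * ((1 + k) / ((8 + 2) - (8 + 1) * y)) +
      3 * ((1 + k) / ((8 + 2) - (8 + 1) * y)) ^ 2 * y) :
    0 < GG 8 3 (21/2000) a k X := by
  have hk : 0 < k := by linarith
  rcases le_total k (83/40) with hkb | hkb
  · have ha' : (37109/19220) - (1020/961) * y ≤ a := by
      have := ha (11/20) (by norm_num)
      norm_num at this
      linarith
    have hu : 0 ≤ k - (1/2) := by linarith
    have hv : 0 ≤ (83/40) - k := by linarith
    refine GG_B (A2 := (14641/10000)) (P := (37109/19220)) (Q := (1020/961)) (y := y) hk (by norm_num) (by norm_num)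
      (by norm_num) hy ha' ?_
    have h : (37109/19220) - (1020/961) * ((14641/10000) / ((14641/10000) + k ^ 2)) - 3 / (2 * (8 + 2)) * (1 + k) -
        (1 + 7 / (4 * 8)) * ((1 + k) / (2 + k)) - (21/2000) - (2 * k - 1) ^ 2 / (4 * (1 + k) * 3) = (1/1000) +
        ((734171344/19624105305) * ((83/40) - k)^5 +
        (233717137048/490602632625) * (k - (1/2)) * ((83/40) - k)^4 +
        (50612988013753/22077118468125) * (k - (1/2))^2 * ((83/40) - k)^3 +
        (34621604417728/7359039489375) * (k - (1/2))^3 * ((83/40) - k)^2 +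
        (98171833246807/29436157957500) * (k - (1/2))^4 * ((83/40) - k) +
        (30228061841/44154236936250) * (k - (1/2))^5) /
        (((14641/10000) + k ^ 2) * (2 + k) * (1 + k)) := by
      field_simp
      ring
    rw [h]
    positivity
  have ha' : (3353/1690) - (230/169) * y ≤ a := by
    have := ha (3/10) (by norm_num)
    norm_num at this
    linarith
  have hkb' : k ≤ 4 := by linarith
  have hu : 0 ≤ k - (83/40) := by linarith
  have hv : 0 ≤ 4 - k := by linarith
  have hk2' : (6889/1600) ≤ k ^ 2 := by nlinarith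
  refine GG_C (A2 := (14641/10000)) (P := (3353/1690)) (Q := (230/169)) (ξ := 0) (L := (7/4)) (M₀ := (771/100)) (y := y)
    (by norm_num) hk (by norm_num) (by norm_num) (by norm_num) hy0 hy ha' hX ?_ ?_ (by norm_num) ?_ ?_ ?_
  · have e : 2 - 1 / k - 2 * 0 * (1 + k) * 3 / k ^ 2 = (2 * k ^ 2 - k - 0 * (1 + k)) / k ^ 2 := by
      field_simp
      try ring
    rw [e]
    refine div_nonneg ?_ (by positivity)
    nlinarith
  · have e1 : 1 / 4 ≤ 1 / k := one_div_le_one_div_of_le hk hkb'
    have e2 : 0 ≤ 2 * 0 * (1 + k) * 3 / k ^ 2 := by positivity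
    have e3 : (2 : ℝ) - 1 / 4 = (7/4) := by norm_num
    linarith
  · linarith
  · linarith
  · have h : (3353/1690) - (230/169) * ((14641/10000) / ((14641/10000) + k ^ 2)) - 3 / (2 * (8 + 2)) * (1 + k) -
      (1 + 7 / (4 * 8)) * ((1 + k) / (2 + k)) - (21/2000) -
      (2 - 1 / k - 2 * 0 * (1 + k) * 3 / k ^ 2) *
      (1 / 2 - (1 + k) * ((14641/10000) + k ^ 2) / ((8 + 2) * k ^ 2 + (14641/10000)) +
        3 / 2 * (1 + k) ^ 2 * (14641/10000) * ((14641/10000) + k ^ 2) / ((8 + 2) * k ^ 2 + (14641/10000)) ^ 2) -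
      3 * (1 + k) * 0 ^ 2 / k ^ 2 = (1/1000) +
      ((16811389599618025608617397/138192968735163829205468750) * (4 - k)^10 +
        (7986089635301968685959325259/138192968735163829205468750) * (k - (83/40)) * (4 - k)^9 +
        (660943194509018163573017106/759302026017383676953125) * (k - (83/40))^2 * (4 - k)^8 +
        (81221486840278773875848418356/13819296873516382920546875) * (k - (83/40))^3 * (4 - k)^7 +
        (45686340024978063743518721936/1974185267645197560078125) * (k - (83/40))^4 * (4 - k)^6 +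
        (44394821570749384250301134716/759302026017383676953125) * (k - (83/40))^5 * (4 - k)^5 +
        (970198449299511257331032190656/9870926338225987800390625) * (k - (83/40))^6 * (4 - k)^4 +
        (7601151167421484603487550854576/69096484367581914602734375) * (k - (83/40))^7 * (4 - k)^3 +
        (1093721130421040027715914009984/13819296873516382920546875) * (k - (83/40))^8 * (4 - k)^2 +
        (13138430087386204598009536512/394837053529039512015625) * (k - (83/40))^9 * (4 - k) +
        (3452641780976124043151671296/552771874940655316821875) * (k - (83/40))^10) /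
      (((14641/10000) + k ^ 2) * (2 + k) * ((8 + 2) * k ^ 2 + (14641/10000)) ^ 2 * k ^ 2) := by
      field_simp
      ring
    rw [h]
    positivity

lemma GG_posA_9 {a k X y A1 : ℝ} (hk : 0 < k) (hk2 : k ≤ 1 / 2) (hA1 : 0 ≤ A1) (hX : 0 ≤ X)
    (hy : y * ((81/49) + k ^ 2) ≤ (81/49))
    (ha : ∀ c₀ : ℝ, 0 ≤ c₀ → 2 - 2 * c₀ ^ 2 / (1 + c₀) - (2 + c₀) / (1 + c₀) ^ 2 * (y - c₀ ^ 2) ≤ a) :
    0 < GG 9 A1 (19/2000) a k X := by
  have ha' : (7/4) - (3/4) * y ≤ a := by
    have := ha 1 (by norm_num)
    norm_num at this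
    linarith
  refine GG_A (A2 := (81/49)) (P := (7/4)) (Q := (3/4)) (y := y) hk hk2 hA1 hX (by norm_num)
    (by norm_num) hy ha' ?_
  have hv : 0 ≤ (1/2) - k := by linarith
  have h : (7/4) - (3/4) * ((81/49) / ((81/49) + k ^ 2)) - 3 / (2 * (9 + 2)) * (1 + k) -
      (1 + 7 / (4 * 9)) * ((1 + k) / (2 + k)) - (19/2000) = (1/1000) +
      ((912078/67375) * ((1/2) - k)^4 +
        (886059/19250) * k * ((1/2) - k)^3 +
        (38813303/606375) * k^2 * ((1/2) - k)^2 +
        (4390813/99000) * k^3 * ((1/2) - k) +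
        (4106611/323400) * k^4) /
      (((81/49) + k ^ 2) * (2 + k)) := by
    field_simp
    ring
  rw [h]
  positivity

lemma GG_posB_9 {a k X y : ℝ} (hk2 : 1 / 2 ≤ k) (hk3 : k ≤ (9/2))
    (hy0 : 0 ≤ y) (hy : y * ((81/49) + k ^ 2) ≤ (81/49))
    (ha : ∀ c₀ : ℝ, 0 ≤ c₀ → 2 - 2 * c₀ ^ 2 / (1 + c₀) - (2 + c₀) / (1 + c₀) ^ 2 * (y - c₀ ^ 2) ≤ a)
    (hX : 2 * X ≤ 1 - 2 * ((1 + k) / ((9 + 2) - (9 + 1) * y)) +
      3 * ((1 + k) / ((9 + 2) - (9 + 1) * y)) ^ 2 * y) :
    0 < GG 9 4 (19/2000) a k X := by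
  have hk : 0 < k := by linarith
  rcases le_total k (101/40) with hkb | hkb
  · have ha' : (35/18) - (10/9) * y ≤ a := by
      have := ha (1/2) (by norm_num)
      norm_num at this
      linarith
    have hu : 0 ≤ k - (1/2) := by linarith
    have hv : 0 ≤ (101/40) - k := by linarith
    refine GG_B (A2 := (81/49)) (P := (35/18)) (Q := (10/9)) (y := y) hk (by norm_num) (by norm_num)
      (by norm_num) hy ha' ?_
    have h : (35/18) - (10/9) * ((81/49) / ((81/49) + k ^ 2)) - 3 / (2 * (9 + 2)) * (1 + k) -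
        (1 + 7 / (4 * 9)) * ((1 + k) / (2 + k)) - (19/2000) - (2 * k - 1) ^ 2 / (4 * (1 + k) * 4) = (1/1000) +
        ((56229328000/5638130376417) * ((101/40) - k)^5 +
        (127483739840/805447196631) * (k - (1/2)) * ((101/40) - k)^4 +
        (5434292741392/5638130376417) * (k - (1/2))^2 * ((101/40) - k)^3 +
        (13507445672848/5638130376417) * (k - (1/2))^3 * ((101/40) - k)^2 +
        (557763759636253/281906518820850) * (k - (1/2))^4 * ((101/40) - k) +
        (6759685586431/563813037641700) * (k - (1/2))^5) /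
        (((81/49) + k ^ 2) * (2 + k) * (1 + k)) := by
      field_simp
      ring
    rw [h]
    positivity
  have ha' : (482/245) - (60/49) * y ≤ a := by
    have := ha (2/5) (by norm_num)
    norm_num at this
    linarith
  have hkb' : k ≤ (9/2) := by linarith
  have hu : 0 ≤ k - (101/40) := by linarith
  have hv : 0 ≤ (9/2) - k := by linarith
  have hk2' : (10201/1600) ≤ k ^ 2 := by nlinarith
  refine GG_C (A2 := (81/49)) (P := (482/245)) (Q := (60/49)) (ξ := 0) (L := (16/9)) (M₀ := (447/50)) (y := y)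
    (by norm_num) hk (by norm_num) (by norm_num) (by norm_num) hy0 hy ha' hX ?_ ?_ (by norm_num) ?_ ?_ ?_
  · have e : 2 - 1 / k - 2 * 0 * (1 + k) * 4 / k ^ 2 = (2 * k ^ 2 - k - 0 * (1 + k)) / k ^ 2 := by
      field_simp
      try ring
    rw [e]
    refine div_nonneg ?_ (by positivity)
    nlinarith
  · have e1 : 1 / (9/2) ≤ 1 / k := one_div_le_one_div_of_le hk hkb'
    have e2 : 0 ≤ 2 * 0 * (1 + k) * 4 / k ^ 2 := by positivity
    have e3 : (2 : ℝ) - 1 / (9/2) = (16/9) := by norm_num
    linarith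
  · linarith
  · linarith
  · have h : (482/245) - (60/49) * ((81/49) / ((81/49) + k ^ 2)) - 3 / (2 * (9 + 2)) * (1 + k) -
      (1 + 7 / (4 * 9)) * ((1 + k) / (2 + k)) - (19/2000) -
      (2 - 1 / k - 2 * 0 * (1 + k) * 4 / k ^ 2) *
      (1 / 2 - (1 + k) * ((81/49) + k ^ 2) / ((9 + 2) * k ^ 2 + (81/49)) +
        3 / 2 * (1 + k) ^ 2 * (81/49) * ((81/49) + k ^ 2) / ((9 + 2) * k ^ 2 + (81/49)) ^ 2) -
      4 * (1 + k) * 0 ^ 2 / k ^ 2 = (1/1000) +
      ((399264994057440302543468036813/6432964304179678340173842975) * ((9/2) - k)^10 +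
        (6364371627019362918341028007229/5513969403582581434434722550) * (k - (101/40)) * ((9/2) - k)^9 +
        (7312080715523068736238648902686/771955716501561400820861157) * (k - (101/40))^2 * ((9/2) - k)^8 +
        (3889751414720917176895628252672/85772857389062377868984573) * (k - (101/40))^3 * ((9/2) - k)^7 +
        (246256175211710890411569381120/1750466477327803629979277) * (k - (101/40))^4 * ((9/2) - k)^6 +
        (3628783113818432881563144403200/12253265341294625409854939) * (k - (101/40))^5 * ((9/2) - k)^5 +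
        (5260327968023201863762833024000/12253265341294625409854939) * (k - (101/40))^6 * ((9/2) - k)^4 +
        (36363053912877180727964743680000/85772857389062377868984573) * (k - (101/40))^7 * ((9/2) - k)^3 +
        (304629014081231457754521600000/1113933212844965946350449) * (k - (101/40))^8 * ((9/2) - k)^2 +
        (8943192936374368688082432000000/85772857389062377868984573) * (k - (101/40))^9 * ((9/2) - k) +
        (139444886905124832184320000000/7797532489914761624453143) * (k - (101/40))^10) /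
      (((81/49) + k ^ 2) * (2 + k) * ((9 + 2) * k ^ 2 + (81/49)) ^ 2 * k ^ 2) := by
      field_simp
      ring
    rw [h]
    positivity

end Crest.Agent.R230.WR
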