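import Crest.Agent.R230.ShellG

/-!
Divergence theorem in gauge form.
-/

set_option autoImplicit false
set_option linter.unusedSectionVars false

open MeasureTheory Set Filter Topology
open scoped ENNReal Pointwise NNReal

namespace Crest.Agent.R230.G

variable {E : Type*} [NormedAddCommGroup E] [InnerProductSpace ℝ E] [FiniteDimensional ℝ E]
  [MeasurableSpace E] [BorelSpace E]

local notation "dim" => Module.finrank ℝ E

/-- cut-off -/
noncomputable def cut (ε s : ℝ) : ℝ := max (min (ε⁻¹ * (1 - s)) 1) 0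

lemma cut_nonneg (ε s : ℝ) : 0 ≤ cut ε s := le_max_right _ _

lemma cut_le_one (ε s : ℝ) : cut ε s ≤ 1 := max_le (min_le_right _ _) zero_le_one

lemma cut_of_one_le {ε s : ℝ} (hε : 0 < ε) (hs : 1 ≤ s) : cut ε s = 0 := by
  unfold cut
  refine max_eq_right ((min_le_left _ _).trans ?_)
  exact mul_nonpos_of_nonneg_of_nonpos (inv_nonneg.2 hε.le) (by linarith)

lemma cut_of_le {ε s : ℝ} (hε : 0 < ε) (hs : s ≤ 1 - ε) : cut ε s = 1 := by
  unfold cut
  have : 1 ≤ ε⁻¹ * (1 - s) := by
    rw [← div_eq_inv_mul, le_div_iff₀ hε]; linarith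
  rw [min_eq_right this, max_eq_left zero_le_one]

lemma cut_of_mem {ε s : ℝ} (hε : 0 < ε) (hs : 1 - ε ≤ s) (hs1 : s ≤ 1) : cut ε s = ε⁻¹ * (1 - s) := by
  unfold cut
  have h1 : ε⁻¹ * (1 - s) ≤ 1 := by
    rw [← div_eq_inv_mul, div_le_one hε]; linarith
  have h2 : 0 ≤ ε⁻¹ * (1 - s) := mul_nonneg (inv_nonneg.2 hε.le) (by linarith)
  rw [min_eq_left h1, max_eq_left h2]

lemma abs_cut_sub_le {ε : ℝ} (hε : 0 < ε) (a b : ℝ) : |cut ε a - cut ε b| ≤ ε⁻¹ * |a - b| := by
  unfold cut
  have h1 := abs_max_sub_max_le_abs (min (ε⁻¹ * (1 - a)) 1) (min (ε⁻¹ * (1 - b)) 1) 0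
  have h2 := abs_min_sub_min_le_max (ε⁻¹ * (1 - a)) 1 (ε⁻¹ * (1 - b)) 1
  rw [sub_self, abs_zero, max_eq_left (abs_nonneg _)] at h2
  have h3 : |ε⁻¹ * (1 - a) - ε⁻¹ * (1 - b)| = ε⁻¹ * |a - b| := by
    rw [← mul_sub, abs_mul, abs_of_pos (inv_pos.2 hε), sub_sub_sub_cancel_left, abs_sub_comm]
  linarith

/-- clamp -/
noncomputable def clp (R t : ℝ) : ℝ := max (min t R) (-R)

lemma clp_mem {R : ℝ} (hR : 0 ≤ R) (t : ℝ) : clp R t ∈ Icc (-R) R :=
  ⟨le_max_right _ _, max_le (min_le_right _ _) (by linarith)⟩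

lemma clp_of_mem {R t : ℝ} (ht : t ∈ Icc (-R) R) : clp R t = t := by
  unfold clp
  rw [min_eq_left ht.2, max_eq_left ht.1]

lemma abs_clp_sub_le (R a b : ℝ) : |clp R a - clp R b| ≤ |a - b| := by
  unfold clp
  have h1 := abs_max_sub_max_le_abs (min a R) (min b R) (-R)
  have h2 := abs_min_sub_min_le_max a R b R
  rw [sub_self, abs_zero, max_eq_left (abs_nonneg _)] at h2
  exact h1.trans h2

/-- integration by parts with the cut-off -/
lemma ibp_cut {K : Set E} (hK : Body K) {ψ : ℝ → ℝ} (hψ : ContDiff ℝ 1 ψ) (e v : E) {ε : ℝ}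
    (hε : 0 < ε) (hε1 : ε < 1) :
    ∫ x in K, (inner ℝ e v * deriv ψ (inner ℝ x e)) * cut ε (gauge K x) =
      ε⁻¹ * ∫ x in K \ (1 - ε) • K, ψ (inner ℝ x e) * inner ℝ (nu K x) v := by
  obtain ⟨R0, hR0, hR⟩ := exists_inner_bound hK e
  set R := R0 + 1 with hRd
  have hRpos : 0 < R := by positivity
  obtain ⟨L, hL0, hL1, hL2⟩ := exists_lip_of_contDiff hψ R
  obtain ⟨C, hC⟩ := hK.exists_lip
  set f : E → ℝ := fun x => ψ (clp R (inner ℝ x e)) with hf
  set g : E → ℝ := fun x => cut ε (gauge K x) with hg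
  have hfl : LipschitzWith (⟨L, hL0⟩ * ‖e‖₊) f := by
    refine LipschitzWith.of_dist_le_mul fun x y => ?_
    rw [Real.dist_eq, dist_eq_norm]
    have h1 := hL2 _ (clp_mem hRpos.le (inner ℝ x e)) _ (clp_mem hRpos.le (inner ℝ y e))
    have h2 := abs_clp_sub_le R (inner ℝ x e) (inner ℝ y e)
    have h3 : |(inner ℝ x e : ℝ) - inner ℝ y e| ≤ ‖x - y‖ * ‖e‖ := by
      rw [← inner_sub_left]; exact abs_real_inner_le_norm _ _
    have h4 : L * |clp R (inner ℝ x e) - clp R (inner ℝ y e)| ≤ L * (‖x - y‖ * ‖e‖) :=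
      mul_le_mul_of_nonneg_left (h2.trans h3) hL0
    refine (h1.trans h4).trans (le_of_eq ?_)
    show L * (‖x - y‖ * ‖e‖) = (L * ‖e‖) * ‖x - y‖
    ring
  have hgl : LipschitzWith (⟨ε⁻¹, (inv_pos.2 hε).le⟩ * C) g := by
    refine LipschitzWith.of_dist_le_mul fun x y => ?_
    rw [Real.dist_eq]
    have h1 := abs_cut_sub_le hε (gauge K x) (gauge K y)
    have h2 := hC.dist_le_mul x y
    rw [Real.dist_eq] at h2
    refine h1.trans ?_
    show ε⁻¹ * |gauge K x - gauge K y| ≤ (ε⁻¹ * (C : ℝ)) * dist x y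
    rw [mul_assoc]
    exact mul_le_mul_of_nonneg_left h2 (inv_pos.2 hε).le
  have hg0 : ∀ x, x ∉ K → g x = 0 := by
    intro x hx
    refine cut_of_one_le hε ?_
    by_contra hcon
    push Not at hcon
    exact hx (hK.gauge_le_one_iff.1 hcon.le)
  have hgs : HasCompactSupport g := HasCompactSupport.intro hK.cpt hg0
  have key := LipschitzWith.integral_lineDeriv_mul_eq (μ := (volume : Measure E)) hfl hgl hgs v
  have hL : ∫ x, lineDeriv ℝ f x v * g x =
      ∫ x in K, (inner ℝ e v * deriv ψ (inner ℝ x e)) * cut ε (gauge K x) := by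
    rw [← integral_indicator hK.cpt.measurableSet]
    congr 1
    ext x
    by_cases hx : x ∈ K
    · rw [indicator_of_mem hx]
      have h1 : f =ᶠ[𝓝 x] fun y => ψ (inner ℝ y e) := by
        have hcont : Continuous fun y : E => (inner ℝ y e : ℝ) := by fun_prop
        have h2 : ∀ᶠ y in 𝓝 x, (inner ℝ y e : ℝ) ∈ Ioo (-R) R := by
          refine hcont.continuousAt.eventually (Ioo_mem_nhds ?_ ?_)
          · have := (abs_le.1 (hR x hx)).1; linarith
          · have := (abs_le.1 (hR x hx)).2; linarith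
        filter_upwards [h2] with y hy
        simp only [hf]
        rw [clp_of_mem ⟨hy.1.le, hy.2.le⟩]
      have h3 : HasFDerivAt (fun y : E => (inner ℝ y e : ℝ)) (innerSL ℝ e) x := by
        have := (innerSL ℝ e).hasFDerivAt (x := x)
        refine this.congr_of_eventuallyEq (Eventually.of_forall fun y => ?_)
        simp [real_inner_comm]
      have h4 := ((hψ.differentiable (by norm_num)).differentiableAt
        (x := (inner ℝ x e : ℝ))).hasDerivAt.comp_hasFDerivAt x h3
      have h5 : HasFDerivAt f (deriv ψ (inner ℝ x e) • innerSL ℝ e) x :=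
        h4.congr_of_eventuallyEq h1
      rw [(h5.hasLineDerivAt v).lineDeriv]
      simp only [_root_.smul_apply, innerSL_apply_apply, smul_eq_mul, hg]
      ring
    · rw [indicator_of_notMem hx, hg0 x hx, mul_zero]
  have hs0 : 0 < 1 - ε := by linarith
  have hmeas : MeasurableSet (K \ (1 - ε) • K) :=
    hK.cpt.measurableSet.diff (hK.cpt.smul (1 - ε)).measurableSet
  have hRt : ∫ x, lineDeriv ℝ g x (-v) * f x =
      ε⁻¹ * ∫ x in K \ (1 - ε) • K, ψ (inner ℝ x e) * inner ℝ (nu K x) v := by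
    rw [← integral_indicator hmeas, ← integral_const_mul]
    refine integral_congr_ae ?_
    have hfr : volume (frontier K) = 0 := hK.cvx.addHaar_frontier volume
    have hfr2 : volume ((1 - ε) • frontier K) = 0 := by
      rw [Measure.addHaar_smul, hfr, mul_zero]
    filter_upwards [hK.ae_differentiableAt, measure_eq_zero_iff_ae_notMem.1 hfr,
      measure_eq_zero_iff_ae_notMem.1 hfr2] with x hx hx1 hx2
    have hne1 : gauge K x ≠ 1 := fun h => hx1 ((gauge_eq_one_iff_mem_frontier hK.cvx hK.nhd).1 h)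
    have hne2 : gauge K x ≠ 1 - ε := by
      intro h
      apply hx2
      rw [mem_smul_set_iff_inv_smul_mem₀ hs0.ne', ← gauge_eq_one_iff_mem_frontier hK.cvx hK.nhd,
        gauge_smul_of_nonneg (inv_pos.2 hs0).le, smul_eq_mul, h, inv_mul_cancel₀ hs0.ne']
    have hgc : Continuous (gauge K) := hK.continuous_gauge
    rcases lt_or_gt_of_ne hne1 with hlt | hgt
    · have hxK : x ∈ K := hK.gauge_le_one_iff.1 hlt.le
      rcases lt_or_gt_of_ne hne2 with hlt2 | hgt2
      · have hnot : x ∉ K \ (1 - ε) • K := fun h => h.2 ((hK.gauge_le_iff' hs0.le).1 hlt2.le)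
        rw [indicator_of_notMem hnot, mul_zero]
        have h1 : g =ᶠ[𝓝 x] fun _ => 1 := by
          filter_upwards [hgc.continuousAt.eventually (gt_mem_nhds hlt2)] with y hy
          exact cut_of_le hε hy.le
        have h2 : HasFDerivAt g (0 : E →L[ℝ] ℝ) x := (hasFDerivAt_const 1 x).congr_of_eventuallyEq h1
        rw [(h2.hasLineDerivAt (-v)).lineDeriv]
        simp
      · have hmem : x ∈ K \ (1 - ε) • K :=
          ⟨hxK, fun h => by have := (hK.gauge_le_iff' hs0.le).2 h; linarith⟩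
        rw [indicator_of_mem hmem]
        have h1 : g =ᶠ[𝓝 x] fun y => ε⁻¹ * (1 - gauge K y) := by
          filter_upwards [hgc.continuousAt.eventually (gt_mem_nhds hlt),
            hgc.continuousAt.eventually (lt_mem_nhds hgt2)] with y hy hy2
          exact cut_of_mem hε hy2.le hy.le
        have h2 : HasFDerivAt (fun y => ε⁻¹ * (1 - gauge K y)) (ε⁻¹ • (-(fderiv ℝ (gauge K) x))) x :=
          (hx.hasFDerivAt.const_sub 1).const_mul ε⁻¹
        have h3 := h2.congr_of_eventuallyEq h1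
        rw [(h3.hasLineDerivAt (-v)).lineDeriv]
        simp only [_root_.smul_apply, _root_.neg_apply, map_neg, smul_eq_mul]
        rw [← Body.nu_inner]
        simp only [hf]
        rw [clp_of_mem]
        · ring
        · have := abs_le.1 (hR x hxK)
          exact ⟨by linarith [this.1], by linarith [this.2]⟩
    · have hnot : x ∉ K \ (1 - ε) • K := fun h => by
        have := hK.gauge_le_one_iff.2 h.1; linarith
      rw [indicator_of_notMem hnot, mul_zero]
      have h1 : g =ᶠ[𝓝 x] fun _ => 0 := by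
        filter_upwards [hgc.continuousAt.eventually (lt_mem_nhds hgt)] with y hy
        exact cut_of_one_le hε hy.le
      have h2 : HasFDerivAt g (0 : E →L[ℝ] ℝ) x := (hasFDerivAt_const 0 x).congr_of_eventuallyEq h1
      rw [(h2.hasLineDerivAt (-v)).lineDeriv]
      simp
  rw [← hL, key, hRt]

/-- **divergence theorem** in gauge form -/
theorem cone_div_gen {K : Set E} (hK : Body K) {ψ : ℝ → ℝ} (hψ : ContDiff ℝ 1 ψ) (e v : E) :
    (dim : ℝ) * ∫ x in K, ψ (inner ℝ x e / gauge K x) * inner ℝ (nu K x) v =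
      inner ℝ e v * ∫ x in K, deriv ψ (inner ℝ x e) := by
  obtain ⟨C, hC0, hC⟩ := hK.exists_norm_nu_le
  have hΩm : Measurable fun x => (inner ℝ (nu K x) v : ℝ) :=
    (show Measurable fun z : E => (inner ℝ z v : ℝ) by fun_prop).comp (Body.measurable_nu K)
  have hlim := tendsto_shell_test hK hψ e (Ω := fun x => inner ℝ (nu K x) v) hΩm
    (fun c hc x => by simp only [Body.nu_smul K hc x]) (B := C * ‖v‖)
    (fun x => (abs_real_inner_le_norm _ _).trans (mul_le_mul_of_nonneg_right (hC x) (norm_nonneg _)))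
  obtain ⟨R, hR0, hR⟩ := exists_inner_bound hK e
  obtain ⟨L, hL0, hL1, hL2⟩ := exists_lip_of_contDiff hψ R
  have hlim2 : Tendsto (fun ε : ℝ => ∫ x in K, (inner ℝ e v * deriv ψ (inner ℝ x e)) *
      cut ε (gauge K x)) (𝓝[>] 0) (𝓝 (∫ x in K, (inner ℝ e v * deriv ψ (inner ℝ x e)))) := by
    refine tendsto_integral_filter_of_dominated_convergence (fun _ => |inner ℝ e v| * L) ?_ ?_ ?_ ?_
    · refine Eventually.of_forall fun ε => Measurable.aestronglyMeasurable ?_
      have h1 : Measurable (cut ε) := by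
        unfold cut; fun_prop
      exact (((hψ.continuous_deriv le_rfl).measurable.comp (by fun_prop)).const_mul _).mul
        (h1.comp (measurable_gauge hK))
    · refine Eventually.of_forall fun ε =>
        (ae_restrict_iff' hK.cpt.measurableSet).2 (Eventually.of_forall fun x hx => ?_)
      rw [Real.norm_eq_abs, abs_mul, abs_mul, abs_of_nonneg (cut_nonneg _ _)]
      have h1 := hL1 _ (abs_le.1 (hR x hx))
      have h2 := cut_le_one ε (gauge K x)
      have h3 : |inner ℝ e v| * |deriv ψ (inner ℝ x e)| ≤ |inner ℝ e v| * L :=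
        mul_le_mul_of_nonneg_left h1 (abs_nonneg _)
      calc _ ≤ (|inner ℝ e v| * |deriv ψ (inner ℝ x e)|) * 1 :=
            mul_le_mul_of_nonneg_left h2 (by positivity)
        _ ≤ _ := by rw [mul_one]; exact h3
    · exact integrableOn_const hK.cpt.measure_lt_top.ne
    · have hfr : volume (frontier K) = 0 := hK.cvx.addHaar_frontier volume
      refine (ae_restrict_iff' hK.cpt.measurableSet).2 ?_
      filter_upwards [measure_eq_zero_iff_ae_notMem.1 hfr] with x hx1 hxK
      have hne1 : gauge K x ≠ 1 := fun h => hx1 ((gauge_eq_one_iff_mem_frontier hK.cvx hK.nhd).1 h)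
      have hlt : gauge K x < 1 := lt_of_le_of_ne (hK.gauge_le_one_iff.2 hxK) hne1
      refine tendsto_const_nhds.congr' ?_
      filter_upwards [Ioo_mem_nhdsGT (show (0:ℝ) < 1 - gauge K x by linarith)] with ε hε
      rw [cut_of_le hε.1 (by linarith [hε.2]), mul_one]
  have h3 : (fun ε : ℝ => ε⁻¹ * ∫ x in K \ (1 - ε) • K, ψ (inner ℝ x e) * inner ℝ (nu K x) v)
      =ᶠ[𝓝[>] 0] fun ε : ℝ => ∫ x in K, (inner ℝ e v * deriv ψ (inner ℝ x e)) *
      cut ε (gauge K x) := by
    filter_upwards [Ioo_mem_nhdsGT (show (0:ℝ) < 1 by norm_num)] with ε hε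
    rw [ibp_cut hK hψ e v hε.1 hε.2]
  have h4 := tendsto_nhds_unique (hlim.congr' h3) hlim2
  rw [h4, integral_const_mul]

end Crest.Agent.R230.G
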