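import Crest.Agent.R230.XlogWR

/-!
# Row 230: the contact parameter `φ(s) = max (s, ψ(τ s))`
-/

set_option autoImplicit false

open MeasureTheory Set Filter Topology
open scoped Pointwise ENNReal

namespace Crest.Agent.R230

/-- right derivative of a maximum at a point of equality -/
lemma hasDerivWithinAt_max_right {f g : ℝ → ℝ} {f' g' x : ℝ} (hf : HasDerivWithinAt f f' (Ioi x) x)
    (hg : HasDerivWithinAt g g' (Ioi x) x) (h : f x = g x) :
    HasDerivWithinAt (fun y => max (f y) (g y)) (max f' g') (Ioi x) x := by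
  have hx : x ∉ Ioi x := lt_irrefl x
  rw [hasDerivWithinAt_iff_tendsto_slope' hx] at hf hg ⊢
  refine (hf.max hg).congr' ?_
  filter_upwards [self_mem_nhdsWithin] with y hy
  have hy' : 0 < y - x := sub_pos.2 hy
  simp only [slope_def_field]
  rw [h, max_self, max_div_div_right hy'.le, max_sub_sub_right]

section

variable {n : ℕ} {r : ℝ → ℝ} {ψ ψ' : ℝ → ℝ}

/-- the contact parameter -/
noncomputable def phM (n : ℕ) (r ψ : ℝ → ℝ) (s : ℝ) : ℝ := max s (ψ (tau n r s))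

/-- its right derivative -/
noncomputable def dphM (n : ℕ) (r ψ : ℝ → ℝ) (s : ℝ) : ℝ := derivWithin (phM n r ψ) (Ioi s) s

lemma phM_right (hr : Prof r) (hψd : ∀ t ∈ Ioo (0 : ℝ) 1, HasDerivAt ψ (ψ' t) t)
    {s : ℝ} (hs : s ∈ Ioo (0 : ℝ) 1) :
    (ψ (tau n r s) ≤ s ∧ HasDerivWithinAt (phM n r ψ) 1 (Ioi s) s) ∨
    (s ≤ ψ (tau n r s) ∧ HasDerivWithinAt (phM n r ψ) (ψ' (tau n r s) * dtau n r s) (Ioi s) s) := by
  have hT := tau_mem_half hr n hs
  have d1 := hasDerivAt_id s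
  have d2 : HasDerivAt (fun s => ψ (tau n r s)) (ψ' (tau n r s) * dtau n r s) s :=
    (hψd _ hT).comp s (hasDerivAt_tau hr n ⟨by linarith [hs.1], hs.2⟩)
  rcases lt_trichotomy (ψ (tau n r s)) s with h | h | h
  · left
    refine ⟨h.le, ?_⟩
    refine (d1.congr_of_eventuallyEq ?_).hasDerivWithinAt
    have := d2.continuousAt.eventually_lt continuousAt_id h
    filter_upwards [this] with y hy
    exact max_eq_left (le_of_lt hy)
  · have d3 := hasDerivWithinAt_max_right (d1.hasDerivWithinAt (s := Ioi s))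
      (d2.hasDerivWithinAt (s := Ioi s)) h.symm
    rcases le_total (ψ' (tau n r s) * dtau n r s) 1 with h1 | h1
    · rw [max_eq_left h1] at d3
      exact Or.inl ⟨h.le, d3⟩
    · rw [max_eq_right h1] at d3
      exact Or.inr ⟨h.ge, d3⟩
  · right
    refine ⟨h.le, ?_⟩
    refine (d2.congr_of_eventuallyEq ?_).hasDerivWithinAt
    have := continuousAt_id.eventually_lt d2.continuousAt h
    filter_upwards [this] with y hy
    exact max_eq_right (le_of_lt hy)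

lemma dphM_cases (hr : Prof r) (hψd : ∀ t ∈ Ioo (0 : ℝ) 1, HasDerivAt ψ (ψ' t) t)
    {s : ℝ} (hs : s ∈ Ioo (0 : ℝ) 1) :
    (ψ (tau n r s) ≤ s ∧ dphM n r ψ s = 1) ∨
    (s ≤ ψ (tau n r s) ∧ dphM n r ψ s = ψ' (tau n r s) * dtau n r s) := by
  have hu := uniqueDiffWithinAt_Ioi s
  rcases phM_right (n := n) hr hψd hs with ⟨h, d⟩ | ⟨h, d⟩
  · exact Or.inl ⟨h, d.derivWithin hu⟩
  · exact Or.inr ⟨h, d.derivWithin hu⟩

lemma phM_hasDeriv (hr : Prof r) (hψd : ∀ t ∈ Ioo (0 : ℝ) 1, HasDerivAt ψ (ψ' t) t)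
    {s : ℝ} (hs : s ∈ Ioo (0 : ℝ) 1) :
    HasDerivWithinAt (phM n r ψ) (dphM n r ψ s) (Ioi s) s := by
  have hu := uniqueDiffWithinAt_Ioi s
  rcases phM_right (n := n) hr hψd hs with ⟨h, d⟩ | ⟨h, d⟩
  · rw [show dphM n r ψ s = 1 from d.derivWithin hu]; exact d
  · rw [show dphM n r ψ s = ψ' (tau n r s) * dtau n r s from d.derivWithin hu]; exact d

/-- `φ(s) = max (s, ψ(τ s))` is an admissible contact parameter -/
theorem CX_max (hr : Prof r) (hψc : ContinuousOn ψ (Icc 0 1))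
    (hψd : ∀ t ∈ Ioo (0 : ℝ) 1, HasDerivAt ψ (ψ' t) t) (hψ'c : ContinuousOn ψ' (Ioo 0 1))
    (hψ1 : ∀ t ∈ Ioo (0 : ℝ) 1, ψ t < 1)
    (h0 : ∃ δ > 0, ∀ s ∈ Icc (0 : ℝ) δ, ψ (tau n r s) ≤ s)
    (h1 : ∃ δ < 1, ∀ s ∈ Icc δ (1 : ℝ), ψ (tau n r s) ≤ s) :
    CX (phM n r ψ) (dphM n r ψ) where
  cont := by
    unfold phM
    refine continuousOn_id.sup (hψc.comp (tau_continuous hr n).continuousOn ?_)
    exact fun s hs => tau_mem_half' hr n hs
  deriv := fun s hs => phM_hasDeriv hr hψd hs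
  meas := aestronglyMeasurable_derivWithin_Ioi _ _
  bdd := by
    obtain ⟨a, ha, h0⟩ := h0
    obtain ⟨b, hb, h1⟩ := h1
    have hm : 0 < min (min a (1 - b)) (1 / 2) := lt_min (lt_min ha (by linarith)) (by norm_num)
    set δ := min (min a (1 - b)) (1 / 2) with hδ
    have hδa : δ ≤ a := (min_le_left _ _).trans (min_le_left _ _)
    have hδb : δ ≤ 1 - b := (min_le_left _ _).trans (min_le_right _ _)
    have hδ2 : δ ≤ 1 / 2 := min_le_right _ _
    have hc : ContinuousOn (fun s => ψ' (tau n r s) * dtau n r s) (Icc δ (1 - δ)) := by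
      refine ContinuousOn.mul (hψ'c.comp (tau_continuous hr n).continuousOn fun s hs => ?_)
        ((continuousOn_dtau hr n).mono fun s hs => ?_)
      · exact tau_mem_half hr n ⟨by linarith [hs.1], by linarith [hs.2]⟩
      · exact ⟨by linarith [hs.1], by linarith [hs.2]⟩
    obtain ⟨K, hK⟩ := isCompact_Icc.exists_bound_of_continuousOn hc
    refine ⟨max 1 K, fun s hs => ?_⟩
    have hu := uniqueDiffWithinAt_Ioi s
    have hone : ∀ c d : ℝ, s ∈ Ico c d → (∀ x ∈ Icc c d, ψ (tau n r x) ≤ x) → dphM n r ψ s = 1 := by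
      intro c d hcd hh
      have : HasDerivWithinAt (phM n r ψ) 1 (Ioi s) s := by
        refine (hasDerivWithinAt_id s (Ioi s)).congr_of_eventuallyEq ?_ (max_eq_left (hh s ⟨hcd.1, hcd.2.le⟩))
        filter_upwards [Ioo_mem_nhdsGT hcd.2] with y hy
        exact max_eq_left (hh y ⟨by linarith [hy.1, hcd.1], hy.2.le⟩)
      exact this.derivWithin hu
    rcases lt_or_ge s δ with h | h
    · rw [hone 0 δ ⟨hs.1.le, h⟩ fun x hx => h0 x ⟨hx.1, hx.2.trans hδa⟩, abs_one]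
      exact le_max_left _ _
    rcases le_or_gt s (1 - δ) with h' | h'
    · rcases dphM_cases (n := n) hr hψd hs with ⟨_, e⟩ | ⟨_, e⟩
      · rw [e, abs_one]; exact le_max_left _ _
      · rw [e]; exact (hK s ⟨h, h'⟩).trans (le_max_right _ _)
    · rw [hone (1 - δ) 1 ⟨h'.le, hs.2⟩ fun x hx => h1 x ⟨by linarith [hx.1], hx.2⟩, abs_one]
      exact le_max_left _ _
  pos := fun s hs => lt_max_of_lt_left hs.1
  lt := fun s hs => max_lt hs.2 (hψ1 _ (tau_mem_half hr n hs))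
  near0 := by
    obtain ⟨a, ha, h0⟩ := h0
    exact ⟨a, ha, fun s hs => max_eq_left (h0 s hs)⟩
  near1 := by
    obtain ⟨b, hb, h1⟩ := h1
    exact ⟨b, hb, fun s hs => max_eq_left (h1 s hs)⟩

/-- the raw density in the flat region (`φ = ψ(τ)`), a function of `t = τ(s)` only -/
noncomputable def flatG (n : ℕ) (ψ ψ' : ℝ → ℝ) (t : ℝ) : ℝ :=
  (n + 1) * xA (1 / cc (ψ t)) (Real.log (t / ψ t)) +
    (1 + 1 / (1 + 1 / cc (ψ t)) - 2 * (1 / cc (ψ t)) - Real.log (t / ψ t) * (1 / cc (ψ t)) ^ 3) +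
    ψ' t * (t / ψ t) *
      (2 * (1 / cc (ψ t) - 1 / (1 + 1 / cc (ψ t))) - 3 * Real.log (t / ψ t) * ψ t ^ 2 * (1 / cc (ψ t)) ^ 3)

lemma RawG_max (hr : Prof r) (hψd : ∀ t ∈ Ioo (0 : ℝ) 1, HasDerivAt ψ (ψ' t) t)
    {s : ℝ} (hs : s ∈ Ioo (0 : ℝ) 1) :
    (ψ (tau n r s) ≤ s ∧ RawG n r (phM n r ψ) (dphM n r ψ) s = WR.rawL n s (ll n r s) (kk n r s)) ∨
    (s ≤ ψ (tau n r s) ∧ RawG n r (phM n r ψ) (dphM n r ψ) s = flatG n ψ ψ' (tau n r s)) := by
  have hd := (dtau_pos hr n (s := s) ⟨by linarith [hs.1], hs.2⟩)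
  rcases dphM_cases (n := n) hr hψd hs with ⟨h, e⟩ | ⟨h, e⟩
  · refine Or.inl ⟨h, ?_⟩
    have e1 : phM n r ψ s = s := max_eq_left h
    rw [WR.rawL_eq hr hs]
    unfold RawG RawX QX LX
    rw [e1, e, mul_comm s (dtau n r s)]
    congr 2
    rw [div_mul_div_comm, one_mul]
  · refine Or.inr ⟨h, ?_⟩
    have e1 : phM n r ψ s = ψ (tau n r s) := max_eq_right h
    unfold RawG flatG QX LX
    rw [e1, e, mul_div_assoc, div_self hd.ne', mul_one]

/-- **`hU` of `WR.master`/`master2`/`master3`** for the capped lines -/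
theorem WR.hU_of_max (hn : 3 ≤ n) (hr : Prof r) (hψc : ContinuousOn ψ (Icc 0 1))
    (hψd : ∀ t ∈ Ioo (0 : ℝ) 1, HasDerivAt ψ (ψ' t) t) (hψ'c : ContinuousOn ψ' (Ioo 0 1))
    (hψ1 : ∀ t ∈ Ioo (0 : ℝ) 1, ψ t < 1)
    (h0 : ∃ δ > 0, ∀ s ∈ Icc (0 : ℝ) δ, ψ (tau n r s) ≤ s)
    (h1 : ∃ δ < 1, ∀ s ∈ Icc δ (1 : ℝ), ψ (tau n r s) ≤ s)
    (hadm : ∀ s ∈ Ioo (0 : ℝ) 1, ψ (tau n r s) ≤ s → WR.Legal n r s)
    (hadmψ : ∀ s ∈ Ioo (0 : ℝ) 1, s ≤ ψ (tau n r s) →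
      xA (1 / cc (ψ (tau n r s))) (Real.log (tau n r s / ψ (tau n r s))) ≤
        xB (tau n r s) (1 / cc (ψ (tau n r s))) (Real.log (tau n r s / ψ (tau n r s)))) :
    ∃ Z : ℝ → ℝ, WR.NI n Z ∧
      2 * ((∫ s in (0 : ℝ)..1, cc s ^ n *
        (WR.rawL n s (ll n r s) (kk n r s) + (Phi (tau n r s) - Phi s))) + WR.JJ n Z) ≤ w n * UX n r ∧
      ∀ s ∈ Ioo (0 : ℝ) 1, (ψ (tau n r s) ≤ s ∧ Z s = 0) ∨
        (s ≤ ψ (tau n r s) ∧
          Z s = cc s * (flatG n ψ ψ' (tau n r s) - WR.rawL n s (ll n r s) (kk n r s))) := by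
  have hφ := CX_max hr hψc hψd hψ'c hψ1 h0 h1
  refine ⟨WR.ZG n r (phM n r ψ) (dphM n r ψ), WR.NI_ZG hn hr hφ, WR.hU_of_contact hn hr hφ ?_, ?_⟩
  · intro s hs
    unfold QX LX
    rcases le_total (ψ (tau n r s)) s with h | h
    · rw [show phM n r ψ s = s from max_eq_left h]
      exact (hadm s hs h).adm hs
    · rw [show phM n r ψ s = ψ (tau n r s) from max_eq_right h]
      exact hadmψ s hs h
  · intro s hs
    rcases RawG_max (n := n) hr hψd hs with ⟨h, e⟩ | ⟨h, e⟩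
    · refine Or.inl ⟨h, ?_⟩
      unfold WR.ZG
      rw [e, sub_self, mul_zero]
    · refine Or.inr ⟨h, ?_⟩
      unfold WR.ZG
      rw [e]

end

end Crest.Agent.R230
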