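import Crest.Agent.R230.Apriori2

/-!
Nearly sharp a-priori bound for the transport of a profile with `N ≤ N_B` (helper640).

* `AP6.ineqE` : the truncated cone inequality;
* `AP6.main` : `x (∫r^n)^n ≤ (∫_0^x r^n) (∫ r^{n-1})^n` if `∫_0^x r^n ≤ (89/100) ∫_0^1 r^n`;
* `tau_le_of_NleB` : `τ(s) ≤ (w (n-1) / w n)^n ∫_0^s c^n` if `∫_0^s c^n ≤ (89/100) ∫_0^1 c^n`.
-/

set_option autoImplicit false

open MeasureTheory Set Filter Topology
open scoped Pointwise ENNReal

namespace Crest.Agent.R230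

namespace AP6

/-! ### one-variable inequalities -/

lemma log_bd1 {z : ℝ} (hz : 0 < z) (hz1 : z ≤ 1) : 2 * (1 - z) / (1 + z) ≤ -Real.log z := by
  have hd : ∀ x ∈ Ioi (0 : ℝ), HasDerivAt (fun x : ℝ => Real.log x - 2 * (x - 1) / (x + 1))
      ((x - 1) ^ 2 / (x * (x + 1) ^ 2)) x := by
    intro x hx
    have hx' : (0 : ℝ) < x := hx
    have h1 := Real.hasDerivAt_log hx'.ne'
    have h2 : HasDerivAt (fun x : ℝ => 2 * (x - 1) / (x + 1))
        ((2 * (x + 1) - 2 * (x - 1) * 1) / (x + 1) ^ 2) x := by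
      have h3 : HasDerivAt (fun x : ℝ => 2 * (x - 1)) 2 x := by
        simpa using ((hasDerivAt_id x).sub_const 1).const_mul 2
      have h4 : HasDerivAt (fun x : ℝ => x + 1) 1 x := (hasDerivAt_id x).add_const 1
      exact h3.div h4 (by positivity)
    refine (h1.sub h2).congr_deriv ?_
    field_simp
    ring
  have hm : MonotoneOn (fun x : ℝ => Real.log x - 2 * (x - 1) / (x + 1)) (Ioi 0) := by
    refine monotoneOn_of_deriv_nonneg (convex_Ioi 0)
      (fun x hx => (hd x hx).continuousAt.continuousWithinAt) ?_ ?_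
    · rw [interior_Ioi]
      exact fun x hx => (hd x hx).differentiableAt.differentiableWithinAt
    · rw [interior_Ioi]
      intro x hx
      rw [(hd x hx).deriv]
      have : (0 : ℝ) < x := hx
      positivity
  have h := hm (show z ∈ Ioi (0 : ℝ) from hz) (show (1 : ℝ) ∈ Ioi (0 : ℝ) by simp) hz1
  simp only [Real.log_one, sub_self, mul_zero, zero_div] at h
  have e : 2 * (1 - z) / (1 + z) = -(2 * (z - 1) / (z + 1)) := by
    rw [← neg_div, add_comm]; ring_nf
  rw [e]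
  linarith

lemma log_bd2 {z : ℝ} (hz : 0 < z) (hz1 : z ≤ 1) : -Real.log z ≤ (1 - z ^ 2) / (2 * z) := by
  have hd : ∀ x ∈ Ioi (0 : ℝ), HasDerivAt (fun x : ℝ => Real.log x + (1 - x ^ 2) / (2 * x))
      (-((x - 1) ^ 2 / (2 * x ^ 2))) x := by
    intro x hx
    have hx' : (0 : ℝ) < x := hx
    have h1 := Real.hasDerivAt_log hx'.ne'
    have h2 : HasDerivAt (fun x : ℝ => (1 - x ^ 2) / (2 * x))
        ((-(2 * x) * (2 * x) - (1 - x ^ 2) * 2) / (2 * x) ^ 2) x := by
      have h3 : HasDerivAt (fun x : ℝ => 1 - x ^ 2) (-(2 * x)) x := by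
        simpa using (hasDerivAt_pow 2 x).const_sub 1
      have h4 : HasDerivAt (fun x : ℝ => 2 * x) 2 x := by
        simpa using (hasDerivAt_id x).const_mul 2
      exact h3.div h4 (by positivity)
    refine (h1.add h2).congr_deriv ?_
    field_simp
    ring
  have hm : AntitoneOn (fun x : ℝ => Real.log x + (1 - x ^ 2) / (2 * x)) (Ioi 0) := by
    refine antitoneOn_of_deriv_nonpos (convex_Ioi 0)
      (fun x hx => (hd x hx).continuousAt.continuousWithinAt) ?_ ?_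
    · rw [interior_Ioi]
      exact fun x hx => (hd x hx).differentiableAt.differentiableWithinAt
    · rw [interior_Ioi]
      intro x hx
      rw [(hd x hx).deriv]
      have : (0 : ℝ) < x := hx
      have : 0 ≤ (x - 1) ^ 2 / (2 * x ^ 2) := by positivity
      linarith
  have h := hm (show z ∈ Ioi (0 : ℝ) from hz) (show (1 : ℝ) ∈ Ioi (0 : ℝ) by simp) hz1
  simp only [Real.log_one] at h
  norm_num at h
  linarith

/-- the polynomial inequality -/
lemma poly_bd {z : ℝ} (hz : 0 ≤ z) (hz1 : z ≤ 1) :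
    6 * (1 + z ^ 2) ^ 3 * ((1 + z) ^ 2 * (1 + z ^ 2)) ≤
      (6 * (1 + z ^ 2) ^ 3 + 6 * (1 + z ^ 2 - 2 * z ^ 3) * (1 + z ^ 2) ^ 2 +
        3 * (1 + z ^ 2 - 2 * z ^ 3) ^ 2 * (1 + z ^ 2) + (1 + z ^ 2 - 2 * z ^ 3) ^ 3) *
        (8 * (11 / 100 + 89 / 100 * z ^ 4)) := by
  have key : (0 : ℝ) ≤ 202/25 + (-98/25) * z + 208/25 * z^2 + (-1652/25) * z^3 + 752/25 * z^4 +
      (-2368/25) * z^5 + 5556/25 * z^6 + (-1644/25) * z^7 + 6678/25 * z^8 + (-4478/25) * z^9 +
      2492/25 * z^10 + (-2848/25) * z^11 + 1424/25 * z^12 := by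
    rcases le_total z (1 / 2) with h | h
    · have h1 : 0 ≤ 1 / 2 - z := by linarith
      calc (0 : ℝ) ≤ 827392/25 * (z ^ 0 * (1 / 2 - z) ^ 12) +
      389120 * (z ^ 1 * (1 / 2 - z) ^ 11) +
      10522624/5 * (z ^ 2 * (1 / 2 - z) ^ 10) +
      172271616/25 * (z ^ 3 * (1 / 2 - z) ^ 9) +
      378607616/25 * (z ^ 4 * (1 / 2 - z) ^ 8) +
      585408512/25 * (z ^ 5 * (1 / 2 - z) ^ 7) +
      649088256/25 * (z ^ 6 * (1 / 2 - z) ^ 6) +
      103233152/5 * (z ^ 7 * (1 / 2 - z) ^ 5) +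
      289525984/25 * (z ^ 8 * (1 / 2 - z) ^ 4) +
      110569104/25 * (z ^ 9 * (1 / 2 - z) ^ 3) +
      27080544/25 * (z ^ 10 * (1 / 2 - z) ^ 2) +
      3861456/25 * (z ^ 11 * (1 / 2 - z) ^ 1) +
      52592/5 * (z ^ 12 * (1 / 2 - z) ^ 0) := by positivity
        _ = _ := by ring
    · have h1 : 0 ≤ z - 1 / 2 := by linarith
      have h2 : 0 ≤ 1 - z := by linarith
      calc (0 : ℝ) ≤ 52592/5 * ((z - 1 / 2) ^ 0 * (1 - z) ^ 12) +
      2449584/25 * ((z - 1 / 2) ^ 1 * (1 - z) ^ 11) +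
      11549952/25 * ((z - 1 / 2) ^ 2 * (1 - z) ^ 10) +
      44331056/25 * ((z - 1 / 2) ^ 3 * (1 - z) ^ 9) +
      159301312/25 * ((z - 1 / 2) ^ 4 * (1 - z) ^ 8) +
      467591808/25 * ((z - 1 / 2) ^ 5 * (1 - z) ^ 7) +
      1000504832/25 * ((z - 1 / 2) ^ 6 * (1 - z) ^ 6) +
      1505862656/25 * ((z - 1 / 2) ^ 7 * (1 - z) ^ 5) +
      1574780928/25 * ((z - 1 / 2) ^ 8 * (1 - z) ^ 4) +
      1121673216/25 * ((z - 1 / 2) ^ 9 * (1 - z) ^ 3) +
      519962624/25 * ((z - 1 / 2) ^ 10 * (1 - z) ^ 2) +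
      141754368/25 * ((z - 1 / 2) ^ 11 * (1 - z) ^ 1) +
      17301504/25 * ((z - 1 / 2) ^ 12 * (1 - z) ^ 0) := by positivity
        _ = _ := by ring
  have h1 : 0 ≤ 1 - z := by linarith
  have h2 := mul_nonneg h1 key
  nlinarith [h2]

/-- `1 + Y log Y/(1-Y)` -/
noncomputable def EE (Y : ℝ) : ℝ := 1 + Y * Real.log Y / (1 - Y)

lemma EE_nonneg {Y : ℝ} (hY : 0 ≤ Y) (hY1 : Y < 1) : 0 ≤ EE Y := by
  rcases hY.eq_or_lt with h | h
  · simp [EE, ← h]
  · have h1 := Real.one_sub_inv_le_log_of_pos h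
    have h2 : -(1 - Y) ≤ Y * Real.log Y := by
      have := mul_le_mul_of_nonneg_left h1 h.le
      rw [mul_sub, mul_inv_cancel₀ h.ne'] at this
      linarith
    unfold EE
    have h3 : -1 ≤ Y * Real.log Y / (1 - Y) := by
      rw [le_div_iff₀ (by linarith)]
      linarith
    linarith

/-- the derivative inequality -/
lemma ineq4 {Y : ℝ} (hY : 0 < Y) (hY1 : Y < 1) :
    1 ≤ Real.exp (EE Y) * (-Real.log Y / (1 - Y)) * (11 / 100 + 89 / 100 * Y) := by
  obtain ⟨z, hz0, hz1, hzY⟩ : ∃ z : ℝ, 0 < z ∧ z < 1 ∧ z ^ 4 = Y := by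
    refine ⟨Real.sqrt (Real.sqrt Y), by positivity, ?_, ?_⟩
    · rw [Real.sqrt_lt' one_pos, one_pow, Real.sqrt_lt' one_pos]
      linarith
    · have : Real.sqrt (Real.sqrt Y) ^ 4 = (Real.sqrt (Real.sqrt Y) ^ 2) ^ 2 := by ring
      rw [this, Real.sq_sqrt (Real.sqrt_nonneg _), Real.sq_sqrt hY.le]
  subst hzY
  have hlog : Real.log (z ^ 4) = 4 * Real.log z := by rw [Real.log_pow]; norm_num
  have hb1 := log_bd1 hz0 hz1.le
  have hb2 := log_bd2 hz0 hz1.le
  have hz4 : 0 < 1 - z ^ 4 := by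
    have := pow_lt_one₀ hz0.le hz1 (n := 4) (by norm_num)
    linarith
  set D := 1 + z ^ 2 with hD
  have hDpos : 0 < D := by positivity
  -- lower bound of E
  have hE : (D - 2 * z ^ 3) / D ≤ EE (z ^ 4) := by
    unfold EE
    rw [hlog]
    have h1 : -(4 * z ^ 4 * ((1 - z ^ 2) / (2 * z))) ≤ z ^ 4 * (4 * Real.log z) := by
      have := mul_le_mul_of_nonneg_left hb2 (show 0 ≤ 4 * z ^ 4 by positivity)
      linarith
    have h2 : -(4 * z ^ 4 * ((1 - z ^ 2) / (2 * z))) / (1 - z ^ 4) = -(2 * z ^ 3) / D := by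
      have e : 1 - z ^ 4 = (1 - z ^ 2) * D := by rw [hD]; ring
      have h3 : 1 - z ^ 2 ≠ 0 := by
        intro h4
        rw [e, h4, zero_mul] at hz4
        exact lt_irrefl _ hz4
      rw [e]
      field_simp
      norm_num
    have h3 := div_le_div_of_nonneg_right h1 hz4.le
    rw [h2] at h3
    have h4 : (D - 2 * z ^ 3) / D = 1 + -(2 * z ^ 3) / D := by field_simp; ring
    rw [h4]
    linarith
  have hE0 : 0 ≤ (D - 2 * z ^ 3) / D := by
    refine div_nonneg ?_ hDpos.le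
    have : z ^ 3 ≤ z ^ 2 := pow_le_pow_of_le_one hz0.le hz1.le (by norm_num)
    have : z ^ 2 ≤ 1 := pow_le_one₀ hz0.le hz1.le
    rw [hD]; nlinarith
  set e := (D - 2 * z ^ 3) / D with he
  have hexp : 1 + e + e ^ 2 / 2 + e ^ 3 / 6 ≤ Real.exp (EE (z ^ 4)) := by
    have h1 := Real.sum_le_exp_of_nonneg hE0 4
    have h2 : ∑ i ∈ Finset.range 4, e ^ i / (i.factorial : ℝ) = 1 + e + e ^ 2 / 2 + e ^ 3 / 6 := by
      simp [Finset.sum_range_succ, Nat.factorial]
    rw [h2] at h1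
    exact h1.trans (Real.exp_le_exp.2 hE)
  have hL : 8 / ((1 + z) ^ 2 * D) ≤ -Real.log (z ^ 4) / (1 - z ^ 4) := by
    rw [hlog, le_div_iff₀ hz4]
    have : 8 / ((1 + z) ^ 2 * D) * (1 - z ^ 4) = 4 * (2 * (1 - z) / (1 + z)) := by
      rw [hD]
      have : 1 + z ≠ 0 := by positivity
      field_simp
      ring
    rw [this]
    linarith
  have hpoly := poly_bd hz0.le hz1.le
  rw [← hD] at hpoly
  have hprod : 1 ≤ (1 + e + e ^ 2 / 2 + e ^ 3 / 6) * (8 / ((1 + z) ^ 2 * D)) *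
      (11 / 100 + 89 / 100 * z ^ 4) := by
    have h1 : (1 + e + e ^ 2 / 2 + e ^ 3 / 6) * (8 / ((1 + z) ^ 2 * D)) *
        (11 / 100 + 89 / 100 * z ^ 4) =
        ((6 * D ^ 3 + 6 * (D - 2 * z ^ 3) * D ^ 2 +
        3 * (D - 2 * z ^ 3) ^ 2 * D + (D - 2 * z ^ 3) ^ 3) *
        (8 * (11 / 100 + 89 / 100 * z ^ 4))) / (6 * D ^ 3 * ((1 + z) ^ 2 * D)) := by
      rw [he]
      have : 1 + z ≠ 0 := by positivity
      field_simp
      ring
    rw [h1, one_le_div (by positivity)]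
    exact hpoly
  calc (1 : ℝ) ≤ (1 + e + e ^ 2 / 2 + e ^ 3 / 6) * (8 / ((1 + z) ^ 2 * D)) *
      (11 / 100 + 89 / 100 * z ^ 4) := hprod
    _ ≤ Real.exp (EE (z ^ 4)) * (-Real.log (z ^ 4) / (1 - z ^ 4)) *
        (11 / 100 + 89 / 100 * z ^ 4) := by
      refine mul_le_mul_of_nonneg_right ?_ (by positivity)
      refine mul_le_mul hexp hL (by positivity) (Real.exp_pos _).le

lemma ineq3 {Y : ℝ} (hY : 0 ≤ Y) (hY1 : Y < 1) :
    -Real.log (1 - 89 / 100 * (1 - Y)) ≤ 89 / 100 * (1 - Y) * Real.exp (EE Y) := by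
  set M : ℝ → ℝ := fun Y => 89 / 100 * (1 - Y) * Real.exp (EE Y) +
    Real.log (1 - 89 / 100 * (1 - Y)) with hM
  have hEd : ∀ x ∈ Ioo (0 : ℝ) 1, HasDerivAt EE ((Real.log x + (1 - x)) / (1 - x) ^ 2) x := by
    intro x hx
    have h1 : HasDerivAt (fun x : ℝ => x * Real.log x) (Real.log x + 1) x :=
      Real.hasDerivAt_mul_log hx.1.ne'
    have h2 : HasDerivAt (fun x : ℝ => 1 - x) (-1) x := by
      simpa using (hasDerivAt_id x).const_sub 1
    have h3 : (1 - x) ≠ 0 := by linarith [hx.2]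
    have h4 := (h1.div h2 h3).const_add 1
    unfold EE
    refine h4.congr_deriv ?_
    field_simp
    ring
  have hMd : ∀ x ∈ Ioo (0 : ℝ) 1, HasDerivAt M
      (89 / 100 * Real.exp (EE x) * (Real.log x / (1 - x)) +
        89 / 100 / (11 / 100 + 89 / 100 * x)) x := by
    intro x hx
    have h3 : (1 - x) ≠ 0 := by linarith [hx.2]
    have h4 : (0 : ℝ) < 11 / 100 + 89 / 100 * x := by linarith [hx.1]
    have h2 : HasDerivAt (fun x : ℝ => 89 / 100 * (1 - x)) (-(89 / 100)) x := by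
      simpa using ((hasDerivAt_id x).const_sub 1).const_mul (89 / 100 : ℝ)
    have h5 := h2.mul (hEd x hx).exp
    have h6 : HasDerivAt (fun x : ℝ => 1 - 89 / 100 * (1 - x)) (89 / 100) x := by
      simpa using h2.const_sub 1
    have h7 : (1 : ℝ) - 89 / 100 * (1 - x) = 11 / 100 + 89 / 100 * x := by ring
    have h8 := h6.log (by rw [h7]; exact h4.ne')
    refine (h5.add h8).congr_deriv ?_
    rw [h7]
    field_simp
    ring
  have hEc : ContinuousOn EE (Ico 0 1) := by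
    unfold EE
    refine continuousOn_const.add (ContinuousOn.div Real.continuous_mul_log.continuousOn
      (by fun_prop) (fun x hx => ?_))
    have := hx.2
    intro h
    linarith
  have hMc : ContinuousOn M (Ico 0 1) := by
    refine ContinuousOn.add (ContinuousOn.mul (by fun_prop) hEc.rexp)
      (ContinuousOn.log (by fun_prop) (fun x hx => ?_))
    have := hx.1
    intro h
    linarith
  have hanti : AntitoneOn M (Ico 0 1) := by
    refine antitoneOn_of_deriv_nonpos (convex_Ico 0 1) hMc ?_ ?_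
    · rw [interior_Ico]
      exact fun x hx => (hMd x hx).differentiableAt.differentiableWithinAt
    · rw [interior_Ico]
      intro x hx
      rw [(hMd x hx).deriv]
      have h4 : (0 : ℝ) < 11 / 100 + 89 / 100 * x := by linarith [hx.1]
      have h5 := ineq4 hx.1 hx.2
      have h6 : 89 / 100 / (11 / 100 + 89 / 100 * x) ≤
          89 / 100 * (Real.exp (EE x) * (-Real.log x / (1 - x))) := by
        rw [div_le_iff₀ h4]
        nlinarith
      have h7 : 89 / 100 * (Real.exp (EE x) * (-Real.log x / (1 - x))) =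
          -(89 / 100 * Real.exp (EE x) * (Real.log x / (1 - x))) := by ring
      linarith
  have h0 : 0 ≤ M Y := by
    have hlim : Tendsto (fun x : ℝ => Real.log (1 - 89 / 100 * (1 - x))) (𝓝[<] 1) (𝓝 0) := by
      have : ContinuousAt (fun x : ℝ => Real.log (1 - 89 / 100 * (1 - x))) 1 := by
        refine ContinuousAt.log (by fun_prop) (by norm_num)
      have h2 := this.tendsto
      norm_num at h2
      exact h2.mono_left nhdsWithin_le_nhds
    refine le_of_tendsto hlim ?_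
    have h3 : Ioo Y 1 ∈ 𝓝[<] (1 : ℝ) := Ioo_mem_nhdsLT hY1
    filter_upwards [h3] with x hx
    have hx0 : x ∈ Ico (0 : ℝ) 1 := ⟨hY.trans hx.1.le, hx.2⟩
    have h4 := hanti ⟨hY, hY1⟩ hx0 hx.1.le
    refine le_trans ?_ h4
    simp only [hM]
    have : 0 ≤ 89 / 100 * (1 - x) * Real.exp (EE x) :=
      mul_nonneg (by linarith [hx.2]) (Real.exp_pos _).le
    linarith
  simp only [hM] at h0
  linarith

/-- `(n+1)(1-y^n)/(n(1-y^{n+1})) ≥ exp(1/(n+1) + y^{n+1} log y/(1-y^{n+1}))`, with `n = k+1` -/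
lemma ineq1 (k : ℕ) {y : ℝ} (hy : 0 ≤ y) (hy1 : y < 1) :
    Real.exp (1 / ((k : ℝ) + 2) + y ^ (k + 2) * Real.log y / (1 - y ^ (k + 2))) *
      (1 - y ^ (k + 2)) / (k + 2) ≤ (1 - y ^ (k + 1)) / (k + 1) := by
  have hY1 : 0 < 1 - y ^ (k + 2) := by
    have := pow_lt_one₀ hy hy1 (n := k + 2) (by omega)
    linarith
  set m0 := 1 / ((k : ℝ) + 2) + y ^ (k + 2) * Real.log y / (1 - y ^ (k + 2)) with hm0
  have hk1 : (0 : ℝ) < (k : ℝ) + 1 := by positivity
  have hk2 : (0 : ℝ) < (k : ℝ) + 2 := by positivity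
  set F : ℝ → ℝ := fun z => Real.exp m0 * ((1 - m0) * z ^ (k + 2) / (k + 2) -
    (z ^ (k + 1) * (z * Real.log z) / (k + 2) - z ^ (k + 2) / (k + 2) ^ 2)) -
      z ^ (k + 1) / (k + 1) with hF
  have hd : ∀ z ∈ Ioo y 1, HasDerivAt F
      (z ^ k * (Real.exp m0 * z * (1 - m0 - Real.log z) - 1)) z := by
    intro z hz
    have hz0 : 0 < z := lt_of_le_of_lt hy hz.1
    have h1 : HasDerivAt (fun z : ℝ => z ^ (k + 2)) (((k : ℝ) + 2) * z ^ (k + 1)) z := by
      have := hasDerivAt_pow (k + 2) z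
      push_cast at this
      exact this
    have h2 : HasDerivAt (fun z : ℝ => z ^ (k + 1)) (((k : ℝ) + 1) * z ^ k) z := by
      have := hasDerivAt_pow (k + 1) z
      push_cast at this
      exact this
    have h3 := h2.mul (Real.hasDerivAt_mul_log hz0.ne')
    have h4 := ((((h1.const_mul (1 - m0)).div_const ((k : ℝ) + 2)).sub
      ((h3.div_const ((k : ℝ) + 2)).sub (h1.div_const (((k : ℝ) + 2) ^ 2)))).const_mul
        (Real.exp m0)).sub (h2.div_const ((k : ℝ) + 1))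
    refine h4.congr_deriv ?_
    field_simp
    ring
  have hc : ContinuousOn F (Icc y 1) := by
    have h := Real.continuous_mul_log
    refine Continuous.continuousOn ?_
    simp only [hF]
    fun_prop
  have hanti : AntitoneOn F (Icc y 1) := by
    refine antitoneOn_of_deriv_nonpos (convex_Icc y 1) hc ?_ ?_
    · rw [interior_Icc]
      exact fun x hx => (hd x hx).differentiableAt.differentiableWithinAt
    · rw [interior_Icc]
      intro z hz
      rw [(hd z hz).deriv]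
      have hz0 : 0 < z := lt_of_le_of_lt hy hz.1
      have h1 : Real.exp m0 * z * (1 - m0 - Real.log z) ≤ 1 := by
        have h2 := Real.add_one_le_exp (-(m0 + Real.log z))
        have h3 : Real.exp (-(m0 + Real.log z)) = (Real.exp m0 * z)⁻¹ := by
          rw [Real.exp_neg, Real.exp_add, Real.exp_log hz0]
        rw [h3] at h2
        have h4 : 0 < Real.exp m0 * z := by positivity
        calc Real.exp m0 * z * (1 - m0 - Real.log z) ≤ Real.exp m0 * z * (Real.exp m0 * z)⁻¹ :=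
              mul_le_mul_of_nonneg_left (by linarith) h4.le
          _ = 1 := mul_inv_cancel₀ h4.ne'
      have h5 : 0 ≤ z ^ k := by positivity
      nlinarith
  have h := hanti (left_mem_Icc.2 hy1.le) (right_mem_Icc.2 hy1.le) hy1.le
  simp only [hF, one_pow, Real.log_one, mul_zero, zero_div] at h
  have e1 : y ^ (k + 1) * (y * Real.log y) = y ^ (k + 2) * Real.log y := by ring
  rw [e1] at h
  have e2 : y ^ (k + 2) * Real.log y = (m0 - 1 / ((k : ℝ) + 2)) * (1 - y ^ (k + 2)) := by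
    rw [hm0]
    field_simp
    ring
  rw [e2] at h
  have e3 : Real.exp m0 * (1 - y ^ (k + 2)) / ((k : ℝ) + 2) =
      Real.exp m0 * ((1 - m0) * 1 / (k + 2) - (0 - 1 / (k + 2) ^ 2)) -
      Real.exp m0 * ((1 - m0) * y ^ (k + 2) / (k + 2) - ((m0 - 1 / ((k : ℝ) + 2)) *
        (1 - y ^ (k + 2)) / (k + 2) - y ^ (k + 2) / (k + 2) ^ 2)) := by
    field_simp
    ring
  rw [e3, sub_div]
  linarith

/-- `(n+1)(1-q)^{n+1} ≤ (-log q)^n (1-q^{n+1})` -/
lemma ineq2 (n : ℕ) {q : ℝ} (hq : 0 < q) (hq1 : q < 1) :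
    ((n : ℝ) + 1) * (1 - q) ^ (n + 1) ≤ (-Real.log q) ^ n * (1 - q ^ (n + 1)) := by
  set s := -Real.log q with hs
  have hs0 : 0 < s := by
    have := Real.log_neg hq hq1
    linarith
  have hqs : q = Real.exp (-s) := by rw [hs, neg_neg, Real.exp_log hq]
  set μ := (1 - q) / s with hμ
  have hμ0 : 0 ≤ μ := div_nonneg (by linarith) hs0.le
  have hn1 : (0 : ℝ) < (n : ℝ) + 1 := by positivity
  set g : ℝ → ℝ := fun v => (1 - Real.exp (-v) ^ (n + 1)) / (n + 1) - μ ^ (n + 1) * v -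
    (n + 1) * μ ^ n * ((1 - Real.exp (-v)) - μ * v) with hg
  have hd : ∀ v : ℝ, HasDerivAt g (Real.exp (-v) ^ (n + 1) - μ ^ (n + 1) -
      (n + 1) * μ ^ n * (Real.exp (-v) - μ)) v := by
    intro v
    have h1 : HasDerivAt (fun v : ℝ => Real.exp (-v)) (-Real.exp (-v)) v := by
      have := (hasDerivAt_id v).neg.exp
      simpa using this
    have h2 := h1.fun_pow (n + 1)
    have h3 := ((h2.const_sub 1).div_const ((n : ℝ) + 1)).sub
      ((hasDerivAt_id v).const_mul (μ ^ (n + 1)))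
    have h4 := h3.sub (((h1.const_sub 1).sub ((hasDerivAt_id v).const_mul μ)).const_mul
      (((n : ℝ) + 1) * μ ^ n))
    refine h4.congr_deriv ?_
    simp only [Nat.add_sub_cancel]
    push_cast
    field_simp
    ring
  have hmono : MonotoneOn g (Icc 0 s) := by
    refine monotoneOn_of_deriv_nonneg (convex_Icc 0 s)
      (fun x _ => (hd x).continuousAt.continuousWithinAt)
      (fun x _ => (hd x).differentiableAt.differentiableWithinAt) ?_
    intro v _
    rw [(hd v).deriv]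
    set a := Real.exp (-v) with ha
    have ha0 : 0 < a := Real.exp_pos _
    have h1 := amgm_pow n (z := μ / a) (by positivity)
    have h2 := mul_le_mul_of_nonneg_left h1 (show 0 ≤ a ^ (n + 1) by positivity)
    have e1 : a ^ (n + 1) * (((n : ℝ) + 1) * (μ / a) ^ n) = (n + 1) * μ ^ n * a := by
      rw [div_pow]; field_simp; ring
    have e2 : a ^ (n + 1) * (1 + n * (μ / a) ^ (n + 1)) = a ^ (n + 1) + n * μ ^ (n + 1) := by
      rw [div_pow]; field_simp
    rw [e1, e2] at h2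
    have e3 : (n + 1) * μ ^ n * (a - μ) = (n + 1) * μ ^ n * a - (n + 1) * μ ^ (n + 1) := by ring
    rw [e3]
    linarith
  have h := hmono (left_mem_Icc.2 hs0.le) (right_mem_Icc.2 hs0.le) hs0.le
  simp only [hg] at h
  rw [← hqs] at h
  simp only [neg_zero, Real.exp_zero, one_pow, sub_self, zero_div, mul_zero] at h
  have e1 : 1 - q - μ * s = 0 := by rw [hμ]; field_simp; ring
  rw [e1, mul_zero, sub_zero] at h
  have e2 : μ ^ (n + 1) * s * s ^ n = (1 - q) ^ (n + 1) := by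
    rw [hμ, div_pow]; field_simp; ring
  have h2 : μ ^ (n + 1) * s ≤ (1 - q ^ (n + 1)) / (n + 1) := by linarith
  rw [le_div_iff₀ hn1] at h2
  have h3 := mul_le_mul_of_nonneg_right h2 (show 0 ≤ s ^ n by positivity)
  calc ((n : ℝ) + 1) * (1 - q) ^ (n + 1) = μ ^ (n + 1) * s * (n + 1) * s ^ n := by
        rw [← e2]; ring
    _ ≤ (1 - q ^ (n + 1)) * s ^ n := h3
    _ = s ^ n * (1 - q ^ (n + 1)) := by ring

/-- `-log Q ≤ (1-Q) exp(EE Y)` if `1 - Q ≤ (89/100) (1-Y)` -/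
lemma ineq5 {Y Q : ℝ} (hY : 0 ≤ Y) (hY1 : Y < 1) (hQ1 : Q < 1)
    (h : 1 - Q ≤ 89 / 100 * (1 - Y)) : -Real.log Q ≤ (1 - Q) * Real.exp (EE Y) := by
  set Q0 := 1 - 89 / 100 * (1 - Y) with hQ0
  have hQ0Q : Q0 ≤ Q := by linarith
  have hQ0p : 0 < Q0 := by linarith
  have hQp : 0 < Q := by linarith
  have h3 := ineq3 hY hY1
  rw [← hQ0] at h3
  have h4 : 89 / 100 * (1 - Y) = 1 - Q0 := by rw [hQ0]; ring
  rw [h4] at h3
  -- `log Q ≥ convex combination`
  have hQ01 : 0 < 1 - Q0 := by linarith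
  obtain ⟨_, hcc⟩ := strictConcaveOn_log_Ioi.concaveOn
  have ha : 0 ≤ (1 - Q) / (1 - Q0) := div_nonneg (by linarith) hQ01.le
  have hb : 0 ≤ (Q - Q0) / (1 - Q0) := div_nonneg (by linarith) hQ01.le
  have hab : (1 - Q) / (1 - Q0) + (Q - Q0) / (1 - Q0) = 1 := by field_simp; ring
  have hconc := hcc (show Q0 ∈ Ioi (0 : ℝ) from hQ0p)
    (show (1 : ℝ) ∈ Ioi (0 : ℝ) by simp) ha hb hab
  simp only [smul_eq_mul, Real.log_one, mul_zero, add_zero, mul_one] at hconc
  have e1 : (1 - Q) / (1 - Q0) * Q0 + (Q - Q0) / (1 - Q0) = Q := by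
    field_simp
    ring
  rw [e1] at hconc
  have h5 : (1 - Q) / (1 - Q0) * (-Real.log Q0) ≤ (1 - Q) / (1 - Q0) * ((1 - Q0) * Real.exp (EE Y)) :=
    mul_le_mul_of_nonneg_left h3 (div_nonneg (by linarith) hQ01.le)
  have e2 : (1 - Q) / (1 - Q0) * ((1 - Q0) * Real.exp (EE Y)) = (1 - Q) * Real.exp (EE Y) := by
    field_simp
  rw [e2] at h5
  linarith

/-- the truncated cone inequality, `n = k+1` -/
lemma ineqE (k : ℕ) {q y : ℝ} (hy : 0 ≤ y) (hyq : y ≤ q) (hq : 0 < q) (hq1 : q < 1)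
    (h : 1 - q ^ (k + 2) ≤ 89 / 100 * (1 - y ^ (k + 2))) :
    (1 - q) * ((1 - y ^ (k + 2)) / (k + 2)) ^ (k + 1) ≤
      (1 - q ^ (k + 2)) / (k + 2) * ((1 - y ^ (k + 1)) / (k + 1)) ^ (k + 1) := by
  have hy1 : y < 1 := lt_of_le_of_lt hyq hq1
  have hY0 : 0 ≤ y ^ (k + 2) := by positivity
  have hY1 : y ^ (k + 2) < 1 := pow_lt_one₀ hy hy1 (by omega)
  have hQ1 : q ^ (k + 2) < 1 := pow_lt_one₀ hq.le hq1 (by omega)
  have hQ0 : 0 < q ^ (k + 2) := by positivity
  have hk1 : (0 : ℝ) < (k : ℝ) + 1 := by positivity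
  have hk2 : (0 : ℝ) < (k : ℝ) + 2 := by positivity
  have h1 := ineq1 k hy hy1
  have h2 := ineq2 (k + 1) hq hq1
  have h5 := ineq5 hY0 hY1 hQ1 h
  set m0 := 1 / ((k : ℝ) + 2) + y ^ (k + 2) * Real.log y / (1 - y ^ (k + 2)) with hm0
  -- `EE (y^(k+2)) = (k+2) m0`
  have hEE : EE (y ^ (k + 2)) = ((k : ℝ) + 2) * m0 := by
    unfold EE
    rw [hm0, Real.log_pow]
    push_cast
    field_simp
  have hexp : Real.exp (EE (y ^ (k + 2))) = Real.exp m0 ^ (k + 2) := by
    rw [hEE, ← Real.exp_nat_mul]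
    push_cast
    ring_nf
  rw [hexp, Real.log_pow] at h5
  push_cast at h5 h2
  -- h5 : -((k+2) log q) ≤ (1-Q) X^{k+2}
  set X := Real.exp m0 with hX
  have hX0 : 0 < X := Real.exp_pos _
  set Q := q ^ (k + 2) with hQ
  set Y := y ^ (k + 2) with hY
  have hlq : 0 < -Real.log q := by
    have := Real.log_neg hq hq1
    linarith
  -- `(1-q) ≤ (1-Q)/(k+2) * X^{k+1}`
  have h6 : (1 - q) ≤ (1 - Q) / (k + 2) * X ^ (k + 1) := by
    have h7 : (1 - q) ^ (k + 2) ≤ ((1 - Q) / (k + 2) * X ^ (k + 1)) ^ (k + 2) := by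
      have h8 : -Real.log q ≤ (1 - Q) / (k + 2) * X ^ (k + 2) := by
        rw [div_mul_eq_mul_div, le_div_iff₀ hk2]
        linarith
      have h9 := pow_le_pow_left₀ hlq.le h8 (k + 1)
      have h10 : ((k : ℝ) + 2) * (1 - q) ^ (k + 2) ≤
          ((1 - Q) / (k + 2) * X ^ (k + 2)) ^ (k + 1) * (1 - Q) := by
        have e : (k : ℝ) + 1 + 1 = k + 2 := by ring
        rw [e] at h2
        exact h2.trans (mul_le_mul_of_nonneg_right h9 (by linarith))
      have h11 : (1 - q) ^ (k + 2) ≤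
          ((1 - Q) / (k + 2) * X ^ (k + 2)) ^ (k + 1) * (1 - Q) / (k + 2) := by
        rw [le_div_iff₀ hk2]
        linarith
      refine h11.trans (le_of_eq ?_)
      rw [mul_pow, mul_pow, ← pow_mul, ← pow_mul, mul_comm (k + 2) (k + 1), pow_succ ((1 - Q) / _) (k + 1)]
      ring
    exact le_of_pow_le_pow_left₀ (by omega)
      (mul_nonneg (div_nonneg (by linarith) hk2.le) (by positivity)) h7
  have h12 : X * ((1 - Y) / (k + 2)) ≤ (1 - y ^ (k + 1)) / (k + 1) := by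
    rw [← mul_div_assoc]
    exact h1
  have hYd : 0 ≤ (1 - Y) / (k + 2) := div_nonneg (by linarith) hk2.le
  calc (1 - q) * ((1 - Y) / (k + 2)) ^ (k + 1)
      ≤ ((1 - Q) / (k + 2) * X ^ (k + 1)) * ((1 - Y) / (k + 2)) ^ (k + 1) :=
        mul_le_mul_of_nonneg_right h6 (by positivity)
    _ = (1 - Q) / (k + 2) * (X * ((1 - Y) / (k + 2))) ^ (k + 1) := by rw [mul_pow]; ring
    _ ≤ (1 - Q) / (k + 2) * ((1 - y ^ (k + 1)) / (k + 1)) ^ (k + 1) := by
        refine mul_le_mul_of_nonneg_left ?_ (div_nonneg (by linarith) hk2.le)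
        exact pow_le_pow_left₀ (by positivity) h12 _

/-! ### comparison with a truncated cone -/

lemma psi_mono (k : ℕ) {v a b : ℝ} (ha : 0 ≤ a) (hab : a ≤ b) (hb : b ≤ v) :
    ((k : ℝ) + 2) * v * a ^ (k + 1) - (k + 1) * a ^ (k + 2) ≤
      ((k : ℝ) + 2) * v * b ^ (k + 1) - (k + 1) * b ^ (k + 2) := by
  have hd : ∀ y : ℝ, HasDerivAt (fun y : ℝ => ((k : ℝ) + 2) * v * y ^ (k + 1) -
      (k + 1) * y ^ (k + 2)) (((k : ℝ) + 2) * (k + 1) * y ^ k * (v - y)) y := by
    intro y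
    have h1 : HasDerivAt (fun z : ℝ => z ^ (k + 2)) (((k : ℝ) + 2) * y ^ (k + 1)) y := by
      have := hasDerivAt_pow (k + 2) y
      push_cast at this
      exact this
    have h2 : HasDerivAt (fun z : ℝ => z ^ (k + 1)) (((k : ℝ) + 1) * y ^ k) y := by
      have := hasDerivAt_pow (k + 1) y
      push_cast at this
      exact this
    refine ((h2.const_mul (((k : ℝ) + 2) * v)).sub (h1.const_mul ((k : ℝ) + 1))).congr_deriv ?_
    ring
  have hm : MonotoneOn (fun y : ℝ => ((k : ℝ) + 2) * v * y ^ (k + 1) -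
      (k + 1) * y ^ (k + 2)) (Icc 0 v) := by
    refine monotoneOn_of_deriv_nonneg (convex_Icc 0 v)
      (fun x _ => (hd x).continuousAt.continuousWithinAt)
      (fun x _ => (hd x).differentiableAt.differentiableWithinAt) ?_
    rw [interior_Icc]
    intro y hy
    rw [(hd y).deriv]
    have : 0 ≤ y ^ k := pow_nonneg hy.1.le k
    have : 0 ≤ v - y := by linarith [hy.2]
    positivity
  exact hm ⟨ha, hab.trans hb⟩ ⟨ha.trans hab, hb⟩ hab

lemma psi_anti (k : ℕ) {v a b : ℝ} (hv : 0 ≤ v) (ha : v ≤ a) (hab : a ≤ b) :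
    ((k : ℝ) + 2) * v * b ^ (k + 1) - (k + 1) * b ^ (k + 2) ≤
      ((k : ℝ) + 2) * v * a ^ (k + 1) - (k + 1) * a ^ (k + 2) := by
  have hd : ∀ y : ℝ, HasDerivAt (fun y : ℝ => ((k : ℝ) + 2) * v * y ^ (k + 1) -
      (k + 1) * y ^ (k + 2)) (((k : ℝ) + 2) * (k + 1) * y ^ k * (v - y)) y := by
    intro y
    have h1 : HasDerivAt (fun z : ℝ => z ^ (k + 2)) (((k : ℝ) + 2) * y ^ (k + 1)) y := by
      have := hasDerivAt_pow (k + 2) y
      push_cast at this
      exact this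
    have h2 : HasDerivAt (fun z : ℝ => z ^ (k + 1)) (((k : ℝ) + 1) * y ^ k) y := by
      have := hasDerivAt_pow (k + 1) y
      push_cast at this
      exact this
    refine ((h2.const_mul (((k : ℝ) + 2) * v)).sub (h1.const_mul ((k : ℝ) + 1))).congr_deriv ?_
    ring
  have hm : AntitoneOn (fun y : ℝ => ((k : ℝ) + 2) * v * y ^ (k + 1) -
      (k + 1) * y ^ (k + 2)) (Ici v) := by
    refine antitoneOn_of_deriv_nonpos (convex_Ici v)
      (fun x _ => (hd x).continuousAt.continuousWithinAt)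
      (fun x _ => (hd x).differentiableAt.differentiableWithinAt) ?_
    rw [interior_Ici]
    intro y hy
    rw [(hd y).deriv]
    have hy' : v < y := hy
    have h1 : 0 ≤ y ^ k := pow_nonneg (hv.trans hy'.le) k
    have h2 : 0 ≤ y - v := by linarith
    have h3 : 0 ≤ ((k : ℝ) + 2) * (k + 1) * y ^ k * (y - v) := by positivity
    have h4 : ((k : ℝ) + 2) * (k + 1) * y ^ k * (v - y) =
      -(((k : ℝ) + 2) * (k + 1) * y ^ k * (y - v)) := by ring
    linarith
  exact hm ha (ha.trans hab) hab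

/-- head comparison -/
lemma head_le (k : ℕ) {r l : ℝ → ℝ} {x : ℝ} (hx : 0 < x) (hrc : ContinuousOn r (Icc 0 x))
    (hlc : ContinuousOn l (Icc 0 x)) (hd : ConcaveOn ℝ (Icc 0 x) (fun u => r u - l u))
    (hrx : l x = r x) (hrpos : ∀ u ∈ Icc 0 x, 0 < r u) (hl0 : ∀ u ∈ Icc 0 x, 0 ≤ l u)
    (hra : AntitoneOn r (Icc 0 x))
    (hI : ∫ u in (0 : ℝ)..x, l u ^ (k + 2) = ∫ u in (0 : ℝ)..x, r u ^ (k + 2)) :
    ∫ u in (0 : ℝ)..x, l u ^ (k + 1) ≤ ∫ u in (0 : ℝ)..x, r u ^ (k + 1) := by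
  have hsub : uIcc 0 x = Icc 0 x := uIcc_of_le hx.le
  have hri : ∀ j : ℕ, IntervalIntegrable (fun u => r u ^ j) volume 0 x := fun j =>
    ContinuousOn.intervalIntegrable (by rw [hsub]; exact hrc.pow j)
  have hli : ∀ j : ℕ, IntervalIntegrable (fun u => l u ^ j) volume 0 x := fun j =>
    ContinuousOn.intervalIntegrable (by rw [hsub]; exact hlc.pow j)
  -- crossing point
  set S : Set ℝ := {u | u ∈ Icc 0 x ∧ 0 ≤ r u - l u} with hS
  have hSc : IsClosed S := by
    have h1 : S = Icc 0 x ∩ (fun u => r u - l u) ⁻¹' Ici 0 := by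
      ext u; simp [hS]
    rw [h1]
    exact (hrc.sub hlc).preimage_isClosed_of_isClosed isClosed_Icc isClosed_Ici
  have hxS : x ∈ S := ⟨right_mem_Icc.2 hx.le, by rw [hrx, sub_self]⟩
  have hSb : BddBelow S := ⟨0, fun u hu => hu.1.1⟩
  set u0 := sInf S with hu0
  have hu0S : u0 ∈ S := hSc.csInf_mem ⟨x, hxS⟩ hSb
  set v := r u0 with hv
  have hv0 : 0 < v := hrpos u0 hu0S.1
  have hpt : ∀ u ∈ Icc 0 x, ((k : ℝ) + 2) * v * l u ^ (k + 1) - (k + 1) * l u ^ (k + 2) ≤
      ((k : ℝ) + 2) * v * r u ^ (k + 1) - (k + 1) * r u ^ (k + 2) := by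
    intro u hu
    rcases lt_or_ge u u0 with h | h
    · have h1 : u ∉ S := fun h2 => absurd (csInf_le hSb h2) (not_le.2 h)
      have h2 : r u < l u := by
        by_contra h3
        exact h1 ⟨hu, by linarith [not_lt.1 h3]⟩
      exact psi_anti k hv0.le (hra hu hu0S.1 h.le) h2.le
    · have h1 : 0 ≤ r u - l u := by
        rcases h.eq_or_lt with h2 | h2
        · rw [← h2]; exact hu0S.2
        · rcases hu.2.eq_or_lt with h3 | h3
          · rw [h3, hrx, sub_self]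
          · -- concavity
            have hxu : 0 < x - u0 := by linarith
            obtain ⟨_, hdd⟩ := hd
            have ha' : 0 ≤ (x - u) / (x - u0) := div_nonneg (by linarith) hxu.le
            have hb' : 0 ≤ (u - u0) / (x - u0) := div_nonneg (by linarith) hxu.le
            have hab' : (x - u) / (x - u0) + (u - u0) / (x - u0) = 1 := by field_simp; ring
            have h4 := hdd hu0S.1 (right_mem_Icc.2 hx.le) ha' hb' hab'
            simp only [smul_eq_mul] at h4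
            have e : (x - u) / (x - u0) * u0 + (u - u0) / (x - u0) * x = u := by
              field_simp
              ring
            rw [e, hrx, sub_self, mul_zero, add_zero] at h4
            refine le_trans (mul_nonneg (div_nonneg (by linarith) hxu.le) hu0S.2) h4
      exact psi_mono k (hl0 u hu) (by linarith) (hra hu0S.1 hu h)
  have hint : ∫ u in (0 : ℝ)..x, (((k : ℝ) + 2) * v * l u ^ (k + 1) - (k + 1) * l u ^ (k + 2)) ≤
      ∫ u in (0 : ℝ)..x, (((k : ℝ) + 2) * v * r u ^ (k + 1) - (k + 1) * r u ^ (k + 2)) :=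
    intervalIntegral.integral_mono_on hx.le
      (((hli _).const_mul _).sub ((hli _).const_mul _))
      (((hri _).const_mul _).sub ((hri _).const_mul _)) hpt
  rw [intervalIntegral.integral_sub ((hli _).const_mul _) ((hli _).const_mul _),
    intervalIntegral.integral_sub ((hri _).const_mul _) ((hri _).const_mul _),
    intervalIntegral.integral_const_mul, intervalIntegral.integral_const_mul,
    intervalIntegral.integral_const_mul, intervalIntegral.integral_const_mul, hI] at hint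
  have h1 : ((k : ℝ) + 2) * v * (∫ u in (0 : ℝ)..x, l u ^ (k + 1)) ≤
      ((k : ℝ) + 2) * v * (∫ u in (0 : ℝ)..x, r u ^ (k + 1)) := by linarith
  exact le_of_mul_le_mul_left h1 (by positivity)

/-- tail comparison -/
lemma tail_le (k : ℕ) {r l : ℝ → ℝ} {x b : ℝ} (hxb : x ≤ b) (hb : b ≤ 1)
    (hrc : ContinuousOn r (Icc x 1)) (hlc : Continuous l)
    (hr0 : ∀ u ∈ Icc x 1, 0 ≤ r u) (hrpos : ∀ u ∈ Ico x 1, 0 < r u)
    (hrl : ∀ u ∈ Icc x 1, r u ≤ l u) (hla : Antitone l)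
    (hI : ∫ u in x..b, l u ^ (k + 2) = ∫ u in x..1, r u ^ (k + 2)) :
    ∫ u in x..b, l u ^ (k + 1) ≤ ∫ u in x..1, r u ^ (k + 1) := by
  have hx1 : x ≤ 1 := hxb.trans hb
  have hri : ∀ (j : ℕ) (c d : ℝ), c ∈ Icc x 1 → d ∈ Icc x 1 →
      IntervalIntegrable (fun u => r u ^ j) volume c d := fun j c d hc hd =>
    ContinuousOn.intervalIntegrable ((hrc.pow j).mono (uIcc_subset_Icc hc hd))
  have hli : ∀ (j : ℕ) (c d : ℝ), IntervalIntegrable (fun u => l u ^ j) volume c d :=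
    fun j c d => (hlc.pow j).intervalIntegrable c d
  -- for every `c < b`
  have hmain : ∀ c ∈ Ico x b, ∫ u in x..c, l u ^ (k + 1) ≤ ∫ u in x..1, r u ^ (k + 1) := by
    intro c hc
    have hc1 : c < 1 := lt_of_lt_of_le hc.2 hb
    have hcI : c ∈ Icc x 1 := ⟨hc.1, hc1.le⟩
    set v := l c with hv
    have hv0 : 0 < v := lt_of_lt_of_le (hrpos c ⟨hc.1, hc1⟩) (hrl c hcI)
    have h1 : ∫ u in x..c, (v * l u ^ (k + 1) - l u ^ (k + 2)) ≤
        ∫ u in x..c, (v * r u ^ (k + 1) - r u ^ (k + 2)) := by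
      refine intervalIntegral.integral_mono_on hc.1
        (((hli _ _ _).const_mul _).sub (hli _ _ _))
        (((hri _ _ _ ⟨le_rfl, hx1⟩ hcI).const_mul _).sub (hri _ _ _ ⟨le_rfl, hx1⟩ hcI)) ?_
      intro u hu
      have huI : u ∈ Icc x 1 := ⟨hu.1, hu.2.trans hc1.le⟩
      have hlv : v ≤ l u := hla hu.2
      have hru := hr0 u huI
      have hrlu := hrl u huI
      have e1 : v * l u ^ (k + 1) - l u ^ (k + 2) = -(l u ^ (k + 1) * (l u - v)) := by ring
      have e2 : v * r u ^ (k + 1) - r u ^ (k + 2) = -(r u ^ (k + 1) * (r u - v)) := by ring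
      rw [e1, e2, neg_le_neg_iff]
      rcases le_total (r u) v with h | h
      · have h2 : r u ^ (k + 1) * (r u - v) ≤ 0 :=
          mul_nonpos_of_nonneg_of_nonpos (by positivity) (by linarith)
        have h3 : 0 ≤ l u ^ (k + 1) * (l u - v) :=
          mul_nonneg (pow_nonneg (hru.trans hrlu) _) (by linarith)
        linarith
      · exact mul_le_mul (pow_le_pow_left₀ hru hrlu _) (by linarith) (by linarith)
          (pow_nonneg (hru.trans hrlu) _)
    have h2 : 0 ≤ ∫ u in c..1, (v * r u ^ (k + 1) - r u ^ (k + 2)) := by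
      refine intervalIntegral.integral_nonneg hc1.le fun u hu => ?_
      have huI : u ∈ Icc x 1 := ⟨hc.1.trans hu.1, hu.2⟩
      have hru := hr0 u huI
      have hrv : r u ≤ v := (hrl u huI).trans (hla hu.1)
      have e2 : v * r u ^ (k + 1) - r u ^ (k + 2) = r u ^ (k + 1) * (v - r u) := by ring
      rw [e2]
      exact mul_nonneg (by positivity) (by linarith)
    have hic : ∀ c' d' : ℝ, c' ∈ Icc x 1 → d' ∈ Icc x 1 → IntervalIntegrable
        (fun u => v * r u ^ (k + 1) - r u ^ (k + 2)) volume c' d' := fun c' d' h h' =>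
      ((hri _ _ _ h h').const_mul _).sub (hri _ _ _ h h')
    have h3 := intervalIntegral.integral_add_adjacent_intervals
      (hic x c ⟨le_rfl, hx1⟩ hcI) (hic c 1 hcI ⟨hx1, le_rfl⟩)
    have h4 : ∫ u in x..1, (v * r u ^ (k + 1) - r u ^ (k + 2)) =
        v * (∫ u in x..1, r u ^ (k + 1)) - ∫ u in x..1, r u ^ (k + 2) := by
      rw [intervalIntegral.integral_sub ((hri _ _ _ ⟨le_rfl, hx1⟩ ⟨hx1, le_rfl⟩).const_mul _)
        (hri _ _ _ ⟨le_rfl, hx1⟩ ⟨hx1, le_rfl⟩), intervalIntegral.integral_const_mul]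
    have h5 : ∫ u in x..c, (v * l u ^ (k + 1) - l u ^ (k + 2)) =
        v * (∫ u in x..c, l u ^ (k + 1)) - ∫ u in x..c, l u ^ (k + 2) := by
      rw [intervalIntegral.integral_sub ((hli _ _ _).const_mul _) (hli _ _ _),
        intervalIntegral.integral_const_mul]
    have h6 : ∫ u in x..c, l u ^ (k + 2) ≤ ∫ u in x..b, l u ^ (k + 2) := by
      rw [← intervalIntegral.integral_add_adjacent_intervals (hli _ x c) (hli _ c b)]
      have : 0 ≤ ∫ u in c..b, l u ^ (k + 2) := by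
        refine intervalIntegral.integral_nonneg hc.2.le fun u hu => ?_
        have huI : u ∈ Icc x 1 := ⟨hc.1.trans hu.1, hu.2.trans hb⟩
        exact pow_nonneg ((hr0 u huI).trans (hrl u huI)) _
      linarith
    have h7 : v * (∫ u in x..c, l u ^ (k + 1)) ≤ v * (∫ u in x..1, r u ^ (k + 1)) := by
      linarith
    exact le_of_mul_le_mul_left h7 hv0
  rcases hxb.eq_or_lt with h | h
  · rw [← h, intervalIntegral.integral_same]
    exact intervalIntegral.integral_nonneg hx1 fun u hu => pow_nonneg (hr0 u hu) _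
  · have hcont : Continuous (fun c => ∫ u in x..c, l u ^ (k + 1)) :=
      intervalIntegral.continuous_primitive (fun a b => hli _ a b) x
    have hlim : Tendsto (fun c => ∫ u in x..c, l u ^ (k + 1)) (𝓝[<] b)
        (𝓝 (∫ u in x..b, l u ^ (k + 1))) := (hcont.tendsto b).mono_left nhdsWithin_le_nhds
    refine le_of_tendsto hlim ?_
    filter_upwards [Ico_mem_nhdsLT h] with c hc
    exact hmain c hc

lemma int_line (n : ℕ) {ρ σ x a b : ℝ} (hσ : 0 < σ) :
    ∫ u in a..b, (ρ - σ * (u - x)) ^ n =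
      ((ρ - σ * (a - x)) ^ (n + 1) - (ρ - σ * (b - x)) ^ (n + 1)) / ((n + 1) * σ) := by
  have hn : (n : ℝ) + 1 ≠ 0 := by positivity
  have hb := hσ.ne'
  have hd : ∀ u ∈ uIcc a b, HasDerivAt
      (fun u => -(ρ - σ * (u - x)) ^ (n + 1) / ((n + 1) * σ)) ((ρ - σ * (u - x)) ^ n) u := by
    intro u _
    have h1 : HasDerivAt (fun u => ρ - σ * (u - x)) (-σ) u := by
      have := (((hasDerivAt_id u).sub_const x).const_mul σ).const_sub ρ
      exact this.congr_deriv (by simp)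
    have h2 := ((h1.fun_pow (n + 1)).fun_neg).div_const (((n : ℝ) + 1) * σ)
    refine h2.congr_deriv ?_
    simp only [Nat.add_sub_cancel]
    push_cast
    field_simp
  rw [intervalIntegral.integral_eq_sub_of_hasDerivAt hd]
  · ring
  · exact Continuous.intervalIntegrable (by fun_prop) _ _

/-- **the truncated cone comparison and the resulting bound** (`n = k+2`) -/
theorem main (k : ℕ) {r : ℝ → ℝ} (hr : Prof r) {x : ℝ} (hx : x ∈ Ioo (0 : ℝ) 1)
    (hp : ∫ u in (0 : ℝ)..x, r u ^ (k + 2) ≤ 89 / 100 * ∫ u in (0 : ℝ)..1, r u ^ (k + 2)) :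
    x * (∫ u in (0 : ℝ)..1, r u ^ (k + 2)) ^ (k + 2) ≤
      (∫ u in (0 : ℝ)..x, r u ^ (k + 2)) * (∫ u in (0 : ℝ)..1, r u ^ (k + 1)) ^ (k + 2) := by
  have hxI : x ∈ Icc (-1 : ℝ) 1 := ⟨by linarith [hx.1], hx.2.le⟩
  have hρ := hr.pos x ⟨by linarith [hx.1], hx.2⟩
  obtain ⟨β, hβ, hline⟩ := prof_support hr hx
  set ρ := r x with hρdef
  have h0 : (0 : ℝ) ∈ Icc (-1 : ℝ) 1 := by norm_num
  have h1 : (1 : ℝ) ∈ Icc (-1 : ℝ) 1 := by norm_num
  have hri : ∀ (j : ℕ) {a b : ℝ}, a ∈ Icc (-1 : ℝ) 1 → b ∈ Icc (-1 : ℝ) 1 →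
      IntervalIntegrable (fun u => r u ^ j) volume a b :=
    fun j a b ha hb => prof_intervalIntegrable hr j ha hb
  have hrc : ContinuousOn r (Icc (-1) 1) := hr.cont
  set P := ∫ u in (0 : ℝ)..x, r u ^ (k + 2) with hP
  set Q := ∫ u in x..1, r u ^ (k + 2) with hQ
  have hPQ : ∫ u in (0 : ℝ)..1, r u ^ (k + 2) = P + Q :=
    (intervalIntegral.integral_add_adjacent_intervals (hri _ h0 hxI) (hri _ hxI h1)).symm
  rw [hPQ] at hp ⊢
  -- the slope `σ`
  have hHc : Continuous (fun σ : ℝ => ∫ u in (0 : ℝ)..x, (ρ - σ * (u - x)) ^ (k + 2)) := by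
    refine intervalIntegral.continuous_parametric_intervalIntegral_of_continuous' ?_ _ _
    fun_prop
  have hH0 : ∫ u in (0 : ℝ)..x, (ρ - 0 * (u - x)) ^ (k + 2) ≤ P := by
    have := le_integral_left hr (k + 2) (x := x) ⟨hx.1.le, hx.2.le⟩
    simpa using this
  have hHβ : P ≤ ∫ u in (0 : ℝ)..x, (ρ - β * (u - x)) ^ (k + 2) := by
    refine intervalIntegral.integral_mono_on hx.1.le (hri _ h0 hxI)
      (Continuous.intervalIntegrable (by fun_prop) _ _) (fun u hu => ?_)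
    exact pow_le_pow_left₀ (hr.nonneg' ⟨by linarith [hu.1], by linarith [hu.2, hx.2]⟩)
      (hline u ⟨by linarith [hu.1], by linarith [hu.2, hx.2]⟩) _
  obtain ⟨σ, hσ, hσP⟩ : ∃ σ ∈ Icc 0 β, ∫ u in (0 : ℝ)..x, (ρ - σ * (u - x)) ^ (k + 2) = P :=
    intermediate_value_Icc hβ hHc.continuousOn ⟨hH0, hHβ⟩
  set l : ℝ → ℝ := fun u => ρ - σ * (u - x) with hl
  have hlc : Continuous l := by simp only [hl]; fun_prop
  have hla : Antitone l := fun a b hab => by
    simp only [hl]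
    have := mul_le_mul_of_nonneg_left hab hσ.1
    linarith
  have hlx : l x = r x := by simp [hl, hρdef]
  have hrl : ∀ u ∈ Icc x 1, r u ≤ l u := by
    intro u hu
    have h2 := hline u ⟨by linarith [hu.1, hx.1], hu.2⟩
    have h3 : σ * (u - x) ≤ β * (u - x) := mul_le_mul_of_nonneg_right hσ.2 (by linarith [hu.1])
    simp only [hl]
    linarith
  have hrantiI : AntitoneOn r (Icc 0 1) := hr.antitoneOn_right
  -- head
  have hhead : ∫ u in (0 : ℝ)..x, l u ^ (k + 1) ≤ ∫ u in (0 : ℝ)..x, r u ^ (k + 1) := by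
    have hsub : Icc 0 x ⊆ Icc (-1 : ℝ) 1 := Icc_subset_Icc (by norm_num) hx.2.le
    have hsub2 : Icc 0 x ⊆ Icc (0 : ℝ) 1 := Icc_subset_Icc le_rfl hx.2.le
    refine head_le k hx.1 (hrc.mono hsub) hlc.continuousOn ?_ hlx
      (fun u hu => hr.pos u ⟨by linarith [hu.1], by linarith [hu.2, hx.2]⟩) ?_
      (hrantiI.mono hsub2) hσP
    · refine (hr.conc.subset hsub (convex_Icc _ _)).sub ?_
      refine ⟨convex_Icc _ _, fun a _ b _ s t _ _ hst => le_of_eq ?_⟩
      simp only [hl, smul_eq_mul]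
      have : s = 1 - t := by linarith
      rw [this]
      ring
    · intro u hu
      have h2 : l x ≤ l u := hla hu.2
      rw [hlx] at h2
      linarith
  -- the truncation point `b`
  have hlI : ∀ (j : ℕ) (c d : ℝ), IntervalIntegrable (fun u => l u ^ j) volume c d :=
    fun j c d => (hlc.pow j).intervalIntegrable c d
  have hGc : Continuous (fun b : ℝ => ∫ u in x..b, l u ^ (k + 2)) :=
    intervalIntegral.continuous_primitive (fun a b => hlI _ a b) x
  have hr0 : ∀ u ∈ Icc x 1, 0 ≤ r u := fun u hu => hr.nonneg' ⟨by linarith [hu.1, hx.1], hu.2⟩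
  have hQ0 : 0 ≤ Q := intervalIntegral.integral_nonneg hx.2.le fun u hu => pow_nonneg (hr0 u hu) _
  have hQ1 : Q ≤ ∫ u in x..1, l u ^ (k + 2) :=
    intervalIntegral.integral_mono_on hx.2.le (hri _ hxI h1) (hlI _ _ _)
      (fun u hu => pow_le_pow_left₀ (hr0 u hu) (hrl u hu) _)
  obtain ⟨b, hb, hbQ⟩ : ∃ b ∈ Icc x 1, ∫ u in x..b, l u ^ (k + 2) = Q :=
    intermediate_value_Icc hx.2.le hGc.continuousOn
      ⟨by simpa using hQ0, hQ1⟩
  have htail : ∫ u in x..b, l u ^ (k + 1) ≤ ∫ u in x..1, r u ^ (k + 1) :=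
    tail_le k hb.1 hb.2 (hrc.mono (Icc_subset_Icc (by linarith [hx.1]) le_rfl)) hlc hr0
      (fun u hu => hr.pos u ⟨by linarith [hu.1, hx.1], hu.2⟩) hrl hla hbQ
  have hsum : ∫ u in (0 : ℝ)..b, l u ^ (k + 1) ≤ ∫ u in (0 : ℝ)..1, r u ^ (k + 1) := by
    rw [← intervalIntegral.integral_add_adjacent_intervals (hlI _ 0 x) (hlI _ x b),
      ← intervalIntegral.integral_add_adjacent_intervals (hri _ h0 hxI) (hri _ hxI h1)]
    exact add_le_add hhead htail
  have hsum2 : ∫ u in (0 : ℝ)..b, l u ^ (k + 2) = P + Q := by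
    rw [← intervalIntegral.integral_add_adjacent_intervals (hlI _ 0 x) (hlI _ x b), hbQ]
    rw [← hσP]
  have hP0 : 0 ≤ P := intervalIntegral.integral_nonneg hx.1.le fun u hu =>
    pow_nonneg (hr.nonneg' ⟨by linarith [hu.1], by linarith [hu.2, hx.2]⟩) _
  have hlb0 : 0 ≤ l b := (hr0 b hb).trans (hrl b hb)
  have hI10 : 0 ≤ ∫ u in (0 : ℝ)..b, l u ^ (k + 1) := by
    refine intervalIntegral.integral_nonneg (hx.1.le.trans hb.1) fun u hu => ?_
    exact pow_nonneg (hlb0.trans (hla hu.2)) _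
  suffices h : x * (P + Q) ^ (k + 2) ≤ P * (∫ u in (0 : ℝ)..b, l u ^ (k + 1)) ^ (k + 2) from
    h.trans (mul_le_mul_of_nonneg_left (pow_le_pow_left₀ hI10 hsum _) hP0)
  rcases hσ.1.eq_or_lt with hs | hs
  · -- `σ = 0`
    have hl2 : ∀ (j : ℕ) (d : ℝ), ∫ u in (0 : ℝ)..d, l u ^ j = d * ρ ^ j := by
      intro j d
      simp [hl, ← hs]
    have e1 : P = x * ρ ^ (k + 2) := by rw [← hσP]; exact hl2 (k + 2) x
    rw [← hsum2, hl2, hl2, e1]
    refine le_of_eq ?_
    rw [mul_pow, mul_pow, ← pow_mul, ← pow_mul]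
    have : (k + 2) * (k + 2) = (k + 2) + (k + 1) * (k + 2) := by ring
    rw [this, pow_add]
    ring
  · -- `σ > 0`
    set A := ρ + σ * x with hA
    set v := l b with hv
    have hl0 : l 0 = A := by simp only [hl, hA]; ring
    have hAρ : ρ < A := by
      have := mul_pos hs hx.1
      linarith
    have hA0 : 0 < A := hρ.trans hAρ
    have hvρ : v ≤ ρ := by
      have := hla hb.1
      rwa [hlx] at this
    have eP : P = (A ^ (k + 3) - ρ ^ (k + 3)) / (((k : ℝ) + 3) * σ) := by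
      have := int_line (k + 2) (ρ := ρ) (x := x) (a := 0) (b := x) hs
      rw [← hσP, this]
      simp only [sub_self, mul_zero, sub_zero, zero_sub, mul_neg, sub_neg_eq_add]
      push_cast
      rw [← hA]
      ring_nf
    have ePQ : P + Q = (A ^ (k + 3) - v ^ (k + 3)) / (((k : ℝ) + 3) * σ) := by
      have := int_line (k + 2) (ρ := ρ) (x := x) (a := 0) (b := b) hs
      rw [← hsum2]
      simp only [hl] at hv ⊢
      rw [this, hv]
      simp only [zero_sub, mul_neg, sub_neg_eq_add]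
      push_cast
      rw [← hA]
      ring_nf
    have eI : ∫ u in (0 : ℝ)..b, l u ^ (k + 1) =
        (A ^ (k + 2) - v ^ (k + 2)) / (((k : ℝ) + 2) * σ) := by
      have := int_line (k + 1) (ρ := ρ) (x := x) (a := 0) (b := b) hs
      simp only [hl] at hv ⊢
      rw [this, hv]
      simp only [zero_sub, mul_neg, sub_neg_eq_add]
      push_cast
      rw [← hA]
      ring_nf
    have ex : x = (A - ρ) / σ := by rw [hA]; field_simp; ring
    -- scale
    set q := ρ / A with hq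
    set y := v / A with hy
    have hq0 : 0 < q := div_pos hρ hA0
    have hq1 : q < 1 := (div_lt_one hA0).2 hAρ
    have hy0 : 0 ≤ y := div_nonneg hlb0 hA0.le
    have hyq : y ≤ q := div_le_div_of_nonneg_right hvρ hA0.le
    have eρ : ρ = q * A := by rw [hq]; field_simp
    have ev : v = y * A := by rw [hy]; field_simp
    have hk3 : (0 : ℝ) < (k : ℝ) + 3 := by positivity
    have hcond : 1 - q ^ (k + 3) ≤ 89 / 100 * (1 - y ^ (k + 3)) := by
      rw [ePQ, eP, eρ, ev, mul_pow, mul_pow] at hp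
      have hAk : 0 < A ^ (k + 3) := by positivity
      have e1 : (A ^ (k + 3) - q ^ (k + 3) * A ^ (k + 3)) / (((k : ℝ) + 3) * σ) =
          (1 - q ^ (k + 3)) * (A ^ (k + 3) / (((k : ℝ) + 3) * σ)) := by ring
      have e2 : 89 / 100 * ((A ^ (k + 3) - y ^ (k + 3) * A ^ (k + 3)) / (((k : ℝ) + 3) * σ)) =
          89 / 100 * (1 - y ^ (k + 3)) * (A ^ (k + 3) / (((k : ℝ) + 3) * σ)) := by ring
      rw [e1, e2] at hp
      exact le_of_mul_le_mul_right hp (by positivity)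
    have hE := ineqE (k + 1) hy0 hyq hq0 hq1 hcond
    push_cast at hE
    have c1 : (k : ℝ) + 1 + 2 = k + 3 := by ring
    have c2 : (k : ℝ) + 1 + 1 = k + 2 := by ring
    rw [c1, c2] at hE
    have d1 : k + 1 + 2 = k + 3 := by ring
    have d2 : k + 1 + 1 = k + 2 := by ring
    rw [d1, d2] at hE
    have hmul := mul_le_mul_of_nonneg_left hE
      (show 0 ≤ A / σ * (A ^ (k + 3) / σ) ^ (k + 2) by positivity)
    rw [eI, ePQ, eP, ex, eρ, ev]
    have f1 : (A - q * A) / σ * ((A ^ (k + 3) - (y * A) ^ (k + 3)) / (((k : ℝ) + 3) * σ)) ^ (k + 2) =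
        A / σ * (A ^ (k + 3) / σ) ^ (k + 2) * ((1 - q) * ((1 - y ^ (k + 3)) / (k + 3)) ^ (k + 2)) := by
      have : (A ^ (k + 3) - (y * A) ^ (k + 3)) / (((k : ℝ) + 3) * σ) =
          (A ^ (k + 3) / σ) * ((1 - y ^ (k + 3)) / (k + 3)) := by
        rw [mul_pow]; field_simp
      rw [this, mul_pow]
      ring
    have f2 : (A ^ (k + 3) - (q * A) ^ (k + 3)) / (((k : ℝ) + 3) * σ) *
        ((A ^ (k + 2) - (y * A) ^ (k + 2)) / (((k : ℝ) + 2) * σ)) ^ (k + 2) =
        A / σ * (A ^ (k + 3) / σ) ^ (k + 2) *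
          ((1 - q ^ (k + 3)) / (k + 3) * ((1 - y ^ (k + 2)) / (k + 2)) ^ (k + 2)) := by
      have g1 : (A ^ (k + 2) - (y * A) ^ (k + 2)) / (((k : ℝ) + 2) * σ) =
          (A ^ (k + 2) / σ) * ((1 - y ^ (k + 2)) / (k + 2)) := by
        rw [mul_pow]; field_simp
      have g2 : (A ^ (k + 3) - (q * A) ^ (k + 3)) / (((k : ℝ) + 3) * σ) =
          (A ^ (k + 3) / σ) * ((1 - q ^ (k + 3)) / (k + 3)) := by
        rw [mul_pow]; field_simp
      have g3 : A ^ (k + 3) / σ * (A ^ (k + 2) / σ) ^ (k + 2) =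
          A / σ * (A ^ (k + 3) / σ) ^ (k + 2) := by
        rw [div_pow, div_pow, ← pow_mul, ← pow_mul]
        have : (k + 3) * (k + 2) = (k + 2) + (k + 2) * (k + 2) := by ring
        rw [this, pow_add A (k + 2), pow_succ A (k + 2)]
        field_simp
      rw [g1, g2, mul_pow, ← g3]
      ring
    rw [f1, f2]
    exact hmul

end AP6

/-- **(AP6)** for `N ≤ N_B`: `τ(s) ≤ (w (n-1)/w n)^n ∫_0^s c^n` whenever `F₀(s) ≤ 89/100`. -/
theorem tau_le_of_NleB {r : ℝ → ℝ} (hr : Prof r) {n : ℕ} (hn : 2 ≤ n) (hN : NleB n r) {s : ℝ}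
    (hs : s ∈ Ioo (0 : ℝ) 1) (hF : lB n s ≤ 89 / 100 * hB n 0) :
    tau n r s ≤ (w (n - 1) / w n) ^ n * lB n s := by
  obtain ⟨k, rfl⟩ : ∃ k, n = k + 2 := ⟨n - 2, by omega⟩
  have hs' : s ∈ Icc (-1 : ℝ) 1 := ⟨by linarith [hs.1], hs.2.le⟩
  have hT : tau (k + 2) r s ∈ Ioo (0 : ℝ) 1 :=
    ⟨tau_pos hr _ ⟨hs.1, hs.2.le⟩, tau_lt_one hr _ ⟨hs.1.le, hs.2⟩⟩
  have hm := hr.mom_pos' (k + 2)
  have hw := w_pos' (k + 2)
  have hw2 := w_eq_two_hB (k + 2)
  have hm2 := mom_eq_two hr (k + 2)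
  have hm1 := mom_eq_two hr (k + 1)
  have hm1p := hr.mom_pos' (k + 1)
  have hz := integral_zero_tau hr (k + 2) hs'
  set T := tau (k + 2) r s with hTdef
  have hl0 := lB_pos (k + 2) (s := s) ⟨hs.1, hs.2.le⟩
  have key := AP6.main k hr hT (by
    rw [hz]
    have : ∫ u in (0 : ℝ)..1, r u ^ (k + 2) = mom (k + 2) r / w (k + 2) * hB (k + 2) 0 := by
      have e : ∫ u in (0 : ℝ)..1, r u ^ (k + 2) = mom (k + 2) r / 2 := by linarith
      rw [e, hw2]
      have := (hB_zero_pos (k + 2)).ne'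
      field_simp
    rw [this]
    have h1 := mul_le_mul_of_nonneg_left hF (show 0 ≤ mom (k + 2) r / w (k + 2) by positivity)
    linarith)
  rw [hz] at key
  have e2 : ∫ u in (0 : ℝ)..1, r u ^ (k + 2) = mom (k + 2) r / 2 := by linarith
  have e1 : ∫ u in (0 : ℝ)..1, r u ^ (k + 1) = mom (k + 1) r / 2 := by linarith
  rw [e1, e2] at key
  unfold NleB at hN
  have d1 : k + 2 - 1 = k + 1 := by omega
  rw [d1] at hN ⊢
  set M := mom (k + 2) r with hMdef
  set M1 := mom (k + 1) r with hM1def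
  set W := w (k + 2) with hWdef
  set W1 := w (k + 1) with hW1def
  set L := lB (k + 2) s with hLdef
  -- `T M^{k+1} W ≤ L M1^{k+2}`
  have h1 : T * M ^ (k + 1) * W ≤ L * M1 ^ (k + 2) := by
    have h2 : (T * M ^ (k + 1) * W) * (M / (W * 2 ^ (k + 2))) ≤
        (L * M1 ^ (k + 2)) * (M / (W * 2 ^ (k + 2))) := by
      have a1 : (T * M ^ (k + 1) * W) * (M / (W * 2 ^ (k + 2))) = T * (M / 2) ^ (k + 2) := by
        rw [div_pow, pow_succ M (k + 1)]
        field_simp
      have a2 : (L * M1 ^ (k + 2)) * (M / (W * 2 ^ (k + 2))) = M / W * L * (M1 / 2) ^ (k + 2) := by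
        rw [div_pow]
        field_simp
      rw [a1, a2]
      exact key
    exact le_of_mul_le_mul_right h2 (by positivity)
  have h3 : T * W ^ (k + 2) * (M ^ (k + 1)) ≤ W1 ^ (k + 2) * L * (M ^ (k + 1)) := by
    have h4 := mul_le_mul_of_nonneg_right h1 (show 0 ≤ W ^ (k + 1) by positivity)
    have h5 := mul_le_mul_of_nonneg_left hN hl0.le
    calc T * W ^ (k + 2) * (M ^ (k + 1)) = T * M ^ (k + 1) * W * W ^ (k + 1) := by
          rw [pow_succ W (k + 1)]; ring
      _ ≤ L * M1 ^ (k + 2) * W ^ (k + 1) := h4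
      _ = L * (M1 ^ (k + 2) * W ^ (k + 1)) := by ring
      _ ≤ L * (W1 ^ (k + 2) * M ^ (k + 1)) := h5
      _ = _ := by ring
  have h6 := le_of_mul_le_mul_right h3 (by positivity)
  rw [div_pow, div_mul_eq_mul_div, le_div_iff₀ (by positivity)]
  exact h6

end Crest.Agent.R230
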