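import Mathlib

/-!
# Row 230 (helper91): the real inequality behind the cylinder bound

`S k q = (1/k) ∑_{j<k} q^j`.  For `n ≥ 5`, `0 ≤ e ≤ b < 1`, `1 - b^(n+1) = p (1 - e^(n+1))`, `p ≤ 7/8`:
`(S (n+1) e / S n e)^n ≤ S (n+1) b`.
-/

set_option autoImplicit false
open Real Finset

namespace Crest.Agent.R230

/-- `Sg k q = (1/k) ∑_{j<k} q^j` -/
noncomputable def Sg (k : ℕ) (q : ℝ) : ℝ := (∑ j ∈ range k, q ^ j) / k

lemma Sg_mul {k : ℕ} (hk : 0 < k) (q : ℝ) : (k : ℝ) * ((1 - q) * Sg k q) = 1 - q ^ k := by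
  have hk' : (k : ℝ) ≠ 0 := by exact_mod_cast hk.ne'
  have h := mul_neg_geom_sum q k
  unfold Sg
  field_simp
  linarith [h]

lemma Sg_pos {k : ℕ} (hk : 0 < k) {q : ℝ} (hq : 0 ≤ q) : 0 < Sg k q := by
  unfold Sg
  apply div_pos _ (by exact_mod_cast hk)
  apply Finset.sum_pos' (fun i _ => pow_nonneg hq i)
  exact ⟨0, by simp [hk], by simp⟩

lemma Sg_mono {k : ℕ} {q q' : ℝ} (hq : 0 ≤ q) (h : q ≤ q') : Sg k q ≤ Sg k q' := by
  unfold Sg
  apply div_le_div_of_nonneg_right _ (by positivity)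
  apply Finset.sum_le_sum
  intro i _
  exact pow_le_pow_left₀ hq h i

lemma Sg_one {k : ℕ} (hk : 0 < k) : Sg k 1 = 1 := by
  have hk' : (k : ℝ) ≠ 0 := by exact_mod_cast hk.ne'
  unfold Sg
  simp [hk']

/-- Step A (Jensen): `(n+1) log μ ≤ -(1 + q log q/(1-q))`, `μ = n (1-e^(n+1))/((n+1)(1-e^n))`. -/
lemma mu_le {n : ℕ} (hn : 1 ≤ n) {e : ℝ} (he0 : 0 ≤ e) (he1 : e < 1) :
    (n * (1 - e ^ (n + 1))) / ((n + 1) * (1 - e ^ n)) ≤
      Real.exp (-(1 + e ^ (n + 1) * Real.log (e ^ (n + 1)) / (1 - e ^ (n + 1))) / (n + 1)) := by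
  have hn0 : (0 : ℝ) < n := by exact_mod_cast hn
  have hN0 : (0 : ℝ) < (n : ℝ) + 1 := by positivity
  set a := Real.exp (-(1 + e ^ (n + 1) * Real.log (e ^ (n + 1)) / (1 - e ^ (n + 1))) / (n + 1)) with ha
  have ha0 : 0 < a := Real.exp_pos _
  have hla : Real.log a = -(1 + e ^ (n + 1) * Real.log (e ^ (n + 1)) / (1 - e ^ (n + 1))) / (n + 1) := by
    rw [ha, Real.log_exp]
  have hq1 : e ^ (n + 1) < 1 := pow_lt_one₀ he0 he1 (by omega)
  have hq2 : e ^ n < 1 := pow_lt_one₀ he0 he1 (by omega)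
  -- the function H
  let H : ℝ → ℝ := fun v => (1 - v ^ n) / n - (1 / a) * ((1 + Real.log a) * (1 - v ^ (n + 1)) / (n + 1) +
    (1 - v ^ (n + 1)) / (n + 1) ^ 2 + v ^ n * (v * Real.log v) / (n + 1))
  have hcont : Continuous H := by
    have := Real.continuous_mul_log
    fun_prop
  have hder : ∀ v : ℝ, 0 < v → HasDerivAt H (-v ^ (n - 1) + v ^ n / a * (1 + Real.log a - Real.log v)) v := by
    intro v hv
    have h1 : HasDerivAt (fun v : ℝ => v ^ n) (n * v ^ (n - 1)) v := hasDerivAt_pow n v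
    have h2 : HasDerivAt (fun v : ℝ => v ^ (n + 1)) ((n + 1) * v ^ n) v := by
      have := hasDerivAt_pow (n + 1) v
      simpa using this
    have h3 : HasDerivAt (fun v : ℝ => v ^ n * (v * Real.log v)) ((n + 1) * v ^ n * Real.log v + v ^ n) v := by
      have h4 : HasDerivAt (fun v : ℝ => v ^ (n + 1) * Real.log v)
          ((n + 1) * v ^ n * Real.log v + v ^ (n + 1) * v⁻¹) v := h2.mul (Real.hasDerivAt_log hv.ne')
      have h5 : (fun v : ℝ => v ^ n * (v * Real.log v)) = fun v : ℝ => v ^ (n + 1) * Real.log v := by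
        funext x; ring
      rw [h5]
      refine h4.congr_deriv ?_
      rw [pow_succ]
      field_simp
    have h6 := ((h1.const_sub 1).div_const (n : ℝ)).sub
      ((((h2.const_sub 1).const_mul (1 + Real.log a)).div_const ((n : ℝ) + 1)).add
        ((h2.const_sub 1).div_const (((n : ℝ) + 1) ^ 2)) |>.add (h3.div_const ((n : ℝ) + 1)) |>.const_mul (1 / a))
    refine h6.congr_deriv ?_
    field_simp
    ring
  have hanti : AntitoneOn H (Set.Icc e 1) := by
    refine antitoneOn_of_deriv_nonpos (convex_Icc _ _) hcont.continuousOn ?_ ?_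
    · intro x hx
      rw [interior_Icc] at hx
      exact (hder x (by linarith [hx.1])).differentiableAt.differentiableWithinAt
    · intro x hx
      rw [interior_Icc] at hx
      have hx0 : 0 < x := by linarith [hx.1]
      rw [(hder x hx0).deriv]
      have h1 : Real.log (a / x) ≤ a / x - 1 := Real.log_le_sub_one_of_pos (by positivity)
      rw [Real.log_div ha0.ne' hx0.ne'] at h1
      have h2 : 1 + Real.log a - Real.log x ≤ a / x := by linarith
      have h3 : x ^ n / a * (1 + Real.log a - Real.log x) ≤ x ^ n / a * (a / x) :=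
        mul_le_mul_of_nonneg_left h2 (by positivity)
      have h4 : x ^ n / a * (a / x) = x ^ (n - 1) := by
        obtain ⟨k, rfl⟩ : ∃ k, n = k + 1 := ⟨n - 1, by omega⟩
        simp only [Nat.add_sub_cancel]
        field_simp
        ring
      linarith
  have hH1 : H 1 = 0 := by simp [H]
  have hHe : 0 ≤ H e := by
    rw [← hH1]
    exact hanti (Set.left_mem_Icc.2 he1.le) (Set.right_mem_Icc.2 he1.le) he1.le
  have hlog : e ^ n * (e * Real.log e) = e ^ (n + 1) * Real.log (e ^ (n + 1)) / (n + 1) := by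
    rw [Real.log_pow]
    push_cast
    field_simp
    ring
  have hHe' : H e = (1 - e ^ n) / n - (1 / a) * ((1 - e ^ (n + 1)) / (n + 1)) := by
    simp only [H]
    rw [hlog, hla]
    have : (1 - e ^ (n + 1)) ≠ 0 := by linarith
    field_simp
    ring
  rw [hHe'] at hHe
  rw [div_le_iff₀ (by have : 0 < 1 - e ^ n := by linarith
                      positivity)]
  have h7 : 1 / a * ((1 - e ^ (n + 1)) / (n + 1)) ≤ (1 - e ^ n) / n := by linarith
  rw [one_div, inv_mul_le_iff₀ ha0, div_le_iff₀ hN0] at h7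
  have h8 : a * ((1 - e ^ n) / n) * (n + 1) * n = a * ((n + 1) * (1 - e ^ n)) := by
    field_simp
  nlinarith [mul_le_mul_of_nonneg_right h7 hn0.le]

lemma two_add_sq_le (x : ℝ) : 2 + x ^ 2 ≤ Real.exp x + Real.exp (-x) := by
  have key : ∀ y : ℝ, 0 ≤ y → 2 + y ^ 2 ≤ Real.exp y + Real.exp (-y) := by
    intro y hy
    have h1 : y / 2 ≤ Real.sinh (y / 2) := Real.self_le_sinh_iff.2 (by linarith)
    have h2 : Real.exp y + Real.exp (-y) - 2 = (2 * Real.sinh (y / 2)) ^ 2 := by
      rw [Real.sinh_eq]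
      have e1 : Real.exp y = Real.exp (y / 2) ^ 2 := by rw [← Real.exp_nat_mul]; congr 1; push_cast; ring
      have e2 : Real.exp (-y) = Real.exp (-(y / 2)) ^ 2 := by
        rw [← Real.exp_nat_mul]; congr 1; push_cast; ring
      have e3 : Real.exp (y / 2) * Real.exp (-(y / 2)) = 1 := by rw [← Real.exp_add]; simp
      rw [e1, e2]
      nlinarith [e3]
    have h3 : y ^ 2 ≤ (2 * Real.sinh (y / 2)) ^ 2 := by
      apply pow_le_pow_left₀ hy
      linarith
    linarith
  rcases le_total 0 x with h | h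
  · exact key x h
  · have := key (-x) (by linarith)
    rw [neg_neg, neg_sq] at this
    linarith

lemma sum_sq_aux (n : ℕ) :
    ∑ j ∈ range (n + 1), ((n : ℝ) / 2 - (j : ℝ)) ^ 2 = (n : ℝ) * (n + 1) * (n + 2) / 12 := by
  have h1 : ∀ m : ℕ, ∑ j ∈ range (m + 1), (j : ℝ) = (m : ℝ) * (m + 1) / 2 := by
    intro m
    induction m with
    | zero => simp
    | succ k ih => rw [Finset.sum_range_succ, ih]; push_cast; ring
  have h2 : ∀ m : ℕ, ∑ j ∈ range (m + 1), ((j : ℝ)) ^ 2 = (m : ℝ) * (m + 1) * (2 * m + 1) / 6 := by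
    intro m
    induction m with
    | zero => simp
    | succ k ih => rw [Finset.sum_range_succ, ih]; push_cast; ring
  have h3 : ∀ j : ℕ, ((n : ℝ) / 2 - j) ^ 2 = (n : ℝ) ^ 2 / 4 - n * j + (j : ℝ) ^ 2 := fun j => by ring
  simp only [h3, Finset.sum_add_distrib, Finset.sum_sub_distrib, ← Finset.mul_sum, h1, h2]
  simp only [Finset.sum_const, Finset.card_range, nsmul_eq_mul]
  push_cast
  ring

/-- Step B: `S_{n+1}(e^{-u}) ≥ e^{-nu/2} (1 + ((n+1)²-1) u²/24)`. -/
lemma Sg_lower (n : ℕ) (u : ℝ) :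
    Real.exp (-(n * u / 2)) * (1 + (n * (n + 2)) * u ^ 2 / 24) ≤ Sg (n + 1) (Real.exp (-u)) := by
  have hN : (0 : ℝ) < (n : ℝ) + 1 := by positivity
  have h1 : ∀ j : ℕ, Real.exp (-u) ^ j = Real.exp (-(n * u / 2)) * Real.exp (((n : ℝ) / 2 - j) * u) := by
    intro j
    rw [← Real.exp_nat_mul, ← Real.exp_add]
    congr 1
    ring
  have h2 : ∑ j ∈ range (n + 1), Real.exp (((n : ℝ) / 2 - j) * u) =
      ∑ j ∈ range (n + 1), Real.exp (-(((n : ℝ) / 2 - j) * u)) := by
    rw [← Finset.sum_range_reflect]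
    apply Finset.sum_congr rfl
    intro j hj
    have hj' : j ≤ n := by have := Finset.mem_range.1 hj; omega
    congr 1
    have : ((n + 1 - 1 - j : ℕ) : ℝ) = n - j := by
      rw [Nat.add_sub_cancel, Nat.cast_sub hj']
    rw [this]
    ring
  have h3 : (n + 1 : ℝ) + u ^ 2 * (n * (n + 1) * (n + 2) / 12) / 2 ≤
      ∑ j ∈ range (n + 1), Real.exp (((n : ℝ) / 2 - j) * u) := by
    have h4 : ∑ j ∈ range (n + 1), (2 + (((n : ℝ) / 2 - j) * u) ^ 2) ≤
        ∑ j ∈ range (n + 1), Real.exp (((n : ℝ) / 2 - j) * u) +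
          ∑ j ∈ range (n + 1), Real.exp (-(((n : ℝ) / 2 - j) * u)) := by
      rw [← Finset.sum_add_distrib]
      exact Finset.sum_le_sum fun j _ => two_add_sq_le _
    rw [← h2] at h4
    have h5 : ∑ j ∈ range (n + 1), (2 + (((n : ℝ) / 2 - j) * u) ^ 2) =
        2 * (n + 1) + u ^ 2 * (n * (n + 1) * (n + 2) / 12) := by
      rw [Finset.sum_add_distrib]
      simp only [mul_pow, ← Finset.sum_mul, sum_sq_aux]
      simp only [Finset.sum_const, Finset.card_range, nsmul_eq_mul]
      push_cast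
      ring
    rw [h5] at h4
    linarith
  have h6 : Sg (n + 1) (Real.exp (-u)) =
      Real.exp (-(n * u / 2)) * ((∑ j ∈ range (n + 1), Real.exp (((n : ℝ) / 2 - j) * u)) / (n + 1)) := by
    unfold Sg
    simp only [h1, ← Finset.mul_sum]
    push_cast
    ring
  rw [h6]
  apply mul_le_mul_of_nonneg_left _ (Real.exp_pos _).le
  rw [le_div_iff₀ hN]
  nlinarith [h3]


lemma log_pade {y : ℝ} (hy : 0 < y) (hy1 : y ≤ 1) : Real.log y ≤ 2 * (y - 1) / (y + 1) := by
  have hanti : AntitoneOn (fun x : ℝ => 2 * (x - 1) / (x + 1) - Real.log x) (Set.Icc y 1) := by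
    have hder : ∀ x : ℝ, 0 < x → HasDerivAt (fun x : ℝ => 2 * (x - 1) / (x + 1) - Real.log x)
        (-(1 - x) ^ 2 / (x * (x + 1) ^ 2)) x := by
      intro x hx
      have h1 := ((((hasDerivAt_id x).sub_const 1).const_mul (2 : ℝ)).fun_div
        ((hasDerivAt_id x).add_const 1) (by simp; linarith)).sub (Real.hasDerivAt_log hx.ne')
      refine h1.congr_deriv ?_
      simp only [id]
      field_simp
      ring
    refine antitoneOn_of_deriv_nonpos (convex_Icc _ _) ?_ ?_ ?_
    · intro x hx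
      exact (hder x (by linarith [hx.1])).continuousAt.continuousWithinAt
    · intro x hx
      rw [interior_Icc] at hx
      exact (hder x (by linarith [hx.1])).differentiableAt.differentiableWithinAt
    · intro x hx
      rw [interior_Icc] at hx
      have hx0 : 0 < x := by linarith [hx.1]
      rw [(hder x hx0).deriv]
      apply div_nonpos_of_nonpos_of_nonneg
      · nlinarith [sq_nonneg (1 - x)]
      · positivity
  have h := hanti (Set.left_mem_Icc.2 hy1) (Set.right_mem_Icc.2 hy1) hy1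
  simp at h
  linarith

/-- Step C. -/
lemma stepC {q : ℝ} (hq0 : 0 ≤ q) (hq1 : q ≤ 1) :
    0 ≤ (1 - q) * (1 + Real.log ((1 + 7 * q) / 8) / 2 + 147 / 4000 * Real.log ((1 + 7 * q) / 8) ^ 2) +
      q * Real.log q := by
  set D : ℝ → ℝ := fun q => (1 - q) * (1 + Real.log ((1 + 7 * q) / 8) / 2 +
    147 / 4000 * Real.log ((1 + 7 * q) / 8) ^ 2) + q * Real.log q with hD
  set D1 : ℝ → ℝ := fun q => -(1 + Real.log ((1 + 7 * q) / 8) / 2 +
    147 / 4000 * Real.log ((1 + 7 * q) / 8) ^ 2) +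
    (1 - q) * ((1 / 2 + 147 / 2000 * Real.log ((1 + 7 * q) / 8)) * (7 / (1 + 7 * q))) + (Real.log q + 1) with hD1
  have hlog : ∀ q : ℝ, 0 ≤ q → HasDerivAt (fun q : ℝ => Real.log ((1 + 7 * q) / 8)) (7 / (1 + 7 * q)) q := by
    intro q hq
    have h1 : HasDerivAt (fun q : ℝ => (1 + 7 * q) / 8) (7 / 8) q := by
      have := (((hasDerivAt_id q).const_mul (7 : ℝ)).const_add 1).div_const 8
      simpa using this
    have h2 := h1.log (by positivity)
    refine h2.congr_deriv ?_
    field_simp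
  have hderD : ∀ q : ℝ, 0 < q → HasDerivAt D (D1 q) q := by
    intro q hq
    have hl := hlog q hq.le
    have h1 := (((hasDerivAt_id q).const_sub 1).fun_mul (((hl.div_const 2).const_add 1).fun_add
      ((hl.fun_pow 2).const_mul (147 / 4000)))).fun_add (Real.hasDerivAt_mul_log hq.ne')
    refine h1.congr_deriv ?_
    simp only [hD1, id]
    ring
  have hderD1 : ∀ q : ℝ, 0 < q → HasDerivAt D1 (-2 * ((1 / 2 + 147 / 2000 * Real.log ((1 + 7 * q) / 8)) *
      (7 / (1 + 7 * q))) + (1 - q) * ((147 / 2000 - (1 / 2 + 147 / 2000 * Real.log ((1 + 7 * q) / 8))) *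
      (7 / (1 + 7 * q)) ^ 2) + 1 / q) q := by
    intro q hq
    have hl := hlog q hq.le
    have hpos : (0 : ℝ) < 1 + 7 * q := by positivity
    have hr : HasDerivAt (fun q : ℝ => 7 / (1 + 7 * q)) (-(7 / (1 + 7 * q)) ^ 2) q := by
      have h2 : HasDerivAt (fun q : ℝ => 1 + 7 * q) 7 q := by
        have := ((hasDerivAt_id q).const_mul (7 : ℝ)).const_add 1
        simpa using this
      have h3 := (h2.inv hpos.ne').const_mul (7 : ℝ)
      have h4 : (fun q : ℝ => 7 / (1 + 7 * q)) = fun q : ℝ => 7 * (1 + 7 * q)⁻¹ := by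
        funext x; rw [div_eq_mul_inv]
      rw [h4]
      refine h3.congr_deriv ?_
      field_simp
    have h1 := ((((hl.div_const 2).const_add 1).fun_add ((hl.fun_pow 2).const_mul (147 / 4000))).fun_neg.fun_add
      (((hasDerivAt_id q).const_sub 1).fun_mul (((hl.const_mul (147 / 2000)).const_add (1 / 2)).fun_mul hr))).fun_add
      ((Real.hasDerivAt_log hq.ne').add_const 1)
    refine h1.congr_deriv ?_
    simp only [id]
    field_simp
    ring
  have hD1mono : MonotoneOn D1 (Set.Ioc 0 1) := by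
    refine monotoneOn_of_deriv_nonneg (convex_Ioc _ _) ?_ ?_ ?_
    · intro x hx
      exact (hderD1 x hx.1).continuousAt.continuousWithinAt
    · intro x hx
      rw [interior_Ioc] at hx
      exact (hderD1 x hx.1).differentiableAt.differentiableWithinAt
    · intro x hx
      rw [interior_Ioc] at hx
      have hx0 := hx.1
      rw [(hderD1 x hx0).deriv]
      set y := (1 + 7 * x) / 8 with hy
      have hy0 : 0 < y := by rw [hy]; positivity
      have hy1 : y < 1 := by rw [hy]; linarith [hx.2]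
      have hxy : x = (8 * y - 1) / 7 := by rw [hy]; ring
      have hL := log_pade hy0 hy1.le
      set L := Real.log y with hLdef
      have h7 : (7 : ℝ) / (1 + 7 * x) = 7 / (8 * y) := by rw [hy]; congr 1; ring
      rw [h7]
      have h8 : -2 * ((1 / 2 + 147 / 2000 * L) * (7 / (8 * y))) +
          (1 - x) * ((147 / 2000 - (1 / 2 + 147 / 2000 * L)) * (7 / (8 * y)) ^ 2) + 1 / x =
          1 / x - (7 / (8 * y)) * (1 + 147 / 1000 * L) -
          (1 - y) * (7 / 8) * (853 / 2000 + 147 / 2000 * L) / y ^ 2 := by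
        have : (1 - x) = (1 - y) * (8 / 7) := by rw [hxy]; ring
        rw [this]
        field_simp
        ring
      rw [h8]
      have h9 : 0 ≤ (7 / (8 * y)) * (147 / 1000) + (1 - y) * (7 / 8) * (147 / 2000) / y ^ 2 := by
        have : 0 ≤ 1 - y := by linarith
        positivity
      have h10 : L * ((7 / (8 * y)) * (147 / 1000) + (1 - y) * (7 / 8) * (147 / 2000) / y ^ 2) ≤
          (2 * (y - 1) / (y + 1)) * ((7 / (8 * y)) * (147 / 1000) + (1 - y) * (7 / 8) * (147 / 2000) / y ^ 2) :=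
        mul_le_mul_of_nonneg_right hL h9
      have h11 : 1 / x - (7 / (8 * y)) * (1 + 147 / 1000 * (2 * (y - 1) / (y + 1))) -
          (1 - y) * (7 / 8) * (853 / 2000 + 147 / 2000 * (2 * (y - 1) / (y + 1))) / y ^ 2 =
          (0.2795 * y ^ 3 + 0.0900625 * y ^ 2 - 0.1545 * y + 0.0349375) / (x * y ^ 2 * (1 + y)) := by
        have hx' : x ≠ 0 := hx0.ne'
        have h12 : (1 + y) ≠ 0 := by positivity
        have h13 : (y + 1) ≠ 0 := by positivity
        field_simp
        rw [hxy]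
        ring
      have h14 : 0 ≤ (0.2795 * y ^ 3 + 0.0900625 * y ^ 2 - 0.1545 * y + 0.0349375) / (x * y ^ 2 * (1 + y)) := by
        apply div_nonneg _ (by positivity)
        nlinarith [sq_nonneg (y - 0.335), mul_nonneg hy0.le (sq_nonneg (y - 0.335))]
      rw [← h11] at h14
      have h15 : 1 / x - (7 / (8 * y)) * (1 + 147 / 1000 * L) -
          (1 - y) * (7 / 8) * (853 / 2000 + 147 / 2000 * L) / y ^ 2 =
          (1 / x - (7 / (8 * y)) * (1 + 147 / 1000 * (2 * (y - 1) / (y + 1))) -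
          (1 - y) * (7 / 8) * (853 / 2000 + 147 / 2000 * (2 * (y - 1) / (y + 1))) / y ^ 2) +
          ((2 * (y - 1) / (y + 1)) * ((7 / (8 * y)) * (147 / 1000) + (1 - y) * (7 / 8) * (147 / 2000) / y ^ 2) -
          L * ((7 / (8 * y)) * (147 / 1000) + (1 - y) * (7 / 8) * (147 / 2000) / y ^ 2)) := by
        ring
      rw [h15]
      linarith
  have hD1one : D1 1 = 0 := by simp [hD1]; norm_num
  have hD1le : ∀ x ∈ Set.Ioo (0 : ℝ) 1, D1 x ≤ 0 := by
    intro x hx
    rw [← hD1one]
    exact hD1mono ⟨hx.1, hx.2.le⟩ ⟨by norm_num, le_rfl⟩ hx.2.le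
  have hanti : AntitoneOn D (Set.Icc 0 1) := by
    refine antitoneOn_of_deriv_nonpos (convex_Icc _ _) ?_ ?_ ?_
    · intro x hx
      have h1 := (hlog x hx.1).continuousAt
      have h2 : ContinuousAt (fun x : ℝ => x * Real.log x) x := Real.continuous_mul_log.continuousAt
      have h3 : ContinuousAt D x := by
        refine ContinuousAt.add (ContinuousAt.mul (by fun_prop) ?_) h2
        exact (((continuousAt_const).add (h1.div_const 2))).add ((continuousAt_const).mul (h1.pow 2))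
      exact h3.continuousWithinAt
    · intro x hx
      rw [interior_Icc] at hx
      exact (hderD x hx.1).differentiableAt.differentiableWithinAt
    · intro x hx
      rw [interior_Icc] at hx
      rw [(hderD x hx.1).deriv]
      exact hD1le x hx
  have hDone : D 1 = 0 := by simp [hD]
  have := hanti ⟨hq0, hq1⟩ ⟨by norm_num, le_rfl⟩ hq1
  rw [hDone] at this
  exact this


set_option maxHeartbeats 2000000 in
/-- **the real cylinder inequality** -/
theorem cyl_real {n : ℕ} (hn : 5 ≤ n) {e b : ℝ} (he0 : 0 ≤ e) (he1 : e < 1) (hb0 : 0 ≤ b)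
    (h : (1 + 7 * e ^ (n + 1)) / 8 ≤ b ^ (n + 1)) : (Sg (n + 1) e / Sg n e) ^ n ≤ Sg (n + 1) b := by
  have hn5 : (5 : ℝ) ≤ n := by exact_mod_cast hn
  have hN : (0 : ℝ) < (n : ℝ) + 1 := by positivity
  set q := e ^ (n + 1) with hq
  have hq0 : 0 ≤ q := pow_nonneg he0 _
  have hq1 : q < 1 := pow_lt_one₀ he0 he1 (by omega)
  set y := (1 + 7 * q) / 8 with hy
  have hy0 : 0 < y := by rw [hy]; positivity
  have hy1 : y < 1 := by rw [hy]; linarith
  have hy8 : 1 / 8 ≤ y := by rw [hy]; linarith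
  set z := -(Real.log y) / 2 with hz
  have hlogy : Real.log y ≤ 0 := Real.log_nonpos hy0.le hy1.le
  have hz0 : 0 ≤ z := by rw [hz]; linarith
  have hz1 : z ≤ 1.04 := by
    have h1 : Real.log (1 / 8) ≤ Real.log y := Real.log_le_log (by norm_num) hy8
    have h2 : Real.log (1 / 8) = -(3 * Real.log 2) := by
      rw [one_div, Real.log_inv, show (8 : ℝ) = 2 ^ 3 by norm_num, Real.log_pow]
      norm_num
    have h3 := Real.log_two_lt_d9
    rw [hz]
    rw [h2] at h1
    linarith
  have hz2 : z ^ 2 ≤ 1.0816 := by nlinarith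
  -- μ
  have hmu : Sg (n + 1) e / Sg n e = (n * (1 - e ^ (n + 1))) / ((n + 1) * (1 - e ^ n)) := by
    have h1 := Sg_mul (k := n + 1) (by omega) e
    have h2 := Sg_mul (k := n) (by omega) e
    have h3 := Sg_pos (k := n) (by omega) he0
    have hn0 : (0 : ℝ) < n := by linarith
    have h4 : (0 : ℝ) < 1 - e := by linarith
    rw [← h1, ← h2]
    push_cast
    field_simp
  have hmu0 : 0 ≤ Sg (n + 1) e / Sg n e :=
    div_nonneg (Sg_pos (by omega) he0).le (Sg_pos (by omega) he0).le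
  have hmule := mu_le (n := n) (by omega) he0 he1
  rw [← hmu, ← hq] at hmule
  set G := 1 + q * Real.log q / (1 - q) with hG
  have hC := stepC hq0 hq1.le
  rw [← hy] at hC
  have hGz : z - 147 / 1000 * z ^ 2 ≤ G := by
    have h1 : (1 - q) * (G - (z - 147 / 1000 * z ^ 2)) = (1 - q) * (1 + Real.log y / 2 +
        147 / 4000 * Real.log y ^ 2) + q * Real.log q := by
      rw [hG, hz]
      have : (1 - q) ≠ 0 := by linarith
      field_simp
      ring
    have h2 : 0 ≤ (1 - q) * (G - (z - 147 / 1000 * z ^ 2)) := by rw [h1]; exact hC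
    have h3 := nonneg_of_mul_nonneg_right h2 (by linarith)
    linarith
  -- lower bound for S
  set u := 2 * z / (n + 1) with hu
  have hb1 : Real.exp (-u) ^ (n + 1) = y := by
    rw [← Real.exp_nat_mul]
    have : ((n + 1 : ℕ) : ℝ) * -u = Real.log y := by
      rw [hu, hz]; push_cast; field_simp
    rw [this, Real.exp_log hy0]
  have hbb : Real.exp (-u) ≤ b := by
    by_contra hcon
    push Not at hcon
    have := pow_lt_pow_left₀ hcon hb0 (n := n + 1) (by omega)
    linarith
  have hS1 : Sg (n + 1) (Real.exp (-u)) ≤ Sg (n + 1) b := Sg_mono (Real.exp_pos _).le hbb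
  have hS2 := Sg_lower n u
  have hcoef : 35 / 216 * z ^ 2 ≤ (n * (n + 2)) * u ^ 2 / 24 := by
    rw [hu]
    have h1 : (n * (n + 2)) * (2 * z / (n + 1)) ^ 2 / 24 = ((n : ℝ) * (n + 2) / (n + 1) ^ 2) * (z ^ 2 / 6) := by
      field_simp
      ring
    rw [h1]
    have h2 : (35 : ℝ) / 36 ≤ (n : ℝ) * (n + 2) / (n + 1) ^ 2 := by
      rw [div_le_div_iff₀ (by norm_num) (by positivity)]
      nlinarith
    have h3 := mul_le_mul_of_nonneg_right h2 (by positivity : (0 : ℝ) ≤ z ^ 2 / 6)
    linarith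
  -- final comparison
  have hexp : Real.exp (147 / 1000 * z ^ 2) ≤ 1 + 35 / 216 * z ^ 2 := by
    have hx : 0 ≤ 35 / 216 * z ^ 2 := by positivity
    have h1 := Real.le_log_one_add_of_nonneg hx
    have h2 : 147 / 1000 * z ^ 2 ≤ 2 * (35 / 216 * z ^ 2) / (35 / 216 * z ^ 2 + 2) := by
      rw [le_div_iff₀ (by positivity)]
      nlinarith [sq_nonneg z]
    calc Real.exp (147 / 1000 * z ^ 2) ≤ Real.exp (Real.log (1 + 35 / 216 * z ^ 2)) :=
          Real.exp_le_exp.2 (h2.trans h1)
      _ = _ := Real.exp_log (by positivity)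
  have hmain : (Sg (n + 1) e / Sg n e) ^ n ≤ Real.exp (-(n * u / 2)) * (1 + 35 / 216 * z ^ 2) := by
    calc (Sg (n + 1) e / Sg n e) ^ n ≤ (Real.exp (-G / (n + 1))) ^ n := by
          apply pow_le_pow_left₀ hmu0
          exact hmule
      _ = Real.exp (n * (-G / (n + 1))) := by rw [← Real.exp_nat_mul]
      _ ≤ Real.exp (-(n * u / 2) + 147 / 1000 * z ^ 2) := by
          apply Real.exp_le_exp.2
          have h1 : (n : ℝ) * (-G / (n + 1)) = -(n / (n + 1) * G) := by field_simp
          have h2 : -(n * u / 2) = -((n : ℝ) / (n + 1) * z) := by rw [hu]; field_simp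
          rw [h1, h2]
          have h3 : (0 : ℝ) ≤ n / (n + 1) := by positivity
          have h4 : (n : ℝ) / (n + 1) ≤ 1 := by rw [div_le_one hN]; linarith
          have h5 := mul_le_mul_of_nonneg_left hGz h3
          have h6 : (n : ℝ) / (n + 1) * (147 / 1000 * z ^ 2) ≤ 1 * (147 / 1000 * z ^ 2) :=
            mul_le_mul_of_nonneg_right h4 (by positivity)
          nlinarith
      _ = Real.exp (-(n * u / 2)) * Real.exp (147 / 1000 * z ^ 2) := Real.exp_add _ _
      _ ≤ _ := mul_le_mul_of_nonneg_left hexp (Real.exp_pos _).le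
  calc (Sg (n + 1) e / Sg n e) ^ n ≤ Real.exp (-(n * u / 2)) * (1 + 35 / 216 * z ^ 2) := hmain
    _ ≤ Real.exp (-(n * u / 2)) * (1 + (n * (n + 2)) * u ^ 2 / 24) := by
        apply mul_le_mul_of_nonneg_left _ (Real.exp_pos _).le
        linarith
    _ ≤ Sg (n + 1) (Real.exp (-u)) := hS2
    _ ≤ _ := hS1

end Crest.Agent.R230
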