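import Mathlib

/-!
# Row 230 (Petty projection inequality): basic definitions

`E n` is Euclidean `n`-space; `sh K u = |K + [0,u]| - |K|` is (for compact convex `K`) `‖u‖` times the
`(n-1)`-volume of the shadow of `K` on `u^⊥`, i.e. the support function of the projection body `PB K`.
-/

set_option autoImplicit false

open MeasureTheory Set
open scoped Pointwise ENNReal

namespace Crest.Agent.R230

/-- Euclidean space of dimension `n`. -/
abbrev E (n : ℕ) := EuclideanSpace ℝ (Fin n)

/-- Convex bodies. -/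
structure CB {n : ℕ} (K : Set (E n)) : Prop where
  isCompact : IsCompact K
  convex : Convex ℝ K
  interior_nonempty : (interior K).Nonempty

/-- Volume, as a real number. -/
noncomputable def vol {n : ℕ} (K : Set (E n)) : ℝ := (volume K).toReal

/-- Volume of the unit ball. -/
noncomputable def κ (n : ℕ) : ℝ := vol (Metric.ball (0 : E n) 1)

/-- `‖u‖` times the volume of the shadow of `K` in direction `u`. -/
noncomputable def sh {n : ℕ} (K : Set (E n)) (u : E n) : ℝ := vol (K + segment ℝ 0 u) - vol K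

/-- The projection body. -/
def PB {n : ℕ} (K : Set (E n)) : Set (E n) := {x | ∀ u : E n, inner ℝ x u ≤ sh K u}

/-- The support function. -/
noncomputable def hs {n : ℕ} (K : Set (E n)) (u : E n) : ℝ := sSup ((fun x : E n => inner ℝ x u) '' K)

/-- The (normalised) outer normal at `x`: gradient of the gauge of `K`. -/
noncomputable def nu {n : ℕ} (K : Set (E n)) (x : E n) : E n := gradient (gauge K) x

/-- The mixed volume `V_1(K,L)` (for `0` in the interior of `K`). -/
noncomputable def V1 {n : ℕ} (K L : Set (E n)) : ℝ := ∫ x in K, hs L (nu K x)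

/-- A linear isometric parametrisation `ι` of `e^⊥` which together with `e` gives orthonormal
coordinates `(t,y) ↦ t • e + ι y`. -/
structure Frame {n : ℕ} (e : E (n + 1)) where
  ι : E n →ₗᵢ[ℝ] E (n + 1)
  inner_eq : ∀ y, inner ℝ (ι y) e = 0
  surj : ∀ x : E (n + 1), ∃ (t : ℝ) (y : E n), x = t • e + ι y
  mp : MeasurePreserving (fun p : ℝ × E n => p.1 • e + ι p.2)
    ((volume : Measure ℝ).prod (volume : Measure (E n))) (volume : Measure (E (n + 1)))

/-- The shadow of `K` along `e`, in the coordinates of the frame. -/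
def Frame.shadow {n : ℕ} {e : E (n + 1)} (F : Frame e) (K : Set (E (n + 1))) : Set (E n) :=
  {y | ∃ t : ℝ, t • e + F.ι y ∈ K}

/-- The slice of `K` at height `t`, in the coordinates of the frame. -/
def Frame.slice {n : ℕ} {e : E (n + 1)} (F : Frame e) (K : Set (E (n + 1))) (t : ℝ) : Set (E n) :=
  {y | t • e + F.ι y ∈ K}

/-- The area of the slice of `K` at height `t` in direction `e` (`‖e‖ = 1`). -/
noncomputable def area {n : ℕ} (K : Set (E (n + 1))) (e : E (n + 1)) (t : ℝ) : ℝ :=
  ((μHE[n] : Measure (E (n + 1))) (K ∩ {x | inner ℝ x e = t})).toReal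

/-- Renyi power of the slice function. -/
noncomputable def NK {n : ℕ} (K : Set (E (n + 1))) (e : E (n + 1)) : ℝ :=
  (∫ t : ℝ, area K e t ^ (((n : ℝ) - 1) / n)) ^ n

/-- The ball value of `NK`. -/
noncomputable def NB (n : ℕ) : ℝ := κ n ^ (2 * n - 1) / κ (n - 1) ^ n

/-- Petty's inequality in dimension `n`. -/
def PettyIneq (n : ℕ) : Prop :=
  ∀ K : Set (E n), CB K → κ (n - 1) ^ n * vol K ^ (n - 1) ≤ vol (PB K) * κ n ^ (n - 2)

/-- The crux `(E)` in dimension `n + 1`. -/
def CruxE (n : ℕ) : Prop :=
  ∀ K : Set (E (n + 1)), CB K → (∀ x ∈ K, -x ∈ K) →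
    (∀ e : E (n + 1), ‖e‖ = 1 → NK K e ≤ NB n * (vol K / κ (n + 1)) ^ (n - 1) * hs K e) →
    ∃ T : E (n + 1) ≃ₗ[ℝ] E (n + 1), K = T '' Metric.closedBall 0 1

end Crest.Agent.R230
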