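import Crest.Agent.R230.TransProf
import Crest.Agent.R230.ProfCalc

/-!
Monotonicity of `EP`; lower bounds through line families in the transport coordinate.
-/

set_option autoImplicit false

open MeasureTheory Set Filter Topology
open scoped Pointwise ENNReal

namespace Crest.Agent.R230

/-- monotonicity of `EP` -/
theorem EP_mono {n : ℕ} (hn : 1 ≤ n) {r : ℝ → ℝ} (hr : Prof r) {φ ψ : ℝ → ℝ → ℝ}
    (hφ : ContinuousOn (fun q : ℝ × ℝ => φ q.1 q.2) (Icc (-1) 1 ×ˢ Icc (-1) 1))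
    (hψ : ContinuousOn (fun q : ℝ × ℝ => ψ q.1 q.2) (Icc (-1) 1 ×ˢ Icc (-1) 1))
    (h : ∀ t ∈ Icc (-1 : ℝ) 1, ∀ p ∈ Icc (-1 : ℝ) 1, ψ t p ≤ φ t p) : EP n r ψ ≤ EP n r φ := by
  have hm := hr.mom_pos' n
  have hr1 : 0 ≤ r 1 := hr.nonneg' ⟨by norm_num, le_rfl⟩
  have h1 : (1 : ℝ) ∈ Icc (-1 : ℝ) 1 := ⟨by norm_num, le_rfl⟩
  have hm1 : (-1 : ℝ) ∈ Icc (-1 : ℝ) 1 := ⟨le_rfl, by norm_num⟩
  unfold EP
  refine div_le_div_of_nonneg_right ?_ (by positivity)
  refine add_le_add ?_ ?_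
  · refine mul_le_mul_of_nonneg_left ?_ (by positivity)
    refine intervalIntegral.integral_mono_on_of_le_Ioo (by norm_num)
      (prof_integrable_mul hn hr ψ hψ) (prof_integrable_mul hn hr φ hφ) ?_
    intro s hs
    obtain ⟨hp, hpp⟩ := prof_pp_mem hr hs
    refine mul_le_mul_of_nonneg_left (h s ⟨hs.1.le, hs.2.le⟩ _ hpp) ?_
    exact mul_nonneg (pow_nonneg (hr.pos s hs).le _) hp.le
  · refine mul_le_mul_of_nonneg_right (add_le_add (h 1 h1 1 h1) (h (-1) hm1 (-1) hm1)) ?_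
    exact pow_nonneg hr1 n

/-- lower bound of `(n+1) EP η` by a line family in the transport coordinate -/
theorem EP_ge_trans {n : ℕ} (hn : 1 ≤ n) {r : ℝ → ℝ} (hr : Prof r) {η : ℝ → ℝ → ℝ}
    (hη : ContinuousOn (fun q : ℝ × ℝ => η q.1 q.2) (Icc (-1) 1 ×ˢ Icc (-1) 1))
    {a b a' b' : ℝ → ℝ} (ha : ContinuousOn a (Icc (-1) 1))
    (hb : ContinuousOn b (Icc (-1) 1)) (ha' : ∀ s ∈ Ioo (-1 : ℝ) 1, HasDerivAt a (a' s) s)
    (hb' : ∀ s ∈ Ioo (-1 : ℝ) 1, HasDerivAt b (b' s) s)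
    (hi : IntervalIntegrable (fun s => Real.sqrt (1 - s ^ 2) ^ n *
      ((tau n r s * a' s + b' s) / dtau n r s)) volume (-1) 1)
    (hline : ∀ s ∈ Icc (-1 : ℝ) 1, ∀ p ∈ Icc (-1 : ℝ) 1, a s + b s * p ≤ η (tau n r s) p) :
    (∫ s in (-1 : ℝ)..1, Real.sqrt (1 - s ^ 2) ^ n *
        ((n + 1) * a s + (tau n r s * a' s + b' s) / dtau n r s)) / w n ≤ (n + 1) * EP n r η := by
  rw [← EP_trans hr n hn ha hb ha' hb' hi]
  refine mul_le_mul_of_nonneg_left ?_ (by positivity)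
  have hmaps : MapsTo (fun q : ℝ × ℝ => sig n r q.1) (Icc (-1) 1 ×ˢ Icc (-1) 1) (Icc (-1) 1) :=
    fun q hq => sig_mem_Icc hr n hq.1
  have hc : Continuous (fun q : ℝ × ℝ => sig n r q.1) := (sig_continuous hr n).comp continuous_fst
  refine EP_mono hn hr hη ?_ ?_
  · exact (ha.comp hc.continuousOn hmaps).add
      ((hb.comp hc.continuousOn hmaps).mul continuous_snd.continuousOn)
  · intro t ht p hp
    have := hline (sig n r t) (sig_mem_Icc hr n ht) p hp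
    rwa [tau_sig hr n ht] at this

/-- lower bound of the Fisher functional `(n+1) EP p²` by a test function `g` -/
theorem fisher_ge_trans {n : ℕ} (hn : 1 ≤ n) {r : ℝ → ℝ} (hr : Prof r) {g g' : ℝ → ℝ}
    (hg : ContinuousOn g (Icc (-1) 1)) (hg' : ∀ s ∈ Ioo (-1 : ℝ) 1, HasDerivAt g (g' s) s)
    (hi : IntervalIntegrable (fun s => Real.sqrt (1 - s ^ 2) ^ n *
      (2 * g' s * (1 - tau n r s * g s) / dtau n r s)) volume (-1) 1) :
    (∫ s in (-1 : ℝ)..1, Real.sqrt (1 - s ^ 2) ^ n *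
        (2 * g' s * (1 - tau n r s * g s) / dtau n r s - (n + 1) * g s ^ 2)) / w n ≤
      (n + 1) * EP n r (fun _ p => p ^ 2) := by
  have h := EP_ge_trans hn hr (η := fun _ p => p ^ 2) (by fun_prop)
    (a := fun s => -g s ^ 2) (b := fun s => 2 * g s) (a' := fun s => -(2 * g s * g' s))
    (b' := fun s => 2 * g' s) (hg.pow 2).neg (continuousOn_const.mul hg) ?_ ?_ ?_ ?_
  · refine le_trans (le_of_eq ?_) h
    congr 1
    refine intervalIntegral.integral_congr fun s _ => ?_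
    ring
  · intro s hs
    have := ((hg' s hs).fun_pow 2).fun_neg
    exact this.congr_deriv (by ring)
  · intro s hs
    exact (hg' s hs).const_mul 2
  · refine hi.congr fun s _ => ?_
    ring
  · intro s _ p _
    have := sq_nonneg (p - g s)
    nlinarith

end Crest.Agent.R230
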