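import Crest.Agent.R230.WMain2

/-!
# Row 230: elementary bounds for the certificate density at large dimension
-/

set_option autoImplicit false

open Set

namespace Crest.Agent.R230.PL

open Crest.Agent.R230 Crest.Agent.R230.WR

lemma hm_le_log {n : ℕ} (hn : 1 ≤ n) {k : ℝ} (hk : 0 < 1 + k) : hm n k ≤ k - Real.log (1 + k) := by
  unfold hm
  have hn0 : (0 : ℝ) < n := by exact_mod_cast hn
  have h1 : Real.log (1 + k) * (1 / n) + 1 ≤ (1 + k) ^ ((1 : ℝ) / n) := by
    rw [Real.rpow_def_of_pos hk]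
    exact Real.add_one_le_exp _
  have h2 : Real.log (1 + k) ≤ n * ((1 + k) ^ ((1 : ℝ) / n) - 1) := by
    have h3 : (n : ℝ) * (Real.log (1 + k) * (1 / n)) = Real.log (1 + k) := by
      field_simp
    have := mul_le_mul_of_nonneg_left (sub_le_sub_right h1 1) hn0.le
    rw [add_sub_cancel_right, h3] at this
    exact this
  linarith

lemma hm_nonneg {n : ℕ} (hn : 1 ≤ n) {k : ℝ} (hk : 0 < 1 + k) : 0 ≤ hm n k := by
  unfold hm
  have hn0 : (0 : ℝ) < n := by exact_mod_cast hn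
  have hn1 : (1 : ℝ) ≤ n := by exact_mod_cast hn
  have h1 := rpow_one_add_le_one_add_mul_self (s := k) (p := 1 / n) (by linarith) (by positivity)
    (by rw [div_le_one hn0]; exact hn1)
  have h2 : (n : ℝ) * (1 + 1 / n * k - 1) = k := by field_simp; ring
  have := mul_le_mul_of_nonneg_left (sub_le_sub_right h1 1) hn0.le
  linarith

lemma Gm_nonneg {n : ℕ} (hn : 1 ≤ n) (l : ℝ) : 0 ≤ Gm n l := by
  unfold Gm
  have hn0 : (0 : ℝ) < n := by exact_mod_cast hn
  have h1 := Real.add_one_le_exp (l / n)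
  have h2 : (n : ℝ) * (l / n + 1 - 1) = l := by field_simp; ring
  have := mul_le_mul_of_nonneg_left (sub_le_sub_right h1 1) hn0.le
  linarith

/-- Padé bound for the logarithm -/
lemma log_pade {k : ℝ} (hk : 0 ≤ k) :
    3 * k * (k + 2) / (k ^ 2 + 6 * k + 6) ≤ Real.log (1 + k) := by
  let f : ℝ → ℝ := fun x => Real.log (1 + x) - 3 * x * (x + 2) / (x ^ 2 + 6 * x + 6)
  have hD : ∀ x : ℝ, 0 ≤ x → 0 < x ^ 2 + 6 * x + 6 := fun x hx => by positivity
  have hd : ∀ x : ℝ, 0 ≤ x → HasDerivAt f (x ^ 4 / ((1 + x) * (x ^ 2 + 6 * x + 6) ^ 2)) x := by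
    intro x hx
    have h1 : HasDerivAt (fun x : ℝ => Real.log (1 + x)) (1 / (1 + x)) x :=
      ((hasDerivAt_id x).const_add 1).log (by simp; positivity)
    have h2 : HasDerivAt (fun x : ℝ => 3 * x * (x + 2)) (3 * 1 * (x + 2) + 3 * x * 1) x :=
      (((hasDerivAt_id x).const_mul 3).mul ((hasDerivAt_id x).add_const 2))
    have h3 : HasDerivAt (fun x : ℝ => x ^ 2 + 6 * x + 6) (2 * x + 6 * 1) x := by
      simpa using (((hasDerivAt_pow 2 x).add ((hasDerivAt_id x).const_mul 6)).add_const 6)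
    have h4 := h1.sub (h2.div h3 (hD x hx).ne')
    refine h4.congr_deriv ?_
    have := (hD x hx).ne'
    have h5 : (1 + x) ≠ 0 := by positivity
    field_simp
    ring
  have hmono : MonotoneOn f (Ici 0) := by
    refine monotoneOn_of_deriv_nonneg (convex_Ici 0) (fun x hx => (hd x hx).continuousAt.continuousWithinAt)
      (fun x hx => ?_) (fun x hx => ?_)
    · rw [interior_Ici] at hx
      exact (hd x (le_of_lt hx)).differentiableAt.differentiableWithinAt
    · rw [interior_Ici] at hx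
      rw [(hd x (le_of_lt hx)).deriv]
      have : (0 : ℝ) < x := hx
      positivity
  have := hmono (mem_Ici.2 le_rfl) (mem_Ici.2 hk) hk
  simp only [f] at this
  norm_num at this
  linarith

lemma h_le_pos {k : ℝ} (hk : 0 ≤ k) :
    k - Real.log (1 + k) ≤ (k + 1) * (k + 3) / (k ^ 2 + 6 * k + 6) * KK k := by
  have h1 := log_pade hk
  have hD : 0 < k ^ 2 + 6 * k + 6 := by positivity
  have h2 : (k + 1) * (k + 3) / (k ^ 2 + 6 * k + 6) * KK k =
      k - 3 * k * (k + 2) / (k ^ 2 + 6 * k + 6) := by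
    unfold KK
    field_simp
    ring
  rw [h2]
  linarith

/-- `-log κ ≤ (1-κ)/√κ` -/
lemma neg_log_le {p : ℝ} (hp : 0 < p) (hp1 : p ≤ 1) : -Real.log (p ^ 2) ≤ (1 - p ^ 2) / p := by
  have hX : 0 ≤ -Real.log p := by
    have := Real.log_nonpos hp.le hp1
    linarith
  have h1 := Real.self_le_sinh_iff.2 hX
  rw [Real.sinh_eq, neg_neg, Real.exp_neg, Real.exp_log hp] at h1
  rw [Real.log_pow]
  have h2 : (1 - p ^ 2) / p = 2 * ((p⁻¹ - p) / 2) := by field_simp
  rw [h2]
  push_cast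
  linarith

lemma h_le_neg {p : ℝ} (hp : 0 < p) (hp1 : p ≤ 1) :
    (p ^ 2 - 1) - Real.log (1 + (p ^ 2 - 1)) ≤ (1 - p ^ 2) * (1 - p) / p := by
  have h1 := neg_log_le hp hp1
  have h2 : (1 - p ^ 2) * (1 - p) / p = (1 - p ^ 2) / p + (p ^ 2 - 1) := by field_simp; ring
  rw [h2]
  have h3 : 1 + (p ^ 2 - 1) = p ^ 2 := by ring
  rw [h3]
  linarith

/-- `-log s ≤ (1-s²)/(2s)` -/
lemma neg_log_le' {s : ℝ} (hs : 0 < s) (hs1 : s ≤ 1) : -Real.log s ≤ (1 - s ^ 2) / (2 * s) := by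
  have h1 := neg_log_le hs hs1
  rw [Real.log_pow] at h1
  have h2 : (1 - s ^ 2) / (2 * s) = (1 - s ^ 2) / s / 2 := by field_simp
  rw [h2]
  push_cast at h1
  linarith

lemma exp_div_le {n : ℕ} (hn : 16 ≤ n) {l : ℝ} (hl0 : 0 ≤ l) (hl : l ≤ 11 / 20) :
    Real.exp (l / n) ≤ 1 + 57 / (100 * n) := by
  have hn0 : (16 : ℝ) ≤ n := by exact_mod_cast hn
  have h0 : 0 ≤ l / n := by positivity
  have h1 : l / n < 1 := by rw [div_lt_one (by linarith)]; linarith
  have h2 := Real.exp_bound_div_one_sub_of_interval h0 h1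
  refine h2.trans ?_
  have h3 : 0 < 1 - l / n := by linarith
  rw [div_le_iff₀ h3]
  have h4 : (1 + 57 / (100 * (n : ℝ))) * (1 - l / n) - 1 =
      ((57 / 100 - l) * n - 57 / 100 * l) / n ^ 2 := by
    field_simp
    ring
  have h5 : 0 ≤ ((57 / 100 - l) * n - 57 / 100 * l) / (n : ℝ) ^ 2 := by
    apply div_nonneg _ (by positivity)
    nlinarith
  linarith

end Crest.Agent.R230.PL
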