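import Crest.Agent.R230.OneDFin
import Crest.Agent.R230.PLargeAux

/-!
# Row 230: one inequality for both corners `μ = 0`, `μ = muF`

`PF n μ ≥ PF n 0 - muF n · e^{l/n} h_n(k)` for all `0 ≤ μ ≤ muF n`, since `G_n ≥ 0`, `h_n ≥ 0`.
-/

set_option autoImplicit false

open MeasureTheory Set Filter Topology
open scoped Pointwise ENNReal

namespace Crest.Agent.R230.WR

/-- lower bound of the far density, uniform in `0 ≤ μ ≤ muF n` -/
noncomputable def PStar (n : ℕ) (s l k : ℝ) : ℝ :=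
  PF n 0 s l k - muF n * (Real.exp (l / n) * hm n k)

theorem PF_ge_star {n : ℕ} (hn : 1 ≤ n) {μ s l k : ℝ} (hs : s ∈ Ioo (0 : ℝ) 1) (hk : 0 < 1 + k)
    (hμ0 : 0 ≤ μ) (hμ : μ ≤ muF n) : PStar n s l k ≤ PF n μ s l k := by
  have hG : 0 ≤ Gm n l := PL.Gm_nonneg hn l
  have hh : 0 ≤ hm n k := PL.hm_nonneg hn hk
  have hn1 : (1 : ℝ) ≤ n := by exact_mod_cast hn
  have hY : 0 ≤ Y s := Y_nonneg hs
  have h1 : 0 ≤ μ * (((n : ℝ) - 1) * Y s * Gm n l) := by
    have : 0 ≤ (n : ℝ) - 1 := by linarith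
    positivity
  have h2 : μ * (Real.exp (l / n) * hm n k) ≤ muF n * (Real.exp (l / n) * hm n k) :=
    mul_le_mul_of_nonneg_right hμ (by positivity)
  unfold PStar PF PQ
  linarith

/-- `OneD n` for `n ≥ 23` from the a-priori block and one pointwise inequality -/
theorem oneD_far_star {n : ℕ} (hn : 23 ≤ n) (hapr : ∀ r : ℝ → ℝ, Prof r → NleB n r → FarApr n r)
    (h : ∀ s l k : ℝ, FarC n s l k → 0 < PStar n s l k) : OneD n := by
  have hn1 : (23 : ℝ) ≤ n := by exact_mod_cast hn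
  have hmu : 0 ≤ muF n := by unfold muF; apply div_nonneg <;> linarith
  refine oneD_far' hn hapr (fun s l k hF => ?_) (fun s l k hF => ?_)
  · exact (h s l k hF).trans_le (PF_ge_star (by omega) hF.hs hF.hk0 le_rfl hmu)
  · exact (h s l k hF).trans_le (PF_ge_star (by omega) hF.hs hF.hk0 hmu le_rfl)

end Crest.Agent.R230.WR
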