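import Crest.Agent.R230.FarBoxF1
import Crest.Agent.R230.FarMu

/-!
# Row 230: block F1 (`k ≥ 0`, `l ≤ 9/10`) in the form `PStar` (helper782)
-/

set_option autoImplicit false

open Set

namespace Crest.Agent.R230.FB

open Crest.Agent.R230.IA Crest.Agent.R230.WR

/-- the lower bound of `far_lower` is positive -/
theorem low_pos {n : ℕ} (hn : 23 ≤ n) {s l k Mu : ℝ}
    (h : FarC n s l k) (hk : 0 ≤ k) (hl : l ≤ 9 / 10)
    (hMu : Mu ≤ (107 / 100 + 186 / 100 / ((n : ℝ) + 1 - 2)) *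
      (((n : ℝ) + 1 - 1) / ((n : ℝ) + 1 - 1 - l))) :
    Mu * (k - Real.log (1 + k)) < PF n 0 s l k := by
  have hn' : (23 : ℝ) ≤ n := by exact_mod_cast hn
  obtain ⟨hs, hx2, hT1, hcap, hC1, hC2, hk0, hk1, hk2⟩ := h
  have hs0 := hs.1
  obtain ⟨T, hT⟩ : ∃ T : ℝ, T = s * Real.exp l := ⟨_, rfl⟩
  have hT0 : 0 < T := by rw [hT]; have := Real.exp_pos l; positivity
  rw [← hT] at hT1 hcap
  have hT81 : T ^ 8 < 1 := pow_lt_one₀ hT0.le hT1 (by norm_num)
  have hcapF : capF T = 43 / 100 - 23 / 200 * T ^ 8 := rfl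
  rw [hcapF] at hcap
  have hl315 : 63 / 200 < l := by linarith
  have hs34 : s ≤ 3 / 4 := by
    have h1 := Real.quadratic_le_exp_of_nonneg (show 0 ≤ l by linarith)
    have h2 : 4 / 3 ≤ Real.exp l := by nlinarith
    by_contra hcon
    push Not at hcon
    have : 1 < T := by rw [hT]; nlinarith
    linarith
  obtain ⟨s0, s1, l0, l1, hbox, b1, b2, b3, b4⟩ := cert_all hs0.le hs34 (by linarith) hl
  obtain ⟨v, hvd⟩ : ∃ v : ℝ, v = l - (43 / 100 - 23 / 200 * T ^ 8) := ⟨_, rfl⟩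
  have hv0 : 0 < v := by rw [hvd]; linarith
  obtain ⟨u, hud⟩ : ∃ u : ℝ, u = Uf s l := ⟨_, rfl⟩
  have huv : u = v * (v / (v + 7 / 100)) := by
    rw [hud]; unfold Uf
    rw [← hT, hcapF, ← hvd, Vq_of_nonneg hv0.le]
    ring
  obtain ⟨V1, hV1d⟩ : ∃ u : ℝ, u = Vq' (7 / 100) (l - capF T) := ⟨_, rfl⟩
  have hV1 : V1 = 1 - (1 - v / (v + 7 / 100)) * (1 - v / (v + 7 / 100)) := by
    rw [hV1d, hcapF, ← hvd, Vq'_of_nonneg hv0.le]
    have : v + 7 / 100 ≠ 0 := by positivity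
    field_simp
    ring
  have hul : u < l := by
    have h1 : v / (v + 7 / 100) < 1 := by rw [div_lt_one (by positivity)]; linarith
    have h2 : u < v := by rw [huv]; nlinarith
    have : 0 < T ^ 8 := by positivity
    have : v < l := by rw [hvd]; linarith
    linarith
  have hsu : s * Real.exp u < 1 := by
    have : s * Real.exp u < s * Real.exp l := mul_lt_mul_of_pos_left (Real.exp_lt_exp.2 hul) hs0
    rw [← hT] at this
    linarith
  have hsE : s * s * Real.exp (2 * u) = (s * Real.exp u) ^ 2 := by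
    rw [mul_pow, ← Real.exp_nat_mul]; push_cast; ring
  have hzE : s * s * Real.exp (2 * u) < 1 := by
    rw [hsE]
    have : 0 < s * Real.exp u := by have := Real.exp_pos u; positivity
    nlinarith
  have hlow := far_lower (n := n) (by omega) (Mu := 0) (μ := 0) (lm := 0) (l := l) (V1 := V1)
    (tp := 23 / 25 * T ^ 8) hs hsu hk le_rfl (by simp)
  have hPF : PF n 0 s l k = PQ n 0 0 (7 / 50) 1 0 0 s l k + (lineC n s l k u
      (V1 * (k + 23 / 25 * T ^ 8 * (1 + k))) + softG n (((n : ℝ) - 4) / ((n : ℝ) + 1) + 1 / 1000) 0 s u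
      (V1 * (k + 23 / 25 * T ^ 8 * (1 + k)))) := by
    unfold PF SUf
    rw [SU_eq, ← hT, ← hud, ← hV1d]
    rfl
  rw [hPF]
  refine lt_of_lt_of_le ?_ hlow
  rw [← sub_pos]
  have hx : s * Real.sqrt ((n : ℝ) + 1) * (s * Real.sqrt ((n : ℝ) + 1)) = ((n : ℝ) + 1) * (s * s) := by
    have := Real.mul_self_sqrt (show 0 ≤ (n : ℝ) + 1 by positivity)
    calc _ = s * s * (Real.sqrt ((n : ℝ) + 1) * Real.sqrt ((n : ℝ) + 1)) := by ring
      _ = _ := by rw [this]; ring
  have hss : s ^ 2 = s * s := by ring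
  have hcc : cc s = Real.sqrt (1 - s * s) := by unfold cc; rw [hss]
  have hcu : cc (s * Real.exp u) = Real.sqrt (1 - s * s * Real.exp (2 * u)) := by
    unfold cc; rw [hsE]
  have hcT : cc (s * Real.exp l) = Real.sqrt (1 - T * T) := by
    unfold cc; rw [← hT]; ring_nf
  have hk2' : (1 + k) * (s * cc s ^ 2) ≤ (1 + ((n : ℝ) + 1) * (s * s)) * (Real.exp (-l) - s) := by
    rw [← hss]; exact hk2
  have := box_real hbox (N := (n : ℝ) + 1) (z := s * s) (T := T) (u := u) (V := V1)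
    (cap := 43 / 100 - 23 / 200 * T ^ 8) (y := v / (v + 7 / 100)) (c := cc s)
    (ch := cc (s * Real.exp u)) (cT := cc (s * Real.exp l)) (E := Real.exp (2 * u))
    (x := s * Real.sqrt ((n : ℝ) + 1)) (by linarith) hs0 hs.2 rfl b1 b2 b3 b4
    (by linarith) hT hT1 rfl hcap (by rw [hvd]) (by rw [huv, hvd]) hV1 rfl hcc hzE hcu hcT hx hx2
    hC1 hC2 hk hk1 hk2' hMu
  rw [hss]
  linarith

end Crest.Agent.R230.FB

namespace Crest.Agent.R230.WR

/-- **block F1, `k ≥ 0`, `l ≤ 9/10`**, in the form `PStar` -/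
theorem PStar_pos_box {n : ℕ} (hn : 23 ≤ n) {s l k : ℝ} (h : FarC n s l k) (hk : 0 ≤ k)
    (hl : l ≤ 9 / 10) : 0 < PStar n s l k := by
  have hn' : (23 : ℝ) ≤ n := by exact_mod_cast hn
  have hT0 : 0 < s * Real.exp l := mul_pos h.hs.1 (Real.exp_pos _)
  have hT81 : (s * Real.exp l) ^ 8 < 1 := pow_lt_one₀ hT0.le h.hT (by norm_num)
  have hl0 : 0 ≤ l := by
    have h1 := h.hcap
    unfold capF at h1
    linarith
  have hmu : 0 ≤ muF n := by unfold muF; apply div_nonneg <;> linarith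
  have h1 := FB.low_pos hn h hk hl le_rfl
  have h2 := FB.mu_exp_le hn hmu le_rfl hl0 (by linarith)
  have h3 := hm_le_log1 (n := n) (by omega) (show 0 < 1 + k by linarith)
  have h4 : 0 ≤ hm n k := PL.hm_nonneg (by omega) (by linarith)
  have h5 : muF n * (Real.exp (l / n) * hm n k) ≤
      (107 / 100 + 186 / 100 / ((n : ℝ) + 1 - 2)) * (((n : ℝ) + 1 - 1) / ((n : ℝ) + 1 - 1 - l)) *
        (k - Real.log (1 + k)) := by
    rw [← mul_assoc]
    exact mul_le_mul h2 h3 h4 (le_trans (mul_nonneg hmu (Real.exp_pos _).le) h2)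
  unfold PStar
  linarith

end Crest.Agent.R230.WR
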