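import Crest.Agent.R230.FarNegEv

/-!
# Row 230: far block, `k ≤ 0`, box certificate, part 3 (helper237)
-/

set_option autoImplicit false
set_option maxRecDepth 100000

namespace Crest.Agent.R230.FN

theorem cert3 : rec ev 25 606105784812 656614600213 340848604610 1539316278887 = true := by
  decide +kernel

end Crest.Agent.R230.FN
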