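import Crest.Agent.R230.FarNegBox
import Crest.Agent.R230.FarNegC1
import Crest.Agent.R230.FarNegC2
import Crest.Agent.R230.FarNegC3
import Crest.Agent.R230.FarNegC4

/-!
# Row 230: the far block for `k ≤ 0`, `l ≤ 7/5` (helper237)
-/

set_option autoImplicit false

open MeasureTheory Set Filter Topology

namespace Crest.Agent.R230.WR

open IA FN

/-- **far block, `k ≤ 0`, `l ≤ 7/5`**, both corners `μ` -/
theorem PStar_neg_box {n : ℕ} {s l k : ℝ} (hn : 23 ≤ n) (h : FarC n s l k) (hk : k ≤ 0)
    (hl : l ≤ 7 / 5) : 0 < PStar n s l k := by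
  have hs := h.hs
  have hT0 : 0 < s * Real.exp l := mul_pos hs.1 (Real.exp_pos _)
  have hl3 : 63 / 200 < l := by
    have h1 := h.hcap
    have h2 : (s * Real.exp l) ^ 8 ≤ 1 := pow_le_one₀ hT0.le h.hT.le
    unfold capF at h1
    linarith
  have hs7 : s ≤ 735 / 1000 := by
    have h1 := Real.quadratic_le_exp_of_nonneg (x := 63 / 200) (by norm_num)
    have h2 : Real.exp (63 / 200) ≤ Real.exp l := Real.exp_le_exp.2 hl3.le
    have h3 : 1364 / 1000 ≤ Real.exp l := by norm_num at h1; linarith
    by_contra hc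
    push Not at hc
    have h4 : (735 / 1000 : ℝ) * (1364 / 1000) ≤ s * Real.exp l :=
      mul_le_mul hc.le h3 (by norm_num) hs.1.le
    have := h.hT
    norm_num at h4
    linarith
  have bl1 : LB 340848604610 l := by unfold LB; norm_num; linarith
  have bl2 : UB l 1539316278887 := by unfold UB; norm_num; linarith
  have key : ∀ s1 s2 : ℕ, rec ev 25 s1 s2 340848604610 1539316278887 = true → LB s1 s → UB s s2 →
      0 < PStar n s l k := by
    intro s1 s2 hr c1 c2
    have := rec_sound (P := fun s' l' => s' = s → l' = l → 0 < PStar n s l k)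
      (fun a b c d hev s' l' d1 d2 d3 d4 e1 e2 => by
        subst e1 e2
        exact ev_sound hn h hk (by linarith) d1 d2 d3 d4 hev) 25 s1 s2 _ _ hr s l c1 c2 bl1 bl2
    exact this rfl rfl
  have hs0 : LB 0 s := LB_zero hs.1.le
  have hsU : UB s 808141046416 := by unfold UB; norm_num; linarith
  have sp : ∀ m : ℕ, UB s m ∨ LB m s := fun m => le_total _ _
  rcases sp 404070523208 with a | a
  · exact key _ _ cert1a hs0 a
  rcases sp 505088154010 with b | b
  · exact key _ _ cert1b a b
  rcases sp 606105784812 with c | c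
  · exact key _ _ cert2 b c
  rcases sp 656614600213 with d | d
  · exact key _ _ cert3 c d
  rcases sp 707123415614 with e | e
  · exact key _ _ cert4 d e
  · exact key _ _ cert1c e hsU

/-- the same for the far density -/
theorem PF_neg_box {n : ℕ} {μ s l k : ℝ} (hn : 23 ≤ n) (hμ0 : 0 ≤ μ) (hμ : μ ≤ muF n)
    (h : FarC n s l k) (hk : k ≤ 0) (hl : l ≤ 7 / 5) : 0 < PF n μ s l k :=
  (PStar_neg_box hn h hk hl).trans_le (PF_ge_star (by omega) h.hs h.hk0 hμ0 hμ)

end Crest.Agent.R230.WR
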