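import Crest.Agent.R230.FarTailF
import Crest.Agent.R230.FarMu

/-!
# Row 230: far block, tail `l ≥ 9/10`, `k ≥ 0` (helper825)
-/

set_option autoImplicit false

open MeasureTheory Set Filter Topology
open scoped Pointwise ENNReal

namespace Crest.Agent.R230.WR

/-- `e^{9/5} ≥ 6.0496` -/
lemma exp_nine_fifths : (60496 : ℝ) / 10000 ≤ Real.exp (9 / 5) := by
  have h1 := Real.exp_one_gt_d9
  have h2 := Real.sum_le_exp_of_nonneg (show (0 : ℝ) ≤ 4 / 5 by norm_num) 8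
  simp only [Finset.sum_range_succ, Finset.sum_range_zero, Nat.factorial] at h2
  norm_num at h2
  have e : Real.exp (9 / 5) = Real.exp 1 * Real.exp (4 / 5) := by
    rw [← Real.exp_add]; norm_num
  rw [e]
  have h3 : (2.7182818283 : ℝ) * (6085451 / 2734375) ≤ Real.exp 1 * Real.exp (4 / 5) := by
    refine mul_le_mul h1.le ?_ (by norm_num) (Real.exp_pos _).le
    linarith
  norm_num at h3 ⊢
  linarith

/-- class facts in the tail -/
lemma tail_class {n : ℕ} (hn : 23 ≤ n) {s l k : ℝ} (h : FarC n s l k) (hl : 9 / 10 ≤ l) :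
    25 / 9 * Real.exp (2 * l) ≤ s ^ 2 * ((n : ℝ) + 1) := by
  have hnR : (23 : ℝ) ≤ n := by exact_mod_cast hn
  set x := s * Real.sqrt ((n : ℝ) + 1) with hx
  have hx0 : 0 ≤ x := by have := h.hx2; linarith
  have hx2 : x ^ 2 = s ^ 2 * ((n : ℝ) + 1) := by
    rw [hx, mul_pow, Real.sq_sqrt (by linarith)]
  have hel : (2305 : ℝ) / 1000 ≤ Real.exp l := by
    have h1 := Real.quadratic_le_exp_of_nonneg (show (0 : ℝ) ≤ 9 / 10 by norm_num)
    have h2 : Real.exp (9 / 10) ≤ Real.exp l := Real.exp_le_exp.2 hl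
    norm_num at h1
    linarith
  have hx72 : 7 / 2 ≤ x := by
    by_contra hlt
    push Not at hlt
    have h1 := h.hC1 hlt.le
    have h2 : 1 / (2 * ((n : ℝ) + 1)) ≤ 1 / 48 := by
      apply one_div_le_one_div_of_le (by norm_num)
      linarith
    have h3 : (73 / 200 + 1 / (2 * ((n : ℝ) + 1))) * x ≤ (73 / 200 + 1 / 48) * (7 / 2) := by
      refine mul_le_mul (by linarith) hlt.le hx0 (by norm_num)
    linarith
  have h1 := h.hC2 hx72
  have h2 : Real.exp l ^ 2 ≤ (3 / 5 * x) ^ 2 := by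
    have := Real.exp_pos l
    gcongr
  have e : Real.exp (2 * l) = Real.exp l ^ 2 := by rw [← Real.exp_nat_mul]; norm_num
  rw [← hx2, e]
  nlinarith

/-- `muF n e^{l/n} ≤ 1.0987` -/
lemma tail_mu {n : ℕ} {l : ℝ} (hl : 9 / 10 ≤ l)
    (hN : 25 / 9 * Real.exp (2 * l) ^ 2 ≤ (n : ℝ) + 1) (hG : 60496 / 10000 ≤ Real.exp (2 * l)) :
    muF n * Real.exp (l / n) ≤ 10987 / 10000 := by
  have hn1 : (10066 : ℝ) / 100 ≤ n := by nlinarith
  have hn0 : (0 : ℝ) < n := by linarith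
  have h1 : muF n ≤ 10887 / 10000 := by
    unfold muF
    rw [div_le_iff₀ (by linarith)]
    linarith
  -- `n ≥ 111.7 l`
  have h2 : 1117 / 10 * l ≤ n := by
    have h3 : 1 + 2 * (2 * l - 9 / 5) ≤ Real.exp (2 * (2 * l - 9 / 5)) := by
      have := Real.add_one_le_exp (2 * (2 * l - 9 / 5))
      linarith
    have e : Real.exp (2 * l) ^ 2 = Real.exp (2 * (2 * l - 9 / 5)) * Real.exp (9 / 5) ^ 2 := by
      rw [← Real.exp_nat_mul, ← Real.exp_nat_mul, ← Real.exp_add]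
      congr 1
      push_cast
      ring
    have h4 : (60496 / 10000 : ℝ) ^ 2 ≤ Real.exp (9 / 5) ^ 2 := by
      have := exp_nine_fifths
      gcongr
    have h5 : (1 + 2 * (2 * l - 9 / 5)) * (60496 / 10000 : ℝ) ^ 2 ≤ Real.exp (2 * l) ^ 2 := by
      rw [e]
      refine mul_le_mul h3 h4 (by positivity) (Real.exp_pos _).le
    norm_num at h5
    linarith
  have h3 : l / n ≤ 896 / 100000 := by
    rw [div_le_iff₀ hn0]
    linarith
  have h4 : Real.exp (l / n) ≤ 100906 / 100000 := by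
    have h5 : Real.exp (l / n) ≤ Real.exp (896 / 100000) := Real.exp_le_exp.2 h3
    have h6 := exp_up4 (show (0 : ℝ) ≤ 896 / 100000 by norm_num) (by norm_num)
    refine h5.trans (h6.trans ?_)
    norm_num
  have h5 : muF n * Real.exp (l / n) ≤ 10887 / 10000 * (100906 / 100000) :=
    mul_le_mul h1 h4 (Real.exp_pos _).le (by norm_num)
  norm_num at h5 ⊢
  linarith

/-- `0.0049/(0.54 + 0.115 y) ≤ 0.1225 - 0.115 y` -/
lemma tail_eta {y : ℝ} (h0 : 0 ≤ y) (h1 : y ≤ 1) :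
    49 / 10000 / (54 / 100 + 23 / 200 * y) ≤ 1225 / 10000 - 23 / 200 * y := by
  rw [div_le_iff₀ (by positivity)]
  nlinarith [mul_nonneg h0 (sub_nonneg.2 h1)]

/-- the reduced density is positive, and the `F`-term is harmless -/
lemma tail_FRR {G l L ε t c h δ z : ℝ} (ht0 : 0 < t) (ht1 : t ≤ 1) (hδ0 : 0 ≤ δ)
    (hδ : δ ≤ 49 / 10000 / (54 / 100 + 23 / 200 * t ^ 4))
    (hL : L = 1 / 2 - (23 / 200 * t ^ 4 + δ)) (hε : ε = Real.exp (-(2 * L))) (hh2 : h ^ 2 = 1 - ε * t)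
    (hh0 : 0 < h) (hh1 : h ≤ 1) (hL0 : 0 ≤ L) (hc : 571 / 625 ≤ c) (hc1 : c ≤ 1) (hG : 60496 / 10000 ≤ G)
    (hl : 9 / 10 ≤ l) (hz0 : 0 < z) (hzG : z * G = t) (hzρ : z * (22 / 10) ≤ ε * t)
    (hεlo : 367879 / 1000000 ≤ ε) (hρ1 : ε * t ≤ 47003 / 100000) (hη1 : 23 / 200 * t ^ 4 + δ ≤ 1225 / 10000) :
    0 < RR G l L ε t c h ∧ 0 ≤ c * FF (1 / h - 1) L + ((1 - h ^ 2) - z) / 2000 := by
  have hG0 : 0 < G := by linarith
  have hc0 : 0 < c := by linarith
  have hε0 : 0 < ε := by linarith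
  have ht4 : 0 ≤ t ^ 4 := by positivity
  have hLh : L ≤ 1 / 2 := by linarith
  have hεe : ε = Real.exp (-1 + 2 * (23 / 200 * t ^ 4 + δ)) := by
    rw [hε, hL]; congr 1; ring
  set d := 1 / h - 1 with hdd
  have hd0 : 0 ≤ d := by
    have : 1 ≤ 1 / h := by rw [le_div_iff₀ hh0]; linarith
    linarith
  have hdd1 : 1 + d = 1 / h := by rw [hdd]; ring
  have hdh : (1 + d) ^ 2 * (1 - ε * t) = 1 := by
    rw [hdd1, ← hh2]
    field_simp
  have hsq : 0 ≤ (1 + d) ^ 2 := sq_nonneg _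
  rcases le_total t (81 / 100) with h81 | h81
  · -- region 1
    have hy1 : t ^ 4 ≤ 4305 / 10000 := by
      have : t ^ 4 ≤ (81 / 100) ^ 4 := by gcongr
      norm_num at this ⊢
      linarith
    have hδ1 : δ ≤ 908 / 100000 := by
      refine hδ.trans ?_
      rw [div_le_iff₀ (by positivity)]
      linarith
    have hε1 : ε ≤ 37463 / 100000 * (1 + 242 / 1000 * t ^ 4) := by
      rw [hεe]
      exact reg1_eps ht4 hy1 hδ1 (exp_m1_add_up (by positivity) (by linarith))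
    have hρ36 : ε * t ≤ 36 / 100 := by
      have h1 : ε ≤ 4138 / 10000 := by
        refine hε1.trans ?_
        linarith
      calc ε * t ≤ 4138 / 10000 * (81 / 100) := mul_le_mul h1 h81 ht0.le (by norm_num)
        _ ≤ 36 / 100 := by norm_num
    have hd1 : d ≤ 1 / 4 := by
      by_contra hlt
      push Not at hlt
      have h1 : (5 / 4 : ℝ) ^ 2 < (1 + d) ^ 2 := by
        have : (5 / 4 : ℝ) < 1 + d := by linarith
        gcongr
      have h2 := mul_le_mul_of_nonneg_left (show 64 / 100 ≤ 1 - ε * t by linarith) hsq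
      rw [hdh] at h2
      norm_num at h1
      linarith
    have hF := reg1_F (t := t) (ρ := ε * t) (z := z) (d := d) (L := L) (c := c) ht0 h81
      (mul_le_mul_of_nonneg_right hεlo ht0.le) hd0 hd1 hdh (by linarith) hzρ hc0.le hc1
    have hm1 := reg1_main (G := G) (l := l) (L := L) (ε := ε) (t := t) ht0.le h81 hε0.le hε1 hG hl hLh
    have hQ1 := reg1_Q (d := d) (ρ := ε * t) (L := L) hd0 hd1 hdh hLh
    rw [hdd1] at hQ1
    constructor
    · unfold RR
      have h2 : 0 ≤ 25 / 9 * (G ^ 2 / t) * (c * FF (1 / h - 1) L + (ε * t - t / G) / 2000) := by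
        have e : t / G = z := by rw [← hzG]; field_simp
        rw [e]
        exact mul_nonneg (by positivity) hF
      linarith only [h2, hm1, hQ1]
    · rw [hh2]
      have e : 1 - (1 - ε * t) - z = ε * t - z := by ring
      rw [e]
      exact hF
  · refine ⟨reg2 h81 ht1 hδ0 hδ hL hε hh2 hh0 hL0 hc hG hl, ?_⟩
    have hd39 : d ≤ 39 / 100 := by
      by_contra hlt
      push Not at hlt
      have h1 : (139 / 100 : ℝ) ^ 2 < (1 + d) ^ 2 := by
        have : (139 / 100 : ℝ) < 1 + d := by linarith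
        gcongr
      have h2 := mul_le_mul_of_nonneg_left (show 52997 / 100000 ≤ 1 - ε * t by linarith) hsq
      rw [hdh] at h2
      norm_num at h1
      linarith
    have hdl : 21 / 100 ≤ d := by
      by_contra hlt
      push Not at hlt
      have h1 : (1 + d) ^ 2 < (121 / 100 : ℝ) ^ 2 := by
        have : 1 + d < (121 / 100 : ℝ) := by linarith
        gcongr
      have h3 : 1 + 23 / 100 * (43 / 100) ≤ Real.exp (2 * (23 / 200 * t ^ 4 + δ)) := by
        have h4 := Real.add_one_le_exp (2 * (23 / 200 * t ^ 4 + δ))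
        have h5 : (81 / 100 : ℝ) ^ 4 ≤ t ^ 4 := by gcongr
        norm_num at h5
        linarith
      have h2 : 367879 / 1000000 * (1 + 23 / 100 * (43 / 100)) ≤ ε := by
        rw [hεe, Real.exp_add]
        exact mul_le_mul exp_m1_lo h3 (by norm_num) (Real.exp_pos _).le
      have h6 : 367879 / 1000000 * (1 + 23 / 100 * (43 / 100)) * (81 / 100) ≤ ε * t :=
        mul_le_mul h2 h81 (by norm_num) hε0.le
      have h7 : 1 - ε * t ≤ 1 - 367879 / 1000000 * (1 + 23 / 100 * (43 / 100)) * (81 / 100) := by linarith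
      have h8 : 0 ≤ 1 - ε * t := by linarith
      have h9 : (1 + d) ^ 2 * (1 - ε * t) ≤
          (121 / 100) ^ 2 * (1 - 367879 / 1000000 * (1 + 23 / 100 * (43 / 100)) * (81 / 100)) :=
        mul_le_mul h1.le h7 h8 (by norm_num)
      rw [hdh] at h9
      norm_num at h9
    have hFF : 0 ≤ FF d L :=
      FF_ge_of (d0 := 21 / 100) (ηb := 1225 / 10000) (by norm_num) hdl hd39 (by norm_num)
        (by linarith) (by norm_num) (by norm_num)
    have h2 : 0 ≤ ((1 - h ^ 2) - z) / 2000 := by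
      rw [hh2]
      apply div_nonneg _ (by norm_num)
      linarith
    have := mul_nonneg hc0.le hFF
    linarith

/-- facts on `u`, `L`, `ε`, `V1` -/
lemma tail_facts {s l t G : ℝ} (hl : 9 / 10 ≤ l) (hGd : G = Real.exp (2 * l))
    (htd : t = (s * Real.exp l) ^ 2) (ht0 : 0 < t) (ht1 : t < 1) :
    ∃ δ, 0 ≤ δ ∧ δ ≤ 49 / 10000 / (54 / 100 + 23 / 200 * t ^ 4) ∧
      l - Uf s l = 1 / 2 - (23 / 200 * t ^ 4 + δ) ∧ 23 / 200 * t ^ 4 + δ ≤ 1225 / 10000 ∧
      0 ≤ Uf s l ∧ 1 - 169 / 10000 ≤ Vq' (7 / 100) (l - capF (s * Real.exp l)) ∧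
      Vq' (7 / 100) (l - capF (s * Real.exp l)) ≤ 1 ∧
      Real.exp (2 * Uf s l) = G * Real.exp (-(2 * (l - Uf s l))) ∧
      367879 / 1000000 ≤ Real.exp (-(2 * (l - Uf s l))) ∧
      Real.exp (-(2 * (l - Uf s l))) ≤ 47003 / 100000 := by
  have hT8 : (s * Real.exp l) ^ 8 = t ^ 4 := by rw [htd]; ring
  set v := l - capF (s * Real.exp l) with hv
  have hcap : capF (s * Real.exp l) = 43 / 100 - 23 / 200 * t ^ 4 := by
    unfold capF
    rw [hT8]
  have ht4 : 0 ≤ t ^ 4 := by positivity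
  have ht41 : t ^ 4 ≤ 1 := pow_le_one₀ ht0.le ht1.le
  have hvb : 47 / 100 + 23 / 200 * t ^ 4 ≤ v := by rw [hv, hcap]; linarith
  have hv0 : 0 ≤ v := by linarith
  have hu : Uf s l = v ^ 2 / (v + 7 / 100) := by
    unfold Uf
    rw [← hv, Vq_of_nonneg hv0]
  have hδ : 49 / 10000 / (v + 7 / 100) ≤ 49 / 10000 / (54 / 100 + 23 / 200 * t ^ 4) := by
    apply div_le_div_of_nonneg_left (by norm_num) (by positivity)
    linarith
  have hL : l - Uf s l = 1 / 2 - (23 / 200 * t ^ 4 + 49 / 10000 / (v + 7 / 100)) := by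
    have e1 : l = v + (43 / 100 - 23 / 200 * t ^ 4) := by rw [hv, hcap]; ring
    rw [hu]
    have e2 : v ^ 2 / (v + 7 / 100) = v - 7 / 100 + 49 / 10000 / (v + 7 / 100) := by
      field_simp
      ring
    rw [e2]
    linarith
  have hη := tail_eta ht4 ht41
  have hδ0 : 0 ≤ 49 / 10000 / (v + 7 / 100) := by positivity
  have hη1 : 23 / 200 * t ^ 4 + 49 / 10000 / (v + 7 / 100) ≤ 1225 / 10000 := by linarith
  have hεe : Real.exp (-(2 * (l - Uf s l))) =
      Real.exp (-1 + 2 * (23 / 200 * t ^ 4 + 49 / 10000 / (v + 7 / 100))) := by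
    rw [hL]; congr 1; ring
  refine ⟨49 / 10000 / (v + 7 / 100), hδ0, hδ, hL, hη1, by rw [hu]; positivity, ?_, ?_, ?_, ?_, ?_⟩
  · rw [Vq'_of_nonneg hv0]
    have h1 : (54 / 100 : ℝ) ^ 2 ≤ (v + 7 / 100) ^ 2 := by
      have : (54 / 100 : ℝ) ≤ v + 7 / 100 := by linarith
      gcongr
    have : (7 / 100 : ℝ) ^ 2 / (v + 7 / 100) ^ 2 ≤ 169 / 10000 := by
      rw [div_le_iff₀ (by positivity)]
      linarith
    linarith
  · rw [Vq'_of_nonneg hv0]
    have : 0 ≤ (7 / 100 : ℝ) ^ 2 / (v + 7 / 100) ^ 2 := by positivity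
    linarith
  · rw [hGd, ← Real.exp_add]
    congr 1
    ring
  · refine exp_m1_lo.trans ?_
    rw [hεe]
    apply Real.exp_le_exp.2
    linarith
  · have h1 : Real.exp (-(2 * (l - Uf s l))) ≤ Real.exp (-1 + 245 / 1000) := by
      rw [hεe]
      apply Real.exp_le_exp.2
      linarith
    have h2 := exp_m1_add_up (show (0 : ℝ) ≤ 245 / 1000 by norm_num) (by norm_num)
    refine h1.trans (h2.trans ?_)
    norm_num

set_option maxHeartbeats 1600000 in
/-- **the tail `l ≥ 9/10`, `k ≥ 0`** -/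
theorem PStar_pos_tail {n : ℕ} (hn : 23 ≤ n) {s l k : ℝ} (h : FarC n s l k) (hk : 0 ≤ k)
    (hl : 9 / 10 ≤ l) : 0 < PStar n s l k := by
  have hnR : (23 : ℝ) ≤ n := by exact_mod_cast hn
  have hs := h.hs
  have hs0 : 0 < s := hs.1
  have hX := tail_class hn h hl
  -- `G`
  obtain ⟨G, hGd⟩ : ∃ G, G = Real.exp (2 * l) := ⟨_, rfl⟩
  rw [← hGd] at hX
  have hG : 60496 / 10000 ≤ G := by
    refine exp_nine_fifths.trans ?_
    rw [hGd]
    apply Real.exp_le_exp.2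
    linarith only [hl]
  have hG0 : 0 < G := by linarith only [hG]
  obtain ⟨t, htd⟩ : ∃ t, t = (s * Real.exp l) ^ 2 := ⟨_, rfl⟩
  have hzG : s ^ 2 * G = t := by
    rw [htd, mul_pow, hGd, ← Real.exp_nat_mul]
    norm_num
  have hTpos : 0 < s * Real.exp l := mul_pos hs0 (Real.exp_pos _)
  have ht0 : 0 < t := by rw [htd]; exact pow_pos hTpos 2
  have ht1 : t < 1 := by rw [htd]; exact pow_lt_one₀ hTpos.le h.hT (by norm_num)
  have hT8 : (s * Real.exp l) ^ 8 = t ^ 4 := by rw [htd]; ring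
  have ht4 : 0 ≤ t ^ 4 := pow_nonneg ht0.le 4
  have ht41 : t ^ 4 ≤ 1 := pow_le_one₀ ht0.le ht1.le
  -- `c`
  have hc0 : 0 < cc s := cc_pos' hs
  have hc2 : cc s ^ 2 = 1 - s ^ 2 := cc_sq' hs
  have hz : s ^ 2 = 1 - cc s ^ 2 := by rw [hc2]; ring
  have hz0 : 0 < s ^ 2 := pow_pos hs0 2
  have hzb : s ^ 2 ≤ 165301 / 1000000 := by
    have : s ^ 2 * (60496 / 10000) ≤ 1 := by
      calc s ^ 2 * (60496 / 10000) ≤ s ^ 2 * G := mul_le_mul_of_nonneg_left hG hz0.le
        _ ≤ 1 := by rw [hzG]; exact ht1.le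
    linarith only [this]
  have hc : 571 / 625 ≤ cc s := by
    have : (571 / 625 : ℝ) ^ 2 ≤ cc s ^ 2 := by rw [hc2]; norm_num; linarith only [hzb]
    exact abs_le_of_sq_le_sq' this hc0.le |>.2
  have hc1 : cc s < 1 := by
    have : cc s ^ 2 < 1 ^ 2 := by rw [hc2]; linarith only [hz0]
    exact lt_of_pow_lt_pow_left₀ 2 (by norm_num) this
  obtain ⟨δ, hδ0, hδ, hL, hη1, hu0, hV1l, hV1h, hE, hεlo, hεhi⟩ := tail_facts hl hGd htd ht0 ht1
  obtain ⟨u, hud⟩ : ∃ u, u = Uf s l := ⟨_, rfl⟩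
  obtain ⟨V1, hV1⟩ : ∃ V1, V1 = Vq' (7 / 100) (l - capF (s * Real.exp l)) := ⟨_, rfl⟩
  rw [← hud] at hL hu0 hE hεlo hεhi
  rw [← hV1] at hV1l hV1h
  obtain ⟨L, hLd⟩ : ∃ L, L = l - u := ⟨_, rfl⟩
  rw [← hLd] at hL hE hεlo hεhi
  obtain ⟨ε, hεd⟩ : ∃ ε, ε = Real.exp (-(2 * L)) := ⟨_, rfl⟩
  rw [← hεd] at hE hεlo hεhi
  have hL0 : 0 ≤ L := by linarith only [hL, hη1]
  have hLh : L ≤ 1 / 2 := by linarith only [hL, hδ0, ht4]
  have hL0' : 0 ≤ l - u := by rw [← hLd]; exact hL0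
  have hLh' : l - u ≤ 1 / 2 := by rw [← hLd]; exact hLh
  have hε0 : 0 < ε := by linarith only [hεlo]
  -- `h = cc (s e^u)`
  have hsu : s * Real.exp u < 1 := by
    have : Real.exp u ≤ Real.exp l := Real.exp_le_exp.2 (by linarith only [hL0'])
    have h1 : s * Real.exp u ≤ s * Real.exp l := mul_le_mul_of_nonneg_left this hs0.le
    have := h.hT
    linarith only [h1, this]
  have hp : s * Real.exp u ∈ Ioo (0 : ℝ) 1 := ⟨mul_pos hs0 (Real.exp_pos _), hsu⟩
  obtain ⟨hh, hhd⟩ : ∃ hh, hh = cc (s * Real.exp u) := ⟨_, rfl⟩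
  have hh0 : 0 < hh := by rw [hhd]; exact cc_pos' hp
  have hzE : s ^ 2 * Real.exp (2 * u) = ε * t := by
    rw [hE, ← hzG]; ring
  have hh2 : hh ^ 2 = 1 - ε * t := by
    rw [hhd, cc_sq' hp, mul_pow, ← hzE, ← Real.exp_nat_mul]
    norm_num
  have hρ0 : 0 ≤ ε * t := mul_nonneg hε0.le ht0.le
  have hρ1 : ε * t ≤ 47003 / 100000 := by
    calc ε * t ≤ 47003 / 100000 * 1 := mul_le_mul hεhi ht1.le ht0.le (by norm_num)
      _ = _ := mul_one _
  have hhl : 727 / 1000 ≤ hh := by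
    have : (727 / 1000 : ℝ) ^ 2 ≤ hh ^ 2 := by rw [hh2]; norm_num; linarith only [hρ1]
    exact abs_le_of_sq_le_sq' this hh0.le |>.2
  have hh1 : hh ≤ 1 := by rw [hhd]; exact cc_le_one _
  have hE1 : 1 ≤ Real.exp (2 * u) := Real.one_le_exp (by linarith only [hu0])
  have hhc : hh ≤ cc s := by
    have : hh ^ 2 ≤ cc s ^ 2 := by
      rw [hh2, hc2, ← hzE]
      have := mul_le_mul_of_nonneg_left hE1 hz0.le
      linarith only [this]
    exact abs_le_of_sq_le_sq' this hc0.le |>.2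
  have hGε : 222 / 100 ≤ G * ε := by
    have : (60496 / 10000 : ℝ) * (367879 / 1000000) ≤ G * ε := mul_le_mul hG hεlo (by norm_num) hG0.le
    norm_num at this
    linarith only [this]
  have hE2 : 2 ≤ Real.exp (2 * u) := by rw [hE]; linarith only [hGε]
  have hzρ : s ^ 2 * (22 / 10) ≤ ε * t := by
    rw [← hzE]
    refine mul_le_mul_of_nonneg_left ?_ hz0.le
    rw [hE]
    linarith only [hGε]
  have hzE' : s ^ 2 * Real.exp (2 * u) = 1 - hh ^ 2 := by rw [hzE, hh2]; ring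
  -- `tp`
  obtain ⟨tp, htp⟩ : ∃ tp, tp = 23 / 25 * t ^ 4 := ⟨_, rfl⟩
  have htp0 : 0 ≤ tp := by rw [htp]; positivity
  have htp1 : tp ≤ 23 / 25 := by rw [htp]; linarith only [ht41]
  -- `Mu`
  have hN0 : 25 / 9 * G ^ 2 ≤ (n : ℝ) + 1 := by
    have h2 : 25 / 9 * G * G ≤ s ^ 2 * ((n : ℝ) + 1) * G := mul_le_mul_of_nonneg_right hX hG0.le
    have h3 : s ^ 2 * ((n : ℝ) + 1) * G = t * ((n : ℝ) + 1) := by rw [← hzG]; ring
    have h4 : t * ((n : ℝ) + 1) ≤ 1 * ((n : ℝ) + 1) :=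
      mul_le_mul_of_nonneg_right ht1.le (by linarith only [hnR])
    linarith only [h2, h3, h4]
  have hMu : muF n * Real.exp (l / n) ≤ 10987 / 10000 := by
    have hN0' := hN0
    have hG' := hG
    rw [hGd] at hN0' hG'
    exact tail_mu hl hN0' hG'
  have hmu0 : 0 ≤ muF n := by
    unfold muF
    exact div_nonneg (by linarith only [hnR]) (by linarith only [hnR])
  -- the closed form
  have hlow := far_lower (n := n) (by omega) (μ := 0) (Mu := 0) (lm := 0) (V1 := V1) (tp := tp) hs hsu hk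
    le_rfl (by simp) (l := l)
  rw [← hhd] at hlow
  have hPF : PF n 0 s l k = PQ n 0 0 (7 / 50) 1 0 0 s l k + (lineC n s l k u (V1 * (k + tp * (1 + k))) +
      softG n (((n : ℝ) - 4) / ((n : ℝ) + 1) + 1 / 1000) 0 s u (V1 * (k + tp * (1 + k)))) := by
    unfold PF e0F SUf
    rw [SU_eq, hT8, ← hud, ← hV1, htp]
  have hhm : muF n * (Real.exp (l / n) * hm n k) ≤ muF n * Real.exp (l / n) * (k - Real.log (1 + k)) := by
    rw [← mul_assoc]
    exact mul_le_mul_of_nonneg_left (hm_le_log1 (by omega) (by linarith only [hk]))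
      (mul_nonneg hmu0 (Real.exp_pos _).le)
  have hLG : 0 ≤ 5 / ((n : ℝ) + 1) * LG2 (s ^ 2) (cc s) (Real.exp (2 * u)) V1 tp k := by
    have h1 : 0 ≤ V1 := by linarith only [hV1l]
    unfold LG2
    have h2 : 0 ≤ Real.exp (2 * u) - 1 := by linarith only [hE1]
    positivity
  -- estimates
  have hLP0 := tail_LP0 (z := s ^ 2) (c := cc s) (h := hh) (cT := cc (s * Real.exp l)) (t := t)
    (E := Real.exp (2 * u)) (l := l) (u := u) (V1 := V1) (tp := tp) hc0 hc1.le hz hhl hh1 (cc_nonneg _)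
    ht0.le (by rw [cc_sq' ⟨hTpos, h.hT⟩, htd]) hzE' (Real.exp_pos _).le hL0' hLh'
    (by linarith only [hV1l]) hV1h htp0
  have hkp := tail_k (z := s ^ 2) (c := cc s) (h := hh) (E := Real.exp (2 * u)) (l := l) (u := u) (V1 := V1)
    (tp := tp) (k := k) (Mu := muF n * Real.exp (l / n)) hc hc1 hz hhl hh1 hzE' hE2
    hL0' hLh' (by linarith only [hl]) hV1l hV1h htp0 htp1 hk h.hk1
    (mul_nonneg hmu0 (Real.exp_pos _).le) hMu
  have hLg := Lg_ge (c := cc s) (h := hh) (l := l) (u := u) (by linarith only [hc]) hc1 hh0 hhc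
    (by linarith only [hl])
  have hEz : (1 - hh ^ 2) / (1 - cc s ^ 2) = Real.exp (2 * u) := by
    rw [← hz, div_eq_iff hz0.ne', ← hzE', mul_comm]
  rw [hEz, ← hz, ← hLd] at hLg
  obtain ⟨hR, hFn⟩ := tail_FRR (c := cc s) ht0 ht1.le hδ0 hδ hL hεd hh2 hh0 hh1 hL0 hc hc1.le hG hl hz0 hzG
    hzρ hεlo hρ1 hη1
  have hK0 : 0 ≤ Klow (s ^ 2) (cc s) hh l L :=
    Klow_nonneg hz0 hl hG hzG (by linarith only [hh2, hρ0]) ht1.le hFn
  have hKL : Klow (s ^ 2) (cc s) hh l L ≤ s ^ 2 * Lg (s ^ 2) (cc s) hh (Real.exp (2 * u)) l u := by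
    unfold Klow
    exact hLg
  have hN1 : 25 / 9 * (G / s ^ 2) ≤ (n : ℝ) + 1 := by
    have : 25 / 9 * (G / s ^ 2) = (25 / 9 * G) / s ^ 2 := by ring
    rw [this, div_le_iff₀ hz0]
    linarith only [hX]
  have hNK : 25 / 9 * (G / s ^ 2) * Klow (s ^ 2) (cc s) hh l L ≤
      ((n : ℝ) + 1) * (s ^ 2 * Lg (s ^ 2) (cc s) hh (Real.exp (2 * u)) l u) :=
    mul_le_mul hN1 hKL hK0 (by linarith only [hnR])
  have hsum := tail_sum (z := s ^ 2) (c := cc s) (h := hh) (l := l) (L := L) (t := t) (G := G) (ε := ε)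
    (E := Real.exp (2 * u)) (tp := tp) hc hc1 hz hl hG hzG hE hh2 hρ0 htp
  unfold P0low kklow at hsum
  rw [← hLd] at hLP0
  unfold PStar
  rw [hPF]
  linarith only [hsum, hLP0, hkp, hNK, hLG, hlow, hhm, hR]

end Crest.Agent.R230.WR
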