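import Crest.Agent.R230.XlogRed
import Crest.Agent.R230.WMain

/-!
# Row 230: the XLOG line bound in the form needed by `WR.master`
-/

set_option autoImplicit false

open MeasureTheory Set Filter Topology
open scoped Pointwise ENNReal

namespace Crest.Agent.R230

/-- legality of the line in closed form, `c = √(1-z²)` -/
theorem xA_le_xB_iff {z t l : ℝ} (hz : z ∈ Ioo (0 : ℝ) 1) :
    xA (1 / cc z) l ≤ xB t (1 / cc z) l ↔
      l * ((1 - cc z) ^ 2 * (1 + 2 * cc z) + t) * (1 + cc z) ≤ cc z ^ 2 * (z ^ 2 + t) := by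
  have hzi : z ∈ Ioo (-1 : ℝ) 1 := ⟨by linarith [hz.1], hz.2⟩
  have hc : 0 < cc z := cc_pos hzi
  have hc2 : cc z ^ 2 = 1 - z ^ 2 := cc_sq ⟨hzi.1.le, hzi.2.le⟩
  have hz2 : z ^ 2 = 1 - cc z ^ 2 := by linarith
  have key : (xB t (1 / cc z) l - xA (1 / cc z) l) * (cc z ^ 3 * (1 + cc z)) =
      cc z ^ 2 * (z ^ 2 + t) - l * ((1 - cc z) ^ 2 * (1 + 2 * cc z) + t) * (1 + cc z) := by
    rw [hz2]
    unfold xA xB
    field_simp
    ring
  have hp : 0 < cc z ^ 3 * (1 + cc z) := by positivity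
  constructor
  · intro h
    have : 0 ≤ (xB t (1 / cc z) l - xA (1 / cc z) l) * (cc z ^ 3 * (1 + cc z)) :=
      mul_nonneg (by linarith) hp.le
    linarith
  · intro h
    have h1 : 0 ≤ (xB t (1 / cc z) l - xA (1 / cc z) l) * (cc z ^ 3 * (1 + cc z)) := by linarith
    have := nonneg_of_mul_nonneg_left h1 hp
    linarith

/-- simple sufficient condition: `l ≤ c²/(1+c)` -/
theorem xA_le_xB_of_le {z t l : ℝ} (hz : z ∈ Ioo (0 : ℝ) 1) (ht : 0 ≤ t)
    (h : l * (1 + cc z) ≤ cc z ^ 2) : xA (1 / cc z) l ≤ xB t (1 / cc z) l := by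
  rw [xA_le_xB_iff hz]
  have hzi : z ∈ Ioo (-1 : ℝ) 1 := ⟨by linarith [hz.1], hz.2⟩
  have hc : 0 < cc z := cc_pos hzi
  have hc1 : cc z ≤ 1 := cc_le_one z
  have hc2 : cc z ^ 2 = 1 - z ^ 2 := cc_sq ⟨hzi.1.le, hzi.2.le⟩
  have hz2 : z ^ 2 = 1 - cc z ^ 2 := by linarith
  have hw : 0 ≤ (1 - cc z) ^ 2 * (1 + 2 * cc z) + t := by positivity
  have h1 := mul_le_mul_of_nonneg_right h hw
  have h2 : (1 - cc z) ^ 2 * (1 + 2 * cc z) ≤ z ^ 2 := by
    rw [hz2]
    nlinarith [mul_nonneg (sub_nonneg.2 hc1) (pow_pos hc 2).le]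
  have h3 : cc z ^ 2 * ((1 - cc z) ^ 2 * (1 + 2 * cc z) + t) ≤ cc z ^ 2 * (z ^ 2 + t) :=
    mul_le_mul_of_nonneg_left (by linarith) (by positivity)
  calc l * ((1 - cc z) ^ 2 * (1 + 2 * cc z) + t) * (1 + cc z) =
      l * (1 + cc z) * ((1 - cc z) ^ 2 * (1 + 2 * cc z) + t) := by ring
    _ ≤ _ := h1.trans h3

namespace WR

variable {n : ℕ} {r : ℝ → ℝ}

lemma rawL_eq (hr : Prof r) {s : ℝ} (hs : s ∈ Ioo (0 : ℝ) 1) :
    rawL n s (ll n r s) (kk n r s) = RawX n s (tau n r s) (dtau n r s) := by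
  have hT := (tau_mem_half hr n hs).1.ne'
  have hd := (dtau_pos hr n (s := s) ⟨by linarith [hs.1], hs.2⟩).ne'
  have hs0 := hs.1.ne'
  have e1 : ll n r s = Real.log (tau n r s / s) := by unfold ll; rw [if_neg hs0]
  have e2 : (1 + kk n r s)⁻¹ = tau n r s / (s * dtau n r s) := by
    unfold kk
    rw [add_sub_cancel, inv_div]
  unfold rawL RawX xA
  rw [e1, e2]
  simp only [one_div]

/-- legality condition in terms of `ll` -/
def Legal (n : ℕ) (r : ℝ → ℝ) (s : ℝ) : Prop :=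
  ll n r s * ((1 - cc s) ^ 2 * (1 + 2 * cc s) + tau n r s) * (1 + cc s) ≤ cc s ^ 2 * (s ^ 2 + tau n r s)

lemma ll_eq_log {s : ℝ} (hs : s ∈ Ioo (0 : ℝ) 1) : ll n r s = Real.log (tau n r s / s) := by
  unfold ll; rw [if_neg hs.1.ne']

lemma Legal.adm {s : ℝ} (hs : s ∈ Ioo (0 : ℝ) 1) (h : Legal n r s) :
    xA (1 / cc s) (Real.log (tau n r s / s)) ≤ xB (tau n r s) (1 / cc s) (Real.log (tau n r s / s)) := by
  rw [xA_le_xB_iff hs, ← ll_eq_log hs]
  exact h

lemma Legal.of_le (hr : Prof r) {s : ℝ} (hs : s ∈ Ioo (0 : ℝ) 1)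
    (h : ll n r s * (1 + cc s) ≤ cc s ^ 2) : Legal n r s := by
  have hT := (tau_mem_half hr n hs).1
  have := xA_le_xB_of_le hs hT.le h
  rwa [xA_le_xB_iff hs] at this

lemma int_rawL_eq (hr : Prof r) :
    ∫ s in (0 : ℝ)..1, cc s ^ n * (rawL n s (ll n r s) (kk n r s) + (Phi (tau n r s) - Phi s)) =
    ∫ s in (0 : ℝ)..1, cc s ^ n * (RawX n s (tau n r s) (dtau n r s) + (Phi (tau n r s) - Phi s)) := by
  rw [intervalIntegral.integral_of_le (by norm_num), intervalIntegral.integral_of_le (by norm_num),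
    integral_Ioc_eq_integral_Ioo, integral_Ioc_eq_integral_Ioo]
  refine setIntegral_congr_fun measurableSet_Ioo fun s hs => ?_
  simp only [rawL_eq hr hs]

/-- **the hypothesis `hU` of `WR.master`** (`Z = 0`) from legality on all of `(0,1)` -/
theorem hU_of_legal (hn : 3 ≤ n) (hr : Prof r) (h : ∀ s ∈ Ioo (0 : ℝ) 1, Legal n r s) :
    2 * ((∫ s in (0 : ℝ)..1, cc s ^ n *
      (rawL n s (ll n r s) (kk n r s) + (Phi (tau n r s) - Phi s))) + JJ n (fun _ => 0)) ≤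
      w n * UX n r := by
  have h1 := UX_ge_half_id hn hr fun s hs => (h s hs).adm hs
  rw [int_rawL_eq hr]
  have : JJ n (fun _ => (0 : ℝ)) = 0 := by unfold JJ; simp
  rw [this, add_zero]
  exact h1

/-- correction density of a general contact parameter -/
noncomputable def ZG (n : ℕ) (r φ φ' : ℝ → ℝ) (s : ℝ) : ℝ :=
  cc s * (RawG n r φ φ' s - rawL n s (ll n r s) (kk n r s))

lemma NI_ZG (hn : 3 ≤ n) (hr : Prof r) {φ φ' : ℝ → ℝ} (hφ : CX φ φ') : NI n (ZG n r φ φ') := by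
  unfold NI
  have i1 := integrable_RawG hn hr hφ
  have i2 := integrable_RawX hn hr
  refine (i1.sub i2).congr_ae ?_
  rw [uIoc_of_le (by norm_num), ← restrict_Ioo_eq_restrict_Ioc, EventuallyEq,
    ae_restrict_iff' measurableSet_Ioo]
  refine Eventually.of_forall fun s hs => ?_
  simp only [ZG, rawL_eq hr hs]
  obtain ⟨k, rfl⟩ : ∃ k, n = k + 1 := ⟨n - 1, by omega⟩
  rw [Nat.add_sub_cancel]
  ring

/-- **the hypothesis `hU` of `WR.master`** with a general contact parameter, `Z = ZG` -/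
theorem hU_of_contact (hn : 3 ≤ n) (hr : Prof r) {φ φ' : ℝ → ℝ} (hφ : CX φ φ')
    (hadm : ∀ s ∈ Ioo (0 : ℝ) 1, xA (QX φ s) (LX n r φ s) ≤ xB (tau n r s) (QX φ s) (LX n r φ s)) :
    2 * ((∫ s in (0 : ℝ)..1, cc s ^ n *
      (rawL n s (ll n r s) (kk n r s) + (Phi (tau n r s) - Phi s))) + JJ n (ZG n r φ φ')) ≤
      w n * UX n r := by
  have h1 := UX_ge_half hn hr hφ hadm
  refine le_trans (le_of_eq ?_) h1
  congr 1
  rw [int_rawL_eq hr]
  have i1 := integrable_RawX hn hr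
  have i2 : IntervalIntegrable (fun s => cc s ^ n * (Phi (tau n r s) - Phi s)) volume 0 1 := by
    refine Continuous.intervalIntegrable ?_ _ _
    exact (cc_continuous.pow n).mul ((Phi_continuous.comp (tau_continuous hr n)).sub Phi_continuous)
  have i3 : IntervalIntegrable (fun s => cc s ^ n * (RawX n s (tau n r s) (dtau n r s) +
      (Phi (tau n r s) - Phi s))) volume 0 1 := by
    refine (i1.add i2).congr_ae (Eventually.of_forall fun s => ?_)
    simp only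
    ring
  have i4 := NI_ZG hn hr hφ
  unfold NI at i4
  unfold JJ
  rw [← intervalIntegral.integral_add i3 i4]
  rw [intervalIntegral.integral_of_le (by norm_num), intervalIntegral.integral_of_le (by norm_num),
    integral_Ioc_eq_integral_Ioo, integral_Ioc_eq_integral_Ioo]
  refine setIntegral_congr_fun measurableSet_Ioo fun s hs => ?_
  simp only [ZG, rawL_eq hr hs]
  obtain ⟨k, rfl⟩ : ∃ k, n = k + 1 := ⟨n - 1, by omega⟩
  rw [Nat.add_sub_cancel]
  ring

/-- `RawG` in terms of `ll`, `kk`, `φ = s e^u`: `L = l - u`, `(τ/φ)(φ'/τ') = (1 + s u')/(1+k)` -/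
lemma RawG_exp (hr : Prof r) {s u u' : ℝ} (hs : s ∈ Ioo (0 : ℝ) 1) {φ φ' : ℝ → ℝ}
    (h1 : φ s = s * Real.exp u) (h2 : φ' s = Real.exp u * (1 + s * u')) :
    RawG n r φ φ' s =
      (n + 1) * xA (1 / cc (s * Real.exp u)) (ll n r s - u) +
      (1 + 1 / (1 + 1 / cc (s * Real.exp u)) - 2 * (1 / cc (s * Real.exp u)) -
        (ll n r s - u) * (1 / cc (s * Real.exp u)) ^ 3) +
      (1 + s * u') * (1 + kk n r s)⁻¹ *
        (2 * (1 / cc (s * Real.exp u) - 1 / (1 + 1 / cc (s * Real.exp u))) -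
          3 * (ll n r s - u) * (s * Real.exp u) ^ 2 * (1 / cc (s * Real.exp u)) ^ 3) := by
  have hT := (tau_mem_half hr n hs).1
  have hd := (dtau_pos hr n (s := s) ⟨by linarith [hs.1], hs.2⟩)
  have hs0 := hs.1
  have e1 : LX n r φ s = ll n r s - u := by
    unfold LX
    rw [h1, ll_eq_log hs, ← div_div, Real.log_div (by positivity) (Real.exp_pos u).ne', Real.log_exp]
  have e2 : QX φ s = 1 / cc (s * Real.exp u) := by unfold QX; rw [h1]
  have e3 : (1 + kk n r s)⁻¹ = tau n r s / (s * dtau n r s) := by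
    unfold kk
    rw [add_sub_cancel, inv_div]
  have e4 : φ' s / dtau n r s * (tau n r s / φ s) = (1 + s * u') * (1 + kk n r s)⁻¹ := by
    rw [h1, h2, e3]
    field_simp
  unfold RawG
  rw [e4, e1, e2, h1]

end WR

end Crest.Agent.R230
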