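import Crest.Agent.R230.WMain3
import Crest.Agent.R230.XlogWR
import Crest.Agent.R230.WPoincare

/-!
# Row 230: assembly of `OneD n` from the blocks

`oneD_of_blocks` : lower bound of `UX` by the raw density, bounds for `λ`, class region `Reg`, pointwise
positivity of `PP` in case I (`-(n+1)/σ₁ ≤ λ ≤ 0`, `μ = 0`, `σ₁`, `θ₁`) and case II (`0 ≤ λ ≤ Λ`).
`oneD_of_blocks_w` : the same with the weighted Poincaré inequality in case II.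
-/

set_option autoImplicit false

open MeasureTheory Set Filter Topology
open scoped Pointwise ENNReal

namespace Crest.Agent.R230

open WR

/-- the raw lower bound for `UX` -/
def RawBound (n : ℕ) : Prop := ∀ r : ℝ → ℝ, Prof r → NleB n r →
  2 * (∫ s in (0 : ℝ)..1, cc s ^ n *
      (rawL n s (ll n r s) (kk n r s) + (Phi (tau n r s) - Phi s))) ≤ w n * UX n r

/-- the weighted Poincaré inequality in `JJ`-form (hypothesis `hW` of `master2`) -/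
theorem WR.wpoinc {n : ℕ} (hn : 5 ≤ n) {r : ℝ → ℝ} (hr : Prof r) :
    0 ≤ JJ n (fun s => cc s ^ 2 * kk n r s ^ 2 -
      2 * ((n : ℝ) - 3) * (Y s * (ll n r s - lam n r) ^ 2)) := by
  obtain ⟨k, hk⟩ : ∃ k, n = k + 3 := ⟨n - 3, by omega⟩
  have hl := continuousOn_ll hr n
  have hlam := JJ_lam hr (n := n) (by omega)
  have e0 : JJ n (fun s => Y s * (ll n r s - lam n r)) =
      ∫ s in (0 : ℝ)..1, s ^ 2 * Real.sqrt (1 - s ^ 2) ^ k * (ll n r s - lam n r) := by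
    refine JJ_of fun s hs => ?_
    have h1 := pow_mul_Y (n := n) (by omega) hs
    have e2 : n - 3 = k := by omega
    rw [e2] at h1
    have h2 : Real.sqrt (1 - s ^ 2) = cc s := rfl
    rw [h2, ← h1]; ring
  rw [e0] at hlam
  have hkk : ∀ s ∈ Ioo (0 : ℝ) 1, s ^ 2 * Real.sqrt (1 - s ^ 2) ^ (k + 4) * (kk n r s / s) ^ 2 =
      cc s ^ (n - 1) * (cc s ^ 2 * kk n r s ^ 2) := by
    intro s hs
    have e2 : n - 1 = k + 2 := by omega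
    have h2 : Real.sqrt (1 - s ^ 2) = cc s := rfl
    rw [h2, e2]
    have := hs.1.ne'
    have e5 : cc s ^ (k + 4) = cc s ^ (k + 2) * cc s ^ 2 := by rw [← pow_add]
    rw [e5]
    field_simp
  have n1 := NI_ckk_sq hr hn
  have hi : IntervalIntegrable (fun s => s ^ 2 * Real.sqrt (1 - s ^ 2) ^ (k + 4) * (kk n r s / s) ^ 2)
      volume 0 1 := by
    refine IntervalIntegrable.congr_ae n1 ?_
    rw [uIoc_of_le (by norm_num), ← restrict_Ioo_eq_restrict_Ioc, EventuallyEq,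
      ae_restrict_iff' measurableSet_Ioo]
    exact Eventually.of_forall fun s hs => (hkk s hs).symm
  have h := Poinc.wpoincare_mean k (by omega) hl (fun s hs => hasDerivAt_ll hr n hs) hi hlam
  have n2 : NI n (fun s => Y s * (ll n r s - lam n r) ^ 2) :=
    NI_Y (by omega) ((hl.sub continuousOn_const).pow 2)
  rw [JJ_sub n1 (n2.smul _), JJ_smul]
  have e3 : JJ n (fun s => cc s ^ 2 * kk n r s ^ 2) =
      ∫ s in (0 : ℝ)..1, s ^ 2 * Real.sqrt (1 - s ^ 2) ^ (k + 4) * (kk n r s / s) ^ 2 :=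
    JJ_of fun s hs => hkk s hs
  have e4 : JJ n (fun s => Y s * (ll n r s - lam n r) ^ 2) =
      ∫ s in (0 : ℝ)..1, s ^ 2 * Real.sqrt (1 - s ^ 2) ^ k * (ll n r s - lam n r) ^ 2 := by
    refine JJ_of fun s hs => ?_
    have h1 := pow_mul_Y (n := n) (by omega) hs
    have e2 : n - 3 = k := by omega
    rw [e2] at h1
    have h2 : Real.sqrt (1 - s ^ 2) = cc s := rfl
    rw [h2, ← h1]; ring
  have hnR : (n : ℝ) = k + 3 := by rw [hk]; push_cast; ring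
  rw [e3, e4, hnR]
  have : (k : ℝ) + 3 - 3 = k := by ring
  rw [this]
  linarith

section

variable {n : ℕ} {r : ℝ → ℝ}

lemma PP_lm (μ σ θ lm s l k : ℝ) : PP n μ σ θ 0 lm s l k = PP n μ σ θ 0 0 s l k := by
  unfold PP; ring

lemma PQ_lm (μ β₁ β₂ θ lm s l k : ℝ) : PQ n μ β₁ β₂ θ 0 lm s l k = PQ n μ β₁ β₂ θ 0 0 s l k := by
  unfold PQ; ring

/-- conclusion of the one dimensional lemma for `r` -/
def Concl (n : ℕ) (r : ℝ → ℝ) : Prop :=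
  0 ≤ UX n r ∧ (UX n r = 0 → ∃ a : ℝ, ∀ s ∈ Icc (-1 : ℝ) 1, r s = a * Real.sqrt (1 - s ^ 2))

/-- case I, uncapped: `-(n+1)/σ ≤ λ ≤ 0` -/
theorem concl_caseI (hn : 5 ≤ n) (hU : RawBound n) (hr : Prof r) (hN : NleB n r) {σ θ : ℝ} (hσ : 0 < σ)
    (hlamL : -((n : ℝ) + 1) / σ ≤ lam n r) (hlam : lam n r ≤ 0)
    (hI : ∀ s ∈ Ioo (0 : ℝ) 1, 0 ≤ PP n 0 σ θ 0 0 s (ll n r s) (kk n r s) ∧
      (PP n 0 σ θ 0 0 s (ll n r s) (kk n r s) = 0 → ll n r s = 0)) : Concl n r := by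
  have hU1 := hU r hr hN
  have n0 : NI n (fun _ => (0 : ℝ)) := NI_cont continuousOn_const
  have j0 : JJ n (fun _ => (0 : ℝ)) = 0 := by unfold JJ; simp
  rw [div_le_iff₀ hσ] at hlamL
  refine master hr hn hN (μ := 0) (σ := σ) (θ := θ) (ξ := 0) le_rfl hσ.le ?_ n0
    (U := UX n r) (by rw [j0, add_zero]; exact hU1) ?_ ?_
  · have : 0 ≤ (-(lam n r)) * (((n : ℝ) + 1) + σ * lam n r) :=
      mul_nonneg (by linarith) (by linarith)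
    linarith
  · intro s hs
    rw [PP_lm, add_zero]
    exact (hI s hs).1
  · intro s hs h
    rw [PP_lm, add_zero] at h
    exact (hI s hs).2 h

/-- case II, uncapped: `0 ≤ λ ≤ Λ` -/
theorem concl_caseII (hn : 5 ≤ n) (hU : RawBound n) (hr : Prof r) (hN : NleB n r) {σ θ Λ : ℝ}
    (hσ : 0 ≤ σ) (hΛ : 0 ≤ Λ) (hlamU : lam n r ≤ Λ) (hlam : 0 ≤ lam n r)
    (hII : ∀ s ∈ Ioo (0 : ℝ) 1,
      0 ≤ PP n (((n : ℝ) + 1 + σ * Λ) / ((n : ℝ) - 1)) σ θ 0 0 s (ll n r s) (kk n r s) ∧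
      (PP n (((n : ℝ) + 1 + σ * Λ) / ((n : ℝ) - 1)) σ θ 0 0 s (ll n r s) (kk n r s) = 0 →
        ll n r s = 0)) : Concl n r := by
  have hn1 : (0 : ℝ) < (n : ℝ) - 1 := by
    have : (5 : ℝ) ≤ n := by exact_mod_cast hn
    linarith
  have hU1 := hU r hr hN
  have n0 : NI n (fun _ => (0 : ℝ)) := NI_cont continuousOn_const
  have j0 : JJ n (fun _ => (0 : ℝ)) = 0 := by unfold JJ; simp
  have hμ : (((n : ℝ) + 1 + σ * Λ) / ((n : ℝ) - 1)) * ((n : ℝ) - 1) = (n : ℝ) + 1 + σ * Λ :=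
    div_mul_cancel₀ _ hn1.ne'
  refine master hr hn hN (μ := ((n : ℝ) + 1 + σ * Λ) / ((n : ℝ) - 1)) (σ := σ) (θ := θ) (ξ := 0)
    (div_nonneg (by positivity) hn1.le) hσ ?_ n0
    (U := UX n r) (by rw [j0, add_zero]; exact hU1) ?_ ?_
  · rw [hμ]
    have : 0 ≤ σ * (Λ - lam n r) * lam n r :=
      mul_nonneg (mul_nonneg hσ (by linarith)) hlam
    linarith
  · intro s hs
    rw [PP_lm, add_zero]
    exact (hII s hs).1
  · intro s hs h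
    rw [PP_lm, add_zero] at h
    exact (hII s hs).2 h

/-- case II, uncapped, weighted Poincaré (`σ = 2(n-3)β`) : any `μ ≥ (n+1+σΛ)/(n-1)` -/
theorem concl_caseII_w (hn : 5 ≤ n) (hU : RawBound n) (hr : Prof r) (hN : NleB n r) {β θ Λ μ : ℝ}
    (hβ : 0 ≤ β) (hlamU : lam n r ≤ Λ) (hlam : 0 ≤ lam n r) (hμ0 : 0 ≤ μ)
    (hμ : (n : ℝ) + 1 + 2 * ((n : ℝ) - 3) * β * Λ ≤ μ * ((n : ℝ) - 1))
    (hII : ∀ s ∈ Ioo (0 : ℝ) 1, 0 ≤ PQ n μ 0 β θ 0 0 s (ll n r s) (kk n r s) ∧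
      (PQ n μ 0 β θ 0 0 s (ll n r s) (kk n r s) = 0 → ll n r s = 0)) : Concl n r := by
  have hn5 : (5 : ℝ) ≤ n := by exact_mod_cast hn
  have hU1 := hU r hr hN
  have n0 : NI n (fun _ => (0 : ℝ)) := NI_cont continuousOn_const
  have j0 : JJ n (fun _ => (0 : ℝ)) = 0 := by unfold JJ; simp
  refine master2 hr hn hN (μ := μ) (β₁ := 0) (β₂ := β) (θ := θ) (ξ := 0) hμ0 le_rfl hβ
    (fun _ => wpoinc hn hr) ?_ n0 (U := UX n r) (by rw [j0, add_zero]; exact hU1) ?_ ?_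
  · have h1 : sg n 0 β = 2 * ((n : ℝ) - 3) * β := by unfold sg; ring
    rw [h1]
    have h2 : 0 ≤ 2 * ((n : ℝ) - 3) * β := by
      have : 0 ≤ (n : ℝ) - 3 := by linarith
      positivity
    have h3 : 2 * ((n : ℝ) - 3) * β * lam n r ≤ 2 * ((n : ℝ) - 3) * β * Λ :=
      mul_le_mul_of_nonneg_left hlamU h2
    exact mul_nonneg (by linarith) hlam
  · intro s hs
    rw [PQ_lm, add_zero]
    exact (hII s hs).1
  · intro s hs h
    rw [PQ_lm, add_zero] at h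
    exact (hII s hs).2 h

end

theorem oneD_of_concl {n : ℕ} (hn : 1 ≤ n) (h : ∀ r : ℝ → ℝ, Prof r → NleB n r → Concl n r) :
    OneD n := OneD_of_XL hn h

theorem oneD_of_blocks {n : ℕ} (hn : 5 ≤ n) (hU : RawBound n)
    {σ₁ θ₁ : ℝ} (hσ₁ : 0 < σ₁)
    (hlamL : ∀ r : ℝ → ℝ, Prof r → NleB n r → lam n r ≤ 0 → -((n : ℝ) + 1) / σ₁ ≤ lam n r)
    {Λ : ℝ} (hlamU : ∀ r : ℝ → ℝ, Prof r → NleB n r → lam n r ≤ Λ)
    {Reg : ℝ → ℝ → ℝ → Prop}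
    (hReg : ∀ r : ℝ → ℝ, Prof r → NleB n r → ∀ s ∈ Ioo (0 : ℝ) 1, Reg s (ll n r s) (kk n r s))
    (hI : ∀ s ∈ Ioo (0 : ℝ) 1, ∀ l k : ℝ, Reg s l k →
      0 ≤ PP n 0 σ₁ θ₁ 0 0 s l k ∧ (PP n 0 σ₁ θ₁ 0 0 s l k = 0 → l = 0))
    {σ θ : ℝ} (hσ : 0 ≤ σ) (hΛ : 0 ≤ Λ)
    (hII : ∀ s ∈ Ioo (0 : ℝ) 1, ∀ l k : ℝ, Reg s l k →
      0 ≤ PP n (((n : ℝ) + 1 + σ * Λ) / ((n : ℝ) - 1)) σ θ 0 0 s l k ∧
      (PP n (((n : ℝ) + 1 + σ * Λ) / ((n : ℝ) - 1)) σ θ 0 0 s l k = 0 → l = 0)) : OneD n := by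
  refine oneD_of_concl (by omega) fun r hr hN => ?_
  rcases le_total (lam n r) 0 with hlam | hlam
  · exact concl_caseI hn hU hr hN hσ₁ (hlamL r hr hN hlam) hlam
      fun s hs => hI s hs _ _ (hReg r hr hN s hs)
  · exact concl_caseII hn hU hr hN hσ hΛ (hlamU r hr hN) hlam
      fun s hs => hII s hs _ _ (hReg r hr hN s hs)

theorem oneD_of_blocks_w {n : ℕ} (hn : 5 ≤ n) (hU : RawBound n)
    {σ₁ θ₁ : ℝ} (hσ₁ : 0 < σ₁)
    (hlamL : ∀ r : ℝ → ℝ, Prof r → NleB n r → lam n r ≤ 0 → -((n : ℝ) + 1) / σ₁ ≤ lam n r)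
    {Λ : ℝ} (hlamU : ∀ r : ℝ → ℝ, Prof r → NleB n r → lam n r ≤ Λ)
    {Reg : ℝ → ℝ → ℝ → Prop}
    (hReg : ∀ r : ℝ → ℝ, Prof r → NleB n r → ∀ s ∈ Ioo (0 : ℝ) 1, Reg s (ll n r s) (kk n r s))
    (hI : ∀ s ∈ Ioo (0 : ℝ) 1, ∀ l k : ℝ, Reg s l k →
      0 ≤ PP n 0 σ₁ θ₁ 0 0 s l k ∧ (PP n 0 σ₁ θ₁ 0 0 s l k = 0 → l = 0))
    {β θ μ : ℝ} (hβ : 0 ≤ β) (hμ0 : 0 ≤ μ)
    (hμ : (n : ℝ) + 1 + 2 * ((n : ℝ) - 3) * β * Λ ≤ μ * ((n : ℝ) - 1))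
    (hII : ∀ s ∈ Ioo (0 : ℝ) 1, ∀ l k : ℝ, Reg s l k →
      0 ≤ PQ n μ 0 β θ 0 0 s l k ∧ (PQ n μ 0 β θ 0 0 s l k = 0 → l = 0)) : OneD n := by
  refine oneD_of_concl (by omega) fun r hr hN => ?_
  rcases le_total (lam n r) 0 with hlam | hlam
  · exact concl_caseI hn hU hr hN hσ₁ (hlamL r hr hN hlam) hlam
      fun s hs => hI s hs _ _ (hReg r hr hN s hs)
  · exact concl_caseII_w hn hU hr hN hβ (hlamU r hr hN) hlam hμ0 hμ
      fun s hs => hII s hs _ _ (hReg r hr hN s hs)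

end Crest.Agent.R230
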