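import Crest.Agent.R230.LamBound
import Crest.Agent.R230.OneDAll

/-!
# Row 230: the case `λ ≤ -2` of the one dimensional lemma

The lines `t p / 4 - t² / 2 ≤ xl t p` give `UX ≥ 1/4 - (n+4)/2 E_f t²`; `T ≤ e^λ (4/w_{n-1}) (1/(n+1) + s²)`, hence
`E_f t² ≤ 15.3 e^{2λ}/(n+1)`. No constraint, no legality.
-/

set_option autoImplicit false

open MeasureTheory Set Filter Topology
open scoped Pointwise ENNReal

namespace Crest.Agent.R230.LamB

open WR

/-! ### quadratic lines -/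

lemma poly_aux {v : ℝ} (h0 : 0 ≤ v) : 16 * v ^ 2 * (1 - v) ≤ (1 + v) * (1 + v ^ 2) ^ 2 := by
  have h1 : 0 ≤ (v + 9 / 50) * (v - 12 / 25) ^ 2 := by positivity
  have h2 : 0 ≤ v ^ 4 := by positivity
  have h3 : 0 ≤ v ^ 5 := by positivity
  nlinarith

lemma log_le_of_one_le {z : ℝ} (hz : 1 ≤ z) : Real.log z ≤ (z - 1) / Real.sqrt z := by
  have hz0 : 0 < z := by linarith
  set y := Real.sqrt z with hy
  have hy0 : 0 < y := Real.sqrt_pos.2 hz0
  have hy2 : y ^ 2 = z := Real.sq_sqrt hz0.le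
  have hy1 : 1 ≤ y := by
    rw [hy, Real.one_le_sqrt]; exact hz
  have h1 : Real.log z = 2 * Real.log y := by rw [← hy2, Real.log_pow]; push_cast; ring
  have h2 : Real.log y ≤ (y - y⁻¹) / 2 := by
    rw [← Real.sinh_log hy0]
    exact Real.self_le_sinh_iff.2 (Real.log_nonneg hy1)
  rw [h1, ← hy2]
  have h3 : (y ^ 2 - 1) / y = y - y⁻¹ := by field_simp
  rw [h3]
  linarith

/-- `t q / 4 - t² / 2 ≤ xl t q` -/
theorem xl_ge {t q : ℝ} (ht : t ∈ Ioo (0 : ℝ) 1) (hq : q ∈ Icc (0 : ℝ) 1) :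
    -(t ^ 2 / 2) + t / 4 * q ≤ xl t q := by
  have ht0 := ht.1
  rcases hq.1.eq_or_lt with h0 | h0
  · rw [← h0]
    have : xl t 0 = 0 := by unfold xl; simp
    rw [this]
    nlinarith
  have htq : t * q < 1 := by nlinarith [ht.2, hq.2]
  rw [xl_eq htq]
  set C := Real.sqrt (1 - t * q) with hC
  have hC0 : 0 < C := Real.sqrt_pos.2 (by linarith)
  have hC2 : C ^ 2 = 1 - t * q := Real.sq_sqrt (by linarith)
  have htq0 : 0 < t * q := mul_pos ht0 h0
  have hC1 : C < 1 := by nlinarith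
  have hinv : 1 / C - 1 = t * q / (C * (1 + C)) := by
    rw [eq_div_iff (by positivity)]
    field_simp
    nlinarith
  rcases le_total t q with h | h
  · -- q ≥ t
    have h1 : 1 - t / q ≤ Real.log q - Real.log t := by
      have := Real.one_sub_inv_le_log_of_pos (show 0 < q / t by positivity)
      rw [Real.log_div h0.ne' ht0.ne', inv_div] at this
      exact this
    have h2 : t * q / 2 ≤ 1 / C - 1 := by
      rw [hinv]
      apply div_le_div_of_nonneg_left htq0.le (by positivity)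
      nlinarith
    have h3 : 0 ≤ 1 - t / q := by rw [sub_nonneg, div_le_one h0]; exact h
    have h4 : t * q / 2 * (1 - t / q) ≤ (1 / C - 1) * (Real.log q - Real.log t) :=
      mul_le_mul h2 h1 h3 (by linarith)
    have h5 : t * q / 2 * (1 - t / q) = (t * q - t ^ 2) / 2 := by field_simp
    rw [h5] at h4
    linarith
  · -- q ≤ t
    have hqt : q / t ≤ 1 := (div_le_one ht0).2 h
    set v := Real.sqrt (1 - q / t) with hv
    have hv0 : 0 ≤ v := Real.sqrt_nonneg _
    have hv2 : v ^ 2 = 1 - q / t := Real.sq_sqrt (by linarith)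
    have hq' : q = t * (1 - v ^ 2) := by rw [hv2]; field_simp; ring
    have hvlt : v ^ 2 < 1 := by rw [hv2]; have : 0 < q / t := by positivity
                                linarith
    have hv1 : v < 1 := by nlinarith
    rcases hv0.eq_or_lt with hv00 | hvpos
    · -- v = 0, q = t
      have : q = t := by rw [hq', ← hv00]; ring
      rw [this]
      nlinarith
    have h1 : Real.log t - Real.log q ≤ (t - q) / Real.sqrt (t * q) := by
      have := log_le_of_one_le (z := t / q) (by rw [one_le_div h0]; exact h)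
      rw [Real.log_div ht0.ne' h0.ne'] at this
      refine this.trans (le_of_eq ?_)
      have e1 : Real.sqrt (t / q) = Real.sqrt (t * q) / q := by
        rw [eq_div_iff h0.ne', ← Real.sqrt_sq h0.le, ← Real.sqrt_mul (by positivity), Real.sqrt_sq h0.le]
        congr 1; field_simp
      rw [e1]
      have : 0 < Real.sqrt (t * q) := Real.sqrt_pos.2 htq0
      field_simp
    -- √(tq) = t √(1-v²)
    set w := Real.sqrt (1 - v ^ 2) with hw
    have hw0 : 0 < w := Real.sqrt_pos.2 (by linarith)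
    have hw2 : w ^ 2 = 1 - v ^ 2 := Real.sq_sqrt (by linarith)
    have e2 : Real.sqrt (t * q) = t * w := by
      rw [hq', show t * (t * (1 - v ^ 2)) = (t * w) ^ 2 by rw [mul_pow, hw2]; ring]
      exact Real.sqrt_sq (by positivity)
    rw [e2] at h1
    have e3 : t - q = t * v ^ 2 := by rw [hq']; ring
    rw [e3] at h1
    have h1' : Real.log t - Real.log q ≤ v ^ 2 / w := by
      refine h1.trans (le_of_eq ?_)
      field_simp
    -- C ≥ v
    have hCv : v ≤ C := by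
      apply Real.sqrt_le_sqrt
      have : t * q ≤ q / t := by
        rw [le_div_iff₀ ht0]; nlinarith [ht.2]
      linarith
    have h2 : 1 / C - 1 ≤ t ^ 2 * w ^ 2 / (v * (1 + v)) := by
      rw [hinv, hq', hw2]
      have e4 : t * (t * (1 - v ^ 2)) = t ^ 2 * (1 - v ^ 2) := by ring
      rw [e4]
      apply div_le_div_of_nonneg_left (by have : 0 ≤ 1 - v ^ 2 := by linarith
                                          positivity) (by positivity)
      exact mul_le_mul hCv (by linarith) (by linarith) hC0.le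
    have hL0 : 0 ≤ Real.log t - Real.log q := sub_nonneg.2 (Real.log_le_log h0 h)
    have h3 : (1 / C - 1) * (Real.log t - Real.log q) ≤ t ^ 2 * w ^ 2 / (v * (1 + v)) * (v ^ 2 / w) :=
      mul_le_mul h2 h1' hL0 (by positivity)
    have e5 : t ^ 2 * w ^ 2 / (v * (1 + v)) * (v ^ 2 / w) = t ^ 2 * (v * w / (1 + v)) := by
      field_simp
    rw [e5] at h3
    have h4 : v * w / (1 + v) ≤ (1 + v ^ 2) / 4 := by
      have h5 : (v * w) ^ 2 ≤ ((1 + v ^ 2) / 4 * (1 + v)) ^ 2 := by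
        have h6 := poly_aux hv0
        have h7 : (v * w) ^ 2 = v ^ 2 * ((1 - v) * (1 + v)) := by rw [mul_pow, hw2]; ring
        rw [h7]
        have h8 := mul_le_mul_of_nonneg_right h6 (show 0 ≤ 1 + v by linarith)
        nlinarith
      rw [div_le_iff₀ (by positivity)]
      exact le_of_sq_le_sq h5 (by positivity)
    have h5 := mul_le_mul_of_nonneg_left h4 (sq_nonneg t)
    have h6 : t / 4 * q = t ^ 2 / 4 * (1 - v ^ 2) := by rw [hq']; ring
    rw [h6]
    nlinarith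


lemma Phi_ge {t : ℝ} (ht : t ∈ Icc (-1 : ℝ) 1) : (1 - t ^ 2) / 2 ≤ Phi t := by
  have h1 := cc_nonneg t
  have h2 := cc_le_one t
  have h3 := cc_sq ht
  unfold Phi
  rw [← h3, div_le_div_iff₀ (by norm_num) (by linarith)]
  nlinarith [mul_nonneg h1 h1]

lemma Phibar_le (n : ℕ) : Phibar n ≤ 1 / 2 := by
  have hw := w_pos' n
  unfold Phibar
  rw [div_le_iff₀ hw]
  have h : ∫ s in (-1 : ℝ)..1, cc s ^ n * Phi s ≤ ∫ s in (-1 : ℝ)..1, cc s ^ n * (1 / 2) := by
    refine intervalIntegral.integral_mono_on (by norm_num) ?_ ?_ fun s _ =>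
      mul_le_mul_of_nonneg_left (Phi_le s) (pow_nonneg (cc_nonneg s) n)
    · exact ((cc_continuous.pow n).mul Phi_continuous).intervalIntegrable _ _
    · exact ((cc_continuous.pow n).mul continuous_const).intervalIntegrable _ _
  rw [intervalIntegral.integral_mul_const] at h
  have : w n = ∫ s in (-1 : ℝ)..1, cc s ^ n := w_eq n
  rw [← this] at h
  linarith

/-- `E_f t²` -/
noncomputable def Ef2 (n : ℕ) (r : ℝ → ℝ) : ℝ := (∫ t in (-1 : ℝ)..1, r t ^ n * t ^ 2) / mom n r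

theorem UX_ge_quad {n : ℕ} (hn : 1 ≤ n) {r : ℝ → ℝ} (hr : Prof r) :
    1 / 4 - ((n : ℝ) + 4) / 2 * Ef2 n r ≤ UX n r := by
  have hm := hr.mom_pos' n
  have hrc : ContinuousOn r (Icc 0 1) := hr.cont.mono (Icc_subset_Icc_left (by norm_num))
  have hint : ∀ g : ℝ → ℝ, Continuous g → IntervalIntegrable (fun t => r t ^ n * g t) volume 0 1 :=
    fun g hg => ((hrc.pow n).mul hg.continuousOn).intervalIntegrable_of_Icc (by norm_num)
  have hint2 : ∀ g : ℝ → ℝ, Continuous g → IntervalIntegrable (fun t => r t ^ n * g t) volume (-1) 1 :=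
    fun g hg => ((hr.cont.pow n).mul hg.continuousOn).intervalIntegrable_of_Icc (by norm_num)
  have key := EP_half_ge hr hn (η := M1) M1_continuous.continuousOn
    (fun t _ p _ => M1_neg) (A := fun t => -(t ^ 2 / 2)) (u := fun t => t / 4 - t ^ 3 / 2)
    (u' := fun t => 1 / 4 - 3 / 2 * t ^ 2) (by fun_prop) (by norm_num) (by rw [M1_one_one]; norm_num)
    (fun t _ => by
      have h1 := ((hasDerivAt_id t).div_const 4).fun_sub ((hasDerivAt_pow 3 t).div_const 2)
      exact (h1.congr_deriv (by push_cast; ring)).hasDerivWithinAt)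
    (hint _ (by fun_prop)) (hint _ (by fun_prop))
    (fun t ht p hp => by
      have e : (fun t : ℝ => t / 4 - t ^ 3 / 2) t - t * (fun t : ℝ => -(t ^ 2 / 2)) t = t / 4 := by
        simp only; ring
      simp only at e ⊢
      rw [e]
      refine line_le_M1 ⟨ht.1.le, ht.2.le⟩ (fun q hq => xl_ge ht hq) (by nlinarith [ht.1])
        ⟨by linarith [hp.1], hp.2⟩)
  -- integrals
  have e1 : ∫ t in (-1 : ℝ)..1, r t ^ n * t ^ 2 = 2 * ∫ t in (0 : ℝ)..1, r t ^ n * t ^ 2 :=
    half_int (hint2 _ (by fun_prop)) fun s hs => by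
      simp only [hr.even s ⟨by linarith [hs.1], hs.2.le⟩, neg_sq]
  have e2 : ∫ t in (0 : ℝ)..1, r t ^ n * ((n : ℝ) * -(t ^ 2 / 2) + (1 / 4 - 3 / 2 * t ^ 2)) =
      1 / 4 * (∫ t in (0 : ℝ)..1, r t ^ n) - ((n : ℝ) + 3) / 2 * ∫ t in (0 : ℝ)..1, r t ^ n * t ^ 2 := by
    rw [← intervalIntegral.integral_const_mul, ← intervalIntegral.integral_const_mul,
      ← intervalIntegral.integral_sub]
    · congr 1; ext t; ring
    · have := (hint (fun _ => 1) continuous_const).const_mul (1 / 4 : ℝ)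
      simpa using this
    · exact (hint _ (by fun_prop)).const_mul _
  rw [e2] at key
  have e3 := mom_half hr n
  have hPhi : ∫ s in (-1 : ℝ)..1, r s ^ n * ((1 - s ^ 2) / 2) ≤ ∫ s in (-1 : ℝ)..1, r s ^ n * Phi s := by
    refine intervalIntegral.integral_mono_on (by norm_num) (hint2 _ (by fun_prop)) (hint2 _ Phi_continuous)
      fun s hs => mul_le_mul_of_nonneg_left (Phi_ge hs) (pow_nonneg (hr.nonneg' hs) n)
  have e4 : ∫ s in (-1 : ℝ)..1, r s ^ n * ((1 - s ^ 2) / 2) =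
      1 / 2 * mom n r - 1 / 2 * ∫ t in (-1 : ℝ)..1, r t ^ n * t ^ 2 := by
    unfold mom
    rw [← intervalIntegral.integral_const_mul, ← intervalIntegral.integral_const_mul,
      ← intervalIntegral.integral_sub]
    · congr 1; ext t; ring
    · have := (hint2 (fun _ => 1) continuous_const).const_mul (1 / 2 : ℝ)
      simpa using this
    · exact (hint2 _ (by fun_prop)).const_mul _
  rw [e4] at hPhi
  have hb := Phibar_le n
  set I2 := ∫ t in (-1 : ℝ)..1, r t ^ n * t ^ 2 with hI2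
  have h5 : 1 / 4 * mom n r - ((n : ℝ) + 3) / 2 * I2 ≤ ((n : ℝ) + 1) * mom n r * EP n r M1 := by
    have e6 : 1 / 4 * mom n r - ((n : ℝ) + 3) / 2 * I2 = 2 * (1 / 4 * (∫ t in (0 : ℝ)..1, r t ^ n) -
        ((n : ℝ) + 3) / 2 * ∫ t in (0 : ℝ)..1, r t ^ n * t ^ 2) := by rw [e1, e3]; ring
    rw [e6]
    exact key
  have h6 : 1 / 4 - ((n : ℝ) + 3) / 2 * (I2 / mom n r) ≤ ((n : ℝ) + 1) * EP n r M1 := by
    have e5 : 1 / 4 - ((n : ℝ) + 3) / 2 * (I2 / mom n r) = (1 / 4 * mom n r - ((n : ℝ) + 3) / 2 * I2) / mom n r := by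
      field_simp
    rw [e5, div_le_iff₀ hm]
    linarith
  have h7 : 1 / 2 - 1 / 2 * (I2 / mom n r) ≤ (∫ s in (-1 : ℝ)..1, r s ^ n * Phi s) / mom n r := by
    have e5 : 1 / 2 - 1 / 2 * (I2 / mom n r) = (1 / 2 * mom n r - 1 / 2 * I2) / mom n r := by
      field_simp
    rw [e5]
    exact div_le_div_of_nonneg_right hPhi hm.le
  unfold UX Ef2
  rw [← hI2]
  linarith


/-- `T/(1-c)` is nonincreasing -/
lemma tau_div_anti {r : ℝ → ℝ} (hr : Prof r) (n : ℕ) {s : ℝ} (hs : 0 < s) :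
    AntitoneOn (fun x => tau n r x / (1 - cc x)) (Icc s 1) := by
  have hpos : ∀ x ∈ Icc s 1, 0 < 1 - cc x := by
    intro x hx
    have : cc x < 1 := by
      unfold cc
      rw [Real.sqrt_lt' one_pos]
      nlinarith [hx.1]
    linarith
  have hder : ∀ x ∈ Ioo s 1, HasDerivAt (fun x => tau n r x / (1 - cc x))
      ((dtau n r x * (1 - cc x) - tau n r x * -(-x / cc x)) / (1 - cc x) ^ 2) x := by
    intro x hx
    have hx' : x ∈ Ioo (-1 : ℝ) 1 := ⟨by linarith [hx.1], hx.2⟩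
    exact (hasDerivAt_tau hr n hx').fun_div ((hasDerivAt_cc hx').const_sub 1)
      (hpos x ⟨hx.1.le, hx.2.le⟩).ne'
  refine antitoneOn_of_deriv_nonpos (convex_Icc _ _) ?_ ?_ ?_
  · refine ContinuousOn.div (tau_continuous hr n).continuousOn
      (continuous_const.sub cc_continuous).continuousOn (fun x hx => (hpos x hx).ne')
  · intro x hx
    rw [interior_Icc] at hx
    exact (hder x hx).differentiableAt.differentiableWithinAt
  · intro x hx
    rw [interior_Icc] at hx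
    rw [(hder x hx).deriv]
    have hx' : x ∈ Ioo (-1 : ℝ) 1 := ⟨by linarith [hx.1], hx.2⟩
    have hc : 0 < cc x := cc_pos hx'
    have h : dtau n r x * ((1 - cc x) * cc x) ≤ x * tau n r x := dtau_mul_le_tau hr n (s := x) ⟨hs.trans hx.1, hx.2⟩
    refine div_nonpos_of_nonpos_of_nonneg ?_ (by positivity)
    have e : tau n r x * -(-x / cc x) = x * tau n r x / cc x := by
      field_simp
    rw [e, sub_nonpos, le_div_iff₀ hc]
    linarith

/-- `T(s) ≤ (T(x)/x) (x + 2 s²/x)` -/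
lemma tau_le_tau {r : ℝ → ℝ} (hr : Prof r) (n : ℕ) {s x : ℝ} (hs : s ∈ Ioo (0 : ℝ) 1) (hx : x ∈ Ioo (0 : ℝ) 1) :
    tau n r s ≤ Real.exp (ll n r x) * (x + 2 * s ^ 2 / x) := by
  have hTx := tau_pos hr n (s := x) ⟨hx.1, hx.2.le⟩
  have hTs := tau_pos hr n (s := s) ⟨hs.1, hs.2.le⟩
  rw [exp_ll hr n ⟨hx.1, hx.2.le⟩]
  have e : tau n r x / x * (x + 2 * s ^ 2 / x) = tau n r x * (1 + 2 * s ^ 2 / x ^ 2) := by
    have := hx.1.ne'
    field_simp
  rw [e]
  rcases le_total s x with h | h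
  · have h1 : tau n r s ≤ tau n r x := (tau_strictMonoOn hr n).monotoneOn
      ⟨by linarith [hs.1], hs.2.le⟩ ⟨by linarith [hx.1], hx.2.le⟩ h
    have h2 : 0 ≤ 2 * s ^ 2 / x ^ 2 := by positivity
    nlinarith
  · have h1 := tau_div_anti hr n hx.1 (show x ∈ Icc x 1 from ⟨le_rfl, hx.2.le⟩)
      (show s ∈ Icc x 1 from ⟨h, hs.2.le⟩) h
    simp only at h1
    have hcx : cc x < 1 := by
      unfold cc
      rw [Real.sqrt_lt' one_pos]
      nlinarith [hx.1]
    have hcs : cc s < 1 := by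
      unfold cc
      rw [Real.sqrt_lt' one_pos]
      nlinarith [hs.1]
    have hx2 : cc x ^ 2 = 1 - x ^ 2 := cc_sq' hx
    have hs2 : cc s ^ 2 = 1 - s ^ 2 := cc_sq' hs
    have hx0 := cc_nonneg x
    have hs0 := cc_nonneg s
    rw [div_le_div_iff₀ (by linarith) (by linarith)] at h1
    -- (1-c_s)/(1-c_x) ≤ 2 s²/x²
    have h3 : (1 - cc s) * x ^ 2 ≤ 2 * s ^ 2 * (1 - cc x) := by
      have e1 : x ^ 2 = (1 - cc x) * (1 + cc x) := by nlinarith
      have e2 : s ^ 2 = (1 - cc s) * (1 + cc s) := by nlinarith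
      rw [e1, e2]
      have h4 : 0 ≤ (1 - cc s) * (1 - cc x) := mul_nonneg (by linarith) (by linarith)
      have h5 : 1 + cc x ≤ 2 * (1 + cc s) := by linarith
      nlinarith [mul_le_mul_of_nonneg_left h5 h4]
    have h6 : tau n r s ≤ tau n r x * (2 * s ^ 2 / x ^ 2) := by
      rw [mul_div_assoc', le_div_iff₀ (by have := hx.1; positivity)]
      have h7 : 0 < 1 - cc x := by linarith
      have h8 : (1 - cc x) * (tau n r s * x ^ 2) ≤ (1 - cc x) * (tau n r x * (2 * s ^ 2)) := by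
        calc (1 - cc x) * (tau n r s * x ^ 2) = (tau n r s * (1 - cc x)) * x ^ 2 := by ring
          _ ≤ (tau n r x * (1 - cc s)) * x ^ 2 := mul_le_mul_of_nonneg_right h1 (sq_nonneg _)
          _ = tau n r x * ((1 - cc s) * x ^ 2) := by ring
          _ ≤ tau n r x * (2 * s ^ 2 * (1 - cc x)) := mul_le_mul_of_nonneg_left h3 hTx.le
          _ = _ := by ring
      exact le_of_mul_le_mul_left h8 h7
    have : tau n r x * (1 + 2 * s ^ 2 / x ^ 2) = tau n r x + tau n r x * (2 * s ^ 2 / x ^ 2) := by ring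
    rw [this]
    linarith

/-- `T(s) ≤ e^λ (4/w_{n-1}) (1/(n+1) + s²)` -/
theorem tau_le_lam {r : ℝ → ℝ} (hr : Prof r) {n : ℕ} (hn : 3 ≤ n) {s : ℝ} (hs : s ∈ Ioo (0 : ℝ) 1) :
    tau n r s ≤ Real.exp (lam n r) * (4 / w (n - 1) * (1 / (n + 1) + s ^ 2)) := by
  have hw := w_pos' (n - 1)
  have hnR : (3 : ℝ) ≤ n := by exact_mod_cast hn
  have hn1 : (0 : ℝ) < (n : ℝ) - 1 := by linarith
  set M : ℝ := 4 / w (n - 1) * (1 / (n + 1) + s ^ 2) with hM
  have hs0 := hs.1
  have hM0 : 0 < M := by positivity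
  have hTs := tau_pos hr n (s := s) ⟨hs.1, hs.2.le⟩
  have hl := continuousOn_ll hr n
  have n1 : NI n (fun x => Y x * ll n r x) := NI_Y hn hl
  have n2 : NI n (fun x => Y x * (1 : ℝ)) := NI_Y hn continuousOn_const
  have n3 : NI n (fun x => Y x * x) := NI_Y hn continuousOn_id
  have hinv : ∀ x ∈ Ioo (0 : ℝ) 1, x * cc x ^ (n - 3) = cc x ^ (n - 1) * (Y x * x⁻¹) := by
    intro x hx
    have h2 := pow_mul_Y (n := n) hn hx
    rw [← mul_assoc, h2]
    have := hx.1.ne'
    field_simp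
  have n4 : NI n (fun x => Y x * x⁻¹) := NI_of (g := fun x => x * cc x ^ (n - 3))
    ((continuous_id.mul (cc_continuous.pow _)).intervalIntegrable _ _) hinv
  have c3 : ((n - 3 : ℕ) : ℝ) + 2 = n - 1 := by rw [Nat.cast_sub hn]; push_cast; ring
  have c1 : ((n - 1 : ℕ) : ℝ) + 2 = n + 1 := by rw [Nat.cast_sub (by omega)]; push_cast; ring
  have i4 : JJ n (fun x => Y x * x⁻¹) = 1 / (n - 1) := by
    rw [JJ_of hinv, int_s_cpow, c3]
  have i3 : JJ n (fun x => Y x * x) = 1 / (n - 1) - 1 / (n + 1) := by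
    have e : ∀ x ∈ Ioo (0 : ℝ) 1, x * cc x ^ (n - 3) - x * cc x ^ (n - 1) = cc x ^ (n - 1) * (Y x * x) := by
      intro x hx
      have h2 := pow_mul_Y (n := n) hn hx
      have h3 : cc x ^ (n - 1) = cc x ^ (n - 3) * cc x ^ 2 := by rw [← pow_add]; congr 1; omega
      rw [← mul_assoc, h2, h3, cc_sq' hx]
      ring
    have hi : ∀ k : ℕ, IntervalIntegrable (fun x => x * cc x ^ k) volume 0 1 := fun k =>
      (continuous_id.mul (cc_continuous.pow _)).intervalIntegrable _ _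
    rw [JJ_of e, intervalIntegral.integral_sub (hi _) (hi _), int_s_cpow, int_s_cpow, c3, c1]
  have i2 := JJ_Y hn
  rw [JJ_one] at i2
  have i1 := lam_mul (r := r) hn
  -- pointwise: log T(s) Y ≤ ...
  have hpt : ∀ x ∈ Ioo (0 : ℝ) 1, Real.log (tau n r s) ≤
      ll n r x + (Real.log M - 1) + (1 / M) * (x + 2 * s ^ 2 * x⁻¹) := by
    intro x hx
    have h1 := tau_le_tau hr n hs hx
    have hx0 := hx.1
    have hz : 0 < x + 2 * s ^ 2 / x := by positivity
    have h2 := Real.log_le_log hTs h1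
    rw [Real.log_mul (Real.exp_pos _).ne' hz.ne', Real.log_exp] at h2
    have h3 := Real.log_le_sub_one_of_pos (show 0 < (x + 2 * s ^ 2 / x) / M by positivity)
    rw [Real.log_div hz.ne' hM0.ne'] at h3
    have h4 : (x + 2 * s ^ 2 / x) / M = (1 / M) * (x + 2 * s ^ 2 * x⁻¹) := by
      field_simp
    rw [h4] at h3
    linarith
  have hint : JJ n (fun x => Real.log (tau n r s) * (Y x * 1)) ≤
      JJ n (fun x => (Y x * ll n r x + (Real.log M - 1) * (Y x * 1)) +
        ((1 / M) * (Y x * x) + (2 * s ^ 2 / M) * (Y x * x⁻¹))) := by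
    refine JJ_mono (n2.smul _) ((n1.add (n2.smul _)).add ((n3.smul _).add (n4.smul _))) fun x hx => ?_
    have h1 := mul_le_mul_of_nonneg_left (hpt x hx) (Y_nonneg hx)
    calc Real.log (tau n r s) * (Y x * 1) = Y x * Real.log (tau n r s) := by ring
      _ ≤ _ := h1
      _ = _ := by ring
  rw [JJ_smul, JJ_add (n1.add (n2.smul _)) ((n3.smul _).add (n4.smul _)), JJ_add n1 (n2.smul _),
    JJ_add (n3.smul _) (n4.smul _), JJ_smul, JJ_smul, JJ_smul, i3, i4] at hint
  set j := JJ n (fun x => Y x * (1 : ℝ)) with hj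
  have hj0 : j = w (n - 1) / 2 / (n - 1) := by rw [eq_div_iff hn1.ne']; linarith
  have hlam : JJ n (fun x => Y x * ll n r x) = lam n r * j := by
    rw [hj0]
    have : JJ n (fun x => Y x * ll n r x) = lam n r * (w (n - 1) / 2) / (n - 1) := by
      rw [eq_div_iff hn1.ne']; linarith
    rw [this]; ring
  have hjp : 0 < j := by rw [hj0]; positivity
  have hfin : 1 / M * (1 / ((n : ℝ) - 1) - 1 / (n + 1)) + 2 * s ^ 2 / M * (1 / (n - 1)) = j := by
    have hn1' : (n : ℝ) - 1 ≠ 0 := hn1.ne'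
    have hw' := hw.ne'
    rw [hj0, hM]
    have h5 : 0 < 1 / ((n : ℝ) + 1) + s ^ 2 := by positivity
    field_simp
    ring
  have h6 : 1 / M * (1 / ((n : ℝ) - 1) - 1 / (n + 1)) + 2 * s ^ 2 / M * (1 / (n - 1)) = j := hfin
  rw [hlam] at hint
  have h7 : Real.log (tau n r s) * j ≤ (lam n r + Real.log M) * j := by linarith
  have h8 := le_of_mul_le_mul_right h7 hjp
  have h9 : Real.log (tau n r s) ≤ Real.log (Real.exp (lam n r) * M) := by
    rw [Real.log_mul (Real.exp_pos _).ne' hM0.ne', Real.log_exp]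
    exact h8
  exact (Real.log_le_log_iff hTs (by positivity)).1 h9


lemma mom2_half (n : ℕ) : ∫ s in (0 : ℝ)..1, cc s ^ n * s ^ 2 = w n / 2 / (n + 3) := by
  have h := w_moment n
  have h2 := half_int (f := fun s => s ^ 2 * Real.sqrt (1 - s ^ 2) ^ n)
    (Continuous.intervalIntegrable (by fun_prop) _ _) (fun s _ => by simp)
  rw [h2] at h
  have e : ∫ s in (0 : ℝ)..1, cc s ^ n * s ^ 2 = ∫ s in (0 : ℝ)..1, s ^ 2 * Real.sqrt (1 - s ^ 2) ^ n := by
    congr 1; ext s; unfold cc; ring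
  rw [e, eq_div_iff (by positivity)]
  linarith

lemma mom4_half (n : ℕ) : ∫ s in (0 : ℝ)..1, cc s ^ n * s ^ 4 = w n / 2 * (3 / ((n + 3) * (n + 5))) := by
  have h0 := mom2_half n
  have h2 := mom2_half (n + 2)
  have hr := w_rec n
  have hcc := cc_continuous
  have e : ∫ s in (0 : ℝ)..1, cc s ^ n * s ^ 4 =
      (∫ s in (0 : ℝ)..1, cc s ^ n * s ^ 2) - ∫ s in (0 : ℝ)..1, cc s ^ (n + 2) * s ^ 2 := by
    rw [← intervalIntegral.integral_sub
      ((by fun_prop : Continuous fun s => cc s ^ n * s ^ 2).intervalIntegrable _ _)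
      ((by fun_prop : Continuous fun s => cc s ^ (n + 2) * s ^ 2).intervalIntegrable _ _)]
    refine intervalIntegral.integral_congr fun s hs => ?_
    rw [uIcc_of_le (by norm_num)] at hs
    have := cc_sq (t := s) ⟨by linarith [hs.1], hs.2⟩
    simp only [pow_add, this]
    ring
  rw [e, h0, h2]
  have e2 : w (n + 2) = w n * (n + 2) / (n + 3) := by rw [eq_div_iff (by positivity)]; linarith
  rw [e2]
  push_cast
  field_simp
  ring

theorem Ef2_le {r : ℝ → ℝ} (hr : Prof r) {n : ℕ} (hn : 3 ≤ n) :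
    Ef2 n r ≤ Real.exp (lam n r) ^ 2 * (96 / 6.28) / (n + 1) := by
  have hm := hr.mom_pos' n
  have hw := w_pos' n
  have hw1 := w_pos' (n - 1)
  have hcc := cc_continuous
  have hnR : (3 : ℝ) ≤ n := by exact_mod_cast hn
  have hint2 : IntervalIntegrable (fun t => r t ^ n * t ^ 2) volume (-1) 1 :=
    ((hr.cont.pow n).mul (continuous_pow 2).continuousOn).intervalIntegrable_of_Icc (by norm_num)
  have e1 : ∫ t in (-1 : ℝ)..1, r t ^ n * t ^ 2 = 2 * ∫ t in (0 : ℝ)..1, r t ^ n * t ^ 2 :=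
    half_int hint2 fun s hs => by
      simp only [hr.even s ⟨by linarith [hs.1], hs.2.le⟩, neg_sq]
  have e2 := half_pow_eq hr n (fun t => t ^ 2)
  set E := Real.exp (lam n r) with hE
  have hE0 : 0 < E := Real.exp_pos _
  have h3 : ∫ s in (0 : ℝ)..1, Real.sqrt (1 - s ^ 2) ^ n * tau n r s ^ 2 ≤
      ∫ s in (0 : ℝ)..1, (E ^ 2 * (16 / w (n - 1) ^ 2)) * (cc s ^ n * (1 / (n + 1) + s ^ 2) ^ 2) := by
    refine intervalIntegral.integral_mono_on_of_le_Ioo (by norm_num) ?_ ?_ fun s hs => ?_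
    · exact ((hcc.pow n).mul ((tau_continuous hr n).pow 2)).intervalIntegrable _ _
    · exact Continuous.intervalIntegrable (by fun_prop) _ _
    · have h1 := tau_le_lam hr hn hs
      have h2 := (tau_pos hr n (s := s) ⟨hs.1, hs.2.le⟩).le
      have h3 := pow_le_pow_left₀ h2 h1 2
      have h4 : 0 ≤ cc s ^ n := pow_nonneg (cc_nonneg s) n
      have h5 := mul_le_mul_of_nonneg_left h3 h4
      refine h5.trans (le_of_eq ?_)
      rw [← hE]
      field_simp
      ring
  have h4 : ∫ s in (0 : ℝ)..1, (E ^ 2 * (16 / w (n - 1) ^ 2)) * (cc s ^ n * (1 / (n + 1) + s ^ 2) ^ 2) =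
      (E ^ 2 * (16 / w (n - 1) ^ 2)) * (w n / 2 * (1 / (n + 1) ^ 2 + 2 / ((n + 1) * (n + 3)) +
        3 / ((n + 3) * (n + 5)))) := by
    rw [intervalIntegral.integral_const_mul]
    congr 1
    have e : (fun s => cc s ^ n * (1 / ((n : ℝ) + 1) + s ^ 2) ^ 2) =
      fun s => (1 / ((n : ℝ) + 1) ^ 2) * cc s ^ n + (2 / ((n : ℝ) + 1)) * (cc s ^ n * s ^ 2) + cc s ^ n * s ^ 4 := by
      funext s; field_simp; ring
    have i0 : IntervalIntegrable (fun s => (1 / ((n : ℝ) + 1) ^ 2) * cc s ^ n) volume 0 1 :=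
      Continuous.intervalIntegrable (by fun_prop) _ _
    have i1 : IntervalIntegrable (fun s => (2 / ((n : ℝ) + 1)) * (cc s ^ n * s ^ 2)) volume 0 1 :=
      Continuous.intervalIntegrable (by fun_prop) _ _
    have i2 : IntervalIntegrable (fun s => cc s ^ n * s ^ 4) volume 0 1 :=
      Continuous.intervalIntegrable (by fun_prop) _ _
    have e0 : ∫ s in (0 : ℝ)..1, cc s ^ n = w n / 2 := by
      have := w_half n
      have e' : ∫ s in (0 : ℝ)..1, cc s ^ n = ∫ s in (0 : ℝ)..1, Real.sqrt (1 - s ^ 2) ^ n := rfl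
      rw [e']; linarith
    rw [e, intervalIntegral.integral_add (i0.add i1) i2, intervalIntegral.integral_add i0 i1,
      intervalIntegral.integral_const_mul, intervalIntegral.integral_const_mul, mom2_half, mom4_half, e0]
    field_simp
  rw [h4] at h3
  -- bound of the constants
  have hQ : 1 / ((n : ℝ) + 1) ^ 2 + 2 / ((n + 1) * (n + 3)) + 3 / ((n + 3) * (n + 5)) ≤ 6 / (n + 1) ^ 2 := by
    have a1 : 2 / (((n : ℝ) + 1) * (n + 3)) ≤ 2 / (n + 1) ^ 2 := by
      apply div_le_div_of_nonneg_left (by norm_num) (by positivity)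
      nlinarith
    have a2 : 3 / (((n : ℝ) + 3) * (n + 5)) ≤ 3 / (n + 1) ^ 2 := by
      apply div_le_div_of_nonneg_left (by norm_num) (by positivity)
      nlinarith
    have a3 : 1 / ((n : ℝ) + 1) ^ 2 + 2 / (n + 1) ^ 2 + 3 / (n + 1) ^ 2 = 6 / (n + 1) ^ 2 := by ring
    linarith
  have hW : 16 / w (n - 1) ^ 2 ≤ 16 * (n + 1) / 6.28 := by
    have h := w_sq_ge (n - 1)
    have c1 : ((n - 1 : ℕ) : ℝ) + 2 = n + 1 := by rw [Nat.cast_sub (by omega)]; push_cast; ring
    rw [c1] at h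
    rw [div_le_div_iff₀ (by positivity) (by norm_num)]
    nlinarith
  have h5 : E ^ 2 * (16 / w (n - 1) ^ 2) * (w n / 2 * (1 / ((n : ℝ) + 1) ^ 2 + 2 / ((n + 1) * (n + 3)) +
        3 / ((n + 3) * (n + 5)))) ≤ E ^ 2 * (16 * (n + 1) / 6.28) * (w n / 2 * (6 / (n + 1) ^ 2)) := by
    refine mul_le_mul (mul_le_mul_of_nonneg_left hW (by positivity))
      (mul_le_mul_of_nonneg_left hQ (by positivity)) (by positivity) (by positivity)
  have h6 := h3.trans h5
  unfold Ef2
  rw [e1, e2]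
  have e3 : 2 * (mom n r / w n * ∫ s in (0 : ℝ)..1, Real.sqrt (1 - s ^ 2) ^ n * tau n r s ^ 2) / mom n r =
      2 / w n * ∫ s in (0 : ℝ)..1, Real.sqrt (1 - s ^ 2) ^ n * tau n r s ^ 2 := by
    field_simp
  rw [e3]
  have h7 := mul_le_mul_of_nonneg_left h6 (show 0 ≤ 2 / w n by positivity)
  refine h7.trans (le_of_eq ?_)
  field_simp
  ring


/-- **`UX > 0` if `λ ≤ -2`** -/
theorem UX_pos_of_lam_le {n : ℕ} (hn : 5 ≤ n) {r : ℝ → ℝ} (hr : Prof r) (h : lam n r ≤ -2) : 0 < UX n r := by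
  have h1 := UX_ge_quad (n := n) (by omega) hr
  have h2 := Ef2_le hr (n := n) (by omega)
  have hnR : (5 : ℝ) ≤ n := by exact_mod_cast hn
  have h3 : Real.exp (lam n r) ^ 2 ≤ 1 / 54 := by
    have e : Real.exp (lam n r) ^ 2 = Real.exp (2 * lam n r) := by
      rw [← Real.exp_nat_mul]; norm_num
    rw [e]
    have h4 : Real.exp (2 * lam n r) ≤ Real.exp (-4) := Real.exp_le_exp.2 (by linarith)
    have h5 : Real.exp (-4) = (Real.exp 1 ^ 4)⁻¹ := by
      rw [Real.exp_neg, ← Real.exp_nat_mul]; norm_num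
    have h6 := Real.exp_one_gt_d9
    have h7 : (54 : ℝ) ≤ Real.exp 1 ^ 4 := by
      have : (2.718 : ℝ) ^ 4 ≤ Real.exp 1 ^ 4 := pow_le_pow_left₀ (by norm_num) (by linarith) 4
      norm_num at this ⊢
      linarith
    have h8 : (Real.exp 1 ^ 4)⁻¹ ≤ (54 : ℝ)⁻¹ := inv_anti₀ (by norm_num) h7
    rw [h5] at h4
    linarith
  have h4 : Ef2 n r ≤ 1 / 54 * (96 / 6.28) / (n + 1) := by
    refine h2.trans ?_
    apply div_le_div_of_nonneg_right _ (by positivity)
    exact mul_le_mul_of_nonneg_right h3 (by norm_num)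
  have h5 : ((n : ℝ) + 4) / 2 * Ef2 n r ≤ ((n : ℝ) + 4) / 2 * (1 / 54 * (96 / 6.28) / (n + 1)) :=
    mul_le_mul_of_nonneg_left h4 (by positivity)
  have h6 : ((n : ℝ) + 4) / 2 * (1 / 54 * (96 / 6.28) / (n + 1)) < 1 / 4 := by
    rw [← mul_div_assoc, div_lt_iff₀ (by positivity)]
    norm_num
    linarith
  linarith

theorem concl_of_lam_le {n : ℕ} (hn : 5 ≤ n) {r : ℝ → ℝ} (hr : Prof r) (h : lam n r ≤ -2) : Concl n r := by
  have h1 := UX_pos_of_lam_le hn hr h
  exact ⟨h1.le, fun h2 => absurd h2 h1.ne'⟩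

end Crest.Agent.R230.LamB
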