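import Crest.Agent.R230.LegalSoft

/-!
# Row 230: legality of the soft contact, final design (helper640), block F3

For `x ∈ (0,1)`, `0 < T ≤ 1` and `log (T/x) ≤ 1/2 - 23/200 T⁸` the XLOG line with contact
parameter `x` is admissible: `xA ≤ xB` (`soft2_LG`, `soft2_adm_path`).
-/

set_option autoImplicit false

open MeasureTheory Set Filter Topology
open scoped Pointwise ENNReal

namespace Crest.Agent.R230

lemma soft2_step {a t t' c L K x T : ℝ} (ha : 0 < a) (ha1 : a < 1) (ht : 1 / 2 ≤ t) (ht1 : t ≤ 1)
    (ht' : 0 < t') (hc0 : 0 ≤ c) (hc : 1 - a ^ 2 ≤ c ^ 2) (hL0 : 0 ≤ L)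
    (hLt : t ≤ a * (1 + L + L ^ 2 / 2 + L ^ 3 / 6 + L ^ 4 / 24 + L ^ 5 / 120 + L ^ 6 / 720 + L ^ 7 / 5040))
    (h : L * (3 * a ^ 2 - 2 + 2 * (1 - a ^ 2) * c + t) * (1 + c) ≤ (1 - a ^ 2) * (a ^ 2 + t))
    (hK0 : 0 ≤ K) (hK1 : K ≤ 1) (hKt : 1 / 2 - 23 / 200 * t' ^ 8 ≤ K)
    (hK : (1 + K + K ^ 2 / 2 + K ^ 3 / 6 + K ^ 4 / 24 + K ^ 5 / 120 + K ^ 6 / 720 +
      K ^ 7 / 5040 + K ^ 8 * 9 / 322560) * a ≤ t')
    (hx : x ∈ Ioo (0 : ℝ) 1) (hT' : t' ≤ T) (hT : T ≤ t)
    (hl : Real.log (T / x) ≤ 1 / 2 - 23 / 200 * T ^ 8) : LG x T := by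
  have ha2 : 0 < 1 - a ^ 2 := by nlinarith
  -- the numeric inequality gives `LG a t`
  have hLG : LG a t := by
    have hcc0 := cc_nonneg a
    have hcc2 : cc a ^ 2 = 1 - a ^ 2 := cc_sq ⟨by linarith, ha1.le⟩
    have hcc : cc a ≤ c := abs_le_of_sq_le_sq' (by linarith) hc0 |>.2
    unfold LG
    have hA : (1 - cc a) ^ 2 * (1 + 2 * cc a) = 3 * a ^ 2 - 2 + 2 * (1 - a ^ 2) * cc a := by
      have e : (1 - cc a) ^ 2 * (1 + 2 * cc a) = 1 - 3 * cc a ^ 2 + 2 * cc a ^ 2 * cc a := by ring
      rw [e, hcc2]
      ring
    have hlog : Real.log (t / a) ≤ L := by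
      rw [Real.log_le_iff_le_exp (by positivity), div_le_iff₀' ha]
      refine hLt.trans (mul_le_mul_of_nonneg_left ?_ ha.le)
      have := Real.sum_le_exp_of_nonneg hL0 8
      simp only [Finset.sum_range_succ, Finset.sum_range_zero, Nat.factorial] at this
      norm_num at this
      linarith
    have hA0 := A_nonneg' a
    have h1 : (1 - cc a) ^ 2 * (1 + 2 * cc a) + t ≤ 3 * a ^ 2 - 2 + 2 * (1 - a ^ 2) * c + t := by
      rw [hA]
      have := mul_le_mul_of_nonneg_left hcc ha2.le
      linarith
    calc Real.log (t / a) * ((1 - cc a) ^ 2 * (1 + 2 * cc a) + t) * (1 + cc a) ≤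
        L * ((1 - cc a) ^ 2 * (1 + 2 * cc a) + t) * (1 + cc a) := by
          gcongr
      _ ≤ L * (3 * a ^ 2 - 2 + 2 * (1 - a ^ 2) * c + t) * (1 + c) := by
          have h3 : 0 ≤ L * (3 * a ^ 2 - 2 + 2 * (1 - a ^ 2) * c + t) := mul_nonneg hL0 (by linarith)
          gcongr
      _ ≤ (1 - a ^ 2) * (a ^ 2 + t) := h
      _ = _ := by rw [hcc2]
  have hx0 := hx.1
  have hT0 : 0 < T := by linarith
  -- `a ≤ x`
  have hax : a ≤ x := by
    by_contra hlt
    push Not at hlt
    have h1 : Real.log (T / x) ≤ K := by
      have : t' ^ 8 ≤ T ^ 8 := by gcongr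
      linarith
    rw [Real.log_le_iff_le_exp (by positivity), div_le_iff₀ hx0] at h1
    have h2 := Real.exp_bound' hK0 hK1 (n := 8) (by norm_num)
    simp only [Finset.sum_range_succ, Finset.sum_range_zero, Nat.factorial] at h2
    norm_num at h2
    have h3 : Real.exp K * a ≤ t' := by
      refine le_trans (mul_le_mul_of_nonneg_right ?_ ha.le) hK
      refine h2.trans (le_of_eq ?_)
      ring
    have h4 : Real.exp K * x < Real.exp K * a := mul_lt_mul_of_pos_left hlt (Real.exp_pos _)
    linarith
  refine LG_anti hx hT0 hT ?_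
  rcases le_total x (7 / 10) with h7 | h7
  · exact LG_mono ha hax h7 ht hLG
  · exact LG_anti hx (by linarith) ht1 (LG_one ⟨h7, hx.2⟩)

/-- `T ≤ 1/2` -/
lemma soft2_LG_small {x T : ℝ} (hx : x ∈ Ioo (0 : ℝ) 1) (hT0 : 0 < T) (hT1 : T ≤ 1 / 2)
    (hl : Real.log (T / x) ≤ 1 / 2) : LG x T := by
  have hx0 := hx.1
  have hc0 := cc_nonneg x
  have hc1 := cc_le_one x
  have hc2 : cc x ^ 2 = 1 - x ^ 2 := cc_sq ⟨by linarith [hx.1], hx.2.le⟩
  have hA0 := A_nonneg' x
  unfold LG
  by_cases hl0 : Real.log (T / x) ≤ 0
  · have h1 : Real.log (T / x) * ((1 - cc x) ^ 2 * (1 + 2 * cc x) + T) * (1 + cc x) ≤ 0 := by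
      have : Real.log (T / x) * ((1 - cc x) ^ 2 * (1 + 2 * cc x) + T) ≤ 0 :=
        mul_nonpos_of_nonpos_of_nonneg hl0 (by linarith)
      exact mul_nonpos_of_nonpos_of_nonneg this (by linarith)
    have h2 : 0 ≤ cc x ^ 2 * (x ^ 2 + T) := by positivity
    linarith
  · push Not at hl0
    have hxT : x < T := by
      by_contra h
      push Not at h
      have : Real.log (T / x) ≤ 0 := Real.log_nonpos (by positivity) (by rwa [div_le_one hx0])
      linarith
    set c := cc x with hc
    have e : ((1 - c) ^ 2 * (1 + 2 * c) + T) * (1 + c) =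
        (T - x ^ 2 + 2 * (x ^ 2) ^ 2) + c * (T + x ^ 2) := by
      have : x ^ 2 = 1 - c ^ 2 := by linarith
      rw [this]
      ring
    rw [mul_assoc, e, hc2]
    have hcy : c ≤ 1 - x ^ 2 / 2 := by nlinarith [sq_nonneg (1 - c)]
    have hy0 : 0 < x ^ 2 := by positivity
    have hy1 : x ^ 2 ≤ 1 / 4 := by nlinarith
    set y := x ^ 2 with hy
    have h1 : 0 ≤ T - y + 2 * y ^ 2 + c * (T + y) := by
      rw [← e]
      exact mul_nonneg (by linarith) (by linarith)
    have h2 : T - y + 2 * y ^ 2 + c * (T + y) ≤ T - y + 2 * y ^ 2 + (1 - y / 2) * (T + y) := by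
      have := mul_le_mul_of_nonneg_right hcy (by linarith : 0 ≤ T + y)
      linarith
    calc Real.log (T / x) * (T - y + 2 * y ^ 2 + c * (T + y)) ≤
        1 / 2 * (T - y + 2 * y ^ 2 + c * (T + y)) := mul_le_mul_of_nonneg_right hl h1
      _ ≤ 1 / 2 * (T - y + 2 * y ^ 2 + (1 - y / 2) * (T + y)) := by linarith
      _ ≤ (1 - y) * (y + T) := by
        have h3 : 0 ≤ y * (1 / 4 - y) := mul_nonneg hy0.le (by linarith)
        have h4 : 0 ≤ y * (1 / 2 - T) := mul_nonneg hy0.le (by linarith)
        nlinarith

set_option maxHeartbeats 2000000 in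
/-- `T ≥ 1/2` -/
lemma soft2_LG_large {x T : ℝ} (hx : x ∈ Ioo (0 : ℝ) 1) (hT0 : 1 / 2 ≤ T) (hT1 : T ≤ 1)
    (hL : Real.log (T / x) ≤ 1 / 2 - 23 / 200 * T ^ 8) : LG x T := by
  rcases le_total (1999 / 2000) T with h | hp0
  · exact soft2_step (a := (67979 / 100000)) (t := 1) (t' := (1999 / 2000))
      (c := (73341 / 100000)) (L := (19299 / 50000)) (K := (19273 / 50000))
      (by norm_num) (by norm_num) (by norm_num) (by norm_num) (by norm_num) (by norm_num) (by norm_num)
      (by norm_num) (by norm_num) (by norm_num) (by norm_num) (by norm_num) (by norm_num) (by norm_num) hx h hT1 hL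
  rcases le_total (9989 / 10000) T with h | hp1
  · exact soft2_step (a := (67901 / 100000)) (t := (1999 / 2000)) (t' := (9989 / 10000))
      (c := (73413 / 100000)) (L := (19331 / 50000)) (K := (386009 / 1000000))
      (by norm_num) (by norm_num) (by norm_num) (by norm_num) (by norm_num) (by norm_num) (by norm_num)
      (by norm_num) (by norm_num) (by norm_num) (by norm_num) (by norm_num) (by norm_num) (by norm_num) hx h hp0 hL
  rcases le_total (4991 / 5000) T with h | hp2
  · exact soft2_step (a := (6781 / 10000)) (t := (9989 / 10000)) (t' := (4991 / 5000))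
      (c := (73497 / 100000)) (L := (2421 / 6250)) (K := (193323 / 500000))
      (by norm_num) (by norm_num) (by norm_num) (by norm_num) (by norm_num) (by norm_num) (by norm_num)
      (by norm_num) (by norm_num) (by norm_num) (by norm_num) (by norm_num) (by norm_num) (by norm_num) hx h hp1 hL
  rcases le_total (4987 / 5000) T with h | hp3
  · exact soft2_step (a := (67707 / 100000)) (t := (4991 / 5000)) (t' := (4987 / 5000))
      (c := (9199 / 12500)) (L := (19409 / 50000)) (K := (387371 / 1000000))
      (by norm_num) (by norm_num) (by norm_num) (by norm_num) (by norm_num) (by norm_num) (by norm_num)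
      (by norm_num) (by norm_num) (by norm_num) (by norm_num) (by norm_num) (by norm_num) (by norm_num) hx h hp2 hL
  rcases le_total (1993 / 2000) T with h | hp4
  · exact soft2_step (a := (67591 / 100000)) (t := (4987 / 5000)) (t' := (1993 / 2000))
      (c := (73699 / 100000)) (L := (3891 / 10000)) (K := (388181 / 1000000))
      (by norm_num) (by norm_num) (by norm_num) (by norm_num) (by norm_num) (by norm_num) (by norm_num)
      (by norm_num) (by norm_num) (by norm_num) (by norm_num) (by norm_num) (by norm_num) (by norm_num) hx h hp3 hL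
  rcases le_total (1991 / 2000) T with h | hp5
  · exact soft2_step (a := (67463 / 100000)) (t := (1993 / 2000)) (t' := (1991 / 2000))
      (c := (9227 / 12500)) (L := (39009 / 100000)) (K := (97269 / 250000))
      (by norm_num) (by norm_num) (by norm_num) (by norm_num) (by norm_num) (by norm_num) (by norm_num)
      (by norm_num) (by norm_num) (by norm_num) (by norm_num) (by norm_num) (by norm_num) (by norm_num) hx h hp4 hL
  rcases le_total (9943 / 10000) T with h | hp6
  · exact soft2_step (a := (6731 / 10000)) (t := (1991 / 2000)) (t' := (9943 / 10000))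
      (c := (18489 / 25000)) (L := (1223 / 3125)) (K := (390141 / 1000000))
      (by norm_num) (by norm_num) (by norm_num) (by norm_num) (by norm_num) (by norm_num) (by norm_num)
      (by norm_num) (by norm_num) (by norm_num) (by norm_num) (by norm_num) (by norm_num) (by norm_num) hx h hp5 hL
  rcases le_total (993 / 1000) T with h | hp7
  · exact soft2_step (a := (3357 / 5000)) (t := (9943 / 10000)) (t' := (993 / 1000))
      (c := (7411 / 10000)) (L := (3927 / 10000)) (K := (39129 / 100000))
      (by norm_num) (by norm_num) (by norm_num) (by norm_num) (by norm_num) (by norm_num) (by norm_num)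
      (by norm_num) (by norm_num) (by norm_num) (by norm_num) (by norm_num) (by norm_num) (by norm_num) hx h hp6 hL
  rcases le_total (1983 / 2000) T with h | hp8
  · exact soft2_step (a := (16739 / 25000)) (t := (993 / 1000)) (t' := (1983 / 2000))
      (c := (18569 / 25000)) (L := (39411 / 100000)) (K := (24537 / 62500))
      (by norm_num) (by norm_num) (by norm_num) (by norm_num) (by norm_num) (by norm_num) (by norm_num)
      (by norm_num) (by norm_num) (by norm_num) (by norm_num) (by norm_num) (by norm_num) (by norm_num) hx h hp7 hL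
  rcases le_total (99 / 100) T with h | hp9
  · exact soft2_step (a := (1669 / 2500)) (t := (1983 / 2000)) (t' := (99 / 100))
      (c := (3723 / 5000)) (L := (989 / 2500)) (K := (39389 / 100000))
      (by norm_num) (by norm_num) (by norm_num) (by norm_num) (by norm_num) (by norm_num) (by norm_num)
      (by norm_num) (by norm_num) (by norm_num) (by norm_num) (by norm_num) (by norm_num) (by norm_num) hx h hp8 hL
  rcases le_total (9881 / 10000) T with h | hp10
  · exact soft2_step (a := (16633 / 25000)) (t := (99 / 100)) (t' := (9881 / 10000))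
      (c := (2333 / 3125)) (L := (1242 / 3125)) (K := (395503 / 1000000))
      (by norm_num) (by norm_num) (by norm_num) (by norm_num) (by norm_num) (by norm_num) (by norm_num)
      (by norm_num) (by norm_num) (by norm_num) (by norm_num) (by norm_num) (by norm_num) (by norm_num) hx h hp9 hL
  rcases le_total (493 / 500) T with h | hp11
  · exact soft2_step (a := (6627 / 10000)) (t := (9881 / 10000)) (t' := (493 / 500))
      (c := (7489 / 10000)) (L := (799 / 2000)) (K := (39727 / 100000))
      (by norm_num) (by norm_num) (by norm_num) (by norm_num) (by norm_num) (by norm_num) (by norm_num)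
      (by norm_num) (by norm_num) (by norm_num) (by norm_num) (by norm_num) (by norm_num) (by norm_num) hx h hp10 hL
  rcases le_total (123 / 125) T with h | hp12
  · exact soft2_step (a := (6603 / 10000)) (t := (493 / 500)) (t' := (123 / 125))
      (c := (7511 / 10000)) (L := (401 / 1000)) (K := (39893 / 100000))
      (by norm_num) (by norm_num) (by norm_num) (by norm_num) (by norm_num) (by norm_num) (by norm_num)
      (by norm_num) (by norm_num) (by norm_num) (by norm_num) (by norm_num) (by norm_num) (by norm_num) hx h hp11 hL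
  rcases le_total (4907 / 5000) T with h | hp13
  · exact soft2_step (a := (16429 / 25000)) (t := (123 / 125)) (t' := (4907 / 5000))
      (c := (4711 / 6250)) (L := (4037 / 10000)) (K := (401039 / 1000000))
      (by norm_num) (by norm_num) (by norm_num) (by norm_num) (by norm_num) (by norm_num) (by norm_num)
      (by norm_num) (by norm_num) (by norm_num) (by norm_num) (by norm_num) (by norm_num) (by norm_num) hx h hp12 hL
  rcases le_total (979 / 1000) T with h | hp14
  · exact soft2_step (a := (6543 / 10000)) (t := (4907 / 5000)) (t' := (979 / 1000))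
      (c := (7563 / 10000)) (L := (811 / 2000)) (K := (5037 / 12500))
      (by norm_num) (by norm_num) (by norm_num) (by norm_num) (by norm_num) (by norm_num) (by norm_num)
      (by norm_num) (by norm_num) (by norm_num) (by norm_num) (by norm_num) (by norm_num) (by norm_num) hx h hp13 hL
  rcases le_total (122 / 125) T with h | hp15
  · exact soft2_step (a := (6507 / 10000)) (t := (979 / 1000)) (t' := (122 / 125))
      (c := (3797 / 5000)) (L := (817 / 2000)) (K := (10133 / 25000))
      (by norm_num) (by norm_num) (by norm_num) (by norm_num) (by norm_num) (by norm_num) (by norm_num)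
      (by norm_num) (by norm_num) (by norm_num) (by norm_num) (by norm_num) (by norm_num) (by norm_num) hx h hp14 hL
  rcases le_total (973 / 1000) T with h | hp16
  · exact soft2_step (a := (809 / 1250)) (t := (122 / 125)) (t' := (973 / 1000))
      (c := (953 / 1250)) (L := (4109 / 10000)) (K := (20381 / 50000))
      (by norm_num) (by norm_num) (by norm_num) (by norm_num) (by norm_num) (by norm_num) (by norm_num)
      (by norm_num) (by norm_num) (by norm_num) (by norm_num) (by norm_num) (by norm_num) (by norm_num) hx h hp15 hL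
  rcases le_total (97 / 100) T with h | hp17
  · exact soft2_step (a := (3219 / 5000)) (t := (973 / 1000)) (t' := (97 / 100))
      (c := (1913 / 2500)) (L := (413 / 1000)) (K := (40987 / 100000))
      (by norm_num) (by norm_num) (by norm_num) (by norm_num) (by norm_num) (by norm_num) (by norm_num)
      (by norm_num) (by norm_num) (by norm_num) (by norm_num) (by norm_num) (by norm_num) (by norm_num) hx h hp16 hL
  rcases le_total (9661 / 10000) T with h | hp18
  · exact soft2_step (a := (3197 / 5000)) (t := (97 / 100)) (t' := (9661 / 10000))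
      (c := (9611 / 12500)) (L := (41677 / 100000)) (K := (412729 / 1000000))
      (by norm_num) (by norm_num) (by norm_num) (by norm_num) (by norm_num) (by norm_num) (by norm_num)
      (by norm_num) (by norm_num) (by norm_num) (by norm_num) (by norm_num) (by norm_num) (by norm_num) hx h hp17 hL
  rcases le_total (481 / 500) T with h | hp19
  · exact soft2_step (a := (1587 / 2500)) (t := (9661 / 10000)) (t' := (481 / 500))
      (c := (7727 / 10000)) (L := (21 / 50)) (K := (8313 / 20000))
      (by norm_num) (by norm_num) (by norm_num) (by norm_num) (by norm_num) (by norm_num) (by norm_num)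
      (by norm_num) (by norm_num) (by norm_num) (by norm_num) (by norm_num) (by norm_num) (by norm_num) hx h hp18 hL
  rcases le_total (479 / 500) T with h | hp20
  · exact soft2_step (a := (394 / 625)) (t := (481 / 500)) (t' := (479 / 500))
      (c := (7763 / 10000)) (L := (4227 / 10000)) (K := (20921 / 50000))
      (by norm_num) (by norm_num) (by norm_num) (by norm_num) (by norm_num) (by norm_num) (by norm_num)
      (by norm_num) (by norm_num) (by norm_num) (by norm_num) (by norm_num) (by norm_num) (by norm_num) hx h hp19 hL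
  rcases le_total (477 / 500) T with h | hp21
  · exact soft2_step (a := (313 / 500)) (t := (479 / 500)) (t' := (477 / 500))
      (c := (39 / 50)) (L := (213 / 500)) (K := (4211 / 10000))
      (by norm_num) (by norm_num) (by norm_num) (by norm_num) (by norm_num) (by norm_num) (by norm_num)
      (by norm_num) (by norm_num) (by norm_num) (by norm_num) (by norm_num) (by norm_num) (by norm_num) hx h hp20 hL
  rcases le_total (949 / 1000) T with h | hp22
  · exact soft2_step (a := (62083 / 100000)) (t := (477 / 500)) (t' := (949 / 1000))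
      (c := (15679 / 20000)) (L := (42961 / 100000)) (K := (424347 / 1000000))
      (by norm_num) (by norm_num) (by norm_num) (by norm_num) (by norm_num) (by norm_num) (by norm_num)
      (by norm_num) (by norm_num) (by norm_num) (by norm_num) (by norm_num) (by norm_num) (by norm_num) hx h hp21 hL
  rcases le_total (118 / 125) T with h | hp23
  · exact soft2_step (a := (1539 / 2500)) (t := (949 / 1000)) (t' := (118 / 125))
      (c := (7881 / 10000)) (L := (4329 / 10000)) (K := (10687 / 25000))
      (by norm_num) (by norm_num) (by norm_num) (by norm_num) (by norm_num) (by norm_num) (by norm_num)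
      (by norm_num) (by norm_num) (by norm_num) (by norm_num) (by norm_num) (by norm_num) (by norm_num) hx h hp22 hL
  rcases le_total (939 / 1000) T with h | hp24
  · exact soft2_step (a := (1221 / 2000)) (t := (118 / 125)) (t' := (939 / 1000))
      (c := (7921 / 10000)) (L := (4359 / 10000)) (K := (861 / 2000))
      (by norm_num) (by norm_num) (by norm_num) (by norm_num) (by norm_num) (by norm_num) (by norm_num)
      (by norm_num) (by norm_num) (by norm_num) (by norm_num) (by norm_num) (by norm_num) (by norm_num) hx h hp23 hL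
  rcases le_total (467 / 500) T with h | hp25
  · exact soft2_step (a := (1211 / 2000)) (t := (939 / 1000)) (t' := (467 / 500))
      (c := (7959 / 10000)) (L := (1097 / 2500)) (K := (43341 / 100000))
      (by norm_num) (by norm_num) (by norm_num) (by norm_num) (by norm_num) (by norm_num) (by norm_num)
      (by norm_num) (by norm_num) (by norm_num) (by norm_num) (by norm_num) (by norm_num) (by norm_num) hx h hp24 hL
  rcases le_total (116 / 125) T with h | hp26
  · exact soft2_step (a := (1499 / 2500)) (t := (467 / 500)) (t' := (116 / 125))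
      (c := (8003 / 10000)) (L := (4433 / 10000)) (K := (1747 / 4000))
      (by norm_num) (by norm_num) (by norm_num) (by norm_num) (by norm_num) (by norm_num) (by norm_num)
      (by norm_num) (by norm_num) (by norm_num) (by norm_num) (by norm_num) (by norm_num) (by norm_num) hx h hp25 hL
  rcases le_total (461 / 500) T with h | hp27
  · exact soft2_step (a := (2969 / 5000)) (t := (116 / 125)) (t' := (461 / 500))
      (c := (8047 / 10000)) (L := (893 / 2000)) (K := (8799 / 20000))
      (by norm_num) (by norm_num) (by norm_num) (by norm_num) (by norm_num) (by norm_num) (by norm_num)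
      (by norm_num) (by norm_num) (by norm_num) (by norm_num) (by norm_num) (by norm_num) (by norm_num) hx h hp26 hL
  rcases le_total (229 / 250) T with h | hp28
  · exact soft2_step (a := (147 / 250)) (t := (461 / 500)) (t' := (229 / 250))
      (c := (809 / 1000)) (L := (9 / 20)) (K := (4431 / 10000))
      (by norm_num) (by norm_num) (by norm_num) (by norm_num) (by norm_num) (by norm_num) (by norm_num)
      (by norm_num) (by norm_num) (by norm_num) (by norm_num) (by norm_num) (by norm_num) (by norm_num) hx h hp27 hL
  rcases le_total (91 / 100) T with h | hp29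
  · exact soft2_step (a := (2913 / 5000)) (t := (229 / 250)) (t' := (91 / 100))
      (c := (508 / 625)) (L := (2263 / 5000)) (K := (44593 / 100000))
      (by norm_num) (by norm_num) (by norm_num) (by norm_num) (by norm_num) (by norm_num) (by norm_num)
      (by norm_num) (by norm_num) (by norm_num) (by norm_num) (by norm_num) (by norm_num) (by norm_num) hx h hp28 hL
  rcases le_total (903 / 1000) T with h | hp30
  · exact soft2_step (a := (2881 / 5000)) (t := (91 / 100)) (t' := (903 / 1000))
      (c := (4087 / 5000)) (L := (457 / 1000)) (K := (44917 / 100000))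
      (by norm_num) (by norm_num) (by norm_num) (by norm_num) (by norm_num) (by norm_num) (by norm_num)
      (by norm_num) (by norm_num) (by norm_num) (by norm_num) (by norm_num) (by norm_num) (by norm_num) hx h hp29 hL
  rcases le_total (112 / 125) T with h | hp31
  · exact soft2_step (a := (57 / 100)) (t := (903 / 1000)) (t' := (112 / 125))
      (c := (8217 / 10000)) (L := (4601 / 10000)) (K := (45223 / 100000))
      (by norm_num) (by norm_num) (by norm_num) (by norm_num) (by norm_num) (by norm_num) (by norm_num)
      (by norm_num) (by norm_num) (by norm_num) (by norm_num) (by norm_num) (by norm_num) (by norm_num) hx h hp30 hL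
  rcases le_total (111 / 125) T with h | hp32
  · exact soft2_step (a := (563 / 1000)) (t := (112 / 125)) (t' := (111 / 125))
      (c := (1653 / 2000)) (L := (4647 / 10000)) (K := (22777 / 50000))
      (by norm_num) (by norm_num) (by norm_num) (by norm_num) (by norm_num) (by norm_num) (by norm_num)
      (by norm_num) (by norm_num) (by norm_num) (by norm_num) (by norm_num) (by norm_num) (by norm_num) hx h hp31 hL
  rcases le_total (22 / 25) T with h | hp33
  · exact soft2_step (a := (2781 / 5000)) (t := (111 / 125)) (t' := (22 / 25))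
      (c := (8311 / 10000)) (L := (4679 / 10000)) (K := (9173 / 20000))
      (by norm_num) (by norm_num) (by norm_num) (by norm_num) (by norm_num) (by norm_num) (by norm_num)
      (by norm_num) (by norm_num) (by norm_num) (by norm_num) (by norm_num) (by norm_num) (by norm_num) hx h hp32 hL
  rcases le_total (871 / 1000) T with h | hp34
  · exact soft2_step (a := (54879 / 100000)) (t := (22 / 25)) (t' := (871 / 1000))
      (c := (83597 / 100000)) (L := (47221 / 100000)) (K := (115477 / 250000))
      (by norm_num) (by norm_num) (by norm_num) (by norm_num) (by norm_num) (by norm_num) (by norm_num)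
      (by norm_num) (by norm_num) (by norm_num) (by norm_num) (by norm_num) (by norm_num) (by norm_num) hx h hp33 hL
  rcases le_total (431 / 500) T with h | hp35
  · exact soft2_step (a := (2707 / 5000)) (t := (871 / 1000)) (t' := (431 / 500))
      (c := (1051 / 1250)) (L := (951 / 2000)) (K := (9299 / 20000))
      (by norm_num) (by norm_num) (by norm_num) (by norm_num) (by norm_num) (by norm_num) (by norm_num)
      (by norm_num) (by norm_num) (by norm_num) (by norm_num) (by norm_num) (by norm_num) (by norm_num) hx h hp34 hL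
  rcases le_total (213 / 250) T with h | hp36
  · exact soft2_step (a := (1067 / 2000)) (t := (431 / 500)) (t' := (213 / 250))
      (c := (8459 / 10000)) (L := (2399 / 5000)) (K := (46807 / 100000))
      (by norm_num) (by norm_num) (by norm_num) (by norm_num) (by norm_num) (by norm_num) (by norm_num)
      (by norm_num) (by norm_num) (by norm_num) (by norm_num) (by norm_num) (by norm_num) (by norm_num) hx h hp35 hL
  rcases le_total (421 / 500) T with h | hp37
  · exact soft2_step (a := (5257 / 10000)) (t := (213 / 250)) (t' := (421 / 500))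
      (c := (8507 / 10000)) (L := (4829 / 10000)) (K := (9419 / 20000))
      (by norm_num) (by norm_num) (by norm_num) (by norm_num) (by norm_num) (by norm_num) (by norm_num)
      (by norm_num) (by norm_num) (by norm_num) (by norm_num) (by norm_num) (by norm_num) (by norm_num) hx h hp36 hL
  rcases le_total (831 / 1000) T with h | hp38
  · exact soft2_step (a := (5173 / 10000)) (t := (421 / 500)) (t' := (831 / 1000))
      (c := (8559 / 10000)) (L := (609 / 1250)) (K := (9477 / 20000))
      (by norm_num) (by norm_num) (by norm_num) (by norm_num) (by norm_num) (by norm_num) (by norm_num)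
      (by norm_num) (by norm_num) (by norm_num) (by norm_num) (by norm_num) (by norm_num) (by norm_num) hx h hp37 hL
  rcases le_total (41 / 50) T with h | hp39
  · exact soft2_step (a := (5091 / 10000)) (t := (831 / 1000)) (t' := (41 / 50))
      (c := (538 / 625)) (L := (49 / 100)) (K := (953 / 2000))
      (by norm_num) (by norm_num) (by norm_num) (by norm_num) (by norm_num) (by norm_num) (by norm_num)
      (by norm_num) (by norm_num) (by norm_num) (by norm_num) (by norm_num) (by norm_num) (by norm_num) hx h hp38 hL
  rcases le_total (101 / 125) T with h | hp40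
  · exact soft2_step (a := (1251 / 2500)) (t := (41 / 50)) (t' := (101 / 125))
      (c := (4329 / 5000)) (L := (4939 / 10000)) (K := (47911 / 100000))
      (by norm_num) (by norm_num) (by norm_num) (by norm_num) (by norm_num) (by norm_num) (by norm_num)
      (by norm_num) (by norm_num) (by norm_num) (by norm_num) (by norm_num) (by norm_num) (by norm_num) hx h hp39 hL
  rcases le_total (159 / 200) T with h | hp41
  · exact soft2_step (a := (4911 / 10000)) (t := (101 / 125)) (t' := (159 / 200))
      (c := (1089 / 1250)) (L := (249 / 500)) (K := (24083 / 50000))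
      (by norm_num) (by norm_num) (by norm_num) (by norm_num) (by norm_num) (by norm_num) (by norm_num)
      (by norm_num) (by norm_num) (by norm_num) (by norm_num) (by norm_num) (by norm_num) (by norm_num) hx h hp40 hL
  rcases le_total (781 / 1000) T with h | hp42
  · exact soft2_step (a := (1203 / 2500)) (t := (159 / 200)) (t' := (781 / 1000))
      (c := (8767 / 10000)) (L := (5021 / 10000)) (K := (48409 / 100000))
      (by norm_num) (by norm_num) (by norm_num) (by norm_num) (by norm_num) (by norm_num) (by norm_num)
      (by norm_num) (by norm_num) (by norm_num) (by norm_num) (by norm_num) (by norm_num) (by norm_num) hx h hp41 hL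
  rcases le_total (383 / 500) T with h | hp43
  · exact soft2_step (a := (4709 / 10000)) (t := (781 / 1000)) (t' := (383 / 500))
      (c := (4411 / 5000)) (L := (253 / 500)) (K := (48637 / 100000))
      (by norm_num) (by norm_num) (by norm_num) (by norm_num) (by norm_num) (by norm_num) (by norm_num)
      (by norm_num) (by norm_num) (by norm_num) (by norm_num) (by norm_num) (by norm_num) (by norm_num) hx h hp42 hL
  rcases le_total (3 / 4) T with h | hp44
  · exact soft2_step (a := (1438 / 3125)) (t := (383 / 500)) (t' := (3 / 4))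
      (c := (5549 / 6250)) (L := (50961 / 100000)) (K := (61061 / 125000))
      (by norm_num) (by norm_num) (by norm_num) (by norm_num) (by norm_num) (by norm_num) (by norm_num)
      (by norm_num) (by norm_num) (by norm_num) (by norm_num) (by norm_num) (by norm_num) (by norm_num) hx h hp43 hL
  rcases le_total (367 / 500) T with h | hp45
  · exact soft2_step (a := (899 / 2000)) (t := (3 / 4)) (t' := (367 / 500))
      (c := (8933 / 10000)) (L := (64 / 125)) (K := (6129 / 12500))
      (by norm_num) (by norm_num) (by norm_num) (by norm_num) (by norm_num) (by norm_num) (by norm_num)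
      (by norm_num) (by norm_num) (by norm_num) (by norm_num) (by norm_num) (by norm_num) (by norm_num) hx h hp44 hL
  rcases le_total (717 / 1000) T with h | hp46
  · exact soft2_step (a := (4383 / 10000)) (t := (367 / 500)) (t' := (717 / 1000))
      (c := (8989 / 10000)) (L := (5157 / 10000)) (K := (49197 / 100000))
      (by norm_num) (by norm_num) (by norm_num) (by norm_num) (by norm_num) (by norm_num) (by norm_num)
      (by norm_num) (by norm_num) (by norm_num) (by norm_num) (by norm_num) (by norm_num) (by norm_num) hx h hp45 hL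
  rcases le_total (7 / 10) T with h | hp47
  · exact soft2_step (a := (4273 / 10000)) (t := (717 / 1000)) (t' := (7 / 10))
      (c := (4521 / 5000)) (L := (647 / 1250)) (K := (24669 / 50000))
      (by norm_num) (by norm_num) (by norm_num) (by norm_num) (by norm_num) (by norm_num) (by norm_num)
      (by norm_num) (by norm_num) (by norm_num) (by norm_num) (by norm_num) (by norm_num) (by norm_num) hx h hp46 hL
  rcases le_total (681 / 1000) T with h | hp48
  · exact soft2_step (a := (519 / 1250)) (t := (7 / 10)) (t' := (681 / 1000))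
      (c := (4549 / 5000)) (L := (653 / 1250)) (K := (49469 / 100000))
      (by norm_num) (by norm_num) (by norm_num) (by norm_num) (by norm_num) (by norm_num) (by norm_num)
      (by norm_num) (by norm_num) (by norm_num) (by norm_num) (by norm_num) (by norm_num) (by norm_num) hx h hp47 hL
  rcases le_total (661 / 1000) T with h | hp49
  · exact soft2_step (a := (2013 / 5000)) (t := (681 / 1000)) (t' := (661 / 1000))
      (c := (4577 / 5000)) (L := (5257 / 10000)) (K := (49581 / 100000))
      (by norm_num) (by norm_num) (by norm_num) (by norm_num) (by norm_num) (by norm_num) (by norm_num)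
      (by norm_num) (by norm_num) (by norm_num) (by norm_num) (by norm_num) (by norm_num) (by norm_num) hx h hp48 hL
  rcases le_total (641 / 1000) T with h | hp50
  · exact soft2_step (a := (39 / 100)) (t := (661 / 1000)) (t' := (641 / 1000))
      (c := (921 / 1000)) (L := (66 / 125)) (K := (621 / 1250))
      (by norm_num) (by norm_num) (by norm_num) (by norm_num) (by norm_num) (by norm_num) (by norm_num)
      (by norm_num) (by norm_num) (by norm_num) (by norm_num) (by norm_num) (by norm_num) (by norm_num) hx h hp49 hL
  rcases le_total (31 / 50) T with h | hp51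
  · exact soft2_step (a := (3769 / 10000)) (t := (641 / 1000)) (t' := (31 / 50))
      (c := (9263 / 10000)) (L := (5311 / 10000)) (K := (49749 / 100000))
      (by norm_num) (by norm_num) (by norm_num) (by norm_num) (by norm_num) (by norm_num) (by norm_num)
      (by norm_num) (by norm_num) (by norm_num) (by norm_num) (by norm_num) (by norm_num) (by norm_num) hx h hp50 hL
  rcases le_total (3 / 5) T with h | hp52
  · exact soft2_step (a := (1823 / 5000)) (t := (31 / 50)) (t' := (3 / 5))
      (c := (582 / 625)) (L := (531 / 1000)) (K := (49807 / 100000))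
      (by norm_num) (by norm_num) (by norm_num) (by norm_num) (by norm_num) (by norm_num) (by norm_num)
      (by norm_num) (by norm_num) (by norm_num) (by norm_num) (by norm_num) (by norm_num) (by norm_num) hx h hp51 hL
  rcases le_total (29 / 50) T with h | hp53
  · exact soft2_step (a := (44 / 125)) (t := (3 / 5)) (t' := (29 / 50))
      (c := (117 / 125)) (L := (267 / 500)) (K := (2493 / 5000))
      (by norm_num) (by norm_num) (by norm_num) (by norm_num) (by norm_num) (by norm_num) (by norm_num)
      (by norm_num) (by norm_num) (by norm_num) (by norm_num) (by norm_num) (by norm_num) (by norm_num) hx h hp52 hL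
  rcases le_total (14 / 25) T with h | hp54
  · exact soft2_step (a := (17 / 50)) (t := (29 / 50)) (t' := (14 / 25))
      (c := (941 / 1000)) (L := (107 / 200)) (K := (4989 / 10000))
      (by norm_num) (by norm_num) (by norm_num) (by norm_num) (by norm_num) (by norm_num) (by norm_num)
      (by norm_num) (by norm_num) (by norm_num) (by norm_num) (by norm_num) (by norm_num) (by norm_num) hx h hp53 hL
  rcases le_total (27 / 50) T with h | hp55
  · exact soft2_step (a := (3277 / 10000)) (t := (14 / 25)) (t' := (27 / 50))
      (c := (1181 / 1250)) (L := (5359 / 10000)) (K := (49917 / 100000))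
      (by norm_num) (by norm_num) (by norm_num) (by norm_num) (by norm_num) (by norm_num) (by norm_num)
      (by norm_num) (by norm_num) (by norm_num) (by norm_num) (by norm_num) (by norm_num) (by norm_num) hx h hp54 hL
  rcases le_total (13 / 25) T with h | hp56
  · exact soft2_step (a := (631 / 2000)) (t := (27 / 50)) (t' := (13 / 25))
      (c := (949 / 1000)) (L := (43 / 80)) (K := (49939 / 100000))
      (by norm_num) (by norm_num) (by norm_num) (by norm_num) (by norm_num) (by norm_num) (by norm_num)
      (by norm_num) (by norm_num) (by norm_num) (by norm_num) (by norm_num) (by norm_num) (by norm_num) hx h hp55 hL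
  exact soft2_step (a := (3033 / 10000)) (t := (13 / 25)) (t' := (1 / 2))
      (c := (9529 / 10000)) (L := (337 / 625)) (K := (12489 / 25000))
      (by norm_num) (by norm_num) (by norm_num) (by norm_num) (by norm_num) (by norm_num) (by norm_num)
      (by norm_num) (by norm_num) (by norm_num) (by norm_num) (by norm_num) (by norm_num) (by norm_num) hx hT0 hp56 hL

/-- **legality of the soft contact** -/
theorem soft2_LG {x T : ℝ} (hx : x ∈ Ioo (0 : ℝ) 1) (hT : T ∈ Ioc (0 : ℝ) 1)
    (hL : Real.log (T / x) ≤ 1 / 2 - 23 / 200 * T ^ 8) : LG x T := by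
  rcases le_total T (1 / 2) with h | h
  · refine soft2_LG_small hx hT.1 h ?_
    have := pow_pos hT.1 8
    linarith
  · exact soft2_LG_large hx h hT.2 hL

/-- admissibility of the soft contact, real variables -/
theorem soft2_adm {x T : ℝ} (hx : x ∈ Ioo (0 : ℝ) 1) (hT : T ∈ Ioc (0 : ℝ) 1)
    (hL : Real.log (T / x) ≤ 1 / 2 - 23 / 200 * T ^ 8) :
    xA (1 / cc x) (Real.log (T / x)) ≤ xB T (1 / cc x) (Real.log (T / x)) := by
  rw [xA_le_xB_iff hx]
  exact soft2_LG hx hT hL

namespace WR

variable {n : ℕ} {r : ℝ → ℝ}

/-- admissibility along the path -/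
theorem soft2_adm_path (hr : Prof r) {s u : ℝ} (hs : s ∈ Ioo (0 : ℝ) 1) (hu : s * Real.exp u < 1)
    (h : ll n r s - u ≤ 1 / 2 - 23 / 200 * tau n r s ^ 8) :
    xA (1 / cc (s * Real.exp u)) (ll n r s - u) ≤ xB (tau n r s) (1 / cc (s * Real.exp u)) (ll n r s - u) := by
  have hT := tau_mem_half hr n hs
  have := soft2_adm (x := s * Real.exp u) (T := tau n r s) ⟨mul_pos hs.1 (Real.exp_pos _), hu⟩
    ⟨hT.1, hT.2.le⟩ (by rw [log_tau_div hr hs]; exact h)
  rwa [log_tau_div hr hs] at this

/-- the uncapped line is legal below the soft cap -/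
theorem legal_of_soft2 (hr : Prof r) {s : ℝ} (hs : s ∈ Ioo (0 : ℝ) 1)
    (h : ll n r s ≤ 1 / 2 - 23 / 200 * tau n r s ^ 8) : Legal n r s := by
  have h1 := soft2_adm_path (n := n) hr hs (u := 0) (by rw [Real.exp_zero, mul_one]; exact hs.2)
    (by rw [sub_zero]; exact h)
  rw [Real.exp_zero, mul_one, sub_zero, xA_le_xB_iff hs] at h1
  exact h1

/-- the soft cap function `v²/(v+w)` -/
noncomputable def Vq (w x : ℝ) : ℝ := if x ≤ 0 then 0 else x ^ 2 / (x + w)

/-- its derivative -/
noncomputable def Vq' (w x : ℝ) : ℝ := 1 - w ^ 2 / (max x 0 + w) ^ 2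

lemma Vq_of_nonpos {w x : ℝ} (hx : x ≤ 0) : Vq w x = 0 := by
  unfold Vq; rw [if_pos hx]

lemma Vq_of_nonneg {w x : ℝ} (h0 : 0 ≤ x) : Vq w x = x ^ 2 / (x + w) := by
  unfold Vq
  by_cases h : x ≤ 0
  · have : x = 0 := le_antisymm h h0
    rw [if_pos h, this]; simp
  · rw [if_neg h]

lemma Vq'_of_nonpos {w x : ℝ} (hw : 0 < w) (hx : x ≤ 0) : Vq' w x = 0 := by
  unfold Vq'
  rw [max_eq_right hx, zero_add, div_self (by positivity), sub_self]

lemma Vq'_of_nonneg {w x : ℝ} (hx : 0 ≤ x) : Vq' w x = 1 - w ^ 2 / (x + w) ^ 2 := by
  unfold Vq'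
  rw [max_eq_left hx]

lemma continuous_Vq' {w : ℝ} (hw : 0 < w) : Continuous (Vq' w) := by
  unfold Vq'
  refine continuous_const.sub (continuous_const.div (by fun_prop) fun x => ?_)
  have : 0 < max x 0 + w := by
    have := le_max_right x 0
    linarith
  positivity

lemma hasDerivAt_Vq {w : ℝ} (hw : 0 < w) (x : ℝ) : HasDerivAt (Vq w) (Vq' w x) x := by
  have d1 : ∀ y : ℝ, 0 ≤ y → HasDerivAt (fun z : ℝ => z ^ 2 / (z + w)) (1 - w ^ 2 / (y + w) ^ 2) y := by
    intro y hy
    have hyw : y + w ≠ 0 := by positivity
    have h1 := (hasDerivAt_pow 2 y).fun_div ((hasDerivAt_id y).add_const w) hyw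
    refine h1.congr_deriv ?_
    simp only [id]
    field_simp
    norm_num
    ring
  rcases lt_trichotomy x 0 with h | h | h
  · rw [Vq'_of_nonpos hw h.le]
    refine (hasDerivAt_const x (0 : ℝ)).congr_of_eventuallyEq ?_
    filter_upwards [Iio_mem_nhds h] with y hy
    exact Vq_of_nonpos (le_of_lt hy)
  · subst h
    rw [Vq'_of_nonpos hw le_rfl]
    have hL : HasDerivWithinAt (Vq w) 0 (Iic 0) 0 := by
      refine (hasDerivWithinAt_const (0 : ℝ) (Iic 0) (0 : ℝ)).congr (fun y hy => Vq_of_nonpos hy)
        (Vq_of_nonpos le_rfl)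
    have hR : HasDerivWithinAt (Vq w) 0 (Ici 0) 0 := by
      have h1 := (d1 0 le_rfl).hasDerivWithinAt (s := Ici 0)
      rw [zero_add, div_self (by positivity), sub_self] at h1
      exact h1.congr (fun y hy => Vq_of_nonneg hy) (Vq_of_nonneg le_rfl)
    have := hL.union hR
    rwa [Iic_union_Ici, hasDerivWithinAt_univ] at this
  · rw [Vq'_of_nonneg h.le]
    refine (d1 x h.le).congr_of_eventuallyEq ?_
    filter_upwards [Ioi_mem_nhds h] with y hy
    exact Vq_of_nonneg (le_of_lt hy)

lemma Vq_nonneg {w x : ℝ} (hw : 0 < w) : 0 ≤ Vq w x := by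
  rcases le_total x 0 with h | h
  · rw [Vq_of_nonpos h]
  · rw [Vq_of_nonneg h]; positivity

lemma sub_le_Vq {w x : ℝ} (hw : 0 < w) : x - w ≤ Vq w x := by
  rcases le_total x 0 with h | h
  · rw [Vq_of_nonpos h]; linarith
  · rw [Vq_of_nonneg h, le_div_iff₀ (by positivity)]
    nlinarith [sq_nonneg w]

lemma Vq_le {w x : ℝ} (hw : 0 < w) (hx : 0 ≤ x) : Vq w x ≤ x := by
  rw [Vq_of_nonneg hx, div_le_iff₀ (by positivity)]
  nlinarith [mul_nonneg hx hw.le]

/-- the cap of the final design -/
noncomputable def capF (T : ℝ) : ℝ := 43 / 100 - 23 / 200 * T ^ 8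

/-- its derivative -/
noncomputable def capF' (T : ℝ) : ℝ := -(23 / 25) * T ^ 7

lemma hasDerivAt_capF (t : ℝ) : HasDerivAt capF (capF' t) t := by
  have h := ((hasDerivAt_pow 8 t).const_mul (23 / 200)).const_sub (43 / 100)
  unfold capF capF'
  refine h.congr_deriv ?_
  norm_num
  ring

lemma continuous_capF' : Continuous capF' := by
  unfold capF'
  fun_prop

/-- **the legality part of the far region** -/
theorem softq_far (hr : Prof r) {s : ℝ} (hs : s ∈ Ioo (0 : ℝ) 1) (h : capF (tau n r s) < ll n r s) :
    s * Real.exp (Vq (7 / 100) (ll n r s - capF (tau n r s))) < 1 ∧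
    xA (1 / cc (s * Real.exp (Vq (7 / 100) (ll n r s - capF (tau n r s)))))
      (ll n r s - Vq (7 / 100) (ll n r s - capF (tau n r s))) ≤
    xB (tau n r s) (1 / cc (s * Real.exp (Vq (7 / 100) (ll n r s - capF (tau n r s)))))
      (ll n r s - Vq (7 / 100) (ll n r s - capF (tau n r s))) := by
  have hT := tau_mem_half hr n hs
  have hT8 : tau n r s ^ 8 ≤ 1 := pow_le_one₀ hT.1.le hT.2.le
  have hT80 : 0 < tau n r s ^ 8 := pow_pos hT.1 8
  have hcap : capF (tau n r s) = 43 / 100 - 23 / 200 * tau n r s ^ 8 := rfl
  set x := ll n r s - capF (tau n r s) with hx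
  have h1 := Vq_le (w := 7 / 100) (by norm_num) (x := x) (by linarith)
  have h2 := sub_le_Vq (w := 7 / 100) (by norm_num) (x := x)
  have h3 : s * Real.exp (Vq (7 / 100) x) < 1 := by
    have h4 : tau n r s = s * Real.exp (ll n r s) := by
      have := Real.exp_log (div_pos hT.1 hs.1)
      rw [ll_eq_log hs, this]
      have := hs.1.ne'
      field_simp
    have h5 : Vq (7 / 100) x ≤ ll n r s := by linarith
    calc s * Real.exp (Vq (7 / 100) x) ≤ s * Real.exp (ll n r s) :=
          mul_le_mul_of_nonneg_left (Real.exp_le_exp.2 h5) hs.1.le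
      _ = tau n r s := h4.symm
      _ < 1 := hT.2
  exact ⟨h3, soft2_adm_path hr hs h3 (by linarith)⟩

/-- **Conclusion for the frozen soft contact**: all legality discharged. -/
theorem softq_concl (hn : 5 ≤ n) (hr : Prof r) {P : ℝ → ℝ} (nP : NI n P)
    (hPle : JJ n P ≤ JJ n (fun s => clo n s (ll n r s) (kk n r s))) {e0 e1 s1 : ℝ}
    (hs1 : s1 ∈ Ioo (0 : ℝ) 1) (hx1 : ll n r s1 ≤ capF (tau n r s1))
    (hleg : ∀ s ∈ Ioo (0 : ℝ) s1, Legal n r s)
    (hnear : ∀ s ∈ Ioo (0 : ℝ) 1, (s < s1 ∨ ll n r s ≤ capF (tau n r s)) →
      0 ≤ P s ∧ (P s = 0 → ll n r s = 0))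
    (hfar : ∀ s ∈ Ico s1 (1 : ℝ), capF (tau n r s) < ll n r s →
      0 < P s + (lineC n s (ll n r s) (kk n r s) (Vq (7 / 100) (ll n r s - capF (tau n r s)))
          (Vq' (7 / 100) (ll n r s - capF (tau n r s)) *
            (kk n r s - capF' (tau n r s) * (tau n r s * (1 + kk n r s)))) +
        softG n e0 e1 s (Vq (7 / 100) (ll n r s - capF (tau n r s)))
          (Vq' (7 / 100) (ll n r s - capF (tau n r s)) *
            (kk n r s - capF' (tau n r s) * (tau n r s * (1 + kk n r s)))))) : Concl n r := by
  refine soft_concl hn hr nP hPle (V := Vq (7 / 100)) (V' := Vq' (7 / 100)) (cap := capF)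
    (cap' := capF') (e0 := e0) (e1 := e1) (s1 := s1) (hasDerivAt_Vq (by norm_num))
    (continuous_Vq' (by norm_num)) (fun x hx => Vq_of_nonpos hx) hasDerivAt_capF continuous_capF'
    hs1 hx1 (by unfold capF; norm_num) ?_ ?_
  · intro s hs h
    refine ⟨?_, hnear s hs h⟩
    rcases h with h | h
    · exact hleg s ⟨hs.1, h⟩
    · refine legal_of_soft2 hr hs ?_
      unfold capF at h
      linarith
  · intro s hs h
    have hs' : s ∈ Ioo (0 : ℝ) 1 := ⟨hs1.1.trans_le hs.1, hs.2⟩
    obtain ⟨h1, h2⟩ := softq_far hr hs' h
    exact ⟨h1, h2, hfar s hs h⟩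

end WR

end Crest.Agent.R230
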