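import Crest.Agent.R230.OneDAsm
import Crest.Agent.R230.LegalSoft2
import Crest.Agent.R230.LamNeg
import Crest.Agent.R230.PLarge

/-!
# Row 230: assembly of `OneD n` for large `n` (soft contact, helper230's design v2, notes 9501 + 9555 + 9725)

`PF n μ s l k` is the far density, `FarC n s l k` the real-variable class of the far region.
-/

set_option autoImplicit false

open MeasureTheory Set Filter Topology
open scoped Pointwise ENNReal

namespace Crest.Agent.R230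

namespace WR

/-- the shift `u` -/
noncomputable def Uf (s l : ℝ) : ℝ := Vq (7 / 100) (l - capF (s * Real.exp l))

/-- `s u'` -/
noncomputable def SUf (s l k : ℝ) : ℝ :=
  Vq' (7 / 100) (l - capF (s * Real.exp l)) *
    (k - capF' (s * Real.exp l) * (s * Real.exp l * (1 + k)))

/-- gauge constant `1 - 5/N + 1/1000`, `N = n + 1` -/
noncomputable def e0F (n : ℕ) : ℝ := ((n : ℝ) - 4) / ((n : ℝ) + 1) + 1 / 1000

/-- far density -/
noncomputable def PF (n : ℕ) (μ s l k : ℝ) : ℝ :=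
  PQ n μ 0 (7 / 50) 1 0 0 s l k + (lineC n s l k (Uf s l) (SUf s l k) +
    softG n (e0F n) 0 s (Uf s l) (SUf s l k))

/-- far class; `N = n + 1`, `x = s √N` -/
structure FarC (n : ℕ) (s l k : ℝ) : Prop where
  hs : s ∈ Ioo (0 : ℝ) 1
  hx2 : 2 ≤ s * Real.sqrt ((n : ℝ) + 1)
  hT : s * Real.exp l < 1
  hcap : capF (s * Real.exp l) < l
  hC1 : s * Real.sqrt ((n : ℝ) + 1) ≤ 7 / 2 →
    Real.exp l ≤ 3 / 5 + (73 / 200 + 1 / (2 * ((n : ℝ) + 1))) * (s * Real.sqrt ((n : ℝ) + 1))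
  hC2 : 7 / 2 ≤ s * Real.sqrt ((n : ℝ) + 1) → Real.exp l ≤ 3 / 5 * (s * Real.sqrt ((n : ℝ) + 1))
  hk0 : 0 < 1 + k
  hk1 : k * cc s ≤ 1
  hk2 : (1 + k) * (s * cc s ^ 2) ≤ (1 + ((n : ℝ) + 1) * s ^ 2) * (Real.exp (-l) - s)

/-- `μ` of case II: `(N + σ/4)/(N-2)`, `σ = 28/100 (N-4)` -/
noncomputable def muF (n : ℕ) : ℝ := ((n : ℝ) + 1 + 7 / 100 * ((n : ℝ) - 3)) / ((n : ℝ) - 1)

/-- what block F4 must deliver for a profile -/
def FarApr (n : ℕ) (r : ℝ → ℝ) : Prop :=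
  ∃ s1 ∈ Ioo (0 : ℝ) 1, lB n s1 ≤ 9 / 10 * hB n 0 ∧ ll n r s1 ≤ capF (tau n r s1) ∧
    ∀ s ∈ Ico s1 (1 : ℝ), capF (tau n r s) < ll n r s →
      2 ≤ s * Real.sqrt ((n : ℝ) + 1) ∧
      (s * Real.sqrt ((n : ℝ) + 1) ≤ 7 / 2 → Real.exp (ll n r s) ≤
        3 / 5 + (73 / 200 + 1 / (2 * ((n : ℝ) + 1))) * (s * Real.sqrt ((n : ℝ) + 1))) ∧
      (7 / 2 ≤ s * Real.sqrt ((n : ℝ) + 1) →
        Real.exp (ll n r s) ≤ 3 / 5 * (s * Real.sqrt ((n : ℝ) + 1)))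

variable {n : ℕ} {r : ℝ → ℝ}

theorem kk_mul_cc_le (hr : Prof r) {s : ℝ} (hs : s ∈ Ioo (0 : ℝ) 1) : kk n r s * cc s ≤ 1 := by
  have := kk_le_cone (n := n) hr hs
  linarith

/-- `P` of the near region -/
def NearP (n : ℕ) (μ : ℝ) (r : ℝ → ℝ) : Prop := ∀ s ∈ Ioo (0 : ℝ) 1, ll n r s ≤ 11 / 20 →
  0 ≤ PQ n μ 0 (7 / 50) 1 0 0 s (ll n r s) (kk n r s) ∧
    (PQ n μ 0 (7 / 50) 1 0 0 s (ll n r s) (kk n r s) = 0 → ll n r s = 0)

/-- conclusion from near and far blocks for a fixed `μ` -/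
theorem concl_far (hn : 5 ≤ n) (hr : Prof r) (hN : NleB n r) {μ : ℝ} (hμ0 : 0 ≤ μ)
    (hμ : 0 ≤ (μ * ((n : ℝ) - 1) - ((n : ℝ) + 1) - sg n 0 (7 / 50) * lam n r) * lam n r)
    (hnear : NearP n μ r) (hapr : FarApr n r)
    (hfar : ∀ s l k : ℝ, FarC n s l k → 0 < PF n μ s l k) : Concl n r := by
  obtain ⟨s1, hs1, h90, hx1, hcl⟩ := hapr
  have hlt : ∀ s ∈ Ioo (0 : ℝ) s1, Legal n r s := by
    intro s hs
    refine legal_cyl90 (by omega) hr hN ⟨hs.1, hs.2.trans hs1.2⟩ ?_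
    refine le_trans ?_ h90
    exact lB_mono n hs.2.le
  have hle : ∀ s ∈ Ioo (0 : ℝ) 1, (s < s1 ∨ ll n r s ≤ capF (tau n r s)) → ll n r s ≤ 11 / 20 := by
    intro s hs h
    rcases h with h | h
    · exact (ll_le_of_legal hr hs (hlt s ⟨hs.1, h⟩)).1
    · refine h.trans ?_
      unfold capF
      have : 0 ≤ tau n r s ^ 8 := by positivity
      linarith
  have nP := NI_PQ hr hn μ 0 (7 / 50) 1 0 (lam n r)
  have hPle := JJ_PQ_le hr hn hN (μ := μ) (β₁ := 0) (β₂ := 7 / 50) (θ := 1) (ξ := 0) hμ0 le_rfl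
    (by norm_num) (fun _ => wpoinc hn hr) hμ
  refine softq_concl hn hr nP hPle (e0 := e0F n) (e1 := 0) hs1 hx1 hlt ?_ ?_
  · intro s hs h
    rw [PQ_lm]
    exact hnear s hs (hle s hs h)
  · intro s hs h
    have hs' : s ∈ Ioo (0 : ℝ) 1 := ⟨hs1.1.trans_le hs.1, hs.2⟩
    obtain ⟨c1, c2, c3⟩ := hcl s hs h
    have hT := mul_exp_ll (n := n) hr hs'
    have hF := hfar s (ll n r s) (kk n r s)
      { hs := hs'
        hx2 := c1
        hT := by rw [hT]; exact tau_lt_one hr n ⟨hs'.1.le, hs'.2⟩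
        hcap := by rw [hT]; exact h
        hC1 := c2
        hC2 := c3
        hk0 := kk_pos hr hs'
        hk1 := kk_mul_cc_le hr hs'
        hk2 := kk_hazard hr hs' }
    unfold PF Uf SUf at hF
    rw [hT] at hF
    rw [PQ_lm]
    exact hF

/-- `OneD n`, `n ≥ 23`, from the blocks of B9 -/
theorem oneD_far (hn : 23 ≤ n) (hnear : ∀ r : ℝ → ℝ, Prof r → ∀ μ, 0 ≤ μ → μ ≤ muF n → NearP n μ r)
    (hapr : ∀ r : ℝ → ℝ, Prof r → NleB n r → FarApr n r)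
    (hF0 : ∀ s l k : ℝ, FarC n s l k → 0 < PF n 0 s l k)
    (hF1 : ∀ s l k : ℝ, FarC n s l k → 0 < PF n (muF n) s l k) : OneD n := by
  have hnR : (23 : ℝ) ≤ n := by exact_mod_cast hn
  have hn1 : (0 : ℝ) < (n : ℝ) - 1 := by linarith
  have hmu0 : 0 ≤ muF n := by
    unfold muF
    exact div_nonneg (by linarith) hn1.le
  have hmu : muF n * ((n : ℝ) - 1) = (n : ℝ) + 1 + 7 / 100 * ((n : ℝ) - 3) := by
    unfold muF
    exact div_mul_cancel₀ _ hn1.ne'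
  have hsg : sg n 0 (7 / 50) = 7 / 25 * ((n : ℝ) - 3) := by unfold sg; ring
  refine oneD_of_concl (by omega) fun r hr hN => ?_
  rcases le_or_gt (lam n r) (-2) with h2 | h2
  · exact LamB.concl_of_lam_le (by omega) hr h2
  rcases le_total (lam n r) 0 with hlam | hlam
  · refine concl_far (by omega) hr hN le_rfl ?_ (hnear r hr 0 le_rfl hmu0) (hapr r hr hN) hF0
    rw [hsg]
    have h3 : 0 ≤ (-(lam n r)) * (((n : ℝ) + 1) + 7 / 25 * ((n : ℝ) - 3) * lam n r) := by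
      refine mul_nonneg (by linarith) ?_
      have : 7 / 25 * ((n : ℝ) - 3) * (-2) ≤ 7 / 25 * ((n : ℝ) - 3) * lam n r :=
        mul_le_mul_of_nonneg_left h2.le (by linarith)
      linarith
    linarith
  · refine concl_far (by omega) hr hN hmu0 ?_ (hnear r hr _ hmu0 le_rfl) (hapr r hr hN) hF1
    rw [hsg, hmu]
    have h4 := LamB.lam_le_quarter hr (by omega : 5 ≤ n) hN
    have h3 : 7 / 25 * ((n : ℝ) - 3) * lam n r ≤ 7 / 25 * ((n : ℝ) - 3) * (1 / 4) :=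
      mul_le_mul_of_nonneg_left h4 (by linarith)
    refine mul_nonneg ?_ hlam
    linarith

end WR

end Crest.Agent.R230
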