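import Crest.Agent.R230.FarF4
import Crest.Agent.R230.OneDFar

/-!
# Row 230, block F4 (helper91), part 2: the a-priori facts `FarApr n r` for all Lean `n ≥ 23`
-/

set_option autoImplicit false

open MeasureTheory Set Filter Topology
open scoped Pointwise ENNReal Real

namespace Crest.Agent.R230

open WR

namespace F4

/-- interpolation between two nodes -/
lemma chord {n : ℕ} {σ t x a b δ : ℝ} (hσ : 0 < σ) (ht0 : 0 ≤ t) (ha : 0 ≤ a) (hab : a < b)
    (hax : a ≤ x) (hxb : x ≤ b) (hb1 : b * σ ≤ 1)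
    (h1 : AA n * (1 - Gt n (a * σ)) ≤ σ * (a * (3 / 5 + (73 / 200 + t / 2) * a) - δ))
    (h2 : AA n * (1 - Gt n (b * σ)) ≤ σ * (b * (3 / 5 + (73 / 200 + t / 2) * b) - δ))
    (hδ : (73 / 200 + t / 2) * ((b - a) ^ 2 / 4) ≤ δ) :
    AA n * (1 - Gt n (x * σ)) ≤ σ * (x * (3 / 5 + (73 / 200 + t / 2) * x)) := by
  have hA := AA_pos n
  have hba : 0 < b - a := by linarith
  set p : ℝ := (b - x) / (b - a) with hp
  set q : ℝ := (x - a) / (b - a) with hq
  have hp0 : 0 ≤ p := div_nonneg (by linarith) hba.le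
  have hq0 : 0 ≤ q := div_nonneg (by linarith) hba.le
  have hpq : p + q = 1 := by rw [hp, hq]; field_simp; ring
  have hx : p * a + q * b = x := by rw [hp, hq]; field_simp; ring
  have haI : a * σ ∈ Icc (0 : ℝ) 1 := ⟨by positivity, by nlinarith⟩
  have hbI : b * σ ∈ Icc (0 : ℝ) 1 := ⟨by nlinarith, hb1⟩
  have hc := (Gt_concave n).2 haI hbI hp0 hq0 hpq
  simp only [smul_eq_mul] at hc
  have e1 : p * (a * σ) + q * (b * σ) = x * σ := by rw [← hx]; ring
  rw [e1] at hc
  have h3 : AA n * (1 - Gt n (x * σ)) ≤ p * (AA n * (1 - Gt n (a * σ))) + q * (AA n * (1 - Gt n (b * σ))) := by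
    have h4 : 1 - Gt n (x * σ) ≤ p * (1 - Gt n (a * σ)) + q * (1 - Gt n (b * σ)) := by
      have : p * (1 - Gt n (a * σ)) + q * (1 - Gt n (b * σ)) = (p + q) - (p * Gt n (a * σ) + q * Gt n (b * σ)) := by
        ring
      rw [this, hpq]; linarith
    calc AA n * (1 - Gt n (x * σ)) ≤ AA n * (p * (1 - Gt n (a * σ)) + q * (1 - Gt n (b * σ))) :=
          mul_le_mul_of_nonneg_left h4 hA.le
      _ = _ := by ring
  have h5 := mul_le_mul_of_nonneg_left h1 hp0
  have h6 := mul_le_mul_of_nonneg_left h2 hq0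
  set K : ℝ := 73 / 200 + t / 2 with hK
  have hK0 : 0 < K := by positivity
  -- quadratic interpolation error
  have h7 : p * (a * (3 / 5 + K * a) - δ) + q * (b * (3 / 5 + K * b) - δ) ≤ x * (3 / 5 + K * x) := by
    have e2 : p * (a * (3 / 5 + K * a) - δ) + q * (b * (3 / 5 + K * b) - δ) =
        3 / 5 * (p * a + q * b) + K * (p * a ^ 2 + q * b ^ 2) - (p + q) * δ := by ring
    have e3 : p * a ^ 2 + q * b ^ 2 = x ^ 2 + p * q * (b - a) ^ 2 := by
      have hq' : q = 1 - p := by linarith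
      rw [← hx, hq']; ring
    rw [e2, hpq, hx, e3]
    have h8 : p * q ≤ 1 / 4 := by
      have hq' : q = 1 - p := by linarith
      rw [hq']; nlinarith [sq_nonneg (p - 1 / 2)]
    have h9 : K * (p * q * (b - a) ^ 2) ≤ K * ((b - a) ^ 2 / 4) := by
      refine mul_le_mul_of_nonneg_left ?_ hK0.le
      nlinarith [sq_nonneg (b - a)]
    have e4 : x * (3 / 5 + K * x) = 3 / 5 * x + K * x ^ 2 := by ring
    have e5 : K * (x ^ 2 + p * q * (b - a) ^ 2) = K * x ^ 2 + K * (p * q * (b - a) ^ 2) := by ring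
    rw [e4, e5]
    linarith
  calc AA n * (1 - Gt n (x * σ)) ≤ p * (σ * (a * (3 / 5 + K * a) - δ)) + q * (σ * (b * (3 / 5 + K * b) - δ)) :=
        h3.trans (add_le_add h5 h6)
    _ = σ * (p * (a * (3 / 5 + K * a) - δ) + q * (b * (3 / 5 + K * b) - δ)) := by ring
    _ ≤ _ := mul_le_mul_of_nonneg_left h7 hσ.le

section

variable {n : ℕ} {r : ℝ → ℝ}

/-- the class line bound for `AA (1 - G)` or `√N ≤` class line -/
lemma class_line (hn : 23 ≤ n) {σ t x : ℝ} (hσ : 0 < σ) (hσt : t = σ ^ 2)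
    (ht : t * ((n : ℝ) + 1) = 1) (hx2 : 2 ≤ x) (hx3 : x ≤ 7 / 2) :
    AA n * (1 - Gt n (x * σ)) ≤ σ * (x * (3 / 5 + (73 / 200 + t / 2) * x)) ∨
      1 ≤ σ * (x * (3 / 5 + (73 / 200 + t / 2) * x)) := by
  have hn5 : (23 : ℝ) ≤ n := by exact_mod_cast hn
  have ht0 : 0 < t := by rw [hσt]; positivity
  have ht1 : t ≤ 1 / 24 := by nlinarith
  have hσ1 : σ ≤ 2042 / 10000 := by nlinarith
  rcases le_or_gt x (13 / 5) with h | h
  · left
    refine chord hσ ht0.le (by norm_num) (by norm_num) hx2 h (by linarith) (node2 hn hσ hσt ht)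
      (node26 hn hσ hσt ht) (by nlinarith)
  rcases le_or_gt x 3 with h' | h'
  · left
    refine chord (δ := 31 / 2000) hσ ht0.le (by norm_num) (by norm_num) h.le h' (by linarith) ?_
      (node3 hn hσ hσt ht) (by nlinarith)
    refine (node26 hn hσ hσt ht).trans (mul_le_mul_of_nonneg_left ?_ hσ.le)
    linarith
  rcases le_or_gt x (13 / 4) with h'' | h''
  · by_cases hn2 : 27 ≤ n
    · left
      have hn6 : (27 : ℝ) ≤ n := by exact_mod_cast hn2
      have ht2 : t ≤ 1 / 28 := by nlinarith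
      refine chord (δ := 3 / 500) hσ ht0.le (by norm_num) (by norm_num) h'.le h'' (by linarith) ?_
        (node325 hn2 hσ hσt ht) (by nlinarith)
      refine (node3 hn hσ hσt ht).trans (mul_le_mul_of_nonneg_left ?_ hσ.le)
      linarith
    · right
      have hn6 : (n : ℝ) ≤ 26 := by exact_mod_cast (by omega : n ≤ 26)
      have ht2 : 1 / 27 ≤ t := by nlinarith
      have h1 : 52 / 10 ≤ x * (3 / 5 + (73 / 200 + t / 2) * x) := by nlinarith [mul_pos ht0 (by linarith : 0 < x)]
      have h2 : 1924 / 10000 ≤ σ := by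
        by_contra hc
        push Not at hc
        nlinarith
      nlinarith
  · by_cases hn2 : 35 ≤ n
    · left
      have hn6 : (35 : ℝ) ≤ n := by exact_mod_cast hn2
      have ht2 : t ≤ 1 / 36 := by nlinarith
      exact chord (δ := 3 / 500) hσ ht0.le (by norm_num) (by norm_num) h''.le hx3 (by linarith)
        (node325 (by omega) hσ hσt ht) (node35 hn2 hσ hσt ht) (by nlinarith)
    · right
      have hn6 : (n : ℝ) ≤ 34 := by exact_mod_cast (by omega : n ≤ 34)
      have ht2 : 1 / 35 ≤ t := by nlinarith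
      have h1 : 592 / 100 ≤ x * (3 / 5 + (73 / 200 + t / 2) * x) := by nlinarith [mul_pos ht0 (by linarith : 0 < x)]
      have h2 : 169 / 1000 ≤ σ := by
        by_contra hc
        push Not at hc
        nlinarith
      nlinarith

theorem exp_ll_lt (hr : Prof r) {s : ℝ} (hs : s ∈ Ioo (0 : ℝ) 1) : s * Real.exp (ll n r s) < 1 := by
  rw [mul_exp_ll hr hs]
  exact tau_lt_one hr n ⟨hs.1.le, hs.2⟩

/-- **(C1)** -/
theorem farC1 (hn : 23 ≤ n) (hr : Prof r) (hN : NleB n r) {s : ℝ} (hs : s ∈ Ioo (0 : ℝ) 1)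
    (hF : 9 / 10 * hB n 0 ≤ lB n s) (hx2 : 2 ≤ s * Real.sqrt ((n : ℝ) + 1))
    (hx3 : s * Real.sqrt ((n : ℝ) + 1) ≤ 7 / 2) :
    Real.exp (ll n r s) ≤ 3 / 5 + (73 / 200 + 1 / (2 * ((n : ℝ) + 1))) * (s * Real.sqrt ((n : ℝ) + 1)) := by
  have hN0 : (0 : ℝ) < (n : ℝ) + 1 := by positivity
  have hR : 0 < Real.sqrt ((n : ℝ) + 1) := Real.sqrt_pos.2 hN0
  have hR2 : Real.sqrt ((n : ℝ) + 1) ^ 2 = (n : ℝ) + 1 := Real.sq_sqrt hN0.le
  set R := Real.sqrt ((n : ℝ) + 1) with hRd
  set σ : ℝ := 1 / R with hσd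
  have hσ : 0 < σ := by positivity
  have hσR : R * σ = 1 := by rw [hσd]; field_simp
  have ht : σ ^ 2 * ((n : ℝ) + 1) = 1 := by rw [← hR2]; rw [hσd]; field_simp
  have hxs : s * R * σ = s := by rw [mul_assoc, hσR, mul_one]
  have e1 : 1 / (2 * ((n : ℝ) + 1)) = σ ^ 2 / 2 := by
    rw [div_eq_div_iff (by positivity) (by norm_num)]; linarith
  rw [e1]
  set x := s * R with hxd
  have h := class_line hn hσ rfl ht hx2 hx3
  rw [hxs] at h
  have e2 : σ * (x * (3 / 5 + (73 / 200 + σ ^ 2 / 2) * x)) = s * (3 / 5 + (73 / 200 + σ ^ 2 / 2) * x) := by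
    rw [← mul_assoc, mul_comm σ x, hxs]
  rw [e2] at h
  have hT := mul_exp_ll (n := n) hr hs
  have h1 := exp_ll_lt (n := n) hr hs
  rcases h with h | h
  · have h2 := tau_le_AA (by omega) hr hN hs hF
    refine le_of_mul_le_mul_left ?_ hs.1
    rw [hT]
    exact h2.trans h
  · refine le_of_mul_le_mul_left ?_ hs.1
    linarith

/-- `e^l ≤ 133/100` for `x ≤ 2` -/
theorem farC0 (hn : 23 ≤ n) (hr : Prof r) (hN : NleB n r) {s : ℝ} (hs : s ∈ Ioo (0 : ℝ) 1)
    (hF : 9 / 10 * hB n 0 ≤ lB n s) (hx2 : s * Real.sqrt ((n : ℝ) + 1) ≤ 2) :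
    Real.exp (ll n r s) ≤ 133 / 100 := by
  have hN0 : (0 : ℝ) < (n : ℝ) + 1 := by positivity
  have hn5 : (23 : ℝ) ≤ n := by exact_mod_cast hn
  have hR : 0 < Real.sqrt ((n : ℝ) + 1) := Real.sqrt_pos.2 hN0
  have hR2 : Real.sqrt ((n : ℝ) + 1) ^ 2 = (n : ℝ) + 1 := Real.sq_sqrt hN0.le
  set R := Real.sqrt ((n : ℝ) + 1) with hRd
  set σ : ℝ := 1 / R with hσd
  have hσ : 0 < σ := by positivity
  have hσR : R * σ = 1 := by rw [hσd]; field_simp
  have ht : σ ^ 2 * ((n : ℝ) + 1) = 1 := by rw [← hR2]; rw [hσd]; field_simp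
  have hσ1 : σ ≤ 2042 / 10000 := by nlinarith
  have hxs : s * R * σ = s := by rw [mul_assoc, hσR, mul_one]
  set x := s * R with hxd
  have hx0 : 0 < x := by have := hs.1; positivity
  have hA := AA_pos n
  have h1 := node2a hn hσ rfl ht
  have hc := (Gt_concave n).2 (show (0 : ℝ) ∈ Icc (0 : ℝ) 1 by norm_num)
    (show 2 * σ ∈ Icc (0 : ℝ) 1 from ⟨by positivity, by linarith⟩) (show 0 ≤ 1 - x / 2 by linarith)
    (show 0 ≤ x / 2 by positivity) (by ring)
  simp only [smul_eq_mul, mul_zero, zero_add, Gt_zero, mul_one] at hc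
  have e1 : x / 2 * (2 * σ) = s := by rw [← hxs]; ring
  rw [e1] at hc
  have h2 := tau_le_AA (by omega) hr hN hs hF
  have hT := mul_exp_ll (n := n) hr hs
  refine le_of_mul_le_mul_left ?_ hs.1
  rw [hT]
  calc tau n r s ≤ AA n * (1 - Gt n s) := h2
    _ ≤ AA n * (x / 2 * (1 - Gt n (2 * σ))) := by
        refine mul_le_mul_of_nonneg_left ?_ hA.le
        linarith
    _ = x / 2 * (AA n * (1 - Gt n (2 * σ))) := by ring
    _ ≤ x / 2 * (σ * (133 / 50)) := by
        refine mul_le_mul_of_nonneg_left ?_ (by positivity)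
        exact h1
    _ = s * (133 / 100) := by rw [← hxs]; ring

set_option maxHeartbeats 1600000 in
/-- **(C2)** -/
theorem farC2 (hn : 23 ≤ n) (hr : Prof r) (hN : NleB n r) {s : ℝ} (hs : s ∈ Ioo (0 : ℝ) 1)
    (hx3 : 7 / 2 ≤ s * Real.sqrt ((n : ℝ) + 1)) :
    Real.exp (ll n r s) ≤ 3 / 5 * (s * Real.sqrt ((n : ℝ) + 1)) := by
  have hN0 : (0 : ℝ) < (n : ℝ) + 1 := by positivity
  have hn5 : (23 : ℝ) ≤ n := by exact_mod_cast hn
  have hR : 0 < Real.sqrt ((n : ℝ) + 1) := Real.sqrt_pos.2 hN0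
  have hR2 : Real.sqrt ((n : ℝ) + 1) ^ 2 = (n : ℝ) + 1 := Real.sq_sqrt hN0.le
  set R := Real.sqrt ((n : ℝ) + 1) with hRd
  set σ : ℝ := 1 / R with hσd
  have hσ : 0 < σ := by positivity
  have hσR : R * σ = 1 := by rw [hσd]; field_simp
  have ht : σ ^ 2 * ((n : ℝ) + 1) = 1 := by rw [← hR2]; rw [hσd]; field_simp
  have hσ1 : σ ≤ 2042 / 10000 := by nlinarith
  have hxs : s * R * σ = s := by rw [mul_assoc, hσR, mul_one]
  set x := s * R with hxd
  have hx0 : 0 < x := by have := hs.1; positivity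
  have hT := mul_exp_ll (n := n) hr hs
  have h1 := exp_ll_lt (n := n) hr hs
  have hs0 := hs.1
  by_cases hn2 : n ≤ 53
  · -- `T < 1`
    have hn6 : (n : ℝ) ≤ 53 := by exact_mod_cast hn2
    have hR3 : R ≤ 735 / 100 := by nlinarith
    refine le_of_mul_le_mul_left ?_ hs.1
    have h2 : 1 ≤ s * (3 / 5 * x) := by
      have h3 : s * (3 / 5 * x) * R = 3 / 5 * x ^ 2 := by rw [hxd]; ring
      have h4 : 735 / 100 ≤ 3 / 5 * x ^ 2 := by nlinarith
      have h5 : 1 * R ≤ s * (3 / 5 * x) * R := by linarith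
      exact le_of_mul_le_mul_right h5 hR
    linarith
  · have hn6 : (54 : ℝ) ≤ n := by exact_mod_cast (by omega : 54 ≤ n)
    have hc0 := cc_nonneg s
    have hc2 : cc s ^ 2 = 1 - s ^ 2 := cc_sq ⟨by linarith, hs.2.le⟩
    rcases le_or_gt (cc s) (82 / 100) with hc | hc
    · -- `s` not small
      have hs9 : 57 / 100 ≤ s := by nlinarith
      have h2 : Real.exp (ll n r s) ≤ 100 / 57 := by
        refine le_of_mul_le_mul_left ?_ hs.1
        have : 1 ≤ s * (100 / 57) := by linarith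
        linarith
      linarith
    · -- comparison with the point `x = 7/2`
      set b : ℝ := 7 / 2 * σ with hbd
      have hb0 : 0 < b := by positivity
      have hbs : b ≤ s := by rw [← hxs]; exact mul_le_mul_of_nonneg_right hx3 hσ.le
      have hb1 : b < 1 := hbs.trans_lt hs.2
      have hbI : b ∈ Ioo (0 : ℝ) 1 := ⟨hb0, hb1⟩
      have ht2 : σ ^ 2 ≤ 1 / 55 := by nlinarith
      -- bound at `b`
      have hTb : tau n r b ≤ b * (191 / 100) := by
        rcases le_total (lB n b) (9 / 10 * hB n 0) with hF | hF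
        · have h3 := tau_le_of_NleB90 hr (by omega) hN hbI hF
          have h4 := R_le n (by omega)
          have h5 : lB n b ≤ b := by
            have h6 : lB n b ≤ ∫ x in (0 : ℝ)..b, (1 : ℝ) := by
              refine intervalIntegral.integral_mono_on hb0.le (intervalIntegrable_cpow n _ _)
                (by simp) fun x hx => ?_
              refine pow_le_one₀ (Real.sqrt_nonneg _) ?_
              rw [Real.sqrt_le_left (by norm_num)]
              nlinarith [sq_nonneg x]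
            simpa using h6
          have h6 : Real.exp (1 / 2) ≤ 164873 / 100000 := by
            have h7 : Real.exp (1 / 2) ^ 2 = Real.exp 1 := by rw [← Real.exp_nat_mul]; norm_num
            have h8 := Real.exp_one_lt_d9
            nlinarith [Real.exp_pos (1 / 2)]
          have hlB := lB_pos n (s := b) ⟨hb0, hb1.le⟩
          calc tau n r b ≤ (w (n - 1) / w n) ^ n * lB n b := h3
            _ ≤ 164873 / 100000 * lB n b := mul_le_mul_of_nonneg_right (h4.trans h6) hlB.le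
            _ ≤ 164873 / 100000 * b := by gcongr
            _ ≤ _ := by nlinarith
        · have h3 := tau_le_AA (by omega) hr hN hbI hF
          have h4 := node35 (by omega) hσ rfl ht
          refine h3.trans (h4.trans ?_)
          rw [hbd]
          have : (7 / 2 * (3 / 5 + (73 / 200 + σ ^ 2 / 2) * (7 / 2)) - 3 / 500) ≤ 7 / 2 * (191 / 100) := by linarith
          have := mul_le_mul_of_nonneg_left this hσ.le
          linarith
      have hanti := LamB.tau_div_anti hr n hb0 (show b ∈ Icc b 1 from ⟨le_rfl, hb1.le⟩)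
        (show s ∈ Icc b 1 from ⟨hbs, hs.2.le⟩) hbs
      simp only at hanti
      have hcb0 := cc_nonneg b
      have hcb2 : cc b ^ 2 = 1 - b ^ 2 := cc_sq ⟨by linarith, hb1.le⟩
      have hcb1 : cc b ≤ 1 := by nlinarith
      have hcs1 : cc s < 1 := by nlinarith
      have hcb3 : cc b < 1 := by nlinarith
      have e1 : 1 - cc s = s ^ 2 / (1 + cc s) := by
        rw [eq_div_iff (by linarith)]; nlinarith
      have e2 : 1 - cc b = b ^ 2 / (1 + cc b) := by
        rw [eq_div_iff (by linarith)]; nlinarith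
      rw [div_le_div_iff₀ (by linarith) (by linarith), e1, e2] at hanti
      have hanti2 : tau n r s * (b ^ 2 * (1 + cc s)) ≤ tau n r b * (s ^ 2 * (1 + cc b)) := by
        have h3 : 0 < 1 + cc s := by linarith
        have h4 : 0 < 1 + cc b := by linarith
        have h5 := mul_le_mul_of_nonneg_right hanti (mul_pos h3 h4).le
        have e3 : tau n r s * (b ^ 2 / (1 + cc b)) * ((1 + cc s) * (1 + cc b)) =
            tau n r s * (b ^ 2 * (1 + cc s)) := by field_simp
        have e4 : tau n r b * (s ^ 2 / (1 + cc s)) * ((1 + cc s) * (1 + cc b)) =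
            tau n r b * (s ^ 2 * (1 + cc b)) := by field_simp
        linarith
      -- conclude
      have hτ := tau_pos hr n (s := s) ⟨hs.1, hs.2.le⟩
      have h3 : tau n r s * (b * (182 / 100)) ≤ 191 / 100 * (s ^ 2 * 2) := by
        have h4 : b * (tau n r s * (b * (182 / 100))) ≤ b * (191 / 100 * (s ^ 2 * 2)) := by
          have h5 : tau n r s * (b ^ 2 * (182 / 100)) ≤ tau n r s * (b ^ 2 * (1 + cc s)) :=
            mul_le_mul_of_nonneg_left (mul_le_mul_of_nonneg_left (by linarith) (sq_nonneg b)) hτ.le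
          have h6 : s ^ 2 * (1 + cc b) ≤ s ^ 2 * 2 := mul_le_mul_of_nonneg_left (by linarith) (sq_nonneg s)
          have h7 : tau n r b * (s ^ 2 * (1 + cc b)) ≤ (b * (191 / 100)) * (s ^ 2 * 2) :=
            mul_le_mul hTb h6 (mul_nonneg (sq_nonneg s) (by linarith)) (by positivity)
          have e3 : b * (tau n r s * (b * (182 / 100))) = tau n r s * (b ^ 2 * (182 / 100)) := by ring
          have e4 : b * (191 / 100 * (s ^ 2 * 2)) = (b * (191 / 100)) * (s ^ 2 * 2) := by ring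
          rw [e3, e4]
          exact h5.trans (hanti2.trans h7)
        exact le_of_mul_le_mul_left h4 hb0
      refine le_of_mul_le_mul_left ?_ hs.1
      rw [hT]
      have h4 : (b * (182 / 100)) * tau n r s ≤ (b * (182 / 100)) * (s * (3 / 5 * x)) := by
        have e5 : (b * (182 / 100)) * (s * (3 / 5 * x)) = (7 / 2 * (182 / 100) * (3 / 5)) * (s * (x * σ)) := by
          rw [hbd]; ring
        rw [e5, hxs]
        have e6 : (b * (182 / 100)) * tau n r s = tau n r s * (b * (182 / 100)) := by ring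
        rw [e6]
        have : 191 / 100 * (s ^ 2 * 2) ≤ 7 / 2 * (182 / 100) * (3 / 5) * (s * s) := by nlinarith [sq_nonneg s]
        linarith
      exact le_of_mul_le_mul_left h4 (by positivity)

/-- **block F4** -/
theorem farApr (hn : 23 ≤ n) (hr : Prof r) (hN : NleB n r) : FarApr n r := by
  obtain ⟨s₁, hs₁, hs₁e, -, -, -, hl, hτ⟩ := farE1 (n := n) (by omega) hr hN
  have hτ0 := tau_pos hr n (s := s₁) ⟨hs₁.1, hs₁.2.le⟩
  have hcapge : ∀ T : ℝ, 0 ≤ T → T ≤ 1 → 315 / 1000 ≤ capF T := by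
    intro T h0 h1
    unfold capF
    have : T ^ 8 ≤ 1 := pow_le_one₀ h0 h1
    linarith
  refine ⟨s₁, hs₁, hs₁e.le, ?_, ?_⟩
  · have := hcapge _ hτ0.le (by linarith)
    linarith
  · intro s hs hcap
    have hs' : s ∈ Ioo (0 : ℝ) 1 := ⟨hs₁.1.trans_le hs.1, hs.2⟩
    have hF : 9 / 10 * hB n 0 ≤ lB n s := by rw [← hs₁e]; exact lB_mono n hs.1
    have hτs := tau_pos hr n (s := s) ⟨hs'.1, hs'.2.le⟩
    have hτ1 := (tau_mem_Icc hr n (s := s) ⟨by linarith [hs'.1], hs'.2.le⟩).2
    have h1 := hcapge _ hτs.le hτ1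
    have h2 : 2 ≤ s * Real.sqrt ((n : ℝ) + 1) := by
      by_contra hc
      push Not at hc
      have h3 := farC0 hn hr hN hs' hF hc.le
      have h4 := Real.quadratic_le_exp_of_nonneg (show (0 : ℝ) ≤ 315 / 1000 by norm_num)
      have h5 : Real.exp (315 / 1000) ≤ Real.exp (ll n r s) := Real.exp_le_exp.2 (by linarith)
      norm_num at h4
      linarith
    exact ⟨h2, fun h3 => farC1 hn hr hN hs' hF h2 h3, fun h3 => (farC2 hn hr hN hs' h3).trans (by linarith)⟩

end

end F4

end Crest.Agent.R230
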