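import Crest.Agent.R230.FinalAll
import Crest.Agent.R230.FarMu
import Crest.Agent.R230.FarF4b

/-!
# Row 230: everything up to `PosNeg 6`, `PosNeg 7` and the single far inequality `0 < PStar` on `FarC`
-/

set_option autoImplicit false

open MeasureTheory Set
open scoped Pointwise ENNReal

namespace Crest.Agent.R230

theorem oneD_ge_23 (h : ∀ n, 23 ≤ n → ∀ s l k : ℝ, WR.FarC n s l k → 0 < WR.PStar n s l k) :
    ∀ n, 23 ≤ n → OneD n := fun n hn =>
  WR.oneD_far_star hn (fun _ hr hN => F4.farApr hn hr hN) (h n hn)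

/-- the whole chain -/
theorem crux_of_star (h6 : PosNeg 6) (h7 : PosNeg 7)
    (h : ∀ n, 23 ≤ n → ∀ s l k : ℝ, WR.FarC n s l k → 0 < WR.PStar n s l k) :
    ∀ n, 2 ≤ n → CruxE n :=
  crux_final (oneD_all h6 h7 (oneD_ge_23 h))

end Crest.Agent.R230
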