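import Crest.Agent.R230.SD5Main

/-!
# Row 230: `SDL 4`
-/

set_option autoImplicit false
set_option maxHeartbeats 1000000

open MeasureTheory Set Filter Topology Real

namespace Crest.Agent.R230

namespace SD

theorem w_four : w 4 = 16 / 15 := by
  unfold w
  have h1 : ∫ s in (-1 : ℝ)..1, √(1 - s ^ 2) ^ 4 =
      ∫ s in (-1 : ℝ)..1, (1 - 2 * s ^ 2 + s ^ 4) := by
    apply intervalIntegral.integral_congr
    intro s hs
    rw [uIcc_of_le (by norm_num)] at hs
    have h2 : √(1 - s ^ 2) ^ 2 = 1 - s ^ 2 := Real.sq_sqrt (by nlinarith [hs.1, hs.2])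
    have e : √(1 - s ^ 2) ^ 4 = (√(1 - s ^ 2) ^ 2) ^ 2 := by ring
    simp only [e, h2]
    ring
  rw [h1]
  have hd : ∀ u ∈ uIcc (-1 : ℝ) 1, HasDerivAt (fun u : ℝ => u - 2 * u ^ 3 / 3 + u ^ 5 / 5)
      (1 - 2 * u ^ 2 + u ^ 4) u := by
    intro u _
    have h0 := hasDerivAt_id u
    have h2 := ((hasDerivAt_pow 3 u).const_mul 2).div_const 3
    have h4 := (hasDerivAt_pow 5 u).div_const 5
    refine HasDerivAt.congr_deriv ((h0.sub h2).add h4) ?_
    push_cast
    ring
  rw [intervalIntegral.integral_eq_sub_of_hasDerivAt hd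
    ((by fun_prop : Continuous fun u : ℝ => (1 - 2 * u ^ 2 + u ^ 4)).intervalIntegrable _ _)]
  norm_num

end SD

open SD in
theorem sdl_four : SDL 4 := by
  intro r hr hge hN hM
  have hc := ext_cont hr
  have hmain := main5 hr hge
  have hpi := Real.pi_pos
  set I3 := ∫ s in (0 : ℝ)..1, ext r s ^ 3 with hI3
  set I4 := ∫ s in (0 : ℝ)..1, ext r s ^ 4 with hI4
  set J := ∫ s in (0 : ℝ)..1, (s ^ 2 * ext r s ^ 4 - ext r s ^ 6 / 6) with hJ
  set D := ∫ s in (0 : ℝ)..1, (ext r s ^ 3 - √(1 - s ^ 2) ^ 3) with hDdef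
  have hD : D = I3 - 3 * π / 16 := by
    rw [hDdef, intervalIntegral.integral_sub
      ((by fun_prop : Continuous fun s : ℝ => ext r s ^ 3).intervalIntegrable _ _)
      ((by fun_prop : Continuous fun s : ℝ => √(1 - s ^ 2) ^ 3).intervalIntegrable _ _)]
    have hI := int_sqrt3 (α := π / 2) (by positivity) le_rfl
    rw [Real.sin_pi_div_two, Real.cos_pi_div_two] at hI
    rw [hI]
    ring
  have hV : ∫ s in (0 : ℝ)..1, PV5 s (ext r s) = 15 / 8 * I4 + 6 / 7 * J := by
    have e : ∀ s : ℝ, PV5 s (ext r s) =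
        15 / 8 * ext r s ^ 4 + 6 / 7 * (s ^ 2 * ext r s ^ 4 - ext r s ^ 6 / 6) := by
      intro s; unfold PV5; ring
    simp only [e]
    rw [intervalIntegral.integral_add
      ((by fun_prop : Continuous fun s : ℝ => 15 / 8 * ext r s ^ 4).intervalIntegrable _ _)
      ((by fun_prop : Continuous fun s : ℝ =>
        6 / 7 * (s ^ 2 * ext r s ^ 4 - ext r s ^ 6 / 6)).intervalIntegrable _ _),
      intervalIntegral.integral_const_mul, intervalIntegral.integral_const_mul]
  have hJ0 : 0 ≤ J := by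
    have e1 : ∫ s in (-1 : ℝ)..1, (s ^ 2 * r s ^ 4 - r s ^ (4 + 2) / (((4 : ℕ) : ℝ) + 2)) =
        ∫ s in (-1 : ℝ)..1, (s ^ 2 * ext r s ^ 4 - ext r s ^ 6 / 6) := by
      apply intervalIntegral.integral_congr
      intro s hs
      rw [uIcc_of_le (by norm_num)] at hs
      simp only [ext_eq hs]
      norm_num
    rw [e1, even_int (by fun_prop)] at hM
    · linarith
    · intro s hs
      rw [ext_even hr hs]; ring
  have hm3 : mom 3 r = 2 * I3 := mom_eq hr 3
  have hm4 : mom 4 r = 2 * I4 := mom_eq hr 4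
  have hN' : (2 * I3) ^ 4 * (16 / 15) ^ 3 ≤ (3 * π / 8) ^ 4 * (2 * I4) ^ 3 := by
    have := hN
    unfold NleB at this
    simp only [show 4 - 1 = 3 from rfl, hm3, hm4, w_three, w_four] at this
    exact this
  have hI3' : 0 ≤ I3 := intervalIntegral.integral_nonneg zero_le_one fun s _ =>
    pow_nonneg (ext_nonneg hge s) 3
  have hI4' : 0 ≤ I4 := intervalIntegral.integral_nonneg zero_le_one fun s _ =>
    pow_nonneg (ext_nonneg hge s) 4
  have hF : 1 + 16 / (3 * π) * D = 16 / (3 * π) * I3 := by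
    rw [hD]; field_simp; ring
  rw [hV, hF] at hmain
  have hkey : (16 / (3 * π) * I3) ^ (4 / 3 : ℝ) ≤ 15 / 8 * I4 := by
    have hA : 0 ≤ 16 / (3 * π) * I3 := by positivity
    have h1 : (16 / (3 * π) * I3) ^ 4 ≤ (15 / 8 * I4) ^ 3 := by
      have e2 : (16 / (3 * π) * I3) ^ 4 = (65536 / 81) * I3 ^ 4 / π ^ 4 := by
        field_simp
        ring
      rw [e2, div_le_iff₀ (by positivity)]
      nlinarith
    have h2 : ((16 / (3 * π) * I3) ^ 4) ^ (1 / 3 : ℝ) ≤ ((15 / 8 * I4) ^ 3) ^ (1 / 3 : ℝ) :=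
      Real.rpow_le_rpow (by positivity) h1 (by norm_num)
    have e3 : ((16 / (3 * π) * I3) ^ 4) ^ (1 / 3 : ℝ) = (16 / (3 * π) * I3) ^ (4 / 3 : ℝ) := by
      rw [← Real.rpow_natCast, ← Real.rpow_mul hA]
      norm_num
    have e4 : ((15 / 8 * I4) ^ 3) ^ (1 / 3 : ℝ) = 15 / 8 * I4 := by
      rw [← Real.rpow_natCast, ← Real.rpow_mul (by positivity)]
      norm_num
    rw [e3, e4] at h2
    exact h2
  have hD0 : D ≤ 0 := by
    have h1 : 16 / (3 * π) * D ≤ 0 := by linarith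
    by_contra hneg
    push Not at hneg
    have : 0 < 16 / (3 * π) * D := by positivity
    linarith
  have hz := zero_of_int (f := fun s => ext r s ^ 3 - √(1 - s ^ 2) ^ 3) (by fun_prop) ?_ hD0
  · have key : ∀ s ∈ Icc (0 : ℝ) 1, r s = √(1 - s ^ 2) := by
      intro s hs
      have hs' : s ∈ Icc (-1 : ℝ) 1 := ⟨by linarith [hs.1], hs.2⟩
      have h1 := hz s hs
      simp only [ext_eq hs'] at h1
      have h2 : r s ^ 3 = √(1 - s ^ 2) ^ 3 := by linarith
      exact (pow_left_inj₀ ((Real.sqrt_nonneg _).trans (hge s hs')) (Real.sqrt_nonneg _)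
        (by norm_num)).1 h2
    intro s hs
    rcases le_total 0 s with h0 | h0
    · exact key s ⟨h0, hs.2⟩
    · have h1 := key (-s) ⟨by linarith, by linarith [hs.1]⟩
      rw [hr.even s hs] at h1
      rw [h1]; congr 1; ring
  · intro s hs
    have hs' : s ∈ Icc (-1 : ℝ) 1 := ⟨by linarith [hs.1], hs.2⟩
    simp only [ext_eq hs']
    have h1 := pow_le_pow_left₀ (Real.sqrt_nonneg _) (hge s hs') 3
    linarith

end Crest.Agent.R230
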