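import Crest.Agent.R230.Final
import Crest.Agent.R230.SDL4
import Crest.Agent.R230.B6Prof

/-!
# Row 230: the crux in all dimensions from `OneD n`, `n ≥ 23`
-/

set_option autoImplicit false

open MeasureTheory Set
open scoped Pointwise ENNReal

namespace Crest.Agent.R230

/-- the crux for Lean `2 ≤ n ≤ 22` (body dimensions 3 to 23) -/
theorem crux_le_22 {n : ℕ} (h2 : 2 ≤ n) (h22 : n ≤ 22) : CruxE n := by
  rcases lt_or_ge n 5 with h | h
  · interval_cases n
    · exact crux_of_SDL (by norm_num) sdl_two
    · exact crux_of_SDL (by norm_num) sdl_three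
    · exact crux_of_SDL (by norm_num) sdl_four
  · exact crux_of_OneD h2 (oneD_le_22 h h22)

/-- the crux in all dimensions from the one-dimensional lemma for `n ≥ 23` -/
theorem crux_of_far (hfar : ∀ n, 23 ≤ n → OneD n) : ∀ n, 2 ≤ n → CruxE n := by
  intro n hn
  rcases Nat.lt_or_ge n 23 with h | h
  · exact crux_le_22 hn (by omega)
  · exact crux_of_OneD hn (hfar n h)

end Crest.Agent.R230
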