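import Crest.Agent.R230.FarTailNeg
import Crest.Agent.R230.FarNegPos
import Crest.Agent.R230.FarBoxStar
import Crest.Agent.R230.FarTail
import Crest.Agent.R230.FinalStar
import Crest.Agent.R230.S0354Pre

/-!
# Row 230: `PStar > 0` for all `n ≥ 23` (all blocks) and the crux in every dimension
-/

set_option autoImplicit false

namespace Crest.Agent.R230

theorem PStar_pos {n : ℕ} (hn : 23 ≤ n) {s l k : ℝ} (h : WR.FarC n s l k) :
    0 < WR.PStar n s l k := by
  rcases le_total k 0 with hk | hk
  · rcases le_total l (9 / 10) with hl | hl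
    · exact WR.PStar_neg_box hn h hk (by linarith)
    · exact WR.PStar_pos_tailneg hn h hl hk
  · rcases le_total l (9 / 10) with hl | hl
    · exact WR.PStar_pos_box hn h hk hl
    · exact WR.PStar_pos_tail hn h hk hl

theorem crux_every {n : ℕ} (hn : 2 ≤ n) : CruxE n :=
  crux_of_far (oneD_ge_23 fun _ hm _ _ _ h => PStar_pos hm h) n hn

end Crest.Agent.R230
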