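import Crest.Agent.R230.IA

/-!
# Row 230: box checker for the far block, `k ≥ 0` (helper782): the computation

`box s0 s1 l0 l1` certifies positivity of the far density on `s ∈ [s0,s1]`, `l ∈ [l0,l1]` (scale `2^40`).
-/

set_option autoImplicit false

namespace Crest.Agent.R230.FB

open Crest.Agent.R230.IA

/-- numbers of a box -/
structure Nb where
  X : ℕ      -- lower bound of N s²
  g : ℕ      -- lower bound of g
  z0 : ℕ
  z1 : ℕ
  P : ℕ      -- positive part of P0 (lower)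
  Q : ℕ      -- negative part of P0 (upper)
  a0 : ℕ     -- lower bound of a
  b1 : ℕ     -- upper bound of 2Yl + (1+e) E V (1+tp)
  A : ℕ      -- upper bound of A2
  c1 : ℕ
  ga : ℕ     -- E0 V0 (1+tp0): coefficient of k in G (lower)
  gb : ℕ     -- E0 V0 tp0 + Em0 (1+2Y0)/2 (lower)
  Ga : ℕ     -- upper
  Gb : ℕ     -- upper
  hz : ℕ     -- lower bound of c² T / (1-T)
  l1 : ℕ

/-- upper bound of `k - log (1+k)` -/
def hU (k : ℕ) : ℕ := dU (mU (mU k k) (k + 3298534883328)) (mD k k + 6 * k + 6597069766656)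

/-- value test at an end point `k` of a `k`-interval with reference point `κ* = ks` -/
def kend (b : Nb) (X M ks bc : ℕ) (k : ℕ) : Bool :=
  Nat.blt (b.Q + mU b.b1 k + mU b.A (1099511627776 + mU (dU 1099511627776 ks) (dU (1099511627776 + k) ks)) +
      mU (mU b.c1 b.c1) (7 * mU k k / 50 + 1) + mU M (hU k))
    (mD X b.g + mD bc (mD b.ga k + b.gb) + b.P + mD b.a0 k + mD b.A (dD 2199023255552 ks))

/-- the test on the `k`-interval `[k0,k1]` -/
def kint (b : Nb) (k0 k1 : ℕ) : Bool :=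
  let X := max b.X (mD (1099511627776 + k0) b.hz - 1099511627776)
  let N := max 26388279066624 (dD X b.z1)
  let M := mU (1176477441722 + dU 2045091627664 (N - 2199023255552))
      (dU (N - 1099511627776) (N - 1099511627776 - b.l1))
  let G1 := mU b.Ga k1 + b.Gb
  let bc := bif Nat.ble (5 * mU b.z1 G1) (mD (mD X X) b.g) then dD (5 * b.z0) X else 0
  let ks := (k0 + k1) / 2 + 1099511627776
  kend b X M ks bc k0 && kend b X M ks bc k1

def box (s0 s1 l0 l1 : ℕ) : Bool :=
  let z0 := mD s0 s0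
  let z1 := mU s1 s1
  let c0 := sqD (1099511627776 - z1)
  let c1 := sqU (1099511627776 - z0)
  let el0 := expD l0
  let T0 := mD s0 el0
  let T1 := min (mU s1 (expU l1)) 1099511627776
  let T80 := p8D T0
  let T81 := p8U T1
  let cap0 := 472789999943 - (23 * T81 / 200 + 1)
  let cap1 := 472789999944 - 23 * T80 / 200
  let v0 := l0 - cap1
  let v1 := l1 - cap0
  let y0 := dD v0 (v0 + 76965813945)
  let y1 := dU v1 (v1 + 76965813944)
  let u0 := mD v0 y0
  let u1 := mU v1 y1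
  let om0 := 1099511627776 - y1
  let om1 := 1099511627776 - y0
  let V0 := 1099511627776 - mU om1 om1
  let V1 := 1099511627776 - mD om0 om0
  let lh0 := cap0 + mD 76965813944 y0
  let lh1 := cap1 + mU 76965813945 y1
  let E0 := expD (2 * u0)
  let E1 := expU (2 * u1)
  let Em0 := E0 - 1099511627776
  let Em1 := E1 - 1099511627776
  let Sh0 := mD z0 E0
  let Sh1 := mU z1 E1
  let h0 := sqD (1099511627776 - Sh1)
  let h1 := sqU (1099511627776 - Sh0)
  let q0 := dD 1099511627776 c1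
  let q1 := dU 1099511627776 c0
  let qh0 := dD 1099511627776 h1
  let qh1 := dU 1099511627776 h0
  let q02 := mD q0 q0
  let q12 := mU q1 q1
  let Y0 := mD z0 q02
  let Y1 := mU z1 q12
  let B0 := mD qh0 qh0 + q02 + mD qh0 q0 - 3298534883328
  let gp := dD (mD (mD lh0 B0) (mD Em0 qh0)) (c1 + h1) + mD (mD l0 l0) (mD q02 (Y0 + 307863255777)) +
    mD (Em0 / 2000) q02
  let r1 := dU 1099511627776 (c0 + h0)
  let gn := mU (mU (mU z1 (mU Em1 Em1) / 2 + 1) (mU (2 * c1 + h1) q12)) (mU qh1 (mU r1 r1)) +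
    mU (mU (mU u1 z1) (mU (1099511627776 + 2 * c1) q12))
      (dU 1099511627776 (mD (1099511627776 + c0) (1099511627776 + c0)))
  let cT0 := sqD (1099511627776 - mU T1 T1)
  let qh13 := mU qh1 (mU qh1 qh1)
  let qh03 := mD qh0 (mD qh0 qh0)
  -- c Wh = w1 - w2
  let w1D := 2 * mD c0 (qh0 - dU h1 (1099511627776 + h1))
  let w1U := 2 * mU c1 (qh1 - dD h0 (1099511627776 + h0))
  let w2U := 3 * mU (mU c1 lh1) (mU Sh1 qh13)
  let w2D := 3 * mD (mD c0 lh0) (mD Sh0 qh03)
  let A := mU (mU om1 om1) (w1U - w2D)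
  let tp0 := 23 * T80 / 25
  let tp1 := 23 * T81 / 25 + 1
  let a0 := 2199023255552 - dU (2 * mU c1 c1) (1099511627776 + c1)
  let EV1 := mU (E1 + (E1 / 1000 + 1)) V1
  let b1 := 2 * mU Y1 l1 + mU EV1 (1099511627776 + tp1)
  let bb0 := 1099511627776 + 4 * Y0 + dD (1099511627776 - c1) (1099511627776 + c1)
  let t3 := mU c1 (mU qh13 (1099511627776 + 3 * Sh1))
  let P := mD u0 bb0 + mD lh0 (bb0 - t3)
  let Q := mU (mU l1 l1) (mU Y1 (4 * Y1 + 4529987906438)) +
    mU c1 (dU h1 (1099511627776 + h1) - dD cT0 (1099511627776 + cT0)) +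
    mU lh1 (t3 - bb0) +
    (mU Em1 (1100611139404 + 7 * Y1 + (2 * Y1 / 1000 + 1)) / 2 + 1) +
    mU (mU V1 tp1) (E1 + (E1 / 1000 + 1) + w2U - w1D)
  let x := max (dD (el0 - (659706976666 + (z1 / 4 + 1))) 401321744139)
    (max (dD (el0 - 659706976666) 424228236384) 2199023255552)
  let Xm := bif Nat.ble x 3848290697216 then mD x x else
    max 13469017440256 (25 * mD el0 el0 / 9)
  let X := max (24 * z0) Xm
  let hz := dD (mD (mD c0 c0) T0) (1099511627776 - T0)
  let b : Nb := ⟨X, gp - gn, z0, z1, P, Q, a0, b1, A, c1, mD (mD E0 V0) (1099511627776 + tp0),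
    mD (mD E0 V0) tp0 + mD Em0 (1099511627776 + 2 * Y0) / 2,
    mU (mU E1 V1) (1099511627776 + tp1),
    mU (mU E1 V1) tp1 + (mU Em1 (1099511627776 + 2 * Y1) / 2 + 1), hz, l1⟩
  Nat.ble 1099511627776 T0 || Nat.ble v1 0 ||
  (Nat.blt Sh1 1099511627776 && Nat.ble gn gp && Nat.blt 0 c0 && Nat.blt 0 h0 &&
   Nat.ble l1 1099511627776 &&
   kint b 0 274877906944 && kint b 274877906944 549755813888 &&
   kint b 549755813888 824633720832 && kint b 824633720832 1099511627776 &&
   kint b 1099511627776 q1)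

/-- bisection -/
def bis : ℕ → ℕ → ℕ → ℕ → ℕ → Bool
  | 0, s0, s1, l0, l1 => box s0 s1 l0 l1
  | n + 1, s0, s1, l0, l1 => box s0 s1 l0 l1 ||
      (bif Nat.blt (l1 - l0) (s1 - s0) then
        bis n s0 ((s0 + s1) / 2) l0 l1 && bis n ((s0 + s1) / 2) s1 l0 l1
      else
        bis n s0 s1 l0 ((l0 + l1) / 2) && bis n s0 s1 ((l0 + l1) / 2) l1)

end Crest.Agent.R230.FB
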