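import Crest.Agent.R230.FarBoxS
import Crest.Agent.R230.OneDFar

/-!
# Row 230: block F1 (`k ≥ 0`, `l ≤ 9/10`) of the far region by a kernel-checked box certificate (helper782)
-/

set_option autoImplicit false

open Set

namespace Crest.Agent.R230.FB

open Crest.Agent.R230.IA Crest.Agent.R230.WR

lemma split_pt (m : ℕ) (x : ℝ) : UB x m ∨ LB m x := by
  unfold UB LB
  exact le_total _ _

theorem bis_sound : ∀ (n s0 s1 l0 l1 : ℕ), bis n s0 s1 l0 l1 = true → ∀ {s l : ℝ}, LB s0 s → UB s s1 →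
    LB l0 l → UB l l1 → ∃ a b c d : ℕ, box a b c d = true ∧ LB a s ∧ UB s b ∧ LB c l ∧ UB l d := by
  intro n
  induction n with
  | zero =>
    intro s0 s1 l0 l1 h s l h1 h2 h3 h4
    exact ⟨s0, s1, l0, l1, h, h1, h2, h3, h4⟩
  | succ n ih =>
    intro s0 s1 l0 l1 h s l h1 h2 h3 h4
    unfold bis at h
    rw [Bool.or_eq_true] at h
    rcases h with h | h
    · exact ⟨s0, s1, l0, l1, h, h1, h2, h3, h4⟩
    · cases hb : Nat.blt (l1 - l0) (s1 - s0) with
      | true =>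
        rw [hb] at h
        simp only [cond_true, Bool.and_eq_true] at h
        rcases split_pt ((s0 + s1) / 2) s with h5 | h5
        · exact ih _ _ _ _ h.1 h1 h5 h3 h4
        · exact ih _ _ _ _ h.2 h5 h2 h3 h4
      | false =>
        rw [hb] at h
        simp only [cond_false, Bool.and_eq_true] at h
        rcases split_pt ((l0 + l1) / 2) l with h5 | h5
        · exact ih _ _ _ _ h.1 h1 h2 h3 h5
        · exact ih _ _ _ _ h.2 h1 h2 h5 h4

theorem cert1 : bis 22 0 274877906944 329853488332 989560464999 = true := by decide +kernel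
theorem cert2 : bis 22 274877906944 549755813888 329853488332 989560464999 = true := by decide +kernel
theorem cert3 : bis 22 549755813888 824633720832 329853488332 989560464999 = true := by decide +kernel

theorem cert_all {s l : ℝ} (hs0 : 0 ≤ s) (hs : s ≤ 3 / 4) (hl0 : 3 / 10 ≤ l) (hl : l ≤ 9 / 10) :
    ∃ a b c d : ℕ, box a b c d = true ∧ LB a s ∧ UB s b ∧ LB c l ∧ UB l d := by
  have h1 : LB 329853488332 l := LB_q (by norm_num; linarith)
  have h2 : UB l 989560464999 := UB_q (by norm_num; linarith)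
  have h3 : UB s 824633720832 := UB_q (by norm_num; linarith)
  rcases split_pt 274877906944 s with h | h
  · exact bis_sound _ _ _ _ _ cert1 (LB_zero hs0) h h1 h2
  rcases split_pt 549755813888 s with h' | h'
  · exact bis_sound _ _ _ _ _ cert2 h h' h1 h2
  · exact bis_sound _ _ _ _ _ cert3 h' h3 h1 h2

/-- `μ e^{l/n} ≤ (1.07 + 1.86/(N-2)) (N-1)/(N-1-l)` -/
lemma mu_exp_le {n : ℕ} (hn : 23 ≤ n) {μ l : ℝ} (hμ0 : 0 ≤ μ) (hμ : μ ≤ muF n) (hl0 : 0 ≤ l)
    (hl : l ≤ 1) : μ * Real.exp (l / n) ≤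
      (107 / 100 + 186 / 100 / ((n : ℝ) + 1 - 2)) * (((n : ℝ) + 1 - 1) / ((n : ℝ) + 1 - 1 - l)) := by
  have hn' : (23 : ℝ) ≤ n := by exact_mod_cast hn
  have h1 : muF n = 107 / 100 + 186 / 100 / ((n : ℝ) + 1 - 2) := by
    unfold muF
    have e : (n : ℝ) + 1 - 2 = n - 1 := by ring
    rw [e]
    have : (n : ℝ) - 1 ≠ 0 := by linarith
    field_simp
    ring
  rw [h1] at hμ
  have h0 : 0 ≤ l / n := by positivity
  have h2 : l / n < 1 := by rw [div_lt_one (by linarith)]; linarith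
  have h3 := Real.exp_bound_div_one_sub_of_interval h0 h2
  have h4 : 1 / (1 - l / n) = ((n : ℝ) + 1 - 1) / ((n : ℝ) + 1 - 1 - l) := by
    have : (n : ℝ) ≠ 0 := by linarith
    have e : (n : ℝ) + 1 - 1 = n := by ring
    rw [e]
    have h5 : (n : ℝ) - l ≠ 0 := by linarith
    have h6 : 1 - l / n ≠ 0 := by linarith
    rw [div_eq_div_iff h6 h5]
    field_simp
  rw [h4] at h3
  exact mul_le_mul hμ h3 (Real.exp_pos _).le (hμ0.trans hμ)

/-- **block F1, `l ≤ 9/10`** (both corners: every `0 ≤ μ ≤ muF n`) -/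
theorem PF_pos_box {n : ℕ} (hn : 23 ≤ n) {μ s l k : ℝ} (hμ0 : 0 ≤ μ) (hμ : μ ≤ muF n)
    (h : FarC n s l k) (hk : 0 ≤ k) (hl : l ≤ 9 / 10) : 0 < PF n μ s l k := by
  have hn' : (23 : ℝ) ≤ n := by exact_mod_cast hn
  obtain ⟨hs, hx2, hT1, hcap, hC1, hC2, hk0, hk1, hk2⟩ := h
  have hs0 := hs.1
  obtain ⟨T, hT⟩ : ∃ T : ℝ, T = s * Real.exp l := ⟨_, rfl⟩
  have hT0 : 0 < T := by rw [hT]; have := Real.exp_pos l; positivity
  rw [← hT] at hT1 hcap
  have hT81 : T ^ 8 < 1 := pow_lt_one₀ hT0.le hT1 (by norm_num)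
  have hcapF : capF T = 43 / 100 - 23 / 200 * T ^ 8 := rfl
  rw [hcapF] at hcap
  have hl315 : 63 / 200 < l := by linarith
  have hs34 : s ≤ 3 / 4 := by
    have h1 := Real.quadratic_le_exp_of_nonneg (show 0 ≤ l by linarith)
    have h2 : 4 / 3 ≤ Real.exp l := by nlinarith
    by_contra hcon
    push Not at hcon
    have : 1 < T := by rw [hT]; nlinarith
    linarith
  obtain ⟨s0, s1, l0, l1, hbox, b1, b2, b3, b4⟩ := cert_all hs0.le hs34 (by linarith) hl
  obtain ⟨v, hvd⟩ : ∃ v : ℝ, v = l - (43 / 100 - 23 / 200 * T ^ 8) := ⟨_, rfl⟩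
  have hv0 : 0 < v := by rw [hvd]; linarith
  obtain ⟨u, hud⟩ : ∃ u : ℝ, u = Uf s l := ⟨_, rfl⟩
  have huv : u = v * (v / (v + 7 / 100)) := by
    rw [hud]; unfold Uf
    rw [← hT, hcapF, ← hvd, Vq_of_nonneg hv0.le]
    ring
  obtain ⟨V1, hV1d⟩ : ∃ u : ℝ, u = Vq' (7 / 100) (l - capF T) := ⟨_, rfl⟩
  have hV1 : V1 = 1 - (1 - v / (v + 7 / 100)) * (1 - v / (v + 7 / 100)) := by
    rw [hV1d, hcapF, ← hvd, Vq'_of_nonneg hv0.le]
    have : v + 7 / 100 ≠ 0 := by positivity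
    field_simp
    ring
  have hul : u < l := by
    have h1 : v / (v + 7 / 100) < 1 := by rw [div_lt_one (by positivity)]; linarith
    have h2 : u < v := by rw [huv]; nlinarith
    have : 0 < T ^ 8 := by positivity
    have : v < l := by rw [hvd]; linarith
    linarith
  have hsu : s * Real.exp u < 1 := by
    have : s * Real.exp u < s * Real.exp l := mul_lt_mul_of_pos_left (Real.exp_lt_exp.2 hul) hs0
    rw [← hT] at this
    linarith
  have hsE : s * s * Real.exp (2 * u) = (s * Real.exp u) ^ 2 := by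
    rw [mul_pow, ← Real.exp_nat_mul]; push_cast; ring
  have hzE : s * s * Real.exp (2 * u) < 1 := by
    rw [hsE]
    have : 0 < s * Real.exp u := by have := Real.exp_pos u; positivity
    nlinarith
  have hlow := far_lower (n := n) (by omega) (Mu := (107 / 100 + 186 / 100 / ((n : ℝ) + 1 - 2)) *
    (((n : ℝ) + 1 - 1) / ((n : ℝ) + 1 - 1 - l))) (lm := 0) (l := l) (V1 := V1)
    (tp := 23 / 25 * T ^ 8) hs hsu hk hμ0 (mu_exp_le hn hμ0 hμ (by linarith) (by linarith))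
  have hPF : PF n μ s l k = PQ n μ 0 (7 / 50) 1 0 0 s l k + (lineC n s l k u
      (V1 * (k + 23 / 25 * T ^ 8 * (1 + k))) + softG n (((n : ℝ) - 4) / ((n : ℝ) + 1) + 1 / 1000) 0 s u
      (V1 * (k + 23 / 25 * T ^ 8 * (1 + k)))) := by
    unfold PF SUf
    rw [SU_eq, ← hT, ← hud, ← hV1d]
    rfl
  rw [hPF]
  refine lt_of_lt_of_le ?_ hlow
  have hx : s * Real.sqrt ((n : ℝ) + 1) * (s * Real.sqrt ((n : ℝ) + 1)) = ((n : ℝ) + 1) * (s * s) := by
    have := Real.mul_self_sqrt (show 0 ≤ (n : ℝ) + 1 by positivity)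
    calc _ = s * s * (Real.sqrt ((n : ℝ) + 1) * Real.sqrt ((n : ℝ) + 1)) := by ring
      _ = _ := by rw [this]; ring
  have hss : s ^ 2 = s * s := by ring
  have hcc : cc s = Real.sqrt (1 - s * s) := by unfold cc; rw [hss]
  have hcu : cc (s * Real.exp u) = Real.sqrt (1 - s * s * Real.exp (2 * u)) := by
    unfold cc; rw [hsE]
  have hcT : cc (s * Real.exp l) = Real.sqrt (1 - T * T) := by
    unfold cc; rw [← hT]; ring_nf
  have hk2' : (1 + k) * (s * cc s ^ 2) ≤ (1 + ((n : ℝ) + 1) * (s * s)) * (Real.exp (-l) - s) := by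
    rw [← hss]; exact hk2
  have := box_real hbox (N := (n : ℝ) + 1) (z := s * s) (T := T) (u := u) (V := V1)
    (cap := 43 / 100 - 23 / 200 * T ^ 8) (y := v / (v + 7 / 100)) (c := cc s)
    (ch := cc (s * Real.exp u)) (cT := cc (s * Real.exp l)) (E := Real.exp (2 * u))
    (x := s * Real.sqrt ((n : ℝ) + 1)) (by linarith) hs0 hs.2 rfl b1 b2 b3 b4
    (by linarith) hT hT1 rfl hcap (by rw [hvd]) (by rw [huv, hvd]) hV1 rfl hcc hzE hcu hcT hx hx2
    hC1 hC2 hk hk1 hk2' le_rfl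
  rw [hss]
  exact this

end Crest.Agent.R230.FB
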