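import Crest.Agent.R230.FarBoxDef
import Crest.Agent.R230.PLargeAux

/-!
# Row 230: box checker for the far block, `k ≥ 0` (helper782): soundness of the `k`-part
-/

set_option autoImplicit false

open Set

namespace Crest.Agent.R230.FB

open Crest.Agent.R230.IA Crest.Agent.R230.WR

lemma hconv {a b k : ℝ} (ha : 0 ≤ a) (h1 : a ≤ k) (h2 : k ≤ b) :
    (b - a) * (k - Real.log (1 + k)) ≤
      (b - k) * (a - Real.log (1 + a)) + (k - a) * (b - Real.log (1 + b)) := by
  rcases eq_or_lt_of_le (h1.trans h2) with h | h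
  · have e1 : k = a := le_antisymm (h ▸ h2) h1
    rw [← h, e1]; simp
  have hba : 0 < b - a := by linarith
  have hA : 1 + a ∈ Ioi (0 : ℝ) := mem_Ioi.2 (by linarith)
  have hB : 1 + b ∈ Ioi (0 : ℝ) := mem_Ioi.2 (by linarith)
  have hab1 : (b - k) / (b - a) + (k - a) / (b - a) = 1 := by field_simp; ring
  have hc := strictConcaveOn_log_Ioi.concaveOn.2 hA hB
    (div_nonneg (show 0 ≤ b - k by linarith) hba.le)
    (div_nonneg (show 0 ≤ k - a by linarith) hba.le) hab1
  simp only [smul_eq_mul] at hc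
  have e : (b - k) / (b - a) * (1 + a) + (k - a) / (b - a) * (1 + b) = 1 + k := by
    field_simp; ring
  rw [e] at hc
  have h3 := mul_le_mul_of_nonneg_left hc hba.le
  have e2 : (b - a) * ((b - k) / (b - a) * Real.log (1 + a) + (k - a) / (b - a) * Real.log (1 + b)) =
      (b - k) * Real.log (1 + a) + (k - a) * Real.log (1 + b) := by
    field_simp
  rw [e2] at h3
  nlinarith [h3]

lemma h_nonneg {k : ℝ} (hk : 0 ≤ k) : 0 ≤ k - Real.log (1 + k) := by
  have := Real.log_le_sub_one_of_pos (show 0 < 1 + k by linarith)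
  linarith

lemma h_le {k : ℝ} (hk : 0 ≤ k) :
    k - Real.log (1 + k) ≤ k * k * (k + 3) / (k * k + 6 * k + 6) := by
  refine (PL.h_le_pos hk).trans (le_of_eq ?_)
  unfold KK
  have : 1 + k ≠ 0 := by positivity
  have : k ^ 2 + 6 * k + 6 ≠ 0 := by positivity
  have : k * k + 6 * k + 6 ≠ 0 := by positivity
  field_simp
  ring

lemma hU_spec {k : ℕ} {x : ℝ} (hx : x = (k : ℝ) / 1099511627776) :
    UB (x * x * (x + 3) / (x * x + 6 * x + 6)) (hU k) := by
  have hx0 : 0 ≤ x := by rw [hx]; positivity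
  have h1 : UB x k := by rw [hx]; exact UB_self k
  have h2 : LB k x := by rw [hx]; exact LB_self k
  have e3 : UB 3 3298534883328 := UB_q (by norm_num)
  have e6 : LB 6597069766656 6 := LB_q (by norm_num)
  have h3 : UB (x * x * (x + 3)) (mU (mU k k) (k + 3298534883328)) :=
    UB_mul (UB_mul h1 h1 hx0 hx0) (UB_add h1 e3) (by positivity) (by positivity)
  have h4 : LB (mD k k + 6 * k + 6597069766656) (x * x + 6 * x + 6) := by
    have := LB_add (LB_add (LB_mul h2 h2) (LB_nmul 6 h2)) e6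
    exact_mod_cast this
  unfold hU
  exact UB_div h3 h4 (by omega) (by positivity)

/-- linear interpolation of concave lower bounds -/
lemma interp {a b k La Lb Lk : ℝ} (h1 : a ≤ k) (h2 : k ≤ b) (hab : a < b) (hLa : 0 < La) (hLb : 0 < Lb)
    (h : (b - k) * La + (k - a) * Lb ≤ (b - a) * Lk) : 0 < Lk := by
  have h3 : 0 < (b - k) * La + (k - a) * Lb := by
    rcases eq_or_lt_of_le h2 with h4 | h4
    · rw [h4]; nlinarith [mul_pos (sub_pos.2 hab) hLb]
    · have := mul_pos (sub_pos.2 h4) hLa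
      have := mul_nonneg (sub_nonneg.2 h1) hLb.le
      linarith
  have h5 : 0 < (b - a) * Lk := lt_of_lt_of_le h3 h
  by_contra hh
  push Not at hh
  nlinarith [mul_nonneg (sub_nonneg.2 hab.le) (neg_nonneg.2 hh)]

/-- N-elimination -/
lemma Nelim {X X' g G z : ℝ} (hX : 0 < X) (hXX : X ≤ X') (hg0 : 0 ≤ g) (h : 5 * (z * G) ≤ X * X * g) :
    X * g + 5 * z / X * G ≤ X' * g + 5 * z / X' * G := by
  have hX' : 0 < X' := by linarith
  have e : X' * g + 5 * z / X' * G - (X * g + 5 * z / X * G) =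
      (X' - X) * (X * X' * g - 5 * (z * G)) / (X * X') := by
    field_simp
    ring
  have hg : 0 ≤ X * X' * g - 5 * (z * G) := by
    have : X * X * g ≤ X * X' * g := by
      apply mul_le_mul_of_nonneg_right _ hg0
      exact mul_le_mul_of_nonneg_left hXX hX.le
    linarith
  have : 0 ≤ (X' - X) * (X * X' * g - 5 * (z * G)) / (X * X') := by
    apply div_nonneg (mul_nonneg (by linarith) hg) (by positivity)
  linarith

/-- the `k`-part: lower bound with all coefficients fixed -/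
noncomputable def LL (α β A ks γ M k : ℝ) (H : ℝ) : ℝ :=
  α + β * k - A * (1 - 2 / ks + (1 + k) / (ks * ks)) - γ * (k * k) - M * H

lemma LL_interp {α β A ks γ M a b k : ℝ} (_hA : 0 ≤ A) (hγ : 0 ≤ γ) (hM : 0 ≤ M) (ha : 0 ≤ a)
    (h1 : a ≤ k) (h2 : k ≤ b) (hab : a < b)
    (hLa : 0 < LL α β A ks γ M a (a * a * (a + 3) / (a * a + 6 * a + 6)))
    (hLb : 0 < LL α β A ks γ M b (b * b * (b + 3) / (b * b + 6 * b + 6))) :
    0 < LL α β A ks γ M k (k - Real.log (1 + k)) := by
  refine interp h1 h2 hab hLa hLb ?_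
  have hb : 0 ≤ b := by linarith
  have e1 := h_le ha
  have e2 := h_le hb
  have e3 := hconv ha h1 h2
  have e4 : (b - a) * (k * k) ≤ (b - k) * (a * a) + (k - a) * (b * b) := by
    have : (b - k) * (a * a) + (k - a) * (b * b) - (b - a) * (k * k) = (b - k) * (k - a) * (b - a) := by
      ring
    have h5 : 0 ≤ (b - k) * (k - a) * (b - a) :=
      mul_nonneg (mul_nonneg (by linarith) (by linarith)) (by linarith)
    linarith
  have e5 := mul_le_mul_of_nonneg_left e4 hγ
  have e6 : (b - k) * (a - Real.log (1 + a)) ≤ (b - k) * (a * a * (a + 3) / (a * a + 6 * a + 6)) :=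
    mul_le_mul_of_nonneg_left e1 (by linarith)
  have e7 : (k - a) * (b - Real.log (1 + b)) ≤ (k - a) * (b * b * (b + 3) / (b * b + 6 * b + 6)) :=
    mul_le_mul_of_nonneg_left e2 (by linarith)
  have e8 := mul_le_mul_of_nonneg_left (e3.trans (add_le_add e6 e7)) hM
  unfold LL
  generalize a * a * (a + 3) / (a * a + 6 * a + 6) = ha' at *
  generalize b * b * (b + 3) / (b * b + 6 * b + 6) = hb' at *
  generalize k - Real.log (1 + k) = hk' at *
  generalize 2 / ks = w at *
  have e9 : (b - k) * (A * (1 - w + (1 + a) / (ks * ks))) + (k - a) * (A * (1 - w + (1 + b) / (ks * ks))) =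
      (b - a) * (A * (1 - w + (1 + k) / (ks * ks))) := by
    ring
  linarith

/-- reference point inequality -/
lemma inv_ge {κ ks : ℝ} (hκ : 0 < κ) (hks : 0 < ks) : 2 / ks - κ / (ks * ks) ≤ 1 / κ := by
  have e : 1 / κ - (2 / ks - κ / (ks * ks)) = (κ - ks) ^ 2 / (κ * (ks * ks)) := by
    field_simp
    ring
  have : 0 ≤ (κ - ks) ^ 2 / (κ * (ks * ks)) := by positivity
  linarith

/-- soundness of the end point test -/
lemma kend_sound {b : Nb} {X M ks bc k : ℕ} (h : kend b X M ks bc k = true)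
    {g Pp Pn a b1 c ga gb : ℝ} (hg : LB b.g g) (hPp : LB b.P Pp) (hPn : UB Pn b.Q)
    (ha : LB b.a0 a) (hb1 : UB b1 b.b1) (hb10 : 0 ≤ b1) (hc : UB c b.c1) (hc0 : 0 ≤ c)
    (hga : LB b.ga ga) (hgb : LB b.gb gb) (hks : 0 < ks) {x : ℝ} (hx : x = (k : ℝ) / 1099511627776) :
    0 < LL ((X : ℝ) / 1099511627776 * g + (bc : ℝ) / 1099511627776 * gb + (Pp - Pn))
      (a - b1 + (bc : ℝ) / 1099511627776 * ga) ((b.A : ℝ) / 1099511627776)
      ((ks : ℝ) / 1099511627776) (7 / 50 * (c * c)) ((M : ℝ) / 1099511627776) x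
      (x * x * (x + 3) / (x * x + 6 * x + 6)) := by
  unfold kend at h
  rw [Nat.blt_eq] at h
  have hx0 : 0 ≤ x := by rw [hx]; positivity
  have h1 : UB x k := by rw [hx]; exact UB_self k
  have h2 : LB k x := by rw [hx]; exact LB_self k
  obtain ⟨Xr, hXr⟩ : ∃ Xr : ℝ, Xr = (X : ℝ) / 1099511627776 := ⟨_, rfl⟩
  obtain ⟨Br, hBr⟩ : ∃ Xr : ℝ, Xr = (bc : ℝ) / 1099511627776 := ⟨_, rfl⟩
  obtain ⟨Ar, hAr⟩ : ∃ Xr : ℝ, Xr = (b.A : ℝ) / 1099511627776 := ⟨_, rfl⟩
  obtain ⟨Kr, hKr⟩ : ∃ Xr : ℝ, Xr = (ks : ℝ) / 1099511627776 := ⟨_, rfl⟩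
  obtain ⟨Mr, hMr⟩ : ∃ Xr : ℝ, Xr = (M : ℝ) / 1099511627776 := ⟨_, rfl⟩
  have lX : LB X Xr := by rw [hXr]; exact LB_self X
  have lB : LB bc Br := by rw [hBr]; exact LB_self bc
  have lA : LB b.A Ar := by rw [hAr]; exact LB_self _
  have uA : UB Ar b.A := by rw [hAr]; exact UB_self _
  have lK : LB ks Kr := by rw [hKr]; exact LB_self _
  have uK : UB Kr ks := by rw [hKr]; exact UB_self _
  have uM : UB Mr M := by rw [hMr]; exact UB_self _
  have Ar0 : 0 ≤ Ar := lA.nonneg
  have Mr0 : 0 ≤ Mr := by rw [hMr]; positivity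
  have Kr0 : 0 < Kr := lK.pos hks
  rw [← hXr, ← hBr, ← hAr, ← hKr, ← hMr]
  have e2 : LB 2199023255552 2 := LB_q (by norm_num)
  -- positive part
  have p1 := LB_add (LB_add (LB_add (LB_add (LB_mul lX hg) (LB_mul lB (LB_add (LB_mul hga h2) hgb))) hPp)
    (LB_mul ha h2)) (LB_mul lA (LB_div e2 uK Kr0))
  -- negative part
  have n1 : UB (1 / Kr * ((1 + x) / Kr)) (mU (dU 1099511627776 ks) (dU (1099511627776 + k) ks)) :=
    UB_mul (UB_div UB_one lK hks (by norm_num)) (UB_div (UB_add UB_one h1) lK hks (by positivity))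
      (by positivity) (by positivity)
  have n2 : UB (7 * (x * x) / (50 : ℕ)) (7 * mU k k / 50 + 1) :=
    UB_ndiv (by norm_num) (by exact_mod_cast UB_nmul 7 (UB_mul h1 h1 hx0 hx0))
  have n3 := UB_add (UB_add (UB_add (UB_add hPn (UB_mul hb1 h1 hb10 hx0))
    (UB_mul uA (UB_add UB_one n1) Ar0 (by positivity)))
    (UB_mul (UB_mul hc hc hc0 hc0) n2 (by positivity) (by positivity)))
    (UB_mul uM (hU_spec hx) Mr0 (by positivity))
  have hfin := LB.lt p1 n3 h
  unfold LL
  push_cast at hfin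
  have e3 : 1 / Kr * ((1 + x) / Kr) = (1 + x) / (Kr * Kr) := by
    field_simp
  rw [e3] at hfin
  nlinarith [hfin]

/-- **soundness of the test on a `k`-interval** -/
theorem kint_sound {b : Nb} {k0 k1 : ℕ} (h : kint b k0 k1 = true)
    {N z g Pp Pn a b1 A2 c ga gb hz' l k Mu : ℝ} (hN : 24 ≤ N) (hz : 0 < z) (hX : LB b.X (N * z))
    (hX0 : 0 < b.X) (hg : LB b.g g) (hz0 : LB b.z0 z) (hz1 : UB z b.z1) (hPp : LB b.P Pp)
    (hPn : UB Pn b.Q) (ha : LB b.a0 a) (hb1 : UB b1 b.b1) (hb10 : 0 ≤ b1) (hA : UB A2 b.A)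
    (hc : UB c b.c1) (hc0 : 0 ≤ c) (hga : LB b.ga ga) (hgb : LB b.gb gb) (hGa : UB ga b.Ga)
    (hGb : UB gb b.Gb) (hhz : LB b.hz hz') (hhaz : (1 + k) * hz' ≤ 1 + N * z) (hl1 : UB l b.l1)
    (hl0 : 0 ≤ l) (hl1' : b.l1 ≤ 1099511627776) (hk0 : (k0 : ℝ) / 1099511627776 ≤ k)
    (hk1 : k ≤ (k1 : ℝ) / 1099511627776) (hk01 : k0 < k1)
    (hMu : Mu ≤ (107 / 100 + 186 / 100 / (N - 2)) * ((N - 1) / (N - 1 - l))) :
    0 < N * z * g + 5 / N * (ga * k + gb) + (Pp - Pn) + (a - b1) * k - A2 * (1 - 1 / (1 + k)) -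
      7 / 50 * (c ^ 2 * k ^ 2) - Mu * (k - Real.log (1 + k)) := by
  have hkn : 0 ≤ k := le_trans (by positivity) hk0
  unfold kint at h
  extract_lets X Nn M G1 bc ks at h
  rw [Bool.and_eq_true] at h
  obtain ⟨hA1, hA2⟩ := h
  have hN0 : 0 < N := by linarith
  -- X
  have lX : LB X (N * z) := by
    refine LB_max hX ?_
    have h1 : LB (mD (1099511627776 + k0) b.hz) ((1 + (k0 : ℝ) / 1099511627776) * hz') :=
      LB_mul (LB_add LB_one (LB_self k0)) hhz
    refine (LB_sub' h1 UB_one).le (max_le ?_ (by positivity))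
    have h2 := hhz.nonneg
    have h3 : (1 + (k0 : ℝ) / 1099511627776) * hz' ≤ (1 + k) * hz' :=
      mul_le_mul_of_nonneg_right (by linarith) h2
    linarith
  have hXpos : 0 < X := lt_of_lt_of_le hX0 (le_max_left _ _)
  obtain ⟨Xr, hXr⟩ : ∃ Xr : ℝ, Xr = (X : ℝ) / 1099511627776 := ⟨_, rfl⟩
  have lXr : LB X Xr := by rw [hXr]; exact LB_self X
  have uXr : UB Xr X := by rw [hXr]; exact UB_self X
  have hXr0 : 0 < Xr := lXr.pos hXpos
  have hXX : Xr ≤ N * z := lX.le_of uXr le_rfl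
  -- N
  have lN : LB Nn N := by
    refine LB_max (LB_q (by norm_num; linarith)) ?_
    have := LB_div lX hz1 hz
    rwa [mul_div_assoc, div_self hz.ne', mul_one] at this
  have hNn : 26388279066624 ≤ Nn := le_max_left _ _
  obtain ⟨Nr, hNr⟩ : ∃ Xr : ℝ, Xr = (Nn : ℝ) / 1099511627776 := ⟨_, rfl⟩
  have lNr : LB Nn Nr := by rw [hNr]; exact LB_self Nn
  have uNr : UB Nr Nn := by rw [hNr]; exact UB_self Nn
  have hNN : Nr ≤ N := lN.le_of uNr le_rfl
  have hNr24 : 24 ≤ Nr := by
    rw [hNr, le_div_iff₀ (by norm_num)]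
    have : ((26388279066624 : ℕ) : ℝ) ≤ Nn := by exact_mod_cast hNn
    norm_num at this ⊢
    exact this
  have hl1r : l ≤ 1 := by
    unfold UB at hl1
    have : (b.l1 : ℝ) ≤ 1099511627776 := by exact_mod_cast hl1'
    nlinarith
  -- M
  have uM : UB ((107 / 100 + 186 / 100 / (Nr - 2)) * ((Nr - 1) / (Nr - 1 - l))) M := by
    have u1 : UB (186 / 100 / (Nr - 2)) (dU 2045091627664 (Nn - 2199023255552)) := by
      refine UB_div (UB_q (by norm_num)) ?_ (by omega) (by norm_num)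
      exact LB_sub lNr (UB_q (by norm_num)) (by linarith)
    have u2 : UB ((Nr - 1) / (Nr - 1 - l)) (dU (Nn - 1099511627776) (Nn - 1099511627776 - b.l1)) := by
      refine UB_div (UB_sub uNr LB_one) ?_ (by omega) (by linarith)
      exact LB_sub (LB_sub lNr UB_one (by linarith)) hl1 (by linarith)
    refine UB_mul (UB_add (UB_q (by norm_num)) u1) u2 ?_ ?_
    · have : 0 < Nr - 2 := by linarith
      positivity
    · exact div_nonneg (by linarith) (by linarith)
  have hMle : Mu ≤ (M : ℝ) / 1099511627776 := by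
    have h1 : (107 / 100 + 186 / 100 / (N - 2)) * ((N - 1) / (N - 1 - l)) ≤
        (107 / 100 + 186 / 100 / (Nr - 2)) * ((Nr - 1) / (Nr - 1 - l)) := by
      apply mul_le_mul
      · have : 186 / 100 / (N - 2) ≤ 186 / 100 / (Nr - 2) :=
          div_le_div_of_nonneg_left (by norm_num) (by linarith) (by linarith)
        linarith
      · rw [div_le_div_iff₀ (by linarith) (by linarith)]
        nlinarith
      · exact div_nonneg (by linarith) (by linarith)
      · have : 0 < Nr - 2 := by linarith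
        positivity
    refine (hMu.trans h1).trans ?_
    rw [le_div_iff₀ (by norm_num)]
    exact uM
  -- bonus
  have hga0 := hga.nonneg
  have hgb0 := hgb.nonneg
  have hg0 := hg.nonneg
  have hG0 : 0 ≤ ga * k + gb := by positivity
  have hbon : Xr * g + (bc : ℝ) / 1099511627776 * (ga * k + gb) ≤
      N * z * g + 5 / N * (ga * k + gb) := by
    have h5 : 5 / N = 5 * z / (N * z) := by field_simp
    by_cases hcond : Nat.ble (5 * mU b.z1 G1) (mD (mD X X) b.g) = true
    · have hbc : bc = dD (5 * b.z0) X := by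
        show (bif Nat.ble (5 * mU b.z1 G1) (mD (mD X X) b.g) then dD (5 * b.z0) X else 0) = _
        rw [hcond]; rfl
      rw [Nat.ble_eq] at hcond
      have uG : UB (ga * k + gb) G1 :=
        UB_add (UB_mul hGa ((UB_self k1).ge hk1) hga0 hkn) hGb
      have u5 : UB (5 * (z * (ga * k + gb))) (5 * mU b.z1 G1) := by
        have := UB_nmul 5 (UB_mul hz1 uG hz.le hG0)
        exact_mod_cast this
      have l5 := LB_mul (LB_mul lXr lXr) hg
      have hle := l5.le_of u5 hcond
      have h6 := Nelim hXr0 hXX hg0 hle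
      have h7 : (bc : ℝ) / 1099511627776 ≤ 5 * z / Xr := by
        rw [hbc]
        have h8 : LB (dD (5 * b.z0) X) (5 * z / Xr) :=
          LB_div (by exact_mod_cast LB_nmul 5 hz0) uXr hXr0
        rw [div_le_iff₀ (by norm_num)]
        exact h8
      have h9 := mul_le_mul_of_nonneg_right h7 hG0
      rw [h5]
      linarith
    · have hbc : bc = 0 := by
        show (bif Nat.ble (5 * mU b.z1 G1) (mD (mD X X) b.g) then dD (5 * b.z0) X else 0) = _
        rw [Bool.eq_false_of_not_eq_true hcond]; rfl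
      rw [hbc]
      have h1 : Xr * g ≤ N * z * g := mul_le_mul_of_nonneg_right hXX hg0
      have h2 : 0 ≤ 5 / N * (ga * k + gb) := by positivity
      push_cast
      linarith
  -- end points
  have hks : 0 < ks := by
    show 0 < (k0 + k1) / 2 + 1099511627776
    omega
  have K0 := kend_sound hA1 hg hPp hPn ha hb1 hb10 hc hc0 hga hgb hks rfl
  have K1 := kend_sound hA2 hg hPp hPn ha hb1 hb10 hc hc0 hga hgb hks rfl
  have hk01' : (k0 : ℝ) / 1099511627776 < (k1 : ℝ) / 1099511627776 := by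
    have : (k0 : ℝ) < k1 := by exact_mod_cast hk01
    exact div_lt_div_of_pos_right this (by norm_num)
  have hfin := LL_interp (by positivity) (by positivity) (by positivity) (by positivity) hk0 hk1
    hk01' K0 K1
  refine lt_of_lt_of_le hfin ?_
  unfold LL
  rw [← hXr]
  have hksr : (0 : ℝ) < (ks : ℝ) / 1099511627776 := by
    have : (0 : ℝ) < ks := by exact_mod_cast hks
    positivity
  have h1 := inv_ge (κ := 1 + k) (by linarith) hksr
  have hAr : A2 ≤ (b.A : ℝ) / 1099511627776 := by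
    rw [le_div_iff₀ (by norm_num)]; exact hA
  have h1k : 0 ≤ 1 - 1 / (1 + k) := by
    have : 1 / (1 + k) ≤ 1 := by rw [div_le_one (by linarith)]; linarith
    linarith
  have h2 := mul_le_mul_of_nonneg_right hAr h1k
  have hA0 : (0 : ℝ) ≤ (b.A : ℝ) / 1099511627776 := by positivity
  have h3 : (b.A : ℝ) / 1099511627776 * (1 - 1 / (1 + k)) ≤ (b.A : ℝ) / 1099511627776 *
      (1 - 2 / ((ks : ℝ) / 1099511627776) + (1 + k) / ((ks : ℝ) / 1099511627776 *
        ((ks : ℝ) / 1099511627776))) := mul_le_mul_of_nonneg_left (by linarith) hA0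
  have h4 := mul_le_mul_of_nonneg_right hMle (h_nonneg hkn)
  nlinarith [hbon, h2, h3, h4]

end Crest.Agent.R230.FB
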