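import Crest.Agent.R230.FarBoxK
import Crest.Agent.R230.FarLow

/-!
# Row 230: box checker for the far block, `k ≥ 0` (helper782): soundness of a box
-/

set_option autoImplicit false

open Set

namespace Crest.Agent.R230.FB

open Crest.Agent.R230.IA Crest.Agent.R230.WR

/-- `x/(x+w)` is increasing -/
lemma frac_mono {a b w : ℝ} (ha : 0 ≤ a) (hab : a ≤ b) (hw : 0 < w) : a / (a + w) ≤ b / (b + w) := by
  rw [div_le_div_iff₀ (by linarith) (by linarith)]
  nlinarith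

/-- `x/(1+x)` is increasing -/
lemma frac1_mono {a b : ℝ} (ha : 0 ≤ a) (hab : a ≤ b) : a / (1 + a) ≤ b / (1 + b) := by
  rw [div_le_div_iff₀ (by linarith) (by linarith)]
  nlinarith

lemma LB_frac1 {a : ℕ} {x : ℝ} (h : LB a x) : LB (dD a (1099511627776 + a)) (x / (1 + x)) := by
  have h0 : (0 : ℝ) ≤ (a : ℝ) / 1099511627776 := by positivity
  refine (LB_div (LB_self a) (UB_add UB_one (UB_self a)) (by positivity)).le
    (frac1_mono h0 ?_)
  rw [div_le_iff₀ (by norm_num)]; exact h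

lemma UB_frac1 {a : ℕ} {x : ℝ} (hx : 0 ≤ x) (h : UB x a) :
    UB (x / (1 + x)) (dU a (1099511627776 + a)) := by
  have h0 : (0 : ℝ) ≤ (a : ℝ) / 1099511627776 := by positivity
  refine (UB_div (UB_self a) (LB_add LB_one (LB_self a)) (by omega) h0).ge
    (frac1_mono hx ?_)
  rw [le_div_iff₀ (by norm_num)]; exact h

lemma LB_fracw {a : ℕ} {x : ℝ} (h : LB a x) : LB (dD a (a + 76965813945)) (x / (x + 7 / 100)) := by
  have h0 : (0 : ℝ) ≤ (a : ℝ) / 1099511627776 := by positivity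
  refine (LB_div (LB_self a) (UB_add (UB_self a) (UB_q (by norm_num : (7 / 100 : ℝ) * 1099511627776 ≤
    ((76965813945 : ℕ) : ℝ)))) (by positivity)).le (frac_mono h0 ?_ (by norm_num))
  rw [div_le_iff₀ (by norm_num)]; exact h

lemma UB_fracw {a : ℕ} {x : ℝ} (hx : 0 ≤ x) (h : UB x a) :
    UB (x / (x + 7 / 100)) (dU a (a + 76965813944)) := by
  have h0 : (0 : ℝ) ≤ (a : ℝ) / 1099511627776 := by positivity
  refine (UB_div (UB_self a) (LB_add (LB_self a) (LB_q (by norm_num :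
    ((76965813944 : ℕ) : ℝ) ≤ (7 / 100 : ℝ) * 1099511627776))) (by omega) h0).ge
    (frac_mono hx ?_ (by norm_num))
  rw [le_div_iff₀ (by norm_num)]; exact h

/-- lower bound of `x = s √N` -/
lemma x_lower {el0 z1 : ℕ} {e z x N : ℝ} (he : LB el0 e) (hz1 : UB z z1) (hx2 : 2 ≤ x)
    (hxN : x * x = N * z) (hN : 24 ≤ N) (hz : 0 ≤ z) (hx : x ≤ 7 / 2)
    (hC1 : e ≤ 3 / 5 + (73 / 200 + 1 / (2 * N)) * x) :
    LB (max (dD (el0 - (659706976666 + (z1 / 4 + 1))) 401321744139)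
      (max (dD (el0 - 659706976666) 424228236384) 2199023255552)) x := by
  have u35 : UB (3 / 5) 659706976666 := UB_q (by norm_num)
  have hx0 : 0 ≤ x := by linarith
  refine LB_max ?_ (LB_max ?_ (LB_q (by norm_num; linarith)))
  · have h1 := LB_sub' he (UB_add u35 (UB_ndiv (n := 4) (by norm_num) hz1))
    have h2 := LB_div h1 (UB_q (by norm_num) : UB (73 / 200) 401321744139) (by norm_num)
    refine h2.le ?_
    rw [div_le_iff₀ (by norm_num)]
    refine max_le ?_ (by positivity)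
    have h3 : 1 / (2 * N) * x ≤ z / 4 := by
      have hN0 : 0 < N := by linarith
      have hx00 : 0 < x := by linarith
      have e1 : 1 / (2 * N) * x = z / (2 * x) := by
        have hz' : z = x * x / N := by rw [hxN]; field_simp
        rw [hz']; field_simp
      rw [e1, div_le_div_iff₀ (by positivity) (by norm_num)]
      nlinarith
    push_cast
    nlinarith
  · have h1 := LB_sub' he u35
    have h2 := LB_div h1 (UB_q (by norm_num) : UB (73 / 200 + 1 / 48) 424228236384) (by norm_num)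
    refine h2.le ?_
    rw [div_le_iff₀ (by norm_num)]
    refine max_le ?_ (by positivity)
    have h3 : 1 / (2 * N) ≤ 1 / 48 := one_div_le_one_div_of_le (by norm_num) (by linarith)
    have := mul_le_mul_of_nonneg_right h3 hx0
    linarith

/-- part 1: cap and v -/
lemma part1 {s0 s1 l0 l1 : ℕ} {s l T cap : ℝ} (hs : 0 < s) (hsl : LB s0 s) (hsu : UB s s1)
    (hll : LB l0 l) (hlu : UB l l1) (hl1 : l ≤ 1) (hT : T = s * Real.exp l) (hT1 : T < 1)
    (hcap : cap = 43 / 100 - 23 / 200 * T ^ 8) :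
    LB (mD s0 (expD l0)) T ∧ UB T (min (mU s1 (expU l1)) 1099511627776) ∧
    LB (472789999943 - (23 * p8U (min (mU s1 (expU l1)) 1099511627776) / 200 + 1)) cap ∧
    UB cap (472789999944 - 23 * p8D (mD s0 (expD l0)) / 200) ∧ 0 < T ∧ 0 < cap := by
  have hl0 : 0 ≤ l := hll.nonneg
  have hel : 0 < Real.exp l := Real.exp_pos l
  have hT0' : 0 < T := by rw [hT]; positivity
  have le0 : LB (expD l0) (Real.exp l) := LB_exp hll
  have lT : LB (mD s0 (expD l0)) T := by rw [hT]; exact LB_mul hsl le0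
  have hT8 : 0 < T ^ 8 := by positivity
  have hT81 : T ^ 8 < 1 := pow_lt_one₀ hT0'.le hT1 (by norm_num)
  have uT : UB T (min (mU s1 (expU l1)) 1099511627776) := by
    refine UB_min ?_ (UB_one.ge hT1.le)
    rw [hT]; exact UB_mul hsu (UB_exp hlu hl0 (by linarith)) hs.le hel.le
  have lT8 := p8D_spec lT
  have uT8 := p8U_spec uT hT0'.le
  refine ⟨lT, uT, ?_, ?_, hT0', by rw [hcap]; linarith⟩
  · rw [hcap]
    have h1 : UB (23 * T ^ 8 / (200 : ℕ)) (23 * p8U (min (mU s1 (expU l1)) 1099511627776) / 200 + 1) :=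
      UB_ndiv (by norm_num) (by exact_mod_cast UB_nmul 23 uT8)
    have h2 : LB 472789999943 (43 / 100) := LB_q (by norm_num)
    refine (LB_sub h2 h1 (by push_cast; linarith)).le (le_of_eq ?_)
    push_cast; ring
  · rw [hcap]
    have h1 : LB (23 * p8D (mD s0 (expD l0)) / 200) (23 * T ^ 8 / (200 : ℕ)) :=
      LB_ndiv 200 (by exact_mod_cast LB_nmul 23 lT8)
    have h2 : UB (43 / 100) 472789999944 := UB_q (by norm_num)
    refine (UB_sub h2 h1).ge (le_of_eq ?_)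
    push_cast; ring

/-- part 2: u, V, lh -/
lemma part2 {v0 v1 cap0 cap1 : ℕ} {l cap v y u V lh : ℝ} (lv : LB v0 v) (uv : UB v v1)
    (lcap : LB cap0 cap) (ucap : UB cap cap1) (hvd : v = l - cap) (hv0 : 0 < v) (hcap0 : 0 < cap)
    (hy : y = v / (v + 7 / 100)) (hu : u = v * y) (hV : V = 1 - (1 - y) * (1 - y))
    (hlh : lh = l - u) :
    LB (mD v0 (dD v0 (v0 + 76965813945))) u ∧ UB u (mU v1 (dU v1 (v1 + 76965813944))) ∧
    LB (1099511627776 - mU (1099511627776 - dD v0 (v0 + 76965813945))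
      (1099511627776 - dD v0 (v0 + 76965813945))) V ∧
    UB V (1099511627776 - mD (1099511627776 - dU v1 (v1 + 76965813944))
      (1099511627776 - dU v1 (v1 + 76965813944))) ∧
    UB (1 - y) (1099511627776 - dD v0 (v0 + 76965813945)) ∧
    LB (cap0 + mD 76965813944 (dD v0 (v0 + 76965813945))) lh ∧
    UB lh (cap1 + mU 76965813945 (dU v1 (v1 + 76965813944))) ∧ 0 < u ∧ u < v ∧ 0 < V ∧ 0 < lh ∧
    0 < 1 - y := by
  have ly : LB (dD v0 (v0 + 76965813945)) y := by rw [hy]; exact LB_fracw lv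
  have uy : UB y (dU v1 (v1 + 76965813944)) := by rw [hy]; exact UB_fracw hv0.le uv
  have hy0 : 0 < y := by rw [hy]; positivity
  have hy1 : y < 1 := by rw [hy, div_lt_one (by positivity)]; linarith
  have hu0 : 0 < u := by rw [hu]; positivity
  have huv : u < v := by rw [hu]; nlinarith
  have hom0 : 0 < 1 - y := by linarith
  have lom := LB_sub LB_one uy hy1.le
  have uom := UB_sub UB_one ly
  have hoo : (1 - y) * (1 - y) < 1 := by nlinarith
  have hV0 : 0 < V := by rw [hV]; linarith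
  have hlh2 : lh = cap + 7 / 100 * y := by
    have : v * (1 - y) = 7 / 100 * y := by rw [hy]; field_simp; ring
    rw [hlh, hu]
    have h2 : l = v + cap := by rw [hvd]; ring
    rw [h2]; linarith
  refine ⟨?_, ?_, ?_, ?_, uom, ?_, ?_, hu0, huv, hV0, by rw [hlh2]; positivity, hom0⟩
  · rw [hu]; exact LB_mul lv ly
  · rw [hu]; exact UB_mul uv uy hv0.le hy0.le
  · rw [hV]; exact LB_sub LB_one (UB_mul uom uom hom0.le hom0.le) hoo.le
  · rw [hV]; exact UB_sub UB_one (LB_mul lom lom)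
  · rw [hlh2]; exact LB_add lcap (LB_mul (LB_q (by norm_num)) ly)
  · rw [hlh2]; exact UB_add ucap (UB_mul (UB_q (by norm_num)) uy (by norm_num) hy0.le)

/-- part 3: `g` -/
lemma part3 {z0 z1 c0 c1 h0 h1 lh0 E0 E1 u1 l0 : ℕ} {z c ch E l u lh : ℝ}
    (lz : LB z0 z) (uz : UB z z1) (lc : LB c0 c) (uc : UB c c1) (lch : LB h0 ch) (uch : UB ch h1)
    (lE : LB E0 E) (uE : UB E E1) (uu : UB u u1) (hll : LB l0 l) (llh : LB lh0 lh)
    (hlh : lh = l - u) (hcp : 0 < c) (hc1 : c ≤ 1) (hchp : 0 < ch) (hch1 : ch ≤ 1) (hz0 : 0 < z)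
    (hu0 : 0 < u) (hlh0 : 0 < lh) (hE1 : 1 < E) (hc0 : 0 < c0) (hh0 : 0 < h0)
    {gp gn : ℕ}
    (hgp : gp = dD (mD (mD lh0 (mD (dD 1099511627776 h1) (dD 1099511627776 h1) +
      mD (dD 1099511627776 c1) (dD 1099511627776 c1) +
      mD (dD 1099511627776 h1) (dD 1099511627776 c1) - 3298534883328))
      (mD (E0 - 1099511627776) (dD 1099511627776 h1))) (c1 + h1) +
      mD (mD l0 l0) (mD (mD (dD 1099511627776 c1) (dD 1099511627776 c1))
        (mD z0 (mD (dD 1099511627776 c1) (dD 1099511627776 c1)) + 307863255777)) +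
      mD ((E0 - 1099511627776) / 2000) (mD (dD 1099511627776 c1) (dD 1099511627776 c1)))
    (hgn : gn = mU (mU (mU z1 (mU (E1 - 1099511627776) (E1 - 1099511627776)) / 2 + 1)
      (mU (2 * c1 + h1) (mU (dU 1099511627776 c0) (dU 1099511627776 c0))))
      (mU (dU 1099511627776 h0) (mU (dU 1099511627776 (c0 + h0)) (dU 1099511627776 (c0 + h0)))) +
      mU (mU (mU u1 z1) (mU (1099511627776 + 2 * c1) (mU (dU 1099511627776 c0) (dU 1099511627776 c0))))
      (dU 1099511627776 (mD (1099511627776 + c0) (1099511627776 + c0))))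
    (hle : gn ≤ gp) : LB (gp - gn) (Lg z c ch E l u) := by
  obtain ⟨q, hq⟩ : ∃ q : ℝ, q = 1 / c := ⟨_, rfl⟩
  obtain ⟨qh, hqh⟩ : ∃ q : ℝ, q = 1 / ch := ⟨_, rfl⟩
  have hq1 : 1 ≤ q := by rw [hq, le_div_iff₀ hcp]; linarith
  have hqh1 : 1 ≤ qh := by rw [hqh, le_div_iff₀ hchp]; linarith
  have lq : LB (dD 1099511627776 c1) q := by rw [hq]; exact LB_div LB_one uc hcp
  have uq : UB q (dU 1099511627776 c0) := by rw [hq]; exact UB_div UB_one lc hc0 (by norm_num)
  have lqh : LB (dD 1099511627776 h1) qh := by rw [hqh]; exact LB_div LB_one uch hchp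
  have uqh : UB qh (dU 1099511627776 h0) := by rw [hqh]; exact UB_div UB_one lch hh0 (by norm_num)
  have lq2 := LB_mul lq lq
  have uq2 := UB_mul uq uq (by linarith) (by linarith)
  obtain ⟨Em, hEm⟩ : ∃ Em : ℝ, Em = E - 1 := ⟨_, rfl⟩
  have hEm0 : 0 < Em := by rw [hEm]; linarith
  have lEm : LB (E0 - 1099511627776) Em := by rw [hEm]; exact LB_sub lE UB_one hE1.le
  have uEm : UB Em (E1 - 1099511627776) := by rw [hEm]; exact UB_sub uE LB_one
  have hB0 : 0 ≤ qh * qh + q * q + qh * q - 3 := by nlinarith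
  have lgp : LB gp (lh * (qh * qh + q * q + qh * q - 3) * (Em * qh) / (c + ch) +
      l * l * (q * q * (z * (q * q) + 7 / 25)) + Em / (2000 : ℕ) * (q * q)) := by
    rw [hgp]
    refine LB_add (LB_add ?_ ?_) ?_
    · refine LB_div (LB_mul (LB_mul llh ?_) (LB_mul lEm lqh)) (UB_add uc uch) (by positivity)
      exact LB_sub (LB_add (LB_add (LB_mul lqh lqh) lq2) (LB_mul lqh lq)) (UB_q (by norm_num))
        (by linarith)
    · exact LB_mul (LB_mul hll hll) (LB_mul lq2 (LB_add (LB_mul lz lq2) (LB_q (by norm_num))))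
    · exact LB_mul (LB_ndiv 2000 lEm) lq2
  have hr0 : 0 < 1 / (c + ch) := by positivity
  have ur : UB (1 / (c + ch)) (dU 1099511627776 (c0 + h0)) :=
    UB_div UB_one (LB_add lc lch) (by omega) (by norm_num)
  have ugn : UB (z * (Em * Em) / (2 : ℕ) * ((2 * c + ch) * (q * q)) *
      (qh * (1 / (c + ch) * (1 / (c + ch)))) +
      u * z * ((1 + 2 * c) * (q * q)) * (1 / ((1 + c) * (1 + c)))) gn := by
    have hqq : 0 ≤ q * q := by positivity
    have hqh0 : 0 ≤ qh := by linarith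
    rw [hgn]
    refine UB_add (UB_mul (UB_mul ?_ ?_ ?_ ?_) ?_ ?_ ?_) (UB_mul (UB_mul ?_ ?_ ?_ ?_) ?_ ?_ ?_)
    · exact UB_ndiv (by norm_num) (UB_mul uz (UB_mul uEm uEm hEm0.le hEm0.le) hz0.le (by positivity))
    · exact UB_mul (UB_add (by exact_mod_cast UB_nmul 2 uc) uch) uq2 (by positivity) hqq
    · positivity
    · positivity
    · exact UB_mul uqh (UB_mul ur ur hr0.le hr0.le) hqh0 (by positivity)
    · positivity
    · positivity
    · exact UB_mul uu uz hu0.le hz0.le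
    · exact UB_mul (UB_add UB_one (by exact_mod_cast UB_nmul 2 uc)) uq2 (by positivity) hqq
    · positivity
    · positivity
    · refine UB_div UB_one (LB_mul (LB_add LB_one lc) (LB_add LB_one lc)) ?_ (by norm_num)
      unfold mD
      apply Nat.div_pos _ (by norm_num)
      nlinarith [Nat.zero_le c0]
    · positivity
    · positivity
  refine (LB_sub lgp ugn (lgp.le_of ugn hle)).le (le_of_eq ?_)
  unfold Lg
  rw [hlh, hEm, hq, hqh]
  have h3 : c + ch ≠ 0 := by positivity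
  have h4 : 1 + c ≠ 0 := by positivity
  have h5 := hcp.ne'
  have h6 := hchp.ne'
  push_cast
  field_simp
  ring

/-- part 4: `c Ŵ = w1 - w2` -/
lemma part4 {c0 c1 h0 h1 lh0 lh1 S0 S1 : ℕ} {z c ch E l u lh : ℝ}
    (lc : LB c0 c) (uc : UB c c1) (lch : LB h0 ch) (uch : UB ch h1) (llh : LB lh0 lh)
    (ulh : UB lh lh1) (lS : LB S0 (z * E)) (uS : UB (z * E) S1) (hlh : lh = l - u) (hcp : 0 < c)
    (hchp : 0 < ch) (hch1 : ch ≤ 1) (hlh0 : 0 < lh) (hS0 : 0 < z * E) (hh0 : 0 < h0) :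
    ∃ w1 w2 : ℝ, LWh z c ch E l u = w1 - w2 ∧
      LB (2 * mD c0 (dD 1099511627776 h1 - dU h1 (1099511627776 + h1))) w1 ∧
      UB w1 (2 * mU c1 (dU 1099511627776 h0 - dD h0 (1099511627776 + h0))) ∧
      LB (3 * mD (mD c0 lh0) (mD S0 (mD (dD 1099511627776 h1)
        (mD (dD 1099511627776 h1) (dD 1099511627776 h1))))) w2 ∧
      UB w2 (3 * mU (mU c1 lh1) (mU S1 (mU (dU 1099511627776 h0)
        (mU (dU 1099511627776 h0) (dU 1099511627776 h0))))) := by
  obtain ⟨qh, hqh⟩ : ∃ q : ℝ, q = 1 / ch := ⟨_, rfl⟩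
  have hqh1 : 1 ≤ qh := by rw [hqh, le_div_iff₀ hchp]; linarith
  have hqh0 : 0 ≤ qh := by linarith
  have lqh : LB (dD 1099511627776 h1) qh := by rw [hqh]; exact LB_div LB_one uch hchp
  have uqh : UB qh (dU 1099511627776 h0) := by rw [hqh]; exact UB_div UB_one lch hh0 (by norm_num)
  have hf0 : 0 ≤ ch / (1 + ch) := by positivity
  have hf1 : ch / (1 + ch) ≤ 1 := by rw [div_le_one (by positivity)]; linarith
  refine ⟨(2 : ℕ) * (c * (qh - ch / (1 + ch))), (3 : ℕ) * (c * lh * (z * E * (qh * (qh * qh)))),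
    ?_, ?_, ?_, ?_, ?_⟩
  · unfold LWh
    rw [hlh, hqh]
    push_cast
    ring
  · exact LB_nmul 2 (LB_mul lc (LB_sub lqh (UB_frac1 hchp.le uch) (by linarith)))
  · exact UB_nmul 2 (UB_mul uc (UB_sub uqh (LB_frac1 lch)) hcp.le (by linarith))
  · exact LB_nmul 3 (LB_mul (LB_mul lc llh) (LB_mul lS (LB_mul lqh (LB_mul lqh lqh))))
  · refine UB_nmul 3 (UB_mul (UB_mul uc ulh hcp.le hlh0.le) (UB_mul uS (UB_mul uqh
      (UB_mul uqh uqh hqh0 hqh0) hqh0 (by positivity)) hS0.le (by positivity)) (by positivity)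
      (by positivity))

/-- part 5: `A2` -/
lemma part5 {om1 w1U w2D : ℕ} {W w1 w2 V om : ℝ} (hW : W = w1 - w2) (u1 : UB w1 w1U) (l2 : LB w2D w2)
    (uom : UB om om1) (hom : 0 < om) (hV : V = 1 - om * om) :
    UB ((1 - V) * W) (mU (mU om1 om1) (w1U - w2D)) := by
  have h := UB_mul (UB_mul uom uom hom.le hom.le) (UB_sub' u1 l2) (by positivity)
    (le_max_right (w1 - w2) 0)
  refine h.ge ?_
  rw [hW, hV]
  have : (1 - (1 - om * om)) = om * om := by ring
  rw [this]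
  exact mul_le_mul_of_nonneg_left (le_max_left _ _) (by positivity)

/-- part 6: the coefficient of `k` -/
lemma part6 {c1 Y1 l1 E1 V1 T81 : ℕ} {z c E l V T : ℝ}
    (uc : UB c c1) (uY : UB (z / c ^ 2) Y1) (ul : UB l l1) (uE : UB E E1) (uV : UB V V1)
    (uT8 : UB (T ^ 8) T81) (hcp : 0 < c) (hc1 : c ≤ 1) (hz0 : 0 < z) (hl0 : 0 ≤ l) (hE : 0 < E)
    (hV : 0 < V) (hT : 0 < T) :
    ∃ a b : ℝ, LBp z c E l V (23 / 25 * T ^ 8) = a - b ∧ 0 ≤ b ∧
      LB (2199023255552 - dU (2 * mU c1 c1) (1099511627776 + c1)) a ∧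
      UB b (2 * mU Y1 l1 + mU (mU (E1 + (E1 / 1000 + 1)) V1) (1099511627776 + (23 * T81 / 25 + 1))) := by
  have hY0 : 0 < z / c ^ 2 := by positivity
  refine ⟨2 - 2 * c ^ 2 / (1 + c), (2 : ℕ) * (z / c ^ 2 * l) +
    (E + E / (1000 : ℕ)) * V * (1 + 23 * T ^ 8 / (25 : ℕ)), ?_, by positivity, ?_, ?_⟩
  · unfold LBp
    push_cast
    ring
  · obtain ⟨cr, hcr⟩ : ∃ cr : ℝ, cr = (c1 : ℝ) / 1099511627776 := ⟨_, rfl⟩
    have lcr : LB c1 cr := by rw [hcr]; exact LB_self _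
    have ucr : UB cr c1 := by rw [hcr]; exact UB_self _
    have hccr : c ≤ cr := by
      rw [hcr, le_div_iff₀ (by norm_num)]; exact uc
    have hcr0 : 0 ≤ cr := by linarith
    have h1 : UB ((2 : ℕ) * (cr * cr) / (1 + cr)) (dU (2 * mU c1 c1) (1099511627776 + c1)) :=
      UB_div (UB_nmul 2 (UB_mul ucr ucr hcr0 hcr0)) (LB_add LB_one lcr) (by omega) (by positivity)
    refine (LB_sub' (LB_q (by norm_num : ((2199023255552 : ℕ) : ℝ) ≤ 2 * 1099511627776)) h1).le
      (max_le ?_ ?_)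
    · have h2 : 2 * c ^ 2 / (1 + c) ≤ (2 : ℕ) * (cr * cr) / (1 + cr) := by
        push_cast
        rw [div_le_div_iff₀ (by linarith) (by linarith)]
        have h3 : c * c ≤ cr * cr := mul_le_mul hccr hccr hcp.le hcr0
        have h4 : c * cr * c ≤ c * cr * cr := mul_le_mul_of_nonneg_left hccr (by positivity)
        nlinarith
      linarith
    · have h2 : 2 * c ^ 2 / (1 + c) ≤ 2 := by
        rw [div_le_iff₀ (by linarith)]; nlinarith
      linarith
  · refine UB_add (UB_nmul 2 (UB_mul uY ul hY0.le hl0)) (UB_mul (UB_mul (UB_add uE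
      (UB_ndiv (by norm_num) uE)) uV (by positivity) hV.le) (UB_add UB_one (UB_ndiv (by norm_num)
      (by exact_mod_cast UB_nmul 23 uT8))) (by positivity) (by positivity))

/-- part 7: the constant `P0` -/
lemma part7 {c0 c1 h0 h1 cT0 lh0 lh1 E1 u0 l1 Y0 Y1 V1 T81 S1 w1D w2U : ℕ}
    {z c ch cT E l u lh V T w1 w2 : ℝ}
    (lc : LB c0 c) (uc : UB c c1) (lch : LB h0 ch) (uch : UB ch h1) (lcT : LB cT0 cT)
    (llh : LB lh0 lh) (ulh : UB lh lh1) (uE : UB E E1)
    (lu : LB u0 u) (ul : UB l l1) (lY : LB Y0 (z / c ^ 2)) (uY : UB (z / c ^ 2) Y1)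
    (uV : UB V V1) (uT8 : UB (T ^ 8) T81) (uS : UB (z * E) S1) (hW : LWh z c ch E l u = w1 - w2)
    (lw1 : LB w1D w1) (uw2 : UB w2 w2U) (hlh : lh = l - u) (hcp : 0 < c) (hc1 : c ≤ 1)
    (hchp : 0 < ch) (hch1 : ch ≤ 1) (hz0 : 0 < z) (hl0 : 0 ≤ l) (hlh0 : 0 < lh) (hE1 : 1 < E)
    (hV : 0 < V) (hT : 0 < T) (hu0 : 0 < u) (hh0 : 0 < h0) :
    ∃ Pp Pn : ℝ, Pp - Pn ≤ LP0 z c ch cT E l u V (23 / 25 * T ^ 8) ∧
      LB (mD u0 (1099511627776 + 4 * Y0 + dD (1099511627776 - c1) (1099511627776 + c1)) +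
        mD lh0 (1099511627776 + 4 * Y0 + dD (1099511627776 - c1) (1099511627776 + c1) -
          mU c1 (mU (mU (dU 1099511627776 h0) (mU (dU 1099511627776 h0) (dU 1099511627776 h0)))
            (1099511627776 + 3 * S1)))) Pp ∧
      UB Pn (mU (mU l1 l1) (mU Y1 (4 * Y1 + 4529987906438)) +
        mU c1 (dU h1 (1099511627776 + h1) - dD cT0 (1099511627776 + cT0)) +
        mU lh1 (mU c1 (mU (mU (dU 1099511627776 h0) (mU (dU 1099511627776 h0)
          (dU 1099511627776 h0))) (1099511627776 + 3 * S1)) -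
          (1099511627776 + 4 * Y0 + dD (1099511627776 - c1) (1099511627776 + c1))) +
        (mU (E1 - 1099511627776) (1100611139404 + 7 * Y1 + (2 * Y1 / 1000 + 1)) / 2 + 1) +
        mU (mU V1 (23 * T81 / 25 + 1)) (E1 + (E1 / 1000 + 1) + w2U - w1D)) := by
  obtain ⟨qh, hqh⟩ : ∃ q : ℝ, q = 1 / ch := ⟨_, rfl⟩
  have hqh1 : 1 ≤ qh := by rw [hqh, le_div_iff₀ hchp]; linarith
  have hqh0 : 0 ≤ qh := by linarith
  have uqh : UB qh (dU 1099511627776 h0) := by rw [hqh]; exact UB_div UB_one lch hh0 (by norm_num)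
  have hY0 : 0 < z / c ^ 2 := by positivity
  obtain ⟨Yr, hYr⟩ : ∃ Yr : ℝ, Yr = z / c ^ 2 := ⟨_, rfl⟩
  rw [← hYr] at lY uY hY0
  obtain ⟨bb, hbb⟩ : ∃ bb : ℝ, bb = 1 + (4 : ℕ) * Yr + (1 - c) / (1 + c) := ⟨_, rfl⟩
  obtain ⟨t, ht⟩ : ∃ t : ℝ, t = c * (qh * (qh * qh) * (1 + (3 : ℕ) * (z * E))) := ⟨_, rfl⟩
  obtain ⟨Em, hEm⟩ : ∃ Em : ℝ, Em = E - 1 := ⟨_, rfl⟩
  have hEm0 : 0 < Em := by rw [hEm]; linarith
  have uEm : UB Em (E1 - 1099511627776) := by rw [hEm]; exact UB_sub uE LB_one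
  have lbb : LB (1099511627776 + 4 * Y0 + dD (1099511627776 - c1) (1099511627776 + c1)) bb := by
    rw [hbb]
    exact LB_add (LB_add LB_one (LB_nmul 4 lY)) (LB_div (LB_sub LB_one uc hc1) (UB_add UB_one uc)
      (by positivity))
  have hSE : 0 < z * E := mul_pos hz0 (by linarith)
  have ut : UB t (mU c1 (mU (mU (dU 1099511627776 h0) (mU (dU 1099511627776 h0)
      (dU 1099511627776 h0))) (1099511627776 + 3 * S1))) := by
    rw [ht]
    exact UB_mul uc (UB_mul (UB_mul uqh (UB_mul uqh uqh hqh0 hqh0) hqh0 (by positivity))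
      (UB_add UB_one (UB_nmul 3 uS)) (by positivity) (by positivity)) hcp.le (by positivity)
  have hcT0 : 0 ≤ cT := lcT.nonneg
  refine ⟨u * bb + lh * max (bb - t) 0,
    l * l * (Yr * ((4 : ℕ) * Yr + 103 / 25)) + c * max (ch / (1 + ch) - cT / (1 + cT)) 0 +
      lh * max (t - bb) 0 + Em * (1001 / 1000 + (7 : ℕ) * Yr + (2 : ℕ) * Yr / (1000 : ℕ)) / (2 : ℕ) +
      V * (23 * T ^ 8 / (25 : ℕ)) * max (E + E / (1000 : ℕ) + w2 - w1) 0, ?_, ?_, ?_⟩
  · unfold LP0
    rw [hW, ← hYr]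
    have e1 : 1 + 4 * Yr + (1 - c) / (1 + c) = bb := by rw [hbb]; push_cast; ring
    have e2 : c * (1 / ch) ^ 3 * (1 + 3 * z * E) = t := by rw [ht, hqh]; push_cast; ring
    rw [e1, e2, ← hlh]
    have i1 : ch / (1 + ch) - cT / (1 + cT) ≤ max (ch / (1 + ch) - cT / (1 + cT)) 0 := le_max_left _ _
    have i2 := mul_le_mul_of_nonneg_left i1 hcp.le
    have i3 : lh * (max (bb - t) 0 - max (t - bb) 0) = lh * (bb - t) := by
      rcases le_total (bb - t) 0 with h | h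
      · rw [max_eq_right h, max_eq_left (by linarith)]; ring
      · rw [max_eq_left h, max_eq_right (by linarith)]; ring
    have i4 : E + E / (1000 : ℕ) + w2 - w1 ≤ max (E + E / (1000 : ℕ) + w2 - w1) 0 := le_max_left _ _
    have hVT : 0 ≤ V * (23 * T ^ 8 / (25 : ℕ)) := by positivity
    have i5 := mul_le_mul_of_nonneg_left i4 hVT
    have e6 : V * (23 / 25 * T ^ 8) * (w1 - w2 - (1 + 1 / 1000) * E) =
        -(V * (23 * T ^ 8 / (25 : ℕ)) * (E + E / (1000 : ℕ) + w2 - w1)) := by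
      push_cast; ring
    rw [e6]
    have e7 : -(4 * Yr ^ 2 + 103 / 25 * Yr) * l ^ 2 = -(l * l * (Yr * ((4 : ℕ) * Yr + 103 / 25))) := by
      push_cast; ring
    have e8 : 1 / 2 * (E - 1) * ((1 + 1 / 1000) * (1 + 2 * Yr) + 5 * Yr) =
        Em * (1001 / 1000 + (7 : ℕ) * Yr + (2 : ℕ) * Yr / (1000 : ℕ)) / (2 : ℕ) := by
      rw [hEm]; push_cast; ring
    rw [e7, e8]
    linarith
  · exact LB_add (LB_mul lu lbb) (LB_mul llh (LB_sub' lbb ut))
  · have hYr := hY0.le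
    refine UB_add (UB_add (UB_add (UB_add ?_ ?_) ?_) ?_) ?_
    · exact UB_mul (UB_mul ul ul hl0 hl0) (UB_mul uY (UB_add (UB_nmul 4 uY) (UB_q (by norm_num)))
        hYr (by positivity)) (by positivity) (by positivity)
    · exact UB_mul uc (UB_sub' (UB_frac1 hchp.le uch) (LB_frac1 lcT)) hcp.le (le_max_right _ _)
    · exact UB_mul ulh (UB_sub' ut lbb) hlh0.le (le_max_right _ _)
    · exact UB_ndiv (by norm_num) (UB_mul uEm (UB_add (UB_add (UB_q (by norm_num)) (UB_nmul 7 uY))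
        (UB_ndiv (by norm_num) (UB_nmul 2 uY))) hEm0.le (by positivity))
    · refine UB_mul (UB_mul uV (UB_ndiv (by norm_num) (by exact_mod_cast UB_nmul 23 uT8)) hV.le
        (by positivity)) (UB_sub' (UB_add (UB_add uE (UB_ndiv (by norm_num) uE)) uw2) lw1)
        (by positivity) (le_max_right _ _)

/-- part 8: lower bound of `X = N z` -/
lemma part8 {z0 z1 el0 : ℕ} {z x N e : ℝ} (lz : LB z0 z) (uz : UB z z1) (he : LB el0 e)
    (hN : 24 ≤ N) (hz0 : 0 < z) (hx : x * x = N * z) (hx2 : 2 ≤ x)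
    (hC1 : x ≤ 7 / 2 → e ≤ 3 / 5 + (73 / 200 + 1 / (2 * N)) * x) (hC2 : 7 / 2 ≤ x → e ≤ 3 / 5 * x)
    {xx : ℕ} (hxx : xx = max (dD (el0 - (659706976666 + (z1 / 4 + 1))) 401321744139)
      (max (dD (el0 - 659706976666) 424228236384) 2199023255552)) :
    LB (max (24 * z0) (bif Nat.ble xx 3848290697216 then mD xx xx else
      max 13469017440256 (25 * mD el0 el0 / 9))) (N * z) ∧
    0 < max (24 * z0) (bif Nat.ble xx 3848290697216 then mD xx xx else
      max 13469017440256 (25 * mD el0 el0 / 9)) := by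
  have hlow : x ≤ 7 / 2 → LB xx x := fun h => by
    rw [hxx]; exact x_lower he uz hx2 hx hN hz0.le h (hC1 h)
  have hxx2 : 2199023255552 ≤ xx := by
    rw [hxx]; exact le_trans (le_max_right _ _) (le_max_right _ _)
  constructor
  · refine LB_max ?_ ?_
    · refine (LB_nmul 24 lz).le ?_
      push_cast
      exact mul_le_mul_of_nonneg_right hN hz0.le
    · by_cases hc : Nat.ble xx 3848290697216 = true
      · rw [hc]
        show LB (mD xx xx) (N * z)
        rw [Nat.ble_eq] at hc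
        have h1 : LB xx x := by
          rcases le_total x (7 / 2) with h | h
          · exact hlow h
          · unfold LB
            have : (xx : ℝ) ≤ 3848290697216 := by exact_mod_cast hc
            nlinarith
        rw [← hx]; exact LB_mul h1 h1
      · rw [Bool.eq_false_of_not_eq_true hc]
        show LB (max 13469017440256 (25 * mD el0 el0 / 9)) (N * z)
        rw [Nat.ble_eq] at hc
        push Not at hc
        have h72 : 7 / 2 ≤ x := by
          by_contra hcon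
          push Not at hcon
          have h1 := hlow hcon.le
          unfold LB at h1
          have : (3848290697216 : ℝ) < xx := by exact_mod_cast hc
          nlinarith
        have h2 := hC2 h72
        refine LB_max ?_ ?_
        · rw [← hx]
          refine LB_q ?_
          norm_num
          nlinarith
        · have h3 : LB (25 * mD el0 el0 / 9) ((25 : ℕ) * (e * e) / (9 : ℕ)) :=
            LB_ndiv 9 (LB_nmul 25 (LB_mul he he))
          refine h3.le ?_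
          rw [← hx]
          have he0 := he.nonneg
          push_cast
          nlinarith
  · refine lt_max_of_lt_right ?_
    by_cases hc : Nat.ble xx 3848290697216 = true
    · rw [hc]
      show 0 < mD xx xx
      unfold mD
      apply Nat.div_pos _ (by norm_num)
      nlinarith
    · rw [Bool.eq_false_of_not_eq_true hc]
      exact lt_max_of_lt_left (by norm_num)

/-- part 9: hazard -/
lemma part9 {s l T c N z k : ℝ} (_hs : 0 < s) (hT : T = s * Real.exp l) (hT1 : T < 1)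
    (hk2 : (1 + k) * (s * c ^ 2) ≤ (1 + N * z) * (Real.exp (-l) - s)) :
    (1 + k) * (c * c * T / (1 - T)) ≤ 1 + N * z := by
  have he := Real.exp_pos l
  have h1 : 0 < 1 - T := by linarith
  have h2 := mul_le_mul_of_nonneg_right hk2 he.le
  have h3 : (Real.exp (-l) - s) * Real.exp l = 1 - T := by
    rw [sub_mul, ← Real.exp_add, hT]; simp
  rw [mul_assoc (1 + N * z), h3] at h2
  rw [← mul_div_assoc, div_le_iff₀ h1]
  calc (1 + k) * (c * c * T) = (1 + k) * (s * c ^ 2) * Real.exp l := by rw [hT]; ring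
    _ ≤ _ := h2


/-- **soundness of a box**, real variables -/
theorem box_real {s0 s1 l0 l1 : ℕ} (hb : box s0 s1 l0 l1 = true)
    {N s z l k Mu c ch cT E u V T cap y x : ℝ} (hN : 24 ≤ N) (hs : 0 < s) (hs1 : s < 1)
    (hzd : z = s * s)
    (hsl : LB s0 s) (hsu : UB s s1) (hll : LB l0 l) (hlu : UB l l1) (hl1 : l ≤ 1)
    (hT : T = s * Real.exp l) (hT1 : T < 1) (hcap : cap = 43 / 100 - 23 / 200 * T ^ 8)
    (hv : cap < l) (hy : y = (l - cap) / (l - cap + 7 / 100)) (hu : u = (l - cap) * y)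
    (hV : V = 1 - (1 - y) * (1 - y)) (hE : E = Real.exp (2 * u)) (hc : c = Real.sqrt (1 - z))
    (hSh : z * E < 1) (hch : ch = Real.sqrt (1 - z * E)) (hcT : cT = Real.sqrt (1 - T * T))
    (hx : x * x = N * z) (hx2 : 2 ≤ x)
    (hC1 : x ≤ 7 / 2 → Real.exp l ≤ 3 / 5 + (73 / 200 + 1 / (2 * N)) * x)
    (hC2 : 7 / 2 ≤ x → Real.exp l ≤ 3 / 5 * x) (hk0 : 0 ≤ k) (hk1 : k * c ≤ 1)
    (hk2 : (1 + k) * (s * c ^ 2) ≤ (1 + N * z) * (Real.exp (-l) - s))
    (hMu : Mu ≤ (107 / 100 + 186 / 100 / (N - 2)) * ((N - 1) / (N - 1 - l))) :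
    0 < N * (z * Lg z c ch E l u) + 5 / N * LG2 z c E V (23 / 25 * T ^ 8) k +
      LP0 z c ch cT E l u V (23 / 25 * T ^ 8) + LBp z c E l V (23 / 25 * T ^ 8) * k -
      (1 - V) * LWh z c ch E l u * (1 - 1 / (1 + k)) - 7 / 50 * c ^ 2 * k ^ 2 -
      Mu * (k - Real.log (1 + k)) := by
  unfold box at hb
  extract_lets z0 z1 c0 c1 el0 T0 T1 T80 T81 cap0 cap1 v0 v1 y0 y1 u0 u1 om0 om1 V0 V1 lh0 lh1 E0 E1 Em0 Em1 Sh0 Sh1 h0 h1 q0 q1 qh0 qh1 q02 q12 Y0 Y1 B0 gp r1 gn cT0 qh13 qh03 w1D w1U w2U w2D A tp0 tp1 a0 EV1 b1 bb0 t3 P Q xx Xm X hz b at hb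
  simp only [Bool.or_eq_true, Bool.and_eq_true, Nat.ble_eq, Nat.blt_eq] at hb
  have hl0 : 0 ≤ l := hll.nonneg
  have hz0 : 0 < z := by rw [hzd]; positivity
  have hz1 : z < 1 := by rw [hzd]; nlinarith
  have lz : LB z0 z := by rw [hzd]; exact LB_mul hsl hsl
  have uz : UB z z1 := by rw [hzd]; exact UB_mul hsu hsu hs.le hs.le
  have lc : LB c0 c := by rw [hc]; exact LB_sqrt (LB_sub LB_one uz hz1.le)
  have uc : UB c c1 := by rw [hc]; exact UB_sqrt (UB_sub UB_one lz) (by linarith)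
  have hcp : 0 < c := by rw [hc]; exact Real.sqrt_pos.2 (by linarith)
  have hc1 : c ≤ 1 := by
    rw [hc]; exact Real.sqrt_le_one.2 (by linarith)
  obtain ⟨lT, uT, lcap, ucap, hT0, hcap0⟩ := part1 hs hsl hsu hll hlu hl1 hT hT1 hcap
  have lT8 : LB T80 (T ^ 8) := p8D_spec lT
  have uT8 : UB (T ^ 8) T81 := p8U_spec uT hT0.le
  obtain ⟨v, hvd⟩ : ∃ v : ℝ, v = l - cap := ⟨_, rfl⟩
  have hv0 : 0 < v := by rw [hvd]; linarith
  have lv : LB v0 v := by rw [hvd]; exact LB_sub hll ucap hv.le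
  have uv : UB v v1 := by rw [hvd]; exact UB_sub hlu lcap
  rw [← hvd] at hy hu
  rcases hb with (h | h) | hb
  · exfalso
    have : (1 : ℝ) ≤ T := lT.le_of UB_one h
    linarith
  · exfalso
    have h1 := uv.pos hv0
    exact absurd h1 (not_lt.2 h)
  obtain ⟨⟨⟨⟨⟨⟨⟨⟨⟨hbSh, hbg⟩, hbc0⟩, hbh0⟩, hbl1⟩, K1⟩, K2⟩, K3⟩, K4⟩, K5⟩ := hb
  obtain ⟨lh, hlh⟩ : ∃ lh : ℝ, lh = l - u := ⟨_, rfl⟩
  obtain ⟨lu, uu, lV, uV, uom, llh, ulh, hu0, huv, hV0, hlh0, hom0⟩ :=
    part2 lv uv lcap ucap hvd hv0 hcap0 hy hu hV hlh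
  have lE : LB E0 E := by
    rw [hE]; exact LB_exp (by exact_mod_cast LB_nmul 2 lu)
  have uE : UB E E1 := by
    rw [hE]; exact UB_exp (by exact_mod_cast UB_nmul 2 uu) (by positivity) (by linarith)
  have hE1 : 1 < E := by rw [hE]; exact Real.one_lt_exp_iff.2 (by positivity)
  have hE0 : 0 < E := by linarith
  have hSh0 : 0 < z * E := by positivity
  have lSh : LB Sh0 (z * E) := LB_mul lz lE
  have uSh : UB (z * E) Sh1 := UB_mul uz uE hz0.le hE0.le
  have lch : LB h0 ch := by rw [hch]; exact LB_sqrt (LB_sub LB_one uSh hSh.le)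
  have uch : UB ch h1 := by rw [hch]; exact UB_sqrt (UB_sub UB_one lSh) (by linarith)
  have hchp : 0 < ch := by rw [hch]; exact Real.sqrt_pos.2 (by linarith)
  have hch1 : ch ≤ 1 := by rw [hch]; exact Real.sqrt_le_one.2 (by linarith)
  have hTT : T * T < 1 := by nlinarith
  have lcT : LB cT0 cT := by
    rw [hcT]; exact LB_sqrt (LB_sub LB_one (UB_mul uT uT hT0.le hT0.le) hTT.le)
  have lq : LB q0 (1 / c) := LB_div LB_one uc hcp
  have uq : UB (1 / c) q1 := UB_div UB_one lc hbc0 (by norm_num)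
  have hq0 : 0 < 1 / c := by positivity
  have hYe : z / c ^ 2 = z * (1 / c * (1 / c)) := by field_simp
  have lY : LB Y0 (z / c ^ 2) := by rw [hYe]; exact LB_mul lz (LB_mul lq lq)
  have uY : UB (z / c ^ 2) Y1 := by
    rw [hYe]; exact UB_mul uz (UB_mul uq uq hq0.le hq0.le) hz0.le (by positivity)
  have hY0 : 0 < z / c ^ 2 := by positivity
  -- g
  have lg : LB (gp - gn) (Lg z c ch E l u) :=
    part3 lz uz lc uc lch uch lE uE uu hll llh hlh hcp hc1 hchp hch1 hz0 hu0 hlh0 hE1 hbc0 hbh0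
      rfl rfl hbg
  -- W
  obtain ⟨w1, w2, hW, lw1, uw1, lw2, uw2⟩ :=
    part4 lc uc lch uch llh ulh lSh uSh hlh hcp hchp hch1 hlh0 hSh0 hbh0
  have uA : UB ((1 - V) * LWh z c ch E l u) A := part5 hW uw1 lw2 uom hom0 hV
  obtain ⟨a, bq, hab, hb0, la, ub⟩ := part6 uc uY hlu uE uV uT8 hcp hc1 hz0 hl0 hE0 hV0 hT0
  obtain ⟨Pp, Pn, hP, lP, uP⟩ := part7 lc uc lch uch lcT llh ulh uE lu hlu lY uY uV uT8 uSh hW lw1
    uw2 hlh hcp hc1 hchp hch1 hz0 hl0 hlh0 hE1 hV0 hT0 hu0 hbh0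
  obtain ⟨lX, hX0⟩ := part8 lz uz (LB_exp hll) hN hz0 hx hx2 hC1 hC2 (xx := xx) rfl
  have hhaz := part9 hs hT hT1 hk2
  have lhz : LB hz (c * c * T / (1 - T)) := by
    refine LB_div (LB_mul (LB_mul lc lc) lT) (UB_sub UB_one lT) (by linarith)
  -- G
  have hN0 : 0 < N := by linarith
  have lga : LB (mD (mD E0 V0) (1099511627776 + tp0)) (E * V * (1 + 23 * T ^ 8 / (25 : ℕ))) :=
    LB_mul (LB_mul lE lV) (LB_add LB_one (LB_ndiv 25 (by exact_mod_cast LB_nmul 23 lT8)))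
  have lgb : LB (mD (mD E0 V0) tp0 + mD Em0 (1099511627776 + 2 * Y0) / 2)
      (E * V * (23 * T ^ 8 / (25 : ℕ)) + (E - 1) * (1 + (2 : ℕ) * (z / c ^ 2)) / (2 : ℕ)) :=
    LB_add (LB_mul (LB_mul lE lV) (LB_ndiv 25 (by exact_mod_cast LB_nmul 23 lT8)))
      (LB_ndiv 2 (LB_mul (LB_sub lE UB_one hE1.le) (LB_add LB_one (LB_nmul 2 lY))))
  have uT23 : UB (23 * T ^ 8 / (25 : ℕ)) tp1 := UB_ndiv (by norm_num) (by exact_mod_cast UB_nmul 23 uT8)
  have uga : UB (E * V * (1 + 23 * T ^ 8 / (25 : ℕ))) (mU (mU E1 V1) (1099511627776 + tp1)) :=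
    UB_mul (UB_mul uE uV hE0.le hV0.le) (UB_add UB_one uT23) (by positivity) (by positivity)
  have ugb : UB (E * V * (23 * T ^ 8 / (25 : ℕ)) + (E - 1) * (1 + (2 : ℕ) * (z / c ^ 2)) / (2 : ℕ))
      (mU (mU E1 V1) tp1 + (mU Em1 (1099511627776 + 2 * Y1) / 2 + 1)) :=
    UB_add (UB_mul (UB_mul uE uV hE0.le hV0.le) uT23 (by positivity) (by positivity))
      (UB_ndiv (by norm_num) (UB_mul (UB_sub uE LB_one) (UB_add UB_one (UB_nmul 2 uY)) (by linarith)
        (by positivity)))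
  have key : ∀ k0 k1 : ℕ, kint b k0 k1 = true → (k0 : ℝ) / 1099511627776 ≤ k →
      k ≤ (k1 : ℝ) / 1099511627776 → k0 < k1 →
      0 < N * z * Lg z c ch E l u + 5 / N * ((E * V * (1 + 23 * T ^ 8 / (25 : ℕ))) * k +
        (E * V * (23 * T ^ 8 / (25 : ℕ)) + (E - 1) * (1 + (2 : ℕ) * (z / c ^ 2)) / (2 : ℕ))) +
        (Pp - Pn) + (a - bq) * k - (1 - V) * LWh z c ch E l u * (1 - 1 / (1 + k)) -
        7 / 50 * (c ^ 2 * k ^ 2) - Mu * (k - Real.log (1 + k)) := by
    intro k0 k1 hk h1 h2 h3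
    exact kint_sound hk hN hz0 lX hX0 lg lz uz lP uP la ub hb0 uA uc hcp.le lga lgb uga ugb lhz hhaz
      hlu hl0 hbl1 h1 h2 h3 hMu
  have hfin : 0 < N * z * Lg z c ch E l u + 5 / N * ((E * V * (1 + 23 * T ^ 8 / (25 : ℕ))) * k +
        (E * V * (23 * T ^ 8 / (25 : ℕ)) + (E - 1) * (1 + (2 : ℕ) * (z / c ^ 2)) / (2 : ℕ))) +
        (Pp - Pn) + (a - bq) * k - (1 - V) * LWh z c ch E l u * (1 - 1 / (1 + k)) -
        7 / 50 * (c ^ 2 * k ^ 2) - Mu * (k - Real.log (1 + k)) := by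
    rcases le_total k (1 / 4) with h | h
    · exact key _ _ K1 (by norm_num; exact hk0) (by norm_num; linarith) (by norm_num)
    rcases le_total k (1 / 2) with h' | h'
    · exact key _ _ K2 (by norm_num; linarith) (by norm_num; linarith) (by norm_num)
    rcases le_total k (3 / 4) with h'' | h''
    · exact key _ _ K3 (by norm_num; linarith) (by norm_num; linarith) (by norm_num)
    rcases le_or_gt k 1 with h3 | h3
    · exact key _ _ K4 (by norm_num; linarith) (by norm_num; linarith) (by norm_num)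
    have hkq : k ≤ 1 / c := by rw [le_div_iff₀ hcp]; exact hk1
    have hq1' : k ≤ (q1 : ℝ) / 1099511627776 := by
      rw [le_div_iff₀ (by norm_num)]; exact uq.ge hkq
    refine key _ _ K5 (by norm_num; linarith) hq1' ?_
    have h4 : (1 : ℝ) < (q1 : ℝ) / 1099511627776 := by linarith
    rw [lt_div_iff₀ (by norm_num)] at h4
    have h5 : ((1099511627776 : ℕ) : ℝ) < q1 := by push_cast; linarith
    exact_mod_cast h5
  refine lt_of_lt_of_le hfin ?_
  rw [hab]
  have hG : LG2 z c E V (23 / 25 * T ^ 8) k = (E * V * (1 + 23 * T ^ 8 / (25 : ℕ))) * k +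
        (E * V * (23 * T ^ 8 / (25 : ℕ)) + (E - 1) * (1 + (2 : ℕ) * (z / c ^ 2)) / (2 : ℕ)) := by
    unfold LG2; push_cast; ring
  rw [hG]
  have e1 : N * (z * Lg z c ch E l u) = N * z * Lg z c ch E l u := by ring
  have e2 : 7 / 50 * c ^ 2 * k ^ 2 = 7 / 50 * (c ^ 2 * k ^ 2) := by ring
  rw [e1, e2]
  linarith


end Crest.Agent.R230.FB
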