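import Crest.Agent.R230.WSoft

/-!
# Row 230: closed form of the far density (design v2)

`P_far = G0 + ρ (1/κ - 1) + (a - 2Yl - e₀ E V₁ (1+τ)) k - β c² k² - μ e^{l/n} h_n(k)`.
-/

set_option autoImplicit false

open MeasureTheory Set Filter Topology
open scoped Pointwise ENNReal

namespace Crest.Agent.R230.WR

/-- `Ŵ = 2(Q - 1/(1+Q)) - 3 l (Q³ - Q)` -/
noncomputable def Wc (Q l : ℝ) : ℝ := 2 * (Q - 1 / (1 + Q)) - 3 * l * (Q ^ 3 - Q)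

/-- `Λ(q,l)` (with `N = n+1`) -/
noncomputable def Lc (n : ℕ) (q l : ℝ) : ℝ :=
  ((n : ℝ) + 1) * (-(q - 1) + l * (q ^ 3 - 3 * q + 2)) + q / (1 + q) - 4 * l * q ^ 3 + 3 * l * q

/-- the far density of the certificate `PQ n μ 0 β 1 0`, gauge constant `e0`, with
`su = V1 (k + τ (1+k))` -/
noncomputable def Pfar (n : ℕ) (μ β e0 lm s l k u V1 τ : ℝ) : ℝ :=
  PQ n μ 0 β 1 0 lm s l k + (lineC n s l k u (V1 * (k + τ * (1 + k))) +
    softG n e0 0 s u (V1 * (k + τ * (1 + k))))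

/-- the `k`-independent part, raw form; `Q = 1/cc (s e^u)` -/
noncomputable def G0r (n : ℕ) (μ β e0 s l u V1 τ : ℝ) : ℝ :=
  μ * (((n : ℝ) - 1) * Y s * Gm n l) + (((n : ℝ) - 3) * (Y s ^ 2 + 2 * β * Y s) - 3 * Y s) * l ^ 2 +
    cR s l + cc s * (Lc n (1 / cc (s * Real.exp u)) (l - u) - Lc n (1 / cc s) l) +
    1 / 2 * ((((n : ℝ) - 1) * Y s - 1) * e0 * (Real.exp (2 * u) - 1)) +
    V1 * τ * (cc s * Wc (1 / cc (s * Real.exp u)) (l - u) - e0 * Real.exp (2 * u))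

/-- **closed form**, general gauge constant -/
theorem Pfar_eq {n : ℕ} {μ β e0 lm s l k u V1 τ : ℝ} (hs : s ∈ Ioo (0 : ℝ) 1)
    (hφ : s * Real.exp u < 1) (hk : 0 < 1 + k) :
    Pfar n μ β e0 lm s l k u V1 τ =
      G0r n μ β e0 s l u V1 τ +
      cc s * (1 - V1) * Wc (1 / cc (s * Real.exp u)) (l - u) * ((1 + k)⁻¹ - 1) +
      (aq s - 2 * Y s * l - e0 * Real.exp (2 * u) * V1 * (1 + τ)) * k -
      β * (cc s ^ 2 * k ^ 2) - μ * (Real.exp (l / n) * hm n k) := by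
  have hx : s * Real.exp u ∈ Ioo (0 : ℝ) 1 := ⟨mul_pos hs.1 (Real.exp_pos _), hφ⟩
  have hC := cc_pos' hx
  have hc := cc_pos' hs
  have hC2 := cc_sq' hx
  have hc2 := cc_sq' hs
  unfold Pfar PQ G0r lineC softG rawL xA Lc Wc sg aq KK
  rw [Y_eq hs]
  have h1 : (s * Real.exp u) ^ 2 = 1 - cc (s * Real.exp u) ^ 2 := by rw [hC2]; ring
  have h2 : s ^ 2 = 1 - cc s ^ 2 := by rw [hc2]; ring
  rw [h1, h2]
  generalize cc (s * Real.exp u) = C at *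
  generalize cc s = c at *
  have h3 : c ≠ 0 := hc.ne'
  have h4 : C ≠ 0 := hC.ne'
  have h5 : 1 + c ≠ 0 := by positivity
  have h6 : 1 + C ≠ 0 := by positivity
  have h7 : 1 + k ≠ 0 := hk.ne'
  have h8 : c + 1 ≠ 0 := by positivity
  have h9 : C + 1 ≠ 0 := by positivity
  have e1 : 1 + 1 / c = (c + 1) / c := by field_simp
  have e2 : 1 + 1 / C = (C + 1) / C := by field_simp
  have e3 : 1 + c⁻¹ = (c + 1) / c := by field_simp
  rw [e1, e2, e3]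
  field_simp
  ring

/-- the `N`-coefficient `H` of line + gauge (second order small), `lh = l - u` -/
noncomputable def Hf (q Q lh u : ℝ) : ℝ :=
  -((Q - q) ^ 2 * (2 * Q + q)) / (2 * q * Q ^ 2) +
    1 / q * (lh * (Q - q) * (Q ^ 2 + Q * q + q ^ 2 - 3)) - 1 / q * (u * ((q - 1) ^ 2 * (q + 2)))

/-- the `k`-independent part for `e0 = 1 - 5/N + ε`, `N = n+1`, expanded around its limit
`2 β x² l² + u - (E-1)/2`, `x² = N s²` -/
noncomputable def G0c (n : ℕ) (μ β ε s l u V1 τ q Q E : ℝ) : ℝ :=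
  2 * β * (((n : ℝ) + 1) * s ^ 2) * l ^ 2 + u - 1 / 2 * (E - 1) +
    l ^ 2 * Y s * (((n : ℝ) + 1) * (Y s + 2 * β * s ^ 2) - 4 * Y s - (8 * β + 3)) +
    μ * (((n : ℝ) - 1) * Y s * Gm n l) + cR s l + ((n : ℝ) + 1) * Hf q Q (l - u) u +
    1 / q * ((Q - q) / ((1 + q) * (1 + Q))) + 4 * u * Y s -
    1 / q * ((l - u) * (Q - q) * (4 * (Q ^ 2 + Q * q + q ^ 2) - 3)) -
    (7 / 2 - 5 / ((n : ℝ) + 1)) * (Y s * (E - 1)) + 5 / (2 * ((n : ℝ) + 1)) * (E - 1) +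
    V1 * τ * (1 / q * Wc Q (l - u) - (1 - 5 / ((n : ℝ) + 1) + ε) * E) +
    1 / 2 * (ε * (((n : ℝ) - 1) * Y s - 1) * (E - 1))

theorem G0r_eq {n : ℕ} {μ β ε s l u V1 τ : ℝ} (hs : s ∈ Ioo (0 : ℝ) 1)
    (hφ : s * Real.exp u < 1) :
    G0r n μ β (1 - 5 / ((n : ℝ) + 1) + ε) s l u V1 τ =
      G0c n μ β ε s l u V1 τ (1 / cc s) (1 / cc (s * Real.exp u)) (Real.exp (2 * u)) := by
  have hx : s * Real.exp u ∈ Ioo (0 : ℝ) 1 := ⟨mul_pos hs.1 (Real.exp_pos _), hφ⟩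
  have hC := cc_pos' hx
  have hc := cc_pos' hs
  have hC2 := cc_sq' hx
  have hc2 := cc_sq' hs
  have hE : Real.exp (2 * u) = (1 - cc (s * Real.exp u) ^ 2) / (1 - cc s ^ 2) := by
    have e : Real.exp u ^ 2 = Real.exp (2 * u) := by
      rw [← Real.exp_nat_mul]; norm_num
    have h0 : (1 : ℝ) - (1 - s ^ 2) ≠ 0 := by
      have := pow_ne_zero 2 hs.1.ne'
      rwa [sub_sub_cancel]
    rw [hC2, hc2, mul_pow, e, eq_div_iff h0]
    ring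
  have h2 : s ^ 2 = 1 - cc s ^ 2 := by rw [hc2]; ring
  have hs2 : 1 - cc s ^ 2 ≠ 0 := by rw [← h2]; exact pow_ne_zero 2 hs.1.ne'
  unfold G0r G0c Lc Hf Wc
  rw [Y_eq hs, hE, h2]
  generalize cc (s * Real.exp u) = C at *
  generalize cc s = c at *
  have h3 : c ≠ 0 := hc.ne'
  have h4 : C ≠ 0 := hC.ne'
  have h8 : c + 1 ≠ 0 := by positivity
  have h9 : C + 1 ≠ 0 := by positivity
  have hn : (n : ℝ) + 1 ≠ 0 := by positivity
  have e1 : 1 + 1 / c = (c + 1) / c := by field_simp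
  have e2 : 1 + 1 / C = (C + 1) / C := by field_simp
  rw [e1, e2]
  field_simp
  ring

/-- **closed form of the frozen far density** -/
theorem Pfar_closed {n : ℕ} {μ β ε lm s l k u V1 τ : ℝ} (hs : s ∈ Ioo (0 : ℝ) 1)
    (hφ : s * Real.exp u < 1) (hk : 0 < 1 + k) :
    Pfar n μ β (1 - 5 / ((n : ℝ) + 1) + ε) lm s l k u V1 τ =
      G0c n μ β ε s l u V1 τ (1 / cc s) (1 / cc (s * Real.exp u)) (Real.exp (2 * u)) +
      cc s * (1 - V1) * Wc (1 / cc (s * Real.exp u)) (l - u) * ((1 + k)⁻¹ - 1) +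
      (aq s - 2 * Y s * l - (1 - 5 / ((n : ℝ) + 1) + ε) * Real.exp (2 * u) * V1 * (1 + τ)) * k -
      β * (cc s ^ 2 * k ^ 2) - μ * (Real.exp (l / n) * hm n k) := by
  rw [Pfar_eq hs hφ hk, G0r_eq hs hφ]

end Crest.Agent.R230.WR
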