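import Crest.Agent.R230.WSoft

/-!
# Row 230: cost of moving the contact point

`c (xA q̂ (l-u) - xA q l) ≥ -(1+δ)/2 · Y (e^{2u} - 1)`, `q = 1/c`, `q̂ = 1/√(1 - s² e^{2u})`.
-/

set_option autoImplicit false

open MeasureTheory Set Filter Topology
open scoped Pointwise ENNReal

namespace Crest.Agent.R230.WR

/-- `d/dx (1/√(1-x²))` along `x = s e^r` -/
lemma hasDerivAt_qexp {s r : ℝ} (hs : 0 < s) (h : s * Real.exp r < 1) :
    HasDerivAt (fun r => 1 / cc (s * Real.exp r))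
      ((1 / cc (s * Real.exp r)) * ((1 / cc (s * Real.exp r)) ^ 2 - 1)) r := by
  have hx : s * Real.exp r ∈ Ioo (0 : ℝ) 1 := ⟨by positivity, h⟩
  have hc := cc_pos' hx
  have hc2 := cc_sq' hx
  have h1 : HasDerivAt (fun r => s * Real.exp r) (s * Real.exp r) r := (Real.hasDerivAt_exp r).const_mul s
  have h2 : HasDerivAt (fun r => 1 - (s * Real.exp r) ^ 2) (-(2 * (s * Real.exp r) * (s * Real.exp r))) r := by
    have := (h1.fun_pow 2).const_sub 1
    refine this.congr_deriv ?_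
    push_cast
    ring
  have h3 : HasDerivAt (fun r => cc (s * Real.exp r)) (-(s * Real.exp r) ^ 2 / cc (s * Real.exp r)) r := by
    have h4 : (1 : ℝ) - (s * Real.exp r) ^ 2 ≠ 0 := by rw [← hc2]; positivity
    have := h2.sqrt h4
    refine this.congr_deriv ?_
    change _ / (2 * cc (s * Real.exp r)) = _
    field_simp
  have h5 := h3.fun_inv hc.ne'
  have h6 : (fun r => 1 / cc (s * Real.exp r)) = fun r => (cc (s * Real.exp r))⁻¹ := by
    funext r; rw [one_div]
  rw [h6]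
  refine h5.congr_deriv ?_
  have h7 : (s * Real.exp r) ^ 2 = 1 - cc (s * Real.exp r) ^ 2 := by rw [hc2]; ring
  rw [h7]
  field_simp

/-- the cost of a shifted contact point -/
theorem xA_cost {s u l δ lam : ℝ} (hs : s ∈ Ioo (0 : ℝ) 1) (hu : 0 ≤ u) (hφ : s * Real.exp u < 1)
    (hlam : lam ≤ l - u)
    (hq : ∀ q, 1 ≤ q → q ≤ 1 / cc (s * Real.exp u) →
      (q - 1) * (q + 2) ≤ q * (q + 1) * (δ + 3 * lam * (q ^ 2 - 1))) :
    -((1 + δ) * (1 / cc (s * Real.exp u) - 1 / cc s)) ≤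
      xA (1 / cc (s * Real.exp u)) (l - u) - xA (1 / cc s) l := by
  have hc := cc_pos' hs
  -- the monotone function
  let H : ℝ → ℝ := fun r => (1 + δ) * (1 / cc (s * Real.exp r)) + xA (1 / cc (s * Real.exp r)) (l - r)
  have hlt : ∀ r ∈ Icc 0 u, s * Real.exp r < 1 := by
    intro r hr
    refine lt_of_le_of_lt ?_ hφ
    exact mul_le_mul_of_nonneg_left (Real.exp_le_exp.2 hr.2) hs.1.le
  have hd : ∀ r ∈ Icc 0 u, HasDerivAt H ((1 + δ) * ((1 / cc (s * Real.exp r)) *
      ((1 / cc (s * Real.exp r)) ^ 2 - 1)) +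
      ((1 / cc (s * Real.exp r)) * ((1 / cc (s * Real.exp r)) ^ 2 - 1) *
        (3 * (l - r) * ((1 / cc (s * Real.exp r)) ^ 2 - 1) - 1) -
        ((1 / cc (s * Real.exp r)) - 1) ^ 2 * ((1 / cc (s * Real.exp r)) + 2))) r := by
    intro r hr
    have h1 := hasDerivAt_qexp hs.1 (hlt r hr)
    set q := fun r => 1 / cc (s * Real.exp r) with hqd
    have h2 : HasDerivAt (fun r => l - r) (-1) r := by simpa using (hasDerivAt_id r).const_sub l
    have h4 : HasDerivAt (fun r => xA (q r) (l - r))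
        (q r * (q r ^ 2 - 1) * (3 * (l - r) * (q r ^ 2 - 1) - 1) - (q r - 1) ^ 2 * (q r + 2)) r := by
      unfold xA
      have a1 := h1.sub_const 1
      have a2 := h1.add_const 2
      have a3 := ((h2.fun_mul a1).fun_mul a2).sub_const 1
      have a4 := a1.fun_mul a3
      refine a4.congr_deriv ?_
      change _ = q r * (q r ^ 2 - 1) * (3 * (l - r) * (q r ^ 2 - 1) - 1) - (q r - 1) ^ 2 * (q r + 2)
      simp only [hqd]
      ring
    exact (h1.const_mul (1 + δ)).fun_add h4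
  have hpos : ∀ r ∈ Icc 0 u, 0 ≤ (1 + δ) * ((1 / cc (s * Real.exp r)) *
      ((1 / cc (s * Real.exp r)) ^ 2 - 1)) +
      ((1 / cc (s * Real.exp r)) * ((1 / cc (s * Real.exp r)) ^ 2 - 1) *
        (3 * (l - r) * ((1 / cc (s * Real.exp r)) ^ 2 - 1) - 1) -
        ((1 / cc (s * Real.exp r)) - 1) ^ 2 * ((1 / cc (s * Real.exp r)) + 2)) := by
    intro r hr
    have hx : s * Real.exp r ∈ Ioo (0 : ℝ) 1 := ⟨mul_pos hs.1 (Real.exp_pos r), hlt r hr⟩
    have hc' := cc_pos' hx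
    have hle2 : cc (s * Real.exp u) ≤ cc (s * Real.exp r) :=
      cc_anti hx.1.le (mul_le_mul_of_nonneg_left (Real.exp_le_exp.2 hr.2) hs.1.le)
    have hcu := cc_pos' (s := s * Real.exp u) ⟨mul_pos hs.1 (Real.exp_pos u), hφ⟩
    have hd1 := cc_le_one (s * Real.exp r)
    set d := cc (s * Real.exp r) with hdd
    set q := 1 / d with hqd
    have hq1 : 1 ≤ q := by rw [hqd, le_div_iff₀ hc']; linarith
    have hqq := hq q hq1 (by
      rw [hqd]; exact one_div_le_one_div_of_le hcu hle2)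
    have hq0 : 0 < q := by linarith
    have hlr : lam ≤ l - r := by linarith [hr.2]
    have h0 : 0 ≤ q ^ 2 - 1 := by nlinarith
    have h1 : (q - 1) * (q + 2) ≤ q * (q + 1) * (δ + 3 * (l - r) * (q ^ 2 - 1)) := by
      refine hqq.trans ?_
      have h3 : lam * (q ^ 2 - 1) ≤ (l - r) * (q ^ 2 - 1) := mul_le_mul_of_nonneg_right hlr h0
      have h4 : 0 ≤ q * (q + 1) := by positivity
      nlinarith [mul_le_mul_of_nonneg_left h3 h4]
    set L := l - r with hL
    have e1 : (q + 1) * ((1 + δ) * (q * (q ^ 2 - 1)) +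
        (q * (q ^ 2 - 1) * (3 * L * (q ^ 2 - 1) - 1) - (q - 1) ^ 2 * (q + 2))) =
        (q ^ 2 - 1) * (q * (q + 1) * (δ + 3 * L * (q ^ 2 - 1)) - (q - 1) * (q + 2)) := by ring
    have e2 : 0 ≤ (q + 1) * ((1 + δ) * (q * (q ^ 2 - 1)) +
        (q * (q ^ 2 - 1) * (3 * L * (q ^ 2 - 1) - 1) - (q - 1) ^ 2 * (q + 2))) := by
      rw [e1]
      exact mul_nonneg h0 (by linarith)
    exact nonneg_of_mul_nonneg_right e2 (by linarith)
  have hmono : MonotoneOn H (Icc 0 u) := by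
    refine monotoneOn_of_deriv_nonneg (convex_Icc 0 u)
      (fun r hr => (hd r hr).continuousAt.continuousWithinAt) ?_ ?_
    · intro r hr
      rw [interior_Icc] at hr
      exact (hd r ⟨hr.1.le, hr.2.le⟩).differentiableAt.differentiableWithinAt
    · intro r hr
      rw [interior_Icc] at hr
      rw [(hd r ⟨hr.1.le, hr.2.le⟩).deriv]
      exact hpos r ⟨hr.1.le, hr.2.le⟩
  have := hmono ⟨le_rfl, hu⟩ ⟨hu, le_rfl⟩ hu
  simp only [H, Real.exp_zero, mul_one, sub_zero] at this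
  linarith

end Crest.Agent.R230.WR
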