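import Crest.Agent.R230.LegalB

/-!
# Row 230: legality of the XLOG lines (helper446), part C: numerical certificates
-/

set_option autoImplicit false

open MeasureTheory Set Filter Topology
open scoped Pointwise ENNReal Real

namespace Crest.Agent.R230

open WR

lemma lgw_0 : w 0 = 2 := by unfold w; norm_num

lemma lgw_1 : w 1 = π / 2 := by
  have h : w 1 = ∫ x in (-1 : ℝ)..1, Real.sqrt (1 - x ^ 2) := by
    unfold w
    simp only [pow_one]
  rw [h, integral_sqrt_one_sub_sq]

lemma lgw_2 : w 2 = 4 / 3 := by
  have h := w_rec 0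
  rw [show 0 + 2 = 2 from rfl, lgw_0] at h
  push_cast at h
  linarith

lemma lgw_3 : w 3 = 3 / 8 * π := by
  have h := w_rec 1
  rw [show 1 + 2 = 3 from rfl, lgw_1] at h
  push_cast at h
  linarith

lemma lgw_4 : w 4 = 16 / 15 := by
  have h := w_rec 2
  rw [show 2 + 2 = 4 from rfl, lgw_2] at h
  push_cast at h
  linarith

lemma lgw_5 : w 5 = 5 / 16 * π := by
  have h := w_rec 3
  rw [show 3 + 2 = 5 from rfl, lgw_3] at h
  push_cast at h
  linarith

lemma lgw_6 : w 6 = 32 / 35 := by
  have h := w_rec 4
  rw [show 4 + 2 = 6 from rfl, lgw_4] at h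
  push_cast at h
  linarith

lemma lgw_7 : w 7 = 35 / 128 * π := by
  have h := w_rec 5
  rw [show 5 + 2 = 7 from rfl, lgw_5] at h
  push_cast at h
  linarith

lemma lgw_8 : w 8 = 256 / 315 := by
  have h := w_rec 6
  rw [show 6 + 2 = 8 from rfl, lgw_6] at h
  push_cast at h
  linarith

lemma lgw_9 : w 9 = 63 / 256 * π := by
  have h := w_rec 7
  rw [show 7 + 2 = 9 from rfl, lgw_7] at h
  push_cast at h
  linarith

lemma lgw_10 : w 10 = 512 / 693 := by
  have h := w_rec 8
  rw [show 8 + 2 = 10 from rfl, lgw_8] at h
  push_cast at h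
  linarith

lemma lgw_11 : w 11 = 231 / 1024 * π := by
  have h := w_rec 9
  rw [show 9 + 2 = 11 from rfl, lgw_9] at h
  push_cast at h
  linarith

lemma lgw_12 : w 12 = 2048 / 3003 := by
  have h := w_rec 10
  rw [show 10 + 2 = 12 from rfl, lgw_10] at h
  push_cast at h
  linarith

lemma lgw_13 : w 13 = 429 / 2048 * π := by
  have h := w_rec 11
  rw [show 11 + 2 = 13 from rfl, lgw_11] at h
  push_cast at h
  linarith

lemma lgw_14 : w 14 = 4096 / 6435 := by
  have h := w_rec 12
  rw [show 12 + 2 = 14 from rfl, lgw_12] at h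
  push_cast at h
  linarith

lemma lgw_15 : w 15 = 6435 / 32768 * π := by
  have h := w_rec 13
  rw [show 13 + 2 = 15 from rfl, lgw_13] at h
  push_cast at h
  linarith

lemma lgw_16 : w 16 = 65536 / 109395 := by
  have h := w_rec 14
  rw [show 14 + 2 = 16 from rfl, lgw_14] at h
  push_cast at h
  linarith

lemma lgw_17 : w 17 = 12155 / 65536 * π := by
  have h := w_rec 15
  rw [show 15 + 2 = 17 from rfl, lgw_15] at h
  push_cast at h
  linarith

lemma lgw_18 : w 18 = 131072 / 230945 := by
  have h := w_rec 16
  rw [show 16 + 2 = 18 from rfl, lgw_16] at h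
  push_cast at h
  linarith

lemma lgw_19 : w 19 = 46189 / 262144 * π := by
  have h := w_rec 17
  rw [show 17 + 2 = 19 from rfl, lgw_17] at h
  push_cast at h
  linarith

lemma lgw_20 : w 20 = 524288 / 969969 := by
  have h := w_rec 18
  rw [show 18 + 2 = 20 from rfl, lgw_18] at h
  push_cast at h
  linarith

lemma lgw_21 : w 21 = 88179 / 524288 * π := by
  have h := w_rec 19
  rw [show 19 + 2 = 21 from rfl, lgw_19] at h
  push_cast at h
  linarith

lemma lgw_22 : w 22 = 1048576 / 2028117 := by
  have h := w_rec 20
  rw [show 20 + 2 = 22 from rfl, lgw_20] at h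
  push_cast at h
  linarith

lemma lgw_23 : w 23 = 676039 / 4194304 * π := by
  have h := w_rec 21
  rw [show 21 + 2 = 23 from rfl, lgw_21] at h
  push_cast at h
  linarith

/-- legality in dimension 6 -/
theorem legal_n5 {r : ℝ → ℝ} (hr : Prof r) (hN : NleB 5 r) : ∀ s ∈ Ioo (0 : ℝ) 1, Legal 5 r s := by
  have hp1 := Real.pi_gt_d6
  have hp2 := Real.pi_lt_d6
  have hw1 : 981747 / 1000000 ≤ w 5 := by rw [lgw_5]; linarith
  have hw2 : w 4 ≤ 1066667 / 1000000 := by rw [lgw_4]; linarith
  have hH : hB 5 0 ≤ 245437 / 500000 := by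
    have h := w_eq_two_hB 5
    rw [lgw_5] at h
    linarith
  have hU : ConeUB 5 r (5847 / 10000) := by
    refine coneUB_of (T₁ := 66147 / 100000) (by norm_num) hr hN (by norm_num) (by norm_num) ?_ (by norm_num) (by norm_num)
    calc 89 / 200 * w (5 - 1) ^ 5 ≤ 89 / 200 * (1066667 / 1000000) ^ 5 := by
          have := w_pos' 4
          gcongr
      _ ≤ 66147 / 100000 * (981747 / 1000000) ^ (5 - 1) := by norm_num
      _ ≤ _ := by gcongr
  have h0 := legal_start (a := 277 / 500) (c := 333 / 400) (by norm_num) hr hN (by norm_num) hH (by norm_num) (by norm_num) (by norm_num)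
  have h1 := legal_step (by norm_num) hr hN hU (by norm_num) (by norm_num) hH (a := 277 / 500) (b := 7 / 10) (t := 4429 / 5000)
    (c := 7141 / 10000) (by norm_num) (by norm_num) (LG_num (c := 4163 / 5000) (L := 939 / 2000) (by norm_num) (by norm_num)
      (by norm_num) (by norm_num) (by norm_num) (by norm_num) (by norm_num) (by norm_num))
    (by norm_num) (by norm_num) (by norm_num) (by norm_num) (by norm_num) h0
  exact legal_end hr h1

/-- legality in dimension 7 -/
theorem legal_n6 {r : ℝ → ℝ} (hr : Prof r) (hN : NleB 6 r) : ∀ s ∈ Ioo (0 : ℝ) 1, Legal 6 r s := by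
  have hp1 := Real.pi_gt_d6
  have hp2 := Real.pi_lt_d6
  have hw1 : 182857 / 200000 ≤ w 6 := by rw [lgw_6]; linarith
  have hw2 : w 5 ≤ 245437 / 250000 := by rw [lgw_5]; linarith
  have hH : hB 6 0 ≤ 457143 / 1000000 := by
    have h := w_eq_two_hB 6
    rw [lgw_6] at h
    linarith
  have hU : ConeUB 6 r (376 / 625) := by
    refine coneUB_of (T₁ := 62367 / 100000) (by norm_num) hr hN (by norm_num) (by norm_num) ?_ (by norm_num) (by norm_num)
    calc 89 / 200 * w (6 - 1) ^ 6 ≤ 89 / 200 * (245437 / 250000) ^ 6 := by
          have := w_pos' 5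
          gcongr
      _ ≤ 62367 / 100000 * (182857 / 200000) ^ (6 - 1) := by norm_num
      _ ≤ _ := by gcongr
  have h0 := legal_start (a := 521 / 1000) (c := 1707 / 2000) (by norm_num) hr hN (by norm_num) hH (by norm_num) (by norm_num) (by norm_num)
  have h1 := legal_step (by norm_num) hr hN hU (by norm_num) (by norm_num) hH (a := 521 / 1000) (b := 341 / 500) (t := 4233 / 5000)
    (c := 7313 / 10000) (by norm_num) (by norm_num) (LG_num (c := 1067 / 1250) (L := 4857 / 10000) (by norm_num) (by norm_num)
      (by norm_num) (by norm_num) (by norm_num) (by norm_num) (by norm_num) (by norm_num))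
    (by norm_num) (by norm_num) (by norm_num) (by norm_num) (by norm_num) h0
  have h2 := legal_step (by norm_num) hr hN hU (by norm_num) (by norm_num) hH (a := 341 / 500) (b := 7 / 10) (t := 1)
    (c := 7141 / 10000) (by norm_num) (by norm_num) (LG_num (c := 3657 / 5000) (L := 957 / 2500) (by norm_num) (by norm_num)
      (by norm_num) (by norm_num) (by norm_num) (by norm_num) (by norm_num) (by norm_num))
    (by norm_num) (by norm_num) (by norm_num) (by norm_num) (by norm_num) h1
  exact legal_end hr h2

/-- legality in dimension 8 -/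
theorem legal_n7 {r : ℝ → ℝ} (hr : Prof r) (hN : NleB 7 r) : ∀ s ∈ Ioo (0 : ℝ) 1, Legal 7 r s := by
  have hp1 := Real.pi_gt_d6
  have hp2 := Real.pi_lt_d6
  have hw1 : 859029 / 1000000 ≤ w 7 := by rw [lgw_7]; linarith
  have hw2 : w 6 ≤ 457143 / 500000 := by rw [lgw_6]; linarith
  have hH : hB 7 0 ≤ 85903 / 200000 := by
    have h := w_eq_two_hB 7
    rw [lgw_7] at h
    linarith
  have hU : ConeUB 7 r (6181 / 10000) := by
    refine coneUB_of (T₁ := 59141 / 100000) (by norm_num) hr hN (by norm_num) (by norm_num) ?_ (by norm_num) (by norm_num)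
    calc 89 / 200 * w (7 - 1) ^ 7 ≤ 89 / 200 * (457143 / 500000) ^ 7 := by
          have := w_pos' 6
          gcongr
      _ ≤ 59141 / 100000 * (859029 / 1000000) ^ (7 - 1) := by norm_num
      _ ≤ _ := by gcongr
  have h0 := legal_start (a := 247 / 500) (c := 4347 / 5000) (by norm_num) hr hN (by norm_num) hH (by norm_num) (by norm_num) (by norm_num)
  have h1 := legal_step (by norm_num) hr hN hU (by norm_num) (by norm_num) hH (a := 247 / 500) (b := 129 / 200) (t := 203 / 250)
    (c := 7641 / 10000) (by norm_num) (by norm_num) (LG_num (c := 1739 / 2000) (L := 1243 / 2500) (by norm_num) (by norm_num)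
      (by norm_num) (by norm_num) (by norm_num) (by norm_num) (by norm_num) (by norm_num))
    (by norm_num) (by norm_num) (by norm_num) (by norm_num) (by norm_num) h0
  have h2 := legal_step (by norm_num) hr hN hU (by norm_num) (by norm_num) hH (a := 129 / 200) (b := 7 / 10) (t := 609 / 625)
    (c := 7141 / 10000) (by norm_num) (by norm_num) (LG_num (c := 3821 / 5000) (L := 4127 / 10000) (by norm_num) (by norm_num)
      (by norm_num) (by norm_num) (by norm_num) (by norm_num) (by norm_num) (by norm_num))
    (by norm_num) (by norm_num) (by norm_num) (by norm_num) (by norm_num) h1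
  exact legal_end hr h2

/-- legality in dimension 9 -/
theorem legal_n8 {r : ℝ → ℝ} (hr : Prof r) (hN : NleB 8 r) : ∀ s ∈ Ioo (0 : ℝ) 1, Legal 8 r s := by
  have hp1 := Real.pi_gt_d6
  have hp2 := Real.pi_lt_d6
  have hw1 : 406349 / 500000 ≤ w 8 := by rw [lgw_8]; linarith
  have hw2 : w 7 ≤ 85903 / 100000 := by rw [lgw_7]; linarith
  have hH : hB 8 0 ≤ 8127 / 20000 := by
    have h := w_eq_two_hB 8
    rw [lgw_8] at h
    linarith
  have hU : ConeUB 8 r (1267 / 2000) := by
    refine coneUB_of (T₁ := 28177 / 50000) (by norm_num) hr hN (by norm_num) (by norm_num) ?_ (by norm_num) (by norm_num)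
    calc 89 / 200 * w (8 - 1) ^ 8 ≤ 89 / 200 * (85903 / 100000) ^ 8 := by
          have := w_pos' 7
          gcongr
      _ ≤ 28177 / 50000 * (406349 / 500000) ^ (8 - 1) := by norm_num
      _ ≤ _ := by gcongr
  have h0 := legal_start (a := 471 / 1000) (c := 8821 / 10000) (by norm_num) hr hN (by norm_num) hH (by norm_num) (by norm_num) (by norm_num)
  have h1 := legal_step (by norm_num) hr hN hU (by norm_num) (by norm_num) hH (a := 471 / 1000) (b := 307 / 500) (t := 781 / 1000)
    (c := 7893 / 10000) (by norm_num) (by norm_num) (LG_num (c := 4411 / 5000) (L := 5059 / 10000) (by norm_num) (by norm_num)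
      (by norm_num) (by norm_num) (by norm_num) (by norm_num) (by norm_num) (by norm_num))
    (by norm_num) (by norm_num) (by norm_num) (by norm_num) (by norm_num) h0
  have h2 := legal_step (by norm_num) hr hN hU (by norm_num) (by norm_num) hH (a := 307 / 500) (b := 7 / 10) (t := 2369 / 2500)
    (c := 7141 / 10000) (by norm_num) (by norm_num) (LG_num (c := 3947 / 5000) (L := 4341 / 10000) (by norm_num) (by norm_num)
      (by norm_num) (by norm_num) (by norm_num) (by norm_num) (by norm_num) (by norm_num))
    (by norm_num) (by norm_num) (by norm_num) (by norm_num) (by norm_num) h1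
  exact legal_end hr h2

/-- legality in dimension 10 -/
theorem legal_n9 {r : ℝ → ℝ} (hr : Prof r) (hN : NleB 9 r) : ∀ s ∈ Ioo (0 : ℝ) 1, Legal 9 r s := by
  have hp1 := Real.pi_gt_d6
  have hp2 := Real.pi_lt_d6
  have hw1 : 386563 / 500000 ≤ w 9 := by rw [lgw_9]; linarith
  have hw2 : w 8 ≤ 812699 / 1000000 := by rw [lgw_8]; linarith
  have hH : hB 9 0 ≤ 96641 / 250000 := by
    have h := w_eq_two_hB 9
    rw [lgw_9] at h
    linarith
  have hU : ConeUB 9 r (1619 / 2500) := by
    refine coneUB_of (T₁ := 53917 / 100000) (by norm_num) hr hN (by norm_num) (by norm_num) ?_ (by norm_num) (by norm_num)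
    calc 89 / 200 * w (9 - 1) ^ 9 ≤ 89 / 200 * (812699 / 1000000) ^ 9 := by
          have := w_pos' 8
          gcongr
      _ ≤ 53917 / 100000 * (386563 / 500000) ^ (9 - 1) := by norm_num
      _ ≤ _ := by gcongr
  have h0 := legal_start (a := 451 / 1000) (c := 357 / 400) (by norm_num) hr hN (by norm_num) hH (by norm_num) (by norm_num) (by norm_num)
  have h1 := legal_step (by norm_num) hr hN hU (by norm_num) (by norm_num) hH (a := 451 / 1000) (b := 587 / 1000) (t := 941 / 1250)
    (c := 1619 / 2000) (by norm_num) (by norm_num) (LG_num (c := 4463 / 5000) (L := 2563 / 5000) (by norm_num) (by norm_num)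
      (by norm_num) (by norm_num) (by norm_num) (by norm_num) (by norm_num) (by norm_num))
    (by norm_num) (by norm_num) (by norm_num) (by norm_num) (by norm_num) h0
  have h2 := legal_step (by norm_num) hr hN hU (by norm_num) (by norm_num) hH (a := 587 / 1000) (b := 7 / 10) (t := 1843 / 2000)
    (c := 7141 / 10000) (by norm_num) (by norm_num) (LG_num (c := 506 / 625) (L := 4511 / 10000) (by norm_num) (by norm_num)
      (by norm_num) (by norm_num) (by norm_num) (by norm_num) (by norm_num) (by norm_num))
    (by norm_num) (by norm_num) (by norm_num) (by norm_num) (by norm_num) h1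
  exact legal_end hr h2

/-- legality in dimension 11 -/
theorem legal_n10 {r : ℝ → ℝ} (hr : Prof r) (hN : NleB 10 r) : ∀ s ∈ Ioo (0 : ℝ) 1, Legal 10 r s := by
  have hp1 := Real.pi_gt_d6
  have hp2 := Real.pi_lt_d6
  have hw1 : 11544 / 15625 ≤ w 10 := by rw [lgw_10]; linarith
  have hw2 : w 9 ≤ 773127 / 1000000 := by rw [lgw_9]; linarith
  have hH : hB 10 0 ≤ 369409 / 1000000 := by
    have h := w_eq_two_hB 10
    rw [lgw_10] at h
    linarith
  have hU : ConeUB 10 r (1321 / 2000) := by
    refine coneUB_of (T₁ := 25883 / 50000) (by norm_num) hr hN (by norm_num) (by norm_num) ?_ (by norm_num) (by norm_num)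
    calc 89 / 200 * w (10 - 1) ^ 10 ≤ 89 / 200 * (773127 / 1000000) ^ 10 := by
          have := w_pos' 9
          gcongr
      _ ≤ 25883 / 50000 * (11544 / 15625) ^ (10 - 1) := by norm_num
      _ ≤ _ := by gcongr
  have h0 := legal_start (a := 54 / 125) (c := 4509 / 5000) (by norm_num) hr hN (by norm_num) hH (by norm_num) (by norm_num) (by norm_num)
  have h1 := legal_step (by norm_num) hr hN hU (by norm_num) (by norm_num) hH (a := 54 / 125) (b := 281 / 500) (t := 1813 / 2500)
    (c := 8271 / 10000) (by norm_num) (by norm_num) (LG_num (c := 9019 / 10000) (L := 5183 / 10000) (by norm_num) (by norm_num)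
      (by norm_num) (by norm_num) (by norm_num) (by norm_num) (by norm_num) (by norm_num))
    (by norm_num) (by norm_num) (by norm_num) (by norm_num) (by norm_num) h0
  have h2 := legal_step (by norm_num) hr hN hU (by norm_num) (by norm_num) hH (a := 281 / 500) (b := 84 / 125) (t := 2237 / 2500)
    (c := 1481 / 2000) (by norm_num) (by norm_num) (LG_num (c := 517 / 625) (L := 4653 / 10000) (by norm_num) (by norm_num)
      (by norm_num) (by norm_num) (by norm_num) (by norm_num) (by norm_num) (by norm_num))
    (by norm_num) (by norm_num) (by norm_num) (by norm_num) (by norm_num) h1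
  have h3 := legal_step (by norm_num) hr hN hU (by norm_num) (by norm_num) hH (a := 84 / 125) (b := 7 / 10) (t := 4973 / 5000)
    (c := 7141 / 10000) (by norm_num) (by norm_num) (LG_num (c := 3703 / 5000) (L := 1961 / 5000) (by norm_num) (by norm_num)
      (by norm_num) (by norm_num) (by norm_num) (by norm_num) (by norm_num) (by norm_num))
    (by norm_num) (by norm_num) (by norm_num) (by norm_num) (by norm_num) h2
  exact legal_end hr h3

/-- legality in dimension 12 -/
theorem legal_n11 {r : ℝ → ℝ} (hr : Prof r) (hN : NleB 11 r) : ∀ s ∈ Ioo (0 : ℝ) 1, Legal 11 r s := by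
  have hp1 := Real.pi_gt_d6
  have hp2 := Real.pi_lt_d6
  have hw1 : 354349 / 500000 ≤ w 11 := by rw [lgw_11]; linarith
  have hw2 : w 10 ≤ 738817 / 1000000 := by rw [lgw_10]; linarith
  have hH : hB 11 0 ≤ 7087 / 20000 := by
    have h := w_eq_two_hB 11
    rw [lgw_11] at h
    linarith
  have hU : ConeUB 11 r (6723 / 10000) := by
    refine coneUB_of (T₁ := 49849 / 100000) (by norm_num) hr hN (by norm_num) (by norm_num) ?_ (by norm_num) (by norm_num)
    calc 89 / 200 * w (11 - 1) ^ 11 ≤ 89 / 200 * (738817 / 1000000) ^ 11 := by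
          have := w_pos' 10
          gcongr
      _ ≤ 49849 / 100000 * (354349 / 500000) ^ (11 - 1) := by norm_num
      _ ≤ _ := by gcongr
  have h0 := legal_start (a := 417 / 1000) (c := 9089 / 10000) (by norm_num) hr hN (by norm_num) hH (by norm_num) (by norm_num) (by norm_num)
  have h1 := legal_step (by norm_num) hr hN hU (by norm_num) (by norm_num) hH (a := 417 / 1000) (b := 271 / 500) (t := 1757 / 2500)
    (c := 8403 / 10000) (by norm_num) (by norm_num) (LG_num (c := 909 / 1000) (L := 2611 / 5000) (by norm_num) (by norm_num)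
      (by norm_num) (by norm_num) (by norm_num) (by norm_num) (by norm_num) (by norm_num))
    (by norm_num) (by norm_num) (by norm_num) (by norm_num) (by norm_num) h0
  have h2 := legal_step (by norm_num) hr hN hU (by norm_num) (by norm_num) hH (a := 271 / 500) (b := 129 / 200) (t := 109 / 125)
    (c := 7641 / 10000) (by norm_num) (by norm_num) (LG_num (c := 2101 / 2500) (L := 4757 / 10000) (by norm_num) (by norm_num)
      (by norm_num) (by norm_num) (by norm_num) (by norm_num) (by norm_num) (by norm_num))
    (by norm_num) (by norm_num) (by norm_num) (by norm_num) (by norm_num) h1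
  have h3 := legal_step (by norm_num) hr hN hU (by norm_num) (by norm_num) hH (a := 129 / 200) (b := 7 / 10) (t := 609 / 625)
    (c := 7141 / 10000) (by norm_num) (by norm_num) (LG_num (c := 3821 / 5000) (L := 4127 / 10000) (by norm_num) (by norm_num)
      (by norm_num) (by norm_num) (by norm_num) (by norm_num) (by norm_num) (by norm_num))
    (by norm_num) (by norm_num) (by norm_num) (by norm_num) (by norm_num) h2
  exact legal_end hr h3

/-- legality in dimension 13 -/
theorem legal_n12 {r : ℝ → ℝ} (hr : Prof r) (hN : NleB 12 r) : ∀ s ∈ Ioo (0 : ℝ) 1, Legal 12 r s := by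
  have hp1 := Real.pi_gt_d6
  have hp2 := Real.pi_lt_d6
  have hw1 : 10656 / 15625 ≤ w 12 := by rw [lgw_12]; linarith
  have hw2 : w 11 ≤ 7087 / 10000 := by rw [lgw_11]; linarith
  have hH : hB 12 0 ≤ 340993 / 1000000 := by
    have h := w_eq_two_hB 12
    rw [lgw_12] at h
    linarith
  have hU : ConeUB 12 r (6831 / 10000) := by
    refine coneUB_of (T₁ := 1504 / 3125) (by norm_num) hr hN (by norm_num) (by norm_num) ?_ (by norm_num) (by norm_num)
    calc 89 / 200 * w (12 - 1) ^ 12 ≤ 89 / 200 * (7087 / 10000) ^ 12 := by
          have := w_pos' 11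
          gcongr
      _ ≤ 1504 / 3125 * (10656 / 15625) ^ (12 - 1) := by norm_num
      _ ≤ _ := by gcongr
  have h0 := legal_start (a := 201 / 500) (c := 2289 / 2500) (by norm_num) hr hN (by norm_num) hH (by norm_num) (by norm_num) (by norm_num)
  have h1 := legal_step (by norm_num) hr hN hU (by norm_num) (by norm_num) hH (a := 201 / 500) (b := 523 / 1000) (t := 17 / 25)
    (c := 8523 / 10000) (by norm_num) (by norm_num) (LG_num (c := 9157 / 10000) (L := 5259 / 10000) (by norm_num) (by norm_num)
      (by norm_num) (by norm_num) (by norm_num) (by norm_num) (by norm_num) (by norm_num))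
    (by norm_num) (by norm_num) (by norm_num) (by norm_num) (by norm_num) h0
  have h2 := legal_step (by norm_num) hr hN hU (by norm_num) (by norm_num) hH (a := 523 / 1000) (b := 31 / 50) (t := 849 / 1000)
    (c := 3923 / 5000) (by norm_num) (by norm_num) (LG_num (c := 2131 / 2500) (L := 4847 / 10000) (by norm_num) (by norm_num)
      (by norm_num) (by norm_num) (by norm_num) (by norm_num) (by norm_num) (by norm_num))
    (by norm_num) (by norm_num) (by norm_num) (by norm_num) (by norm_num) h1
  have h3 := legal_step (by norm_num) hr hN hU (by norm_num) (by norm_num) hH (a := 31 / 50) (b := 7 / 10) (t := 9531 / 10000)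
    (c := 7141 / 10000) (by norm_num) (by norm_num) (LG_num (c := 7847 / 10000) (L := 4301 / 10000) (by norm_num) (by norm_num)
      (by norm_num) (by norm_num) (by norm_num) (by norm_num) (by norm_num) (by norm_num))
    (by norm_num) (by norm_num) (by norm_num) (by norm_num) (by norm_num) h2
  exact legal_end hr h3

/-- legality in dimension 14 -/
theorem legal_n13 {r : ℝ → ℝ} (hr : Prof r) (hN : NleB 13 r) : ∀ s ∈ Ioo (0 : ℝ) 1, Legal 13 r s := by
  have hp1 := Real.pi_gt_d6
  have hp2 := Real.pi_lt_d6
  have hw1 : 658077 / 1000000 ≤ w 13 := by rw [lgw_13]; linarith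
  have hw2 : w 12 ≤ 136397 / 200000 := by rw [lgw_12]; linarith
  have hH : hB 13 0 ≤ 329039 / 1000000 := by
    have h := w_eq_two_hB 13
    rw [lgw_13] at h
    linarith
  have hU : ConeUB 13 r (6929 / 10000) := by
    refine coneUB_of (T₁ := 46571 / 100000) (by norm_num) hr hN (by norm_num) (by norm_num) ?_ (by norm_num) (by norm_num)
    calc 89 / 200 * w (13 - 1) ^ 13 ≤ 89 / 200 * (136397 / 200000) ^ 13 := by
          have := w_pos' 12
          gcongr
      _ ≤ 46571 / 100000 * (658077 / 1000000) ^ (13 - 1) := by norm_num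
      _ ≤ _ := by gcongr
  have h0 := legal_start (a := 389 / 1000) (c := 2303 / 2500) (by norm_num) hr hN (by norm_num) hH (by norm_num) (by norm_num) (by norm_num)
  have h1 := legal_step (by norm_num) hr hN hU (by norm_num) (by norm_num) hH (a := 389 / 1000) (b := 253 / 500) (t := 3299 / 5000)
    (c := 69 / 80) (by norm_num) (by norm_num) (LG_num (c := 9213 / 10000) (L := 2643 / 5000) (by norm_num) (by norm_num)
      (by norm_num) (by norm_num) (by norm_num) (by norm_num) (by norm_num) (by norm_num))
    (by norm_num) (by norm_num) (by norm_num) (by norm_num) (by norm_num) h0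
  have h2 := legal_step (by norm_num) hr hN hU (by norm_num) (by norm_num) hH (a := 253 / 500) (b := 599 / 1000) (t := 2069 / 2500)
    (c := 8007 / 10000) (by norm_num) (by norm_num) (LG_num (c := 4313 / 5000) (L := 2461 / 5000) (by norm_num) (by norm_num)
      (by norm_num) (by norm_num) (by norm_num) (by norm_num) (by norm_num) (by norm_num))
    (by norm_num) (by norm_num) (by norm_num) (by norm_num) (by norm_num) h1
  have h3 := legal_step (by norm_num) hr hN hU (by norm_num) (by norm_num) hH (a := 599 / 1000) (b := 673 / 1000) (t := 4667 / 5000)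
    (c := 1849 / 2500) (by norm_num) (by norm_num) (LG_num (c := 1001 / 1250) (L := 4437 / 10000) (by norm_num) (by norm_num)
      (by norm_num) (by norm_num) (by norm_num) (by norm_num) (by norm_num) (by norm_num))
    (by norm_num) (by norm_num) (by norm_num) (by norm_num) (by norm_num) h2
  have h4 := legal_step (by norm_num) hr hN hU (by norm_num) (by norm_num) hH (a := 673 / 1000) (b := 7 / 10) (t := 9953 / 10000)
    (c := 7141 / 10000) (by norm_num) (by norm_num) (LG_num (c := 7397 / 10000) (L := 1957 / 5000) (by norm_num) (by norm_num)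
      (by norm_num) (by norm_num) (by norm_num) (by norm_num) (by norm_num) (by norm_num))
    (by norm_num) (by norm_num) (by norm_num) (by norm_num) (by norm_num) h3
  exact legal_end hr h4

/-- legality in dimension 15 -/
theorem legal_n14 {r : ℝ → ℝ} (hr : Prof r) (hN : NleB 14 r) : ∀ s ∈ Ioo (0 : ℝ) 1, Legal 14 r s := by
  have hp1 := Real.pi_gt_d6
  have hp2 := Real.pi_lt_d6
  have hw1 : 636519 / 1000000 ≤ w 14 := by rw [lgw_14]; linarith
  have hw2 : w 13 ≤ 329039 / 500000 := by rw [lgw_13]; linarith
  have hH : hB 14 0 ≤ 15913 / 50000 := by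
    have h := w_eq_two_hB 14
    rw [lgw_14] at h
    linarith
  have hU : ConeUB 14 r (351 / 500) := by
    refine coneUB_of (T₁ := 22577 / 50000) (by norm_num) hr hN (by norm_num) (by norm_num) ?_ (by norm_num) (by norm_num)
    calc 89 / 200 * w (14 - 1) ^ 14 ≤ 89 / 200 * (329039 / 500000) ^ 14 := by
          have := w_pos' 13
          gcongr
      _ ≤ 22577 / 50000 * (636519 / 1000000) ^ (14 - 1) := by norm_num
      _ ≤ _ := by gcongr
  have h0 := legal_start (a := 189 / 500) (c := 4629 / 5000) (by norm_num) hr hN (by norm_num) hH (by norm_num) (by norm_num) (by norm_num)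
  have h1 := legal_step (by norm_num) hr hN hU (by norm_num) (by norm_num) hH (a := 189 / 500) (b := 491 / 1000) (t := 3213 / 5000)
    (c := 8711 / 10000) (by norm_num) (by norm_num) (LG_num (c := 9259 / 10000) (L := 5309 / 10000) (by norm_num) (by norm_num)
      (by norm_num) (by norm_num) (by norm_num) (by norm_num) (by norm_num) (by norm_num))
    (by norm_num) (by norm_num) (by norm_num) (by norm_num) (by norm_num) h0
  have h2 := legal_step (by norm_num) hr hN hU (by norm_num) (by norm_num) hH (a := 491 / 1000) (b := 581 / 1000) (t := 101 / 125)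
    (c := 8139 / 10000) (by norm_num) (by norm_num) (LG_num (c := 1089 / 1250) (L := 4983 / 10000) (by norm_num) (by norm_num)
      (by norm_num) (by norm_num) (by norm_num) (by norm_num) (by norm_num) (by norm_num))
    (by norm_num) (by norm_num) (by norm_num) (by norm_num) (by norm_num) h1
  have h3 := legal_step (by norm_num) hr hN hU (by norm_num) (by norm_num) hH (a := 581 / 1000) (b := 649 / 1000) (t := 572 / 625)
    (c := 7607 / 10000) (by norm_num) (by norm_num) (LG_num (c := 407 / 500) (L := 2273 / 5000) (by norm_num) (by norm_num)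
      (by norm_num) (by norm_num) (by norm_num) (by norm_num) (by norm_num) (by norm_num))
    (by norm_num) (by norm_num) (by norm_num) (by norm_num) (by norm_num) h2
  have h4 := legal_step (by norm_num) hr hN hU (by norm_num) (by norm_num) hH (a := 649 / 1000) (b := 7 / 10) (t := 611 / 625)
    (c := 7141 / 10000) (by norm_num) (by norm_num) (LG_num (c := 951 / 1250) (L := 2049 / 5000) (by norm_num) (by norm_num)
      (by norm_num) (by norm_num) (by norm_num) (by norm_num) (by norm_num) (by norm_num))
    (by norm_num) (by norm_num) (by norm_num) (by norm_num) (by norm_num) h3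
  exact legal_end hr h4

/-- legality in dimension 16 -/
theorem legal_n15 {r : ℝ → ℝ} (hr : Prof r) (hN : NleB 15 r) : ∀ s ∈ Ioo (0 : ℝ) 1, Legal 15 r s := by
  have hp1 := Real.pi_gt_d6
  have hp2 := Real.pi_lt_d6
  have hw1 : 616947 / 1000000 ≤ w 15 := by rw [lgw_15]; linarith
  have hw2 : w 14 ≤ 15913 / 25000 := by rw [lgw_14]; linarith
  have hH : hB 15 0 ≤ 154237 / 500000 := by
    have h := w_eq_two_hB 15
    rw [lgw_15] at h
    linarith
  have hU : ConeUB 15 r (444 / 625) := by
    refine coneUB_of (T₁ := 43861 / 100000) (by norm_num) hr hN (by norm_num) (by norm_num) ?_ (by norm_num) (by norm_num)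
    calc 89 / 200 * w (15 - 1) ^ 15 ≤ 89 / 200 * (15913 / 25000) ^ 15 := by
          have := w_pos' 14
          gcongr
      _ ≤ 43861 / 100000 * (616947 / 1000000) ^ (15 - 1) := by norm_num
      _ ≤ _ := by gcongr
  have h0 := legal_start (a := 367 / 1000) (c := 4651 / 5000) (by norm_num) hr hN (by norm_num) hH (by norm_num) (by norm_num) (by norm_num)
  have h1 := legal_step (by norm_num) hr hN hU (by norm_num) (by norm_num) hH (a := 367 / 1000) (b := 477 / 1000) (t := 6251 / 10000)
    (c := 8789 / 10000) (by norm_num) (by norm_num) (LG_num (c := 9303 / 10000) (L := 333 / 625) (by norm_num) (by norm_num)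
      (by norm_num) (by norm_num) (by norm_num) (by norm_num) (by norm_num) (by norm_num))
    (by norm_num) (by norm_num) (by norm_num) (by norm_num) (by norm_num) h0
  have h2 := legal_step (by norm_num) hr hN hU (by norm_num) (by norm_num) hH (a := 477 / 1000) (b := 563 / 1000) (t := 1973 / 2500)
    (c := 1033 / 1250) (by norm_num) (by norm_num) (LG_num (c := 879 / 1000) (L := 5037 / 10000) (by norm_num) (by norm_num)
      (by norm_num) (by norm_num) (by norm_num) (by norm_num) (by norm_num) (by norm_num))
    (by norm_num) (by norm_num) (by norm_num) (by norm_num) (by norm_num) h1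
  have h3 := legal_step (by norm_num) hr hN hU (by norm_num) (by norm_num) hH (a := 563 / 1000) (b := 627 / 1000) (t := 8959 / 10000)
    (c := 779 / 1000) (by norm_num) (by norm_num) (LG_num (c := 1653 / 2000) (L := 4647 / 10000) (by norm_num) (by norm_num)
      (by norm_num) (by norm_num) (by norm_num) (by norm_num) (by norm_num) (by norm_num))
    (by norm_num) (by norm_num) (by norm_num) (by norm_num) (by norm_num) h2
  have h4 := legal_step (by norm_num) hr hN hU (by norm_num) (by norm_num) hH (a := 627 / 1000) (b := 341 / 500) (t := 9593 / 10000)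
    (c := 7313 / 10000) (by norm_num) (by norm_num) (LG_num (c := 7791 / 10000) (L := 2127 / 5000) (by norm_num) (by norm_num)
      (by norm_num) (by norm_num) (by norm_num) (by norm_num) (by norm_num) (by norm_num))
    (by norm_num) (by norm_num) (by norm_num) (by norm_num) (by norm_num) h3
  have h5 := legal_step (by norm_num) hr hN hU (by norm_num) (by norm_num) hH (a := 341 / 500) (b := 7 / 10) (t := 1)
    (c := 7141 / 10000) (by norm_num) (by norm_num) (LG_num (c := 3657 / 5000) (L := 957 / 2500) (by norm_num) (by norm_num)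
      (by norm_num) (by norm_num) (by norm_num) (by norm_num) (by norm_num) (by norm_num))
    (by norm_num) (by norm_num) (by norm_num) (by norm_num) (by norm_num) h4
  exact legal_end hr h5

end Crest.Agent.R230
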