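import Crest.Agent.R230.Cyl90
import Crest.Agent.R230.LegalC

/-!
# Row 230: a-priori facts (E1) for the far block, all large dimensions (helper446)

`s₁` is the point with `F₀(s₁) = 9/10`; up to `s₁` the lines are legal, and `l(s₁) ≤ 1/5`-ish.
-/

set_option autoImplicit false

open MeasureTheory Set Filter Topology
open scoped Pointwise ENNReal Real

namespace Crest.Agent.R230

open WR

/-- `w_n w_{n+1} (n+2) = 2π` -/
lemma w_mul_w_succ (n : ℕ) : w n * w (n + 1) * ((n : ℝ) + 2) = 2 * π := by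
  induction n with
  | zero =>
    rw [show 0 + 1 = 1 from rfl, lgw_0, lgw_1]
    push_cast
    ring
  | succ k ih =>
    have h := w_rec k
    have e : k + 1 + 1 = k + 2 := rfl
    rw [e]
    push_cast
    calc w (k + 1) * w (k + 2) * ((k : ℝ) + 1 + 2) = w (k + 1) * (w (k + 2) * (k + 3)) := by ring
      _ = w (k + 1) * (w k * (k + 2)) := by rw [h]
      _ = 2 * π := by rw [← ih]; ring

/-- `(2π)² (n+3) ≤ w_n⁴ (n+2)³` -/
lemma w_four_ge {n : ℕ} (hn : 1 ≤ n) : (2 * π) ^ 2 * ((n : ℝ) + 3) ≤ w n ^ 4 * ((n : ℝ) + 2) ^ 3 := by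
  obtain ⟨k, rfl⟩ : ∃ k, n = k + 1 := ⟨n - 1, by omega⟩
  have h1 := w_mul_w_succ (k + 1)
  have h2 := le_w_ratio_sq k
  have hp1 := w_pos' (k + 1)
  have hp2 := w_pos' (k + 2)
  have e : k + 1 + 1 = k + 2 := rfl
  rw [e] at h1
  push_cast at h1 ⊢
  have hk : (0 : ℝ) ≤ (k : ℝ) := Nat.cast_nonneg k
  rw [div_pow, div_le_div_iff₀ (by positivity) (by positivity)] at h2
  -- w_{k+2}^2 (k+4) ≤ w_{k+1}^2 (k+3)
  rw [← h1]
  calc (w (k + 1) * w (k + 2) * ((k : ℝ) + 1 + 2)) ^ 2 * ((k : ℝ) + 1 + 3) =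
      w (k + 1) ^ 2 * ((k : ℝ) + 3) ^ 2 * ((k + 4) * w (k + 2) ^ 2) := by ring
    _ ≤ w (k + 1) ^ 2 * ((k : ℝ) + 3) ^ 2 * (w (k + 1) ^ 2 * (k + 3)) :=
        mul_le_mul_of_nonneg_left h2 (by positivity)
    _ = _ := by ring

lemma exp_neg_le_poly {x : ℝ} (hx : 0 ≤ x) :
    Real.exp (-x) ≤ 1 - x + x ^ 2 / 2 - x ^ 3 / 6 + x ^ 4 / 24 := by
  have h5 : ∀ x : ℝ, 0 ≤ x → 0 ≤ (1 - x + x ^ 2 / 2 - x ^ 3 / 6 + x ^ 4 / 24) * Real.exp x - 1 := by
    have hm : MonotoneOn (fun x : ℝ => (1 - x + x ^ 2 / 2 - x ^ 3 / 6 + x ^ 4 / 24) * Real.exp x - 1)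
        (Ici 0) := by
      have hd : ∀ x : ℝ, HasDerivAt
          (fun x : ℝ => (1 - x + x ^ 2 / 2 - x ^ 3 / 6 + x ^ 4 / 24) * Real.exp x - 1)
          (x ^ 4 / 24 * Real.exp x) x := by
        intro x
        have hp : HasDerivAt (fun x : ℝ => 1 - x + x ^ 2 / 2 - x ^ 3 / 6 + x ^ 4 / 24)
            (-1 + x - x ^ 2 / 2 + x ^ 3 / 6) x := by
          have h1 := (hasDerivAt_id x).const_sub 1
          have h2 := ((hasDerivAt_id x).fun_pow 2).div_const 2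
          have h3 := ((hasDerivAt_id x).fun_pow 3).div_const 6
          have h4 := ((hasDerivAt_id x).fun_pow 4).div_const 24
          refine (((h1.add h2).sub h3).add h4).congr_deriv ?_
          simp
          ring
        refine ((hp.fun_mul (Real.hasDerivAt_exp x)).sub_const 1).congr_deriv ?_
        ring
      refine monotoneOn_of_deriv_nonneg (convex_Ici 0) ?_ ?_ ?_
      · exact fun x _ => (hd x).continuousAt.continuousWithinAt
      · exact fun x _ => (hd x).differentiableAt.differentiableWithinAt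
      · intro x _
        rw [(hd x).deriv]
        positivity
    intro x hx
    have := hm (Set.mem_Ici.2 le_rfl) (Set.mem_Ici.2 hx) hx
    simpa using this
  have h := h5 x hx
  have he := Real.exp_pos x
  rw [Real.exp_neg, inv_le_iff_one_le_mul₀ he]
  linarith

/-- `∫_0^s c^n ≤ s (1 - X/6 + X²/40 - X³/336 + X⁴/3456)`, `X = n s²` -/
lemma lB_le_gauss (n : ℕ) {s : ℝ} (hs : s ∈ Icc (0 : ℝ) 1) :
    lB n s ≤ s * (1 - n * s ^ 2 / 6 + (n * s ^ 2) ^ 2 / 40 - (n * s ^ 2) ^ 3 / 336 +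
      (n * s ^ 2) ^ 4 / 3456) := by
  have h : lB n s ≤ ∫ x in (0 : ℝ)..s, (1 - n * x ^ 2 / 2 + (n * x ^ 2 / 2) ^ 2 / 2 - (n * x ^ 2 / 2) ^ 3 / 6 +
      (n * x ^ 2 / 2) ^ 4 / 24) := by
    refine intervalIntegral.integral_mono_on hs.1 (intervalIntegrable_cpow n _ _)
      (Continuous.intervalIntegrable (by fun_prop) _ _) fun x hx => ?_
    have hx1 : 0 ≤ 1 - x ^ 2 := by nlinarith [hx.1, hx.2, hs.2]
    have h1 : Real.sqrt (1 - x ^ 2) ≤ Real.exp (-(x ^ 2 / 2)) := by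
      rw [Real.sqrt_le_left (Real.exp_pos _).le, ← Real.exp_nat_mul]
      have := Real.add_one_le_exp (-(x ^ 2))
      have e : ((2 : ℕ) : ℝ) * -(x ^ 2 / 2) = -(x ^ 2) := by push_cast; ring
      rw [e]
      linarith
    have h2 : Real.sqrt (1 - x ^ 2) ^ n ≤ Real.exp (-(n * x ^ 2 / 2)) := by
      calc Real.sqrt (1 - x ^ 2) ^ n ≤ Real.exp (-(x ^ 2 / 2)) ^ n :=
            pow_le_pow_left₀ (Real.sqrt_nonneg _) h1 n
        _ = _ := by rw [← Real.exp_nat_mul]; congr 1; ring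
    exact h2.trans (exp_neg_le_poly (by positivity))
  refine h.trans (le_of_eq ?_)
  have hd : ∀ u ∈ uIcc (0 : ℝ) s, HasDerivAt (fun u : ℝ => u - n * u ^ 3 / 6 + n ^ 2 * u ^ 5 / 40 -
      n ^ 3 * u ^ 7 / 336 + n ^ 4 * u ^ 9 / 3456) (1 - n * u ^ 2 / 2 + (n * u ^ 2 / 2) ^ 2 / 2 -
      (n * u ^ 2 / 2) ^ 3 / 6 + (n * u ^ 2 / 2) ^ 4 / 24) u := by
    intro u _
    have h3 := (((hasDerivAt_id u).fun_pow 3).const_mul (n : ℝ)).div_const 6
    have h5 := (((hasDerivAt_id u).fun_pow 5).const_mul ((n : ℝ) ^ 2)).div_const 40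
    have h7 := (((hasDerivAt_id u).fun_pow 7).const_mul ((n : ℝ) ^ 3)).div_const 336
    have h9 := (((hasDerivAt_id u).fun_pow 9).const_mul ((n : ℝ) ^ 4)).div_const 3456
    refine (((((hasDerivAt_id u).sub h3).add h5).sub h7).add h9).congr_deriv ?_
    simp
    ring
  rw [intervalIntegral.integral_eq_sub_of_hasDerivAt hd]
  · ring
  · exact Continuous.intervalIntegrable (by fun_prop) _ _

/-- the average `lB n s / s` is nonincreasing -/
lemma lB_avg_anti (n : ℕ) {a b : ℝ} (ha : 0 < a) (hab : a ≤ b) :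
    lB n b / b ≤ lB n a / a := by
  have hb0 : 0 < b := ha.trans_le hab
  rw [div_le_div_iff₀ hb0 ha]
  have h : lB n a + ∫ x in a..b, Real.sqrt (1 - x ^ 2) ^ n = lB n b :=
    intervalIntegral.integral_add_adjacent_intervals (intervalIntegrable_cpow n _ _)
      (intervalIntegrable_cpow n _ _)
  have h1 : ∫ x in a..b, Real.sqrt (1 - x ^ 2) ^ n ≤ (b - a) * Real.sqrt (1 - a ^ 2) ^ n := by
    have h2 := intervalIntegral.integral_mono_on hab (intervalIntegrable_cpow n a b)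
      (intervalIntegrable_const (c := Real.sqrt (1 - a ^ 2) ^ n)) (fun x hx => ?_)
    · rw [intervalIntegral.integral_const, smul_eq_mul] at h2
      exact h2
    · refine pow_le_pow_left₀ (Real.sqrt_nonneg _) (Real.sqrt_le_sqrt ?_) n
      nlinarith [hx.1]
  have h3 : a * Real.sqrt (1 - a ^ 2) ^ n ≤ lB n a := by
    have h2 := intervalIntegral.integral_mono_on ha.le
      (intervalIntegrable_const (c := Real.sqrt (1 - a ^ 2) ^ n)) (intervalIntegrable_cpow n 0 a) (fun x hx => ?_)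
    · rw [intervalIntegral.integral_const, smul_eq_mul, sub_zero] at h2
      exact h2
    · refine pow_le_pow_left₀ (Real.sqrt_nonneg _) (Real.sqrt_le_sqrt ?_) n
      nlinarith [hx.1, hx.2]
  have h4 : 0 ≤ b - a := by linarith
  nlinarith [mul_le_mul_of_nonneg_left h3 h4, mul_le_mul_of_nonneg_left h1 ha.le]

section

variable {n : ℕ} {r : ℝ → ℝ}

/-- logarithmic form of the cylinder bound, `F₀ ≤ 9/10` -/
lemma ll_le_of_cyl90 (hn : 2 ≤ n) (hr : Prof r) (hN : NleB n r) {s : ℝ} (hs : s ∈ Ioo (0 : ℝ) 1)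
    (hp : lB n s ≤ 9 / 10 * hB n 0) : ll n r s ≤ 1 / 2 + Real.log (lB n s / s) := by
  have hT := tau_pos hr n (s := s) ⟨hs.1, hs.2.le⟩
  have hl := lB_pos n (s := s) ⟨hs.1, hs.2.le⟩
  have h1 := tau_le_of_NleB90 hr hn hN hs hp
  have h2 := R_le n (by omega)
  have h3 : tau n r s ≤ Real.exp (1 / 2) * lB n s := h1.trans (mul_le_mul_of_nonneg_right h2 hl.le)
  rw [ll_eq_log hs]
  have h4 : tau n r s / s ≤ Real.exp (1 / 2) * (lB n s / s) := by
    rw [← mul_div_assoc]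
    exact div_le_div_of_nonneg_right h3 hs.1.le
  have hq : 0 < lB n s / s := div_pos hl hs.1
  calc Real.log (tau n r s / s) ≤ Real.log (Real.exp (1 / 2) * (lB n s / s)) :=
        Real.log_le_log (div_pos hT hs.1) h4
    _ = _ := by rw [Real.log_mul (Real.exp_pos _).ne' hq.ne', Real.log_exp]

/-- the region `F₀ ≤ 9/10`: `l (1+c) ≤ c²` -/
theorem ll_le_reg90 (hn : 4 ≤ n) (hr : Prof r) (hN : NleB n r) {s : ℝ} (hs : s ∈ Ioo (0 : ℝ) 1)
    (hp : lB n s ≤ 9 / 10 * hB n 0) : ll n r s * (1 + cc s) ≤ cc s ^ 2 := by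
  have h1 := ll_le_of_cyl90 (by omega) hr hN hs hp
  have hl := lB_pos n (s := s) ⟨hs.1, hs.2.le⟩
  have h2 := lB_le_quintic (n := n) hn (s := s) ⟨hs.1.le, hs.2.le⟩
  have hs0 := hs.1
  have hs1 := hs.2
  set y := s ^ 2 with hy
  have hy0 : 0 < y := by positivity
  have hy1 : y < 1 := by rw [hy]; nlinarith
  set x := 2 / 3 * y - 1 / 5 * y ^ 2 with hx
  have hx0 : 0 < x := by rw [hx]; nlinarith
  have hx1 : x < 1 := by rw [hx]; nlinarith
  have h3 : lB n s / s ≤ 1 - x := by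
    rw [div_le_iff₀ hs0]
    refine h2.trans (le_of_eq ?_)
    rw [hx, hy]
    ring
  have h4 : Real.log (lB n s / s) ≤ -(2 * x) / (2 - x) := by
    have h5 := Real.log_le_log (div_pos hl hs0) h3
    have h6 := log_pade (y := 1 - x) (by linarith) (by linarith)
    refine h5.trans (h6.trans (le_of_eq ?_))
    congr 1 <;> ring
  have hc0 := cc_nonneg s
  have hc2 : cc s ^ 2 = 1 - y := cc_sq ⟨by linarith, hs1.le⟩
  set c := cc s with hcdef
  have h7 : 1 + c ≤ (4 - y) / 2 := by nlinarith [sq_nonneg (1 - c)]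
  have h8 : 1 / 2 + -(2 * x) / (2 - x) ≤ 2 * (1 - y) / (4 - y) := by
    have h9 : 0 < 2 - x := by linarith
    have h10 : 0 < 4 - y := by linarith
    rw [div_add_div _ _ (by norm_num) h9.ne', div_le_div_iff₀ (by positivity) h10]
    have : 6 * y ≤ x * (16 - y) := by
      have h11 : x * (16 - y) - 6 * y = y * ((2 / 3 - 1 / 5 * y) * (16 - y) - 6) := by rw [hx]; ring
      have h12 : 0 ≤ (2 / 3 - 1 / 5 * y) * (16 - y) - 6 := by nlinarith
      nlinarith [mul_nonneg hy0.le h12]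
    nlinarith
  have h9 : ll n r s ≤ 2 * (1 - y) / (4 - y) := by linarith
  have h10 : 0 < 4 - y := by linarith
  calc ll n r s * (1 + c) ≤ 2 * (1 - y) / (4 - y) * (1 + c) :=
        mul_le_mul_of_nonneg_right h9 (by linarith)
    _ ≤ 2 * (1 - y) / (4 - y) * ((4 - y) / 2) :=
        mul_le_mul_of_nonneg_left h7 (div_nonneg (by linarith) h10.le)
    _ = c ^ 2 := by rw [hc2]; field_simp

/-- small `l` is always legal -/
theorem legal_of_ll_le (hr : Prof r) {s : ℝ} (hs : s ∈ Ioo (0 : ℝ) 1) (h : ll n r s ≤ 29 / 100) :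
    Legal n r s := by
  rcases le_total s (7 / 10) with h1 | h1
  · refine Legal.of_le hr hs ?_
    have hc0 := cc_nonneg s
    have hc2 : cc s ^ 2 = 1 - s ^ 2 := cc_sq ⟨by linarith [hs.1], hs.2.le⟩
    have hc3 : 71 / 100 ≤ cc s := by nlinarith [hs.1]
    have h4 : ll n r s * (1 + cc s) ≤ 29 / 100 * (1 + cc s) :=
      mul_le_mul_of_nonneg_right h (by linarith)
    nlinarith
  · exact legal_of_LG hr hs (tau_mem_Icc hr n (s := s) ⟨by linarith [hs.1], hs.2.le⟩).2 (LG_one ⟨h1, hs.2⟩)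

/-- `F₀ < 9/10` at `X = 11/5` -/
lemma F0_small (hn : 20 ≤ n) {σ : ℝ} (hσ : 0 < σ) (hσ2 : (n : ℝ) * σ ^ 2 = 11 / 5) :
    lB n σ ≤ 9 / 10 * hB n 0 ∧ lB n σ / σ ≤ 7295 / 10000 := by
  have hnR : (20 : ℝ) ≤ n := by exact_mod_cast hn
  have hσ1 : σ ≤ 1 := by
    by_contra hcon
    push Not at hcon
    nlinarith
  have h1 := lB_le_gauss n (s := σ) ⟨hσ.le, hσ1⟩
  rw [hσ2] at h1
  have h2 : lB n σ ≤ σ * (7295 / 10000) := by
    refine h1.trans (mul_le_mul_of_nonneg_left ?_ hσ.le)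
    norm_num
  refine ⟨?_, by rw [div_le_iff₀ hσ]; linarith⟩
  have hw := w_pos' n
  have hh : hB n 0 = w n / 2 := by have := w_eq_two_hB n; linarith
  have h4 := w_four_ge (n := n) (by omega)
  have hpi := Real.pi_gt_d2
  have h5 : (7295 / 10000 * σ) ^ 4 ≤ (9 / 10 * (w n / 2)) ^ 4 := by
    -- (7295/10000)^4 (11/5)^2 / n^2 ≤ (9/20)^4 w^4
    have hn0 : (0 : ℝ) < n := by linarith
    have e1 : σ ^ 4 * (n : ℝ) ^ 2 = (11 / 5) ^ 2 := by rw [← hσ2]; ring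
    have h6 : (7295 / 10000 : ℝ) ^ 4 * (11 / 5) ^ 2 * ((n : ℝ) + 2) ^ 3 ≤
        (9 / 20) ^ 4 * ((2 * π) ^ 2 * ((n : ℝ) + 3)) * (n : ℝ) ^ 2 := by
      have hpi2 : (2 * (314 / 100 : ℝ)) ^ 2 ≤ (2 * π) ^ 2 := by
        refine pow_le_pow_left₀ (by norm_num) ?_ 2
        linarith
      calc (7295 / 10000 : ℝ) ^ 4 * (11 / 5) ^ 2 * ((n : ℝ) + 2) ^ 3 ≤
          (9 / 20) ^ 4 * ((2 * (314 / 100 : ℝ)) ^ 2 * ((n : ℝ) + 3)) * (n : ℝ) ^ 2 := by
            nlinarith [mul_nonneg (sub_nonneg.2 hnR) (sub_nonneg.2 hnR),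
              mul_nonneg (mul_nonneg (sub_nonneg.2 hnR) (sub_nonneg.2 hnR)) (sub_nonneg.2 hnR)]
        _ ≤ _ := by gcongr
    have h7 : (7295 / 10000 * σ) ^ 4 * ((n : ℝ) ^ 2 * ((n : ℝ) + 2) ^ 3) ≤
        (9 / 10 * (w n / 2)) ^ 4 * ((n : ℝ) ^ 2 * ((n : ℝ) + 2) ^ 3) := by
      calc (7295 / 10000 * σ) ^ 4 * ((n : ℝ) ^ 2 * ((n : ℝ) + 2) ^ 3) =
          (7295 / 10000 : ℝ) ^ 4 * (σ ^ 4 * (n : ℝ) ^ 2) * ((n : ℝ) + 2) ^ 3 := by ring
        _ = (7295 / 10000 : ℝ) ^ 4 * (11 / 5) ^ 2 * ((n : ℝ) + 2) ^ 3 := by rw [e1]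
        _ ≤ (9 / 20) ^ 4 * ((2 * π) ^ 2 * ((n : ℝ) + 3)) * (n : ℝ) ^ 2 := h6
        _ ≤ (9 / 20) ^ 4 * (w n ^ 4 * ((n : ℝ) + 2) ^ 3) * (n : ℝ) ^ 2 := by gcongr
        _ = _ := by ring
    exact le_of_mul_le_mul_right h7 (by positivity)
  have h6 : 7295 / 10000 * σ ≤ 9 / 10 * (w n / 2) := le_of_pow_le_pow_left₀ (by norm_num) (by positivity) h5
  rw [hh]
  linarith

/-- **(E1)** -/
theorem farE1 (hn : 20 ≤ n) (hr : Prof r) (hN : NleB n r) :
    ∃ s₁ ∈ Ioo (0 : ℝ) 1, lB n s₁ = 9 / 10 * hB n 0 ∧ 11 / 5 ≤ (n : ℝ) * s₁ ^ 2 ∧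
      (∀ s ∈ Ioo (0 : ℝ) 1, s ≤ s₁ → ll n r s * (1 + cc s) ≤ cc s ^ 2) ∧
      (∀ s ∈ Ioo (0 : ℝ) 1, s ≤ s₁ → Legal n r s) ∧
      ll n r s₁ ≤ 47 / 250 ∧ tau n r s₁ ≤ 41 / 100 := by
  have hH := hB_zero_pos n
  obtain ⟨s₁, hs₁, hs₁e⟩ : ∃ s₁ ∈ Icc (0 : ℝ) 1, lB n s₁ = 9 / 10 * hB n 0 := by
    have hc : ContinuousOn (lB n) (Icc 0 1) := fun x _ => (hasDerivAt_lB n x).continuousAt.continuousWithinAt
    have h := intermediate_value_Icc (zero_le_one) hc
    have h0 := lB_zero n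
    have h1 := lB_add_hB n 1
    rw [hB_one, add_zero] at h1
    obtain ⟨x, hx, hxe⟩ := h (show 9 / 10 * hB n 0 ∈ Icc (lB n 0) (lB n 1) by
      rw [h0, h1]; constructor <;> linarith)
    exact ⟨x, hx, hxe⟩
  have hs₁0 : 0 < s₁ := by
    rcases hs₁.1.eq_or_lt with h | h
    · rw [← h, lB_zero] at hs₁e; linarith
    · exact h
  have hs₁1 : s₁ < 1 := by
    rcases hs₁.2.eq_or_lt with h | h
    · have h1 := lB_add_hB n 1
      rw [hB_one, add_zero] at h1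
      rw [h, h1] at hs₁e; linarith
    · exact h
  have hreg : ∀ s ∈ Ioo (0 : ℝ) 1, s ≤ s₁ → ll n r s * (1 + cc s) ≤ cc s ^ 2 := fun s hs hss =>
    ll_le_reg90 (by omega) hr hN hs ((lB_mono n hss).trans hs₁e.le)
  have hnR : (20 : ℝ) ≤ n := by exact_mod_cast hn
  have hn0 : (0 : ℝ) < n := by linarith
  -- the comparison point
  set σ := Real.sqrt (11 / 5 / n) with hσdef
  have hσ : 0 < σ := Real.sqrt_pos.2 (by positivity)
  have hσ2 : (n : ℝ) * σ ^ 2 = 11 / 5 := by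
    rw [hσdef, Real.sq_sqrt (by positivity)]
    field_simp
  obtain ⟨hF, hav⟩ := F0_small hn hσ hσ2
  have hσs : σ ≤ s₁ := by
    by_contra hcon
    push Not at hcon
    have hσ1 : σ ≤ 1 := by
      by_contra hc
      push Not at hc
      nlinarith
    have h1 : lB n s₁ < lB n σ := by
      have h : lB n s₁ + ∫ x in s₁..σ, Real.sqrt (1 - x ^ 2) ^ n = lB n σ :=
        intervalIntegral.integral_add_adjacent_intervals (intervalIntegrable_cpow n _ _)
          (intervalIntegrable_cpow n _ _)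
      have h2 : 0 < ∫ x in s₁..σ, Real.sqrt (1 - x ^ 2) ^ n := by
        refine intervalIntegral.intervalIntegral_pos_of_pos_on (intervalIntegrable_cpow n _ _) ?_ hcon
        intro x hx
        exact pow_pos (sqrt_pos_of_mem ⟨by linarith [hx.1], by linarith [hx.2]⟩) n
      linarith
    linarith
  have hX : 11 / 5 ≤ (n : ℝ) * s₁ ^ 2 := by
    rw [← hσ2]
    gcongr
  refine ⟨s₁, ⟨hs₁0, hs₁1⟩, hs₁e, hX, hreg, fun s hs hss => Legal.of_le hr hs (hreg s hs hss), ?_, ?_⟩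
  · have h1 := ll_le_of_cyl90 (by omega) hr hN ⟨hs₁0, hs₁1⟩ hs₁e.le
    have h2 := (lB_avg_anti n hσ hσs).trans hav
    have hl := lB_pos n (s := s₁) ⟨hs₁0, hs₁1.le⟩
    have h3 := Real.log_le_log (div_pos hl hs₁0) h2
    have h4 := log_pade (y := 7295 / 10000) (by norm_num) (by norm_num)
    have h5 : 2 * ((7295 / 10000 : ℝ) - 1) / (7295 / 10000 + 1) ≤ 47 / 250 - 1 / 2 := by norm_num
    linarith
  · -- tau ≤ √e * 9/10 * hB
    have h1 := tau_le_of_NleB90 hr (by omega) hN ⟨hs₁0, hs₁1⟩ hs₁e.le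
    have h2 := R_le n (by omega)
    have hh : hB n 0 = w n / 2 := by have := w_eq_two_hB n; linarith
    -- w n² ≤ 2π/(n+1)
    have hw := w_pos' n
    have h3 : w n ^ 2 * ((n : ℝ) + 1) ≤ 2 * π := by
      obtain ⟨k, hk⟩ : ∃ k, n = k + 1 := ⟨n - 1, by omega⟩
      rw [hk]
      have h4 := w_mul_w_succ k
      have h5 : w (k + 1) ≤ w k := by
        have ha := w_logconv k
        have hb := w_rec k
        have hp0 := w_pos' k
        have hp1 := w_pos' (k + 1)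
        have hp2 := w_pos' (k + 2)
        have hk0 : (0 : ℝ) ≤ (k : ℝ) := Nat.cast_nonneg k
        have hc : w (k + 2) ≤ w k := by nlinarith
        have : w (k + 1) ^ 2 ≤ w k ^ 2 := by nlinarith
        exact le_of_sq_le_sq this hp0.le
      have hp1 := w_pos' (k + 1)
      push_cast
      have hk0 : (0 : ℝ) ≤ (k : ℝ) := Nat.cast_nonneg k
      calc w (k + 1) ^ 2 * ((k : ℝ) + 1 + 1) = w (k + 1) * w (k + 1) * (k + 2) := by ring
        _ ≤ w k * w (k + 1) * (k + 2) := by gcongr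
        _ = _ := h4
    have hpi := Real.pi_lt_d2
    have h4 : w n ^ 2 ≤ 3 / 10 := by nlinarith
    have h5 : w n ≤ 548 / 1000 := by nlinarith
    have h6 : Real.exp (1 / 2) ≤ 1649 / 1000 := by
      have h7 : Real.exp (1 / 2) ^ 2 = Real.exp 1 := by rw [← Real.exp_nat_mul]; norm_num
      have h8 := Real.exp_one_lt_d9
      have h9 := Real.exp_pos (1 / 2 : ℝ)
      nlinarith
    rw [hs₁e, hh] at h1
    have h7 : (w (n - 1) / w n) ^ n * (9 / 10 * (w n / 2)) ≤ 1649 / 1000 * (9 / 10 * (548 / 1000 / 2)) := by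
      have h0 : 0 ≤ (w (n - 1) / w n) ^ n := pow_nonneg (div_nonneg (w_pos' _).le hw.le) _
      gcongr
      exact h2.trans h6
    refine h1.trans (h7.trans ?_)
    norm_num

end

end Crest.Agent.R230
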