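import Crest.Agent.R230.FarForm

/-!
# Row 230: elimination of `N` from the cost of the moved contact point (helper613)

`c ((l-u) r(Q) - l r(q) - (Q-q)) ≥ -(1/2)(1+9/10000) Y (e^{2u}-1)`, `q = 1/c`, `Q = 1/cc (s e^u)`,
`u = Vq (7/100) (l - capF (s e^l))`, for all `0 < s < 1`, `s e^l ≤ 1`, `capF (s e^l) < l`.
-/

set_option autoImplicit false

open MeasureTheory Set Filter Topology
open scoped Pointwise ENNReal

namespace Crest.Agent.R230.WR

/-- algebraic core: reduction to the bracket `B` -/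
lemma elim_core {q Q lh u E δ : ℝ} (hq : 1 < q) (hQ : q ≤ Q)
    (hE : (q ^ 2 - 1) * (E - 1) * Q ^ 2 = Q ^ 2 - q ^ 2) (hu : 2 * u ≤ E - 1)
    (hB : 0 ≤ lh * (Q ^ 2 + Q * q + q ^ 2 - 3) - 1 + (Q + q) / (Q ^ 2 * (q + 1)) +
      1 / 2 * δ * (q * (Q + q) / Q ^ 2)) :
    -(1 / 2 * (1 + δ) * (q * ((Q ^ 2 - q ^ 2) / Q ^ 2))) ≤
      lh * rq Q - (lh + u) * rq q - (Q - q) := by
  have hq0 : 0 < q := by linarith
  have hQ0 : 0 < Q := by linarith
  have h1 : 0 ≤ (Q - q) * (lh * (Q ^ 2 + Q * q + q ^ 2 - 3) - 1 + (Q + q) / (Q ^ 2 * (q + 1)) +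
      1 / 2 * δ * (q * (Q + q) / Q ^ 2)) := mul_nonneg (by linarith) hB
  have h2 : u * rq q ≤ (Q - q) * ((Q + q) * ((q - 1) * (q + 2)) / (2 * (Q ^ 2 * (q + 1)))) := by
    have h3 : u * rq q ≤ (E - 1) / 2 * rq q := by
      refine mul_le_mul_of_nonneg_right (by linarith) ?_
      unfold rq
      positivity
    refine h3.trans (le_of_eq ?_)
    have h4 : E - 1 = (Q ^ 2 - q ^ 2) / ((q ^ 2 - 1) * Q ^ 2) := by
      rw [eq_div_iff (by
        have : 0 < q ^ 2 - 1 := by nlinarith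
        positivity)]
      linarith
    have h5 : q ^ 2 - 1 ≠ 0 := by nlinarith
    have h6 : q - 1 ≠ 0 := by intro h; linarith
    have h7 : q + 1 ≠ 0 := by positivity
    have h8 : q ^ 2 - 1 = (q - 1) * (q + 1) := by ring
    rw [h4, h8]
    unfold rq
    field_simp
    ring
  have e : (Q - q) * (lh * (Q ^ 2 + Q * q + q ^ 2 - 3) - 1 + (Q + q) / (Q ^ 2 * (q + 1)) +
      1 / 2 * δ * (q * (Q + q) / Q ^ 2)) =
      (lh * rq Q - lh * rq q - (Q - q)) + 1 / 2 * (1 + δ) * (q * ((Q ^ 2 - q ^ 2) / Q ^ 2)) -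
      (Q - q) * ((Q + q) * ((q - 1) * (q + 2)) / (2 * (Q ^ 2 * (q + 1)))) := by
    unfold rq
    field_simp
    ring
  rw [e] at h1
  linarith

/-- the bracket in terms of `a = q - 1`, `b = Q - 1` -/
lemma elim_B_of {a b lh δ : ℝ} (ha : 0 ≤ a) (hb : 0 ≤ b) (hδ : 0 ≤ δ)
    (h : 0 ≤ lh * (3 * (a + b) + a ^ 2 + a * b + b ^ 2) * (1 + b) ^ 2 * (2 + a) -
      b * ((2 + b) * (2 + a) - 1) + δ * 2) :
    0 ≤ lh * ((1 + b) ^ 2 + (1 + b) * (1 + a) + (1 + a) ^ 2 - 3) - 1 +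
      ((1 + b) + (1 + a)) / ((1 + b) ^ 2 * ((1 + a) + 1)) +
      1 / 2 * δ * ((1 + a) * ((1 + b) + (1 + a)) / (1 + b) ^ 2) := by
  have hp : 0 < (1 + b) ^ 2 * ((1 + a) + 1) := by positivity
  have e : (1 + b) ^ 2 * ((1 + a) + 1) * (lh * ((1 + b) ^ 2 + (1 + b) * (1 + a) + (1 + a) ^ 2 - 3) - 1 +
      ((1 + b) + (1 + a)) / ((1 + b) ^ 2 * ((1 + a) + 1)) +
      1 / 2 * δ * ((1 + a) * ((1 + b) + (1 + a)) / (1 + b) ^ 2)) =
      (lh * (3 * (a + b) + a ^ 2 + a * b + b ^ 2) * (1 + b) ^ 2 * (2 + a) -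
      b * ((2 + b) * (2 + a) - 1) + δ * 2) +
      δ * ((1 + a) * (2 + a + b) * (2 + a) / 2 - 2) := by
    field_simp
    ring
  have h2 : 0 ≤ δ * ((1 + a) * (2 + a + b) * (2 + a) / 2 - 2) := by
    refine mul_nonneg hδ ?_
    nlinarith [mul_nonneg ha hb, mul_nonneg ha ha, mul_nonneg (mul_nonneg ha ha) ha,
      mul_nonneg (mul_nonneg ha ha) hb]
  refine nonneg_of_mul_nonneg_right ?_ hp
  rw [e]
  linarith

lemma elim_case2_poly1 {b : ℝ} (h0 : 0 ≤ b) (h1 : b ≤ 21 / 100) :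
    0 ≤ 12 / 25 * (3 * b + b ^ 2) * (1 + b) ^ 4 - 201 / 2 * b ^ 4 * (3 * b + b ^ 2) -
      (b * (3 / 2 + b) - 9 / 10000) * (1 + b) ^ 2 := by
  have e : 12 / 25 * (3 * b + b ^ 2) * (1 + b) ^ 4 - 201 / 2 * b ^ 4 * (3 * b + b ^ 2) -
      (b * (3 / 2 + b) - 9 / 10000) * (1 + b) ^ 2 =
      (9 / 10000 - 582 / 10000 * b + b ^ 2) +
      b ^ 2 * (12409 / 10000 + 706 / 100 * b + 764 / 100 * b ^ 2 - 29814 / 100 * b ^ 3 -
        10002 / 100 * b ^ 4) := by ring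
  rw [e]
  have h2 : 0 ≤ 9 / 10000 - 582 / 10000 * b + b ^ 2 := by nlinarith [sq_nonneg (b - 291 / 10000)]
  have h3 : b ^ 3 ≤ 441 / 10000 * b := by
    have : b ^ 2 ≤ (21 / 100) ^ 2 := by gcongr
    nlinarith
  have h4 : b ^ 4 ≤ 21 / 100 * b ^ 3 := by
    have := mul_le_mul_of_nonneg_right h1 (pow_nonneg h0 3)
    linarith [show b ^ 4 = b * b ^ 3 by ring]
  have h5 : 0 ≤ 12409 / 10000 + 706 / 100 * b + 764 / 100 * b ^ 2 - 29814 / 100 * b ^ 3 -
        10002 / 100 * b ^ 4 := by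
    nlinarith [mul_nonneg h0 (sub_nonneg.2 h1)]
  have := mul_nonneg (sq_nonneg b) h5
  linarith

lemma elim_case2_poly2 {b : ℝ} (h0 : 21 / 100 ≤ b) :
    0 ≤ 73 / 200 * (3 + b) * (1 + b) ^ 2 - (3 / 2 + b) := by
  nlinarith [mul_nonneg (sub_nonneg.2 h0) (sub_nonneg.2 h0), pow_pos (by linarith : (0:ℝ) < b) 3]

/-- case `v ≥ 7/40` -/
lemma elim_B_case2 {a b lh : ℝ} (ha : 0 ≤ a) (hb : 0 ≤ b) (hb1 : b ≤ 54 / 100)
    (hl1 : 73 / 200 ≤ lh)
    (hl2 : 12 / 25 - 201 / 2 * b ^ 4 / (1 + b) ^ 4 ≤ lh) :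
    0 ≤ lh * (3 * (a + b) + a ^ 2 + a * b + b ^ 2) * (1 + b) ^ 2 * (2 + a) -
      b * ((2 + b) * (2 + a) - 1) + 9 / 10000 * 2 := by
  -- the case `a = 0`
  have h0 : 0 ≤ lh * (3 * b + b ^ 2) * (1 + b) ^ 2 - b * (3 / 2 + b) + 9 / 10000 := by
    rcases le_or_gt b (21 / 100) with h | h
    · have h1 := elim_case2_poly1 hb h
      have hp : 0 < (1 + b) ^ 2 := by positivity
      have h2 : (12 / 25 - 201 / 2 * b ^ 4 / (1 + b) ^ 4) * ((3 * b + b ^ 2) * (1 + b) ^ 4) ≤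
          lh * ((3 * b + b ^ 2) * (1 + b) ^ 4) :=
        mul_le_mul_of_nonneg_right hl2 (by positivity)
      have e1 : (12 / 25 - 201 / 2 * b ^ 4 / (1 + b) ^ 4) * ((3 * b + b ^ 2) * (1 + b) ^ 4) =
          12 / 25 * (3 * b + b ^ 2) * (1 + b) ^ 4 - 201 / 2 * b ^ 4 * (3 * b + b ^ 2) := by
        field_simp
      refine nonneg_of_mul_nonneg_right ?_ hp
      have e2 : (1 + b) ^ 2 * (lh * (3 * b + b ^ 2) * (1 + b) ^ 2 - b * (3 / 2 + b) + 9 / 10000) =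
          lh * ((3 * b + b ^ 2) * (1 + b) ^ 4) - (b * (3 / 2 + b) - 9 / 10000) * (1 + b) ^ 2 := by ring
      rw [e2]
      linarith
    · have h1 := elim_case2_poly2 h.le
      have h2 : 73 / 200 * ((3 + b) * (1 + b) ^ 2 * b) ≤ lh * ((3 + b) * (1 + b) ^ 2 * b) :=
        mul_le_mul_of_nonneg_right hl1 (by positivity)
      have h3 := mul_nonneg hb h1
      nlinarith
  -- the `a`-terms
  have h1 : 0 ≤ a * (lh * (3 * b + b ^ 2) * (1 + b) ^ 2 + lh * 3 * (1 + b) ^ 2 * (2 + a) -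
      b * (2 + b)) := by
    refine mul_nonneg ha ?_
    have h2 : 0 ≤ lh * (3 * b + b ^ 2) * (1 + b) ^ 2 := by positivity
    have h3 : 73 / 200 * 3 * 1 * 2 ≤ lh * 3 * (1 + b) ^ 2 * (2 + a) := by
      gcongr
      · nlinarith
      · linarith
    nlinarith
  have h2 : 0 ≤ lh * (a ^ 2 + a * b) * (1 + b) ^ 2 * (2 + a) := by positivity
  nlinarith

/-- case `v < 7/40` -/
lemma elim_B_case1 {a b lh : ℝ} (ha : 0 ≤ a) (hab : a ≤ b) (_hb1 : b ≤ 54 / 100)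
    (hl1 : 63 / 200 ≤ lh) (h : b - a ≤ 57 / 200 * (a * (1 + b) ^ 2)) :
    0 ≤ lh * (3 * (a + b) + a ^ 2 + a * b + b ^ 2) * (1 + b) ^ 2 * (2 + a) -
      b * ((2 + b) * (2 + a) - 1) + 9 / 10000 * 2 := by
  have hb : 0 ≤ b := ha.trans hab
  set X : ℝ := (1 + b) ^ 2 with hX
  have hX1 : 1 + 2 * b ≤ X := by nlinarith
  have hX0 : 1 ≤ X := by linarith
  have h1 : b ≤ 257 / 200 * (a * X) := by nlinarith [mul_nonneg ha (sub_nonneg.2 hX0)]
  have h2 : 63 / 200 * ((3 * (a + b)) * X * (2 + a)) ≤ lh * ((3 * (a + b)) * X * (2 + a)) :=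
    mul_le_mul_of_nonneg_right hl1 (by positivity)
  have h3 : 0 ≤ lh * (a ^ 2 + a * b + b ^ 2) * X * (2 + a) := by positivity
  have h4 : b * (1 + 2 * b) ≤ b * X := mul_le_mul_of_nonneg_left hX1 hb
  have h5 : a * (a + b) ≤ a * ((a + b) * X) :=
    mul_le_mul_of_nonneg_left (by nlinarith [mul_nonneg (add_nonneg ha hb) (sub_nonneg.2 hX0)]) ha
  have h6 : a * b ≤ b * b := mul_le_mul_of_nonneg_right hab hb
  have h7 : a * (b * b) ≤ b * (b * b) := mul_le_mul_of_nonneg_right hab (by positivity)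
  have e : 63 / 200 * ((3 * (a + b)) * X * (2 + a)) = 189 / 100 * (a * X) + 189 / 100 * (b * X) +
      189 / 200 * (a * ((a + b) * X)) := by ring
  have e2 : lh * (3 * (a + b) + a ^ 2 + a * b + b ^ 2) * X * (2 + a) =
      lh * ((3 * (a + b)) * X * (2 + a)) + lh * (a ^ 2 + a * b + b ^ 2) * X * (2 + a) := by ring
  rw [e2]
  rw [e] at h2
  nlinarith [mul_nonneg ha ha, mul_nonneg ha hb, mul_nonneg hb hb]

/-- basic facts on the soft contact point -/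
lemma soft_facts {s l u : ℝ} (hs : s ∈ Ioo (0 : ℝ) 1) (hT : s * Real.exp l ≤ 1)
    (hcap : capF (s * Real.exp l) < l) (hu : u = Vq (7 / 100) (l - capF (s * Real.exp l))) :
    0 < u ∧ l - u = capF (s * Real.exp l) + 7 / 100 * (l - capF (s * Real.exp l)) /
      (l - capF (s * Real.exp l) + 7 / 100) ∧ 63 / 200 ≤ capF (s * Real.exp l) ∧
      capF (s * Real.exp l) ≤ l - u ∧ l - u ≤ 1 / 2 ∧ s * Real.exp u < 1 ∧
      1 / cc (s * Real.exp u) ≤ 154 / 100 := by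
  have hT0 : 0 < s * Real.exp l := mul_pos hs.1 (Real.exp_pos _)
  set T := s * Real.exp l with hTd
  set v := l - capF T with hv
  have hv0 : 0 < v := by linarith
  have hu1 : u = v ^ 2 / (v + 7 / 100) := by rw [hu, Vq_of_nonneg hv0.le]
  have hu0 : 0 < u := by rw [hu1]; positivity
  have hc1 : 63 / 200 ≤ capF T := by
    unfold capF
    have : T ^ 8 ≤ 1 := pow_le_one₀ hT0.le hT
    linarith
  have hc2 : capF T ≤ 43 / 100 := by
    unfold capF
    have : 0 ≤ T ^ 8 := by positivity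
    linarith
  have hlh : l - u = capF T + 7 / 100 * v / (v + 7 / 100) := by
    have : l = capF T + v := by rw [hv]; ring
    rw [this, hu1]
    field_simp
    ring
  have h3 : 0 ≤ 7 / 100 * v / (v + 7 / 100) := by positivity
  have h4 : 7 / 100 * v / (v + 7 / 100) ≤ 7 / 100 := by
    rw [div_le_iff₀ (by positivity)]
    nlinarith
  have hphi : s * Real.exp u = T * Real.exp (-(l - u)) := by
    rw [hTd, mul_assoc, ← Real.exp_add]
    congr 2
    ring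
  have hE : Real.exp (-(l - u)) * (1 + 63 / 200 + (63 / 200) ^ 2 / 2) ≤ 1 := by
    have h5 : 1 + 63 / 200 + (63 / 200) ^ 2 / 2 ≤ Real.exp (l - u) := by
      have h6 := Real.quadratic_le_exp_of_nonneg (x := 63 / 200) (by norm_num)
      refine h6.trans (Real.exp_le_exp.2 ?_)
      linarith
    calc Real.exp (-(l - u)) * (1 + 63 / 200 + (63 / 200) ^ 2 / 2) ≤
        Real.exp (-(l - u)) * Real.exp (l - u) := by gcongr
      _ = 1 := by rw [← Real.exp_add]; simp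
  have hEp := Real.exp_pos (-(l - u))
  have hp1 : s * Real.exp u ≤ 74 / 100 := by
    rw [hphi]
    calc T * Real.exp (-(l - u)) ≤ 1 * Real.exp (-(l - u)) := by gcongr
      _ ≤ 74 / 100 := by linarith
  have hp0 : 0 < s * Real.exp u := mul_pos hs.1 (Real.exp_pos _)
  refine ⟨hu0, hlh, hc1, by linarith, by linarith, by linarith, ?_⟩
  have hp : s * Real.exp u ∈ Ioo (0 : ℝ) 1 := ⟨hp0, by linarith⟩
  have hd := cc_pos' hp
  have hd2 := cc_sq' hp
  rw [div_le_iff₀ hd]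
  have h7 : (s * Real.exp u) ^ 2 ≤ (74 / 100) ^ 2 := by gcongr
  have h8 : (100 / 154) ^ 2 ≤ cc (s * Real.exp u) ^ 2 := by rw [hd2]; linarith
  have h9 : 100 / 154 ≤ cc (s * Real.exp u) := abs_le_of_sq_le_sq' h8 hd.le |>.2
  linarith

lemma T8_bound {T p e Q : ℝ} (hT : T = p * e) (he : e ^ 2 ≤ Real.exp 1)
    (hp : p ^ 2 = 1 - 1 / Q ^ 2) (hQ : 1 ≤ Q) :
    23 / 200 * T ^ 8 ≤ 201 / 2 * (Q - 1) ^ 4 / Q ^ 4 := by
  have hQ0 : 0 < Q := by linarith
  have hb : 0 ≤ (Q - 1) / Q := div_nonneg (by linarith) hQ0.le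
  have hph : p ^ 2 ≤ 2 * ((Q - 1) / Q) := by
    have h4 : (Q + 1) / Q ≤ 2 := by
      rw [div_le_iff₀ hQ0]; linarith
    have h5 : p ^ 2 = ((Q - 1) / Q) * ((Q + 1) / Q) := by rw [hp]; field_simp; ring
    rw [h5]
    nlinarith
  have h4 : T ^ 2 ≤ 2 * ((Q - 1) / Q) * Real.exp 1 := by
    rw [hT, mul_pow]
    exact mul_le_mul hph he (sq_nonneg _) (by positivity)
  have h5 : (T ^ 2) ^ 4 ≤ (2 * ((Q - 1) / Q) * Real.exp 1) ^ 4 :=
    pow_le_pow_left₀ (sq_nonneg _) h4 4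
  have h6 : Real.exp 1 ^ 4 ≤ 546 / 10 := by
    have h7 : Real.exp 1 ≤ 27183 / 10000 := by
      have := Real.exp_one_lt_d9
      linarith
    calc Real.exp 1 ^ 4 ≤ (27183 / 10000) ^ 4 := pow_le_pow_left₀ (Real.exp_pos _).le h7 4
      _ ≤ 546 / 10 := by norm_num
  have h7 : 0 ≤ ((Q - 1) / Q) ^ 4 := pow_nonneg hb 4
  have e1 : (T ^ 2) ^ 4 = T ^ 8 := by ring
  have e2 : (2 * ((Q - 1) / Q) * Real.exp 1) ^ 4 = 16 * ((Q - 1) / Q) ^ 4 * Real.exp 1 ^ 4 := by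
    ring
  have e3 : 201 / 2 * (Q - 1) ^ 4 / Q ^ 4 = 201 / 2 * ((Q - 1) / Q) ^ 4 := by
    rw [div_pow]
    ring
  rw [e1, e2] at h5
  rw [e3]
  have h8 := mul_le_mul_of_nonneg_left h6 h7
  linarith

/-- relation between `q`, `Q` and `E = e^{2u}` -/
lemma soft_qQ {s u : ℝ} (hs : s ∈ Ioo (0 : ℝ) 1) (hu0 : 0 ≤ u) (hp : s * Real.exp u < 1) :
    1 < 1 / cc s ∧ 1 / cc s ≤ 1 / cc (s * Real.exp u) ∧
    ((1 / cc s) ^ 2 - 1) * (Real.exp (2 * u) - 1) * (1 / cc (s * Real.exp u)) ^ 2 =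
      (1 / cc (s * Real.exp u)) ^ 2 - (1 / cc s) ^ 2 ∧
    Y s = (1 / cc s) ^ 2 - 1 ∧
    (s * Real.exp u) ^ 2 = 1 - 1 / (1 / cc (s * Real.exp u)) ^ 2 := by
  have hc := cc_pos' hs
  have hc2 := cc_sq' hs
  have hpp : s * Real.exp u ∈ Ioo (0 : ℝ) 1 := ⟨mul_pos hs.1 (Real.exp_pos _), hp⟩
  have hd := cc_pos' hpp
  have hd2 := cc_sq' hpp
  have h1 : cc s < 1 := by
    have : 0 < s ^ 2 := by have := hs.1; positivity
    nlinarith
  have hE1 : 1 ≤ Real.exp u := by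
    rw [← Real.exp_zero]; exact Real.exp_le_exp.2 hu0
  have hdc : cc (s * Real.exp u) ≤ cc s := by
    refine cc_anti hs.1.le ?_
    nlinarith [hs.1]
  have hEE : Real.exp (2 * u) = Real.exp u ^ 2 := by
    rw [← Real.exp_nat_mul]; norm_num
  refine ⟨?_, ?_, ?_, ?_, ?_⟩
  · rw [lt_div_iff₀ hc]; linarith
  · exact one_div_le_one_div_of_le hd hdc
  · have h2 : s ^ 2 * Real.exp (2 * u) = 1 - cc (s * Real.exp u) ^ 2 := by
      rw [hd2, hEE]; ring
    have h3 : s ^ 2 = 1 - cc s ^ 2 := by rw [hc2]; ring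
    have h4 : (1 - cc s ^ 2) * Real.exp (2 * u) = 1 - cc (s * Real.exp u) ^ 2 := by rw [← h3, h2]
    field_simp
    linear_combination h4
  · rw [Y_eq hs]
    field_simp
  · have : 1 / (1 / cc (s * Real.exp u)) ^ 2 = cc (s * Real.exp u) ^ 2 := by
      field_simp
    rw [this, hd2]
    ring

/-- **elimination of `N`** -/
theorem far_elim {s l u : ℝ} (hs : s ∈ Ioo (0 : ℝ) 1) (hT : s * Real.exp l ≤ 1)
    (hcap : capF (s * Real.exp l) < l) (hu : u = Vq (7 / 100) (l - capF (s * Real.exp l))) :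
    -(1 / 2 * (1 + 9 / 10000) * (Y s * (Real.exp (2 * u) - 1))) ≤
      cc s * ((l - u) * rq (1 / cc (s * Real.exp u)) - l * rq (1 / cc s) -
        (1 / cc (s * Real.exp u) - 1 / cc s)) := by
  obtain ⟨hu0, hlh, hc1, hlc, hl2, hp, hQ⟩ := soft_facts hs hT hcap hu
  obtain ⟨hq1, hqQ, hE, hY, hphi⟩ := soft_qQ hs hu0.le hp
  have hc := cc_pos' hs
  have hT0 : 0 < s * Real.exp l := mul_pos hs.1 (Real.exp_pos _)
  have hphi2 : s * Real.exp u = s * Real.exp l * Real.exp (-(l - u)) := by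
    rw [mul_assoc, ← Real.exp_add]
    congr 2
    ring
  set T := s * Real.exp l with hTd
  set v := l - capF T with hv
  have hv0 : 0 < v := by linarith
  have hu1 : u = v ^ 2 / (v + 7 / 100) := by rw [hu, Vq_of_nonneg hv0.le]
  set q := 1 / cc s with hq
  set Q := 1 / cc (s * Real.exp u) with hQd
  have hQ0 : 0 < Q := by linarith
  have h2u : 2 * u ≤ Real.exp (2 * u) - 1 := by
    have := Real.add_one_le_exp (2 * u)
    linarith
  have ha : 0 ≤ q - 1 := by linarith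
  have hab : q - 1 ≤ Q - 1 := by linarith
  have hb : 0 ≤ Q - 1 := by linarith
  have hb1 : Q - 1 ≤ 54 / 100 := by linarith
  have key : 0 ≤ (l - u) * (3 * ((q - 1) + (Q - 1)) + (q - 1) ^ 2 + (q - 1) * (Q - 1) + (Q - 1) ^ 2) *
      (1 + (Q - 1)) ^ 2 * (2 + (q - 1)) -
      (Q - 1) * ((2 + (Q - 1)) * (2 + (q - 1)) - 1) + 9 / 10000 * 2 := by
    rcases lt_or_ge v (7 / 40) with h | h
    · refine elim_B_case1 ha hab hb1 (by linarith) ?_
      have hu8 : u ≤ 1 / 8 := by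
        rw [hu1, div_le_iff₀ (by positivity)]
        nlinarith
      have hE1 : Real.exp (2 * u) - 1 ≤ 57 / 200 := by
        have h3 : Real.exp (2 * u) ≤ Real.exp (1 / 4) := Real.exp_le_exp.2 (by linarith)
        have h4 := Real.exp_bound' (x := 1 / 4) (by norm_num) (by norm_num) (n := 4) (by norm_num)
        simp only [Finset.sum_range_succ, Finset.sum_range_zero, Nat.factorial] at h4
        norm_num at h4
        linarith
      have h5 : Q ^ 2 - q ^ 2 ≤ (q ^ 2 - 1) * (57 / 200) * Q ^ 2 := by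
        rw [← hE]
        have : 0 ≤ q ^ 2 - 1 := by nlinarith
        gcongr
      have h6 : (Q - q) * (1 + q) ≤ 57 / 200 * ((q - 1) * Q ^ 2) * (1 + q) := by
        nlinarith [mul_nonneg (sub_nonneg.2 hqQ) hb]
      have h7 := le_of_mul_le_mul_right h6 (by linarith)
      have e : (1 + (Q - 1)) ^ 2 = Q ^ 2 := by ring
      rw [e]
      linarith
    · have h3 : 1 / 20 ≤ 7 / 100 * v / (v + 7 / 100) := by
        rw [le_div_iff₀ (by positivity)]
        linarith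
      have hlow : capF T + 1 / 20 ≤ l - u := by linarith
      refine elim_B_case2 ha hb hb1 (by linarith) ?_
      have hT2 : T = s * Real.exp u * Real.exp (l - u) := by
        rw [hphi2, mul_assoc, ← Real.exp_add]
        simp
      have he1 : Real.exp (l - u) ^ 2 ≤ Real.exp 1 := by
        rw [← Real.exp_nat_mul]
        refine Real.exp_le_exp.2 ?_
        push_cast
        linarith
      have hT8 := T8_bound hT2 he1 hphi (by linarith)
      have e0 : 1 + (Q - 1) = Q := by ring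
      rw [e0]
      have e4 : capF T = 43 / 100 - 23 / 200 * T ^ 8 := rfl
      linarith
  have hB := elim_B_of ha hb (δ := 9 / 10000) (by norm_num) key
  have e1 : 1 + (Q - 1) = Q := by ring
  have e2 : 1 + (q - 1) = q := by ring
  rw [e1, e2] at hB
  have hcore := elim_core (E := Real.exp (2 * u)) hq1 hqQ hE h2u hB
  have h9 := mul_le_mul_of_nonneg_left hcore hc.le
  have e3 : cc s * q = 1 := by rw [hq]; field_simp
  have e4 : Y s * (Real.exp (2 * u) - 1) = (Q ^ 2 - q ^ 2) / Q ^ 2 := by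
    rw [hY, ← hE]
    field_simp
  have e5 : cc s * -(1 / 2 * (1 + 9 / 10000) * (q * ((Q ^ 2 - q ^ 2) / Q ^ 2))) =
      -(1 / 2 * (1 + 9 / 10000) * (Y s * (Real.exp (2 * u) - 1))) := by
    rw [e4]
    linear_combination (-(1 / 2 * (1 + 9 / 10000) * ((Q ^ 2 - q ^ 2) / Q ^ 2))) * e3
  rw [e5] at h9
  have e6 : l - u + u = l := by ring
  rw [e6] at h9
  exact h9

end Crest.Agent.R230.WR
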