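import Crest.Agent.R230.FarF2c
import Crest.Agent.R230.FarLow
import Crest.Agent.R230.PLarge

/-!
# Row 230, far block, `k ≥ 0`, `s ≤ 1/4` (helper818)

The cell theorem in `l` for `k ≥ 0`.
-/

set_option autoImplicit false

open MeasureTheory Set Filter Topology
open scoped Pointwise ENNReal

namespace Crest.Agent.R230.WR

/-- the `k`-part, `k ≥ 0` -/
theorem SkF_ge_pos {n : ℕ} (hn : 23 ≤ n) {μ s l k u V1 t1 W0 pb Eb tb M : ℝ} (hμ0 : 0 ≤ μ)
    (hs : s ∈ Ioo (0 : ℝ) 1) (hl : 3 / 10 ≤ l) (hk0 : 0 ≤ k) (hk1 : k ≤ 3 / 2)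
    (hW : W0 ≤ cc s * Wq (1 / cc (s * Real.exp u)) (l - u)) (hW0 : 0 ≤ W0) (hW1 : W0 ≤ 1)
    (hV0 : 0 ≤ V1) (hpb : V1 ≤ pb) (hpb1 : pb ≤ 1)
    (hE1 : 1 ≤ Real.exp (2 * u)) (hEb : Real.exp (2 * u) ≤ Eb)
    (ht0 : 0 ≤ t1) (htb : t1 ≤ tb) (hM : μ * Real.exp (l / n) ≤ M) :
    W0 - 1 - W0 * (1 - pb) * (k / (1 + k)) + k - 1001 / 1000 * (pb * (Eb * (k + tb * (1 + k)))) -
      7 / 50 * k ^ 2 - M * (k - Real.log (1 + k)) ≤
      SkF n μ (e0F n) s l k u V1 t1 := by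
  have hn' : (23 : ℝ) ≤ n := by exact_mod_cast hn
  have hk : 0 < 1 + k := by linarith
  have hc := cc_pos' hs
  have hc1 : cc s ≤ 1 := cc_le_one s
  have hY0 := Y_nonneg hs
  have haq := aq_le_Y hs
  have he1 : e0F n ≤ 1001 / 1000 := by
    unfold e0F
    have : ((n : ℝ) - 4) / ((n : ℝ) + 1) ≤ 1 := by
      rw [div_le_one (by linarith)]; linarith
    linarith
  have he0 : 0 ≤ e0F n := by
    unfold e0F
    have : 0 ≤ ((n : ℝ) - 4) / ((n : ℝ) + 1) := div_nonneg (by linarith) (by linarith)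
    linarith
  have hV1 : V1 ≤ 1 := hpb.trans hpb1
  have hE0 := Real.exp_pos (2 * u)
  have hkk0 : 0 ≤ k / (1 + k) := by positivity
  have hkk1 : k / (1 + k) ≤ k := by
    rw [div_le_iff₀ hk]; nlinarith
  -- the 1/κ term
  have h1 : W0 * (1 - (1 - V1) * (k / (1 + k))) ≤
      cc s * Wq (1 / cc (s * Real.exp u)) (l - u) * ((1 - V1) / (1 + k) + V1 + V1 * t1) := by
    have e : (1 - V1) / (1 + k) + V1 = 1 - (1 - V1) * (k / (1 + k)) := by
      field_simp
      ring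
    have h2 : 1 - (1 - V1) * (k / (1 + k)) ≤ (1 - V1) / (1 + k) + V1 + V1 * t1 := by
      have := mul_nonneg hV0 ht0
      linarith
    have h3 : 0 ≤ 1 - (1 - V1) * (k / (1 + k)) := by
      rw [← e]
      have : 0 ≤ (1 - V1) / (1 + k) := div_nonneg (by linarith) hk.le
      linarith
    calc W0 * (1 - (1 - V1) * (k / (1 + k))) ≤
        (cc s * Wq (1 / cc (s * Real.exp u)) (l - u)) * (1 - (1 - V1) * (k / (1 + k))) :=
          mul_le_mul_of_nonneg_right hW h3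
      _ ≤ _ := mul_le_mul_of_nonneg_left h2 (hW0.trans hW)
  -- the `W` term
  have h2 : -(1 - k) ≤ -((aq s - 3 * Y s * l) * (1 - k)) + Y s * l * k := by
    rcases le_total k 1 with h | h
    · have h3 : aq s * (1 - k) ≤ (1 + 3 / 4 * Y s) * (1 - k) :=
        mul_le_mul_of_nonneg_right haq (by linarith)
      have h4 : 0 ≤ Y s * ((3 * l - 3 / 4) * (1 - k) + l * k) :=
        mul_nonneg hY0 (add_nonneg (mul_nonneg (by linarith) (by linarith))
          (mul_nonneg (by linarith) hk0))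
      have e : -((aq s - 3 * Y s * l) * (1 - k)) + Y s * l * k + (1 - k) =
          Y s * ((3 * l - 3 / 4) * (1 - k) + l * k) +
          ((1 + 3 / 4 * Y s) * (1 - k) - aq s * (1 - k)) := by ring
      linarith
    · have h5 : 1 ≤ aq s := by
        have := PL.aq_ge1 hs
        have := cc_sq' hs
        nlinarith [sq_nonneg s]
      have h3 : 0 ≤ (aq s - 1) * (k - 1) := mul_nonneg (by linarith) (by linarith)
      have h4 : 0 ≤ Y s * l * (3 - 2 * k) :=
        mul_nonneg (mul_nonneg hY0 (by linarith)) (by linarith)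
      have e : -((aq s - 3 * Y s * l) * (1 - k)) + Y s * l * k + (1 - k) =
          (aq s - 1) * (k - 1) + Y s * l * (3 - 2 * k) := by ring
      linarith
  -- the `e0 E` term
  have hm0 : 0 ≤ k + tb * (1 + k) := by
    have : 0 ≤ tb := ht0.trans htb
    positivity
  have h3 : -(1001 / 1000 * (V1 * (Eb * (k + tb * (1 + k))))) ≤
      V1 * (e0F n * (Real.exp (2 * u) * (-k - t1 * (1 + k)))) := by
    have e : V1 * (e0F n * (Real.exp (2 * u) * (-k - t1 * (1 + k)))) =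
        -(V1 * (e0F n * (Real.exp (2 * u) * (k + t1 * (1 + k))))) := by ring
    rw [e]
    have h6 : k + t1 * (1 + k) ≤ k + tb * (1 + k) := by
      have := mul_le_mul_of_nonneg_right htb hk.le
      linarith
    have h60 : 0 ≤ k + t1 * (1 + k) := by positivity
    have h7 : Real.exp (2 * u) * (k + t1 * (1 + k)) ≤ Eb * (k + tb * (1 + k)) :=
      mul_le_mul hEb h6 h60 (hE0.le.trans hEb)
    have h8 : e0F n * (Real.exp (2 * u) * (k + t1 * (1 + k))) ≤ 1001 / 1000 * (Eb * (k + tb * (1 + k))) :=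
      mul_le_mul he1 h7 (mul_nonneg hE0.le h60) (by norm_num)
    have h9 := mul_le_mul_of_nonneg_left h8 hV0
    linarith
  -- monotonicity in `V1`
  have h4 : W0 * (1 - (1 - pb) * (k / (1 + k))) - 1001 / 1000 * (pb * (Eb * (k + tb * (1 + k)))) ≤
      W0 * (1 - (1 - V1) * (k / (1 + k))) - 1001 / 1000 * (V1 * (Eb * (k + tb * (1 + k)))) := by
    have h5 : W0 * (k / (1 + k)) ≤ 1001 / 1000 * (Eb * (k + tb * (1 + k))) := by
      have h6 : W0 * (k / (1 + k)) ≤ 1 * k := mul_le_mul hW1 hkk1 hkk0 (by norm_num)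
      have h7 : 1 * k ≤ Eb * (k + tb * (1 + k)) := by
        have : 0 ≤ tb := ht0.trans htb
        apply mul_le_mul (hE1.trans hEb) _ hk0 (hE0.le.trans hEb)
        have : 0 ≤ tb * (1 + k) := by positivity
        linarith
      have h8 : 0 ≤ Eb * (k + tb * (1 + k)) := mul_nonneg (hE0.le.trans hEb) hm0
      linarith
    have h6 := mul_nonneg (show 0 ≤ pb - V1 by linarith)
      (show 0 ≤ 1001 / 1000 * (Eb * (k + tb * (1 + k))) - W0 * (k / (1 + k)) by linarith)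
    have e : (pb - V1) * (1001 / 1000 * (Eb * (k + tb * (1 + k))) - W0 * (k / (1 + k))) =
        (W0 * (1 - (1 - V1) * (k / (1 + k))) - 1001 / 1000 * (V1 * (Eb * (k + tb * (1 + k))))) -
        (W0 * (1 - (1 - pb) * (k / (1 + k))) - 1001 / 1000 * (pb * (Eb * (k + tb * (1 + k))))) := by
      ring
    linarith
  have h5 : 7 / 50 * (cc s ^ 2 * k ^ 2) ≤ 7 / 50 * k ^ 2 := by
    have : cc s ^ 2 ≤ 1 := pow_le_one₀ hc.le hc1
    have := mul_le_mul_of_nonneg_right this (sq_nonneg k)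
    linarith
  -- `hm`
  have h6 : μ * (Real.exp (l / n) * hm n k) ≤ M * (k - Real.log (1 + k)) := by
    have h7 := hm_le_log1 (n := n) (by omega) hk
    have h8 : 0 ≤ k - Real.log (1 + k) := log_sub_nonneg hk
    calc μ * (Real.exp (l / n) * hm n k) = (μ * Real.exp (l / n)) * hm n k := by ring
      _ ≤ (μ * Real.exp (l / n)) * (k - Real.log (1 + k)) :=
          mul_le_mul_of_nonneg_left h7 (by positivity)
      _ ≤ _ := mul_le_mul_of_nonneg_right hM h8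
  unfold SkF
  have e : W0 * (1 - (1 - pb) * (k / (1 + k))) = W0 - W0 * (1 - pb) * (k / (1 + k)) := by ring
  linarith


/-- concave function of `k` -/
noncomputable def fk (A B b M k : ℝ) : ℝ :=
  -(A * (k / (1 + k))) + B * k - b * k ^ 2 + M * Real.log (1 + k)

lemma fk_concave {A B b M K : ℝ} (hA : 0 ≤ A) (hb : 0 ≤ b) (h : 2 * A ≤ M + 2 * b) :
    ConcaveOn ℝ (Icc 0 K) (fk A B b M) := by
  have hd : ∀ x : ℝ, 0 ≤ x → HasDerivAt (fk A B b M)
      (-(A * (1 / (1 + x) ^ 2)) + B - 2 * b * x + M * (1 / (1 + x))) x := by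
    intro x hx
    have h0 : (1 + x) ≠ 0 := by positivity
    have h1 : HasDerivAt (fun x : ℝ => 1 + x) 1 x := by
      simpa using (hasDerivAt_id x).const_add 1
    have h2 := ((hasDerivAt_id x).div h1 h0).const_mul A
    have h3 := ((h2.neg.add ((hasDerivAt_id x).const_mul B)).sub (((hasDerivAt_id x).pow 2).const_mul b)).add
      ((h1.log h0).const_mul M)
    refine h3.congr_deriv ?_
    simp only [id]
    field_simp
    push_cast
    ring
  refine AntitoneOn.concaveOn_of_deriv (convex_Icc _ _) ?_ ?_ ?_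
  · intro x hx
    exact (hd x hx.1).continuousAt.continuousWithinAt
  · intro x hx
    rw [interior_Icc] at hx
    exact (hd x hx.1.le).differentiableAt.differentiableWithinAt
  · intro x hx y hy hxy
    rw [interior_Icc] at hx hy
    rw [(hd x hx.1.le).deriv, (hd y hy.1.le).deriv]
    have hX : 1 ≤ 1 + x := by linarith [hx.1]
    have hY : 1 ≤ 1 + y := by linarith [hy.1]
    set X := 1 + x with hXd
    set Z := 1 + y with hZd
    have hX0 : 0 < X := by linarith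
    have hZ0 : 0 < Z := by linarith
    have e : (-(A * (1 / X ^ 2)) + B - 2 * b * x + M * (1 / X)) -
        (-(A * (1 / Z ^ 2)) + B - 2 * b * y + M * (1 / Z)) =
        (y - x) * (2 * b + M * (1 / (X * Z)) - A * (1 / (X * Z)) * (1 / X + 1 / Z)) := by
      have h1 : y = Z - 1 := by rw [hZd]; ring
      have h2 : x = X - 1 := by rw [hXd]; ring
      rw [h1, h2]
      field_simp
      ring
    have h1 : 1 / X ≤ 1 := by rw [div_le_one hX0]; exact hX
    have h2 : 1 / Z ≤ 1 := by rw [div_le_one hZ0]; exact hY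
    have h3 : 0 < 1 / (X * Z) := by positivity
    have h4 : 1 / (X * Z) ≤ 1 := by
      rw [div_le_one (by positivity)]; nlinarith
    have h5 : A * (1 / (X * Z)) * (1 / X + 1 / Z) ≤ A * (1 / (X * Z)) * 2 :=
      mul_le_mul_of_nonneg_left (by linarith) (by positivity)
    have h6 : A * (1 / (X * Z)) * 2 ≤ (M + 2 * b) * (1 / (X * Z)) := by
      have := mul_le_mul_of_nonneg_right h h3.le
      linarith
    have h7 : 2 * b * (1 / (X * Z)) ≤ 2 * b * 1 := mul_le_mul_of_nonneg_left h4 (by linarith)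
    have h8 := mul_nonneg (show 0 ≤ y - x by linarith)
      (show 0 ≤ 2 * b + M * (1 / (X * Z)) - A * (1 / (X * Z)) * (1 / X + 1 / Z) by linarith)
    linarith

lemma fk_pos {G A B b M K LK : ℝ} (hA : 0 ≤ A) (hb : 0 ≤ b) (hM : 0 ≤ M) (h : 2 * A ≤ M + 2 * b)
    (hK : 0 ≤ K) (hL : LK ≤ Real.log (1 + K)) (hG : 0 < G)
    (h2 : 0 < G - A * (K / (1 + K)) + B * K - b * K ^ 2 + M * LK) :
    ∀ k : ℝ, 0 ≤ k → k ≤ K → 0 < G + fk A B b M k := by
  intro k h0 h1
  have hc := fk_concave (B := B) (K := K) hA hb h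
  have h3 := hc.min_le_of_mem_Icc (left_mem_Icc.2 hK) (right_mem_Icc.2 hK) ⟨h0, h1⟩
  have e0 : fk A B b M 0 = 0 := by unfold fk; simp
  have h4 : -(A * (K / (1 + K))) + B * K - b * K ^ 2 + M * LK ≤ fk A B b M K := by
    unfold fk
    have := mul_le_mul_of_nonneg_left hL hM
    linarith
  rw [e0] at h3
  rcases min_choice 0 (fk A B b M K) with h5 | h5 <;> rw [h5] at h3 <;> linarith

lemma cell_Mp {n : ℕ} (hn' : (23 : ℝ) ≤ n) {l lb xa M : ℝ}
    (hl0 : 0 ≤ l) (hlb : l ≤ lb) (hxa2 : 1 ≤ xa ^ 2) (hn16 : 16 * xa ^ 2 - 1 ≤ n)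
    (hlbn : lb < 16 * xa ^ 2 - 1)
    (hM : (107 / 100 + 186 / 100 / (16 * xa ^ 2 - 2)) / (1 - lb / (16 * xa ^ 2 - 1)) ≤ M) :
    muF n * Real.exp (l / n) ≤ M := by
  refine le_trans ?_ hM
  have hlb0 : 0 ≤ lb := by linarith
  have hN0 : 0 < 16 * xa ^ 2 - 1 := by linarith
  have hN1 : 0 < 16 * xa ^ 2 - 2 := by linarith
  have hn0 : (0 : ℝ) < n := by linarith
  have h1 : muF n ≤ 107 / 100 + 186 / 100 / (16 * xa ^ 2 - 2) := by
    have e : muF n = 107 / 100 + 186 / 100 / ((n : ℝ) - 1) := by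
      unfold muF
      have : (n : ℝ) - 1 ≠ 0 := by
        have : (0 : ℝ) < (n : ℝ) - 1 := by linarith
        exact this.ne'
      field_simp
      ring
    have h3 : 186 / 100 / ((n : ℝ) - 1) ≤ 186 / 100 / (16 * xa ^ 2 - 2) :=
      div_le_div_of_nonneg_left (by norm_num) hN1 (by linarith)
    linarith
  have h2 : Real.exp (l / n) ≤ 1 / (1 - lb / (16 * xa ^ 2 - 1)) := by
    have h3 : l / n ≤ lb / (16 * xa ^ 2 - 1) := by
      apply div_le_div₀ hlb0 hlb hN0 hn16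
    have h4 : lb / (16 * xa ^ 2 - 1) < 1 := by rwa [div_lt_one hN0]
    have h5 : 1 - lb / (16 * xa ^ 2 - 1) ≤ Real.exp (-(l / n)) := by
      have := Real.add_one_le_exp (-(l / n))
      linarith
    rw [Real.exp_neg] at h5
    rw [le_div_iff₀ (by linarith)]
    have h6 := mul_le_mul_of_nonneg_left h5 (Real.exp_pos (l / n)).le
    rw [mul_inv_cancel₀ (Real.exp_pos _).ne'] at h6
    exact h6
  calc muF n * Real.exp (l / n) ≤
      (107 / 100 + 186 / 100 / (16 * xa ^ 2 - 2)) * (1 / (1 - lb / (16 * xa ^ 2 - 1))) :=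
        mul_le_mul h1 h2 (Real.exp_pos _).le (by positivity)
    _ = _ := by ring

set_option maxHeartbeats 2000000 in
/-- **cell theorem, `k ≥ 0`** -/
theorem far_cell_pos {n : ℕ} (hn : 23 ≤ n) {s l k : ℝ} (h : FarC n s l k) (hk0 : 0 ≤ k) (hs4 : s ≤ 1 / 4)
    {la lb eb Tb xa va vb ua ub Eb pb Q0 W0 D S C Rm tb M G K : ℝ}
    (hla3 : 3 / 10 ≤ la) (hla : la ≤ l) (hlb : l ≤ lb)
    (heb : Real.exp lb ≤ eb) (hTb : eb ≤ 4 * Tb) (htb : 23 / 25 * Tb ^ 8 ≤ tb)
    (hva0 : 0 ≤ va) (hva : va = 0 ∨ va ≤ la - 43 / 100)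
    (hvb : lb - 43 / 100 + 23 / 200 * Tb ^ 8 ≤ vb)
    (hua : ua ≤ va ^ 2 / (va + 7 / 100)) (hub : vb ^ 2 / (vb + 7 / 100) ≤ ub)
    (hEb : Real.exp (2 * ub) ≤ Eb)
    (hpb : 1 - (7 / 100) ^ 2 / (vb + 7 / 100) ^ 2 ≤ pb) (hpb1 : pb ≤ 1)
    (hQ0 : 1 ≤ Q0) (hQ : 1 ≤ Q0 ^ 2 * (1 - Eb / 16))
    (hW0 : 0 ≤ W0) (hW1 : W0 ≤ 1) (hW : W0 ≤ 968 / 1000 * Wq Q0 (1 / 2))
    (hD2 : Eb - 1 ≤ 2 * D) (hD15 : 1 ≤ (1 + D * (1 / 15)) ^ 2 * (1 - (Eb - 1) * (1 / 15)))
    (hS : Q0 ^ 2 + Q0 * (1033 / 1000) + (1033 / 1000) ^ 2 ≤ S)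
    (hC0 : 0 ≤ C) (hC : C ^ 2 ≤ 1 - Tb ^ 2)
    (hxa0 : 1 ≤ xa) (hx : xa ≤ s * Real.sqrt ((n : ℝ) + 1))
    (hRm0 : Rm ≤ 0)
    (hRm : Rm ≤ 32 / 25 * (xa ^ 2 * la ^ 2) - 439 / 100 * lb ^ 2 - eb ^ 2 / (2 * (1 + C) ^ 2) + ua -
      D * (9 / 4 + S / 2) - 7 / 2 * (Eb - 1))
    (hlbn : lb < 16 * xa ^ 2 - 1)
    (hM : (107 / 100 + 186 / 100 / (16 * xa ^ 2 - 2)) / (1 - lb / (16 * xa ^ 2 - 1)) ≤ M)
    (hG : G ≤ 7 / 25 * (xa ^ 2 * la ^ 2) + ub - 1001 / 2000 * (Eb - 1) + Rm / 15 + W0 - 1 -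
      1001 / 1000 * (pb * (Eb * tb)))
    (hK : 1033 / 1000 ≤ K)
    (hfin : ∀ k : ℝ, 0 ≤ k → k ≤ K →
      0 < G + fk (W0 * (1 - pb)) (1 - 1001 / 1000 * (pb * (Eb * (1 + tb))) - M) (7 / 50) M k) :
    0 < PStar n s l k := by
  have hn' : (23 : ℝ) ≤ n := by exact_mod_cast hn
  have hμ0 : 0 ≤ muF n := by unfold muF; apply div_nonneg <;> linarith
  have hs := h.hs
  have hs0 := hs.1
  have hT := h.hT
  have hl0 : 0 ≤ l := by linarith
  obtain ⟨hu0, hlh, hc1, hlc, hl2, hp, -⟩ := soft_facts hs hT.le h.hcap rfl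
  have helim := far_elim hs hT.le h.hcap rfl
  have hT0 : 0 < s * Real.exp l := mul_pos hs0 (Real.exp_pos _)
  have hTTb : s * Real.exp l ≤ Tb := by
    have h1 : Real.exp l ≤ eb := (Real.exp_le_exp.2 hlb).trans heb
    have h2 : s * Real.exp l ≤ 1 / 4 * eb := mul_le_mul hs4 h1 (Real.exp_pos _).le (by norm_num)
    linarith
  have hT8 : (s * Real.exp l) ^ 8 ≤ Tb ^ 8 := by gcongr
  have hT80 : 0 ≤ (s * Real.exp l) ^ 8 := by positivity
  have hcapd : capF (s * Real.exp l) = 43 / 100 - 23 / 200 * (s * Real.exp l) ^ 8 := rfl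
  have hTb2 : (s * Real.exp l) ^ 2 ≤ Tb ^ 2 := by gcongr
  have hv0 : 0 < l - capF (s * Real.exp l) := by have := h.hcap; linarith
  have hvvb : l - capF (s * Real.exp l) ≤ vb := by rw [hcapd]; linarith
  have hvva : va ≤ l - capF (s * Real.exp l) := by
    rcases hva with hva | hva
    · linarith
    · rw [hcapd]; linarith
  have hu1 : Vq (7 / 100) (l - capF (s * Real.exp l)) =
    (l - capF (s * Real.exp l)) ^ 2 / (l - capF (s * Real.exp l) + 7 / 100) := Vq_of_nonneg hv0.le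
  have hV1 : Vq' (7 / 100) (l - capF (s * Real.exp l)) =
    1 - (7 / 100) ^ 2 / (l - capF (s * Real.exp l) + 7 / 100) ^ 2 := Vq'_of_nonneg hv0.le
  have huub : Vq (7 / 100) (l - capF (s * Real.exp l)) ≤ ub := by
    refine le_trans ?_ hub
    rw [hu1]
    exact sq_div_mono (by norm_num) hv0.le hvvb
  have huua : ua ≤ Vq (7 / 100) (l - capF (s * Real.exp l)) := by
    refine le_trans hua ?_
    rw [hu1]
    exact sq_div_mono (by norm_num) hva0 hvva
  have hVpb : Vq' (7 / 100) (l - capF (s * Real.exp l)) ≤ pb := by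
    refine le_trans ?_ hpb
    rw [hV1]
    have : (7 / 100 : ℝ) ^ 2 / (vb + 7 / 100) ^ 2 ≤
        (7 / 100) ^ 2 / (l - capF (s * Real.exp l) + 7 / 100) ^ 2 := by
      apply div_le_div_of_nonneg_left (by positivity) (by positivity)
      gcongr
    linarith
  have hVp0 : 0 ≤ Vq' (7 / 100) (l - capF (s * Real.exp l)) := by
    rw [hV1, sub_nonneg, div_le_one (by positivity)]
    gcongr
    linarith
  have hPF : PStar n s l k = S0F n 0 (e0F n) s l (Vq (7 / 100) (l - capF (s * Real.exp l))) +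
      SkF n (muF n) (e0F n) s l k (Vq (7 / 100) (l - capF (s * Real.exp l)))
        (Vq' (7 / 100) (l - capF (s * Real.exp l))) (23 / 25 * (s * Real.exp l) ^ 8) := by
    rw [show SkF n (muF n) (e0F n) s l k (Vq (7 / 100) (l - capF (s * Real.exp l)))
        (Vq' (7 / 100) (l - capF (s * Real.exp l))) (23 / 25 * (s * Real.exp l) ^ 8) =
        SkF n 0 (e0F n) s l k (Vq (7 / 100) (l - capF (s * Real.exp l)))
        (Vq' (7 / 100) (l - capF (s * Real.exp l))) (23 / 25 * (s * Real.exp l) ^ 8) -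
        muF n * (Real.exp (l / n) * hm n k) by unfold SkF; ring, ← add_sub_assoc,
      ← far_split (lm := 0) hs hp h.hk0]
    unfold PStar PF
    have e2 : SUf s l k = Vq' (7 / 100) (l - capF (s * Real.exp l)) *
        (k + 23 / 25 * (s * Real.exp l) ^ 8 * (1 + k)) := by
      unfold SUf capF'
      ring
    rw [e2]
    rfl
  rw [hPF]
  have htbT : 23 / 25 * (s * Real.exp l) ^ 8 ≤ tb := by linarith
  generalize Vq' (7 / 100) (l - capF (s * Real.exp l)) = V1 at *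
  generalize Vq (7 / 100) (l - capF (s * Real.exp l)) = u at *
  have ht0 : 0 ≤ 23 / 25 * (s * Real.exp l) ^ 8 := by positivity
  generalize 23 / 25 * (s * Real.exp l) ^ 8 = t1 at *
  have hEb' : Real.exp (2 * u) ≤ Eb := le_trans (Real.exp_le_exp.2 (by linarith)) hEb
  have hE1 : 1 ≤ Real.exp (2 * u) := Real.one_le_exp (by linarith)
  have hEb1 : 1 ≤ Eb := le_trans hE1 hEb'
  have hQle := cell_Q hs hs4 hp hQ0 hEb' hQ
  obtain ⟨hcl, hql⟩ := cell_c hs hs4
  have hc := cc_pos' hs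
  have hd := cc_pos' (s := s * Real.exp u) ⟨mul_pos hs0 (Real.exp_pos _), hp⟩
  have hcd := cell_cd hs hs4 hp hEb' hEb1 hD2 hD15
  have hSS : (1 / cc (s * Real.exp u)) ^ 2 + 1 / cc (s * Real.exp u) * (1 / cc s) + (1 / cc s) ^ 2 ≤ S := by
    refine le_trans ?_ hS
    have : 0 < 1 / cc s := by positivity
    have : 0 < 1 / cc (s * Real.exp u) := by positivity
    gcongr
  have hCC : C ≤ cc (s * Real.exp l) := by
    have h1 : C ^ 2 ≤ cc (s * Real.exp l) ^ 2 := by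
      rw [cc_sq' ⟨hT0, hT⟩]
      linarith
    exact abs_le_of_sq_le_sq' h1 (cc_nonneg _) |>.2
  have hS0 := S0F_ge (n := n) (by omega) (D := D) (S := S) (C := C) le_rfl hs hs4 hl0 hT hp hu0.le
    (by linarith) hl2 helim hcd hSS hC0 hCC
  have hX : xa ^ 2 ≤ ((n : ℝ) + 1) * s ^ 2 := by
    have h1 : xa ^ 2 ≤ (s * Real.sqrt ((n : ℝ) + 1)) ^ 2 := by gcongr
    rw [mul_pow, Real.sq_sqrt (by positivity)] at h1
    linarith
  have hs2 : s ^ 2 ≤ 1 / 16 := by
    have : s ^ 2 ≤ (1 / 4) ^ 2 := by gcongr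
    linarith
  have hla0 : 0 ≤ la := by linarith
  have hXl : xa ^ 2 * la ^ 2 ≤ (((n : ℝ) + 1) * s ^ 2) * l ^ 2 := by
    have h1 : la ^ 2 ≤ l ^ 2 := by gcongr
    exact mul_le_mul hX h1 (sq_nonneg _) (by positivity)
  have hn16 : 16 * xa ^ 2 - 1 ≤ n := by
    have : ((n : ℝ) + 1) * s ^ 2 ≤ ((n : ℝ) + 1) * (1 / 16) := by gcongr
    linarith
  have hR := cell_R (X := ((n : ℝ) + 1) * s ^ 2) hs hs4 hl0 hlb heb huua hEb' hC0 hXl hRm0 hRm
  have hue := cell_ue hu0.le huub hEb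
  have hxa2 : (1 : ℝ) ≤ xa ^ 2 := one_le_pow₀ hxa0
  have hM' := cell_Mp hn' hl0 hlb hxa2 hn16 hlbn hM
  have hWl := cell_W (l := l) hs hs4 hp hl2 hQle hW0 hW
  have hkK : k ≤ 1033 / 1000 := by
    have h1 : k ≤ 1 / cc s := by
      rw [le_div_iff₀ hc]; exact h.hk1
    linarith
  have hSk := SkF_ge_pos (n := n) hn (t1 := t1) hμ0 hs (by linarith) hk0 (by linarith) hWl hW0 hW1
    hVp0 hVpb hpb1 hE1 hEb' ht0 htbT hM'
  have hfinal := hfin k hk0 (by linarith)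
  unfold fk at hfinal
  clear hfin hSS hcd helim hQ hD15 hC hRm hM hW hS hpb
  have e1 : 1001 / 1000 * (pb * (Eb * (k + tb * (1 + k)))) =
      1001 / 1000 * (pb * (Eb * tb)) + 1001 / 1000 * (pb * (Eb * (1 + tb))) * k := by ring
  rw [e1] at hSk
  have e2 : (1 - 1001 / 1000 * (pb * (Eb * (1 + tb))) - M) * k =
      k - 1001 / 1000 * (pb * (Eb * (1 + tb))) * k - M * k := by ring
  rw [e2] at hfinal
  have e3 : M * (k - Real.log (1 + k)) = M * k - M * Real.log (1 + k) := by ring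
  rw [e3] at hSk
  linarith

end Crest.Agent.R230.WR
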