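import Crest.Agent.R230.FarF1s

/-!
# Row 230, far block, `k ≥ 0`, `s ≤ 1/4` (helper818)

The cells (generated), `l ≤ 9/10`.
-/

set_option autoImplicit false

open MeasureTheory Set Filter Topology
open scoped Pointwise ENNReal

namespace Crest.Agent.R230.WR

lemma log_2033 : (7095 / 10000 : ℝ) ≤ Real.log (1 + 1033 / 1000) := by
  rw [Real.le_log_iff_exp_le (by norm_num)]
  exact exp_ub8 (by norm_num) (by norm_num) (by norm_num)

lemma far_cellp_1 {n : ℕ} (hn : 23 ≤ n) {s l k : ℝ} (h : FarC n s l k) (hk0 : 0 ≤ k) (hs4 : s ≤ 1 / 4)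
    (h1 : (4299 / 10000) ≤ l) (h2 : l ≤ (4649 / 10000)) : 0 < PStar n s l k := by
  have hea : (15371 / 10000) ≤ Real.exp l :=
    le_trans (exp_lb8 (by norm_num) (by norm_num)) (Real.exp_le_exp.2 h1)
  have hx : (2533 / 1000) ≤ s * Real.sqrt ((n : ℝ) + 1) := far_x_ge1 (ea := (15371 / 10000)) h hs4 hea (by norm_num) (by norm_num) (by norm_num)
  refine far_cell_pos hn h hk0 hs4 (la := (4299 / 10000)) (lb := (4649 / 10000)) (eb := (15919 / 10000))
    (Tb := (199 / 500)) (xa := (2533 / 1000)) (va := 0) (vb := (1749 / 50000)) (ua := 0) (ub := (583 / 50000)) (Eb := (2559 / 2500))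
    (pb := (2777 / 5000)) (Q0 := (10337 / 10000)) (W0 := (1183 / 1250)) (D := (119 / 10000)) (S := (801 / 250)) (C := (917 / 1000)) (Rm := 0)
    (tb := (29 / 50000)) (M := (2187 / 2000)) (G := (2779 / 10000)) (K := 1033 / 1000) (by norm_num) h1 h2
    (exp_ub8 (by norm_num) (by norm_num) (by norm_num)) (by norm_num) (by norm_num) (by norm_num)
    (Or.inl rfl) (by norm_num) (by norm_num) (by norm_num)
    (exp_ub8 (by norm_num) (by norm_num) (by norm_num))
    (by norm_num) (by norm_num) (by norm_num) (by norm_num) (by norm_num) (by norm_num)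
    (by unfold Wq; norm_num) (by norm_num) (by norm_num) (by norm_num) (by norm_num)
    (by norm_num) (by norm_num) hx (by norm_num) (by norm_num) (by norm_num) (by norm_num)
    (by norm_num) le_rfl ?_
  exact fk_pos (by norm_num) (by norm_num) (by norm_num) (by norm_num) (by norm_num) log_2033
    (by norm_num) (by norm_num)

lemma far_cellp_2 {n : ℕ} (hn : 23 ≤ n) {s l k : ℝ} (h : FarC n s l k) (hk0 : 0 ≤ k) (hs4 : s ≤ 1 / 4)
    (h1 : (4649 / 10000) ≤ l) (h2 : l ≤ (4879 / 10000)) : 0 < PStar n s l k := by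
  have hea : (7959 / 5000) ≤ Real.exp l :=
    le_trans (exp_lb8 (by norm_num) (by norm_num)) (Real.exp_le_exp.2 h1)
  have hx : (537 / 200) ≤ s * Real.sqrt ((n : ℝ) + 1) := far_x_ge1 (ea := (7959 / 5000)) h hs4 hea (by norm_num) (by norm_num) (by norm_num)
  refine far_cell_pos hn h hk0 hs4 (la := (4649 / 10000)) (lb := (4879 / 10000)) (eb := (16289 / 10000))
    (Tb := (4073 / 10000)) (xa := (537 / 200)) (va := (349 / 10000)) (vb := (5799 / 100000)) (ua := (1161 / 100000)) (ub := (657 / 25000)) (Eb := (527 / 500))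
    (pb := (7009 / 10000)) (Q0 := (10347 / 10000)) (W0 := (591 / 625)) (D := (271 / 10000)) (S := (3207 / 1000)) (C := (913 / 1000)) (Rm := 0)
    (tb := (7 / 10000)) (M := (10911 / 10000)) (G := (1903 / 5000)) (K := 1033 / 1000) (by norm_num) h1 h2
    (exp_ub8 (by norm_num) (by norm_num) (by norm_num)) (by norm_num) (by norm_num) (by norm_num)
    (Or.inr (by norm_num)) (by norm_num) (by norm_num) (by norm_num)
    (exp_ub8 (by norm_num) (by norm_num) (by norm_num))
    (by norm_num) (by norm_num) (by norm_num) (by norm_num) (by norm_num) (by norm_num)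
    (by unfold Wq; norm_num) (by norm_num) (by norm_num) (by norm_num) (by norm_num)
    (by norm_num) (by norm_num) hx (by norm_num) (by norm_num) (by norm_num) (by norm_num)
    (by norm_num) le_rfl ?_
  exact fk_pos (by norm_num) (by norm_num) (by norm_num) (by norm_num) (by norm_num) log_2033
    (by norm_num) (by norm_num)

lemma far_cellp_3 {n : ℕ} (hn : 23 ≤ n) {s l k : ℝ} (h : FarC n s l k) (hk0 : 0 ≤ k) (hs4 : s ≤ 1 / 4)
    (h1 : (4879 / 10000) ≤ l) (h2 : l ≤ (5099 / 10000)) : 0 < PStar n s l k := by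
  have hea : (1018 / 625) ≤ Real.exp l :=
    le_trans (exp_lb8 (by norm_num) (by norm_num)) (Real.exp_le_exp.2 h1)
  have hx : (2787 / 1000) ≤ s * Real.sqrt ((n : ℝ) + 1) := far_x_ge1 (ea := (1018 / 625)) h hs4 hea (by norm_num) (by norm_num) (by norm_num)
  refine far_cell_pos hn h hk0 hs4 (la := (4879 / 10000)) (lb := (5099 / 10000)) (eb := (4163 / 2500))
    (Tb := (1041 / 2500)) (xa := (2787 / 1000)) (va := (579 / 10000)) (vb := (8001 / 100000)) (ua := (2621 / 100000)) (ub := (1067 / 25000)) (Eb := (2723 / 2500))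
    (pb := (7823 / 10000)) (Q0 := (10359 / 10000)) (W0 := (4723 / 5000)) (D := (28 / 625)) (S := (3211 / 1000)) (C := (909 / 1000)) (Rm := 0)
    (tb := (21 / 25000)) (M := (5449 / 5000)) (G := (1149 / 2500)) (K := 1033 / 1000) (by norm_num) h1 h2
    (exp_ub8 (by norm_num) (by norm_num) (by norm_num)) (by norm_num) (by norm_num) (by norm_num)
    (Or.inr (by norm_num)) (by norm_num) (by norm_num) (by norm_num)
    (exp_ub8 (by norm_num) (by norm_num) (by norm_num))
    (by norm_num) (by norm_num) (by norm_num) (by norm_num) (by norm_num) (by norm_num)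
    (by unfold Wq; norm_num) (by norm_num) (by norm_num) (by norm_num) (by norm_num)
    (by norm_num) (by norm_num) hx (by norm_num) (by norm_num) (by norm_num) (by norm_num)
    (by norm_num) le_rfl ?_
  exact fk_pos (by norm_num) (by norm_num) (by norm_num) (by norm_num) (by norm_num) log_2033
    (by norm_num) (by norm_num)

lemma far_cellp_4 {n : ℕ} (hn : 23 ≤ n) {s l k : ℝ} (h : FarC n s l k) (hk0 : 0 ≤ k) (hs4 : s ≤ 1 / 4)
    (h1 : (5099 / 10000) ≤ l) (h2 : l ≤ (5379 / 10000)) : 0 < PStar n s l k := by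
  have hea : (16651 / 10000) ≤ Real.exp l :=
    le_trans (exp_lb8 (by norm_num) (by norm_num)) (Real.exp_le_exp.2 h1)
  have hx : (361 / 125) ≤ s * Real.sqrt ((n : ℝ) + 1) := far_x_ge1 (ea := (16651 / 10000)) h hs4 hea (by norm_num) (by norm_num) (by norm_num)
  refine far_cell_pos hn h hk0 hs4 (la := (5099 / 10000)) (lb := (5379 / 10000)) (eb := (137 / 80))
    (Tb := (2141 / 5000)) (xa := (361 / 125)) (va := (799 / 10000)) (vb := (10803 / 100000)) (ua := (2129 / 50000)) (ub := (1639 / 25000)) (Eb := (5701 / 5000))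
    (pb := (4227 / 5000)) (Q0 := (10377 / 10000)) (W0 := (9431 / 10000)) (D := (353 / 5000)) (S := (402 / 125)) (C := (903 / 1000)) (Rm := 0)
    (tb := (13 / 12500)) (M := (5443 / 5000)) (G := (2723 / 5000)) (K := 1033 / 1000) (by norm_num) h1 h2
    (exp_ub8 (by norm_num) (by norm_num) (by norm_num)) (by norm_num) (by norm_num) (by norm_num)
    (Or.inr (by norm_num)) (by norm_num) (by norm_num) (by norm_num)
    (exp_ub8 (by norm_num) (by norm_num) (by norm_num))
    (by norm_num) (by norm_num) (by norm_num) (by norm_num) (by norm_num) (by norm_num)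
    (by unfold Wq; norm_num) (by norm_num) (by norm_num) (by norm_num) (by norm_num)
    (by norm_num) (by norm_num) hx (by norm_num) (by norm_num) (by norm_num) (by norm_num)
    (by norm_num) le_rfl ?_
  exact fk_pos (by norm_num) (by norm_num) (by norm_num) (by norm_num) (by norm_num) log_2033
    (by norm_num) (by norm_num)

lemma far_cellp_5 {n : ℕ} (hn : 23 ≤ n) {s l k : ℝ} (h : FarC n s l k) (hk0 : 0 ≤ k) (hs4 : s ≤ 1 / 4)
    (h1 : (5379 / 10000) ≤ l) (h2 : l ≤ (5809 / 10000)) : 0 < PStar n s l k := by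
  have hea : (4281 / 2500) ≤ Real.exp l :=
    le_trans (exp_lb8 (by norm_num) (by norm_num)) (Real.exp_le_exp.2 h1)
  have hx : (3019 / 1000) ≤ s * Real.sqrt ((n : ℝ) + 1) := far_x_ge1 (ea := (4281 / 2500)) h hs4 hea (by norm_num) (by norm_num) (by norm_num)
  refine far_cell_pos hn h hk0 hs4 (la := (5379 / 10000)) (lb := (5809 / 10000)) (eb := (17877 / 10000))
    (Tb := (447 / 1000)) (xa := (3019 / 1000)) (va := (1079 / 10000)) (vb := (15109 / 100000)) (ua := (409 / 6250)) (ub := (5163 / 50000)) (Eb := (6147 / 5000))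
    (pb := (4499 / 5000)) (Q0 := (1301 / 1250)) (W0 := (1881 / 2000)) (D := (1161 / 10000)) (S := (1613 / 500)) (C := (447 / 500)) (Rm := 0)
    (tb := (147 / 100000)) (M := (10873 / 10000)) (G := (6657 / 10000)) (K := 1033 / 1000) (by norm_num) h1 h2
    (exp_ub8 (by norm_num) (by norm_num) (by norm_num)) (by norm_num) (by norm_num) (by norm_num)
    (Or.inr (by norm_num)) (by norm_num) (by norm_num) (by norm_num)
    (exp_ub8 (by norm_num) (by norm_num) (by norm_num))
    (by norm_num) (by norm_num) (by norm_num) (by norm_num) (by norm_num) (by norm_num)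
    (by unfold Wq; norm_num) (by norm_num) (by norm_num) (by norm_num) (by norm_num)
    (by norm_num) (by norm_num) hx (by norm_num) (by norm_num) (by norm_num) (by norm_num)
    (by norm_num) le_rfl ?_
  exact fk_pos (by norm_num) (by norm_num) (by norm_num) (by norm_num) (by norm_num) log_2033
    (by norm_num) (by norm_num)

lemma far_cellp_6 {n : ℕ} (hn : 23 ≤ n) {s l k : ℝ} (h : FarC n s l k) (hk0 : 0 ≤ k) (hs4 : s ≤ 1 / 4)
    (h1 : (5809 / 10000) ≤ l) (h2 : l ≤ (6549 / 10000)) : 0 < PStar n s l k := by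
  have hea : (4469 / 2500) ≤ Real.exp l :=
    le_trans (exp_lb8 (by norm_num) (by norm_num)) (Real.exp_le_exp.2 h1)
  have hx : (3227 / 1000) ≤ s * Real.sqrt ((n : ℝ) + 1) := far_x_ge1 (ea := (4469 / 2500)) h hs4 hea (by norm_num) (by norm_num) (by norm_num)
  refine far_cell_pos hn h hk0 hs4 (la := (5809 / 10000)) (lb := (6549 / 10000)) (eb := (77 / 40))
    (Tb := (4813 / 10000)) (xa := (3227 / 1000)) (va := (1509 / 10000)) (vb := (5631 / 25000)) (ua := (2577 / 25000)) (ub := (537 / 3125)) (Eb := (7051 / 5000))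
    (pb := (4719 / 5000)) (Q0 := (10473 / 10000)) (W0 := (4673 / 5000)) (D := (419 / 2000)) (S := (1623 / 500)) (C := (219 / 250)) (Rm := (-7 / 125))
    (tb := (53 / 20000)) (M := (1357 / 1250)) (G := (8777 / 10000)) (K := 1033 / 1000) (by norm_num) h1 h2
    (exp_ub8 (by norm_num) (by norm_num) (by norm_num)) (by norm_num) (by norm_num) (by norm_num)
    (Or.inr (by norm_num)) (by norm_num) (by norm_num) (by norm_num)
    (exp_ub8 (by norm_num) (by norm_num) (by norm_num))
    (by norm_num) (by norm_num) (by norm_num) (by norm_num) (by norm_num) (by norm_num)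
    (by unfold Wq; norm_num) (by norm_num) (by norm_num) (by norm_num) (by norm_num)
    (by norm_num) (by norm_num) hx (by norm_num) (by norm_num) (by norm_num) (by norm_num)
    (by norm_num) le_rfl ?_
  exact fk_pos (by norm_num) (by norm_num) (by norm_num) (by norm_num) (by norm_num) log_2033
    (by norm_num) (by norm_num)

lemma far_cellp_7 {n : ℕ} (hn : 23 ≤ n) {s l k : ℝ} (h : FarC n s l k) (hk0 : 0 ≤ k) (hs4 : s ≤ 1 / 4)
    (h1 : (6549 / 10000) ≤ l) (h2 : l ≤ (7669 / 10000)) : 0 < PStar n s l k := by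
  have hea : (19249 / 10000) ≤ Real.exp l :=
    le_trans (exp_lb8 (by norm_num) (by norm_num)) (Real.exp_le_exp.2 h1)
  have hx : (7 / 2) ≤ s * Real.sqrt ((n : ℝ) + 1) := far_x_ge2 (ea := (19249 / 10000)) h hs4 hea (by norm_num) (Or.inl (by norm_num))
  refine far_cell_pos hn h hk0 hs4 (la := (6549 / 10000)) (lb := (7669 / 10000)) (eb := (21531 / 10000))
    (Tb := (5383 / 10000)) (xa := (7 / 2)) (va := (2249 / 10000)) (vb := (8443 / 25000)) (ua := (17151 / 100000)) (ub := (13987 / 50000)) (Eb := (8749 / 5000))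
    (pb := (4853 / 5000)) (Q0 := (10597 / 10000)) (W0 := (1153 / 1250)) (D := (487 / 1250)) (S := (657 / 200)) (C := (421 / 500)) (Rm := (-51 / 100))
    (tb := (649 / 100000)) (M := (10839 / 10000)) (G := (12529 / 10000)) (K := 1033 / 1000) (by norm_num) h1 h2
    (exp_ub8 (by norm_num) (by norm_num) (by norm_num)) (by norm_num) (by norm_num) (by norm_num)
    (Or.inr (by norm_num)) (by norm_num) (by norm_num) (by norm_num)
    (exp_ub8 (by norm_num) (by norm_num) (by norm_num))
    (by norm_num) (by norm_num) (by norm_num) (by norm_num) (by norm_num) (by norm_num)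
    (by unfold Wq; norm_num) (by norm_num) (by norm_num) (by norm_num) (by norm_num)
    (by norm_num) (by norm_num) hx (by norm_num) (by norm_num) (by norm_num) (by norm_num)
    (by norm_num) le_rfl ?_
  exact fk_pos (by norm_num) (by norm_num) (by norm_num) (by norm_num) (by norm_num) log_2033
    (by norm_num) (by norm_num)

lemma far_cellp_8 {n : ℕ} (hn : 23 ≤ n) {s l k : ℝ} (h : FarC n s l k) (hk0 : 0 ≤ k) (hs4 : s ≤ 1 / 4)
    (h1 : (7669 / 10000) ≤ l) (h2 : l ≤ (549 / 625)) : 0 < PStar n s l k := by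
  have hea : (2153 / 1000) ≤ Real.exp l :=
    le_trans (exp_lb8 (by norm_num) (by norm_num)) (Real.exp_le_exp.2 h1)
  have hx : (897 / 250) ≤ s * Real.sqrt ((n : ℝ) + 1) := far_x_ge2 (ea := (2153 / 1000)) h hs4 hea (by norm_num) (Or.inr (by norm_num))
  refine far_cell_pos hn h hk0 hs4 (la := (7669 / 10000)) (lb := (549 / 625)) (eb := (24071 / 10000))
    (Tb := (3009 / 5000)) (xa := (897 / 250)) (va := (3369 / 10000)) (vb := (22519 / 50000)) (ua := (13947 / 50000)) (ub := (1949 / 5000)) (Eb := (10903 / 5000))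
    (pb := (491 / 500)) (Q0 := (10761 / 10000)) (W0 := (9039 / 10000)) (D := (6277 / 10000)) (S := (3337 / 1000)) (C := (399 / 500)) (Rm := (-181 / 200))
    (tb := (1583 / 100000)) (M := (5419 / 5000)) (G := (3457 / 2000)) (K := 1033 / 1000) (by norm_num) h1 h2
    (exp_ub8 (by norm_num) (by norm_num) (by norm_num)) (by norm_num) (by norm_num) (by norm_num)
    (Or.inr (by norm_num)) (by norm_num) (by norm_num) (by norm_num)
    (exp_ub8 (by norm_num) (by norm_num) (by norm_num))
    (by norm_num) (by norm_num) (by norm_num) (by norm_num) (by norm_num) (by norm_num)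
    (by unfold Wq; norm_num) (by norm_num) (by norm_num) (by norm_num) (by norm_num)
    (by norm_num) (by norm_num) hx (by norm_num) (by norm_num) (by norm_num) (by norm_num)
    (by norm_num) le_rfl ?_
  exact fk_pos (by norm_num) (by norm_num) (by norm_num) (by norm_num) (by norm_num) log_2033
    (by norm_num) (by norm_num)

lemma far_cellp_9 {n : ℕ} (hn : 23 ≤ n) {s l k : ℝ} (h : FarC n s l k) (hk0 : 0 ≤ k) (hs4 : s ≤ 1 / 4)
    (h1 : (549 / 625) ≤ l) (h2 : l ≤ (9 / 10)) : 0 < PStar n s l k := by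
  have hea : (2407 / 1000) ≤ Real.exp l :=
    le_trans (exp_lb8 (by norm_num) (by norm_num)) (Real.exp_le_exp.2 h1)
  have hx : (4011 / 1000) ≤ s * Real.sqrt ((n : ℝ) + 1) := far_x_ge2 (ea := (2407 / 1000)) h hs4 hea (by norm_num) (Or.inr (by norm_num))
  refine far_cell_pos hn h hk0 hs4 (la := (549 / 625)) (lb := (9 / 10)) (eb := (24597 / 10000))
    (Tb := (123 / 200)) (xa := (4011 / 1000)) (va := (1121 / 2500)) (vb := (11809 / 25000)) (ua := (7757 / 20000)) (ub := (2057 / 5000)) (Eb := (22769 / 10000))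
    (pb := (4917 / 5000)) (Q0 := (5399 / 5000)) (W0 := (4497 / 5000)) (D := (853 / 1250)) (S := (3349 / 1000)) (C := (197 / 250)) (Rm := 0)
    (tb := (1883 / 100000)) (M := (10811 / 10000)) (G := (7763 / 2500)) (K := 1033 / 1000) (by norm_num) h1 h2
    (exp_ub8 (by norm_num) (by norm_num) (by norm_num)) (by norm_num) (by norm_num) (by norm_num)
    (Or.inr (by norm_num)) (by norm_num) (by norm_num) (by norm_num)
    (exp_ub8 (by norm_num) (by norm_num) (by norm_num))
    (by norm_num) (by norm_num) (by norm_num) (by norm_num) (by norm_num) (by norm_num)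
    (by unfold Wq; norm_num) (by norm_num) (by norm_num) (by norm_num) (by norm_num)
    (by norm_num) (by norm_num) hx (by norm_num) (by norm_num) (by norm_num) (by norm_num)
    (by norm_num) le_rfl ?_
  exact fk_pos (by norm_num) (by norm_num) (by norm_num) (by norm_num) (by norm_num) log_2033
    (by norm_num) (by norm_num)

/-- **F1, `s ≤ 1/4`, `l ≤ 9/10`** -/
theorem PStar_pos_small_pos {n : ℕ} (hn : 23 ≤ n) {s l k : ℝ} (h : FarC n s l k) (hk0 : 0 ≤ k) (hs4 : s ≤ 1 / 4)
    (hl : l ≤ (9 / 10)) : 0 < PStar n s l k := by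
  have hl0 : (4299 / 10000) ≤ l := by
    by_contra hlt
    push Not at hlt
    have h1 : Real.exp l ≤ 8 / 5 :=
      (Real.exp_le_exp.2 hlt.le).trans (exp_ub8 (by norm_num) (by norm_num) (by norm_num))
    have hs0 := h.hs.1
    have h2 : s * Real.exp l ≤ 1 / 4 * (8 / 5) :=
      mul_le_mul hs4 h1 (Real.exp_pos _).le (by norm_num)
    have h3 : (s * Real.exp l) ^ 8 ≤ (1 / 4 * (8 / 5)) ^ 8 :=
      pow_le_pow_left₀ (mul_pos hs0 (Real.exp_pos _)).le h2 8
    have h4 := h.hcap
    unfold capF at h4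
    norm_num at h3
    linarith
  rcases le_total l (4649 / 10000) with h1 | h1
  · exact far_cellp_1 hn h hk0 hs4 hl0 h1
  rcases le_total l (4879 / 10000) with h2 | h2
  · exact far_cellp_2 hn h hk0 hs4 h1 h2
  rcases le_total l (5099 / 10000) with h3 | h3
  · exact far_cellp_3 hn h hk0 hs4 h2 h3
  rcases le_total l (5379 / 10000) with h4 | h4
  · exact far_cellp_4 hn h hk0 hs4 h3 h4
  rcases le_total l (5809 / 10000) with h5 | h5
  · exact far_cellp_5 hn h hk0 hs4 h4 h5
  rcases le_total l (6549 / 10000) with h6 | h6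
  · exact far_cellp_6 hn h hk0 hs4 h5 h6
  rcases le_total l (7669 / 10000) with h7 | h7
  · exact far_cellp_7 hn h hk0 hs4 h6 h7
  rcases le_total l (549 / 625) with h8 | h8
  · exact far_cellp_8 hn h hk0 hs4 h7 h8
  exact far_cellp_9 hn h hk0 hs4 h8 hl

end Crest.Agent.R230.WR
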