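import Crest.Agent.R230.LegalSoft2

/-!
# Row 230: closed form of the far density (helper640)

`PQ + lineC + softG` with `su = V' (k + τ' (1+k))` equals
`P0 + B k + A2 K - β c² k² - μ e^{l/n} h_n(k)`: the `1/(1+k)` of the uncapped line cancels exactly.
-/

set_option autoImplicit false

open MeasureTheory Set Filter Topology
open scoped Pointwise ENNReal

namespace Crest.Agent.R230.WR

/-- slope function `W(q,l) = 2(q - 1/(1+q)) - 3 l q (q²-1)` -/
noncomputable def Wq (q l : ℝ) : ℝ := 2 * (q - 1 / (1 + q)) - 3 * l * (q * (q ^ 2 - 1))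

/-- `r(q) = (q-1)²(q+2)` -/
noncomputable def rq (q : ℝ) : ℝ := (q - 1) ^ 2 * (q + 2)

/-- `A2 = (1-V') c Ŵ` -/
noncomputable def farA2 (s l u V1 : ℝ) : ℝ :=
  (1 - V1) * (cc s * Wq (1 / cc (s * Real.exp u)) (l - u))

/-- `B = a - 2 Y l - A2 - e₀ E V' (1+τ')` -/
noncomputable def farB (e0 s l u V1 t1 : ℝ) : ℝ :=
  aq s - 2 * (Y s * l) - farA2 s l u V1 - e0 * (Real.exp (2 * u) * (V1 * (1 + t1)))

/-- `P0 = P_far (k = 0)` -/
noncomputable def farP0 (n : ℕ) (μ β e0 s l u V1 t1 : ℝ) : ℝ :=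
  μ * (((n : ℝ) - 1) * Y s * Gm n l) +
    (((n : ℝ) - 3) * Y s ^ 2 + (2 * ((n : ℝ) - 3) * β - 3) * Y s) * l ^ 2 + cR s l +
    ((n : ℝ) + 1) * (cc s * ((l - u) * rq (1 / cc (s * Real.exp u)) - l * rq (1 / cc s) -
      (1 / cc (s * Real.exp u) - 1 / cc s))) +
    1 / 2 * (e0 * ((((n : ℝ) - 1) * Y s - 1) * (Real.exp (2 * u) - 1))) +
    cc s * ((1 / cc (s * Real.exp u)) / (1 + 1 / cc (s * Real.exp u)) - (1 / cc s) / (1 + 1 / cc s)) -
    cc s * ((l - u) * (4 * (1 / cc (s * Real.exp u)) ^ 3 - 3 * (1 / cc (s * Real.exp u))) -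
      l * (4 * (1 / cc s) ^ 3 - 3 * (1 / cc s))) +
    V1 * t1 * (cc s * Wq (1 / cc (s * Real.exp u)) (l - u) - e0 * Real.exp (2 * u))

/-- **closed form of the far density** -/
theorem far_eq {n : ℕ} {μ β e0 lm s l k u V1 t1 : ℝ} (hs : s ∈ Ioo (0 : ℝ) 1)
    (hu : s * Real.exp u < 1) (hk : 0 < 1 + k) :
    PQ n μ 0 β 1 0 lm s l k + (lineC n s l k u (V1 * (k + t1 * (1 + k))) +
      softG n e0 0 s u (V1 * (k + t1 * (1 + k)))) =
    farP0 n μ β e0 s l u V1 t1 + farB e0 s l u V1 t1 * k + farA2 s l u V1 * KK k -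
      β * (cc s ^ 2 * k ^ 2) - μ * (Real.exp (l / n) * hm n k) := by
  have hc := cc_pos' hs
  have hp : s * Real.exp u ∈ Ioo (0 : ℝ) 1 := ⟨mul_pos hs.1 (Real.exp_pos _), hu⟩
  have hd := cc_pos' hp
  have hd2 : (s * Real.exp u) ^ 2 = 1 - cc (s * Real.exp u) ^ 2 := by rw [cc_sq' hp]; ring
  have hs2 : s ^ 2 = 1 - cc s ^ 2 := by rw [cc_sq' hs]; ring
  unfold PQ lineC softG farP0 farB farA2 rawL xA Wq rq KK sg aq
  rw [Y_eq hs]
  simp only [hs2, hd2]
  generalize cR s l = R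
  generalize Gm n l = G
  generalize hm n k = H
  generalize Real.exp (l / n) = X
  generalize Real.exp (2 * u) = F
  generalize cc (s * Real.exp u) = d at hd
  generalize cc s = c at hc
  have h1 : 1 + c ≠ 0 := by positivity
  have h2 : 1 + d ≠ 0 := by positivity
  have h3 : c ≠ 0 := hc.ne'
  have h4 : d ≠ 0 := hd.ne'
  have h5 : c + 1 ≠ 0 := by positivity
  have h6 : d + 1 ≠ 0 := by positivity
  have h7 : 1 + c⁻¹ ≠ 0 := by positivity
  have h8 : 1 + d⁻¹ ≠ 0 := by positivity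
  have h9 : 1 + k ≠ 0 := hk.ne'
  have h10 : 1 + 1 / d ≠ 0 := by positivity
  have h11 : 1 + 1 / c ≠ 0 := by positivity
  field_simp
  ring

end Crest.Agent.R230.WR
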