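import Crest.Agent.R230.B6large

/-!
# Row 230: elimination of `κ = 1 + k ∈ (0, 1]` in the far block (helper237)

`g(κ) = ρ (1/κ - 1) + D (1 - κ) - b (1 - κ)² + M log κ`.

* `gk_tan` : tangent bound, any `t > 0` with `M t ≤ ρ`.
* `gk_pos₁` : `0 < G + g(κ)` from the tangent bound alone.
* `gk_pos₂` : the same if `2 ρ ≤ M k₀` (concavity on `[k₀, 1]`).
-/

set_option autoImplicit false

open MeasureTheory Set Filter Topology

namespace Crest.Agent.R230.WR

/-- the `κ`-part of the far density -/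
noncomputable def gk (ρ D b M κ : ℝ) : ℝ :=
  ρ * (1 / κ - 1) + D * (1 - κ) - b * (1 - κ) ^ 2 + M * Real.log κ

lemma gk_one (ρ D b M : ℝ) : gk ρ D b M 1 = 0 := by simp [gk]

/-- tangent bound -/
lemma gk_tan {ρ D b M κ t : ℝ} (hM : 0 ≤ M) (hκ : 0 < κ) (hκ1 : κ ≤ 1) (ht : 0 < t) (htρ : M * t ≤ ρ) :
    M * (1 + Real.log t - t) + D * (1 - κ) - b * (1 - κ) ^ 2 ≤ gk ρ D b M κ := by
  have h1 : 1 - t / κ + Real.log t ≤ Real.log κ := by
    have h := Real.one_sub_inv_le_log_of_pos (x := κ / t) (by positivity)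
    rw [Real.log_div hκ.ne' ht.ne', inv_div] at h
    linarith
  have h2 := mul_le_mul_of_nonneg_left h1 hM
  have h3 : (ρ - M * t) ≤ (ρ - M * t) * (1 / κ) := by
    have : 1 ≤ 1 / κ := by rw [le_div_iff₀ hκ]; linarith
    nlinarith
  unfold gk
  have e : M * (1 - t / κ + Real.log t) = M + M * Real.log t - M * t * (1 / κ) := by ring
  rw [e] at h2
  linarith

lemma quad_min {D b y y0 : ℝ} (hb : 0 ≤ b) (h0 : y0 ≤ y) (h1 : y ≤ 1) {c : ℝ}
    (hc1 : c ≤ D - b) (hc2 : c ≤ D * y0 - b * y0 ^ 2) : c ≤ D * y - b * y ^ 2 := by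
  rcases eq_or_lt_of_le h0 with h | h
  · rw [← h]; exact hc2
  · -- concavity: `y = y0 + θ (1 - y0)`
    have hy1 : 0 < 1 - y0 := by linarith
    have hA := mul_nonneg (mul_nonneg hb (show 0 ≤ y - y0 by linarith)) (show 0 ≤ 1 - y by linarith)
    have hB := mul_le_mul_of_nonneg_left hc1 (show 0 ≤ y - y0 by linarith)
    have hC := mul_le_mul_of_nonneg_left hc2 (show 0 ≤ 1 - y by linarith)
    have key : (1 - y0) * c ≤ (1 - y0) * (D * y - b * y ^ 2) := by
      have e : (1 - y0) * (D * y - b * y ^ 2) = (y - y0) * (D - b) + (1 - y) * (D * y0 - b * y0 ^ 2) +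
        (1 - y0) * (b * (y - y0) * (1 - y)) := by ring
      have e2 : (1 - y0) * c = (y - y0) * c + (1 - y) * c := by ring
      have := mul_nonneg hy1.le hA
      rw [e, e2]
      linarith
    exact le_of_mul_le_mul_left key hy1

/-- positivity from the tangent bound alone -/
lemma gk_pos₁ {G ρ D b M κ t : ℝ} (hM : 0 ≤ M) (hb : 0 ≤ b) (hκ : 0 < κ) (hκ1 : κ ≤ 1) (ht : 0 < t)
    (htρ : M * t ≤ ρ) (h1 : 0 < G + M * (1 + Real.log t - t))
    (h2 : 0 < G + M * (1 + Real.log t - t) + (D - b)) : 0 < G + gk ρ D b M κ := by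
  have h := gk_tan (D := D) (b := b) hM hκ hκ1 ht htρ
  have hq := quad_min (D := D) (b := b) (y := 1 - κ) (y0 := 0) (c := min 0 (D - b)) hb (by linarith)
    (by linarith) (min_le_right _ _) (by simp)
  rcases min_choice 0 (D - b) with h3 | h3 <;> rw [h3] at hq <;> linarith

/-- concavity of `gk` on `[k₀, 1]` -/
lemma gk_concave {ρ D b M k₀ : ℝ} (hρ : 0 ≤ ρ) (hb : 0 ≤ b) (hk : 0 < k₀)
    (h2ρ : 2 * ρ ≤ M * k₀) : ConcaveOn ℝ (Icc k₀ 1) (gk ρ D b M) := by
  have hd : ∀ x : ℝ, 0 < x → HasDerivAt (gk ρ D b M)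
      ((M * x - ρ) / x ^ 2 - D + 2 * b * (1 - x)) x := by
    intro x hx
    have h1 : HasDerivAt (fun x : ℝ => 1 / x - 1) (-(1 / x ^ 2)) x := by
      have := (hasDerivAt_inv hx.ne').sub_const 1
      simpa [one_div] using this
    have h2 : HasDerivAt (fun x : ℝ => 1 - x) (-1) x := by
      simpa using (hasDerivAt_id x).const_sub 1
    have h3 := (((h1.const_mul ρ).add (h2.const_mul D)).sub ((h2.pow 2).const_mul b)).add
      ((Real.hasDerivAt_log hx.ne').const_mul M)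
    refine (h3.congr_deriv ?_)
    field_simp
    push_cast
    ring
  refine AntitoneOn.concaveOn_of_deriv (convex_Icc _ _) ?_ ?_ ?_
  · intro x hx
    exact (hd x (lt_of_lt_of_le hk hx.1)).continuousAt.continuousWithinAt
  · intro x hx
    rw [interior_Icc] at hx
    exact (hd x (hk.trans hx.1)).differentiableAt.differentiableWithinAt
  · intro x hx y hy hxy
    rw [interior_Icc] at hx hy
    have hx0 := hk.trans hx.1
    have hy0 := hk.trans hy.1
    rw [(hd x hx0).deriv, (hd y hy0).deriv]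
    have h1 : (M * y - ρ) / y ^ 2 ≤ (M * x - ρ) / x ^ 2 := by
      rw [div_le_div_iff₀ (by positivity) (by positivity)]
      have hM : 0 ≤ M := by
        by_contra hneg
        push Not at hneg
        have := mul_neg_of_neg_of_pos hneg hk
        linarith
      have h2 : ρ * (x + y) ≤ M * (x * y) := by
        have a1 : k₀ * y ≤ x * y := mul_le_mul_of_nonneg_right hx.1.le hy0.le
        have a2 : M * (k₀ * y) ≤ M * (x * y) := mul_le_mul_of_nonneg_left a1 hM
        have a3 : 2 * ρ * y ≤ M * k₀ * y := mul_le_mul_of_nonneg_right h2ρ hy0.le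
        have a4 : ρ * x ≤ ρ * y := mul_le_mul_of_nonneg_left hxy hρ
        linarith
      have h3 := mul_nonneg (show 0 ≤ y - x by linarith) (show 0 ≤ M * (x * y) - ρ * (x + y) by linarith)
      linarith
    have h4 := mul_le_mul_of_nonneg_left (show 1 - y ≤ 1 - x by linarith) (show 0 ≤ 2 * b by linarith)
    linarith

/-- positivity, small `ρ` -/
lemma gk_pos₂ {G ρ D b M κ t k₀ : ℝ} (hM : 0 ≤ M) (hρ : 0 ≤ ρ) (hb : 0 ≤ b) (hκ : 0 < κ) (hκ1 : κ ≤ 1)
    (ht : 0 < t) (htρ : M * t ≤ ρ) (hk : 0 < k₀) (hk1 : k₀ ≤ 1) (h2ρ : 2 * ρ ≤ M * k₀)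
    (hG : 0 < G) (h1 : 0 < G + M * (1 + Real.log t - t) + (D - b))
    (h2 : 0 < G + M * (1 + Real.log t - t) + (D * (1 - k₀) - b * (1 - k₀) ^ 2)) :
    0 < G + gk ρ D b M κ := by
  rcases le_total κ k₀ with h | h
  · have h3 := gk_tan (D := D) (b := b) hM hκ hκ1 ht htρ
    have hq := quad_min (D := D) (b := b) (y := 1 - κ) (y0 := 1 - k₀)
      (c := min (D - b) (D * (1 - k₀) - b * (1 - k₀) ^ 2)) hb (by linarith) (by linarith)
      (min_le_left _ _) (min_le_right _ _)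
    rcases min_choice (D - b) (D * (1 - k₀) - b * (1 - k₀) ^ 2) with h5 | h5 <;> rw [h5] at hq <;> linarith
  · have hc := gk_concave (D := D) hρ hb hk h2ρ
    have h3 := hc.min_le_of_mem_Icc (left_mem_Icc.2 hk1) (right_mem_Icc.2 hk1) ⟨h, hκ1⟩
    rw [gk_one] at h3
    have h4 := gk_tan (D := D) (b := b) hM hk hk1 ht htρ
    rcases min_choice (gk ρ D b M k₀) 0 with h5 | h5 <;> rw [h5] at h3 <;> linarith

/-- lower bound of the `k`-part of the far density by `gk`, for `-1 < k ≤ 0` : the density is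
`G₀ + ρ (1/κ - 1) + B k - b k² - μ e^{l/n} hm n k`. -/
lemma far_k_part {n : ℕ} (hn : 2 ≤ n) {ρ B b μ M l k : ℝ} (hμ : 0 ≤ μ) (hk : 0 < 1 + k) (hk0 : k ≤ 0)
    (hM : μ * (1 - 1 / (n : ℝ)) * Real.exp (l / n) ≤ M) :
    gk ρ (M - B) b M (1 + k) ≤
      ρ * (1 / (1 + k) - 1) + B * k - b * k ^ 2 - μ * (Real.exp (l / n) * hm n k) := by
  have h1 := hm_le_log (n := n) (by omega) hk hk0
  have h0 := log_sub_nonneg hk
  have h2 : μ * (Real.exp (l / n) * hm n k) ≤ M * (k - Real.log (1 + k)) := by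
    calc μ * (Real.exp (l / n) * hm n k) = μ * Real.exp (l / n) * hm n k := by ring
      _ ≤ μ * Real.exp (l / n) * ((1 - 1 / (n : ℝ)) * (k - Real.log (1 + k))) :=
          mul_le_mul_of_nonneg_left h1 (by positivity)
      _ = (μ * (1 - 1 / (n : ℝ)) * Real.exp (l / n)) * (k - Real.log (1 + k)) := by ring
      _ ≤ M * (k - Real.log (1 + k)) := mul_le_mul_of_nonneg_right hM h0
  unfold gk
  have e : (1 : ℝ) - (1 + k) = -k := by ring
  rw [e]
  linarith

end Crest.Agent.R230.WR
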