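import Crest.Agent.R230.OneDFar
import Crest.Agent.R230.FarForm
import Crest.Agent.R230.B6large
import Crest.Agent.R230.FarElim
import Crest.Agent.R230.FarK

/-!
# Row 230, far block, `k ≤ 0`, `s ≤ 1/4` (helper818)

Part 1: exact decomposition `PF = S0F + SkF`, lower bounds of the pieces.
-/

set_option autoImplicit false

open MeasureTheory Set Filter Topology
open scoped Pointwise ENNReal

namespace Crest.Agent.R230.WR

/-- the part of the far density which is free of `k` -/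
noncomputable def S0F (n : ℕ) (μ e0 s l u : ℝ) : ℝ :=
  μ * (((n : ℝ) - 1) * Y s * Gm n l) +
    (((n : ℝ) - 3) * Y s ^ 2 + (2 * ((n : ℝ) - 3) * (7 / 50) - 3) * Y s) * l ^ 2 + cR s l +
    (((n : ℝ) + 1) * (cc s * (xA (1 / cc (s * Real.exp u)) (l - u) - xA (1 / cc s) l)) +
      1 / 2 * (e0 * ((((n : ℝ) - 1) * Y s - 1) * (Real.exp (2 * u) - 1)))) +
    cc s * ((1 / (1 + 1 / cc (s * Real.exp u)) - 2 * (1 / cc (s * Real.exp u)) -
        (l - u) * (1 / cc (s * Real.exp u)) ^ 3) -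
      (1 / (1 + 1 / cc s) - 2 * (1 / cc s) - l * (1 / cc s) ^ 3))

/-- the part with `k` -/
noncomputable def SkF (n : ℕ) (μ e0 s l k u V1 t1 : ℝ) : ℝ :=
  cc s * Wq (1 / cc (s * Real.exp u)) (l - u) * ((1 - V1) / (1 + k) + V1 + V1 * t1) -
    (aq s - 3 * Y s * l) * (1 - k) + V1 * (e0 * (Real.exp (2 * u) * (-k - t1 * (1 + k)))) +
    Y s * l * k - 7 / 50 * (cc s ^ 2 * k ^ 2) - μ * (Real.exp (l / n) * hm n k)

/-- exact decomposition -/
theorem far_split {n : ℕ} {μ e0 lm s l k u V1 t1 : ℝ} (hs : s ∈ Ioo (0 : ℝ) 1)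
    (hu : s * Real.exp u < 1) (hk : 0 < 1 + k) :
    PQ n μ 0 (7 / 50) 1 0 lm s l k + (lineC n s l k u (V1 * (k + t1 * (1 + k))) +
      softG n e0 0 s u (V1 * (k + t1 * (1 + k)))) = S0F n μ e0 s l u + SkF n μ e0 s l k u V1 t1 := by
  have hc := cc_pos' hs
  have hp : s * Real.exp u ∈ Ioo (0 : ℝ) 1 := ⟨mul_pos hs.1 (Real.exp_pos _), hu⟩
  have hd := cc_pos' hp
  have hd2 : (s * Real.exp u) ^ 2 = 1 - cc (s * Real.exp u) ^ 2 := by rw [cc_sq' hp]; ring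
  have hs2 : s ^ 2 = 1 - cc s ^ 2 := by rw [cc_sq' hs]; ring
  unfold PQ lineC softG S0F SkF rawL xA Wq KK sg aq
  rw [Y_eq hs]
  simp only [hs2, hd2]
  generalize cR s l = R
  generalize Gm n l = G
  generalize hm n k = H
  generalize Real.exp (l / n) = X
  generalize Real.exp (2 * u) = F
  generalize cc (s * Real.exp u) = d at hd
  generalize cc s = c at hc
  have h1 : 1 + c ≠ 0 := by positivity
  have h2 : 1 + d ≠ 0 := by positivity
  have h3 : c ≠ 0 := hc.ne'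
  have h4 : d ≠ 0 := hd.ne'
  have h5 : c + 1 ≠ 0 := by positivity
  have h6 : d + 1 ≠ 0 := by positivity
  have h7 : 1 + c⁻¹ ≠ 0 := by positivity
  have h8 : 1 + d⁻¹ ≠ 0 := by positivity
  have h9 : 1 + k ≠ 0 := hk.ne'
  have h10 : 1 + 1 / d ≠ 0 := by positivity
  have h11 : 1 + 1 / c ≠ 0 := by positivity
  field_simp
  ring


/-! ### bounds of the pieces -/

lemma Qhat_sq {s u : ℝ} (hs : s ∈ Ioo (0 : ℝ) 1) (hu : s * Real.exp u < 1) :
    cc (s * Real.exp u) ^ 2 = 1 - s ^ 2 * Real.exp (2 * u) := by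
  rw [cc_sq' ⟨mul_pos hs.1 (Real.exp_pos _), hu⟩, mul_pow, ← Real.exp_nat_mul]
  push_cast
  ring

lemma Y_eq_mul {s : ℝ} (hs : s ∈ Ioo (0 : ℝ) 1) : Y s = s ^ 2 * (1 + Y s) := by
  have := (one_sub_sq_pos hs).ne'
  unfold Y
  field_simp
  ring

lemma Y_le_of_quarter {s : ℝ} (hs : s ∈ Ioo (0 : ℝ) 1) (h4 : s ≤ 1 / 4) : Y s ≤ 1 / 15 := by
  have := one_sub_sq_pos hs
  have h0 := hs.1
  unfold Y
  rw [div_le_div_iff₀ this (by norm_num)]
  nlinarith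

lemma sq_le_Y {s : ℝ} (hs : s ∈ Ioo (0 : ℝ) 1) : s ^ 2 ≤ Y s := by
  have := one_sub_sq_pos hs
  have h0 := hs.1
  unfold Y
  rw [le_div_iff₀ this]
  nlinarith [sq_nonneg s, mul_nonneg (sq_nonneg s) (sq_nonneg s)]

/-- crude bound for `cR` -/
lemma cR_ge_crude {s l C : ℝ} (hs : s ∈ Ioo (0 : ℝ) 1) (hl : 0 ≤ l) (hT : s * Real.exp l < 1)
    (hC : 0 ≤ C) (hcC : C ≤ cc (s * Real.exp l)) :
    -(Y s * (Real.exp (2 * l) / (2 * (1 + C) ^ 2))) ≤ cR s l := by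
  have hc := cc_pos' hs
  have hc1 : cc s ≤ 1 := cc_le_one s
  have hp : s * Real.exp l ∈ Ioo (0 : ℝ) 1 := ⟨mul_pos hs.1 (Real.exp_pos _), hT⟩
  have hd := cc_pos' hp
  have hd2 := Qhat_sq hs hT
  have h1 : 0 ≤ l * ((1 - cc s) / (1 + cc s)) :=
    mul_nonneg hl (div_nonneg (by linarith) (by linarith))
  have h2 : Phi s ≤ 1 / 2 := by
    unfold Phi
    rw [div_le_div_iff₀ (by linarith) (by norm_num)]
    linarith
  have h3 : 1 / 2 - s ^ 2 * Real.exp (2 * l) / (2 * (1 + C) ^ 2) ≤ Phi (s * Real.exp l) := by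
    have e : Phi (s * Real.exp l) = 1 / 2 - s ^ 2 * Real.exp (2 * l) /
        (2 * (1 + cc (s * Real.exp l)) ^ 2) := by
      have e1 : s ^ 2 * Real.exp (2 * l) = (1 - cc (s * Real.exp l)) * (1 + cc (s * Real.exp l)) := by
        linarith
      rw [e1]
      unfold Phi
      have : 1 + cc (s * Real.exp l) ≠ 0 := by positivity
      field_simp
      ring
    rw [e]
    have : s ^ 2 * Real.exp (2 * l) / (2 * (1 + cc (s * Real.exp l)) ^ 2) ≤
        s ^ 2 * Real.exp (2 * l) / (2 * (1 + C) ^ 2) := by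
      apply div_le_div_of_nonneg_left (by positivity) (by positivity)
      gcongr
    linarith
  have h4 : 0 ≤ s ^ 2 * Real.exp (2 * l) / (2 * (1 + C) ^ 2) := by positivity
  have h5 : s ^ 2 * Real.exp (2 * l) / (2 * (1 + C) ^ 2) ≤
      Y s * (Real.exp (2 * l) / (2 * (1 + C) ^ 2)) := by
    rw [mul_div_assoc]
    exact mul_le_mul_of_nonneg_right (sq_le_Y hs) (by positivity)
  unfold cR
  have h6 : -(s ^ 2 * Real.exp (2 * l) / (2 * (1 + C) ^ 2)) ≤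
      cc s * (Phi (s * Real.exp l) - Phi s) := by
    have h7 : -(s ^ 2 * Real.exp (2 * l) / (2 * (1 + C) ^ 2)) ≤ Phi (s * Real.exp l) - Phi s := by
      linarith
    rcases le_total 0 (Phi (s * Real.exp l) - Phi s) with h | h
    · have := mul_nonneg hc.le h
      linarith
    · nlinarith
  linarith

/-- the part `c (F̂ - F)` -/
lemma cF_ge {s l u D S : ℝ} (hs : s ∈ Ioo (0 : ℝ) 1) (hp : s * Real.exp u < 1) (hu : 0 ≤ u)
    (hlu0 : 0 ≤ l - u) (hlu : l - u ≤ 1 / 2)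
    (hcd : cc s * (1 / cc (s * Real.exp u) - 1 / cc s) ≤ D * Y s)
    (hS : (1 / cc (s * Real.exp u)) ^ 2 + 1 / cc (s * Real.exp u) * (1 / cc s) + (1 / cc s) ^ 2 ≤ S) :
    u * (1 + Y s) - D * (9 / 4 + S / 2) * Y s ≤
      cc s * ((1 / (1 + 1 / cc (s * Real.exp u)) - 2 * (1 / cc (s * Real.exp u)) -
        (l - u) * (1 / cc (s * Real.exp u)) ^ 3) -
      (1 / (1 + 1 / cc s) - 2 * (1 / cc s) - l * (1 / cc s) ^ 3)) := by
  have hc := cc_pos' hs
  have hp' : s * Real.exp u ∈ Ioo (0 : ℝ) 1 := ⟨mul_pos hs.1 (Real.exp_pos _), hp⟩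
  have hd := cc_pos' hp'
  have hcc2 := cc_sq' hs
  have hdd2 := Qhat_sq hs hp
  have hc1 : cc s ≤ 1 := cc_le_one s
  have hd1 : cc (s * Real.exp u) ≤ 1 := cc_le_one _
  have hq : 1 ≤ 1 / cc s := by rw [le_div_iff₀ hc]; linarith
  have hQ : 1 ≤ 1 / cc (s * Real.exp u) := by rw [le_div_iff₀ hd]; linarith
  have hE : 1 ≤ Real.exp (2 * u) := Real.one_le_exp (by linarith)
  have hdc : cc (s * Real.exp u) ≤ cc s := by
    apply abs_le_of_sq_le_sq' _ hc.le |>.2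
    rw [hcc2, hdd2]
    nlinarith [sq_nonneg s]
  have hqQ : 1 / cc s ≤ 1 / cc (s * Real.exp u) := one_div_le_one_div_of_le hd hdc
  have e1 : cc s * (1 / cc s) ^ 3 = 1 + Y s := by
    rw [Y_eq hs]
    have := hc.ne'
    field_simp
    ring
  set q := 1 / cc s with hqd
  set Q := 1 / cc (s * Real.exp u) with hQd
  have e2 : cc s * ((1 / (1 + Q) - 2 * Q - (l - u) * Q ^ 3) - (1 / (1 + q) - 2 * q - l * q ^ 3)) =
      u * (cc s * q ^ 3) - cc s * (Q - q) * (1 / ((1 + q) * (1 + Q)) + 2 + (l - u) * (Q ^ 2 + Q * q + q ^ 2)) := by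
    have h1 : 1 + q ≠ 0 := by positivity
    have h2 : 1 + Q ≠ 0 := by positivity
    field_simp
    ring
  rw [e2, e1]
  have h1 : 1 / ((1 + q) * (1 + Q)) ≤ 1 / 4 := by
    apply one_div_le_one_div_of_le (by norm_num)
    nlinarith
  have h2 : (l - u) * (Q ^ 2 + Q * q + q ^ 2) ≤ S / 2 := by
    have : 0 ≤ Q ^ 2 + Q * q + q ^ 2 := by positivity
    nlinarith
  have h3 : 0 ≤ cc s * (Q - q) := mul_nonneg hc.le (by linarith)
  have h4 : cc s * (Q - q) * (1 / ((1 + q) * (1 + Q)) + 2 + (l - u) * (Q ^ 2 + Q * q + q ^ 2)) ≤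
      (D * Y s) * (9 / 4 + S / 2) := by
    have h5 : 0 ≤ 1 / ((1 + q) * (1 + Q)) + 2 + (l - u) * (Q ^ 2 + Q * q + q ^ 2) := by positivity
    have h6 : 0 ≤ 9 / 4 + S / 2 := by linarith
    calc _ ≤ cc s * (Q - q) * (9 / 4 + S / 2) := mul_le_mul_of_nonneg_left (by linarith) h3
      _ ≤ _ := mul_le_mul_of_nonneg_right hcd h6
  linarith

/-- lower bound of `S0F` -/
theorem S0F_ge {n : ℕ} (hn : 19 ≤ n) {μ s l u D S C : ℝ} (hμ : 0 ≤ μ) (hs : s ∈ Ioo (0 : ℝ) 1)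
    (hs4 : s ≤ 1 / 4) (hl : 0 ≤ l) (hT : s * Real.exp l < 1) (hp : s * Real.exp u < 1) (hu : 0 ≤ u)
    (hlu0 : 0 ≤ l - u) (hlu : l - u ≤ 1 / 2)
    (helim : -(1 / 2 * (1 + 9 / 10000) * (Y s * (Real.exp (2 * u) - 1))) ≤
      cc s * ((l - u) * rq (1 / cc (s * Real.exp u)) - l * rq (1 / cc s) -
        (1 / cc (s * Real.exp u) - 1 / cc s)))
    (hcd : cc s * (1 / cc (s * Real.exp u) - 1 / cc s) ≤ D * Y s)
    (hS : (1 / cc (s * Real.exp u)) ^ 2 + 1 / cc (s * Real.exp u) * (1 / cc s) + (1 / cc s) ^ 2 ≤ S)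
    (hC : 0 ≤ C) (hcC : C ≤ cc (s * Real.exp l)) :
    7 / 25 * ((((n : ℝ) + 1) * s ^ 2) * l ^ 2) + u - 1001 / 2000 * (Real.exp (2 * u) - 1) +
      Y s * (32 / 25 * ((((n : ℝ) + 1) * s ^ 2) * l ^ 2) - 439 / 100 * l ^ 2 -
        Real.exp (2 * l) / (2 * (1 + C) ^ 2) + u - D * (9 / 4 + S / 2) -
        7 / 2 * (Real.exp (2 * u) - 1)) ≤ S0F n μ (e0F n) s l u := by
  have hn6 : (19 : ℝ) ≤ n := by exact_mod_cast hn
  have hxA : xA (1 / cc (s * Real.exp u)) (l - u) - xA (1 / cc s) l =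
      (l - u) * rq (1 / cc (s * Real.exp u)) - l * rq (1 / cc s) -
        (1 / cc (s * Real.exp u) - 1 / cc s) := by
    unfold xA rq
    ring
  rw [← hxA] at helim
  have hY0 := Y_nonneg hs
  have hY15 := Y_le_of_quarter hs hs4
  have hE : 1 ≤ Real.exp (2 * u) := Real.one_le_exp (by linarith)
  have hR := cR_ge_crude hs hl hT hC hcC
  have hF := cF_ge hs hp hu hlu0 hlu hcd hS
  have hG : 0 ≤ μ * (((n : ℝ) - 1) * Y s * Gm n l) :=
    mul_nonneg hμ (mul_nonneg (mul_nonneg (by linarith) hY0) (Gm_nonneg (by omega) l))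
  have hY := Y_eq_mul hs
  -- the potential
  have h1 : 7 / 25 * ((((n : ℝ) + 1) * s ^ 2) * l ^ 2) +
      Y s * (32 / 25 * ((((n : ℝ) + 1) * s ^ 2) * l ^ 2) - 439 / 100 * l ^ 2) ≤
      (((n : ℝ) - 3) * Y s ^ 2 + (2 * ((n : ℝ) - 3) * (7 / 50) - 3) * Y s) * l ^ 2 := by
    have e : (((n : ℝ) - 3) * Y s ^ 2 + (2 * ((n : ℝ) - 3) * (7 / 50) - 3) * Y s) =
        ((n : ℝ) + 1) * Y s * (7 / 25 + Y s) - (103 / 25 + 4 * Y s) * Y s := by ring
    rw [e]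
    have e2 : ((n : ℝ) + 1) * Y s = (((n : ℝ) + 1) * s ^ 2) * (1 + Y s) := by
      calc ((n : ℝ) + 1) * Y s = ((n : ℝ) + 1) * (s ^ 2 * (1 + Y s)) := by rw [← hY]
        _ = _ := by ring
    rw [e2]
    set X := ((n : ℝ) + 1) * s ^ 2 with hX
    have hX0 : 0 ≤ X := by positivity
    have hl2 : 0 ≤ l ^ 2 := sq_nonneg l
    have h2 : 0 ≤ X * l ^ 2 * Y s ^ 2 := by positivity
    have h3 : 0 ≤ l ^ 2 * Y s * (1 / 15 - Y s) := mul_nonneg (mul_nonneg hl2 hY0) (by linarith)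
    nlinarith [mul_nonneg hl2 hY0]
  -- elimination
  have h2 : -(7 / 2 * (Y s * (Real.exp (2 * u) - 1))) - 1001 / 2000 * (Real.exp (2 * u) - 1) ≤
      ((n : ℝ) + 1) * (cc s * (xA (1 / cc (s * Real.exp u)) (l - u) - xA (1 / cc s) l)) +
      1 / 2 * (e0F n * ((((n : ℝ) - 1) * Y s - 1) * (Real.exp (2 * u) - 1))) := by
    have h3 := mul_le_mul_of_nonneg_left helim (by linarith : (0 : ℝ) ≤ (n : ℝ) + 1)
    refine le_trans ?_ (add_le_add_left h3 _)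
    set Z := Real.exp (2 * u) - 1 with hZ
    have hZ0 : 0 ≤ Z := by linarith
    have e : ((n : ℝ) + 1) * -(1 / 2 * (1 + 9 / 10000) * (Y s * Z)) +
        1 / 2 * (e0F n * ((((n : ℝ) - 1) * Y s - 1) * Z)) =
        1 / 2 * (Y s * Z) * (-7 + 10 / ((n : ℝ) + 1) + ((n : ℝ) - 19) / 10000) - 1 / 2 * e0F n * Z := by
      unfold e0F
      have : (n : ℝ) + 1 ≠ 0 := by positivity
      field_simp
      ring
    rw [e]
    have h4 : e0F n ≤ 1001 / 1000 := by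
      unfold e0F
      have : ((n : ℝ) - 4) / ((n : ℝ) + 1) ≤ 1 := by
        rw [div_le_one (by linarith)]; linarith
      linarith
    have h5 : 0 ≤ 10 / ((n : ℝ) + 1) + ((n : ℝ) - 19) / 10000 := by
      have : 0 ≤ ((n : ℝ) - 19) / 10000 := by apply div_nonneg <;> linarith
      positivity
    have h6 : 0 ≤ Y s * Z := mul_nonneg hY0 hZ0
    have h7 := mul_nonneg h6 h5
    have h8 := mul_nonneg hZ0 (by linarith : 0 ≤ 1001 / 1000 - e0F n)
    have e4 : 1 / 2 * (Y s * Z) * (-7 + 10 / ((n : ℝ) + 1) + ((n : ℝ) - 19) / 10000) - 1 / 2 * e0F n * Z -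
        (-(7 / 2 * (Y s * Z)) - 1001 / 2000 * Z) =
        1 / 2 * (Y s * Z * (10 / ((n : ℝ) + 1) + ((n : ℝ) - 19) / 10000)) +
        1 / 2 * (Z * (1001 / 1000 - e0F n)) := by ring
    linarith
  unfold S0F
  have e3 : Y s * (32 / 25 * ((((n : ℝ) + 1) * s ^ 2) * l ^ 2) - 439 / 100 * l ^ 2 -
        Real.exp (2 * l) / (2 * (1 + C) ^ 2) + u - D * (9 / 4 + S / 2) -
        7 / 2 * (Real.exp (2 * u) - 1)) =
      Y s * (32 / 25 * ((((n : ℝ) + 1) * s ^ 2) * l ^ 2) - 439 / 100 * l ^ 2) -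
        Y s * (Real.exp (2 * l) / (2 * (1 + C) ^ 2)) + u * Y s - D * (9 / 4 + S / 2) * Y s -
        7 / 2 * (Y s * (Real.exp (2 * u) - 1)) := by ring
  rw [e3]
  linarith

end Crest.Agent.R230.WR
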