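import Crest.Agent.R230.FarF2
import Crest.Agent.R230.FarMu

/-!
# Row 230, far block, `k ≤ 0`, `s ≤ 1/4` (helper818)

Part 2: the cell theorem in `l`.
-/

set_option autoImplicit false

open MeasureTheory Set Filter Topology
open scoped Pointwise ENNReal

namespace Crest.Agent.R230.WR

/-- lower bound of `x = s √(n+1)`, from (C1) -/
lemma far_x_ge1 {n : ℕ} {s l k ea xa : ℝ} (h : FarC n s l k) (hs4 : s ≤ 1 / 4)
    (hea : ea ≤ Real.exp l) (hxa : 1 ≤ xa) (h1 : 3 / 5 + 73 / 200 * xa + 1 / (32 * xa) ≤ ea)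
    (h2 : xa ≤ 7 / 2) : xa ≤ s * Real.sqrt ((n : ℝ) + 1) := by
  set x := s * Real.sqrt ((n : ℝ) + 1) with hx
  by_contra hlt
  push Not at hlt
  have hx2 := h.hx2
  rw [← hx] at hx2
  have hc := h.hC1 (by rw [← hx]; linarith)
  rw [← hx] at hc
  have hs := h.hs.1
  have hn0 : (0 : ℝ) < (n : ℝ) + 1 := by positivity
  have hxx : x ^ 2 = ((n : ℝ) + 1) * s ^ 2 := by
    rw [hx, mul_pow, Real.sq_sqrt hn0.le]; ring
  have h3 : 1 / (2 * ((n : ℝ) + 1)) * x ≤ 1 / (32 * x) := by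
    have hx0 : 0 < x := by linarith
    have e : 1 / (2 * ((n : ℝ) + 1)) * x = x / (2 * ((n : ℝ) + 1)) := by ring
    rw [e, div_le_div_iff₀ (by positivity) (by positivity)]
    have : s ^ 2 ≤ 1 / 16 := by nlinarith
    have : ((n : ℝ) + 1) * s ^ 2 ≤ ((n : ℝ) + 1) * (1 / 16) := by gcongr
    nlinarith
  have h4 : 73 / 200 * x + 1 / (32 * x) ≤ 73 / 200 * xa + 1 / (32 * xa) := by
    have hx0 : 0 < x := by linarith
    have hxa0 : 0 < xa := by linarith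
    have e : 73 / 200 * xa + 1 / (32 * xa) - (73 / 200 * x + 1 / (32 * x)) =
        (xa - x) * (73 / 200 - 1 / (32 * xa * x)) := by
      field_simp
      ring
    have h5 : 1 / (32 * xa * x) ≤ 73 / 200 := by
      rw [div_le_div_iff₀ (by positivity) (by norm_num)]
      nlinarith
    have := mul_nonneg (show 0 ≤ xa - x by linarith) (show 0 ≤ 73 / 200 - 1 / (32 * xa * x) by linarith)
    linarith
  have h5 : 73 / 200 * x + 1 / (32 * x) < 73 / 200 * xa + 1 / (32 * xa) := by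
    have hx0 : 0 < x := by linarith
    have hxa0 : 0 < xa := by linarith
    have e : 73 / 200 * xa + 1 / (32 * xa) - (73 / 200 * x + 1 / (32 * x)) =
        (xa - x) * (73 / 200 - 1 / (32 * xa * x)) := by
      field_simp
      ring
    have h5 : 1 / (32 * xa * x) < 73 / 200 := by
      rw [div_lt_div_iff₀ (by positivity) (by norm_num)]
      nlinarith
    have := mul_pos (show 0 < xa - x by linarith) (show 0 < 73 / 200 - 1 / (32 * xa * x) by linarith)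
    linarith
  have e2 : (73 / 200 + 1 / (2 * ((n : ℝ) + 1))) * x = 73 / 200 * x + 1 / (2 * ((n : ℝ) + 1)) * x := by
    ring
  rw [e2] at hc
  linarith

/-- lower bound of `x`, from (C1) and (C2) -/
lemma far_x_ge2 {n : ℕ} {s l k ea xa : ℝ} (h : FarC n s l k) (hs4 : s ≤ 1 / 4)
    (hea : ea ≤ Real.exp l) (h1 : 3 / 5 + 73 / 200 * (7 / 2) + 1 / 112 ≤ ea)
    (h2 : xa ≤ 7 / 2 ∨ xa ≤ 5 / 3 * ea) : xa ≤ s * Real.sqrt ((n : ℝ) + 1) := by
  have h3 := far_x_ge1 (xa := 7 / 2) h hs4 hea (by norm_num) (by linarith) le_rfl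
  rcases h2 with h2 | h2
  · linarith
  · have := h.hC2 h3
    linarith

lemma Wq_half_anti {a b : ℝ} (ha : 1 ≤ a) (hab : a ≤ b) : Wq b (1 / 2) ≤ Wq a (1 / 2) := by
  unfold Wq
  have hb : 1 ≤ b := ha.trans hab
  have e : (2 * (a - 1 / (1 + a)) - 3 * (1 / 2) * (a * (a ^ 2 - 1))) -
      (2 * (b - 1 / (1 + b)) - 3 * (1 / 2) * (b * (b ^ 2 - 1))) =
      (b - a) * (3 / 2 * (a ^ 2 + a * b + b ^ 2) - 7 / 2 - 2 * (1 / ((1 + a) * (1 + b)))) := by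
    have h1 : 1 + a ≠ 0 := by positivity
    have h2 : 1 + b ≠ 0 := by positivity
    field_simp
    ring
  have h1 : 1 / ((1 + a) * (1 + b)) ≤ 1 / 4 := by
    apply one_div_le_one_div_of_le (by norm_num)
    nlinarith
  have h2 : 3 ≤ a ^ 2 + a * b + b ^ 2 := by nlinarith
  have := mul_nonneg (show 0 ≤ b - a by linarith)
    (show 0 ≤ 3 / 2 * (a ^ 2 + a * b + b ^ 2) - 7 / 2 - 2 * (1 / ((1 + a) * (1 + b))) by linarith)
  linarith

lemma Wq_anti_l {q a b : ℝ} (hq : 1 ≤ q) (hab : a ≤ b) : Wq q b ≤ Wq q a := by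
  unfold Wq
  have h1 : 0 ≤ q * (q ^ 2 - 1) := mul_nonneg (by linarith) (by nlinarith)
  have h2 := mul_nonneg (show 0 ≤ b - a by linarith) h1
  have e : (b - a) * (q * (q ^ 2 - 1)) = b * (q * (q ^ 2 - 1)) - a * (q * (q ^ 2 - 1)) := by ring
  linarith

lemma aq_le_Y {s : ℝ} (hs : s ∈ Ioo (0 : ℝ) 1) : aq s ≤ 1 + 3 / 4 * Y s := by
  have hc := cc_pos' hs
  have hc1 : cc s ≤ 1 := cc_le_one s
  rw [Y_eq hs]
  unfold aq
  have e : 1 + 3 / 4 * ((1 - cc s ^ 2) / cc s ^ 2) - (2 - 2 * cc s ^ 2 / (1 + cc s)) =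
      (1 - cc s) * (3 * (1 + cc s) ^ 2 - 4 * cc s ^ 2 * (1 + 2 * cc s)) / (4 * cc s ^ 2 * (1 + cc s)) := by
    have : 1 + cc s ≠ 0 := by positivity
    field_simp
    ring
  have h1 : 0 ≤ 3 * (1 + cc s) ^ 2 - 4 * cc s ^ 2 * (1 + 2 * cc s) := by
    nlinarith [mul_nonneg hc.le (sub_nonneg.2 hc1), mul_nonneg (sq_nonneg (cc s)) (sub_nonneg.2 hc1)]
  have h2 : 0 ≤ (1 - cc s) * (3 * (1 + cc s) ^ 2 - 4 * cc s ^ 2 * (1 + 2 * cc s)) /
      (4 * cc s ^ 2 * (1 + cc s)) := by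
    apply div_nonneg (mul_nonneg (by linarith) h1)
    positivity
  linarith

/-- concave-type inequality for `(1 + D Y)² (1 - Y G) ≥ 1` -/
lemma cd_core {D G y : ℝ} (hG : 0 ≤ G) (h2 : G ≤ 2 * D)
    (h15 : 1 ≤ (1 + D * (1 / 15)) ^ 2 * (1 - G * (1 / 15))) (hy0 : 0 ≤ y) (hy : y ≤ 1 / 15) :
    1 ≤ (1 + D * y) ^ 2 * (1 - y * G) := by
  have e : (1 + D * y) ^ 2 * (1 - y * G) - 1 =
      (1 - 15 * y) * (y * (2 * D - G)) + y * (15 * y * (15 * ((1 + D * (1 / 15)) ^ 2 * (1 - G * (1 / 15)) - 1))) +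
        D ^ 2 * G * y ^ 2 * (1 / 15 - y) := by ring
  have h1 : 0 ≤ (1 - 15 * y) * (y * (2 * D - G)) :=
    mul_nonneg (by linarith) (mul_nonneg hy0 (by linarith))
  have h3 : 0 ≤ y * (15 * y * (15 * ((1 + D * (1 / 15)) ^ 2 * (1 - G * (1 / 15)) - 1))) := by
    have : 0 ≤ (1 + D * (1 / 15)) ^ 2 * (1 - G * (1 / 15)) - 1 := by linarith
    positivity
  have h4 : 0 ≤ D ^ 2 * G * y ^ 2 * (1 / 15 - y) := by
    have : 0 ≤ 1 / 15 - y := by linarith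
    positivity
  linarith

/-- the `k`-part -/
theorem SkF_ge {n : ℕ} (hn : 23 ≤ n) {μ s l k u V1 t1 W0 pa pb Ea Eb tb e0l M : ℝ} (hμ0 : 0 ≤ μ)
    (hs : s ∈ Ioo (0 : ℝ) 1) (hl : 3 / 10 ≤ l) (hk : 0 < 1 + k) (hk0 : k ≤ 0)
    (hW : W0 ≤ cc s * Wq (1 / cc (s * Real.exp u)) (l - u)) (hW0 : 0 ≤ W0)
    (hpa : pa ≤ V1) (hpa0 : 0 ≤ pa) (hpb : V1 ≤ pb) (hpb1 : pb ≤ 1)
    (hEa : Ea ≤ Real.exp (2 * u)) (hEa0 : 0 ≤ Ea) (hEb : Real.exp (2 * u) ≤ Eb)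
    (ht0 : 0 ≤ t1) (htb : t1 ≤ tb) (he : e0l ≤ e0F n) (he0 : 0 ≤ e0l)
    (hM : μ * (1 - 1 / (n : ℝ)) * Real.exp (l / n) ≤ M) :
    W0 - 1 - 1001 / 1000 * (pb * (Eb * tb)) +
      gk (W0 * (1 - pb)) (M - (1 - pa * (e0l * Ea))) (7 / 50) M (1 + k) ≤
      SkF n μ (e0F n) s l k u V1 t1 := by
  have hn' : (23 : ℝ) ≤ n := by exact_mod_cast hn
  have hgk := far_k_part (n := n) (by omega) (ρ := W0 * (1 - pb)) (B := 1 - pa * (e0l * Ea))
    (b := 7 / 50) hμ0 hk hk0 hM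
  have hc := cc_pos' hs
  have hc1 : cc s ≤ 1 := cc_le_one s
  have hY0 := Y_nonneg hs
  have haq := aq_le_Y hs
  have he1 : e0F n ≤ 1001 / 1000 := by
    unfold e0F
    have : ((n : ℝ) - 4) / ((n : ℝ) + 1) ≤ 1 := by
      rw [div_le_one (by linarith)]; linarith
    linarith
  have hV0 : 0 ≤ V1 := hpa0.trans hpa
  have hV1 : V1 ≤ 1 := hpb.trans hpb1
  -- the 1/κ term
  have h1 : W0 + W0 * (1 - pb) * (1 / (1 + k) - 1) ≤
      cc s * Wq (1 / cc (s * Real.exp u)) (l - u) * ((1 - V1) / (1 + k) + V1 + V1 * t1) := by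
    have hi : 0 ≤ 1 / (1 + k) - 1 := by
      rw [sub_nonneg, le_div_iff₀ hk]; linarith
    have h2 : 1 + (1 - pb) * (1 / (1 + k) - 1) ≤ (1 - V1) / (1 + k) + V1 + V1 * t1 := by
      have e : (1 - V1) / (1 + k) + V1 = 1 + (1 - V1) * (1 / (1 + k) - 1) := by
        field_simp
        ring
      have h3 : (1 - pb) * (1 / (1 + k) - 1) ≤ (1 - V1) * (1 / (1 + k) - 1) :=
        mul_le_mul_of_nonneg_right (by linarith) hi
      have h4 : 0 ≤ V1 * t1 := mul_nonneg hV0 ht0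
      linarith
    have h5 : 0 ≤ 1 + (1 - pb) * (1 / (1 + k) - 1) := by
      have := mul_nonneg (show 0 ≤ 1 - pb by linarith) hi
      linarith
    calc W0 + W0 * (1 - pb) * (1 / (1 + k) - 1) = W0 * (1 + (1 - pb) * (1 / (1 + k) - 1)) := by ring
      _ ≤ (cc s * Wq (1 / cc (s * Real.exp u)) (l - u)) * (1 + (1 - pb) * (1 / (1 + k) - 1)) :=
          mul_le_mul_of_nonneg_right hW h5
      _ ≤ _ := mul_le_mul_of_nonneg_left h2 (hW0.trans hW)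
  -- the `W` term
  have h2 : -(1 - k) ≤ -((aq s - 3 * Y s * l) * (1 - k)) + Y s * l * k := by
    have h3 : aq s - 3 * Y s * l ≤ 1 - Y s * (3 * l - 3 / 4) := by linarith
    have h4 : (aq s - 3 * Y s * l) * (1 - k) ≤ (1 - Y s * (3 * l - 3 / 4)) * (1 - k) :=
      mul_le_mul_of_nonneg_right h3 (by linarith)
    have h5 : 0 ≤ Y s * ((3 * l - 3 / 4) * (1 - k) + l * k) := by
      apply mul_nonneg hY0
      have : (3 * l - 3 / 4) * (1 - k) + l * k = (3 * l - 3 / 4) + (-k) * (2 * l - 3 / 4) := by ring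
      rw [this]
      nlinarith
    nlinarith
  -- the `e0 E` term
  have hE0 := Real.exp_pos (2 * u)
  have h3 : pa * (e0l * Ea) * (-k) - 1001 / 1000 * (pb * (Eb * tb)) ≤
      V1 * (e0F n * (Real.exp (2 * u) * (-k - t1 * (1 + k)))) := by
    have e : V1 * (e0F n * (Real.exp (2 * u) * (-k - t1 * (1 + k)))) =
        V1 * (e0F n * Real.exp (2 * u)) * (-k) - V1 * (e0F n * (Real.exp (2 * u) * (t1 * (1 + k)))) := by
      ring
    rw [e]
    have h4 : pa * (e0l * Ea) * (-k) ≤ V1 * (e0F n * Real.exp (2 * u)) * (-k) := by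
      apply mul_le_mul_of_nonneg_right _ (by linarith)
      exact mul_le_mul hpa (mul_le_mul he hEa hEa0 (he0.trans he)) (mul_nonneg he0 hEa0) hV0
    have h5 : V1 * (e0F n * (Real.exp (2 * u) * (t1 * (1 + k)))) ≤
        pb * (1001 / 1000 * (Eb * (tb * 1))) := by
      have h6 : t1 * (1 + k) ≤ tb * 1 :=
        mul_le_mul htb (by linarith) hk.le (ht0.trans htb)
      have h7 : Real.exp (2 * u) * (t1 * (1 + k)) ≤ Eb * (tb * 1) :=
        mul_le_mul hEb h6 (mul_nonneg ht0 hk.le) (hE0.le.trans hEb)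
      have h8 : e0F n * (Real.exp (2 * u) * (t1 * (1 + k))) ≤ 1001 / 1000 * (Eb * (tb * 1)) :=
        mul_le_mul he1 h7 (mul_nonneg hE0.le (mul_nonneg ht0 hk.le)) (by norm_num)
      exact mul_le_mul hpb h8
        (mul_nonneg (he0.trans he) (mul_nonneg hE0.le (mul_nonneg ht0 hk.le))) (hV0.trans hpb)
    linarith
  have h4 : 7 / 50 * (cc s ^ 2 * k ^ 2) ≤ 7 / 50 * k ^ 2 := by
    have : cc s ^ 2 ≤ 1 := by nlinarith
    nlinarith [sq_nonneg k]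
  unfold SkF
  linarith


lemma sq_div_mono {a b w : ℝ} (hw : 0 < w) (ha : 0 ≤ a) (hab : a ≤ b) :
    a ^ 2 / (a + w) ≤ b ^ 2 / (b + w) := by
  rw [div_le_div_iff₀ (by linarith) (by linarith)]
  have e : b ^ 2 * (a + w) - a ^ 2 * (b + w) = (b - a) * (a * b + w * (a + b)) := by ring
  have : 0 ≤ (b - a) * (a * b + w * (a + b)) := by
    have hb : 0 ≤ b := ha.trans hab
    have : 0 ≤ b - a := by linarith
    positivity
  linarith


lemma cell_Q {s u Q0 Eb : ℝ} (hs : s ∈ Ioo (0 : ℝ) 1) (hs4 : s ≤ 1 / 4) (hp : s * Real.exp u < 1)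
    (hQ0 : 1 ≤ Q0) (hEb' : Real.exp (2 * u) ≤ Eb) (hQ : 1 ≤ Q0 ^ 2 * (1 - Eb / 16)) :
    1 / cc (s * Real.exp u) ≤ Q0 := by
  have hs0 := hs.1
  have hs2 : s ^ 2 ≤ 1 / 16 := by nlinarith
  have hpp : s * Real.exp u ∈ Ioo (0 : ℝ) 1 := ⟨mul_pos hs0 (Real.exp_pos _), hp⟩
  have hd := cc_pos' hpp
  have hdd2 := Qhat_sq hs hp
  rw [div_le_iff₀ hd]
  have h1 : (1 : ℝ) ^ 2 ≤ (Q0 * cc (s * Real.exp u)) ^ 2 := by
    rw [mul_pow, hdd2]
    have : s ^ 2 * Real.exp (2 * u) ≤ 1 / 16 * Eb :=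
      mul_le_mul hs2 hEb' (Real.exp_pos _).le (by norm_num)
    have h2 : Q0 ^ 2 * (1 - Eb / 16) ≤ Q0 ^ 2 * (1 - s ^ 2 * Real.exp (2 * u)) :=
      mul_le_mul_of_nonneg_left (by linarith) (by positivity)
    linarith
  exact abs_le_of_sq_le_sq' h1 (by positivity) |>.2

lemma cell_c {s : ℝ} (hs : s ∈ Ioo (0 : ℝ) 1) (hs4 : s ≤ 1 / 4) :
    968 / 1000 ≤ cc s ∧ 1 / cc s ≤ 1033 / 1000 := by
  have hs0 := hs.1
  have hs2 : s ^ 2 ≤ 1 / 16 := by nlinarith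
  have hc := cc_pos' hs
  have hcc2 := cc_sq' hs
  constructor
  · have h1 : (968 / 1000 : ℝ) ^ 2 ≤ cc s ^ 2 := by rw [hcc2]; linarith
    exact abs_le_of_sq_le_sq' h1 hc.le |>.2
  · rw [div_le_iff₀ hc]
    have h1 : (1000 / 1033 : ℝ) ^ 2 ≤ cc s ^ 2 := by rw [hcc2]; linarith
    have h2 : (1000 / 1033 : ℝ) ≤ cc s := abs_le_of_sq_le_sq' h1 hc.le |>.2
    linarith

lemma cell_cd {s u D Eb : ℝ} (hs : s ∈ Ioo (0 : ℝ) 1) (hs4 : s ≤ 1 / 4) (hp : s * Real.exp u < 1)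
    (hEb' : Real.exp (2 * u) ≤ Eb) (hEb1 : 1 ≤ Eb) (hD2 : Eb - 1 ≤ 2 * D)
    (hD15 : 1 ≤ (1 + D * (1 / 15)) ^ 2 * (1 - (Eb - 1) * (1 / 15))) :
    cc s * (1 / cc (s * Real.exp u) - 1 / cc s) ≤ D * Y s := by
  have hs0 := hs.1
  have hc := cc_pos' hs
  have hcc2 := cc_sq' hs
  have hpp : s * Real.exp u ∈ Ioo (0 : ℝ) 1 := ⟨mul_pos hs0 (Real.exp_pos _), hp⟩
  have hd := cc_pos' hpp
  have hdd2 := Qhat_sq hs hp
  have hY0 := Y_nonneg hs
  have hY15 := Y_le_of_quarter hs hs4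
  have hD0 : 0 ≤ D := by linarith
  have e : cc s * (1 / cc (s * Real.exp u) - 1 / cc s) = cc s / cc (s * Real.exp u) - 1 := by
    field_simp
  rw [e]
  have h1 : cc s / cc (s * Real.exp u) ≤ 1 + D * Y s := by
    rw [div_le_iff₀ hd]
    have h2 : cc s ^ 2 ≤ ((1 + D * Y s) * cc (s * Real.exp u)) ^ 2 := by
      have h3 := cd_core (D := D) (G := Eb - 1) (y := Y s) (by linarith) hD2 hD15 hY0 hY15
      rw [mul_pow, hdd2, hcc2]
      have h4 : (1 - s ^ 2) * (1 - Y s * (Eb - 1)) ≤ 1 - s ^ 2 * Real.exp (2 * u) := by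
        have e2 : (1 - s ^ 2) * (1 - Y s * (Eb - 1)) = 1 - s ^ 2 * Eb := by
          unfold Y
          have := (one_sub_sq_pos hs).ne'
          field_simp
          ring
        rw [e2]
        have := mul_le_mul_of_nonneg_left hEb' (sq_nonneg s)
        linarith
      calc 1 - s ^ 2 = (1 - s ^ 2) * 1 := by ring
        _ ≤ (1 - s ^ 2) * ((1 + D * Y s) ^ 2 * (1 - Y s * (Eb - 1))) :=
          mul_le_mul_of_nonneg_left h3 (one_sub_sq_pos hs).le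
        _ = (1 + D * Y s) ^ 2 * ((1 - s ^ 2) * (1 - Y s * (Eb - 1))) := by ring
        _ ≤ _ := mul_le_mul_of_nonneg_left h4 (by positivity)
    exact abs_le_of_sq_le_sq' h2 (by positivity) |>.2
  linarith

lemma cell_ue {u ub Eb : ℝ} (hu0 : 0 ≤ u) (huub : u ≤ ub) (hEb : Real.exp (2 * ub) ≤ Eb) :
    ub - 1001 / 2000 * (Eb - 1) ≤ u - 1001 / 2000 * (Real.exp (2 * u) - 1) := by
  have hE1 : 1 ≤ Real.exp (2 * u) := Real.one_le_exp (by linarith)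
  have h1 : Real.exp (2 * u) * (1 + 2 * (ub - u)) ≤ Real.exp (2 * ub) := by
    have e : Real.exp (2 * ub) = Real.exp (2 * u) * Real.exp (2 * (ub - u)) := by
      rw [← Real.exp_add]; congr 1; ring
    rw [e]
    apply mul_le_mul_of_nonneg_left _ (Real.exp_pos _).le
    linarith [Real.add_one_le_exp (2 * (ub - u))]
  have h2 : (ub - u) * 1 ≤ (ub - u) * Real.exp (2 * u) :=
    mul_le_mul_of_nonneg_left hE1 (by linarith)
  linarith

lemma cell_e0 {n : ℕ} {xa e0l : ℝ} (hxa2 : 1 ≤ xa ^ 2) (hn16 : 16 * xa ^ 2 - 1 ≤ n)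
    (he0 : e0l ≤ 1 - 5 / (16 * xa ^ 2)) : e0l ≤ e0F n := by
  refine he0.trans ?_
  unfold e0F
  have hn1 : (n : ℝ) + 1 ≠ 0 := by positivity
  have e : ((n : ℝ) - 4) / ((n : ℝ) + 1) = 1 - 5 / ((n : ℝ) + 1) := by
    field_simp
    ring
  rw [e]
  have : 5 / ((n : ℝ) + 1) ≤ 5 / (16 * xa ^ 2) := by
    apply div_le_div_of_nonneg_left (by norm_num) (by positivity)
    linarith
  linarith

lemma cell_M {n : ℕ} (hn' : (23 : ℝ) ≤ n) {μ l lb xa M : ℝ} (hμ : μ ≤ muF n)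
    (hl0 : 0 ≤ l) (hlb : l ≤ lb) (hxa2 : 1 ≤ xa ^ 2) (hn16 : 16 * xa ^ 2 - 1 ≤ n)
    (hlbn : lb < 16 * xa ^ 2 - 1)
    (hM : (107 / 100 + 79 / 100 / (16 * xa ^ 2 - 1)) / (1 - lb / (16 * xa ^ 2 - 1)) ≤ M) :
    μ * (1 - 1 / (n : ℝ)) * Real.exp (l / n) ≤ M := by
  refine le_trans ?_ hM
  have hlb0 : 0 ≤ lb := by linarith
  have hN0 : 0 < 16 * xa ^ 2 - 1 := by linarith
  have hn0 : (0 : ℝ) < n := by linarith
  have h1 : μ * (1 - 1 / (n : ℝ)) ≤ 107 / 100 + 79 / 100 / (16 * xa ^ 2 - 1) := by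
    have h2 : μ * (1 - 1 / (n : ℝ)) ≤ muF n * (1 - 1 / (n : ℝ)) := by
      apply mul_le_mul_of_nonneg_right hμ
      rw [sub_nonneg, div_le_one hn0]
      linarith
    have e : muF n * (1 - 1 / (n : ℝ)) = 107 / 100 + 79 / 100 / n := by
      unfold muF
      have : (n : ℝ) - 1 ≠ 0 := by
        have : (0 : ℝ) < (n : ℝ) - 1 := by linarith
        exact this.ne'
      field_simp
      ring
    have h3 : 79 / 100 / (n : ℝ) ≤ 79 / 100 / (16 * xa ^ 2 - 1) :=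
      div_le_div_of_nonneg_left (by norm_num) hN0 hn16
    linarith
  have h2 : Real.exp (l / n) ≤ 1 / (1 - lb / (16 * xa ^ 2 - 1)) := by
    have h3 : l / n ≤ lb / (16 * xa ^ 2 - 1) := by
      apply div_le_div₀ hlb0 hlb hN0 hn16
    have h4 : lb / (16 * xa ^ 2 - 1) < 1 := by rwa [div_lt_one hN0]
    have h5 : 1 - lb / (16 * xa ^ 2 - 1) ≤ Real.exp (-(l / n)) := by
      have := Real.add_one_le_exp (-(l / n))
      linarith
    rw [Real.exp_neg] at h5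
    rw [le_div_iff₀ (by linarith)]
    have h6 := mul_le_mul_of_nonneg_left h5 (Real.exp_pos (l / n)).le
    rw [mul_inv_cancel₀ (Real.exp_pos _).ne'] at h6
    exact h6
  calc μ * (1 - 1 / (n : ℝ)) * Real.exp (l / n) ≤
      (107 / 100 + 79 / 100 / (16 * xa ^ 2 - 1)) * (1 / (1 - lb / (16 * xa ^ 2 - 1))) :=
        mul_le_mul h1 h2 (Real.exp_pos _).le (by positivity)
    _ = _ := by ring

lemma cell_W {s l u Q0 W0 : ℝ} (hs : s ∈ Ioo (0 : ℝ) 1) (hs4 : s ≤ 1 / 4) (hp : s * Real.exp u < 1)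
    (hl2 : l - u ≤ 1 / 2) (hQle : 1 / cc (s * Real.exp u) ≤ Q0)
    (hW0 : 0 ≤ W0) (hW : W0 ≤ 968 / 1000 * Wq Q0 (1 / 2)) :
    W0 ≤ cc s * Wq (1 / cc (s * Real.exp u)) (l - u) := by
  have hpp : s * Real.exp u ∈ Ioo (0 : ℝ) 1 := ⟨mul_pos hs.1 (Real.exp_pos _), hp⟩
  have hd := cc_pos' hpp
  have hQ1 : 1 ≤ 1 / cc (s * Real.exp u) := by
    rw [le_div_iff₀ hd]; linarith [cc_le_one (s * Real.exp u)]
  have hc := cc_pos' hs
  refine hW.trans ?_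
  have h1 : Wq Q0 (1 / 2) ≤ Wq (1 / cc (s * Real.exp u)) (1 / 2) := Wq_half_anti hQ1 hQle
  have h2 : Wq (1 / cc (s * Real.exp u)) (1 / 2) ≤ Wq (1 / cc (s * Real.exp u)) (l - u) :=
    Wq_anti_l hQ1 hl2
  have h3 : 0 ≤ Wq Q0 (1 / 2) := by
    by_contra hneg
    push Not at hneg
    linarith
  calc 968 / 1000 * Wq Q0 (1 / 2) ≤ cc s * Wq Q0 (1 / 2) :=
        mul_le_mul_of_nonneg_right (cell_c hs hs4).1 h3
    _ ≤ _ := mul_le_mul_of_nonneg_left (h1.trans h2) hc.le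

lemma cell_R {s l u la lb eb xa ua Eb D S C Rm X : ℝ} (hs : s ∈ Ioo (0 : ℝ) 1) (hs4 : s ≤ 1 / 4)
    (hl0 : 0 ≤ l) (hlb : l ≤ lb) (heb : Real.exp lb ≤ eb) (huua : ua ≤ u)
    (hEb' : Real.exp (2 * u) ≤ Eb) (hC0 : 0 ≤ C) (hX : xa ^ 2 * la ^ 2 ≤ X * l ^ 2)
    (hRm0 : Rm ≤ 0)
    (hRm : Rm ≤ 32 / 25 * (xa ^ 2 * la ^ 2) - 439 / 100 * lb ^ 2 - eb ^ 2 / (2 * (1 + C) ^ 2) + ua -
      D * (9 / 4 + S / 2) - 7 / 2 * (Eb - 1)) :
    Rm / 15 ≤ Y s * (32 / 25 * (X * l ^ 2) - 439 / 100 * l ^ 2 -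
        Real.exp (2 * l) / (2 * (1 + C) ^ 2) + u - D * (9 / 4 + S / 2) -
        7 / 2 * (Real.exp (2 * u) - 1)) := by
  have hY0 := Y_nonneg hs
  have hY15 := Y_le_of_quarter hs hs4
  have h1 : Rm ≤ 32 / 25 * (X * l ^ 2) - 439 / 100 * l ^ 2 -
      Real.exp (2 * l) / (2 * (1 + C) ^ 2) + u - D * (9 / 4 + S / 2) -
      7 / 2 * (Real.exp (2 * u) - 1) := by
    have h2 : l ^ 2 ≤ lb ^ 2 := by gcongr
    have h3 : Real.exp (2 * l) / (2 * (1 + C) ^ 2) ≤ eb ^ 2 / (2 * (1 + C) ^ 2) := by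
      apply div_le_div_of_nonneg_right _ (by positivity)
      have e : Real.exp (2 * l) = Real.exp l ^ 2 := by rw [← Real.exp_nat_mul]; norm_num
      rw [e]
      have h1 : Real.exp l ≤ eb := (Real.exp_le_exp.2 hlb).trans heb
      gcongr
    linarith
  refine le_trans ?_ (mul_le_mul_of_nonneg_left h1 hY0)
  have h3 := mul_nonneg (show 0 ≤ 1 / 15 - Y s by linarith) (show 0 ≤ -Rm by linarith)
  have e : (1 / 15 - Y s) * -Rm = Y s * Rm - Rm / 15 := by ring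
  linarith

set_option maxHeartbeats 2000000 in
/-- **cell theorem** -/
theorem far_cell {n : ℕ} (hn : 23 ≤ n) {s l k : ℝ} (h : FarC n s l k) (hk0 : k ≤ 0) (hs4 : s ≤ 1 / 4)
    {la lb eb Tb xa va vb ua ub Ea Eb pa pb Q0 W0 D S C Rm tb e0l M G : ℝ}
    (hla3 : 3 / 10 ≤ la) (hla : la ≤ l) (hlb : l ≤ lb)
    (heb : Real.exp lb ≤ eb) (hTb : eb ≤ 4 * Tb) (htb : 23 / 25 * Tb ^ 8 ≤ tb)
    (hva0 : 0 ≤ va) (hva : va = 0 ∨ va ≤ la - 43 / 100)
    (hvb : lb - 43 / 100 + 23 / 200 * Tb ^ 8 ≤ vb)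
    (hua : ua ≤ va ^ 2 / (va + 7 / 100)) (hub : vb ^ 2 / (vb + 7 / 100) ≤ ub)
    (hEa0 : 0 ≤ Ea) (hEa : Ea ≤ Real.exp (2 * ua)) (hEb : Real.exp (2 * ub) ≤ Eb)
    (hpa0 : 0 ≤ pa) (hpa : pa ≤ 1 - (7 / 100) ^ 2 / (va + 7 / 100) ^ 2)
    (hpb : 1 - (7 / 100) ^ 2 / (vb + 7 / 100) ^ 2 ≤ pb) (hpb1 : pb ≤ 1)
    (hQ0 : 1 ≤ Q0) (hQ : 1 ≤ Q0 ^ 2 * (1 - Eb / 16))
    (hW0 : 0 ≤ W0) (hW : W0 ≤ 968 / 1000 * Wq Q0 (1 / 2))
    (hD2 : Eb - 1 ≤ 2 * D) (hD15 : 1 ≤ (1 + D * (1 / 15)) ^ 2 * (1 - (Eb - 1) * (1 / 15)))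
    (hS : Q0 ^ 2 + Q0 * (1033 / 1000) + (1033 / 1000) ^ 2 ≤ S)
    (hC0 : 0 ≤ C) (hC : C ^ 2 ≤ 1 - Tb ^ 2)
    (hxa0 : 1 ≤ xa) (hx : xa ≤ s * Real.sqrt ((n : ℝ) + 1))
    (hRm0 : Rm ≤ 0)
    (hRm : Rm ≤ 32 / 25 * (xa ^ 2 * la ^ 2) - 439 / 100 * lb ^ 2 - eb ^ 2 / (2 * (1 + C) ^ 2) + ua -
      D * (9 / 4 + S / 2) - 7 / 2 * (Eb - 1))
    (he00 : 0 ≤ e0l) (he0 : e0l ≤ 1 - 5 / (16 * xa ^ 2))
    (hlbn : lb < 16 * xa ^ 2 - 1)
    (hM : (107 / 100 + 79 / 100 / (16 * xa ^ 2 - 1)) / (1 - lb / (16 * xa ^ 2 - 1)) ≤ M)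
    (hG : G ≤ 7 / 25 * (xa ^ 2 * la ^ 2) + ub - 1001 / 2000 * (Eb - 1) + Rm / 15 + W0 - 1 -
      1001 / 1000 * (pb * (Eb * tb)))
    (hfin : ∀ κ : ℝ, 0 < κ → κ ≤ 1 →
      0 < G + gk (W0 * (1 - pb)) (M - (1 - pa * (e0l * Ea))) (7 / 50) M κ) :
    0 < PStar n s l k := by
  have hn' : (23 : ℝ) ≤ n := by exact_mod_cast hn
  have hμ0 : 0 ≤ muF n := by unfold muF; apply div_nonneg <;> linarith
  have hs := h.hs
  have hs0 := hs.1
  have hT := h.hT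
  have hl0 : 0 ≤ l := by linarith
  obtain ⟨hu0, hlh, hc1, hlc, hl2, hp, -⟩ := soft_facts hs hT.le h.hcap rfl
  have helim := far_elim hs hT.le h.hcap rfl
  have hT0 : 0 < s * Real.exp l := mul_pos hs0 (Real.exp_pos _)
  have hTTb : s * Real.exp l ≤ Tb := by
    have h1 : Real.exp l ≤ eb := (Real.exp_le_exp.2 hlb).trans heb
    have h2 : s * Real.exp l ≤ 1 / 4 * eb := mul_le_mul hs4 h1 (Real.exp_pos _).le (by norm_num)
    linarith
  have hT8 : (s * Real.exp l) ^ 8 ≤ Tb ^ 8 := by gcongr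
  have hT80 : 0 ≤ (s * Real.exp l) ^ 8 := by positivity
  have hcapd : capF (s * Real.exp l) = 43 / 100 - 23 / 200 * (s * Real.exp l) ^ 8 := rfl
  have hTb2 : (s * Real.exp l) ^ 2 ≤ Tb ^ 2 := by gcongr
  have hv0 : 0 < l - capF (s * Real.exp l) := by have := h.hcap; linarith
  have hvvb : l - capF (s * Real.exp l) ≤ vb := by rw [hcapd]; linarith
  have hvva : va ≤ l - capF (s * Real.exp l) := by
    rcases hva with hva | hva
    · linarith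
    · rw [hcapd]; linarith
  have hu1 : Vq (7 / 100) (l - capF (s * Real.exp l)) =
    (l - capF (s * Real.exp l)) ^ 2 / (l - capF (s * Real.exp l) + 7 / 100) := Vq_of_nonneg hv0.le
  have hV1 : Vq' (7 / 100) (l - capF (s * Real.exp l)) =
    1 - (7 / 100) ^ 2 / (l - capF (s * Real.exp l) + 7 / 100) ^ 2 := Vq'_of_nonneg hv0.le
  have huub : Vq (7 / 100) (l - capF (s * Real.exp l)) ≤ ub := by
    refine le_trans ?_ hub
    rw [hu1]
    exact sq_div_mono (by norm_num) hv0.le hvvb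
  have huua : ua ≤ Vq (7 / 100) (l - capF (s * Real.exp l)) := by
    refine le_trans hua ?_
    rw [hu1]
    exact sq_div_mono (by norm_num) hva0 hvva
  have hVpb : Vq' (7 / 100) (l - capF (s * Real.exp l)) ≤ pb := by
    refine le_trans ?_ hpb
    rw [hV1]
    have : (7 / 100 : ℝ) ^ 2 / (vb + 7 / 100) ^ 2 ≤
        (7 / 100) ^ 2 / (l - capF (s * Real.exp l) + 7 / 100) ^ 2 := by
      apply div_le_div_of_nonneg_left (by positivity) (by positivity)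
      gcongr
    linarith
  have hVpa : pa ≤ Vq' (7 / 100) (l - capF (s * Real.exp l)) := by
    refine le_trans hpa ?_
    rw [hV1]
    have : (7 / 100 : ℝ) ^ 2 / (l - capF (s * Real.exp l) + 7 / 100) ^ 2 ≤
        (7 / 100) ^ 2 / (va + 7 / 100) ^ 2 := by
      apply div_le_div_of_nonneg_left (by positivity) (by positivity)
      gcongr
    linarith
  have hPF : PStar n s l k = S0F n 0 (e0F n) s l (Vq (7 / 100) (l - capF (s * Real.exp l))) +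
      SkF n (muF n) (e0F n) s l k (Vq (7 / 100) (l - capF (s * Real.exp l)))
        (Vq' (7 / 100) (l - capF (s * Real.exp l))) (23 / 25 * (s * Real.exp l) ^ 8) := by
    rw [show SkF n (muF n) (e0F n) s l k (Vq (7 / 100) (l - capF (s * Real.exp l)))
        (Vq' (7 / 100) (l - capF (s * Real.exp l))) (23 / 25 * (s * Real.exp l) ^ 8) =
        SkF n 0 (e0F n) s l k (Vq (7 / 100) (l - capF (s * Real.exp l)))
        (Vq' (7 / 100) (l - capF (s * Real.exp l))) (23 / 25 * (s * Real.exp l) ^ 8) -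
        muF n * (Real.exp (l / n) * hm n k) by unfold SkF; ring, ← add_sub_assoc,
      ← far_split (lm := 0) hs hp h.hk0]
    unfold PStar PF
    have e2 : SUf s l k = Vq' (7 / 100) (l - capF (s * Real.exp l)) *
        (k + 23 / 25 * (s * Real.exp l) ^ 8 * (1 + k)) := by
      unfold SUf capF'
      ring
    rw [e2]
    rfl
  rw [hPF]
  have htbT : 23 / 25 * (s * Real.exp l) ^ 8 ≤ tb := by linarith
  generalize Vq' (7 / 100) (l - capF (s * Real.exp l)) = V1 at *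
  generalize Vq (7 / 100) (l - capF (s * Real.exp l)) = u at *
  have ht0 : 0 ≤ 23 / 25 * (s * Real.exp l) ^ 8 := by positivity
  generalize 23 / 25 * (s * Real.exp l) ^ 8 = t1 at *
  have hEa' : Ea ≤ Real.exp (2 * u) := hEa.trans (Real.exp_le_exp.2 (by linarith))
  have hEb' : Real.exp (2 * u) ≤ Eb := le_trans (Real.exp_le_exp.2 (by linarith)) hEb
  have hEb1 : 1 ≤ Eb := le_trans (Real.one_le_exp (by linarith)) hEb'
  have hQle := cell_Q hs hs4 hp hQ0 hEb' hQ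
  obtain ⟨hcl, hql⟩ := cell_c hs hs4
  have hc := cc_pos' hs
  have hd := cc_pos' (s := s * Real.exp u) ⟨mul_pos hs0 (Real.exp_pos _), hp⟩
  have hcd := cell_cd hs hs4 hp hEb' hEb1 hD2 hD15
  have hSS : (1 / cc (s * Real.exp u)) ^ 2 + 1 / cc (s * Real.exp u) * (1 / cc s) + (1 / cc s) ^ 2 ≤ S := by
    refine le_trans ?_ hS
    have : 0 < 1 / cc s := by positivity
    have : 0 < 1 / cc (s * Real.exp u) := by positivity
    gcongr
  have hCC : C ≤ cc (s * Real.exp l) := by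
    have h1 : C ^ 2 ≤ cc (s * Real.exp l) ^ 2 := by
      rw [cc_sq' ⟨hT0, hT⟩]
      linarith
    exact abs_le_of_sq_le_sq' h1 (cc_nonneg _) |>.2
  have hS0 := S0F_ge (n := n) (by omega) (D := D) (S := S) (C := C) le_rfl hs hs4 hl0 hT hp hu0.le
    (by linarith) hl2 helim hcd hSS hC0 hCC
  have hX : xa ^ 2 ≤ ((n : ℝ) + 1) * s ^ 2 := by
    have h1 : xa ^ 2 ≤ (s * Real.sqrt ((n : ℝ) + 1)) ^ 2 := by gcongr
    rw [mul_pow, Real.sq_sqrt (by positivity)] at h1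
    linarith
  have hs2 : s ^ 2 ≤ 1 / 16 := by
    have : s ^ 2 ≤ (1 / 4) ^ 2 := by gcongr
    linarith
  have hla0 : 0 ≤ la := by linarith
  have hXl : xa ^ 2 * la ^ 2 ≤ (((n : ℝ) + 1) * s ^ 2) * l ^ 2 := by
    have h1 : la ^ 2 ≤ l ^ 2 := by gcongr
    exact mul_le_mul hX h1 (sq_nonneg _) (by positivity)
  have hn16 : 16 * xa ^ 2 - 1 ≤ n := by
    have : ((n : ℝ) + 1) * s ^ 2 ≤ ((n : ℝ) + 1) * (1 / 16) := by gcongr
    linarith
  have hR := cell_R (X := ((n : ℝ) + 1) * s ^ 2) hs hs4 hl0 hlb heb huua hEb' hC0 hXl hRm0 hRm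
  have hue := cell_ue hu0.le huub hEb
  have hxa2 : (1 : ℝ) ≤ xa ^ 2 := one_le_pow₀ hxa0
  have he0' := cell_e0 hxa2 hn16 he0
  have hM' := cell_M hn' (le_refl (muF n)) hl0 hlb hxa2 hn16 hlbn hM
  have hWl := cell_W (l := l) hs hs4 hp hl2 hQle hW0 hW
  have hSk := SkF_ge (n := n) hn (t1 := t1) hμ0 hs (by linarith) h.hk0 hk0 hWl hW0
    hVpa hpa0 hVpb hpb1 hEa' hEa0 hEb' ht0 htbT he0' he00 hM'
  have hfinal := hfin (1 + k) h.hk0 (by linarith)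
  clear hfin hSS hcd helim hQ hD15 hC hRm hM hW hS hpa hpb
  linarith

end Crest.Agent.R230.WR
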