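import Crest.Agent.R230.FarF2b

/-!
# Row 230, far block, `k ≤ 0`, `s ≤ 1/4` (helper818)

Part 3: the cells (generated), `l ≤ 9/10`.
-/

set_option autoImplicit false

open MeasureTheory Set Filter Topology
open scoped Pointwise ENNReal

namespace Crest.Agent.R230.WR

lemma exp_lb8 {x y : ℝ} (hx : 0 ≤ x) (h : y ≤ 1 + x + x ^ 2 / 2 + x ^ 3 / 6 + x ^ 4 / 24 + x ^ 5 / 120 +
    x ^ 6 / 720 + x ^ 7 / 5040) : y ≤ Real.exp x := by
  refine h.trans ?_
  have := Real.sum_le_exp_of_nonneg hx 8
  simp only [Finset.sum_range_succ, Finset.sum_range_zero, Nat.factorial] at this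
  norm_num at this
  linarith

lemma exp_ub8 {x y : ℝ} (hx : 0 ≤ x) (hx1 : x ≤ 1) (h : 1 + x + x ^ 2 / 2 + x ^ 3 / 6 + x ^ 4 / 24 +
    x ^ 5 / 120 + x ^ 6 / 720 + x ^ 7 / 5040 + x ^ 8 * (9 / 322560) ≤ y) : Real.exp x ≤ y := by
  refine le_trans ?_ h
  have := Real.exp_bound' hx hx1 (n := 8) (by norm_num)
  simp only [Finset.sum_range_succ, Finset.sum_range_zero, Nat.factorial] at this
  norm_num at this
  linarith

lemma log_ge8 {t a : ℝ} (ht : 0 < t) (ha : 0 ≤ a) (h : 1 ≤ t * (1 + a / 4 + (a / 4) ^ 2 / 2 +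
    (a / 4) ^ 3 / 6 + (a / 4) ^ 4 / 24 + (a / 4) ^ 5 / 120 + (a / 4) ^ 6 / 720 + (a / 4) ^ 7 / 5040) ^ 4) :
    -a ≤ Real.log t := by
  rw [Real.le_log_iff_exp_le ht, Real.exp_neg]
  have h1 := exp_lb8 (x := a / 4) (by positivity) le_rfl
  have h2 : Real.exp a = Real.exp (a / 4) ^ 4 := by
    rw [← Real.exp_nat_mul]; congr 1; push_cast; ring
  rw [inv_le_comm₀ (Real.exp_pos _) ht, h2]
  have h3 : t⁻¹ ≤ (1 + a / 4 + (a / 4) ^ 2 / 2 +
    (a / 4) ^ 3 / 6 + (a / 4) ^ 4 / 24 + (a / 4) ^ 5 / 120 + (a / 4) ^ 6 / 720 + (a / 4) ^ 7 / 5040) ^ 4 := by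
    rw [inv_le_iff_one_le_mul₀ ht]
    linarith
  refine h3.trans ?_
  gcongr

/-- finishing lemma for a cell -/
lemma cell_fin {G ρ D M t a k₀ : ℝ} (hM : 0 ≤ M) (hρ : 0 ≤ ρ) (ht : 0 < t) (htρ : M * t ≤ ρ)
    (hk : 0 < k₀) (hk1 : k₀ ≤ 1) (h2ρ : 2 * ρ ≤ M * k₀) (hG : 0 < G) (ha : -a ≤ Real.log t)
    (h1 : 0 < G + M * (1 - a - t) + (D - 7 / 50))
    (h2 : 0 < G + M * (1 - a - t) + (D * (1 - k₀) - 7 / 50 * (1 - k₀) ^ 2)) :
    ∀ κ : ℝ, 0 < κ → κ ≤ 1 → 0 < G + gk ρ D (7 / 50) M κ := by
  intro κ h0 h3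
  have h4 := mul_le_mul_of_nonneg_left ha hM
  exact gk_pos₂ hM hρ (by norm_num) h0 h3 ht htρ hk hk1 h2ρ hG (by linarith) (by linarith)

lemma far_cell_1 {n : ℕ} (hn : 23 ≤ n) {s l k : ℝ} (h : FarC n s l k) (hk0 : k ≤ 0) (hs4 : s ≤ 1 / 4) (h1 : (4299 / 10000) ≤ l) (h2 : l ≤ (4529 / 10000)) :
    0 < PStar n s l k := by
  have hea : (15371 / 10000) ≤ Real.exp l :=
    le_trans (exp_lb8 (by norm_num) (by norm_num)) (Real.exp_le_exp.2 h1)
  have hx : (2533 / 1000) ≤ s * Real.sqrt ((n : ℝ) + 1) := far_x_ge1 (ea := (15371 / 10000)) h hs4 hea (by norm_num) (by norm_num) (by norm_num)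
  have hlog : -((351 / 500) : ℝ) ≤ Real.log (4957 / 10000) := log_ge8 (by norm_num) (by norm_num) (by norm_num)
  refine far_cell hn h hk0 hs4 (la := (4299 / 10000)) (lb := (4529 / 10000)) (eb := (15729 / 10000))
    (Tb := (3933 / 10000)) (xa := (2533 / 1000)) (va := 0) (vb := (2297 / 100000)) (ua := 0) (ub := (71 / 12500)) (Ea := 1) (Eb := (2023 / 2000))
    (pa := 0) (pb := (4331 / 10000)) (Q0 := (2583 / 2500)) (W0 := (2367 / 2500)) (D := (117 / 20000)) (S := (1601 / 500)) (C := (919 / 1000)) (Rm := 0)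
    (tb := (53 / 100000)) (e0l := (1189 / 1250)) (M := (5413 / 5000)) (G := (557 / 2000)) (by norm_num) h1 h2
    (exp_ub8 (by norm_num) (by norm_num) (by norm_num)) (by norm_num) (by norm_num) (by norm_num)
    (Or.inl rfl) (by norm_num) (by norm_num) (by norm_num) (by norm_num)
    (Real.one_le_exp (by norm_num)) (exp_ub8 (by norm_num) (by norm_num) (by norm_num))
    (by norm_num) (by norm_num) (by norm_num) (by norm_num) (by norm_num) (by norm_num)
    (by norm_num) (by unfold Wq; norm_num) (by norm_num) (by norm_num) (by norm_num) (by norm_num)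
    (by norm_num) (by norm_num) hx (by norm_num) (by norm_num) (by norm_num) (by norm_num)
    (by norm_num) (by norm_num) (by norm_num) ?_
  exact cell_fin (t := (4957 / 10000)) (a := (351 / 500)) (k₀ := (2479 / 2500)) (by norm_num) (by norm_num) (by norm_num)
    (by norm_num) (by norm_num) (by norm_num) (by norm_num) (by norm_num) hlog (by norm_num)
    (by norm_num)

lemma far_cell_2 {n : ℕ} (hn : 23 ≤ n) {s l k : ℝ} (h : FarC n s l k) (hk0 : k ≤ 0) (hs4 : s ≤ 1 / 4) (h1 : (4529 / 10000) ≤ l) (h2 : l ≤ (2377 / 5000)) :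
    0 < PStar n s l k := by
  have hea : (983 / 625) ≤ Real.exp l :=
    le_trans (exp_lb8 (by norm_num) (by norm_num)) (Real.exp_le_exp.2 h1)
  have hx : (329 / 125) ≤ s * Real.sqrt ((n : ℝ) + 1) := far_x_ge1 (ea := (983 / 625)) h hs4 hea (by norm_num) (by norm_num) (by norm_num)
  have hlog : -((142 / 125) : ℝ) ≤ Real.log (803 / 2500) := log_ge8 (by norm_num) (by norm_num) (by norm_num)
  refine far_cell hn h hk0 hs4 (la := (4529 / 10000)) (lb := (2377 / 5000)) (eb := (16087 / 10000))
    (Tb := (2011 / 5000)) (xa := (329 / 125)) (va := (229 / 10000)) (vb := (1137 / 25000)) (ua := (141 / 25000)) (ub := (56 / 3125)) (Ea := (10113 / 10000)) (Eb := (2073 / 2000))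
    (pa := (2161 / 5000)) (pb := (3163 / 5000)) (Q0 := (10341 / 10000)) (W0 := (473 / 500)) (D := (367 / 20000)) (S := (641 / 200)) (C := (183 / 200)) (Rm := 0)
    (tb := (63 / 100000)) (e0l := (2387 / 2500)) (M := (10819 / 10000)) (G := (3431 / 10000)) (by norm_num) h1 h2
    (exp_ub8 (by norm_num) (by norm_num) (by norm_num)) (by norm_num) (by norm_num) (by norm_num)
    (Or.inr (by norm_num)) (by norm_num) (by norm_num) (by norm_num) (by norm_num)
    (exp_lb8 (by norm_num) (by norm_num)) (exp_ub8 (by norm_num) (by norm_num) (by norm_num))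
    (by norm_num) (by norm_num) (by norm_num) (by norm_num) (by norm_num) (by norm_num)
    (by norm_num) (by unfold Wq; norm_num) (by norm_num) (by norm_num) (by norm_num) (by norm_num)
    (by norm_num) (by norm_num) hx (by norm_num) (by norm_num) (by norm_num) (by norm_num)
    (by norm_num) (by norm_num) (by norm_num) ?_
  exact cell_fin (t := (803 / 2500)) (a := (142 / 125)) (k₀ := (3213 / 5000)) (by norm_num) (by norm_num) (by norm_num)
    (by norm_num) (by norm_num) (by norm_num) (by norm_num) (by norm_num) hlog (by norm_num)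
    (by norm_num)

lemma far_cell_3 {n : ℕ} (hn : 23 ≤ n) {s l k : ℝ} (h : FarC n s l k) (hk0 : k ≤ 0) (hs4 : s ≤ 1 / 4) (h1 : (2377 / 5000) ≤ l) (h2 : l ≤ (2477 / 5000)) :
    0 < PStar n s l k := by
  have hea : (8043 / 5000) ≤ Real.exp l :=
    le_trans (exp_lb8 (by norm_num) (by norm_num)) (Real.exp_le_exp.2 h1)
  have hx : (2731 / 1000) ≤ s * Real.sqrt ((n : ℝ) + 1) := far_x_ge1 (ea := (8043 / 5000)) h hs4 hea (by norm_num) (by norm_num) (by norm_num)
  have hlog : -((182 / 125) : ℝ) ≤ Real.log (583 / 2500) := log_ge8 (by norm_num) (by norm_num) (by norm_num)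
  refine far_cell hn h hk0 hs4 (la := (2377 / 5000)) (lb := (2477 / 5000)) (eb := (4103 / 2500))
    (Tb := (513 / 1250)) (xa := (2731 / 1000)) (va := (227 / 5000)) (vb := (131 / 2000)) (ua := (893 / 50000)) (ub := (3167 / 100000)) (Ea := (10363 / 10000)) (Eb := (5327 / 5000))
    (pa := (79 / 125)) (pb := (1833 / 2500)) (Q0 := (10351 / 10000)) (W0 := (2363 / 2500)) (D := (329 / 10000)) (S := (401 / 125)) (C := (911 / 1000)) (Rm := 0)
    (tb := (3 / 4000)) (e0l := (9581 / 10000)) (M := (10813 / 10000)) (G := (831 / 2000)) (by norm_num) h1 h2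
    (exp_ub8 (by norm_num) (by norm_num) (by norm_num)) (by norm_num) (by norm_num) (by norm_num)
    (Or.inr (by norm_num)) (by norm_num) (by norm_num) (by norm_num) (by norm_num)
    (exp_lb8 (by norm_num) (by norm_num)) (exp_ub8 (by norm_num) (by norm_num) (by norm_num))
    (by norm_num) (by norm_num) (by norm_num) (by norm_num) (by norm_num) (by norm_num)
    (by norm_num) (by unfold Wq; norm_num) (by norm_num) (by norm_num) (by norm_num) (by norm_num)
    (by norm_num) (by norm_num) hx (by norm_num) (by norm_num) (by norm_num) (by norm_num)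
    (by norm_num) (by norm_num) (by norm_num) ?_
  exact cell_fin (t := (583 / 2500)) (a := (182 / 125)) (k₀ := (933 / 2000)) (by norm_num) (by norm_num) (by norm_num)
    (by norm_num) (by norm_num) (by norm_num) (by norm_num) (by norm_num) hlog (by norm_num)
    (by norm_num)

lemma far_cell_4 {n : ℕ} (hn : 23 ≤ n) {s l k : ℝ} (h : FarC n s l k) (hk0 : k ≤ 0) (hs4 : s ≤ 1 / 4) (h1 : (2477 / 5000) ≤ l) (h2 : l ≤ (1281 / 2500)) :
    0 < PStar n s l k := by
  have hea : (16411 / 10000) ≤ Real.exp l :=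
    le_trans (exp_lb8 (by norm_num) (by norm_num)) (Real.exp_le_exp.2 h1)
  have hx : (2821 / 1000) ≤ s * Real.sqrt ((n : ℝ) + 1) := far_x_ge1 (ea := (16411 / 10000)) h hs4 hea (by norm_num) (by norm_num) (by norm_num)
  have hlog : -((1693 / 1000) : ℝ) ≤ Real.log (23 / 125) := log_ge8 (by norm_num) (by norm_num) (by norm_num)
  refine far_cell hn h hk0 hs4 (la := (2477 / 5000)) (lb := (1281 / 2500)) (eb := (16693 / 10000))
    (Tb := (2087 / 5000)) (xa := (2821 / 1000)) (va := (327 / 5000)) (vb := (8251 / 100000)) (ua := (1579 / 50000)) (ub := (279 / 6250)) (Ea := (10651 / 10000)) (Eb := (5467 / 5000))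
    (pa := (7327 / 10000)) (pb := (3947 / 5000)) (Q0 := (10361 / 10000)) (W0 := (2361 / 2500)) (D := (47 / 1000)) (S := (3211 / 1000)) (C := (227 / 250)) (Rm := 0)
    (tb := (17 / 20000)) (e0l := (9607 / 10000)) (M := (10807 / 10000)) (G := (1221 / 2500)) (by norm_num) h1 h2
    (exp_ub8 (by norm_num) (by norm_num) (by norm_num)) (by norm_num) (by norm_num) (by norm_num)
    (Or.inr (by norm_num)) (by norm_num) (by norm_num) (by norm_num) (by norm_num)
    (exp_lb8 (by norm_num) (by norm_num)) (exp_ub8 (by norm_num) (by norm_num) (by norm_num))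
    (by norm_num) (by norm_num) (by norm_num) (by norm_num) (by norm_num) (by norm_num)
    (by norm_num) (by unfold Wq; norm_num) (by norm_num) (by norm_num) (by norm_num) (by norm_num)
    (by norm_num) (by norm_num) hx (by norm_num) (by norm_num) (by norm_num) (by norm_num)
    (by norm_num) (by norm_num) (by norm_num) ?_
  exact cell_fin (t := (23 / 125)) (a := (1693 / 1000)) (k₀ := (3681 / 10000)) (by norm_num) (by norm_num) (by norm_num)
    (by norm_num) (by norm_num) (by norm_num) (by norm_num) (by norm_num) hlog (by norm_num)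
    (by norm_num)

lemma far_cell_5 {n : ℕ} (hn : 23 ≤ n) {s l k : ℝ} (h : FarC n s l k) (hk0 : k ≤ 0) (hs4 : s ≤ 1 / 4) (h1 : (1281 / 2500) ≤ l) (h2 : l ≤ (2637 / 5000)) :
    0 < PStar n s l k := by
  have hea : (4173 / 2500) ≤ Real.exp l :=
    le_trans (exp_lb8 (by norm_num) (by norm_num)) (Real.exp_le_exp.2 h1)
  have hx : (2899 / 1000) ≤ s * Real.sqrt ((n : ℝ) + 1) := far_x_ge1 (ea := (4173 / 2500)) h hs4 hea (by norm_num) (by norm_num) (by norm_num)
  have hlog : -((1881 / 1000) : ℝ) ≤ Real.log (61 / 400) := log_ge8 (by norm_num) (by norm_num) (by norm_num)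
  refine far_cell hn h hk0 hs4 (la := (1281 / 2500)) (lb := (2637 / 5000)) (eb := (8473 / 5000))
    (Tb := (4237 / 10000)) (xa := (2899 / 1000)) (va := (103 / 1250)) (vb := (1219 / 12500)) (ua := (891 / 20000)) (ub := (2839 / 50000)) (Ea := (10931 / 10000)) (Eb := (11203 / 10000))
    (pa := (789 / 1000)) (pb := (4127 / 5000)) (Q0 := (1037 / 1000)) (W0 := (9437 / 10000)) (D := (303 / 5000)) (S := (1607 / 500)) (C := (181 / 200)) (Rm := 0)
    (tb := (3 / 3125)) (e0l := (2407 / 2500)) (M := (5401 / 5000)) (G := (1393 / 2500)) (by norm_num) h1 h2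
    (exp_ub8 (by norm_num) (by norm_num) (by norm_num)) (by norm_num) (by norm_num) (by norm_num)
    (Or.inr (by norm_num)) (by norm_num) (by norm_num) (by norm_num) (by norm_num)
    (exp_lb8 (by norm_num) (by norm_num)) (exp_ub8 (by norm_num) (by norm_num) (by norm_num))
    (by norm_num) (by norm_num) (by norm_num) (by norm_num) (by norm_num) (by norm_num)
    (by norm_num) (by unfold Wq; norm_num) (by norm_num) (by norm_num) (by norm_num) (by norm_num)
    (by norm_num) (by norm_num) hx (by norm_num) (by norm_num) (by norm_num) (by norm_num)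
    (by norm_num) (by norm_num) (by norm_num) ?_
  exact cell_fin (t := (61 / 400)) (a := (1881 / 1000)) (k₀ := (3051 / 10000)) (by norm_num) (by norm_num) (by norm_num)
    (by norm_num) (by norm_num) (by norm_num) (by norm_num) (by norm_num) hlog (by norm_num)
    (by norm_num)

lemma far_cell_6 {n : ℕ} (hn : 23 ≤ n) {s l k : ℝ} (h : FarC n s l k) (hk0 : k ≤ 0) (hs4 : s ≤ 1 / 4) (h1 : (2637 / 5000) ≤ l) (h2 : l ≤ (1351 / 2500)) :
    0 < PStar n s l k := by
  have hea : (3389 / 2000) ≤ Real.exp l :=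
    le_trans (exp_lb8 (by norm_num) (by norm_num)) (Real.exp_le_exp.2 h1)
  have hx : (2969 / 1000) ≤ s * Real.sqrt ((n : ℝ) + 1) := far_x_ge1 (ea := (3389 / 2000)) h hs4 hea (by norm_num) (by norm_num) (by norm_num)
  have hlog : -((254 / 125) : ℝ) ≤ Real.log (82 / 625) := log_ge8 (by norm_num) (by norm_num) (by norm_num)
  refine far_cell hn h hk0 hs4 (la := (2637 / 5000)) (lb := (1351 / 2500)) (eb := (17167 / 10000))
    (Tb := (1073 / 2500)) (xa := (2969 / 1000)) (va := (487 / 5000)) (vb := (5527 / 50000)) (ua := (5667 / 100000)) (ub := (6769 / 100000)) (Ea := (28 / 25)) (Eb := (229 / 200))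
    (pa := (8251 / 10000)) (pb := (8497 / 10000)) (Q0 := (10379 / 10000)) (W0 := (9429 / 10000)) (D := (731 / 10000)) (S := (3217 / 1000)) (C := (903 / 1000)) (Rm := 0)
    (tb := (53 / 50000)) (e0l := (1929 / 2000)) (M := (10799 / 10000)) (G := (1247 / 2000)) (by norm_num) h1 h2
    (exp_ub8 (by norm_num) (by norm_num) (by norm_num)) (by norm_num) (by norm_num) (by norm_num)
    (Or.inr (by norm_num)) (by norm_num) (by norm_num) (by norm_num) (by norm_num)
    (exp_lb8 (by norm_num) (by norm_num)) (exp_ub8 (by norm_num) (by norm_num) (by norm_num))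
    (by norm_num) (by norm_num) (by norm_num) (by norm_num) (by norm_num) (by norm_num)
    (by norm_num) (by unfold Wq; norm_num) (by norm_num) (by norm_num) (by norm_num) (by norm_num)
    (by norm_num) (by norm_num) hx (by norm_num) (by norm_num) (by norm_num) (by norm_num)
    (by norm_num) (by norm_num) (by norm_num) ?_
  exact cell_fin (t := (82 / 625)) (a := (254 / 125)) (k₀ := (21 / 80)) (by norm_num) (by norm_num) (by norm_num)
    (by norm_num) (by norm_num) (by norm_num) (by norm_num) (by norm_num) hlog (by norm_num)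
    (by norm_num)

lemma far_cell_7 {n : ℕ} (hn : 23 ≤ n) {s l k : ℝ} (h : FarC n s l k) (hk0 : k ≤ 0) (hs4 : s ≤ 1 / 4) (h1 : (1351 / 2500) ≤ l) (h2 : l ≤ (1381 / 2500)) :
    0 < PStar n s l k := by
  have hea : (8583 / 5000) ≤ Real.exp l :=
    le_trans (exp_lb8 (by norm_num) (by norm_num)) (Real.exp_le_exp.2 h1)
  have hx : (303 / 100) ≤ s * Real.sqrt ((n : ℝ) + 1) := far_x_ge1 (ea := (8583 / 5000)) h hs4 hea (by norm_num) (by norm_num) (by norm_num)
  have hlog : -((1081 / 500) : ℝ) ≤ Real.log (72 / 625) := log_ge8 (by norm_num) (by norm_num) (by norm_num)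
  refine far_cell hn h hk0 hs4 (la := (1351 / 2500)) (lb := (1381 / 2500)) (eb := (139 / 80))
    (Tb := (543 / 1250)) (xa := (303 / 100)) (va := (69 / 625)) (vb := (2451 / 20000)) (ua := (1689 / 25000)) (ub := (39 / 500)) (Ea := (5723 / 5000)) (Eb := (11689 / 10000))
    (pa := (4247 / 5000)) (pb := (8679 / 10000)) (Q0 := (10387 / 10000)) (W0 := (9423 / 10000)) (D := (213 / 2500)) (S := (3219 / 1000)) (C := (9 / 10)) (Rm := 0)
    (tb := (117 / 100000)) (e0l := (9659 / 10000)) (M := (2699 / 2500)) (G := (1713 / 2500)) (by norm_num) h1 h2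
    (exp_ub8 (by norm_num) (by norm_num) (by norm_num)) (by norm_num) (by norm_num) (by norm_num)
    (Or.inr (by norm_num)) (by norm_num) (by norm_num) (by norm_num) (by norm_num)
    (exp_lb8 (by norm_num) (by norm_num)) (exp_ub8 (by norm_num) (by norm_num) (by norm_num))
    (by norm_num) (by norm_num) (by norm_num) (by norm_num) (by norm_num) (by norm_num)
    (by norm_num) (by unfold Wq; norm_num) (by norm_num) (by norm_num) (by norm_num) (by norm_num)
    (by norm_num) (by norm_num) hx (by norm_num) (by norm_num) (by norm_num) (by norm_num)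
    (by norm_num) (by norm_num) (by norm_num) ?_
  exact cell_fin (t := (72 / 625)) (a := (1081 / 500)) (k₀ := (1153 / 5000)) (by norm_num) (by norm_num) (by norm_num)
    (by norm_num) (by norm_num) (by norm_num) (by norm_num) (by norm_num) hlog (by norm_num)
    (by norm_num)

lemma far_cell_8 {n : ℕ} (hn : 23 ≤ n) {s l k : ℝ} (h : FarC n s l k) (hk0 : k ≤ 0) (hs4 : s ≤ 1 / 4) (h1 : (1381 / 2500) ≤ l) (h2 : l ≤ (1411 / 2500)) :
    0 < PStar n s l k := by
  have hea : (8687 / 5000) ≤ Real.exp l :=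
    le_trans (exp_lb8 (by norm_num) (by norm_num)) (Real.exp_le_exp.2 h1)
  have hx : (386 / 125) ≤ s * Real.sqrt ((n : ℝ) + 1) := far_x_ge1 (ea := (8687 / 5000)) h hs4 hea (by norm_num) (by norm_num) (by norm_num)
  have hlog : -((2283 / 1000) : ℝ) ≤ Real.log (51 / 500) := log_ge8 (by norm_num) (by norm_num) (by norm_num)
  refine far_cell hn h hk0 hs4 (la := (1381 / 2500)) (lb := (1411 / 2500)) (eb := (1099 / 625))
    (Tb := (4397 / 10000)) (xa := (386 / 125)) (va := (153 / 1250)) (vb := (13457 / 100000)) (ua := (3893 / 50000)) (ub := (8853 / 100000)) (Ea := (2921 / 2500)) (Eb := (5969 / 5000))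
    (pa := (2169 / 2500)) (pb := (883 / 1000)) (Q0 := (2599 / 2500)) (W0 := (1883 / 2000)) (D := (979 / 10000)) (S := (1611 / 500)) (C := (449 / 500)) (Rm := 0)
    (tb := (129 / 100000)) (e0l := (1209 / 1250)) (M := (10793 / 10000)) (G := (933 / 1250)) (by norm_num) h1 h2
    (exp_ub8 (by norm_num) (by norm_num) (by norm_num)) (by norm_num) (by norm_num) (by norm_num)
    (Or.inr (by norm_num)) (by norm_num) (by norm_num) (by norm_num) (by norm_num)
    (exp_lb8 (by norm_num) (by norm_num)) (exp_ub8 (by norm_num) (by norm_num) (by norm_num))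
    (by norm_num) (by norm_num) (by norm_num) (by norm_num) (by norm_num) (by norm_num)
    (by norm_num) (by unfold Wq; norm_num) (by norm_num) (by norm_num) (by norm_num) (by norm_num)
    (by norm_num) (by norm_num) hx (by norm_num) (by norm_num) (by norm_num) (by norm_num)
    (by norm_num) (by norm_num) (by norm_num) ?_
  exact cell_fin (t := (51 / 500)) (a := (2283 / 1000)) (k₀ := (1021 / 5000)) (by norm_num) (by norm_num) (by norm_num)
    (by norm_num) (by norm_num) (by norm_num) (by norm_num) (by norm_num) hlog (by norm_num)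
    (by norm_num)

lemma far_cell_9 {n : ℕ} (hn : 23 ≤ n) {s l k : ℝ} (h : FarC n s l k) (hk0 : k ≤ 0) (hs4 : s ≤ 1 / 4) (h1 : (1411 / 2500) ≤ l) (h2 : l ≤ (5769 / 10000)) :
    0 < PStar n s l k := by
  have hea : (17583 / 10000) ≤ Real.exp l :=
    le_trans (exp_lb8 (by norm_num) (by norm_num)) (Real.exp_le_exp.2 h1)
  have hx : (1573 / 500) ≤ s * Real.sqrt ((n : ℝ) + 1) := far_x_ge1 (ea := (17583 / 10000)) h hs4 hea (by norm_num) (by norm_num) (by norm_num)
  have hlog : -((2403 / 1000) : ℝ) ≤ Real.log (181 / 2000) := log_ge8 (by norm_num) (by norm_num) (by norm_num)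
  refine far_cell hn h hk0 hs4 (la := (1411 / 2500)) (lb := (5769 / 10000)) (eb := (8903 / 5000))
    (Tb := (1113 / 2500)) (xa := (1573 / 500)) (va := (84 / 625)) (vb := (3677 / 25000)) (ua := (8837 / 100000)) (ub := (4983 / 50000)) (Ea := (11933 / 10000)) (Eb := (6103 / 5000))
    (pa := (8827 / 10000)) (pb := (8961 / 10000)) (Q0 := (2081 / 2000)) (W0 := (9407 / 10000)) (D := (279 / 2500)) (S := (129 / 40)) (C := (179 / 200)) (Rm := 0)
    (tb := (71 / 50000)) (e0l := (2421 / 2500)) (M := (1079 / 1000)) (G := (8111 / 10000)) (by norm_num) h1 h2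
    (exp_ub8 (by norm_num) (by norm_num) (by norm_num)) (by norm_num) (by norm_num) (by norm_num)
    (Or.inr (by norm_num)) (by norm_num) (by norm_num) (by norm_num) (by norm_num)
    (exp_lb8 (by norm_num) (by norm_num)) (exp_ub8 (by norm_num) (by norm_num) (by norm_num))
    (by norm_num) (by norm_num) (by norm_num) (by norm_num) (by norm_num) (by norm_num)
    (by norm_num) (by unfold Wq; norm_num) (by norm_num) (by norm_num) (by norm_num) (by norm_num)
    (by norm_num) (by norm_num) hx (by norm_num) (by norm_num) (by norm_num) (by norm_num)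
    (by norm_num) (by norm_num) (by norm_num) ?_
  exact cell_fin (t := (181 / 2000)) (a := (2403 / 1000)) (k₀ := (453 / 2500)) (by norm_num) (by norm_num) (by norm_num)
    (by norm_num) (by norm_num) (by norm_num) (by norm_num) (by norm_num) hlog (by norm_num)
    (by norm_num)

lemma far_cell_10 {n : ℕ} (hn : 23 ≤ n) {s l k : ℝ} (h : FarC n s l k) (hk0 : k ≤ 0) (hs4 : s ≤ 1 / 4) (h1 : (5769 / 10000) ≤ l) (h2 : l ≤ (369 / 625)) :
    0 < PStar n s l k := by
  have hea : (3561 / 2000) ≤ Real.exp l :=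
    le_trans (exp_lb8 (by norm_num) (by norm_num)) (Real.exp_le_exp.2 h1)
  have hx : (3207 / 1000) ≤ s * Real.sqrt ((n : ℝ) + 1) := far_x_ge1 (ea := (3561 / 2000)) h hs4 hea (by norm_num) (by norm_num) (by norm_num)
  have hlog : -((631 / 250) : ℝ) ≤ Real.log (401 / 5000) := log_ge8 (by norm_num) (by norm_num) (by norm_num)
  refine far_cell hn h hk0 hs4 (la := (5769 / 10000)) (lb := (369 / 625)) (eb := (1128 / 625))
    (Tb := (4513 / 10000)) (xa := (3207 / 1000)) (va := (1469 / 10000)) (vb := (803 / 5000)) (ua := (9949 / 100000)) (ub := (2237 / 20000)) (Ea := (12201 / 10000)) (Eb := (12507 / 10000))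
    (pa := (4479 / 5000)) (pb := (9079 / 10000)) (Q0 := (651 / 625)) (W0 := (4699 / 5000)) (D := (127 / 1000)) (S := (807 / 250)) (C := (223 / 250)) (Rm := 0)
    (tb := (159 / 100000)) (e0l := (606 / 625)) (M := (2697 / 2500)) (G := (8827 / 10000)) (by norm_num) h1 h2
    (exp_ub8 (by norm_num) (by norm_num) (by norm_num)) (by norm_num) (by norm_num) (by norm_num)
    (Or.inr (by norm_num)) (by norm_num) (by norm_num) (by norm_num) (by norm_num)
    (exp_lb8 (by norm_num) (by norm_num)) (exp_ub8 (by norm_num) (by norm_num) (by norm_num))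
    (by norm_num) (by norm_num) (by norm_num) (by norm_num) (by norm_num) (by norm_num)
    (by norm_num) (by unfold Wq; norm_num) (by norm_num) (by norm_num) (by norm_num) (by norm_num)
    (by norm_num) (by norm_num) hx (by norm_num) (by norm_num) (by norm_num) (by norm_num)
    (by norm_num) (by norm_num) (by norm_num) ?_
  exact cell_fin (t := (401 / 5000)) (a := (631 / 250)) (k₀ := (321 / 2000)) (by norm_num) (by norm_num) (by norm_num)
    (by norm_num) (by norm_num) (by norm_num) (by norm_num) (by norm_num) hlog (by norm_num)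
    (by norm_num)

lemma far_cell_11 {n : ℕ} (hn : 23 ≤ n) {s l k : ℝ} (h : FarC n s l k) (hk0 : k ≤ 0) (hs4 : s ≤ 1 / 4) (h1 : (369 / 625) ≤ l) (h2 : l ≤ (6069 / 10000)) :
    0 < PStar n s l k := by
  have hea : (18047 / 10000) ≤ Real.exp l :=
    le_trans (exp_lb8 (by norm_num) (by norm_num)) (Real.exp_le_exp.2 h1)
  have hx : (1637 / 500) ≤ s * Real.sqrt ((n : ℝ) + 1) := far_x_ge1 (ea := (18047 / 10000)) h hs4 hea (by norm_num) (by norm_num) (by norm_num)
  have hlog : -((333 / 125) : ℝ) ≤ Real.log (697 / 10000) := log_ge8 (by norm_num) (by norm_num) (by norm_num)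
  refine far_cell hn h hk0 hs4 (la := (369 / 625)) (lb := (6069 / 10000)) (eb := (4587 / 2500))
    (Tb := (1147 / 2500)) (xa := (1637 / 500)) (va := (401 / 2500)) (vb := (17713 / 100000)) (ua := (5583 / 50000)) (ub := (1587 / 12500)) (Ea := (6251 / 5000)) (Eb := (12891 / 10000))
    (pa := (2269 / 2500)) (pb := (4599 / 5000)) (Q0 := (10429 / 10000)) (W0 := (4693 / 5000)) (D := (1467 / 10000)) (S := (3233 / 1000)) (C := (111 / 125)) (Rm := 0)
    (tb := (181 / 100000)) (e0l := (2427 / 2500)) (M := (2157 / 2000)) (G := (9649 / 10000)) (by norm_num) h1 h2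
    (exp_ub8 (by norm_num) (by norm_num) (by norm_num)) (by norm_num) (by norm_num) (by norm_num)
    (Or.inr (by norm_num)) (by norm_num) (by norm_num) (by norm_num) (by norm_num)
    (exp_lb8 (by norm_num) (by norm_num)) (exp_ub8 (by norm_num) (by norm_num) (by norm_num))
    (by norm_num) (by norm_num) (by norm_num) (by norm_num) (by norm_num) (by norm_num)
    (by norm_num) (by unfold Wq; norm_num) (by norm_num) (by norm_num) (by norm_num) (by norm_num)
    (by norm_num) (by norm_num) hx (by norm_num) (by norm_num) (by norm_num) (by norm_num)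
    (by norm_num) (by norm_num) (by norm_num) ?_
  exact cell_fin (t := (697 / 10000)) (a := (333 / 125)) (k₀ := (349 / 2500)) (by norm_num) (by norm_num) (by norm_num)
    (by norm_num) (by norm_num) (by norm_num) (by norm_num) (by norm_num) hlog (by norm_num)
    (by norm_num)

lemma far_cell_12 {n : ℕ} (hn : 23 ≤ n) {s l k : ℝ} (h : FarC n s l k) (hk0 : k ≤ 0) (hs4 : s ≤ 1 / 4) (h1 : (6069 / 10000) ≤ l) (h2 : l ≤ (6289 / 10000)) :
    0 < PStar n s l k := by
  have hea : (18347 / 10000) ≤ Real.exp l :=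
    le_trans (exp_lb8 (by norm_num) (by norm_num)) (Real.exp_le_exp.2 h1)
  have hx : (3357 / 1000) ≤ s * Real.sqrt ((n : ℝ) + 1) := far_x_ge1 (ea := (18347 / 10000)) h hs4 hea (by norm_num) (by norm_num) (by norm_num)
  have hlog : -((709 / 250) : ℝ) ≤ Real.log (587 / 10000) := log_ge8 (by norm_num) (by norm_num) (by norm_num)
  refine far_cell hn h hk0 hs4 (la := (6069 / 10000)) (lb := (6289 / 10000)) (eb := (4689 / 2500))
    (Tb := (469 / 1000)) (xa := (3357 / 1000)) (va := (1769 / 10000)) (vb := (19917 / 100000)) (ua := (6337 / 50000)) (ub := (7369 / 50000)) (Ea := (2577 / 2000)) (Eb := (13429 / 10000))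
    (pa := (2299 / 2500)) (pb := (2331 / 2500)) (Q0 := (10449 / 10000)) (W0 := (1171 / 1250)) (D := (349 / 2000)) (S := (3239 / 1000)) (C := (883 / 1000)) (Rm := 0)
    (tb := (27 / 12500)) (e0l := (4861 / 5000)) (M := (5391 / 5000)) (G := (134 / 125)) (by norm_num) h1 h2
    (exp_ub8 (by norm_num) (by norm_num) (by norm_num)) (by norm_num) (by norm_num) (by norm_num)
    (Or.inr (by norm_num)) (by norm_num) (by norm_num) (by norm_num) (by norm_num)
    (exp_lb8 (by norm_num) (by norm_num)) (exp_ub8 (by norm_num) (by norm_num) (by norm_num))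
    (by norm_num) (by norm_num) (by norm_num) (by norm_num) (by norm_num) (by norm_num)
    (by norm_num) (by unfold Wq; norm_num) (by norm_num) (by norm_num) (by norm_num) (by norm_num)
    (by norm_num) (by norm_num) hx (by norm_num) (by norm_num) (by norm_num) (by norm_num)
    (by norm_num) (by norm_num) (by norm_num) ?_
  exact cell_fin (t := (587 / 10000)) (a := (709 / 250)) (k₀ := (47 / 400)) (by norm_num) (by norm_num) (by norm_num)
    (by norm_num) (by norm_num) (by norm_num) (by norm_num) (by norm_num) hlog (by norm_num)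
    (by norm_num)

lemma far_cell_13 {n : ℕ} (hn : 23 ≤ n) {s l k : ℝ} (h : FarC n s l k) (hk0 : k ≤ 0) (hs4 : s ≤ 1 / 4) (h1 : (6289 / 10000) ≤ l) (h2 : l ≤ (6619 / 10000)) :
    0 < PStar n s l k := by
  have hea : (3751 / 2000) ≤ Real.exp l :=
    le_trans (exp_lb8 (by norm_num) (by norm_num)) (Real.exp_le_exp.2 h1)
  have hx : (3469 / 1000) ≤ s * Real.sqrt ((n : ℝ) + 1) := far_x_ge1 (ea := (3751 / 2000)) h hs4 hea (by norm_num) (by norm_num) (by norm_num)
  have hlog : -((3071 / 1000) : ℝ) ≤ Real.log (29 / 625) := log_ge8 (by norm_num) (by norm_num) (by norm_num)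
  refine far_cell hn h hk0 hs4 (la := (6289 / 10000)) (lb := (6619 / 10000)) (eb := (3877 / 2000))
    (Tb := (4847 / 10000)) (xa := (3469 / 1000)) (va := (1989 / 10000)) (vb := (11613 / 50000)) (ua := (1839 / 12500)) (ub := (2231 / 12500)) (Ea := (13421 / 10000)) (Eb := (1429 / 1000))
    (pa := (4661 / 5000)) (pb := (1183 / 1250)) (Q0 := (10479 / 10000)) (W0 := (9341 / 10000)) (D := (2193 / 10000)) (S := (406 / 125)) (C := (437 / 500)) (Rm := 0)
    (tb := (281 / 100000)) (e0l := (487 / 500)) (M := (10779 / 10000)) (G := (12267 / 10000)) (by norm_num) h1 h2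
    (exp_ub8 (by norm_num) (by norm_num) (by norm_num)) (by norm_num) (by norm_num) (by norm_num)
    (Or.inr (by norm_num)) (by norm_num) (by norm_num) (by norm_num) (by norm_num)
    (exp_lb8 (by norm_num) (by norm_num)) (exp_ub8 (by norm_num) (by norm_num) (by norm_num))
    (by norm_num) (by norm_num) (by norm_num) (by norm_num) (by norm_num) (by norm_num)
    (by norm_num) (by unfold Wq; norm_num) (by norm_num) (by norm_num) (by norm_num) (by norm_num)
    (by norm_num) (by norm_num) hx (by norm_num) (by norm_num) (by norm_num) (by norm_num)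
    (by norm_num) (by norm_num) (by norm_num) ?_
  exact cell_fin (t := (29 / 625)) (a := (3071 / 1000)) (k₀ := (929 / 10000)) (by norm_num) (by norm_num) (by norm_num)
    (by norm_num) (by norm_num) (by norm_num) (by norm_num) (by norm_num) hlog (by norm_num)
    (by norm_num)

lemma far_cell_14 {n : ℕ} (hn : 23 ≤ n) {s l k : ℝ} (h : FarC n s l k) (hk0 : k ≤ 0) (hs4 : s ≤ 1 / 4) (h1 : (6619 / 10000) ≤ l) (h2 : l ≤ (7009 / 10000)) :
    0 < PStar n s l k := by
  have hea : (2423 / 1250) ≤ Real.exp l :=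
    le_trans (exp_lb8 (by norm_num) (by norm_num)) (Real.exp_le_exp.2 h1)
  have hx : (7 / 2) ≤ s * Real.sqrt ((n : ℝ) + 1) := far_x_ge2 (ea := (2423 / 1250)) h hs4 hea (by norm_num) (Or.inl (by norm_num))
  have hlog : -((3319 / 1000) : ℝ) ≤ Real.log (181 / 5000) := log_ge8 (by norm_num) (by norm_num) (by norm_num)
  refine far_cell hn h hk0 hs4 (la := (6619 / 10000)) (lb := (7009 / 10000)) (eb := (5039 / 2500))
    (Tb := (63 / 125)) (xa := (7 / 2)) (va := (2319 / 10000)) (vb := (13569 / 50000)) (ua := (17813 / 100000)) (ub := (10787 / 50000)) (Ea := (14279 / 10000)) (Eb := (3849 / 2500))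
    (pa := (4731 / 5000)) (pb := (479 / 500)) (Q0 := (10519 / 10000)) (W0 := (9303 / 10000)) (D := (1387 / 5000)) (S := (3261 / 1000)) (C := (863 / 1000)) (Rm := 0)
    (tb := (12 / 3125)) (e0l := (609 / 625)) (M := (539 / 500)) (G := (1373 / 1000)) (by norm_num) h1 h2
    (exp_ub8 (by norm_num) (by norm_num) (by norm_num)) (by norm_num) (by norm_num) (by norm_num)
    (Or.inr (by norm_num)) (by norm_num) (by norm_num) (by norm_num) (by norm_num)
    (exp_lb8 (by norm_num) (by norm_num)) (exp_ub8 (by norm_num) (by norm_num) (by norm_num))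
    (by norm_num) (by norm_num) (by norm_num) (by norm_num) (by norm_num) (by norm_num)
    (by norm_num) (by unfold Wq; norm_num) (by norm_num) (by norm_num) (by norm_num) (by norm_num)
    (by norm_num) (by norm_num) hx (by norm_num) (by norm_num) (by norm_num) (by norm_num)
    (by norm_num) (by norm_num) (by norm_num) ?_
  exact cell_fin (t := (181 / 5000)) (a := (3319 / 1000)) (k₀ := (29 / 400)) (by norm_num) (by norm_num) (by norm_num)
    (by norm_num) (by norm_num) (by norm_num) (by norm_num) (by norm_num) hlog (by norm_num)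
    (by norm_num)

lemma far_cell_15 {n : ℕ} (hn : 23 ≤ n) {s l k : ℝ} (h : FarC n s l k) (hk0 : k ≤ 0) (hs4 : s ≤ 1 / 4) (h1 : (7009 / 10000) ≤ l) (h2 : l ≤ (3737 / 5000)) :
    0 < PStar n s l k := by
  have hea : (4031 / 2000) ≤ Real.exp l :=
    le_trans (exp_lb8 (by norm_num) (by norm_num)) (Real.exp_le_exp.2 h1)
  have hx : (7 / 2) ≤ s * Real.sqrt ((n : ℝ) + 1) := far_x_ge2 (ea := (4031 / 2000)) h hs4 hea (by norm_num) (Or.inl (by norm_num))
  have hlog : -((3583 / 1000) : ℝ) ≤ Real.log (139 / 5000) := log_ge8 (by norm_num) (by norm_num) (by norm_num)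
  refine far_cell hn h hk0 hs4 (la := (7009 / 10000)) (lb := (3737 / 5000)) (eb := (5279 / 2500))
    (Tb := (66 / 125)) (xa := (7 / 2)) (va := (2709 / 10000)) (vb := (3181 / 10000)) (ua := (21527 / 100000)) (ub := (26073 / 100000)) (Ea := (769 / 500)) (Eb := (3369 / 2000))
    (pa := (4789 / 5000)) (pb := (387 / 400)) (Q0 := (2643 / 2500)) (W0 := (37 / 40)) (D := (709 / 2000)) (S := (3277 / 1000)) (C := (849 / 1000)) (Rm := 0)
    (tb := (139 / 25000)) (e0l := (609 / 625)) (M := (5391 / 5000)) (G := (1519 / 1000)) (by norm_num) h1 h2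
    (exp_ub8 (by norm_num) (by norm_num) (by norm_num)) (by norm_num) (by norm_num) (by norm_num)
    (Or.inr (by norm_num)) (by norm_num) (by norm_num) (by norm_num) (by norm_num)
    (exp_lb8 (by norm_num) (by norm_num)) (exp_ub8 (by norm_num) (by norm_num) (by norm_num))
    (by norm_num) (by norm_num) (by norm_num) (by norm_num) (by norm_num) (by norm_num)
    (by norm_num) (by unfold Wq; norm_num) (by norm_num) (by norm_num) (by norm_num) (by norm_num)
    (by norm_num) (by norm_num) hx (by norm_num) (by norm_num) (by norm_num) (by norm_num)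
    (by norm_num) (by norm_num) (by norm_num) ?_
  exact cell_fin (t := (139 / 5000)) (a := (3583 / 1000)) (k₀ := (279 / 5000)) (by norm_num) (by norm_num) (by norm_num)
    (by norm_num) (by norm_num) (by norm_num) (by norm_num) (by norm_num) hlog (by norm_num)
    (by norm_num)

lemma far_cell_16 {n : ℕ} (hn : 23 ≤ n) {s l k : ℝ} (h : FarC n s l k) (hk0 : k ≤ 0) (hs4 : s ≤ 1 / 4) (h1 : (3737 / 5000) ≤ l) (h2 : l ≤ (509 / 625)) :
    0 < PStar n s l k := by
  have hea : (4223 / 2000) ≤ Real.exp l :=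
    le_trans (exp_lb8 (by norm_num) (by norm_num)) (Real.exp_le_exp.2 h1)
  have hx : (3519 / 1000) ≤ s * Real.sqrt ((n : ℝ) + 1) := far_x_ge2 (ea := (4223 / 2000)) h hs4 hea (by norm_num) (Or.inr (by norm_num))
  have hlog : -((3913 / 1000) : ℝ) ≤ Real.log (1 / 50) := log_ge8 (by norm_num) (by norm_num) (by norm_num)
  refine far_cell hn h hk0 hs4 (la := (3737 / 5000)) (lb := (509 / 625)) (eb := (22579 / 10000))
    (Tb := (1129 / 2000)) (xa := (3519 / 1000)) (va := (1587 / 5000)) (vb := (38559 / 100000)) (ua := (6501 / 25000)) (ub := (6527 / 20000)) (Ea := (16821 / 10000)) (Eb := (2401 / 1250))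
    (pa := (9673 / 10000)) (pb := (2441 / 2500)) (Q0 := (10661 / 10000)) (W0 := (1831 / 2000)) (D := (1207 / 2500)) (S := (661 / 200)) (C := (33 / 40)) (Rm := 0)
    (tb := (949 / 100000)) (e0l := (9747 / 10000)) (M := (2157 / 2000)) (G := (17 / 10)) (by norm_num) h1 h2
    (exp_ub8 (by norm_num) (by norm_num) (by norm_num)) (by norm_num) (by norm_num) (by norm_num)
    (Or.inr (by norm_num)) (by norm_num) (by norm_num) (by norm_num) (by norm_num)
    (exp_lb8 (by norm_num) (by norm_num)) (exp_ub8 (by norm_num) (by norm_num) (by norm_num))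
    (by norm_num) (by norm_num) (by norm_num) (by norm_num) (by norm_num) (by norm_num)
    (by norm_num) (by unfold Wq; norm_num) (by norm_num) (by norm_num) (by norm_num) (by norm_num)
    (by norm_num) (by norm_num) hx (by norm_num) (by norm_num) (by norm_num) (by norm_num)
    (by norm_num) (by norm_num) (by norm_num) ?_
  exact cell_fin (t := (1 / 50)) (a := (3913 / 1000)) (k₀ := (401 / 10000)) (by norm_num) (by norm_num) (by norm_num)
    (by norm_num) (by norm_num) (by norm_num) (by norm_num) (by norm_num) hlog (by norm_num)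
    (by norm_num)

lemma far_cell_17 {n : ℕ} (hn : 23 ≤ n) {s l k : ℝ} (h : FarC n s l k) (hk0 : k ≤ 0) (hs4 : s ≤ 1 / 4) (h1 : (509 / 625) ≤ l) (h2 : l ≤ (9 / 10)) :
    0 < PStar n s l k := by
  have hea : (11289 / 5000) ≤ Real.exp l :=
    le_trans (exp_lb8 (by norm_num) (by norm_num)) (Real.exp_le_exp.2 h1)
  have hx : (1881 / 500) ≤ s * Real.sqrt ((n : ℝ) + 1) := far_x_ge2 (ea := (11289 / 5000)) h hs4 hea (by norm_num) (Or.inr (by norm_num))
  have hlog : -((1071 / 250) : ℝ) ≤ Real.log (69 / 5000) := log_ge8 (by norm_num) (by norm_num) (by norm_num)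
  refine far_cell hn h hk0 hs4 (la := (509 / 625)) (lb := (9 / 10)) (eb := (24597 / 10000))
    (Tb := (123 / 200)) (xa := (1881 / 500)) (va := (961 / 2500)) (vb := (11809 / 25000)) (ua := (16259 / 50000)) (ub := (2057 / 5000)) (Ea := (9581 / 5000)) (Eb := (22769 / 10000))
    (pa := (4881 / 5000)) (pb := (4917 / 5000)) (Q0 := (5399 / 5000)) (W0 := (4497 / 5000)) (D := (853 / 1250)) (S := (3349 / 1000)) (C := (197 / 250)) (Rm := 0)
    (tb := (1883 / 100000)) (e0l := (9779 / 10000)) (M := (10779 / 10000)) (G := (22577 / 10000)) (by norm_num) h1 h2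
    (exp_ub8 (by norm_num) (by norm_num) (by norm_num)) (by norm_num) (by norm_num) (by norm_num)
    (Or.inr (by norm_num)) (by norm_num) (by norm_num) (by norm_num) (by norm_num)
    (exp_lb8 (by norm_num) (by norm_num)) (exp_ub8 (by norm_num) (by norm_num) (by norm_num))
    (by norm_num) (by norm_num) (by norm_num) (by norm_num) (by norm_num) (by norm_num)
    (by norm_num) (by unfold Wq; norm_num) (by norm_num) (by norm_num) (by norm_num) (by norm_num)
    (by norm_num) (by norm_num) hx (by norm_num) (by norm_num) (by norm_num) (by norm_num)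
    (by norm_num) (by norm_num) (by norm_num) ?_
  exact cell_fin (t := (69 / 5000)) (a := (1071 / 250)) (k₀ := (139 / 5000)) (by norm_num) (by norm_num) (by norm_num)
    (by norm_num) (by norm_num) (by norm_num) (by norm_num) (by norm_num) hlog (by norm_num)
    (by norm_num)

/-- **F2, `s ≤ 1/4`, `l ≤ 9/10`** -/
theorem PStar_pos_small {n : ℕ} (hn : 23 ≤ n) {s l k : ℝ} (h : FarC n s l k) (hk0 : k ≤ 0) (hs4 : s ≤ 1 / 4)
    (hl : l ≤ (9 / 10)) : 0 < PStar n s l k := by
  have hl0 : (4299 / 10000) ≤ l := by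
    by_contra hlt
    push Not at hlt
    have h1 : Real.exp l ≤ 8 / 5 :=
      (Real.exp_le_exp.2 hlt.le).trans (exp_ub8 (by norm_num) (by norm_num) (by norm_num))
    have hs0 := h.hs.1
    have h2 : s * Real.exp l ≤ 1 / 4 * (8 / 5) :=
      mul_le_mul hs4 h1 (Real.exp_pos _).le (by norm_num)
    have h3 : (s * Real.exp l) ^ 8 ≤ (1 / 4 * (8 / 5)) ^ 8 :=
      pow_le_pow_left₀ (mul_pos hs0 (Real.exp_pos _)).le h2 8
    have h4 := h.hcap
    unfold capF at h4
    norm_num at h3
    linarith
  rcases le_total l (4529 / 10000) with h1 | h1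
  · exact far_cell_1 hn h hk0 hs4 hl0 h1
  rcases le_total l (2377 / 5000) with h2 | h2
  · exact far_cell_2 hn h hk0 hs4 h1 h2
  rcases le_total l (2477 / 5000) with h3 | h3
  · exact far_cell_3 hn h hk0 hs4 h2 h3
  rcases le_total l (1281 / 2500) with h4 | h4
  · exact far_cell_4 hn h hk0 hs4 h3 h4
  rcases le_total l (2637 / 5000) with h5 | h5
  · exact far_cell_5 hn h hk0 hs4 h4 h5
  rcases le_total l (1351 / 2500) with h6 | h6
  · exact far_cell_6 hn h hk0 hs4 h5 h6
  rcases le_total l (1381 / 2500) with h7 | h7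
  · exact far_cell_7 hn h hk0 hs4 h6 h7
  rcases le_total l (1411 / 2500) with h8 | h8
  · exact far_cell_8 hn h hk0 hs4 h7 h8
  rcases le_total l (5769 / 10000) with h9 | h9
  · exact far_cell_9 hn h hk0 hs4 h8 h9
  rcases le_total l (369 / 625) with h10 | h10
  · exact far_cell_10 hn h hk0 hs4 h9 h10
  rcases le_total l (6069 / 10000) with h11 | h11
  · exact far_cell_11 hn h hk0 hs4 h10 h11
  rcases le_total l (6289 / 10000) with h12 | h12
  · exact far_cell_12 hn h hk0 hs4 h11 h12
  rcases le_total l (6619 / 10000) with h13 | h13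
  · exact far_cell_13 hn h hk0 hs4 h12 h13
  rcases le_total l (7009 / 10000) with h14 | h14
  · exact far_cell_14 hn h hk0 hs4 h13 h14
  rcases le_total l (3737 / 5000) with h15 | h15
  · exact far_cell_15 hn h hk0 hs4 h14 h15
  rcases le_total l (509 / 625) with h16 | h16
  · exact far_cell_16 hn h hk0 hs4 h15 h16
  exact far_cell_17 hn h hk0 hs4 h16 hl

/-- the same for `PF`, all `0 ≤ μ ≤ muF n` -/
theorem F2_small {n : ℕ} (hn : 23 ≤ n) {μ s l k : ℝ} (hμ0 : 0 ≤ μ) (hμ : μ ≤ muF n)
    (h : FarC n s l k) (hk0 : k ≤ 0) (hs4 : s ≤ 1 / 4) (hl : l ≤ (9 / 10)) : 0 < PF n μ s l k :=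
  (PStar_pos_small hn h hk0 hs4 hl).trans_le (PF_ge_star (by omega) h.hs h.hk0 hμ0 hμ)

end Crest.Agent.R230.WR
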