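import Crest.Agent.R230.FarE1
import Crest.Agent.R230.LamNeg

/-!
# Row 230, block F4 (helper91): a-priori bounds in the far region, uniform in the dimension

`N = n + 1 ≥ 24`, `x = s √N`, `F₀(s) ≥ 9/10`:
`e^l ≤ 3/5 + (73/200 + 1/(2N)) x` for `2 ≤ x ≤ 7/2`, `e^l ≤ x` for `x ≥ 7/2`, `e^l ≤ 133/100` for `x ≤ 2`.

Method: cylinder bound at `F₀ = 9/10` (helper640), `τ/(1 - G)` nonincreasing (helper768), `G` concave,
and upper bounds of `1 - G` at five nodes.
-/

set_option autoImplicit false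

open MeasureTheory Set Filter Topology
open scoped Pointwise ENNReal Real

namespace Crest.Agent.R230

open WR

namespace F4

/-! ### constants -/

lemma log_one_add_le {y : ℝ} (hy : 0 ≤ y) : Real.log (1 + y) ≤ y * (6 + y) / (6 + 4 * y) := by
  have hm : MonotoneOn (fun y : ℝ => y * (6 + y) / (6 + 4 * y) - Real.log (1 + y)) (Ici 0) := by
    refine monotoneOn_of_deriv_nonneg (convex_Ici 0) ?_ ?_ ?_
    · refine ContinuousOn.sub ?_ ?_
      · refine ContinuousOn.div (by fun_prop) (by fun_prop) ?_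
        intro x hx
        have : (0 : ℝ) ≤ x := hx
        positivity
      · refine ContinuousOn.log (by fun_prop) ?_
        intro x hx
        have : (0 : ℝ) ≤ x := hx
        positivity
    · intro x hx
      rw [interior_Ici] at hx
      have hx0 : (0 : ℝ) < x := hx
      have h1 : HasDerivAt (fun y : ℝ => y * (6 + y)) (1 * (6 + x) + x * 1) x :=
        (hasDerivAt_id x).mul ((hasDerivAt_id x).const_add 6)
      have h2 : HasDerivAt (fun y : ℝ => 6 + 4 * y) (4 * 1) x := ((hasDerivAt_id x).const_mul 4).const_add 6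
      have h3 : HasDerivAt (fun y : ℝ => Real.log (1 + y)) (1 / (1 + x)) x :=
        ((hasDerivAt_id x).const_add 1).log (by simp only [id]; positivity)
      exact ((h1.fun_div h2 (by positivity)).fun_sub h3).differentiableAt.differentiableWithinAt
    · intro x hx
      rw [interior_Ici] at hx
      have hx0 : (0 : ℝ) < x := hx
      have h1 : HasDerivAt (fun y : ℝ => y * (6 + y)) (1 * (6 + x) + x * 1) x :=
        (hasDerivAt_id x).mul ((hasDerivAt_id x).const_add 6)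
      have h2 : HasDerivAt (fun y : ℝ => 6 + 4 * y) (4 * 1) x := ((hasDerivAt_id x).const_mul 4).const_add 6
      have h3 : HasDerivAt (fun y : ℝ => Real.log (1 + y)) (1 / (1 + x)) x :=
        ((hasDerivAt_id x).const_add 1).log (by simp only [id]; positivity)
      rw [((h1.fun_div h2 (by positivity)).fun_sub h3).deriv]
      have e : ((1 * (6 + x) + x * 1) * (6 + 4 * x) - x * (6 + x) * (4 * 1)) / (6 + 4 * x) ^ 2 -
          1 / (1 + x) = 4 * x ^ 3 / ((6 + 4 * x) ^ 2 * (1 + x)) := by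
        field_simp
        ring
      rw [e]
      positivity
  have h := hm (mem_Ici.2 (le_refl (0 : ℝ))) (mem_Ici.2 hy) hy
  simp only [zero_mul, zero_div, add_zero, Real.log_one, sub_zero] at h
  linarith

lemma R_le' {n : ℕ} (hn : 5 ≤ n) : (w (n - 1) / w n) ^ n ≤ Real.exp (1 / 2 - 49 / (100 * ((n : ℝ) + 1))) := by
  obtain ⟨k, rfl⟩ : ∃ k, n = k + 2 := ⟨n - 2, by omega⟩
  have e : k + 2 - 1 = k + 1 := rfl
  rw [e]
  have hk : (3 : ℝ) ≤ k := by exact_mod_cast (by omega : 3 ≤ k)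
  have h := LamB.w_ratio_ge k
  have hw1 := w_pos' (k + 1)
  have hw2 := w_pos' (k + 2)
  set y : ℝ := 2 / (4 * ((k : ℝ) + 2) + 3) with hy
  have hy0 : 0 ≤ y := by positivity
  have h1 : w (k + 1) / w (k + 2) ≤ 1 + y := by
    rw [div_le_iff₀ hw2, hy]
    have h2 : 0 < 4 * ((k : ℝ) + 2) + 3 := by positivity
    have h3 : (1 + 2 / (4 * ((k : ℝ) + 2) + 3)) = (4 * ((k : ℝ) + 2) + 5) / (4 * ((k : ℝ) + 2) + 3) := by
      field_simp
      ring
    rw [h3, div_mul_eq_mul_div, le_div_iff₀ h2]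
    linarith
  calc (w (k + 1) / w (k + 2)) ^ (k + 2) ≤ (1 + y) ^ (k + 2) := pow_le_pow_left₀ (by positivity) h1 _
    _ = Real.exp (Real.log (1 + y)) ^ (k + 2) := by rw [Real.exp_log (by positivity)]
    _ ≤ Real.exp (y * (6 + y) / (6 + 4 * y)) ^ (k + 2) :=
        pow_le_pow_left₀ (Real.exp_pos _).le (Real.exp_le_exp.2 (log_one_add_le hy0)) _
    _ = Real.exp (((k + 2 : ℕ) : ℝ) * (y * (6 + y) / (6 + 4 * y))) := by rw [← Real.exp_nat_mul]
    _ ≤ _ := by
        apply Real.exp_le_exp.2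
        push_cast
        have e2 : ((k : ℝ) + 2) * (y * (6 + y) / (6 + 4 * y)) =
            2 * ((k : ℝ) + 2) * (12 * (k + 2) + 10) / ((4 * ((k : ℝ) + 2) + 3) * (12 * (k + 2) + 13)) := by
          rw [hy]
          have : (0 : ℝ) < 4 * ((k : ℝ) + 2) + 3 := by positivity
          field_simp
          ring
        rw [e2]
        rw [div_le_iff₀ (by positivity)]
        have e3 : (1 / 2 - 49 / (100 * ((k : ℝ) + 2 + 1))) = (50 * ((k : ℝ) + 3) - 49) / (100 * (k + 3)) := by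
          field_simp
          ring
        rw [e3, div_mul_eq_mul_div, le_div_iff₀ (by positivity)]
        nlinarith [mul_nonneg (sub_nonneg.2 hk) (sub_nonneg.2 hk)]

lemma hB0_sq {n : ℕ} (hn : 1 ≤ n) : hB n 0 ^ 2 * ((n : ℝ) + 3 / 2) ≤ π / 2 := by
  obtain ⟨k, rfl⟩ : ∃ k, n = k + 1 := ⟨n - 1, by omega⟩
  have h := LamB.w_ratio_ge k
  have h2 := w_mul_w_succ (k + 1)
  have e : k + 1 + 1 = k + 2 := rfl
  rw [e] at h2
  have hw1 := w_pos' (k + 1)
  have hw2 := w_pos' (k + 2)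
  have h3 := w_eq_two_hB (k + 1)
  have h4 : hB (k + 1) 0 = w (k + 1) / 2 := by linarith
  rw [h4]
  push_cast at h2 ⊢
  have hk : (0 : ℝ) ≤ k := Nat.cast_nonneg k
  have h5 : w (k + 1) * (((k : ℝ) + 1 + 3 / 2) * w (k + 1)) ≤ w (k + 1) * (((k : ℝ) + 1 + 2) * w (k + 2)) := by
    refine mul_le_mul_of_nonneg_left ?_ hw1.le
    nlinarith
  nlinarith

/-! ### concavity of `G` -/

lemma haz0 (n : ℕ) {s : ℝ} (hs : s ∈ Icc (0 : ℝ) 1) :
    ((n : ℝ) + 2) * s * hB n s ≤ Real.sqrt (1 - s ^ 2) ^ (n + 2) := by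
  have hanti : AntitoneOn (fun x => Real.sqrt (1 - x ^ 2) ^ (n + 2) - ((n : ℝ) + 2) * s * hB n x) (Icc s 1) := by
    have hder : ∀ x ∈ Ioo s 1, HasDerivAt
        (fun x => Real.sqrt (1 - x ^ 2) ^ (n + 2) - ((n : ℝ) + 2) * s * hB n x)
        (-(((n : ℝ) + 2) * x * Real.sqrt (1 - x ^ 2) ^ n) -
          ((n : ℝ) + 2) * s * (-Real.sqrt (1 - x ^ 2) ^ n)) x := by
      intro x hx
      exact (hasDerivAt_cs_pow n ⟨by linarith [hx.1, hs.1], hx.2⟩).fun_sub ((hasDerivAt_hB n x).const_mul _)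
    refine antitoneOn_of_deriv_nonpos (convex_Icc _ _) ?_ ?_ ?_
    · refine ContinuousOn.sub (Continuous.continuousOn (by fun_prop)) ?_
      exact ContinuousOn.mul continuousOn_const
        (fun x _ => (hasDerivAt_hB n x).continuousAt.continuousWithinAt)
    · intro x hx
      rw [interior_Icc] at hx
      exact (hder x hx).differentiableAt.differentiableWithinAt
    · intro x hx
      rw [interior_Icc] at hx
      rw [(hder x hx).deriv]
      have h1 : 0 ≤ Real.sqrt (1 - x ^ 2) ^ n := by positivity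
      have h2 : 0 ≤ ((n : ℝ) + 2) * (x - s) * Real.sqrt (1 - x ^ 2) ^ n :=
        mul_nonneg (mul_nonneg (by positivity) (by linarith [hx.1])) h1
      nlinarith
  have h := hanti (left_mem_Icc.2 hs.2) (right_mem_Icc.2 hs.2) hs.2
  simp only [hB_one, mul_zero, sub_zero] at h
  have h0 : (0 : ℝ) ≤ Real.sqrt (1 - 1 ^ 2) ^ (n + 2) := by positivity
  linarith

lemma cs_div_Gt_mono (n : ℕ) : MonotoneOn (fun s => Real.sqrt (1 - s ^ 2) / Gt n s) (Ico 0 1) := by
  have hder : ∀ s ∈ Ioo (0 : ℝ) 1, HasDerivAt (fun s => Real.sqrt (1 - s ^ 2) / Gt n s)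
      ((-s / Real.sqrt (1 - s ^ 2) * Gt n s - Real.sqrt (1 - s ^ 2) *
        -(Real.sqrt (1 - s ^ 2) ^ n / ((n + 1) * hB n 0 * Gt n s ^ n))) / Gt n s ^ 2) s := by
    intro s hs
    exact (hasDerivAt_cs ⟨by linarith [hs.1], hs.2⟩).fun_div (hasDerivAt_Gt n ⟨hs.1.le, hs.2⟩)
      (Gt_pos n ⟨hs.1.le, hs.2⟩).ne'
  refine monotoneOn_of_deriv_nonneg (convex_Ico _ _) ?_ ?_ ?_
  · refine ContinuousOn.div (Continuous.continuousOn (by fun_prop))
      ((continuousOn_Gt n).mono Ico_subset_Icc_self) ?_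
    intro x hx
    exact (Gt_pos n hx).ne'
  · intro x hx
    rw [interior_Ico] at hx
    exact (hder x hx).differentiableAt.differentiableWithinAt
  · intro x hx
    rw [interior_Ico] at hx
    rw [(hder x hx).deriv]
    have hG := Gt_pos n (s := x) ⟨hx.1.le, hx.2⟩
    have hc := sqrt_pos_of_mem (s := x) ⟨by linarith [hx.1], hx.2⟩
    have hH := hB_zero_pos n
    have hp := Gt_pow n (s := x) ⟨hx.1.le, hx.2.le⟩
    have h0 := haz0 n (s := x) ⟨hx.1.le, hx.2.le⟩
    have hhB := hB_nonneg n (s := x) ⟨hx.1.le, hx.2.le⟩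
    refine div_nonneg ?_ (by positivity)
    set c := Real.sqrt (1 - x ^ 2) with hcd
    set G := Gt n x with hGd
    have e : -x / c * G - c * -(c ^ n / ((n + 1) * hB n 0 * G ^ n)) =
        (c ^ (n + 2) - ((n : ℝ) + 1) * x * (G ^ (n + 1) * hB n 0)) / (c * ((n + 1) * hB n 0 * G ^ n)) := by
      field_simp
      ring
    rw [e, hp]
    refine div_nonneg ?_ (by positivity)
    have : ((n : ℝ) + 1) * x * hB n x ≤ ((n : ℝ) + 2) * x * hB n x := by
      have := mul_nonneg hx.1.le hhB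
      nlinarith
    linarith

lemma Gt_concave (n : ℕ) : ConcaveOn ℝ (Icc 0 1) (Gt n) := by
  refine AntitoneOn.concaveOn_of_deriv (convex_Icc _ _) (continuousOn_Gt n) ?_ ?_
  · intro x hx
    rw [interior_Icc] at hx
    exact (hasDerivAt_Gt n ⟨hx.1.le, hx.2⟩).differentiableAt.differentiableWithinAt
  · intro x hx y hy hxy
    rw [interior_Icc] at hx hy
    rw [(hasDerivAt_Gt n ⟨hx.1.le, hx.2⟩).deriv, (hasDerivAt_Gt n ⟨hy.1.le, hy.2⟩).deriv]
    apply neg_le_neg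
    have hm := cs_div_Gt_mono n (show x ∈ Ico (0 : ℝ) 1 from ⟨hx.1.le, hx.2⟩)
      (show y ∈ Ico (0 : ℝ) 1 from ⟨hy.1.le, hy.2⟩) hxy
    simp only at hm
    have hGx := Gt_pos n (s := x) ⟨hx.1.le, hx.2⟩
    have hGy := Gt_pos n (s := y) ⟨hy.1.le, hy.2⟩
    have hH := hB_zero_pos n
    have e : ∀ z, 0 < Gt n z → Real.sqrt (1 - z ^ 2) ^ n / ((n + 1) * hB n 0 * Gt n z ^ n) =
        (Real.sqrt (1 - z ^ 2) / Gt n z) ^ n / ((n + 1) * hB n 0) := by
      intro z hz
      rw [div_pow, div_div]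
      congr 1
      ring
    rw [e x hGx, e y hGy]
    refine div_le_div_of_nonneg_right (pow_le_pow_left₀ (by positivity) hm n) (by positivity)

/-! ### the constant -/

/-- `q = 10^{-1/N}` -/
noncomputable def qq (n : ℕ) : ℝ := (1 / 10 : ℝ) ^ ((1 : ℝ) / (n + 1))

lemma qq_lt_one (n : ℕ) : qq n < 1 := Real.rpow_lt_one (by norm_num) (by norm_num) (by positivity)

/-- the constant `C` with `τ ≤ C (1 - G)` beyond `F₀ = 9/10` -/
noncomputable def AA (n : ℕ) : ℝ := 9 / 10 * (w (n - 1) / w n) ^ n * hB n 0 / (1 - qq n)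

lemma AA_pos (n : ℕ) : 0 < AA n := by
  unfold AA
  have h1 := w_pos' (n - 1)
  have h2 := w_pos' n
  have h3 := hB_zero_pos n
  have h4 := qq_lt_one n
  have h5 : 0 < 1 - qq n := by linarith
  positivity

theorem tau_le_AA {n : ℕ} (hn : 5 ≤ n) {r : ℝ → ℝ} (hr : Prof r) (hN : NleB n r) {s : ℝ}
    (hs : s ∈ Ioo (0 : ℝ) 1) (hF : 9 / 10 * hB n 0 ≤ lB n s) : tau n r s ≤ AA n * (1 - Gt n s) := by
  have hH := hB_zero_pos n
  obtain ⟨s₁, hs₁, hs₁e⟩ : ∃ s₁ ∈ Icc (0 : ℝ) s, lB n s₁ = 9 / 10 * hB n 0 := by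
    have hc : ContinuousOn (lB n) (Icc 0 s) := fun x _ => (hasDerivAt_lB n x).continuousAt.continuousWithinAt
    have h := intermediate_value_Icc hs.1.le hc
    obtain ⟨x, hx, hxe⟩ := h (show 9 / 10 * hB n 0 ∈ Icc (lB n 0) (lB n s) by
      rw [lB_zero]; constructor <;> linarith)
    exact ⟨x, hx, hxe⟩
  have hs₁0 : 0 < s₁ := by
    rcases hs₁.1.eq_or_lt with h | h
    · rw [← h, lB_zero] at hs₁e; linarith
    · exact h
  have h1 := tau_div_phi_anti hr n hs₁0 hs₁.2 hs.2.le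
  have h2 := tau_le_of_NleB90 hr (by omega) hN ⟨hs₁0, hs₁.2.trans_lt hs.2⟩ hs₁e.le
  have h3 : Gt n s₁ = qq n := by
    unfold Gt qq
    congr 1
    rw [div_eq_iff hH.ne']
    have := lB_add_hB n s₁
    linarith
  have h4 : 0 < 1 - qq n := by have := qq_lt_one n; linarith
  have h5 : 0 ≤ 1 - Gt n s := by have := Gt_lt_one n (s := s) ⟨hs.1, hs.2.le⟩; linarith
  rw [h3] at h1
  rw [hs₁e] at h2
  unfold AA
  rw [div_mul_eq_mul_div, le_div_iff₀ h4]
  calc tau n r s * (1 - qq n) ≤ tau n r s₁ * (1 - Gt n s) := h1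
    _ ≤ (w (n - 1) / w n) ^ n * (9 / 10 * hB n 0) * (1 - Gt n s) := mul_le_mul_of_nonneg_right h2 h5
    _ = _ := by ring

lemma log_ten_ge : (23024 / 10000 : ℝ) ≤ Real.log 10 := by
  have h2 := Real.log_two_gt_d9
  have h3 : Real.log 1000 = 3 * Real.log 10 := by
    rw [show (1000 : ℝ) = 10 ^ (3 : ℕ) by norm_num, Real.log_pow]; push_cast; ring
  have h4 : Real.log 1024 = 10 * Real.log 2 := by
    rw [show (1024 : ℝ) = 2 ^ (10 : ℕ) by norm_num, Real.log_pow]; push_cast; ring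
  have h5 : Real.log (1000 / 1024) = Real.log 1000 - Real.log 1024 := Real.log_div (by norm_num) (by norm_num)
  have h6 := Real.one_sub_inv_le_log_of_pos (show (0 : ℝ) < 1000 / 1024 by norm_num)
  rw [h5, h3, h4] at h6
  norm_num at h6 h2 ⊢
  linarith

lemma one_sub_qq_ge (n : ℕ) {t : ℝ} (ht : t * ((n : ℝ) + 1) = 1) :
    23024 / 10000 * t * (1 - 11512 / 10000 * t) ≤ 1 - qq n := by
  have hn : (0 : ℝ) < (n : ℝ) + 1 := by positivity
  have ht0 : 0 < t := by
    by_contra h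
    push Not at h
    nlinarith
  have h1 : qq n = Real.exp (-(Real.log 10 * t)) := by
    unfold qq
    rw [Real.rpow_def_of_pos (by norm_num), show (1 / 10 : ℝ) = 10⁻¹ by norm_num, Real.log_inv]
    congr 1
    have : (1 : ℝ) / (n + 1) = t := by rw [div_eq_iff hn.ne']; linarith
    rw [this]; ring
  have h2 := log_ten_ge
  have h3 : qq n ≤ Real.exp (-(23024 / 10000 * t)) := by
    rw [h1]
    apply Real.exp_le_exp.2
    nlinarith
  have h4 := LamB.exp_neg_le (x := 23024 / 10000 * t) (by positivity)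
  nlinarith

/-- `C ≤ σ · 1.85975 / ((1+.73t) L t (1 - L t/2))` -/
lemma AA_le {n : ℕ} (hn : 5 ≤ n) {σ t : ℝ} (hσ : 0 < σ) (hσt : t = σ ^ 2) (ht : t * ((n : ℝ) + 1) = 1) :
    AA n * ((1 + 73 / 100 * t) * (23024 / 10000 * t * (1 - 11512 / 10000 * t))) ≤ 185975 / 100000 * σ := by
  have hn5 : (5 : ℝ) ≤ n := by exact_mod_cast hn
  have ht0 : 0 < t := by rw [hσt]; positivity
  have ht1 : t ≤ 1 / 6 := by nlinarith
  have hH := hB_zero_pos n
  have h0 := one_sub_qq_ge n ht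
  have hq : 0 < 1 - qq n := by have := qq_lt_one n; linarith
  -- the root of the second moment
  have h1 : hB n 0 * (1 + 24 / 100 * t) ≤ 125332 / 100000 * σ := by
    have h2 := hB0_sq (n := n) (by omega)
    have h3 : hB n 0 ^ 2 * (1 + t / 2) ≤ π / 2 * t := by
      have : hB n 0 ^ 2 * (1 + t / 2) = t * (hB n 0 ^ 2 * ((n : ℝ) + 3 / 2)) := by
        have : 1 + t / 2 = t * ((n : ℝ) + 3 / 2) := by linarith
        rw [this]; ring
      rw [this]
      nlinarith
    have h4 := Real.pi_lt_d6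
    refine le_of_sq_le_sq ?_ (by positivity)
    calc (hB n 0 * (1 + 24 / 100 * t)) ^ 2 = hB n 0 ^ 2 * (1 + 24 / 100 * t) ^ 2 := by ring
      _ ≤ hB n 0 ^ 2 * (1 + t / 2) := by
          refine mul_le_mul_of_nonneg_left ?_ (sq_nonneg _)
          nlinarith
      _ ≤ π / 2 * t := h3
      _ ≤ (125332 / 100000) ^ 2 * t := by
          refine mul_le_mul_of_nonneg_right ?_ ht0.le
          norm_num at h4 ⊢
          linarith
      _ = (125332 / 100000 * σ) ^ 2 := by rw [hσt]; ring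
  -- the cylinder constant
  have h2 : (w (n - 1) / w n) ^ n * (1 + 49 / 100 * t) ≤ 164873 / 100000 := by
    have h3 := R_le' hn
    have h4 : 49 / (100 * ((n : ℝ) + 1)) = 49 / 100 * t := by
      have : t = 1 / ((n : ℝ) + 1) := by rw [eq_div_iff (by positivity)]; linarith
      rw [this]; field_simp
    rw [h4, sub_eq_add_neg, Real.exp_add] at h3
    have h5 : 1 + 49 / 100 * t ≤ Real.exp (49 / 100 * t) := by
      have := Real.add_one_le_exp (49 / 100 * t); linarith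
    have h6 : Real.exp (1 / 2) ≤ 164873 / 100000 := by
      have h7 : Real.exp (1 / 2) ^ 2 = Real.exp 1 := by rw [← Real.exp_nat_mul]; norm_num
      have h8 := Real.exp_one_lt_d9
      nlinarith [Real.exp_pos (1 / 2)]
    have hw1 := w_pos' (n - 1)
    have hw2 := w_pos' n
    calc (w (n - 1) / w n) ^ n * (1 + 49 / 100 * t) ≤
        Real.exp (1 / 2) * Real.exp (-(49 / 100 * t)) * Real.exp (49 / 100 * t) :=
          mul_le_mul h3 h5 (by positivity) (by positivity)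
      _ = Real.exp (1 / 2) := by rw [mul_assoc, ← Real.exp_add]; simp
      _ ≤ _ := h6
  have h3 : AA n * (1 - qq n) = 9 / 10 * (w (n - 1) / w n) ^ n * hB n 0 := by
    unfold AA
    rw [div_mul_cancel₀ _ hq.ne']
  have hR : 0 < (w (n - 1) / w n) ^ n := by
    have hw1 := w_pos' (n - 1)
    have hw2 := w_pos' n
    positivity
  have hA := AA_pos n
  calc AA n * ((1 + 73 / 100 * t) * (23024 / 10000 * t * (1 - 11512 / 10000 * t))) ≤
      AA n * ((1 + 73 / 100 * t) * (1 - qq n)) := by gcongr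
    _ = (1 + 73 / 100 * t) * (9 / 10 * (w (n - 1) / w n) ^ n * hB n 0) := by rw [← h3]; ring
    _ ≤ ((1 + 49 / 100 * t) * (1 + 24 / 100 * t)) * (9 / 10 * (w (n - 1) / w n) ^ n * hB n 0) := by
        refine mul_le_mul_of_nonneg_right ?_ (by positivity)
        nlinarith
    _ = 9 / 10 * (((w (n - 1) / w n) ^ n * (1 + 49 / 100 * t)) * (hB n 0 * (1 + 24 / 100 * t))) := by ring
    _ ≤ 9 / 10 * (164873 / 100000 * (125332 / 100000 * σ)) := by gcongr
    _ ≤ 185975 / 100000 * σ := by nlinarith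

/-! ### nodes -/

lemma neg_log_le {z : ℝ} (hz0 : 0 ≤ z) (hz1 : z ≤ 38 / 100) :
    -(z + z ^ 2 / 2 + z ^ 3 / 3 + z ^ 4 / 4 + 10 * z ^ 5 / 31) ≤ Real.log (1 - z) := by
  have hder : ∀ x ∈ Ioo (0 : ℝ) (38 / 100), HasDerivAt
      (fun z : ℝ => z + z ^ 2 / 2 + z ^ 3 / 3 + z ^ 4 / 4 + 10 * z ^ 5 / 31 + Real.log (1 - z))
      (1 + x + x ^ 2 + x ^ 3 + 50 / 31 * x ^ 4 - 1 / (1 - x)) x := by
    intro x hx
    have h0 := hasDerivAt_id x
    have h2 := (h0.fun_pow 2).div_const 2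
    have h3 := (h0.fun_pow 3).div_const 3
    have h4 := (h0.fun_pow 4).div_const 4
    have h5 := ((h0.fun_pow 5).const_mul 10).div_const 31
    have h6 := (h0.const_sub 1).log (by simp only [id]; linarith [hx.2])
    refine (((((h0.add h2).add h3).add h4).add h5).add h6).congr_deriv ?_
    simp
    ring
  have hm : MonotoneOn (fun z : ℝ => z + z ^ 2 / 2 + z ^ 3 / 3 + z ^ 4 / 4 + 10 * z ^ 5 / 31 + Real.log (1 - z))
      (Icc 0 (38 / 100)) := by
    refine monotoneOn_of_deriv_nonneg (convex_Icc _ _) ?_ ?_ ?_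
    · refine ContinuousOn.add (by fun_prop) (ContinuousOn.log (by fun_prop) ?_)
      intro x hx
      have := hx.2
      linarith
    · intro x hx
      rw [interior_Icc] at hx
      exact (hder x hx).differentiableAt.differentiableWithinAt
    · intro x hx
      rw [interior_Icc] at hx
      rw [(hder x hx).deriv]
      have h1 : 0 < 1 - x := by linarith [hx.2]
      have e : 1 + x + x ^ 2 + x ^ 3 + 50 / 31 * x ^ 4 - 1 / (1 - x) =
          x ^ 4 * (50 / 31 * (1 - x) - 1) / (1 - x) := by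
        field_simp
        ring
      rw [e]
      have : 0 ≤ 50 / 31 * (1 - x) - 1 := by linarith [hx.2]
      positivity
  have h := hm ⟨le_refl _, by norm_num⟩ ⟨hz0, hz1⟩ hz0
  simp at h
  linarith

/-- upper bound of `-log` of the tail mass ratio -/
noncomputable def YY (t x L : ℝ) : ℝ :=
  L - 24 / 100 * t + (1 + t) * x ^ 2 / 2 *
    (1 + x ^ 2 * t / 2 + (x ^ 2 * t) ^ 2 / 3 + (x ^ 2 * t) ^ 3 / 4 + 10 * (x ^ 2 * t) ^ 4 / 31)

lemma exp_YY_le {n : ℕ} (hn : 23 ≤ n) {σ t x L : ℝ} (hσ : 0 < σ) (hσt : t = σ ^ 2)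
    (ht : t * ((n : ℝ) + 1) = 1) (hx : 0 < x) (hz : x ^ 2 * t ≤ 38 / 100)
    (hL : 1570797 / 1000000 * (1 + x ^ 2) ^ 2 ≤ x ^ 2 * Real.exp (2 * L)) :
    Real.exp (-(YY t x L * t)) ≤ Gt n (x * σ) := by
  have hn5 : (23 : ℝ) ≤ n := by exact_mod_cast hn
  have ht0 : 0 < t := by rw [hσt]; positivity
  have ht1 : t ≤ 1 / 24 := by nlinarith
  have hH := hB_zero_pos n
  have hs2 : (x * σ) ^ 2 = x ^ 2 * t := by rw [hσt]; ring
  have hs0 : 0 < x * σ := by positivity
  have hs1 : x * σ < 1 := by nlinarith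
  have hsI : x * σ ∈ Icc (0 : ℝ) 1 := ⟨hs0.le, hs1.le⟩
  have hG0 := Gt_nonneg n hsI
  have hz0 : 0 ≤ x ^ 2 * t := by positivity
  -- compare (n+1)-st powers
  refine le_of_pow_le_pow_left₀ (n := n + 1) (by omega) hG0 ?_
  have hp := Gt_pow n hsI
  have e1 : Real.exp (-(YY t x L * t)) ^ (n + 1) = Real.exp (-YY t x L) := by
    rw [← Real.exp_nat_mul]
    congr 1
    push_cast
    have : ((n : ℝ) + 1) * -(YY t x L * t) = -(YY t x L) * (t * (n + 1)) := by ring
    rw [this, ht, mul_one]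
  rw [e1]
  have h1 : Real.exp (-YY t x L) * hB n 0 ≤ hB n (x * σ) := by
    have hz1 := haz1 n hsI
    rw [hs2] at hz1
    have e2 : (1 + ((n : ℝ) + 1) * (x ^ 2 * t)) = 1 + x ^ 2 := by
      have : ((n : ℝ) + 1) * (x ^ 2 * t) = x ^ 2 * (t * (n + 1)) := by ring
      rw [this, ht, mul_one]
    rw [e2] at hz1
    have hD : 0 < 1 + x ^ 2 := by positivity
    refine le_of_mul_le_mul_left (le_trans ?_ hz1) hD
    have hc : 0 < 1 - x ^ 2 * t := by linarith
    refine le_of_sq_le_sq ?_ (by positivity)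
    have e3 : (x * σ * Real.sqrt (1 - x ^ 2 * t) ^ (n + 2)) ^ 2 = x ^ 2 * t * (1 - x ^ 2 * t) ^ (n + 2) := by
      rw [mul_pow, ← pow_mul, mul_comm (n + 2) 2, pow_mul, Real.sq_sqrt hc.le, hs2]
    have e4 : ((1 + x ^ 2) * (Real.exp (-YY t x L) * hB n 0)) ^ 2 =
        (1 + x ^ 2) ^ 2 * Real.exp (-(2 * YY t x L)) * hB n 0 ^ 2 := by
      have : Real.exp (-(2 * YY t x L)) = Real.exp (-YY t x L) ^ 2 := by
        rw [← Real.exp_nat_mul]; congr 1; push_cast; ring
      rw [this]; ring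
    rw [e3, e4]
    -- hB^2 (1+t/2) ≤ (π/2) t
    have h2 := hB0_sq (n := n) (by omega)
    have h3 : hB n 0 ^ 2 * (1 + t / 2) ≤ 1570797 / 1000000 * t := by
      have e5 : hB n 0 ^ 2 * (1 + t / 2) = t * (hB n 0 ^ 2 * ((n : ℝ) + 3 / 2)) := by
        have : 1 + t / 2 = t * ((n : ℝ) + 3 / 2) := by linarith
        rw [this]; ring
      rw [e5]
      have h4 := Real.pi_lt_d6
      norm_num at h4
      nlinarith
    -- lower bound of (1 - z)^{n+2}
    have h4 : Real.exp (-(((n : ℝ) + 2) * (x ^ 2 * t + (x ^ 2 * t) ^ 2 / 2 + (x ^ 2 * t) ^ 3 / 3 +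
        (x ^ 2 * t) ^ 4 / 4 + 10 * (x ^ 2 * t) ^ 5 / 31))) ≤ (1 - x ^ 2 * t) ^ (n + 2) := by
      have h5 := neg_log_le hz0 hz
      have h6 : (1 - x ^ 2 * t) ^ (n + 2) = Real.exp (((n : ℝ) + 2) * Real.log (1 - x ^ 2 * t)) := by
        rw [show ((n : ℝ) + 2) = ((n + 2 : ℕ) : ℝ) by push_cast; ring, Real.exp_nat_mul, Real.exp_log hc]
      rw [h6]
      apply Real.exp_le_exp.2
      nlinarith
    have h5 : Real.exp (48 / 100 * t) ≤ 1 + t / 2 := by
      have h6 := Real.exp_bound_div_one_sub_of_interval (x := 48 / 100 * t) (by positivity) (by linarith)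
      refine h6.trans ?_
      rw [div_le_iff₀ (by linarith)]
      nlinarith
    have e6 : Real.exp (-(2 * YY t x L)) = Real.exp (-(2 * L)) * Real.exp (48 / 100 * t) *
        Real.exp (-(((n : ℝ) + 2) * (x ^ 2 * t + (x ^ 2 * t) ^ 2 / 2 + (x ^ 2 * t) ^ 3 / 3 +
        (x ^ 2 * t) ^ 4 / 4 + 10 * (x ^ 2 * t) ^ 5 / 31))) := by
      rw [← Real.exp_add, ← Real.exp_add]
      congr 1
      unfold YY
      have e7 : ((n : ℝ) + 2) * (x ^ 2 * t + (x ^ 2 * t) ^ 2 / 2 + (x ^ 2 * t) ^ 3 / 3 +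
        (x ^ 2 * t) ^ 4 / 4 + 10 * (x ^ 2 * t) ^ 5 / 31) = (t * (n + 1) + t) * x ^ 2 *
        (1 + x ^ 2 * t / 2 + (x ^ 2 * t) ^ 2 / 3 + (x ^ 2 * t) ^ 3 / 4 + 10 * (x ^ 2 * t) ^ 4 / 31) := by
        ring
      rw [e7, ht]
      ring
    rw [e6]
    have e8 : Real.exp (-(2 * L)) * Real.exp (2 * L) = 1 := by rw [← Real.exp_add]; simp
    have hE := Real.exp_pos (-(2 * L))
    set P := Real.exp (-(((n : ℝ) + 2) * (x ^ 2 * t + (x ^ 2 * t) ^ 2 / 2 + (x ^ 2 * t) ^ 3 / 3 +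
        (x ^ 2 * t) ^ 4 / 4 + 10 * (x ^ 2 * t) ^ 5 / 31))) with hP
    have hP0 : 0 < P := Real.exp_pos _
    have h7 : 1570797 / 1000000 * (1 + x ^ 2) ^ 2 * Real.exp (-(2 * L)) ≤ x ^ 2 := by
      have := mul_le_mul_of_nonneg_left hL hE.le
      calc 1570797 / 1000000 * (1 + x ^ 2) ^ 2 * Real.exp (-(2 * L)) =
          Real.exp (-(2 * L)) * (1570797 / 1000000 * (1 + x ^ 2) ^ 2) := by ring
        _ ≤ Real.exp (-(2 * L)) * (x ^ 2 * Real.exp (2 * L)) := this
        _ = x ^ 2 * (Real.exp (-(2 * L)) * Real.exp (2 * L)) := by ring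
        _ = x ^ 2 := by rw [e8, mul_one]
    calc (1 + x ^ 2) ^ 2 * (Real.exp (-(2 * L)) * Real.exp (48 / 100 * t) * P) * hB n 0 ^ 2 =
        ((1 + x ^ 2) ^ 2 * Real.exp (-(2 * L)) * P) * (hB n 0 ^ 2 * Real.exp (48 / 100 * t)) := by ring
      _ ≤ ((1 + x ^ 2) ^ 2 * Real.exp (-(2 * L)) * P) * (hB n 0 ^ 2 * (1 + t / 2)) := by gcongr
      _ ≤ ((1 + x ^ 2) ^ 2 * Real.exp (-(2 * L)) * P) * (1570797 / 1000000 * t) := by gcongr
      _ = (1570797 / 1000000 * (1 + x ^ 2) ^ 2 * Real.exp (-(2 * L))) * (t * P) := by ring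
      _ ≤ x ^ 2 * (t * P) := by gcongr
      _ = x ^ 2 * t * P := by ring
      _ ≤ x ^ 2 * t * (1 - x ^ 2 * t) ^ (n + 2) := by gcongr
  refine le_of_mul_le_mul_right ?_ hH
  rw [hp]
  exact h1

lemma one_sub_exp_neg_le {z : ℝ} (hz : 0 ≤ z) : (1 - Real.exp (-z)) * (1 + z / 2) ≤ z := by
  have hm : MonotoneOn (fun z : ℝ => z - (1 - Real.exp (-z)) * (1 + z / 2)) (Ici 0) := by
    have hder : ∀ x ∈ Ioi (0 : ℝ), HasDerivAt (fun z : ℝ => z - (1 - Real.exp (-z)) * (1 + z / 2))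
        (1 - (Real.exp (-x) * (1 + x / 2) + (1 - Real.exp (-x)) * (1 / 2))) x := by
      intro x _
      have h1 : HasDerivAt (fun z : ℝ => Real.exp (-z)) (Real.exp (-x) * (-1)) x :=
        ((hasDerivAt_id x).neg).exp
      have h2 : HasDerivAt (fun z : ℝ => 1 + z / 2) (1 / 2) x := ((hasDerivAt_id x).div_const 2).const_add 1
      refine ((hasDerivAt_id x).fun_sub ((h1.const_sub 1).fun_mul h2)).congr_deriv ?_
      ring
    refine monotoneOn_of_deriv_nonneg (convex_Ici 0) (by fun_prop) ?_ ?_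
    · intro x hx
      rw [interior_Ici] at hx
      exact (hder x hx).differentiableAt.differentiableWithinAt
    · intro x hx
      rw [interior_Ici] at hx
      rw [(hder x hx).deriv]
      have hx0 : (0 : ℝ) < x := hx
      have h1 : (1 + x) * Real.exp (-x) ≤ 1 := by
        have h2 := Real.add_one_le_exp x
        have h3 := Real.exp_pos (-x)
        have h4 : Real.exp x * Real.exp (-x) = 1 := by rw [← Real.exp_add]; simp
        nlinarith
      nlinarith
  have h := hm (mem_Ici.2 (le_refl (0 : ℝ))) (mem_Ici.2 hz) hz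
  simp at h
  linarith

/-- **node bound** -/
lemma node {n : ℕ} (hn : 23 ≤ n) {σ t x L W y : ℝ} (hσ : 0 < σ) (hσt : t = σ ^ 2)
    (ht : t * ((n : ℝ) + 1) = 1) (hx : 0 < x) (hz : x ^ 2 * t ≤ 38 / 100)
    (hL : 1570797 / 1000000 * (1 + x ^ 2) ^ 2 ≤ x ^ 2 * Real.exp (2 * L))
    (hy0 : 0 ≤ y) (hy : YY t x L ≤ y)
    (hW : 185975 / 100000 * y ≤
      W * (1 + 73 / 100 * t) * (23024 / 10000 * (1 - 11512 / 10000 * t)) * (1 + y * t / 2)) :
    AA n * (1 - Gt n (x * σ)) ≤ σ * W := by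
  have hn5 : (23 : ℝ) ≤ n := by exact_mod_cast hn
  have ht0 : 0 < t := by rw [hσt]; positivity
  have ht1 : t ≤ 1 / 24 := by nlinarith
  have hA := AA_pos n
  have h1 := exp_YY_le hn hσ hσt ht hx hz hL
  have h2 : Real.exp (-(y * t)) ≤ Gt n (x * σ) := by
    refine le_trans (Real.exp_le_exp.2 ?_) h1
    nlinarith
  have h3 := one_sub_exp_neg_le (z := y * t) (by positivity)
  have h4 := AA_le (by omega) hσ hσt ht
  set D := (1 + 73 / 100 * t) * (23024 / 10000 * t * (1 - 11512 / 10000 * t)) with hD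
  have hD0 : 0 < D := by
    rw [hD]
    have : 0 < 1 - 11512 / 10000 * t := by linarith
    positivity
  have hY0 : 0 < 1 + y * t / 2 := by positivity
  have hG1 : 0 ≤ 1 - Gt n (x * σ) := by
    have hs2 : (x * σ) ^ 2 = x ^ 2 * t := by rw [hσt]; ring
    have hs0 : 0 < x * σ := by positivity
    have := Gt_lt_one n (s := x * σ) ⟨hs0, by nlinarith⟩
    linarith
  -- multiply everything
  have h5 : (AA n * (1 - Gt n (x * σ))) * (D * (1 + y * t / 2)) ≤ σ * W * (D * (1 + y * t / 2)) := by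
    calc (AA n * (1 - Gt n (x * σ))) * (D * (1 + y * t / 2)) =
        (AA n * D) * ((1 - Gt n (x * σ)) * (1 + y * t / 2)) := by ring
      _ ≤ (AA n * D) * ((1 - Real.exp (-(y * t))) * (1 + y * t / 2)) := by gcongr
      _ ≤ (AA n * D) * (y * t) := by gcongr
      _ ≤ (185975 / 100000 * σ) * (y * t) := by gcongr
      _ = σ * t * (185975 / 100000 * y) := by ring
      _ ≤ σ * t * (W * (1 + 73 / 100 * t) * (23024 / 10000 * (1 - 11512 / 10000 * t)) * (1 + y * t / 2)) := by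
          gcongr
      _ = _ := by rw [hD]; ring
  exact le_of_mul_le_mul_right h5 (by positivity)

/-- node `x = 2` -/
lemma node2a {n : ℕ} (hn : 23 ≤ n) {σ t : ℝ} (hσ : 0 < σ) (hσt : t = σ ^ 2) (ht : t * ((n : ℝ) + 1) = 1) :
    AA n * (1 - Gt n (2 * σ)) ≤ σ * (133 / 50 : ℝ) := by
  have hn5 : (23 : ℝ) ≤ n := by exact_mod_cast hn
  have ht0 : 0 < t := by rw [hσt]; positivity
  have ht1 : t ≤ 1 / 24 := by nlinarith
  refine node (L := 1143 / 1000) (y := (3143 / 1000 + 144 / 25 * t + 84 / 5 * t ^ 2)) (by omega) hσ hσt ht (by norm_num) (by norm_num; linarith) ?_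
    (by positivity) ?_ ?_
  · have h := Real.sum_le_exp_of_nonneg (x := 2 * (1143 / 1000)) (by norm_num) 16
    simp only [Finset.sum_range_succ, Finset.sum_range_zero, Nat.factorial] at h
    norm_num at h ⊢
    linarith
  · have e : YY t (2) (1143 / 1000) = (3143 / 1000) * t ^ 0 + (144 / 25) * t ^ 1 + (44 / 3) * t ^ 2 + (128 / 3) * t ^ 3 + (6112 / 31) * t ^ 4 + (5120 / 31) * t ^ 5 := by
      unfold YY; ring
    rw [e]
    have h2 : 0 ≤ t ^ 2 := sq_nonneg t
    have h3 : t ^ 3 ≤ 1 / 24 * t ^ 2 := by nlinarith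
    have h4 : t ^ 4 ≤ 1 / 576 * t ^ 2 := by nlinarith
    have h5 : t ^ 5 ≤ 1 / 13824 * t ^ 2 := by nlinarith
    nlinarith
  · rw [← sub_nonneg]
    obtain ⟨v, hv⟩ : ∃ v : ℝ, v = 1 / 24 - t := ⟨_, rfl⟩
    have hv0 : 0 ≤ v := by linarith
    have key : (133 / 50 : ℝ) * (1 + 73 / 100 * t) * (23024 / 10000 * (1 - 11512 / 10000 * t)) * (1 + (3143 / 1000 + 144 / 25 * t + 84 / 5 * t ^ 2) * t / 2) -
        185975 / 100000 * (3143 / 1000 + 144 / 25 * t + 84 / 5 * t ^ 2) =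
      (34735671936 / 15625) * (t ^ 0 * v ^ 5) +
      (96666984085248 / 9765625) * (t ^ 1 * v ^ 4) +
      (20811393954831636 / 1220703125) * (t ^ 2 * v ^ 3) +
      (1709644897597222557 / 122070312500) * (t ^ 3 * v ^ 2) +
      (326125859947590537 / 61035156250) * (t ^ 4 * v ^ 1) +
      (173552152500195009 / 244140625000) * (t ^ 5 * v ^ 0) := by
      rw [hv]; ring
    rw [key]
    positivity

/-- node `x = 2` -/
lemma node2 {n : ℕ} (hn : 23 ≤ n) {σ t : ℝ} (hσ : 0 < σ) (hσt : t = σ ^ 2) (ht : t * ((n : ℝ) + 1) = 1) :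
    AA n * (1 - Gt n (2 * σ)) ≤ σ * (2 * (3 / 5 + (73 / 200 + t / 2) * (2)) - 7 / 200) := by
  have hn5 : (23 : ℝ) ≤ n := by exact_mod_cast hn
  have ht0 : 0 < t := by rw [hσt]; positivity
  have ht1 : t ≤ 1 / 24 := by nlinarith
  refine node (L := 1143 / 1000) (y := (3143 / 1000 + 144 / 25 * t + 84 / 5 * t ^ 2)) (by omega) hσ hσt ht (by norm_num) (by norm_num; linarith) ?_
    (by positivity) ?_ ?_
  · have h := Real.sum_le_exp_of_nonneg (x := 2 * (1143 / 1000)) (by norm_num) 16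
    simp only [Finset.sum_range_succ, Finset.sum_range_zero, Nat.factorial] at h
    norm_num at h ⊢
    linarith
  · have e : YY t (2) (1143 / 1000) = (3143 / 1000) * t ^ 0 + (144 / 25) * t ^ 1 + (44 / 3) * t ^ 2 + (128 / 3) * t ^ 3 + (6112 / 31) * t ^ 4 + (5120 / 31) * t ^ 5 := by
      unfold YY; ring
    rw [e]
    have h2 : 0 ≤ t ^ 2 := sq_nonneg t
    have h3 : t ^ 3 ≤ 1 / 24 * t ^ 2 := by nlinarith
    have h4 : t ^ 4 ≤ 1 / 576 * t ^ 2 := by nlinarith
    have h5 : t ^ 5 ≤ 1 / 13824 * t ^ 2 := by nlinarith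
    nlinarith
  · rw [← sub_nonneg]
    obtain ⟨v, hv⟩ : ∃ v : ℝ, v = 1 / 24 - t := ⟨_, rfl⟩
    have hv0 : 0 ≤ v := by linarith
    have key : (2 * (3 / 5 + (73 / 200 + t / 2) * (2)) - 7 / 200) * (1 + 73 / 100 * t) * (23024 / 10000 * (1 - 11512 / 10000 * t)) * (1 + (3143 / 1000 + 144 / 25 * t + 84 / 5 * t ^ 2) * t / 2) -
        185975 / 100000 * (3143 / 1000 + 144 / 25 * t + 84 / 5 * t ^ 2) =
      (593033591808 / 15625) * (t ^ 0 * v ^ 6) +
      (91582776665856 / 390625) * (t ^ 1 * v ^ 5) +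
      (29155336847158392 / 48828125) * (t ^ 2 * v ^ 4) +
      (1961784510806245527 / 2441406250) * (t ^ 3 * v ^ 3) +
      (1472740885583577999 / 2441406250) * (t ^ 4 * v ^ 2) +
      (1170397444398540039 / 4882812500) * (t ^ 5 * v ^ 1) +
      (38482512458094249 / 976562500) * (t ^ 6 * v ^ 0) := by
      rw [hv]; ring
    rw [key]
    positivity

/-- node `x = 13 / 5` -/
lemma node26 {n : ℕ} (hn : 23 ≤ n) {σ t : ℝ} (hσ : 0 < σ) (hσt : t = σ ^ 2) (ht : t * ((n : ℝ) + 1) = 1) :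
    AA n * (1 - Gt n (13 / 5 * σ)) ≤ σ * (13 / 5 * (3 / 5 + (73 / 200 + t / 2) * (13 / 5)) - 7 / 200) := by
  have hn5 : (23 : ℝ) ≤ n := by exact_mod_cast hn
  have ht0 : 0 < t := by rw [hσt]; positivity
  have ht1 : t ≤ 1 / 24 := by nlinarith
  refine node (L := 33 / 25) (y := (47 / 10 + 2913 / 200 * t + 403 / 5 * t ^ 2)) (by omega) hσ hσt ht (by norm_num) (by norm_num; linarith) ?_
    (by positivity) ?_ ?_
  · have h := Real.sum_le_exp_of_nonneg (x := 2 * (33 / 25)) (by norm_num) 16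
    simp only [Finset.sum_range_succ, Finset.sum_range_zero, Nat.factorial] at h
    norm_num at h ⊢
    linarith
  · have e : YY t (13 / 5) (33 / 25) = (47 / 10) * t ^ 0 + (36411 / 2500) * t ^ 1 + (11795693 / 187500) * t ^ 2 + (2929873063 / 9375000) * t ^ 3 + (1229306196547 / 484375000) * t ^ 4 + (137858491849 / 60546875) * t ^ 5 := by
      unfold YY; ring
    rw [e]
    have h2 : 0 ≤ t ^ 2 := sq_nonneg t
    have h3 : t ^ 3 ≤ 1 / 24 * t ^ 2 := by nlinarith
    have h4 : t ^ 4 ≤ 1 / 576 * t ^ 2 := by nlinarith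
    have h5 : t ^ 5 ≤ 1 / 13824 * t ^ 2 := by nlinarith
    nlinarith
  · rw [← sub_nonneg]
    obtain ⟨v, hv⟩ : ∃ v : ℝ, v = 1 / 24 - t := ⟨_, rfl⟩
    have hv0 : 0 ≤ v := by linarith
    have key : (13 / 5 * (3 / 5 + (73 / 200 + t / 2) * (13 / 5)) - 7 / 200) * (1 + 73 / 100 * t) * (23024 / 10000 * (1 - 11512 / 10000 * t)) * (1 + (47 / 10 + 2913 / 200 * t + 403 / 5 * t ^ 2) * t / 2) -
        185975 / 100000 * (47 / 10 + 2913 / 200 * t + 403 / 5 * t ^ 2) =
      (33687629623296 / 390625) * (t ^ 0 * v ^ 6) +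
      (123265992905753472 / 244140625) * (t ^ 1 * v ^ 5) +
      (7341056572419795456 / 6103515625) * (t ^ 2 * v ^ 4) +
      (45530188517897445402 / 30517578125) * (t ^ 3 * v ^ 3) +
      (1238590401449355672399 / 1220703125000) * (t ^ 4 * v ^ 2) +
      (1745529142930006598217 / 4882812500000) * (t ^ 5 * v ^ 1) +
      (123687821490013765883 / 2441406250000) * (t ^ 6 * v ^ 0) := by
      rw [hv]; ring
    rw [key]
    positivity

/-- node `x = 3` -/
lemma node3 {n : ℕ} (hn : 23 ≤ n) {σ t : ℝ} (hσ : 0 < σ) (hσt : t = σ ^ 2) (ht : t * ((n : ℝ) + 1) = 1) :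
    AA n * (1 - Gt n (3 * σ)) ≤ σ * (3 * (3 / 5 + (73 / 200 + t / 2) * (3)) - 31 / 2000) := by
  have hn5 : (23 : ℝ) ≤ n := by exact_mod_cast hn
  have ht0 : 0 < t := by rw [hσt]; positivity
  have ht1 : t ≤ 1 / 24 := by nlinarith
  refine node (L := 2861 / 2000) (y := (11861 / 2000 + 2451 / 100 * t + 1997 / 10 * t ^ 2)) (by omega) hσ hσt ht (by norm_num) (by norm_num; linarith) ?_
    (by positivity) ?_ ?_
  · have h := Real.sum_le_exp_of_nonneg (x := 2 * (2861 / 2000)) (by norm_num) 16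
    simp only [Finset.sum_range_succ, Finset.sum_range_zero, Nat.factorial] at h
    norm_num at h ⊢
    linarith
  · have e : YY t (3) (2861 / 2000) = (11861 / 2000) * t ^ 0 + (2451 / 100) * t ^ 1 + (567 / 4) * t ^ 2 + (7533 / 8) * t ^ 3 + (2565351 / 248) * t ^ 4 + (295245 / 31) * t ^ 5 := by
      unfold YY; ring
    rw [e]
    have h2 : 0 ≤ t ^ 2 := sq_nonneg t
    have h3 : t ^ 3 ≤ 1 / 24 * t ^ 2 := by nlinarith
    have h4 : t ^ 4 ≤ 1 / 576 * t ^ 2 := by nlinarith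
    have h5 : t ^ 5 ≤ 1 / 13824 * t ^ 2 := by nlinarith
    nlinarith
  · rw [← sub_nonneg]
    obtain ⟨v, hv⟩ : ∃ v : ℝ, v = 1 / 24 - t := ⟨_, rfl⟩
    have hv0 : 0 ≤ v := by linarith
    have key : (3 * (3 / 5 + (73 / 200 + t / 2) * (3)) - 31 / 2000) * (1 + 73 / 100 * t) * (23024 / 10000 * (1 - 11512 / 10000 * t)) * (1 + (11861 / 2000 + 2451 / 100 * t + 1997 / 10 * t ^ 2) * t / 2) -
        185975 / 100000 * (11861 / 2000 + 2451 / 100 * t + 1997 / 10 * t ^ 2) =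
      (9596496093696 / 78125) * (t ^ 0 * v ^ 6) +
      (33837776842767552 / 48828125) * (t ^ 1 * v ^ 5) +
      (9444297330374557014 / 6103515625) * (t ^ 2 * v ^ 4) +
      (2114835496030281531411 / 1220703125000) * (t ^ 3 * v ^ 3) +
      (2443714195438269282951 / 2441406250000) * (t ^ 4 * v ^ 2) +
      (2596403114008521593919 / 9765625000000) * (t ^ 5 * v ^ 1) +
      (98669719298078400189 / 4882812500000) * (t ^ 6 * v ^ 0) := by
      rw [hv]; ring
    rw [key]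
    positivity

/-- node `x = 13 / 4` -/
lemma node325 {n : ℕ} (hn : 27 ≤ n) {σ t : ℝ} (hσ : 0 < σ) (hσt : t = σ ^ 2) (ht : t * ((n : ℝ) + 1) = 1) :
    AA n * (1 - Gt n (13 / 4 * σ)) ≤ σ * (13 / 4 * (3 / 5 + (73 / 200 + t / 2) * (13 / 4)) - 3 / 500) := by
  have hn5 : (27 : ℝ) ≤ n := by exact_mod_cast hn
  have ht0 : 0 < t := by rw [hσt]; positivity
  have ht1 : t ≤ 1 / 28 := by nlinarith
  refine node (L := 2991 / 2000) (y := (27107 / 4000 + 32933 / 1000 * t + 3169 / 10 * t ^ 2)) (by omega) hσ hσt ht (by norm_num) (by norm_num; linarith) ?_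
    (by positivity) ?_ ?_
  · have h := Real.sum_le_exp_of_nonneg (x := 2 * (2991 / 2000)) (by norm_num) 16
    simp only [Finset.sum_range_succ, Finset.sum_range_zero, Nat.factorial] at h
    norm_num at h ⊢
    linarith
  · have e : YY t (13 / 4) (2991 / 2000) = (27107 / 4000) * t ^ 0 + (843081 / 25600) * t ^ 1 + (5512273 / 24576) * t ^ 2 + (2756107939 / 1572864) * t ^ 3 + (739867763947 / 32505856) * t ^ 4 + (689292459245 / 32505856) * t ^ 5 := by
      unfold YY; ring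
    rw [e]
    have h2 : 0 ≤ t ^ 2 := sq_nonneg t
    have h3 : t ^ 3 ≤ 1 / 28 * t ^ 2 := by nlinarith
    have h4 : t ^ 4 ≤ 1 / 784 * t ^ 2 := by nlinarith
    have h5 : t ^ 5 ≤ 1 / 21952 * t ^ 2 := by nlinarith
    nlinarith
  · rw [← sub_nonneg]
    obtain ⟨v, hv⟩ : ∃ v : ℝ, v = 1 / 28 - t := ⟨_, rfl⟩
    have hv0 : 0 ≤ v := by linarith
    have key : (13 / 4 * (3 / 5 + (73 / 200 + t / 2) * (13 / 4)) - 3 / 500) * (1 + 73 / 100 * t) * (23024 / 10000 * (1 - 11512 / 10000 * t)) * (1 + (27107 / 4000 + 32933 / 1000 * t + 3169 / 10 * t ^ 2) * t / 2) -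
        185975 / 100000 * (27107 / 4000 + 32933 / 1000 * t + 3169 / 10 * t ^ 2) =
      (28208513903388 / 78125) * (t ^ 0 * v ^ 6) +
      (782598058098210739 / 390625000) * (t ^ 1 * v ^ 5) +
      (3420061371248120218739 / 781250000000) * (t ^ 2 * v ^ 4) +
      (741398338502261157348463 / 156250000000000) * (t ^ 3 * v ^ 3) +
      (80869566835757977479377 / 31250000000000) * (t ^ 4 * v ^ 2) +
      (93843735349326055191931 / 156250000000000) * (t ^ 5 * v ^ 1) +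
      (437988483205942392823 / 19531250000000) * (t ^ 6 * v ^ 0) := by
      rw [hv]; ring
    rw [key]
    positivity

/-- node `x = 7 / 2` -/
lemma node35 {n : ℕ} (hn : 35 ≤ n) {σ t : ℝ} (hσ : 0 < σ) (hσt : t = σ ^ 2) (ht : t * ((n : ℝ) + 1) = 1) :
    AA n * (1 - Gt n (7 / 2 * σ)) ≤ σ * (7 / 2 * (3 / 5 + (73 / 200 + t / 2) * (7 / 2)) - 3 / 500) := by
  have hn5 : (35 : ℝ) ≤ n := by exact_mod_cast hn
  have ht0 : 0 < t := by rw [hσt]; positivity
  have ht1 : t ≤ 1 / 36 := by nlinarith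
  refine node (L := 779 / 500) (y := (7683 / 1000 + 43401 / 1000 * t + 4681 / 10 * t ^ 2)) (by omega) hσ hσt ht (by norm_num) (by norm_num; linarith) ?_
    (by positivity) ?_ ?_
  · have h := Real.sum_le_exp_of_nonneg (x := 2 * (779 / 500)) (by norm_num) 16
    simp only [Finset.sum_range_succ, Finset.sum_range_zero, Nat.factorial] at h
    norm_num at h ⊢
    linarith
  · have e : YY t (7 / 2) (779 / 500) = (7683 / 1000) * t ^ 0 + (69441 / 1600) * t ^ 1 + (132055 / 384) * t ^ 2 + (19176787 / 6144) * t ^ 3 + (3003461321 / 63488) * t ^ 4 + (1412376245 / 31744) * t ^ 5 := by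
      unfold YY; ring
    rw [e]
    have h2 : 0 ≤ t ^ 2 := sq_nonneg t
    have h3 : t ^ 3 ≤ 1 / 36 * t ^ 2 := by nlinarith
    have h4 : t ^ 4 ≤ 1 / 1296 * t ^ 2 := by nlinarith
    have h5 : t ^ 5 ≤ 1 / 46656 * t ^ 2 := by nlinarith
    nlinarith
  · rw [← sub_nonneg]
    obtain ⟨v, hv⟩ : ∃ v : ℝ, v = 1 / 36 - t := ⟨_, rfl⟩
    have hv0 : 0 ≤ v := by linarith
    have key : (7 / 2 * (3 / 5 + (73 / 200 + t / 2) * (7 / 2)) - 3 / 500) * (1 + 73 / 100 * t) * (23024 / 10000 * (1 - 11512 / 10000 * t)) * (1 + (7683 / 1000 + 43401 / 1000 * t + 4681 / 10 * t ^ 2) * t / 2) -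
        185975 / 100000 * (7683 / 1000 + 43401 / 1000 * t + 4681 / 10 * t ^ 2) =
      (140703868498032 / 78125) * (t ^ 0 * v ^ 6) +
      (483612185907711126 / 48828125) * (t ^ 1 * v ^ 5) +
      (1055376199673494481799 / 48828125000) * (t ^ 2 * v ^ 4) +
      (230486649153498133934859 / 9765625000000) * (t ^ 3 * v ^ 3) +
      (102744274917818215625031 / 7812500000000) * (t ^ 4 * v ^ 2) +
      (3951973829199632243211 / 1220703125000) * (t ^ 5 * v ^ 1) +
      (1731282736894588238677 / 9765625000000) * (t ^ 6 * v ^ 0) := by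
      rw [hv]; ring
    rw [key]
    positivity

end F4

end Crest.Agent.R230
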