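import Crest.Agent.R230.FarInfDef

/-!
# Row 230: lower bounds for the limiting density of the far region, `k ≥ 0`
-/

set_option autoImplicit false

open Set
open scoped Pointwise ENNReal

namespace Crest.Agent.R230

namespace WR

namespace FI

lemma log_lo {k : ℝ} (hk : 0 ≤ k) : k - Real.log (1 + k) ≤ k ^ 2 * (3 + k) / (k ^ 2 + 6 * k + 6) := by
  have h1 := PL.log_pade hk
  have hD : 0 < k ^ 2 + 6 * k + 6 := by positivity
  have h2 : k ^ 2 * (3 + k) / (k ^ 2 + 6 * k + 6) =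
      k - 3 * k * (k + 2) / (k ^ 2 + 6 * k + 6) := by
    field_simp
    ring
  rw [h2]
  linarith

lemma phi1 {k : ℝ} (hk : 0 ≤ k) (hk1 : k ≤ 1) :
    k - Real.log (1 + k) ≤ k ^ 2 * (1 / 2 - 5 / 26 * k) := by
  refine (log_lo hk).trans ?_
  have hD : 0 < k ^ 2 + 6 * k + 6 := by positivity
  rw [div_le_iff₀ hD]
  have h : 0 ≤ k ^ 2 * (k * (1 - k) * (22 + 5 * k)) := by
    have : 0 ≤ 1 - k := by linarith
    positivity
  nlinarith [h]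

lemma phi2 {k : ℝ} (hk : 1 ≤ k) (hk1 : k ≤ 3 / 2) :
    k - Real.log (1 + k) ≤ k ^ 2 * ((120 - 28 * k) / 299) := by
  refine (log_lo (by linarith)).trans ?_
  have hD : 0 < k ^ 2 + 6 * k + 6 := by positivity
  rw [div_le_iff₀ hD]
  have h : 0 ≤ k ^ 2 * ((k - 1) * (3 - 2 * k) * (14 * k + 59)) := by
    have : 0 ≤ 3 - 2 * k := by linarith
    have : 0 ≤ k - 1 := by linarith
    positivity
  nlinarith [h]

/-- the `k`-terms -/
noncomputable def gk (t k : ℝ) : ℝ :=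
  t * (k ^ 2 / (1 + k)) - 7 / 50 * k ^ 2 - 107 / 100 * (k - Real.log (1 + k))

lemma inv_lo {k : ℝ} (hk : 0 ≤ k) : k ^ 2 * (3 / 4 - k / 4) ≤ k ^ 2 / (1 + k) := by
  rw [le_div_iff₀ (by linarith)]
  have h : 0 ≤ k ^ 2 * (k - 1) ^ 2 := by positivity
  nlinarith [h]

lemma gk_ge1 {t t0 k : ℝ} (h0 : 0 ≤ t0) (h9 : t0 ≤ 9 / 10) (ht : t0 ≤ t) (hk : 0 ≤ k) (hk1 : k ≤ 1) :
    k * (t0 / 2 - 469232 / 1000000) ≤ gk t k := by
  unfold gk
  have h1 := phi1 hk hk1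
  have h2 := inv_lo hk
  have h3 : 0 ≤ k ^ 2 / (1 + k) := by positivity
  have h4 : t0 * (k ^ 2 * (3 / 4 - k / 4)) ≤ t * (k ^ 2 / (1 + k)) :=
    (mul_le_mul_of_nonneg_left h2 h0).trans (mul_le_mul_of_nonneg_right ht h3)
  have h5 : 0 ≤ k * (1 - k) * (-(3 / 4 * t0 - 675 / 1000) - (535 / 2600 - t0 / 4) * (1 + k)) := by
    have a1 : 0 ≤ 1 - k := by linarith
    have a2 : 0 ≤ -(3 / 4 * t0 - 675 / 1000) - (535 / 2600 - t0 / 4) * (1 + k) := by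
      nlinarith [mul_nonneg h0 hk, mul_nonneg h0 a1]
    positivity
  nlinarith [h5, h4, h1, hk]

lemma gk_ge2 {t t0 k K : ℝ} (h0 : 0 ≤ t0) (h9 : t0 ≤ 9 / 10) (ht : t0 ≤ t) (hk : 1 ≤ k) (hkK : k ≤ K)
    (hK : K ≤ 3 / 2) :
    (K - k) * (t0 / 2 - 469232 / 1000000) +
      (k - 1) * (K ^ 2 * (3 / 4 * t0 - 569432 / 1000000 + K * (1002 / 10000 - t0 / 4))) ≤
      (K - 1) * gk t k := by
  unfold gk
  have h1 := phi2 hk (hkK.trans hK)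
  have h2 := inv_lo (by linarith : (0 : ℝ) ≤ k)
  have h3 : 0 ≤ k ^ 2 / (1 + k) := by positivity
  have h4 : t0 * (k ^ 2 * (3 / 4 - k / 4)) ≤ t * (k ^ 2 / (1 + k)) :=
    (mul_le_mul_of_nonneg_left h2 h0).trans (mul_le_mul_of_nonneg_right ht h3)
  have a1 : 0 ≤ k - 1 := by linarith
  have a2 : 0 ≤ K - k := by linarith
  have a3 : 0 ≤ K - 1 := by linarith
  -- `g2 = α k² + β k³`
  have h6 : k ^ 2 * (3 / 4 * t0 - 569432 / 1000000 + k * (1002 / 10000 - t0 / 4)) ≤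
      t * (k ^ 2 / (1 + k)) - 7 / 50 * k ^ 2 - 107 / 100 * (k - Real.log (1 + k)) := by
    have h7 : 0 ≤ k ^ 2 * (k - 1) := by positivity
    have h8 : 0 ≤ k ^ 2 := by positivity
    nlinarith [h4, h1, h7, h8]
  have h9' : 0 ≤ (k - 1) * (K - k) *
      (-(3 / 4 * t0 - 569432 / 1000000) - (1002 / 10000 - t0 / 4) * (1 + k + K)) := by
    have : 0 ≤ -(3 / 4 * t0 - 569432 / 1000000) - (1002 / 10000 - t0 / 4) * (1 + k + K) := by
      nlinarith [mul_nonneg h0 a1, mul_nonneg h0 a3]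
    positivity
  have h10 := mul_le_mul_of_nonneg_left h6 a3
  refine le_trans ?_ h10
  nlinarith [h9', mul_nonneg h0 a2]

lemma cc_sq {s : ℝ} (hs : s ∈ Ioo (0 : ℝ) 1) : cc s ^ 2 = 1 - s ^ 2 := by
  unfold cc
  rw [Real.sq_sqrt]
  nlinarith [hs.1, hs.2]

lemma cc_nn (s : ℝ) : 0 ≤ cc s := Real.sqrt_nonneg _

lemma ksq {n : ℕ} {s l k : ℝ} (h : FarC n s l k) (hk : 0 ≤ k) : k ^ 2 * (1 - s ^ 2) ≤ 1 := by
  rw [← cc_sq h.hs]
  have h1 := h.hk1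
  have h2 : 0 ≤ k * cc s := mul_nonneg hk (cc_nn s)
  nlinarith

lemma ub_mono {v vb : ℝ} (hv0 : 0 < v) (hv : v ≤ vb) :
    v ^ 2 / (v + 7 / 100) ≤ vb ^ 2 / (vb + 7 / 100) := by
  have hvb : 0 < vb := hv0.trans_le hv
  rw [div_le_div_iff₀ (by positivity) (by positivity)]
  have h : 0 ≤ vb - v := by linarith
  have h1 : 0 ≤ v * vb * (vb - v) := by positivity
  have h2 : 0 ≤ (vb - v) * (v + vb) := by positivity
  linarith

lemma one_aux {vb : ℝ} (h : 0 < vb) : 49 / 10000 / (vb + 7 / 100) ^ 2 ≤ 1 := by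
  rw [div_le_one (by positivity)]
  nlinarith

lemma exp_aux {U ub : ℝ} (h0 : 0 ≤ U) (h : U ≤ ub) :
    Real.exp (2 * U) + 2 * (ub - U) ≤ Real.exp (2 * ub) := by
  have e1 : Real.exp (2 * ub) = Real.exp (2 * U) * Real.exp (2 * (ub - U)) := by
    rw [← Real.exp_add]; ring_nf
  rw [e1]
  have e2 := Real.add_one_le_exp (2 * (ub - U))
  have e3 : 1 ≤ Real.exp (2 * U) := Real.one_le_exp (by positivity)
  have e4 : 0 ≤ ub - U := by linarith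
  have e5 := mul_le_mul_of_nonneg_left e2 (by positivity : 0 ≤ Real.exp (2 * U))
  have e6 := mul_nonneg (sub_nonneg.2 e3) e4
  linarith

lemma k_aux {k K : ℝ} (hk : 0 ≤ k) (h : k ≤ K) : (K + 1) * k ^ 2 ≤ (k + 1) * K ^ 2 := by
  have a1 : 0 ≤ K - k := by linarith
  have a0 : 0 ≤ K := hk.trans h
  have a2 : 0 ≤ (K - k) * (K * k + K + k) := by positivity
  linarith

lemma fin1 {m k A B : ℝ} (h0 : 0 ≤ k) (h1 : k ≤ 1) (hA : m ≤ A) (hB : m ≤ A + B) :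
    m ≤ A + B * k := by
  have d0 := mul_le_mul_of_nonneg_left hA (by linarith : 0 ≤ 1 - k)
  have d1 := mul_le_mul_of_nonneg_left hB h0
  linarith

theorem box_core {n : ℕ} {s l k a vb E t0 W p q r σ0 σ1 K m : ℝ}
    (hl : a ≤ l) (ha : 0 ≤ a) (hcap : capF (s * Real.exp l) < l)
    (hv : l - capF (s * Real.exp l) ≤ vb)
    (hE : Real.exp (2 * (vb ^ 2 / (vb + 7 / 100))) ≤ E)
    (h0 : 0 ≤ t0) (h9 : t0 ≤ 9 / 10) (ht : t0 * (vb + 7 / 100) ^ 2 ≤ 49 / 10000)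
    (hW : (1 - 49 / 10000 / (vb + 7 / 100) ^ 2) * (E - 1) ≤ W)
    (hX : p + q * k + r * s ^ 2 ≤ ((n : ℝ) + 1) * s ^ 2)
    (hr : 0 ≤ 7 / 10 + 7 / 25 * a ^ 2 * r)
    (hk : 0 ≤ k) (hkK : k ≤ K) (hK1 : 1 < K) (hK : K ≤ 3 / 2)
    (hσ : σ0 ≤ s ^ 2) (hσ1 : 1 ≤ k → σ0 + σ1 * (k - 1) ≤ s ^ 2)
    (c0 : m ≤ 7 / 25 * a ^ 2 * p + vb ^ 2 / (vb + 7 / 100) - (E - 1) / 2 +
      (7 / 10 + 7 / 25 * a ^ 2 * r) * σ0)
    (c1 : m ≤ 7 / 25 * a ^ 2 * p + vb ^ 2 / (vb + 7 / 100) - (E - 1) / 2 +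
      (7 / 10 + 7 / 25 * a ^ 2 * r) * σ0 + 7 / 25 * a ^ 2 * q - W + t0 / 2 - 469232 / 1000000)
    (c2 : m ≤ 7 / 25 * a ^ 2 * p + vb ^ 2 / (vb + 7 / 100) - (E - 1) / 2 +
      (7 / 10 + 7 / 25 * a ^ 2 * r) * (σ0 + σ1 * (K - 1)) + (7 / 25 * a ^ 2 * q - W) * K +
      K ^ 2 * (3 / 4 * t0 - 569432 / 1000000 + K * (1002 / 10000 - t0 / 4))) :
    m ≤ Pinf n s l k + 7 / 10 * s ^ 2 := by
  set v := l - capF (s * Real.exp l) with hvdef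
  have hv0 : 0 < v := by rw [hvdef]; linarith
  have hvb : 0 < vb := hv0.trans_le hv
  set ub := vb ^ 2 / (vb + 7 / 100) with hub
  have hU : Uf s l = v ^ 2 / (v + 7 / 100) := by
    unfold Uf
    rw [← hvdef, Vq_of_nonneg hv0.le]
  have hVf : 1 - Vf s l = 49 / 10000 / (v + 7 / 100) ^ 2 := by
    unfold Vf
    rw [← hvdef, Vq'_of_nonneg hv0.le]
    norm_num
  have hUub : Uf s l ≤ ub := by
    rw [hU, hub]
    exact ub_mono hv0 hv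
  have hU0 : 0 ≤ Uf s l := by rw [hU]; positivity
  have hE1 : Real.exp (2 * Uf s l) + 2 * (ub - Uf s l) ≤ E := by
    exact (exp_aux hU0 hUub).trans hE
  have hE2 : Real.exp (2 * Uf s l) ≤ E := by linarith
  have hE3 : 1 ≤ Real.exp (2 * Uf s l) := Real.one_le_exp (by positivity)
  -- `1 - V`
  have hV1 : t0 ≤ 1 - Vf s l := by
    rw [hVf, le_div_iff₀ (by positivity)]
    refine le_trans ?_ ht
    exact mul_le_mul_of_nonneg_left (by gcongr) h0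
  have hV2 : Vf s l ≤ 1 - 49 / 10000 / (vb + 7 / 100) ^ 2 := by
    have : 49 / 10000 / (vb + 7 / 100) ^ 2 ≤ 49 / 10000 / (v + 7 / 100) ^ 2 := by gcongr
    linarith
  have hW' : Vf s l * (Real.exp (2 * Uf s l) - 1) ≤ W := by
    refine le_trans ?_ hW
    have h1 : Vf s l * (Real.exp (2 * Uf s l) - 1) ≤
        (1 - 49 / 10000 / (vb + 7 / 100) ^ 2) * (Real.exp (2 * Uf s l) - 1) :=
      mul_le_mul_of_nonneg_right hV2 (by linarith)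
    refine h1.trans (mul_le_mul_of_nonneg_left (by linarith) ?_)
    have := one_aux hvb
    linarith
  have hXnn : 0 ≤ ((n : ℝ) + 1) * s ^ 2 := by positivity
  have hXa : 7 / 25 * a ^ 2 * (p + q * k + r * s ^ 2) ≤ 7 / 25 * (((n : ℝ) + 1) * s ^ 2) * l ^ 2 := by
    have h1 : a ^ 2 ≤ l ^ 2 := by gcongr
    calc 7 / 25 * a ^ 2 * (p + q * k + r * s ^ 2) ≤ 7 / 25 * a ^ 2 * (((n : ℝ) + 1) * s ^ 2) := by gcongr
      _ ≤ 7 / 25 * l ^ 2 * (((n : ℝ) + 1) * s ^ 2) := by gcongr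
      _ = _ := by ring
  have hWk := mul_le_mul_of_nonneg_right hW' hk
  have hP : 7 / 25 * a ^ 2 * (p + q * k) + ub - (E - 1) / 2 + (7 / 10 + 7 / 25 * a ^ 2 * r) * s ^ 2
      - W * k + gk (1 - Vf s l) k ≤ Pinf n s l k + 7 / 10 * s ^ 2 := by
    unfold Pinf gk
    linarith
  refine le_trans ?_ hP
  rcases le_total k 1 with hk1 | hk1
  · have g1 := gk_ge1 h0 h9 hV1 hk hk1
    have s1 := mul_le_mul_of_nonneg_left hσ hr
    have a1 : 0 ≤ 1 - k := by linarith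
    have d0 := mul_le_mul_of_nonneg_left c0 a1
    have d1 := mul_le_mul_of_nonneg_left c1 hk
    linarith
  · have g1 := gk_ge2 h0 h9 hV1 hk1 hkK hK
    have s1 := mul_le_mul_of_nonneg_left (hσ1 hk1) hr
    have a1 : 0 ≤ k - 1 := by linarith
    have a2 : 0 ≤ K - k := by linarith
    have a3 : 0 < K - 1 := by linarith
    have d0 := mul_le_mul_of_nonneg_left c1 a2
    have d1 := mul_le_mul_of_nonneg_left c2 a1
    have s2 := mul_le_mul_of_nonneg_left s1 a3.le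
    refine le_of_mul_le_mul_left ?_ a3
    linarith

lemma X24 {n : ℕ} (hn : 23 ≤ n) (s : ℝ) : 0 + 24 * s ^ 2 ≤ ((n : ℝ) + 1) * s ^ 2 := by
  have : (23 : ℝ) ≤ n := by exact_mod_cast hn
  nlinarith [sq_nonneg s]

lemma sq_x (n : ℕ) (s : ℝ) : (s * Real.sqrt ((n : ℝ) + 1)) ^ 2 = ((n : ℝ) + 1) * s ^ 2 := by
  rw [mul_pow, Real.sq_sqrt (by positivity)]; ring

lemma X4 {n : ℕ} {s l k : ℝ} (h : FarC n s l k) : 4 + 0 * s ^ 2 ≤ ((n : ℝ) + 1) * s ^ 2 := by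
  rw [← sq_x]
  nlinarith [h.hx2]

lemma Xxi {n : ℕ} (hn : 23 ≤ n) {s l k ξ : ℝ} (h : FarC n s l k) (h0 : 0 ≤ ξ) (h1 : ξ ≤ 7 / 2)
    (h2 : 3 / 5 + 73 / 200 * ξ ≤ Real.exp l) :
    ξ ^ 2 + -(282 / 100) * s ^ 2 ≤ ((n : ℝ) + 1) * s ^ 2 := by
  have hnR : (23 : ℝ) ≤ n := by exact_mod_cast hn
  have hN : (0 : ℝ) < (n : ℝ) + 1 := by linarith
  have hx := sq_x n s
  set x := s * Real.sqrt ((n : ℝ) + 1) with hxd
  have hx2 : 2 ≤ x := h.hx2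
  rcases le_total x (7 / 2) with hx7 | hx7
  · have h3 := h.hC1 hx7
    rw [← hxd] at h3
    have h4 : ξ ≤ x * (1 + 100 / (73 * ((n : ℝ) + 1))) := by
      have : (73 / 200 + 1 / (2 * ((n : ℝ) + 1))) * x = 73 / 200 * (x * (1 + 100 / (73 * ((n : ℝ) + 1)))) := by
        field_simp
        ring
      linarith
    have h5 : ξ ^ 2 ≤ (x * (1 + 100 / (73 * ((n : ℝ) + 1)))) ^ 2 := by gcongr
    have h6 : (x * (1 + 100 / (73 * ((n : ℝ) + 1)))) ^ 2 =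
        ((n : ℝ) + 1) * s ^ 2 + s ^ 2 * (200 / 73 + (100 / 73) ^ 2 / ((n : ℝ) + 1)) := by
      rw [mul_pow, hx]
      field_simp
      ring
    have h7 : (100 / 73 : ℝ) ^ 2 / ((n : ℝ) + 1) ≤ (100 / 73) ^ 2 / 24 := by
      gcongr
      linarith
    have h8 : s ^ 2 * (200 / 73 + (100 / 73) ^ 2 / ((n : ℝ) + 1)) ≤ s ^ 2 * (282 / 100) := by
      refine mul_le_mul_of_nonneg_left ?_ (sq_nonneg s)
      refine (add_le_add_right h7 _).trans ?_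
      norm_num
    linarith
  · rw [← hx]
    nlinarith [sq_nonneg s]

lemma Xbig {n : ℕ} (hn : 23 ≤ n) {s l k p : ℝ} (h : FarC n s l k)
    (h2 : 19505 / 10000 < Real.exp l) (hp : p ≤ 49 / 4 ∨ ∃ e : ℝ, 0 ≤ e ∧ e ≤ Real.exp l ∧ p ≤ 25 / 9 * e ^ 2) :
    p + 0 * s ^ 2 ≤ ((n : ℝ) + 1) * s ^ 2 := by
  have hnR : (23 : ℝ) ≤ n := by exact_mod_cast hn
  have hx := sq_x n s
  set x := s * Real.sqrt ((n : ℝ) + 1) with hxd
  have hx2 : 2 ≤ x := h.hx2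
  have hx7 : 7 / 2 ≤ x := by
    by_contra hc
    push Not at hc
    have h3 := h.hC1 hc.le
    rw [← hxd] at h3
    have h4 : 1 / (2 * ((n : ℝ) + 1)) ≤ 1 / 48 := by
      gcongr
      linarith
    have h5 : (73 / 200 + 1 / (2 * ((n : ℝ) + 1))) * x ≤ (73 / 200 + 1 / 48) * (7 / 2) := by
      gcongr
    linarith
  rw [← hx]
  rcases hp with hp | ⟨e, he0, he1, hp⟩
  · nlinarith
  · have h3 := h.hC2 hx7
    rw [← hxd] at h3
    have h4 : 5 / 3 * e ≤ x := by linarith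
    have h5 : (5 / 3 * e) ^ 2 ≤ x ^ 2 := by gcongr
    nlinarith

theorem boxT {n : ℕ} {s l k : ℝ} (h : FarC n s l k) (hk : 0 ≤ k)
    {a b Ta Tb ea eb shi K σ0 σ1 hh vb E t0 W θ p0 r0 : ℝ}
    (hl : a ≤ l) (hlb : l ≤ b) (hTa : Ta ≤ s * Real.exp l) (hTb : s * Real.exp l ≤ Tb)
    (hea : ea ≤ Real.exp a) (heb : Real.exp b ≤ eb)
    (hE : Real.exp (2 * (vb ^ 2 / (vb + 7 / 100))) ≤ E)
    (hX0 : p0 + r0 * s ^ 2 ≤ ((n : ℝ) + 1) * s ^ 2)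
    (n1 : 0 ≤ a ∧ 0 ≤ Ta ∧ Ta < 1 ∧ 0 ≤ Tb ∧ Tb ≤ 1 ∧ 0 < ea ∧ Tb ^ 2 ≤ shi * ea ^ 2 ∧ shi < 1 ∧
      1 ≤ K ^ 2 * (1 - shi) ∧ 1 < K ∧ K ≤ 3 / 2 ∧ b - 43 / 100 + 23 / 200 * Tb ^ 8 ≤ vb)
    (n2 : 0 ≤ t0 ∧ t0 ≤ 9 / 10 ∧ t0 * (vb + 7 / 100) ^ 2 ≤ 49 / 10000 ∧
      (1 - 49 / 10000 / (vb + 7 / 100) ^ 2) * (E - 1) ≤ W ∧ hh * (1 - Ta) ≤ Ta * (1 - shi) ∧
      0 ≤ hh ∧ 0 ≤ θ ∧ θ ≤ 1 ∧ 0 ≤ 7 / 10 + 7 / 25 * a ^ 2 * ((1 - θ) * r0))
    (hσ : (σ0 * eb ^ 2 ≤ Ta ^ 2 ∧ 0 ≤ σ0 ∧ σ1 = 0) ∨ (σ0 = 0 ∧ 0 ≤ σ1 ∧ σ1 * K ^ 2 ≤ K + 1))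
    (c0 : 1 / 100 ≤ 7 / 25 * a ^ 2 * ((1 - θ) * p0 + θ * (hh - 1)) + vb ^ 2 / (vb + 7 / 100)
      - (E - 1) / 2 + (7 / 10 + 7 / 25 * a ^ 2 * ((1 - θ) * r0)) * σ0)
    (c1 : 1 / 100 ≤ 7 / 25 * a ^ 2 * ((1 - θ) * p0 + θ * (hh - 1)) + vb ^ 2 / (vb + 7 / 100)
      - (E - 1) / 2 + (7 / 10 + 7 / 25 * a ^ 2 * ((1 - θ) * r0)) * σ0
      + 7 / 25 * a ^ 2 * (θ * hh) - W + t0 / 2 - 469232 / 1000000)
    (c2 : 1 / 100 ≤ 7 / 25 * a ^ 2 * ((1 - θ) * p0 + θ * (hh - 1)) + vb ^ 2 / (vb + 7 / 100)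
      - (E - 1) / 2 + (7 / 10 + 7 / 25 * a ^ 2 * ((1 - θ) * r0)) * (σ0 + σ1 * (K - 1))
      + (7 / 25 * a ^ 2 * (θ * hh) - W) * K +
      K ^ 2 * (3 / 4 * t0 - 569432 / 1000000 + K * (1002 / 10000 - t0 / 4))) :
    1 / 100 ≤ Pinf n s l k + 7 / 10 * s ^ 2 := by
  obtain ⟨ha, hTa0, hTa1, hTb0, hTb1, hea0, m1, m2, m3, m4, m5, m6⟩ := n1
  obtain ⟨k1, k2, k3, k4, k5, k6, k7, k8, k9⟩ := n2
  have hs0 : 0 < s := h.hs.1
  have hs1 : s < 1 := h.hs.2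
  have hel : Real.exp a ≤ Real.exp l := Real.exp_le_exp.2 hl
  have hel2 : Real.exp l ≤ Real.exp b := Real.exp_le_exp.2 hlb
  have hpos : 0 < Real.exp l := Real.exp_pos l
  -- `s² ≤ shi`
  have hshi : s ^ 2 ≤ shi := by
    have h1 : s * ea ≤ Tb := (mul_le_mul_of_nonneg_left (hea.trans hel) hs0.le).trans hTb
    have h2 : (s * ea) ^ 2 ≤ Tb ^ 2 := by gcongr
    have h3 : s ^ 2 * ea ^ 2 ≤ shi * ea ^ 2 := by
      rw [← mul_pow]; exact h2.trans m1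
    exact le_of_mul_le_mul_right h3 (by positivity)
  have hksq := ksq h hk
  have hkK : k ≤ K := by
    by_contra hc
    push Not at hc
    have h1 : K ^ 2 * (1 - shi) < k ^ 2 * (1 - s ^ 2) := by
      have h2 : K ^ 2 < k ^ 2 := by gcongr
      calc K ^ 2 * (1 - shi) < k ^ 2 * (1 - shi) := by
            exact mul_lt_mul_of_pos_right h2 (by linarith)
        _ ≤ k ^ 2 * (1 - s ^ 2) := mul_le_mul_of_nonneg_left (by linarith) (by positivity)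
    linarith
  have hcapv : l - capF (s * Real.exp l) ≤ vb := by
    refine le_trans ?_ m6
    unfold capF
    have : (s * Real.exp l) ^ 8 ≤ Tb ^ 8 := by gcongr
    linarith
  have hhaz : (1 + k) * hh - 1 ≤ ((n : ℝ) + 1) * s ^ 2 := by
    have h1 := h.hk2
    have h2 : (1 + k) * (s * Real.exp l) * (1 - s ^ 2) ≤
        (1 + ((n : ℝ) + 1) * s ^ 2) * (1 - s * Real.exp l) := by
      have h3 := mul_le_mul_of_nonneg_right h1 hpos.le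
      have h4 : Real.exp (-l) * Real.exp l = 1 := by rw [← Real.exp_add]; simp
      have h5 : (1 + ((n : ℝ) + 1) * s ^ 2) * (Real.exp (-l) - s) * Real.exp l =
          (1 + ((n : ℝ) + 1) * s ^ 2) * (1 - s * Real.exp l) := by
        rw [mul_assoc, sub_mul, h4]
      rw [h5, cc_sq h.hs] at h3
      linarith
    have hX : 0 ≤ 1 + ((n : ℝ) + 1) * s ^ 2 := by positivity
    have h6 : (1 + k) * Ta * (1 - shi) ≤ (1 + ((n : ℝ) + 1) * s ^ 2) * (1 - Ta) := by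
      refine le_trans ?_ (h2.trans (mul_le_mul_of_nonneg_left (by linarith) hX))
      have h7 : 0 ≤ 1 - shi := by linarith
      have h8 : 0 ≤ 1 + k := by linarith
      have h9 : 0 ≤ s * Real.exp l := by positivity
      calc (1 + k) * Ta * (1 - shi) ≤ (1 + k) * (s * Real.exp l) * (1 - shi) := by gcongr
        _ ≤ (1 + k) * (s * Real.exp l) * (1 - s ^ 2) := by gcongr
    have h10 : (1 + k) * hh * (1 - Ta) ≤ (1 + ((n : ℝ) + 1) * s ^ 2) * (1 - Ta) := by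
      refine le_trans ?_ h6
      have := mul_le_mul_of_nonneg_left k5 (by linarith : 0 ≤ 1 + k)
      linarith
    have := le_of_mul_le_mul_right h10 (by linarith)
    linarith
  have hX : ((1 - θ) * p0 + θ * (hh - 1)) + θ * hh * k + (1 - θ) * r0 * s ^ 2 ≤
      ((n : ℝ) + 1) * s ^ 2 := by
    have h1 := mul_le_mul_of_nonneg_left hX0 (by linarith : 0 ≤ 1 - θ)
    have h2 := mul_le_mul_of_nonneg_left hhaz k7
    linarith
  have hσ0 : σ0 ≤ s ^ 2 := by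
    rcases hσ with ⟨g1, g2, -⟩ | ⟨g1, -, -⟩
    · have h1 : Ta ≤ s * eb := hTa.trans (mul_le_mul_of_nonneg_left (hel2.trans heb) hs0.le)
      have h2 : Ta ^ 2 ≤ (s * eb) ^ 2 := by gcongr
      have h3 : 0 < eb := (Real.exp_pos b).trans_le heb
      rw [mul_pow] at h2
      exact le_of_mul_le_mul_right (g1.trans h2) (by positivity)
    · rw [g1]; positivity
  have hσ1 : 1 ≤ k → σ0 + σ1 * (k - 1) ≤ s ^ 2 := by
    intro hk1
    rcases hσ with ⟨g1, g2, g3⟩ | ⟨g1, g2, g3⟩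
    · rw [g3]; linarith
    · rw [g1]
      have h1 : σ1 * k ^ 2 ≤ k + 1 := by
        have h3 : (σ1 * k ^ 2) * K ^ 2 ≤ (k + 1) * K ^ 2 := by
          have h4 : (K + 1) * k ^ 2 ≤ (k + 1) * K ^ 2 := k_aux hk hkK
          have h5 := mul_le_mul_of_nonneg_right g3 (sq_nonneg k)
          linarith only [h4, h5]
        exact le_of_mul_le_mul_right h3 (by positivity)
      have h2 : (σ1 * (k - 1)) * k ^ 2 ≤ s ^ 2 * k ^ 2 := by
        have h3 := mul_le_mul_of_nonneg_right h1 (by linarith : 0 ≤ k - 1)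
        linarith only [h3, hksq]
      have := le_of_mul_le_mul_right h2 (by positivity)
      linarith only [this]
  exact box_core hl ha h.hcap hcapv hE k1 k2 k3 k4 hX k9 hk hkK m4 m5 hσ0 hσ1 c0 c1 c2

lemma exp_hi {y E : ℝ} (h0 : 0 ≤ y) (h1 : y ≤ 4)
    (h : (1 + y / 4 + (y / 4) ^ 2 / 2 + (y / 4) ^ 3 / 6 + (y / 4) ^ 4 / 24 + (y / 4) ^ 5 / 100) ^ 4 ≤ E) :
    Real.exp y ≤ E := by
  refine le_trans ?_ h
  have e : Real.exp y = Real.exp (y / 4) ^ 4 := by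
    rw [← Real.exp_nat_mul]; ring_nf
  rw [e]
  have h2 := Real.exp_bound' (x := y / 4) (by positivity) (by linarith) (n := 5) (by norm_num)
  simp only [Finset.sum_range_succ, Finset.sum_range_zero, Nat.factorial] at h2
  norm_num at h2
  gcongr
  linarith

lemma exp_lo {y E : ℝ} (h0 : 0 ≤ y)
    (h : E ≤ (1 + y / 4 + (y / 4) ^ 2 / 2 + (y / 4) ^ 3 / 6 + (y / 4) ^ 4 / 24) ^ 4) :
    E ≤ Real.exp y := by
  refine h.trans ?_
  have e : Real.exp y = Real.exp (y / 4) ^ 4 := by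
    rw [← Real.exp_nat_mul]; ring_nf
  rw [e]
  have h2 := Real.sum_le_exp_of_nonneg (x := y / 4) (by positivity) 5
  simp only [Finset.sum_range_succ, Finset.sum_range_zero, Nat.factorial] at h2
  norm_num at h2
  gcongr

end FI

end WR

end Crest.Agent.R230
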