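import Crest.Agent.R230.FarInf

/-!
# Row 230: lower bound of the limiting density, boxes
-/

set_option autoImplicit false
set_option linter.unusedVariables false
set_option linter.unnecessarySimpa false

open Set
open scoped Pointwise ENNReal

namespace Crest.Agent.R230

namespace WR

namespace FI

lemma l_lo {n : ℕ} {s l k : ℝ} (h : FarC n s l k) {a Tb : ℝ} (hTb0 : 0 ≤ Tb) (hTb : s * Real.exp l ≤ Tb)
    (ha : a ≤ 43 / 100 - 23 / 200 * Tb ^ 8) : a ≤ l := by
  have h1 := h.hcap
  unfold capF at h1
  have h2 : 0 ≤ s * Real.exp l := mul_nonneg h.hs.1.le (Real.exp_pos l).le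
  have h3 : (s * Real.exp l) ^ 8 ≤ Tb ^ 8 := by gcongr
  linarith

theorem zone0 {n : ℕ} (hn : 23 ≤ n) {s l k : ℝ} (h : FarC n s l k) (hk : 0 ≤ k) (hl9 : l ≤ 9 / 10)
    (hTa : 0 ≤ s * Real.exp l) (hTb : s * Real.exp l ≤ (3 / 5)) :
    1 / 100 ≤ Pinf n s l k + 7 / 10 * s ^ 2 := by
  have hl' : (107 / 250) ≤ l := l_lo h (Tb := (3 / 5)) (by norm_num) hTb (by norm_num)
  rcases le_total l (477 / 1000) with hlb | hl''
  · exact boxT h hk (a := (107 / 250)) (b := (477 / 1000)) (Ta := 0) (Tb := (3 / 5)) (ea := (76709 / 50000)) (eb := (40281 / 25000)) (shi := (478 / 3125)) (K := (5433 / 5000))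
      (σ0 := 0) (σ1 := (2209 / 1250)) (hh := 0) (vb := (49 / 1000)) (E := (52059 / 50000)) (t0 := (17301 / 50000)) (W := (1347 / 50000)) (θ := 0)
      (p0 := (25593 / 10000) ^ 2) (r0 := -(282 / 100)) hl' hlb hTa hTb
      (exp_lo (by norm_num) (by norm_num)) (exp_hi (by norm_num) (by norm_num) (by norm_num)) (exp_hi (by norm_num) (by norm_num) (by norm_num))
      (Xxi hn h (ξ := (25593 / 10000)) (by norm_num) (by norm_num) (le_trans (by norm_num) ((exp_lo (y := (107 / 250)) (E := (76709 / 50000)) (by norm_num) (by norm_num)).trans (Real.exp_le_exp.2 hl'))))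
      (by norm_num) (by norm_num) (by norm_num) (by norm_num) (by norm_num) (by norm_num)
  clear hl'
  have hl' := hl''
  clear hl''
  rcases le_total l (523 / 1000) with hlb | hl''
  · exact boxT h hk (a := (477 / 1000)) (b := (523 / 1000)) (Ta := 0) (Tb := (3 / 5)) (ea := (161123 / 100000)) (eb := (168709 / 100000)) (shi := (3467 / 25000)) (K := (1347 / 1250))
      (σ0 := 0) (σ1 := (17891 / 10000)) (hh := 0) (vb := (19 / 200)) (E := (111561 / 100000)) (t0 := (8999 / 50000)) (W := (9481 / 100000)) (θ := 0)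
      (p0 := (3463 / 1250) ^ 2) (r0 := -(282 / 100)) hl' hlb hTa hTb
      (exp_lo (by norm_num) (by norm_num)) (exp_hi (by norm_num) (by norm_num) (by norm_num)) (exp_hi (by norm_num) (by norm_num) (by norm_num))
      (Xxi hn h (ξ := (3463 / 1250)) (by norm_num) (by norm_num) (le_trans (by norm_num) ((exp_lo (y := (477 / 1000)) (E := (161123 / 100000)) (by norm_num) (by norm_num)).trans (Real.exp_le_exp.2 hl'))))
      (by norm_num) (by norm_num) (by norm_num) (by norm_num) (by norm_num) (by norm_num)
  clear hl'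
  have hl' := hl''
  clear hl''
  rcases le_total l (587 / 1000) with hlb | hl''
  · exact boxT h hk (a := (523 / 1000)) (b := (587 / 1000)) (Ta := 0) (Tb := (3 / 5)) (ea := (168707 / 100000)) (eb := (179859 / 100000)) (shi := (12649 / 100000)) (K := (107 / 100))
      (σ0 := 0) (σ1 := (226 / 125)) (hh := 0) (vb := (159 / 1000)) (E := (124707 / 100000)) (t0 := (9343 / 100000)) (W := (22399 / 100000)) (θ := 0)
      (p0 := (14891 / 5000) ^ 2) (r0 := -(282 / 100)) hl' hlb hTa hTb
      (exp_lo (by norm_num) (by norm_num)) (exp_hi (by norm_num) (by norm_num) (by norm_num)) (exp_hi (by norm_num) (by norm_num) (by norm_num))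
      (Xxi hn h (ξ := (14891 / 5000)) (by norm_num) (by norm_num) (le_trans (by norm_num) ((exp_lo (y := (523 / 1000)) (E := (168707 / 100000)) (by norm_num) (by norm_num)).trans (Real.exp_le_exp.2 hl'))))
      (by norm_num) (by norm_num) (by norm_num) (by norm_num) (by norm_num) (by norm_num)
  clear hl'
  have hl' := hl''
  clear hl''
  rcases le_total l (693 / 1000) with hlb | hl''
  · exact boxT h hk (a := (587 / 1000)) (b := (693 / 1000)) (Ta := 0) (Tb := (3 / 5)) (ea := (179857 / 100000)) (eb := (199971 / 100000)) (shi := (11129 / 100000)) (K := (663 / 625))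
      (σ0 := 0) (σ1 := (18313 / 10000)) (hh := 0) (vb := (53 / 200)) (E := (152083 / 100000)) (t0 := (2183 / 50000)) (W := (49809 / 100000)) (θ := 0)
      (p0 := (32837 / 10000) ^ 2) (r0 := -(282 / 100)) hl' hlb hTa hTb
      (exp_lo (by norm_num) (by norm_num)) (exp_hi (by norm_num) (by norm_num) (by norm_num)) (exp_hi (by norm_num) (by norm_num) (by norm_num))
      (Xxi hn h (ξ := (32837 / 10000)) (by norm_num) (by norm_num) (le_trans (by norm_num) ((exp_lo (y := (587 / 1000)) (E := (179857 / 100000)) (by norm_num) (by norm_num)).trans (Real.exp_le_exp.2 hl'))))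
      (by norm_num) (by norm_num) (by norm_num) (by norm_num) (by norm_num) (by norm_num)
  clear hl'
  have hl' := hl''
  clear hl''
  rcases le_total l (419 / 500) with hlb | hl''
  · exact boxT h hk (a := (693 / 1000)) (b := (419 / 500)) (Ta := 0) (Tb := (3 / 5)) (ea := (199969 / 100000)) (eb := (9247 / 4000)) (shi := (9003 / 100000)) (K := (2621 / 2500))
      (σ0 := 0) (σ1 := (4659 / 2500)) (hh := 0) (vb := (41 / 100)) (E := (10073 / 5000)) (t0 := (1063 / 50000)) (W := (99303 / 100000)) (θ := 0)
      (p0 := 49 / 4) (r0 := 0) hl' hlb hTa hTb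
      (exp_lo (by norm_num) (by norm_num)) (exp_hi (by norm_num) (by norm_num) (by norm_num)) (exp_hi (by norm_num) (by norm_num) (by norm_num))
      (Xbig hn h (lt_of_lt_of_le (by norm_num) ((exp_lo (y := (693 / 1000)) (E := (199969 / 100000)) (by norm_num) (by norm_num)).trans (Real.exp_le_exp.2 hl'))) (Or.inl (by norm_num)))
      (by norm_num) (by norm_num) (by norm_num) (by norm_num) (by norm_num) (by norm_num)
  clear hl'
  have hl' := hl''
  clear hl''
  have hlb := hl9
  exact boxT h hk (a := (419 / 500)) (b := (9 / 10)) (Ta := 0) (Tb := (3 / 5)) (ea := (231171 / 100000)) (eb := (122981 / 50000)) (shi := (6737 / 100000)) (K := (2071 / 2000))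
    (σ0 := 0) (σ1 := (18983 / 10000)) (hh := 0) (vb := (59 / 125)) (E := (56881 / 25000)) (t0 := (417 / 25000)) (W := (125397 / 100000)) (θ := 0)
    (p0 := 25 / 9 * (231171 / 100000) ^ 2) (r0 := 0) hl' hlb hTa hTb
    (exp_lo (by norm_num) (by norm_num)) (exp_hi (by norm_num) (by norm_num) (by norm_num)) (exp_hi (by norm_num) (by norm_num) (by norm_num))
    (Xbig hn h (lt_of_lt_of_le (by norm_num) ((exp_lo (y := (419 / 500)) (E := (231171 / 100000)) (by norm_num) (by norm_num)).trans (Real.exp_le_exp.2 hl'))) (Or.inr ⟨(231171 / 100000), by norm_num, (exp_lo (y := (419 / 500)) (E := (231171 / 100000)) (by norm_num) (by norm_num)).trans (Real.exp_le_exp.2 hl'), by norm_num⟩))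
    (by norm_num) (by norm_num) (by norm_num) (by norm_num) (by norm_num) (by norm_num)

theorem zone1 {n : ℕ} (hn : 23 ≤ n) {s l k : ℝ} (h : FarC n s l k) (hk : 0 ≤ k) (hl9 : l ≤ 9 / 10)
    (hTa : (3 / 5) ≤ s * Real.exp l) (hTb : s * Real.exp l ≤ (7 / 10)) :
    1 / 100 ≤ Pinf n s l k + 7 / 10 * s ^ 2 := by
  have hl' : (423 / 1000) ≤ l := l_lo h (Tb := (7 / 10)) (by norm_num) hTb (by norm_num)
  rcases le_total l (469 / 1000) with hlb | hl''
  · exact boxT h hk (a := (423 / 1000)) (b := (469 / 1000)) (Ta := (3 / 5)) (Tb := (7 / 10)) (ea := (152653 / 100000)) (eb := (999 / 625)) (shi := (5257 / 25000)) (K := (11253 / 10000))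
      (σ0 := (1409 / 10000)) (σ1 := 0) (hh := (2369 / 2000)) (vb := (457 / 10000)) (E := (103677 / 100000)) (t0 := (9151 / 25000)) (W := (583 / 25000)) (θ := 0)
      (p0 := (3173 / 1250) ^ 2) (r0 := -(282 / 100)) hl' hlb hTa hTb
      (exp_lo (by norm_num) (by norm_num)) (exp_hi (by norm_num) (by norm_num) (by norm_num)) (exp_hi (by norm_num) (by norm_num) (by norm_num))
      (Xxi hn h (ξ := (3173 / 1250)) (by norm_num) (by norm_num) (le_trans (by norm_num) ((exp_lo (y := (423 / 1000)) (E := (152653 / 100000)) (by norm_num) (by norm_num)).trans (Real.exp_le_exp.2 hl'))))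
      (by norm_num) (by norm_num) (by norm_num) (by norm_num) (by norm_num) (by norm_num)
  clear hl'
  have hl' := hl''
  clear hl''
  rcases le_total l (509 / 1000) with hlb | hl''
  · exact boxT h hk (a := (469 / 1000)) (b := (509 / 1000)) (Ta := (3 / 5)) (Tb := (7 / 10)) (ea := (159839 / 100000)) (eb := (166363 / 100000)) (shi := (959 / 5000)) (K := (2781 / 2500))
      (σ0 := 0) (σ1 := (1707 / 1000)) (hh := (12123 / 10000)) (vb := (857 / 10000)) (E := (54947 / 50000)) (t0 := (5053 / 25000)) (W := (1579 / 20000)) (θ := 0)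
      (p0 := (27353 / 10000) ^ 2) (r0 := -(282 / 100)) hl' hlb hTa hTb
      (exp_lo (by norm_num) (by norm_num)) (exp_hi (by norm_num) (by norm_num) (by norm_num)) (exp_hi (by norm_num) (by norm_num) (by norm_num))
      (Xxi hn h (ξ := (27353 / 10000)) (by norm_num) (by norm_num) (le_trans (by norm_num) ((exp_lo (y := (469 / 1000)) (E := (159839 / 100000)) (by norm_num) (by norm_num)).trans (Real.exp_le_exp.2 hl'))))
      (by norm_num) (by norm_num) (by norm_num) (by norm_num) (by norm_num) (by norm_num)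
  clear hl'
  have hl' := hl''
  clear hl''
  rcases le_total l (559 / 1000) with hlb | hl''
  · exact boxT h hk (a := (509 / 1000)) (b := (559 / 1000)) (Ta := (3 / 5)) (Tb := (7 / 10)) (ea := (83181 / 50000)) (eb := (174893 / 100000)) (shi := (3541 / 20000)) (K := (689 / 625))
      (σ0 := 0) (σ1 := (17299 / 10000)) (hh := (1543 / 1250)) (vb := (1357 / 10000)) (E := (14951 / 12500)) (t0 := (579 / 5000)) (W := (8669 / 50000)) (θ := 0)
      (p0 := (1457 / 500) ^ 2) (r0 := -(282 / 100)) hl' hlb hTa hTb
      (exp_lo (by norm_num) (by norm_num)) (exp_hi (by norm_num) (by norm_num) (by norm_num)) (exp_hi (by norm_num) (by norm_num) (by norm_num))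
      (Xxi hn h (ξ := (1457 / 500)) (by norm_num) (by norm_num) (le_trans (by norm_num) ((exp_lo (y := (509 / 1000)) (E := (83181 / 50000)) (by norm_num) (by norm_num)).trans (Real.exp_le_exp.2 hl'))))
      (by norm_num) (by norm_num) (by norm_num) (by norm_num) (by norm_num) (by norm_num)
  clear hl'
  have hl' := hl''
  clear hl''
  rcases le_total l (159 / 250) with hlb | hl''
  · exact boxT h hk (a := (559 / 1000)) (b := (159 / 250)) (Ta := (3 / 5)) (Tb := (7 / 10)) (ea := (174891 / 100000)) (eb := (47223 / 25000)) (shi := (801 / 5000)) (K := (10913 / 10000))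
      (σ0 := 0) (σ1 := (439 / 250)) (hh := (12597 / 10000)) (vb := (2127 / 10000)) (E := (68861 / 50000)) (t0 := (6131 / 100000)) (W := (3541 / 10000)) (θ := 0)
      (p0 := (7869 / 2500) ^ 2) (r0 := -(282 / 100)) hl' hlb hTa hTb
      (exp_lo (by norm_num) (by norm_num)) (exp_hi (by norm_num) (by norm_num) (by norm_num)) (exp_hi (by norm_num) (by norm_num) (by norm_num))
      (Xxi hn h (ξ := (7869 / 2500)) (by norm_num) (by norm_num) (le_trans (by norm_num) ((exp_lo (y := (559 / 1000)) (E := (174891 / 100000)) (by norm_num) (by norm_num)).trans (Real.exp_le_exp.2 hl'))))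
      (by norm_num) (by norm_num) (by norm_num) (by norm_num) (by norm_num) (by norm_num)
  clear hl'
  have hl' := hl''
  clear hl''
  rcases le_total l (96 / 125) with hlb | hl''
  · exact boxT h hk (a := (159 / 250)) (b := (96 / 125)) (Ta := (3 / 5)) (Tb := (7 / 10)) (ea := (18889 / 10000)) (eb := (107773 / 50000)) (shi := (6867 / 50000)) (K := (10767 / 10000))
      (σ0 := 0) (σ1 := (17913 / 10000)) (hh := (12939 / 10000)) (vb := (3447 / 10000)) (E := (44341 / 25000)) (t0 := (2849 / 100000)) (W := (1879 / 2500)) (θ := 0)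
      (p0 := (7 / 2) ^ 2) (r0 := -(282 / 100)) hl' hlb hTa hTb
      (exp_lo (by norm_num) (by norm_num)) (exp_hi (by norm_num) (by norm_num) (by norm_num)) (exp_hi (by norm_num) (by norm_num) (by norm_num))
      (Xxi hn h (ξ := (7 / 2)) (by norm_num) (by norm_num) (le_trans (by norm_num) ((exp_lo (y := (159 / 250)) (E := (18889 / 10000)) (by norm_num) (by norm_num)).trans (Real.exp_le_exp.2 hl'))))
      (by norm_num) (by norm_num) (by norm_num) (by norm_num) (by norm_num) (by norm_num)
  clear hl'
  have hl' := hl''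
  clear hl''
  have hlb := hl9
  exact boxT h hk (a := (96 / 125)) (b := (9 / 10)) (Ta := (3 / 5)) (Tb := (7 / 10)) (ea := (215543 / 100000)) (eb := (122981 / 50000)) (shi := (10547 / 100000)) (K := (5287 / 5000))
    (σ0 := 0) (σ1 := (46 / 25)) (hh := (13417 / 10000)) (vb := (4767 / 10000)) (E := (229637 / 100000)) (t0 := (1639 / 100000)) (W := (15939 / 12500)) (θ := 0)
    (p0 := 25 / 9 * (215543 / 100000) ^ 2) (r0 := 0) hl' hlb hTa hTb
    (exp_lo (by norm_num) (by norm_num)) (exp_hi (by norm_num) (by norm_num) (by norm_num)) (exp_hi (by norm_num) (by norm_num) (by norm_num))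
    (Xbig hn h (lt_of_lt_of_le (by norm_num) ((exp_lo (y := (96 / 125)) (E := (215543 / 100000)) (by norm_num) (by norm_num)).trans (Real.exp_le_exp.2 hl'))) (Or.inr ⟨(215543 / 100000), by norm_num, (exp_lo (y := (96 / 125)) (E := (215543 / 100000)) (by norm_num) (by norm_num)).trans (Real.exp_le_exp.2 hl'), by norm_num⟩))
    (by norm_num) (by norm_num) (by norm_num) (by norm_num) (by norm_num) (by norm_num)

theorem zone2 {n : ℕ} (hn : 23 ≤ n) {s l k : ℝ} (h : FarC n s l k) (hk : 0 ≤ k) (hl9 : l ≤ 9 / 10)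
    (hTa : (7 / 10) ≤ s * Real.exp l) (hTb : s * Real.exp l ≤ (19 / 25)) :
    1 / 100 ≤ Pinf n s l k + 7 / 10 * s ^ 2 := by
  have hl' : (417 / 1000) ≤ l := l_lo h (Tb := (19 / 25)) (by norm_num) hTb (by norm_num)
  rcases le_total l (231 / 500) with hlb | hl''
  · exact boxT h hk (a := (417 / 1000)) (b := (231 / 500)) (Ta := (7 / 10)) (Tb := (19 / 25)) (ea := (7587 / 5000)) (eb := (6349 / 4000)) (shi := (12543 / 50000)) (K := (5777 / 5000))
      (σ0 := (19449 / 100000)) (σ1 := 0) (hh := (17479 / 10000)) (vb := (28 / 625)) (E := (103559 / 100000)) (t0 := (1859 / 5000)) (W := (559 / 25000)) (θ := 0)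
      (p0 := (12567 / 5000) ^ 2) (r0 := -(282 / 100)) hl' hlb hTa hTb
      (exp_lo (by norm_num) (by norm_num)) (exp_hi (by norm_num) (by norm_num) (by norm_num)) (exp_hi (by norm_num) (by norm_num) (by norm_num))
      (Xxi hn h (ξ := (12567 / 5000)) (by norm_num) (by norm_num) (le_trans (by norm_num) ((exp_lo (y := (417 / 1000)) (E := (7587 / 5000)) (by norm_num) (by norm_num)).trans (Real.exp_le_exp.2 hl'))))
      (by norm_num) (by norm_num) (by norm_num) (by norm_num) (by norm_num) (by norm_num)
  clear hl'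
  have hl' := hl''
  clear hl''
  rcases le_total l (99 / 200) with hlb | hl''
  · exact boxT h hk (a := (231 / 500)) (b := (99 / 200)) (Ta := (7 / 10)) (Tb := (19 / 25)) (ea := (39681 / 25000)) (eb := (3281 / 2000)) (shi := (22927 / 100000)) (K := (11391 / 10000))
      (σ0 := 0) (σ1 := (3297 / 2000)) (hh := (17983 / 10000)) (vb := (389 / 5000)) (E := (13567 / 12500)) (t0 := (2243 / 10000)) (W := (3311 / 50000)) (θ := 0)
      (p0 := (27047 / 10000) ^ 2) (r0 := -(282 / 100)) hl' hlb hTa hTb
      (exp_lo (by norm_num) (by norm_num)) (exp_hi (by norm_num) (by norm_num) (by norm_num)) (exp_hi (by norm_num) (by norm_num) (by norm_num))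
      (Xxi hn h (ξ := (27047 / 10000)) (by norm_num) (by norm_num) (le_trans (by norm_num) ((exp_lo (y := (231 / 500)) (E := (39681 / 25000)) (by norm_num) (by norm_num)).trans (Real.exp_le_exp.2 hl'))))
      (by norm_num) (by norm_num) (by norm_num) (by norm_num) (by norm_num) (by norm_num)
  clear hl'
  have hl' := hl''
  clear hl''
  rcases le_total l (267 / 500) with hlb | hl''
  · exact boxT h hk (a := (99 / 200)) (b := (267 / 500)) (Ta := (7 / 10)) (Tb := (19 / 25)) (ea := (164049 / 100000)) (eb := (6823 / 4000)) (shi := (21463 / 100000)) (K := (2821 / 2500))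
      (σ0 := 0) (σ1 := (3343 / 2000)) (hh := (733 / 400)) (vb := (73 / 625)) (E := (115727 / 100000)) (t0 := (7021 / 50000)) (W := (13519 / 100000)) (θ := 0)
      (p0 := (14253 / 5000) ^ 2) (r0 := -(282 / 100)) hl' hlb hTa hTb
      (exp_lo (by norm_num) (by norm_num)) (exp_hi (by norm_num) (by norm_num) (by norm_num)) (exp_hi (by norm_num) (by norm_num) (by norm_num))
      (Xxi hn h (ξ := (14253 / 5000)) (by norm_num) (by norm_num) (le_trans (by norm_num) ((exp_lo (y := (99 / 200)) (E := (164049 / 100000)) (by norm_num) (by norm_num)).trans (Real.exp_le_exp.2 hl'))))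
      (by norm_num) (by norm_num) (by norm_num) (by norm_num) (by norm_num) (by norm_num)
  clear hl'
  have hl' := hl''
  clear hl''
  rcases le_total l (587 / 1000) with hlb | hl''
  · exact boxT h hk (a := (267 / 500)) (b := (587 / 1000)) (Ta := (7 / 10)) (Tb := (19 / 25)) (ea := (170573 / 100000)) (eb := (179859 / 100000)) (shi := (19853 / 100000)) (K := (11171 / 10000))
      (σ0 := 0) (σ1 := (3393 / 2000)) (hh := (187 / 100)) (vb := (849 / 5000)) (E := (25437 / 20000)) (t0 := (8521 / 100000)) (W := (24869 / 100000)) (θ := 0)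
      (p0 := (30293 / 10000) ^ 2) (r0 := -(282 / 100)) hl' hlb hTa hTb
      (exp_lo (by norm_num) (by norm_num)) (exp_hi (by norm_num) (by norm_num) (by norm_num)) (exp_hi (by norm_num) (by norm_num) (by norm_num))
      (Xxi hn h (ξ := (30293 / 10000)) (by norm_num) (by norm_num) (le_trans (by norm_num) ((exp_lo (y := (267 / 500)) (E := (170573 / 100000)) (by norm_num) (by norm_num)).trans (Real.exp_le_exp.2 hl'))))
      (by norm_num) (by norm_num) (by norm_num) (by norm_num) (by norm_num) (by norm_num)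
  clear hl'
  have hl' := hl''
  clear hl''
  rcases le_total l (27 / 40) with hlb | hl''
  · exact boxT h hk (a := (587 / 1000)) (b := (27 / 40)) (Ta := (7 / 10)) (Tb := (19 / 25)) (ea := (179857 / 100000)) (eb := (49101 / 25000)) (shi := (558 / 3125)) (K := (5517 / 5000))
      (σ0 := 0) (σ1 := (4319 / 2500)) (hh := (9583 / 5000)) (vb := (1289 / 5000)) (E := (30001 / 20000)) (t0 := (57 / 1250)) (W := (1909 / 4000)) (θ := 0)
      (p0 := (32837 / 10000) ^ 2) (r0 := -(282 / 100)) hl' hlb hTa hTb
      (exp_lo (by norm_num) (by norm_num)) (exp_hi (by norm_num) (by norm_num) (by norm_num)) (exp_hi (by norm_num) (by norm_num) (by norm_num))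
      (Xxi hn h (ξ := (32837 / 10000)) (by norm_num) (by norm_num) (le_trans (by norm_num) ((exp_lo (y := (587 / 1000)) (E := (179857 / 100000)) (by norm_num) (by norm_num)).trans (Real.exp_le_exp.2 hl'))))
      (by norm_num) (by norm_num) (by norm_num) (by norm_num) (by norm_num) (by norm_num)
  clear hl'
  have hl' := hl''
  clear hl''
  rcases le_total l (403 / 500) with hlb | hl''
  · exact boxT h hk (a := (27 / 40)) (b := (403 / 500)) (Ta := (7 / 10)) (Tb := (19 / 25)) (ea := (98201 / 50000)) (eb := (111947 / 50000)) (shi := (7487 / 50000)) (K := (2169 / 2000))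
      (σ0 := 0) (σ1 := (17723 / 10000)) (hh := (19839 / 10000)) (vb := (243 / 625)) (E := (193279 / 100000)) (t0 := (2327 / 100000)) (W := (22777 / 25000)) (θ := 0)
      (p0 := 49 / 4) (r0 := 0) hl' hlb hTa hTb
      (exp_lo (by norm_num) (by norm_num)) (exp_hi (by norm_num) (by norm_num) (by norm_num)) (exp_hi (by norm_num) (by norm_num) (by norm_num))
      (Xbig hn h (lt_of_lt_of_le (by norm_num) ((exp_lo (y := (27 / 40)) (E := (98201 / 50000)) (by norm_num) (by norm_num)).trans (Real.exp_le_exp.2 hl'))) (Or.inl (by norm_num)))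
      (by norm_num) (by norm_num) (by norm_num) (by norm_num) (by norm_num) (by norm_num)
  clear hl'
  have hl' := hl''
  clear hl''
  have hlb := hl9
  exact boxT h hk (a := (403 / 500)) (b := (9 / 10)) (Ta := (7 / 10)) (Tb := (19 / 25)) (ea := (223891 / 100000)) (eb := (122981 / 50000)) (shi := (11523 / 100000)) (K := (1329 / 1250))
    (σ0 := 0) (σ1 := (4563 / 2500)) (hh := (5161 / 2500)) (vb := (1207 / 2500)) (E := (23241 / 10000)) (t0 := (1603 / 100000)) (W := (130287 / 100000)) (θ := 0)
    (p0 := 25 / 9 * (223891 / 100000) ^ 2) (r0 := 0) hl' hlb hTa hTb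
    (exp_lo (by norm_num) (by norm_num)) (exp_hi (by norm_num) (by norm_num) (by norm_num)) (exp_hi (by norm_num) (by norm_num) (by norm_num))
    (Xbig hn h (lt_of_lt_of_le (by norm_num) ((exp_lo (y := (403 / 500)) (E := (223891 / 100000)) (by norm_num) (by norm_num)).trans (Real.exp_le_exp.2 hl'))) (Or.inr ⟨(223891 / 100000), by norm_num, (exp_lo (y := (403 / 500)) (E := (223891 / 100000)) (by norm_num) (by norm_num)).trans (Real.exp_le_exp.2 hl'), by norm_num⟩))
    (by norm_num) (by norm_num) (by norm_num) (by norm_num) (by norm_num) (by norm_num)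

theorem zone3 {n : ℕ} (hn : 23 ≤ n) {s l k : ℝ} (h : FarC n s l k) (hk : 0 ≤ k) (hl9 : l ≤ 9 / 10)
    (hTa : (19 / 25) ≤ s * Real.exp l) (hTb : s * Real.exp l ≤ (4 / 5)) :
    1 / 100 ≤ Pinf n s l k + 7 / 10 * s ^ 2 := by
  have hl' : (41 / 100) ≤ l := l_lo h (Tb := (4 / 5)) (by norm_num) hTb (by norm_num)
  rcases le_total l (227 / 500) with hlb | hl''
  · exact boxT h hk (a := (41 / 100)) (b := (227 / 500)) (Ta := (19 / 25)) (Tb := (4 / 5)) (ea := (150681 / 100000)) (eb := (7873 / 5000)) (shi := (7047 / 25000)) (K := (11801 / 10000))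
      (σ0 := (728 / 3125)) (σ1 := 0) (hh := (1137 / 500)) (vb := (433 / 10000)) (E := (20673 / 20000)) (t0 := (38171 / 100000)) (W := (2081 / 100000)) (θ := 0)
      (p0 := 0) (r0 := 24) hl' hlb hTa hTb
      (exp_lo (by norm_num) (by norm_num)) (exp_hi (by norm_num) (by norm_num) (by norm_num)) (exp_hi (by norm_num) (by norm_num) (by norm_num))
      (X24 hn s)
      (by norm_num) (by norm_num) (by norm_num) (by norm_num) (by norm_num) (by norm_num)
  clear hl'
  have hl' := hl''
  clear hl''
  rcases le_total l (481 / 1000) with hlb | hl''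
  · exact boxT h hk (a := (227 / 500)) (b := (481 / 1000)) (Ta := (19 / 25)) (Tb := (4 / 5)) (ea := (157459 / 100000)) (eb := (16177 / 10000)) (shi := (12907 / 50000)) (K := (11611 / 10000))
      (σ0 := 0) (σ1 := (1603 / 1000)) (hh := (5873 / 2500)) (vb := (703 / 10000)) (E := (1073 / 1000)) (t0 := (24893 / 100000)) (W := (5483 / 100000)) (θ := 0)
      (p0 := (26701 / 10000) ^ 2) (r0 := -(282 / 100)) hl' hlb hTa hTb
      (exp_lo (by norm_num) (by norm_num)) (exp_hi (by norm_num) (by norm_num) (by norm_num)) (exp_hi (by norm_num) (by norm_num) (by norm_num))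
      (Xxi hn h (ξ := (26701 / 10000)) (by norm_num) (by norm_num) (le_trans (by norm_num) ((exp_lo (y := (227 / 500)) (E := (157459 / 100000)) (by norm_num) (by norm_num)).trans (Real.exp_le_exp.2 hl'))))
      (by norm_num) (by norm_num) (by norm_num) (by norm_num) (by norm_num) (by norm_num)
  clear hl'
  have hl' := hl''
  clear hl''
  rcases le_total l (51 / 100) with hlb | hl''
  · exact boxT h hk (a := (481 / 1000)) (b := (51 / 100)) (Ta := (19 / 25)) (Tb := (4 / 5)) (ea := (20221 / 12500)) (eb := (16653 / 10000)) (shi := (24457 / 100000)) (K := (5753 / 5000))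
      (σ0 := 0) (σ1 := (4061 / 2500)) (hh := (23921 / 10000)) (vb := (993 / 10000)) (E := (22471 / 20000)) (t0 := (3419 / 20000)) (W := (10243 / 100000)) (θ := 0)
      (p0 := (27881 / 10000) ^ 2) (r0 := -(282 / 100)) hl' hlb hTa hTb
      (exp_lo (by norm_num) (by norm_num)) (exp_hi (by norm_num) (by norm_num) (by norm_num)) (exp_hi (by norm_num) (by norm_num) (by norm_num))
      (Xxi hn h (ξ := (27881 / 10000)) (by norm_num) (by norm_num) (le_trans (by norm_num) ((exp_lo (y := (481 / 1000)) (E := (20221 / 12500)) (by norm_num) (by norm_num)).trans (Real.exp_le_exp.2 hl'))))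
      (by norm_num) (by norm_num) (by norm_num) (by norm_num) (by norm_num) (by norm_num)
  clear hl'
  have hl' := hl''
  clear hl''
  rcases le_total l (109 / 200) with hlb | hl''
  · exact boxT h hk (a := (51 / 100)) (b := (109 / 200)) (Ta := (19 / 25)) (Tb := (4 / 5)) (ea := (5204 / 3125)) (eb := (172461 / 100000)) (shi := (23079 / 100000)) (K := (5701 / 5000))
      (σ0 := 0) (σ1 := (8231 / 5000)) (hh := (12179 / 5000)) (vb := (1343 / 10000)) (E := (7457 / 6250)) (t0 := (11739 / 100000)) (W := (3409 / 20000)) (θ := 0)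
      (p0 := (5837 / 2000) ^ 2) (r0 := -(282 / 100)) hl' hlb hTa hTb
      (exp_lo (by norm_num) (by norm_num)) (exp_hi (by norm_num) (by norm_num) (by norm_num)) (exp_hi (by norm_num) (by norm_num) (by norm_num))
      (Xxi hn h (ξ := (5837 / 2000)) (by norm_num) (by norm_num) (le_trans (by norm_num) ((exp_lo (y := (51 / 100)) (E := (5204 / 3125)) (by norm_num) (by norm_num)).trans (Real.exp_le_exp.2 hl'))))
      (by norm_num) (by norm_num) (by norm_num) (by norm_num) (by norm_num) (by norm_num)
  clear hl'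
  have hl' := hl''
  clear hl''
  rcases le_total l (149 / 250) with hlb | hl''
  · exact boxT h hk (a := (109 / 200)) (b := (149 / 250)) (Ta := (19 / 25)) (Tb := (4 / 5)) (ea := (8623 / 5000)) (eb := (36297 / 20000)) (shi := (21519 / 100000)) (K := (11289 / 10000))
      (σ0 := 0) (σ1 := (1044 / 625)) (hh := (6213 / 2500)) (vb := (1853 / 10000)) (E := (8179 / 6250)) (t0 := (7517 / 100000)) (W := (892 / 3125)) (θ := 0)
      (p0 := (3081 / 1000) ^ 2) (r0 := -(282 / 100)) hl' hlb hTa hTb
      (exp_lo (by norm_num) (by norm_num)) (exp_hi (by norm_num) (by norm_num) (by norm_num)) (exp_hi (by norm_num) (by norm_num) (by norm_num))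
      (Xxi hn h (ξ := (3081 / 1000)) (by norm_num) (by norm_num) (le_trans (by norm_num) ((exp_lo (y := (109 / 200)) (E := (8623 / 5000)) (by norm_num) (by norm_num)).trans (Real.exp_le_exp.2 hl'))))
      (by norm_num) (by norm_num) (by norm_num) (by norm_num) (by norm_num) (by norm_num)
  clear hl'
  have hl' := hl''
  clear hl''
  rcases le_total l (341 / 500) with hlb | hl''
  · exact boxT h hk (a := (149 / 250)) (b := (341 / 500)) (Ta := (19 / 25)) (Tb := (4 / 5)) (ea := (181483 / 100000)) (eb := (24723 / 12500)) (shi := (2429 / 12500)) (K := (11141 / 10000))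
      (σ0 := 0) (σ1 := (2129 / 1250)) (hh := (25513 / 10000)) (vb := (2713 / 10000)) (E := (19241 / 12500)) (t0 := (2103 / 50000)) (W := (2583 / 5000)) (θ := 0)
      (p0 := (33283 / 10000) ^ 2) (r0 := -(282 / 100)) hl' hlb hTa hTb
      (exp_lo (by norm_num) (by norm_num)) (exp_hi (by norm_num) (by norm_num) (by norm_num)) (exp_hi (by norm_num) (by norm_num) (by norm_num))
      (Xxi hn h (ξ := (33283 / 10000)) (by norm_num) (by norm_num) (le_trans (by norm_num) ((exp_lo (y := (149 / 250)) (E := (181483 / 100000)) (by norm_num) (by norm_num)).trans (Real.exp_le_exp.2 hl'))))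
      (by norm_num) (by norm_num) (by norm_num) (by norm_num) (by norm_num) (by norm_num)
  clear hl'
  have hl' := hl''
  clear hl''
  rcases le_total l (161 / 200) with hlb | hl''
  · exact boxT h hk (a := (341 / 500)) (b := (161 / 200)) (Ta := (19 / 25)) (Tb := (4 / 5)) (ea := (98891 / 50000)) (eb := (223671 / 100000)) (shi := (16361 / 100000)) (K := (2187 / 2000))
      (σ0 := 0) (σ1 := (17507 / 10000)) (hh := (5297 / 2000)) (vb := (3943 / 10000)) (E := (195367 / 100000)) (t0 := (71 / 3125)) (W := (233 / 250)) (θ := 0)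
      (p0 := 49 / 4) (r0 := 0) hl' hlb hTa hTb
      (exp_lo (by norm_num) (by norm_num)) (exp_hi (by norm_num) (by norm_num) (by norm_num)) (exp_hi (by norm_num) (by norm_num) (by norm_num))
      (Xbig hn h (lt_of_lt_of_le (by norm_num) ((exp_lo (y := (341 / 500)) (E := (98891 / 50000)) (by norm_num) (by norm_num)).trans (Real.exp_le_exp.2 hl'))) (Or.inl (by norm_num)))
      (by norm_num) (by norm_num) (by norm_num) (by norm_num) (by norm_num) (by norm_num)
  clear hl'
  have hl' := hl''
  clear hl''
  have hlb := hl9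
  exact boxT h hk (a := (161 / 200)) (b := (9 / 10)) (Ta := (19 / 25)) (Tb := (4 / 5)) (ea := (223667 / 100000)) (eb := (122981 / 50000)) (shi := (6397 / 50000)) (K := (10709 / 10000))
    (σ0 := 0) (σ1 := (18057 / 10000)) (hh := (5523 / 2000)) (vb := (4893 / 10000)) (E := (117701 / 50000)) (t0 := (783 / 50000)) (W := (66641 / 50000)) (θ := 0)
    (p0 := 25 / 9 * (223667 / 100000) ^ 2) (r0 := 0) hl' hlb hTa hTb
    (exp_lo (by norm_num) (by norm_num)) (exp_hi (by norm_num) (by norm_num) (by norm_num)) (exp_hi (by norm_num) (by norm_num) (by norm_num))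
    (Xbig hn h (lt_of_lt_of_le (by norm_num) ((exp_lo (y := (161 / 200)) (E := (223667 / 100000)) (by norm_num) (by norm_num)).trans (Real.exp_le_exp.2 hl'))) (Or.inr ⟨(223667 / 100000), by norm_num, (exp_lo (y := (161 / 200)) (E := (223667 / 100000)) (by norm_num) (by norm_num)).trans (Real.exp_le_exp.2 hl'), by norm_num⟩))
    (by norm_num) (by norm_num) (by norm_num) (by norm_num) (by norm_num) (by norm_num)

theorem zone4 {n : ℕ} (hn : 23 ≤ n) {s l k : ℝ} (h : FarC n s l k) (hk : 0 ≤ k) (hl9 : l ≤ 9 / 10)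
    (hTa : (4 / 5) ≤ s * Real.exp l) (hTb : s * Real.exp l ≤ (83 / 100)) :
    1 / 100 ≤ Pinf n s l k + 7 / 10 * s ^ 2 := by
  have hl' : (101 / 250) ≤ l := l_lo h (Tb := (83 / 100)) (by norm_num) hTb (by norm_num)
  rcases le_total l (113 / 250) with hlb | hl''
  · exact boxT h hk (a := (101 / 250)) (b := (113 / 250)) (Ta := (4 / 5)) (Tb := (83 / 100)) (ea := (7489 / 5000)) (eb := (78573 / 50000)) (shi := (7677 / 25000)) (K := (6007 / 5000))
      (σ0 := (6479 / 25000)) (σ1 := 0) (hh := (6929 / 2500)) (vb := (6 / 125)) (E := (103983 / 100000)) (t0 := (35191 / 100000)) (W := (1291 / 50000)) (θ := 0)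
      (p0 := 0) (r0 := 24) hl' hlb hTa hTb
      (exp_lo (by norm_num) (by norm_num)) (exp_hi (by norm_num) (by norm_num) (by norm_num)) (exp_hi (by norm_num) (by norm_num) (by norm_num))
      (X24 hn s)
      (by norm_num) (by norm_num) (by norm_num) (by norm_num) (by norm_num) (by norm_num)
  clear hl'
  have hl' := hl''
  clear hl''
  rcases le_total l (59 / 125) with hlb | hl''
  · exact boxT h hk (a := (113 / 250)) (b := (59 / 125)) (Ta := (4 / 5)) (Tb := (83 / 100)) (ea := (31429 / 20000)) (eb := (1002 / 625)) (shi := (27897 / 100000)) (K := (11777 / 10000))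
      (σ0 := (249 / 1000)) (σ1 := 0) (hh := (28841 / 10000)) (vb := (17 / 250)) (E := (26733 / 25000)) (t0 := (25729 / 100000)) (W := (5149 / 100000)) (θ := 0)
      (p0 := (5323 / 2000) ^ 2) (r0 := -(282 / 100)) hl' hlb hTa hTb
      (exp_lo (by norm_num) (by norm_num)) (exp_hi (by norm_num) (by norm_num) (by norm_num)) (exp_hi (by norm_num) (by norm_num) (by norm_num))
      (Xxi hn h (ξ := (5323 / 2000)) (by norm_num) (by norm_num) (le_trans (by norm_num) ((exp_lo (y := (113 / 250)) (E := (31429 / 20000)) (by norm_num) (by norm_num)).trans (Real.exp_le_exp.2 hl'))))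
      (by norm_num) (by norm_num) (by norm_num) (by norm_num) (by norm_num) (by norm_num)
  clear hl'
  have hl' := hl''
  clear hl''
  rcases le_total l (493 / 1000) with hlb | hl''
  · exact boxT h hk (a := (59 / 125)) (b := (493 / 1000)) (Ta := (4 / 5)) (Tb := (83 / 100)) (ea := (160319 / 100000)) (eb := (163723 / 100000)) (shi := (6701 / 25000)) (K := (11689 / 10000))
      (σ0 := 0) (σ1 := (15873 / 10000)) (hh := (14639 / 5000)) (vb := (89 / 1000)) (E := (110477 / 100000)) (t0 := (9691 / 50000)) (W := (8447 / 100000)) (θ := 0)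
      (p0 := (6871 / 2500) ^ 2) (r0 := -(282 / 100)) hl' hlb hTa hTb
      (exp_lo (by norm_num) (by norm_num)) (exp_hi (by norm_num) (by norm_num) (by norm_num)) (exp_hi (by norm_num) (by norm_num) (by norm_num))
      (Xxi hn h (ξ := (6871 / 2500)) (by norm_num) (by norm_num) (le_trans (by norm_num) ((exp_lo (y := (59 / 125)) (E := (160319 / 100000)) (by norm_num) (by norm_num)).trans (Real.exp_le_exp.2 hl'))))
      (by norm_num) (by norm_num) (by norm_num) (by norm_num) (by norm_num) (by norm_num)
  clear hl'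
  have hl' := hl''
  clear hl''
  rcases le_total l (129 / 250) with hlb | hl''
  · exact boxT h hk (a := (493 / 1000)) (b := (129 / 250)) (Ta := (4 / 5)) (Tb := (83 / 100)) (ea := (163721 / 100000)) (eb := (41883 / 25000)) (shi := (25701 / 100000)) (K := (5801 / 5000))
      (σ0 := 0) (σ1 := (1003 / 625)) (hh := (29719 / 10000)) (vb := (14 / 125)) (E := (5739 / 5000)) (t0 := (1849 / 12500)) (W := (6297 / 50000)) (θ := 0)
      (p0 := (1776 / 625) ^ 2) (r0 := -(282 / 100)) hl' hlb hTa hTb
      (exp_lo (by norm_num) (by norm_num)) (exp_hi (by norm_num) (by norm_num) (by norm_num)) (exp_hi (by norm_num) (by norm_num) (by norm_num))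
      (Xxi hn h (ξ := (1776 / 625)) (by norm_num) (by norm_num) (le_trans (by norm_num) ((exp_lo (y := (493 / 1000)) (E := (163721 / 100000)) (by norm_num) (by norm_num)).trans (Real.exp_le_exp.2 hl'))))
      (by norm_num) (by norm_num) (by norm_num) (by norm_num) (by norm_num) (by norm_num)
  clear hl'
  have hl' := hl''
  clear hl''
  rcases le_total l (109 / 200) with hlb | hl''
  · exact boxT h hk (a := (129 / 250)) (b := (109 / 200)) (Ta := (4 / 5)) (Tb := (83 / 100)) (ea := (167531 / 100000)) (eb := (172461 / 100000)) (shi := (12273 / 50000)) (K := (11513 / 10000))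
      (σ0 := 0) (σ1 := (1623 / 1000)) (hh := (30181 / 10000)) (vb := (141 / 1000)) (E := (60369 / 50000)) (t0 := (5503 / 50000)) (W := (2307 / 12500)) (θ := 0)
      (p0 := (1473 / 500) ^ 2) (r0 := -(282 / 100)) hl' hlb hTa hTb
      (exp_lo (by norm_num) (by norm_num)) (exp_hi (by norm_num) (by norm_num) (by norm_num)) (exp_hi (by norm_num) (by norm_num) (by norm_num))
      (Xxi hn h (ξ := (1473 / 500)) (by norm_num) (by norm_num) (le_trans (by norm_num) ((exp_lo (y := (129 / 250)) (E := (167531 / 100000)) (by norm_num) (by norm_num)).trans (Real.exp_le_exp.2 hl'))))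
      (by norm_num) (by norm_num) (by norm_num) (by norm_num) (by norm_num) (by norm_num)
  clear hl'
  have hl' := hl''
  clear hl''
  rcases le_total l (587 / 1000) with hlb | hl''
  · exact boxT h hk (a := (109 / 200)) (b := (587 / 1000)) (Ta := (4 / 5)) (Tb := (83 / 100)) (ea := (8623 / 5000)) (eb := (179859 / 100000)) (shi := (23163 / 100000)) (K := (11409 / 10000))
      (σ0 := 0) (σ1 := (16447 / 10000)) (hh := (15367 / 5000)) (vb := (183 / 1000)) (E := (130309 / 100000)) (t0 := (1531 / 20000)) (W := (27989 / 100000)) (θ := 0)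
      (p0 := (3081 / 1000) ^ 2) (r0 := -(282 / 100)) hl' hlb hTa hTb
      (exp_lo (by norm_num) (by norm_num)) (exp_hi (by norm_num) (by norm_num) (by norm_num)) (exp_hi (by norm_num) (by norm_num) (by norm_num))
      (Xxi hn h (ξ := (3081 / 1000)) (by norm_num) (by norm_num) (le_trans (by norm_num) ((exp_lo (y := (109 / 200)) (E := (8623 / 5000)) (by norm_num) (by norm_num)).trans (Real.exp_le_exp.2 hl'))))
      (by norm_num) (by norm_num) (by norm_num) (by norm_num) (by norm_num) (by norm_num)
  clear hl'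
  have hl' := hl''
  clear hl''
  rcases le_total l (657 / 1000) with hlb | hl''
  · exact boxT h hk (a := (587 / 1000)) (b := (657 / 1000)) (Ta := (4 / 5)) (Tb := (83 / 100)) (ea := (179857 / 100000)) (eb := (1929 / 1000)) (shi := (21297 / 100000)) (K := (11273 / 10000))
      (σ0 := 0) (σ1 := (16739 / 10000)) (hh := (31481 / 10000)) (vb := (253 / 1000)) (E := (74319 / 50000)) (t0 := (587 / 12500)) (W := (23177 / 50000)) (θ := 0)
      (p0 := (32837 / 10000) ^ 2) (r0 := -(282 / 100)) hl' hlb hTa hTb
      (exp_lo (by norm_num) (by norm_num)) (exp_hi (by norm_num) (by norm_num) (by norm_num)) (exp_hi (by norm_num) (by norm_num) (by norm_num))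
      (Xxi hn h (ξ := (32837 / 10000)) (by norm_num) (by norm_num) (le_trans (by norm_num) ((exp_lo (y := (587 / 1000)) (E := (179857 / 100000)) (by norm_num) (by norm_num)).trans (Real.exp_le_exp.2 hl'))))
      (by norm_num) (by norm_num) (by norm_num) (by norm_num) (by norm_num) (by norm_num)
  clear hl'
  have hl' := hl''
  clear hl''
  rcases le_total l (19 / 25) with hlb | hl''
  · exact boxT h hk (a := (657 / 1000)) (b := (19 / 25)) (Ta := (4 / 5)) (Tb := (83 / 100)) (ea := (96449 / 50000)) (eb := (53457 / 25000)) (shi := (3703 / 20000)) (K := (5539 / 5000))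
      (σ0 := 0) (σ1 := (687 / 400)) (hh := (16297 / 5000)) (vb := (89 / 250)) (E := (36261 / 20000)) (t0 := (27 / 1000)) (W := (7911 / 10000)) (θ := 0)
      (p0 := (7 / 2) ^ 2) (r0 := -(282 / 100)) hl' hlb hTa hTb
      (exp_lo (by norm_num) (by norm_num)) (exp_hi (by norm_num) (by norm_num) (by norm_num)) (exp_hi (by norm_num) (by norm_num) (by norm_num))
      (Xxi hn h (ξ := (7 / 2)) (by norm_num) (by norm_num) (le_trans (by norm_num) ((exp_lo (y := (657 / 1000)) (E := (96449 / 50000)) (by norm_num) (by norm_num)).trans (Real.exp_le_exp.2 hl'))))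
      (by norm_num) (by norm_num) (by norm_num) (by norm_num) (by norm_num) (by norm_num)
  clear hl'
  have hl' := hl''
  clear hl''
  rcases le_total l (22 / 25) with hlb | hl''
  · exact boxT h hk (a := (19 / 25)) (b := (22 / 25)) (Ta := (4 / 5)) (Tb := (83 / 100)) (ea := (106913 / 50000)) (eb := (241091 / 100000)) (shi := (3767 / 25000)) (K := (10851 / 10000))
      (σ0 := 0) (σ1 := (4427 / 2500)) (hh := (8493 / 2500)) (vb := (119 / 250)) (E := (229321 / 100000)) (t0 := (1643 / 100000)) (W := (31799 / 25000)) (θ := 0)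
      (p0 := 25 / 9 * (106913 / 50000) ^ 2) (r0 := 0) hl' hlb hTa hTb
      (exp_lo (by norm_num) (by norm_num)) (exp_hi (by norm_num) (by norm_num) (by norm_num)) (exp_hi (by norm_num) (by norm_num) (by norm_num))
      (Xbig hn h (lt_of_lt_of_le (by norm_num) ((exp_lo (y := (19 / 25)) (E := (106913 / 50000)) (by norm_num) (by norm_num)).trans (Real.exp_le_exp.2 hl'))) (Or.inr ⟨(106913 / 50000), by norm_num, (exp_lo (y := (19 / 25)) (E := (106913 / 50000)) (by norm_num) (by norm_num)).trans (Real.exp_le_exp.2 hl'), by norm_num⟩))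
      (by norm_num) (by norm_num) (by norm_num) (by norm_num) (by norm_num) (by norm_num)
  clear hl'
  have hl' := hl''
  clear hl''
  have hlb := hl9
  exact boxT h hk (a := (22 / 25)) (b := (9 / 10)) (Ta := (4 / 5)) (Tb := (83 / 100)) (ea := (120543 / 50000)) (eb := (122981 / 50000)) (shi := (11853 / 100000)) (K := (2663 / 2500))
    (σ0 := 0) (σ1 := (18201 / 10000)) (hh := (17629 / 5000)) (vb := (62 / 125)) (E := (238529 / 100000)) (t0 := (1529 / 100000)) (W := (136411 / 100000)) (θ := 0)
    (p0 := 25 / 9 * (120543 / 50000) ^ 2) (r0 := 0) hl' hlb hTa hTb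
    (exp_lo (by norm_num) (by norm_num)) (exp_hi (by norm_num) (by norm_num) (by norm_num)) (exp_hi (by norm_num) (by norm_num) (by norm_num))
    (Xbig hn h (lt_of_lt_of_le (by norm_num) ((exp_lo (y := (22 / 25)) (E := (120543 / 50000)) (by norm_num) (by norm_num)).trans (Real.exp_le_exp.2 hl'))) (Or.inr ⟨(120543 / 50000), by norm_num, (exp_lo (y := (22 / 25)) (E := (120543 / 50000)) (by norm_num) (by norm_num)).trans (Real.exp_le_exp.2 hl'), by norm_num⟩))
    (by norm_num) (by norm_num) (by norm_num) (by norm_num) (by norm_num) (by norm_num)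

theorem zone5 {n : ℕ} (hn : 23 ≤ n) {s l k : ℝ} (h : FarC n s l k) (hk : 0 ≤ k) (hl9 : l ≤ 9 / 10)
    (hTa : (83 / 100) ≤ s * Real.exp l) (hTb : s * Real.exp l ≤ (43 / 50)) :
    1 / 100 ≤ Pinf n s l k + 7 / 10 * s ^ 2 := by
  have hl' : (79 / 200) ≤ l := l_lo h (Tb := (43 / 50)) (by norm_num) hTb (by norm_num)
  rcases le_total l (223 / 500) with hlb | hl''
  · exact boxT h hk (a := (79 / 200)) (b := (223 / 500)) (Ta := (83 / 100)) (Tb := (43 / 50)) (ea := (74219 / 50000)) (eb := (78103 / 50000)) (shi := (33567 / 100000)) (K := (12269 / 10000))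
      (σ0 := (28233 / 100000)) (σ1 := 0) (hh := (16217 / 5000)) (vb := (101 / 2000)) (E := (26081 / 25000)) (t0 := (6749 / 20000)) (W := (573 / 20000)) (θ := 0)
      (p0 := 0) (r0 := 24) hl' hlb hTa hTb
      (exp_lo (by norm_num) (by norm_num)) (exp_hi (by norm_num) (by norm_num) (by norm_num)) (exp_hi (by norm_num) (by norm_num) (by norm_num))
      (X24 hn s)
      (by norm_num) (by norm_num) (by norm_num) (by norm_num) (by norm_num) (by norm_num)
  clear hl'
  have hl' := hl''
  clear hl''
  rcases le_total l (58 / 125) with hlb | hl''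
  · exact boxT h hk (a := (223 / 500)) (b := (58 / 125)) (Ta := (83 / 100)) (Tb := (43 / 50)) (ea := (39051 / 25000)) (eb := (159043 / 100000)) (shi := (3789 / 12500)) (K := (599 / 500))
      (σ0 := (13617 / 50000)) (σ1 := 0) (hh := (4253 / 1250)) (vb := (137 / 2000)) (E := (107011 / 100000)) (t0 := (3193 / 12500)) (W := (5221 / 100000)) (θ := 0)
      (p0 := 0) (r0 := 24) hl' hlb hTa hTb
      (exp_lo (by norm_num) (by norm_num)) (exp_hi (by norm_num) (by norm_num) (by norm_num)) (exp_hi (by norm_num) (by norm_num) (by norm_num))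
      (X24 hn s)
      (by norm_num) (by norm_num) (by norm_num) (by norm_num) (by norm_num) (by norm_num)
  clear hl'
  have hl' := hl''
  clear hl''
  rcases le_total l (119 / 250) with hlb | hl''
  · exact boxT h hk (a := (58 / 125)) (b := (119 / 250)) (Ta := (83 / 100)) (Tb := (43 / 50)) (ea := (79521 / 50000)) (eb := (160963 / 100000)) (shi := (731 / 2500)) (K := (743 / 625))
      (σ0 := 0) (σ1 := (15487 / 10000)) (hh := (34547 / 10000)) (vb := (161 / 2000)) (E := (54497 / 50000)) (t0 := (21633 / 100000)) (W := (7049 / 100000)) (θ := 0)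
      (p0 := (13567 / 5000) ^ 2) (r0 := -(282 / 100)) hl' hlb hTa hTb
      (exp_lo (by norm_num) (by norm_num)) (exp_hi (by norm_num) (by norm_num) (by norm_num)) (exp_hi (by norm_num) (by norm_num) (by norm_num))
      (Xxi hn h (ξ := (13567 / 5000)) (by norm_num) (by norm_num) (le_trans (by norm_num) ((exp_lo (y := (58 / 125)) (E := (79521 / 50000)) (by norm_num) (by norm_num)).trans (Real.exp_le_exp.2 hl'))))
      (by norm_num) (by norm_num) (by norm_num) (by norm_num) (by norm_num) (by norm_num)
  clear hl'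
  have hl' := hl''
  clear hl''
  rcases le_total l (61 / 125) with hlb | hl''
  · exact boxT h hk (a := (119 / 250)) (b := (61 / 125)) (Ta := (83 / 100)) (Tb := (43 / 50)) (ea := (80481 / 50000)) (eb := (81453 / 50000)) (shi := (28547 / 100000)) (K := (11831 / 10000))
      (σ0 := 0) (σ1 := (3899 / 2500)) (hh := (6977 / 2000)) (vb := (37 / 400)) (E := (55553 / 50000)) (t0 := (4639 / 25000)) (W := (4523 / 50000)) (θ := 0)
      (p0 := (1383 / 500) ^ 2) (r0 := -(282 / 100)) hl' hlb hTa hTb
      (exp_lo (by norm_num) (by norm_num)) (exp_hi (by norm_num) (by norm_num) (by norm_num)) (exp_hi (by norm_num) (by norm_num) (by norm_num))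
      (Xxi hn h (ξ := (1383 / 500)) (by norm_num) (by norm_num) (le_trans (by norm_num) ((exp_lo (y := (119 / 250)) (E := (80481 / 50000)) (by norm_num) (by norm_num)).trans (Real.exp_le_exp.2 hl'))))
      (by norm_num) (by norm_num) (by norm_num) (by norm_num) (by norm_num) (by norm_num)
  clear hl'
  have hl' := hl''
  clear hl''
  rcases le_total l (1 / 2) with hlb | hl''
  · exact boxT h hk (a := (61 / 125)) (b := (1 / 2)) (Ta := (83 / 100)) (Tb := (43 / 50)) (ea := (32581 / 20000)) (eb := (164873 / 100000)) (shi := (2787 / 10000)) (K := (471 / 400))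
      (σ0 := 0) (σ1 := (1963 / 1250)) (hh := (2201 / 625)) (vb := (209 / 2000)) (E := (56667 / 50000)) (t0 := (16091 / 100000)) (W := (11189 / 100000)) (θ := 0)
      (p0 := (28193 / 10000) ^ 2) (r0 := -(282 / 100)) hl' hlb hTa hTb
      (exp_lo (by norm_num) (by norm_num)) (exp_hi (by norm_num) (by norm_num) (by norm_num)) (exp_hi (by norm_num) (by norm_num) (by norm_num))
      (Xxi hn h (ξ := (28193 / 10000)) (by norm_num) (by norm_num) (le_trans (by norm_num) ((exp_lo (y := (61 / 125)) (E := (32581 / 20000)) (by norm_num) (by norm_num)).trans (Real.exp_le_exp.2 hl'))))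
      (by norm_num) (by norm_num) (by norm_num) (by norm_num) (by norm_num) (by norm_num)
  clear hl'
  have hl' := hl''
  clear hl''
  rcases le_total l (257 / 500) with hlb | hl''
  · exact boxT h hk (a := (1 / 2)) (b := (257 / 500)) (Ta := (83 / 100)) (Tb := (43 / 50)) (ea := (164871 / 100000)) (eb := (167197 / 100000)) (shi := (27209 / 100000)) (K := (11721 / 10000))
      (σ0 := 0) (σ1 := (1581 / 1000)) (hh := (35539 / 10000)) (vb := (237 / 2000)) (E := (116067 / 100000)) (t0 := (1379 / 10000)) (W := (3463 / 25000)) (θ := 0)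
      (p0 := (28731 / 10000) ^ 2) (r0 := -(282 / 100)) hl' hlb hTa hTb
      (exp_lo (by norm_num) (by norm_num)) (exp_hi (by norm_num) (by norm_num) (by norm_num)) (exp_hi (by norm_num) (by norm_num) (by norm_num))
      (Xxi hn h (ξ := (28731 / 10000)) (by norm_num) (by norm_num) (le_trans (by norm_num) ((exp_lo (y := (1 / 2)) (E := (164871 / 100000)) (by norm_num) (by norm_num)).trans (Real.exp_le_exp.2 hl'))))
      (by norm_num) (by norm_num) (by norm_num) (by norm_num) (by norm_num) (by norm_num)
  clear hl'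
  have hl' := hl''
  clear hl''
  rcases le_total l (133 / 250) with hlb | hl''
  · exact boxT h hk (a := (257 / 500)) (b := (133 / 250)) (Ta := (83 / 100)) (Tb := (43 / 50)) (ea := (41799 / 25000)) (eb := (85117 / 50000)) (shi := (13229 / 50000)) (K := (11661 / 10000))
      (σ0 := 0) (σ1 := (15929 / 10000)) (hh := (7181 / 2000)) (vb := (273 / 2000)) (E := (119777 / 100000)) (t0 := (1149 / 10000)) (W := (3501 / 20000)) (θ := 0)
      (p0 := (3671 / 1250) ^ 2) (r0 := -(282 / 100)) hl' hlb hTa hTb
      (exp_lo (by norm_num) (by norm_num)) (exp_hi (by norm_num) (by norm_num) (by norm_num)) (exp_hi (by norm_num) (by norm_num) (by norm_num))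
      (Xxi hn h (ξ := (3671 / 1250)) (by norm_num) (by norm_num) (le_trans (by norm_num) ((exp_lo (y := (257 / 500)) (E := (41799 / 25000)) (by norm_num) (by norm_num)).trans (Real.exp_le_exp.2 hl'))))
      (by norm_num) (by norm_num) (by norm_num) (by norm_num) (by norm_num) (by norm_num)
  clear hl'
  have hl' := hl''
  clear hl''
  rcases le_total l (557 / 1000) with hlb | hl''
  · exact boxT h hk (a := (133 / 250)) (b := (557 / 1000)) (Ta := (83 / 100)) (Tb := (43 / 50)) (ea := (170233 / 100000)) (eb := (174543 / 100000)) (shi := (12761 / 50000)) (K := (2897 / 2500))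
      (σ0 := 0) (σ1 := (4019 / 2500)) (hh := (18181 / 5000)) (vb := (323 / 2000)) (E := (62637 / 50000)) (t0 := (9143 / 100000)) (W := (5741 / 25000)) (θ := 0)
      (p0 := (151 / 50) ^ 2) (r0 := -(282 / 100)) hl' hlb hTa hTb
      (exp_lo (by norm_num) (by norm_num)) (exp_hi (by norm_num) (by norm_num) (by norm_num)) (exp_hi (by norm_num) (by norm_num) (by norm_num))
      (Xxi hn h (ξ := (151 / 50)) (by norm_num) (by norm_num) (le_trans (by norm_num) ((exp_lo (y := (133 / 250)) (E := (170233 / 100000)) (by norm_num) (by norm_num)).trans (Real.exp_le_exp.2 hl'))))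
      (by norm_num) (by norm_num) (by norm_num) (by norm_num) (by norm_num) (by norm_num)
  clear hl'
  have hl' := hl''
  clear hl''
  rcases le_total l (149 / 250) with hlb | hl''
  · exact boxT h hk (a := (557 / 1000)) (b := (149 / 250)) (Ta := (83 / 100)) (Tb := (43 / 50)) (ea := (87271 / 50000)) (eb := (36297 / 20000)) (shi := (12139 / 50000)) (K := (2873 / 2500))
      (σ0 := 0) (σ1 := (16273 / 10000)) (hh := (3697 / 1000)) (vb := (401 / 2000)) (E := (134613 / 100000)) (t0 := (837 / 12500)) (W := (4037 / 12500)) (θ := 0)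
      (p0 := (31381 / 10000) ^ 2) (r0 := -(282 / 100)) hl' hlb hTa hTb
      (exp_lo (by norm_num) (by norm_num)) (exp_hi (by norm_num) (by norm_num) (by norm_num)) (exp_hi (by norm_num) (by norm_num) (by norm_num))
      (Xxi hn h (ξ := (31381 / 10000)) (by norm_num) (by norm_num) (le_trans (by norm_num) ((exp_lo (y := (557 / 1000)) (E := (87271 / 50000)) (by norm_num) (by norm_num)).trans (Real.exp_le_exp.2 hl'))))
      (by norm_num) (by norm_num) (by norm_num) (by norm_num) (by norm_num) (by norm_num)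
  clear hl'
  have hl' := hl''
  clear hl''
  rcases le_total l (331 / 500) with hlb | hl''
  · exact boxT h hk (a := (149 / 250)) (b := (331 / 500)) (Ta := (83 / 100)) (Tb := (43 / 50)) (ea := (181483 / 100000)) (eb := (193867 / 100000)) (shi := (2807 / 12500)) (K := (11357 / 10000))
      (σ0 := 0) (σ1 := (8279 / 5000)) (hh := (37859 / 10000)) (vb := (533 / 2000)) (E := (3813 / 2500)) (t0 := (4327 / 100000)) (W := (6281 / 12500)) (θ := 0)
      (p0 := (33283 / 10000) ^ 2) (r0 := -(282 / 100)) hl' hlb hTa hTb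
      (exp_lo (by norm_num) (by norm_num)) (exp_hi (by norm_num) (by norm_num) (by norm_num)) (exp_hi (by norm_num) (by norm_num) (by norm_num))
      (Xxi hn h (ξ := (33283 / 10000)) (by norm_num) (by norm_num) (le_trans (by norm_num) ((exp_lo (y := (149 / 250)) (E := (181483 / 100000)) (by norm_num) (by norm_num)).trans (Real.exp_le_exp.2 hl'))))
      (by norm_num) (by norm_num) (by norm_num) (by norm_num) (by norm_num) (by norm_num)
  clear hl'
  have hl' := hl''
  clear hl''
  rcases le_total l (151 / 200) with hlb | hl''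
  · exact boxT h hk (a := (331 / 500)) (b := (151 / 200)) (Ta := (83 / 100)) (Tb := (43 / 50)) (ea := (38773 / 20000)) (eb := (106381 / 50000)) (shi := (19679 / 100000)) (K := (5579 / 5000))
      (σ0 := 0) (σ1 := (8497 / 5000)) (hh := (7843 / 2000)) (vb := (719 / 2000)) (E := (11409 / 6250)) (t0 := (83 / 3125)) (W := (2511 / 3125)) (θ := 0)
      (p0 := (7 / 2) ^ 2) (r0 := -(282 / 100)) hl' hlb hTa hTb
      (exp_lo (by norm_num) (by norm_num)) (exp_hi (by norm_num) (by norm_num) (by norm_num)) (exp_hi (by norm_num) (by norm_num) (by norm_num))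
      (Xxi hn h (ξ := (7 / 2)) (by norm_num) (by norm_num) (le_trans (by norm_num) ((exp_lo (y := (331 / 500)) (E := (38773 / 20000)) (by norm_num) (by norm_num)).trans (Real.exp_le_exp.2 hl'))))
      (by norm_num) (by norm_num) (by norm_num) (by norm_num) (by norm_num) (by norm_num)
  clear hl'
  have hl' := hl''
  clear hl''
  rcases le_total l (863 / 1000) with hlb | hl''
  · exact boxT h hk (a := (151 / 200)) (b := (863 / 1000)) (Ta := (83 / 100)) (Tb := (43 / 50)) (ea := (212759 / 100000)) (eb := (237027 / 100000)) (shi := (16339 / 100000)) (K := (10933 / 10000))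
      (σ0 := 0) (σ1 := (2189 / 1250)) (hh := (20423 / 5000)) (vb := (187 / 400)) (E := (225519 / 100000)) (t0 := (53 / 3125)) (W := (123391 / 100000)) (θ := 0)
      (p0 := 25 / 9 * (212759 / 100000) ^ 2) (r0 := 0) hl' hlb hTa hTb
      (exp_lo (by norm_num) (by norm_num)) (exp_hi (by norm_num) (by norm_num) (by norm_num)) (exp_hi (by norm_num) (by norm_num) (by norm_num))
      (Xbig hn h (lt_of_lt_of_le (by norm_num) ((exp_lo (y := (151 / 200)) (E := (212759 / 100000)) (by norm_num) (by norm_num)).trans (Real.exp_le_exp.2 hl'))) (Or.inr ⟨(212759 / 100000), by norm_num, (exp_lo (y := (151 / 200)) (E := (212759 / 100000)) (by norm_num) (by norm_num)).trans (Real.exp_le_exp.2 hl'), by norm_num⟩))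
      (by norm_num) (by norm_num) (by norm_num) (by norm_num) (by norm_num) (by norm_num)
  clear hl'
  have hl' := hl''
  clear hl''
  have hlb := hl9
  exact boxT h hk (a := (863 / 1000)) (b := (9 / 10)) (Ta := (83 / 100)) (Tb := (43 / 50)) (ea := (118511 / 50000)) (eb := (122981 / 50000)) (shi := (2633 / 20000)) (K := (2683 / 2500))
    (σ0 := 0) (σ1 := (9 / 5)) (hh := (8479 / 2000)) (vb := (1009 / 2000)) (E := (60639 / 25000)) (t0 := (371 / 25000)) (W := (3511 / 2500)) (θ := 0)
    (p0 := 25 / 9 * (118511 / 50000) ^ 2) (r0 := 0) hl' hlb hTa hTb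
    (exp_lo (by norm_num) (by norm_num)) (exp_hi (by norm_num) (by norm_num) (by norm_num)) (exp_hi (by norm_num) (by norm_num) (by norm_num))
    (Xbig hn h (lt_of_lt_of_le (by norm_num) ((exp_lo (y := (863 / 1000)) (E := (118511 / 50000)) (by norm_num) (by norm_num)).trans (Real.exp_le_exp.2 hl'))) (Or.inr ⟨(118511 / 50000), by norm_num, (exp_lo (y := (863 / 1000)) (E := (118511 / 50000)) (by norm_num) (by norm_num)).trans (Real.exp_le_exp.2 hl'), by norm_num⟩))
    (by norm_num) (by norm_num) (by norm_num) (by norm_num) (by norm_num) (by norm_num)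

theorem zone6 {n : ℕ} (hn : 23 ≤ n) {s l k : ℝ} (h : FarC n s l k) (hk : 0 ≤ k) (hl9 : l ≤ 9 / 10)
    (hTa : (43 / 50) ≤ s * Real.exp l) (hTb : s * Real.exp l ≤ (9 / 10)) :
    1 / 100 ≤ Pinf n s l k + 7 / 10 * s ^ 2 := by
  have hl' : (19 / 50) ≤ l := l_lo h (Tb := (9 / 10)) (by norm_num) hTb (by norm_num)
  rcases le_total l (431 / 1000) with hlb | hl''
  · exact boxT h hk (a := (19 / 50)) (b := (431 / 1000)) (Ta := (43 / 50)) (Tb := (9 / 10)) (ea := (36557 / 25000)) (eb := (3847 / 2500)) (shi := (18941 / 50000)) (K := (793 / 625))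
      (σ0 := (15617 / 50000)) (σ1 := 0) (hh := (19079 / 5000)) (vb := (253 / 5000)) (E := (52169 / 50000)) (t0 := (3369 / 10000)) (W := (2877 / 100000)) (θ := 1)
      (p0 := (2953 / 1250) ^ 2) (r0 := -(282 / 100)) hl' hlb hTa hTb
      (exp_lo (by norm_num) (by norm_num)) (exp_hi (by norm_num) (by norm_num) (by norm_num)) (exp_hi (by norm_num) (by norm_num) (by norm_num))
      (Xxi hn h (ξ := (2953 / 1250)) (by norm_num) (by norm_num) (le_trans (by norm_num) ((exp_lo (y := (19 / 50)) (E := (36557 / 25000)) (by norm_num) (by norm_num)).trans (Real.exp_le_exp.2 hl'))))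
      (by norm_num) (by norm_num) (by norm_num) (by norm_num) (by norm_num) (by norm_num)
  clear hl'
  have hl' := hl''
  clear hl''
  rcases le_total l (459 / 1000) with hlb | hl''
  · exact boxT h hk (a := (431 / 1000)) (b := (459 / 1000)) (Ta := (43 / 50)) (Tb := (9 / 10)) (ea := (153879 / 100000)) (eb := (633 / 400)) (shi := (1069 / 3125)) (K := (12329 / 10000))
      (σ0 := (29533 / 100000)) (σ1 := 0) (hh := (8083 / 2000)) (vb := (393 / 5000)) (E := (108671 / 100000)) (t0 := (2219 / 10000)) (W := (6747 / 100000)) (θ := 1)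
      (p0 := (643 / 250) ^ 2) (r0 := -(282 / 100)) hl' hlb hTa hTb
      (exp_lo (by norm_num) (by norm_num)) (exp_hi (by norm_num) (by norm_num) (by norm_num)) (exp_hi (by norm_num) (by norm_num) (by norm_num))
      (Xxi hn h (ξ := (643 / 250)) (by norm_num) (by norm_num) (le_trans (by norm_num) ((exp_lo (y := (431 / 1000)) (E := (153879 / 100000)) (by norm_num) (by norm_num)).trans (Real.exp_le_exp.2 hl'))))
      (by norm_num) (by norm_num) (by norm_num) (by norm_num) (by norm_num) (by norm_num)
  clear hl'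
  have hl' := hl''
  clear hl''
  rcases le_total l (239 / 500) with hlb | hl''
  · exact boxT h hk (a := (459 / 1000)) (b := (239 / 500)) (Ta := (43 / 50)) (Tb := (9 / 10)) (ea := (19781 / 12500)) (eb := (32257 / 20000)) (shi := (16173 / 50000)) (K := (6079 / 5000))
      (σ0 := (1777 / 6250)) (σ1 := 0) (hh := (20779 / 5000)) (vb := (61 / 625)) (E := (112039 / 100000)) (t0 := (4361 / 25000)) (W := (9939 / 100000)) (θ := 1)
      (p0 := (26917 / 10000) ^ 2) (r0 := -(282 / 100)) hl' hlb hTa hTb
      (exp_lo (by norm_num) (by norm_num)) (exp_hi (by norm_num) (by norm_num) (by norm_num)) (exp_hi (by norm_num) (by norm_num) (by norm_num))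
      (Xxi hn h (ξ := (26917 / 10000)) (by norm_num) (by norm_num) (le_trans (by norm_num) ((exp_lo (y := (459 / 1000)) (E := (19781 / 12500)) (by norm_num) (by norm_num)).trans (Real.exp_le_exp.2 hl'))))
      (by norm_num) (by norm_num) (by norm_num) (by norm_num) (by norm_num) (by norm_num)
  clear hl'
  have hl' := hl''
  clear hl''
  rcases le_total l (493 / 1000) with hlb | hl''
  · exact boxT h hk (a := (239 / 500)) (b := (493 / 1000)) (Ta := (43 / 50)) (Tb := (9 / 10)) (ea := (40321 / 25000)) (eb := (163723 / 100000)) (shi := (31139 / 100000)) (K := (12051 / 10000))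
      (σ0 := (27591 / 100000)) (σ1 := 0) (hh := (423 / 100)) (vb := (563 / 5000)) (E := (57449 / 50000)) (t0 := (2939 / 20000)) (W := (12709 / 100000)) (θ := 1)
      (p0 := (27749 / 10000) ^ 2) (r0 := -(282 / 100)) hl' hlb hTa hTb
      (exp_lo (by norm_num) (by norm_num)) (exp_hi (by norm_num) (by norm_num) (by norm_num)) (exp_hi (by norm_num) (by norm_num) (by norm_num))
      (Xxi hn h (ξ := (27749 / 10000)) (by norm_num) (by norm_num) (le_trans (by norm_num) ((exp_lo (y := (239 / 500)) (E := (40321 / 25000)) (by norm_num) (by norm_num)).trans (Real.exp_le_exp.2 hl'))))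
      (by norm_num) (by norm_num) (by norm_num) (by norm_num) (by norm_num) (by norm_num)
  clear hl'
  have hl' := hl''
  clear hl''
  rcases le_total l (101 / 200) with hlb | hl''
  · exact boxT h hk (a := (493 / 1000)) (b := (101 / 200)) (Ta := (43 / 50)) (Tb := (9 / 10)) (ea := (163721 / 100000)) (eb := (165699 / 100000)) (shi := (30219 / 100000)) (K := (2993 / 2500))
      (σ0 := (26937 / 100000)) (σ1 := 0) (hh := (8573 / 2000)) (vb := (623 / 5000)) (E := (1173 / 1000)) (t0 := (12939 / 100000)) (W := (7531 / 50000)) (θ := 1)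
      (p0 := (1776 / 625) ^ 2) (r0 := -(282 / 100)) hl' hlb hTa hTb
      (exp_lo (by norm_num) (by norm_num)) (exp_hi (by norm_num) (by norm_num) (by norm_num)) (exp_hi (by norm_num) (by norm_num) (by norm_num))
      (Xxi hn h (ξ := (1776 / 625)) (by norm_num) (by norm_num) (le_trans (by norm_num) ((exp_lo (y := (493 / 1000)) (E := (163721 / 100000)) (by norm_num) (by norm_num)).trans (Real.exp_le_exp.2 hl'))))
      (by norm_num) (by norm_num) (by norm_num) (by norm_num) (by norm_num) (by norm_num)
  clear hl'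
  have hl' := hl''
  clear hl''
  rcases le_total l (129 / 250) with hlb | hl''
  · exact boxT h hk (a := (101 / 200)) (b := (129 / 250)) (Ta := (43 / 50)) (Tb := (9 / 10)) (ea := (82849 / 50000)) (eb := (41883 / 25000)) (shi := (14751 / 50000)) (K := (1191 / 1000))
      (σ0 := (26351 / 100000)) (σ1 := 0) (hh := (8661 / 2000)) (vb := (339 / 2500)) (E := (59793 / 50000)) (t0 := (11591 / 100000)) (W := (4329 / 25000)) (θ := 1)
      (p0 := (14479 / 5000) ^ 2) (r0 := -(282 / 100)) hl' hlb hTa hTb
      (exp_lo (by norm_num) (by norm_num)) (exp_hi (by norm_num) (by norm_num) (by norm_num)) (exp_hi (by norm_num) (by norm_num) (by norm_num))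
      (Xxi hn h (ξ := (14479 / 5000)) (by norm_num) (by norm_num) (le_trans (by norm_num) ((exp_lo (y := (101 / 200)) (E := (82849 / 50000)) (by norm_num) (by norm_num)).trans (Real.exp_le_exp.2 hl'))))
      (by norm_num) (by norm_num) (by norm_num) (by norm_num) (by norm_num) (by norm_num)
  clear hl'
  have hl' := hl''
  clear hl''
  rcases le_total l (263 / 500) with hlb | hl''
  · exact boxT h hk (a := (129 / 250)) (b := (263 / 500)) (Ta := (43 / 50)) (Tb := (9 / 10)) (ea := (167531 / 100000)) (eb := (5288 / 3125)) (shi := (1443 / 5000)) (K := (11857 / 10000))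
      (σ0 := (25829 / 100000)) (σ1 := 0) (hh := (437 / 100)) (vb := (91 / 625)) (E := (121733 / 100000)) (t0 := (10541 / 100000)) (W := (19443 / 100000)) (θ := 1)
      (p0 := (1473 / 500) ^ 2) (r0 := -(282 / 100)) hl' hlb hTa hTb
      (exp_lo (by norm_num) (by norm_num)) (exp_hi (by norm_num) (by norm_num) (by norm_num)) (exp_hi (by norm_num) (by norm_num) (by norm_num))
      (Xxi hn h (ξ := (1473 / 500)) (by norm_num) (by norm_num) (le_trans (by norm_num) ((exp_lo (y := (129 / 250)) (E := (167531 / 100000)) (by norm_num) (by norm_num)).trans (Real.exp_le_exp.2 hl'))))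
      (by norm_num) (by norm_num) (by norm_num) (by norm_num) (by norm_num) (by norm_num)
  clear hl'
  have hl' := hl''
  clear hl''
  rcases le_total l (107 / 200) with hlb | hl''
  · exact boxT h hk (a := (263 / 500)) (b := (107 / 200)) (Ta := (43 / 50)) (Tb := (9 / 10)) (ea := (84607 / 50000)) (eb := (34149 / 20000)) (shi := (28289 / 100000)) (K := (11809 / 10000))
      (σ0 := (3171 / 12500)) (σ1 := 0) (hh := (44051 / 10000)) (vb := (773 / 5000)) (E := (61859 / 50000)) (t0 := (9713 / 100000)) (W := (4283 / 20000)) (θ := 1)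
      (p0 := (29921 / 10000) ^ 2) (r0 := -(282 / 100)) hl' hlb hTa hTb
      (exp_lo (by norm_num) (by norm_num)) (exp_hi (by norm_num) (by norm_num) (by norm_num)) (exp_hi (by norm_num) (by norm_num) (by norm_num))
      (Xxi hn h (ξ := (29921 / 10000)) (by norm_num) (by norm_num) (le_trans (by norm_num) ((exp_lo (y := (263 / 500)) (E := (84607 / 50000)) (by norm_num) (by norm_num)).trans (Real.exp_le_exp.2 hl'))))
      (by norm_num) (by norm_num) (by norm_num) (by norm_num) (by norm_num) (by norm_num)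
  clear hl'
  have hl' := hl''
  clear hl''
  rcases le_total l (273 / 500) with hlb | hl''
  · exact boxT h hk (a := (107 / 200)) (b := (273 / 500)) (Ta := (43 / 50)) (Tb := (9 / 10)) (ea := (21343 / 12500)) (eb := (86317 / 50000)) (shi := (3473 / 12500)) (K := (1471 / 1250))
      (σ0 := 0) (σ1 := (7859 / 5000)) (hh := (44361 / 10000)) (vb := (207 / 1250)) (E := (126213 / 100000)) (t0 := (8827 / 100000)) (W := (239 / 1000)) (θ := (2 / 5))
      (p0 := (1517 / 500) ^ 2) (r0 := -(282 / 100)) hl' hlb hTa hTb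
      (exp_lo (by norm_num) (by norm_num)) (exp_hi (by norm_num) (by norm_num) (by norm_num)) (exp_hi (by norm_num) (by norm_num) (by norm_num))
      (Xxi hn h (ξ := (1517 / 500)) (by norm_num) (by norm_num) (le_trans (by norm_num) ((exp_lo (y := (107 / 200)) (E := (21343 / 12500)) (by norm_num) (by norm_num)).trans (Real.exp_le_exp.2 hl'))))
      (by norm_num) (by norm_num) (by norm_num) (by norm_num) (by norm_num) (by norm_num)
  clear hl'
  have hl' := hl''
  clear hl''
  rcases le_total l (14 / 25) with hlb | hl''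
  · exact boxT h hk (a := (273 / 500)) (b := (14 / 25)) (Ta := (43 / 50)) (Tb := (9 / 10)) (ea := (172633 / 100000)) (eb := (43767 / 25000)) (shi := (1359 / 5000)) (K := (11719 / 10000))
      (σ0 := 0) (σ1 := (7907 / 5000)) (hh := (11183 / 2500)) (vb := (449 / 2500)) (E := (64747 / 50000)) (t0 := (1573 / 20000)) (W := (1087 / 4000)) (θ := 0)
      (p0 := (15429 / 5000) ^ 2) (r0 := -(282 / 100)) hl' hlb hTa hTb
      (exp_lo (by norm_num) (by norm_num)) (exp_hi (by norm_num) (by norm_num) (by norm_num)) (exp_hi (by norm_num) (by norm_num) (by norm_num))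
      (Xxi hn h (ξ := (15429 / 5000)) (by norm_num) (by norm_num) (le_trans (by norm_num) ((exp_lo (y := (273 / 500)) (E := (172633 / 100000)) (by norm_num) (by norm_num)).trans (Real.exp_le_exp.2 hl'))))
      (by norm_num) (by norm_num) (by norm_num) (by norm_num) (by norm_num) (by norm_num)
  clear hl'
  have hl' := hl''
  clear hl''
  rcases le_total l (583 / 1000) with hlb | hl''
  · exact boxT h hk (a := (14 / 25)) (b := (583 / 1000)) (Ta := (43 / 50)) (Tb := (9 / 10)) (ea := (87533 / 50000)) (eb := (179141 / 100000)) (shi := (2643 / 10000)) (K := (11659 / 10000))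
      (σ0 := 0) (σ1 := (15933 / 10000)) (hh := (45193 / 10000)) (vb := (1013 / 5000)) (E := (67571 / 50000)) (t0 := (6593 / 100000)) (W := (1313 / 4000)) (θ := 0)
      (p0 := (7881 / 2500) ^ 2) (r0 := -(282 / 100)) hl' hlb hTa hTb
      (exp_lo (by norm_num) (by norm_num)) (exp_hi (by norm_num) (by norm_num) (by norm_num)) (exp_hi (by norm_num) (by norm_num) (by norm_num))
      (Xxi hn h (ξ := (7881 / 2500)) (by norm_num) (by norm_num) (le_trans (by norm_num) ((exp_lo (y := (14 / 25)) (E := (87533 / 50000)) (by norm_num) (by norm_num)).trans (Real.exp_le_exp.2 hl'))))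
      (by norm_num) (by norm_num) (by norm_num) (by norm_num) (by norm_num) (by norm_num)
  clear hl'
  have hl' := hl''
  clear hl''
  rcases le_total l (621 / 1000) with hlb | hl''
  · exact boxT h hk (a := (583 / 1000)) (b := (621 / 1000)) (Ta := (43 / 50)) (Tb := (9 / 10)) (ea := (8957 / 5000)) (eb := (186079 / 100000)) (shi := (25241 / 100000)) (K := (5783 / 5000))
      (σ0 := 0) (σ1 := (16121 / 10000)) (hh := (45923 / 10000)) (vb := (1203 / 5000)) (E := (145173 / 100000)) (t0 := (5079 / 100000)) (W := (42879 / 100000)) (θ := 0)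
      (p0 := (32641 / 10000) ^ 2) (r0 := -(282 / 100)) hl' hlb hTa hTb
      (exp_lo (by norm_num) (by norm_num)) (exp_hi (by norm_num) (by norm_num) (by norm_num)) (exp_hi (by norm_num) (by norm_num) (by norm_num))
      (Xxi hn h (ξ := (32641 / 10000)) (by norm_num) (by norm_num) (le_trans (by norm_num) ((exp_lo (y := (583 / 1000)) (E := (8957 / 5000)) (by norm_num) (by norm_num)).trans (Real.exp_le_exp.2 hl'))))
      (by norm_num) (by norm_num) (by norm_num) (by norm_num) (by norm_num) (by norm_num)
  clear hl'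
  have hl' := hl''
  clear hl''
  rcases le_total l (689 / 1000) with hlb | hl''
  · exact boxT h hk (a := (621 / 1000)) (b := (689 / 1000)) (Ta := (43 / 50)) (Tb := (9 / 10)) (ea := (93039 / 50000)) (eb := (199173 / 100000)) (shi := (11697 / 50000)) (K := (5713 / 5000))
      (σ0 := 0) (σ1 := (16411 / 10000)) (hh := (47057 / 10000)) (vb := (1543 / 5000)) (E := (82691 / 50000)) (t0 := (1709 / 50000)) (W := (63147 / 100000)) (θ := 0)
      (p0 := (34541 / 10000) ^ 2) (r0 := -(282 / 100)) hl' hlb hTa hTb
      (exp_lo (by norm_num) (by norm_num)) (exp_hi (by norm_num) (by norm_num) (by norm_num)) (exp_hi (by norm_num) (by norm_num) (by norm_num))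
      (Xxi hn h (ξ := (34541 / 10000)) (by norm_num) (by norm_num) (le_trans (by norm_num) ((exp_lo (y := (621 / 1000)) (E := (93039 / 50000)) (by norm_num) (by norm_num)).trans (Real.exp_le_exp.2 hl'))))
      (by norm_num) (by norm_num) (by norm_num) (by norm_num) (by norm_num) (by norm_num)
  clear hl'
  have hl' := hl''
  clear hl''
  rcases le_total l (777 / 1000) with hlb | hl''
  · exact boxT h hk (a := (689 / 1000)) (b := (777 / 1000)) (Ta := (43 / 50)) (Tb := (9 / 10)) (ea := (199171 / 100000)) (eb := (43499 / 20000)) (shi := (20419 / 100000)) (K := (1121 / 1000))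
      (σ0 := 0) (σ1 := (8439 / 5000)) (hh := (9777 / 2000)) (vb := (1983 / 5000)) (E := (196247 / 100000)) (t0 := (9 / 400)) (W := (94081 / 100000)) (θ := 0)
      (p0 := 49 / 4) (r0 := 0) hl' hlb hTa hTb
      (exp_lo (by norm_num) (by norm_num)) (exp_hi (by norm_num) (by norm_num) (by norm_num)) (exp_hi (by norm_num) (by norm_num) (by norm_num))
      (Xbig hn h (lt_of_lt_of_le (by norm_num) ((exp_lo (y := (689 / 1000)) (E := (199171 / 100000)) (by norm_num) (by norm_num)).trans (Real.exp_le_exp.2 hl'))) (Or.inl (by norm_num)))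
      (by norm_num) (by norm_num) (by norm_num) (by norm_num) (by norm_num) (by norm_num)
  clear hl'
  have hl' := hl''
  clear hl''
  rcases le_total l (22 / 25) with hlb | hl''
  · exact boxT h hk (a := (777 / 1000)) (b := (22 / 25)) (Ta := (43 / 50)) (Tb := (9 / 10)) (ea := (217491 / 100000)) (eb := (241091 / 100000)) (shi := (4281 / 25000)) (K := (2197 / 2000))
      (σ0 := 0) (σ1 := (1739 / 1000)) (hh := (50909 / 10000)) (vb := (1249 / 2500)) (E := (120113 / 50000)) (t0 := (151 / 10000)) (W := (138109 / 100000)) (θ := 0)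
      (p0 := 25 / 9 * (217491 / 100000) ^ 2) (r0 := 0) hl' hlb hTa hTb
      (exp_lo (by norm_num) (by norm_num)) (exp_hi (by norm_num) (by norm_num) (by norm_num)) (exp_hi (by norm_num) (by norm_num) (by norm_num))
      (Xbig hn h (lt_of_lt_of_le (by norm_num) ((exp_lo (y := (777 / 1000)) (E := (217491 / 100000)) (by norm_num) (by norm_num)).trans (Real.exp_le_exp.2 hl'))) (Or.inr ⟨(217491 / 100000), by norm_num, (exp_lo (y := (777 / 1000)) (E := (217491 / 100000)) (by norm_num) (by norm_num)).trans (Real.exp_le_exp.2 hl'), by norm_num⟩))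
      (by norm_num) (by norm_num) (by norm_num) (by norm_num) (by norm_num) (by norm_num)
  clear hl'
  have hl' := hl''
  clear hl''
  have hlb := hl9
  exact boxT h hk (a := (22 / 25)) (b := (9 / 10)) (Ta := (43 / 50)) (Tb := (9 / 10)) (ea := (120543 / 50000)) (eb := (122981 / 50000)) (shi := (13937 / 100000)) (K := (539 / 500))
    (σ0 := 0) (σ1 := (17881 / 10000)) (hh := (52867 / 10000)) (vb := (1299 / 2500)) (E := (62471 / 25000)) (t0 := (1409 / 100000)) (W := (36943 / 25000)) (θ := 0)
    (p0 := 25 / 9 * (120543 / 50000) ^ 2) (r0 := 0) hl' hlb hTa hTb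
    (exp_lo (by norm_num) (by norm_num)) (exp_hi (by norm_num) (by norm_num) (by norm_num)) (exp_hi (by norm_num) (by norm_num) (by norm_num))
    (Xbig hn h (lt_of_lt_of_le (by norm_num) ((exp_lo (y := (22 / 25)) (E := (120543 / 50000)) (by norm_num) (by norm_num)).trans (Real.exp_le_exp.2 hl'))) (Or.inr ⟨(120543 / 50000), by norm_num, (exp_lo (y := (22 / 25)) (E := (120543 / 50000)) (by norm_num) (by norm_num)).trans (Real.exp_le_exp.2 hl'), by norm_num⟩))
    (by norm_num) (by norm_num) (by norm_num) (by norm_num) (by norm_num) (by norm_num)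

theorem zone7 {n : ℕ} (hn : 23 ≤ n) {s l k : ℝ} (h : FarC n s l k) (hk : 0 ≤ k) (hl9 : l ≤ 9 / 10)
    (hTa : (9 / 10) ≤ s * Real.exp l) (hTb : s * Real.exp l ≤ (19 / 20)) :
    1 / 100 ≤ Pinf n s l k + 7 / 10 * s ^ 2 := by
  have hl' : (353 / 1000) ≤ l := l_lo h (Tb := (19 / 20)) (by norm_num) hTb (by norm_num)
  rcases le_total l (411 / 1000) with hlb | hl''
  · exact boxT h hk (a := (353 / 1000)) (b := (411 / 1000)) (Ta := (9 / 10)) (Tb := (19 / 20)) (ea := (35583 / 25000)) (eb := (150833 / 100000)) (shi := (891 / 2000)) (K := (1343 / 1000))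
      (σ0 := (35603 / 100000)) (σ1 := 0) (hh := (9981 / 2000)) (vb := (573 / 10000)) (E := (52647 / 50000)) (t0 := (30237 / 100000)) (W := (1847 / 50000)) (θ := 1)
      (p0 := (5639 / 2500) ^ 2) (r0 := -(282 / 100)) hl' hlb hTa hTb
      (exp_lo (by norm_num) (by norm_num)) (exp_hi (by norm_num) (by norm_num) (by norm_num)) (exp_hi (by norm_num) (by norm_num) (by norm_num))
      (Xxi hn h (ξ := (5639 / 2500)) (by norm_num) (by norm_num) (le_trans (by norm_num) ((exp_lo (y := (353 / 1000)) (E := (35583 / 25000)) (by norm_num) (by norm_num)).trans (Real.exp_le_exp.2 hl'))))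
      (by norm_num) (by norm_num) (by norm_num) (by norm_num) (by norm_num) (by norm_num)
  clear hl'
  have hl' := hl''
  clear hl''
  rcases le_total l (57 / 125) with hlb | hl''
  · exact boxT h hk (a := (411 / 1000)) (b := (57 / 125)) (Ta := (9 / 10)) (Tb := (19 / 20)) (ea := (9427 / 6250)) (eb := (9861 / 6250)) (shi := (3967 / 10000)) (K := (103 / 80))
      (σ0 := (16269 / 50000)) (σ1 := 0) (hh := (54297 / 10000)) (vb := (1023 / 10000)) (E := (112917 / 100000)) (t0 := (3301 / 20000)) (W := (5393 / 50000)) (θ := 1)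
      (p0 := (4977 / 2000) ^ 2) (r0 := -(282 / 100)) hl' hlb hTa hTb
      (exp_lo (by norm_num) (by norm_num)) (exp_hi (by norm_num) (by norm_num) (by norm_num)) (exp_hi (by norm_num) (by norm_num) (by norm_num))
      (Xxi hn h (ξ := (4977 / 2000)) (by norm_num) (by norm_num) (le_trans (by norm_num) ((exp_lo (y := (411 / 1000)) (E := (9427 / 6250)) (by norm_num) (by norm_num)).trans (Real.exp_le_exp.2 hl'))))
      (by norm_num) (by norm_num) (by norm_num) (by norm_num) (by norm_num) (by norm_num)
  clear hl'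
  have hl' := hl''
  clear hl''
  rcases le_total l (503 / 1000) with hlb | hl''
  · exact boxT h hk (a := (57 / 125)) (b := (503 / 1000)) (Ta := (9 / 10)) (Tb := (19 / 20)) (ea := (78887 / 50000)) (eb := (20671 / 12500)) (shi := (1133 / 3125)) (K := (6263 / 5000))
      (σ0 := (29619 / 100000)) (σ1 := 0) (hh := (57369 / 10000)) (vb := (1493 / 10000)) (E := (122543 / 100000)) (t0 := (2547 / 25000)) (W := (20247 / 100000)) (θ := 1)
      (p0 := (26787 / 10000) ^ 2) (r0 := -(282 / 100)) hl' hlb hTa hTb
      (exp_lo (by norm_num) (by norm_num)) (exp_hi (by norm_num) (by norm_num) (by norm_num)) (exp_hi (by norm_num) (by norm_num) (by norm_num))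
      (Xxi hn h (ξ := (26787 / 10000)) (by norm_num) (by norm_num) (le_trans (by norm_num) ((exp_lo (y := (57 / 125)) (E := (78887 / 50000)) (by norm_num) (by norm_num)).trans (Real.exp_le_exp.2 hl'))))
      (by norm_num) (by norm_num) (by norm_num) (by norm_num) (by norm_num) (by norm_num)
  clear hl'
  have hl' := hl''
  clear hl''
  rcases le_total l (557 / 1000) with hlb | hl''
  · exact boxT h hk (a := (503 / 1000)) (b := (557 / 1000)) (Ta := (9 / 10)) (Tb := (19 / 20)) (ea := (165367 / 100000)) (eb := (174543 / 100000)) (shi := (33003 / 100000)) (K := (6109 / 5000))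
      (σ0 := (26587 / 100000)) (σ1 := 0) (hh := (60297 / 10000)) (vb := (2033 / 10000)) (E := (135319 / 100000)) (t0 := (41 / 625)) (W := (33003 / 100000)) (θ := 1)
      (p0 := (28867 / 10000) ^ 2) (r0 := -(282 / 100)) hl' hlb hTa hTb
      (exp_lo (by norm_num) (by norm_num)) (exp_hi (by norm_num) (by norm_num) (by norm_num)) (exp_hi (by norm_num) (by norm_num) (by norm_num))
      (Xxi hn h (ξ := (28867 / 10000)) (by norm_num) (by norm_num) (le_trans (by norm_num) ((exp_lo (y := (503 / 1000)) (E := (165367 / 100000)) (by norm_num) (by norm_num)).trans (Real.exp_le_exp.2 hl'))))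
      (by norm_num) (by norm_num) (by norm_num) (by norm_num) (by norm_num) (by norm_num)
  clear hl'
  have hl' := hl''
  clear hl''
  rcases le_total l (311 / 500) with hlb | hl''
  · exact boxT h hk (a := (557 / 1000)) (b := (311 / 500)) (Ta := (9 / 10)) (Tb := (19 / 20)) (ea := (87271 / 50000)) (eb := (93133 / 50000)) (shi := (237 / 800)) (K := (11921 / 10000))
      (σ0 := (11673 / 50000)) (σ1 := 0) (hh := (63337 / 10000)) (vb := (2683 / 10000)) (E := (153047 / 100000)) (t0 := (4281 / 100000)) (W := (6347 / 12500)) (θ := 1)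
      (p0 := (31381 / 10000) ^ 2) (r0 := -(282 / 100)) hl' hlb hTa hTb
      (exp_lo (by norm_num) (by norm_num)) (exp_hi (by norm_num) (by norm_num) (by norm_num)) (exp_hi (by norm_num) (by norm_num) (by norm_num))
      (Xxi hn h (ξ := (31381 / 10000)) (by norm_num) (by norm_num) (le_trans (by norm_num) ((exp_lo (y := (557 / 1000)) (E := (87271 / 50000)) (by norm_num) (by norm_num)).trans (Real.exp_le_exp.2 hl'))))
      (by norm_num) (by norm_num) (by norm_num) (by norm_num) (by norm_num) (by norm_num)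
  clear hl'
  have hl' := hl''
  clear hl''
  rcases le_total l (351 / 500) with hlb | hl''
  · exact boxT h hk (a := (311 / 500)) (b := (351 / 500)) (Ta := (9 / 10)) (Tb := (19 / 20)) (ea := (23283 / 12500)) (eb := (201779 / 100000)) (shi := (26013 / 100000)) (K := (5813 / 5000))
      (σ0 := 0) (σ1 := (15999 / 10000)) (hh := (16647 / 2500)) (vb := (3483 / 10000)) (E := (178609 / 100000)) (t0 := (7 / 250)) (W := (9551 / 12500)) (θ := 1)
      (p0 := (2162 / 625) ^ 2) (r0 := -(282 / 100)) hl' hlb hTa hTb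
      (exp_lo (by norm_num) (by norm_num)) (exp_hi (by norm_num) (by norm_num) (by norm_num)) (exp_hi (by norm_num) (by norm_num) (by norm_num))
      (Xxi hn h (ξ := (2162 / 625)) (by norm_num) (by norm_num) (le_trans (by norm_num) ((exp_lo (y := (311 / 500)) (E := (23283 / 12500)) (by norm_num) (by norm_num)).trans (Real.exp_le_exp.2 hl'))))
      (by norm_num) (by norm_num) (by norm_num) (by norm_num) (by norm_num) (by norm_num)
  clear hl'
  have hl' := hl''
  clear hl''
  rcases le_total l (797 / 1000) with hlb | hl''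
  · exact boxT h hk (a := (351 / 500)) (b := (797 / 1000)) (Ta := (9 / 10)) (Tb := (19 / 20)) (ea := (201777 / 100000)) (eb := (6934 / 3125)) (shi := (22167 / 100000)) (K := (2267 / 2000))
      (σ0 := 0) (σ1 := (3321 / 2000)) (hh := (70049 / 10000)) (vb := (4433 / 10000)) (E := (215049 / 100000)) (t0 := (1859 / 100000)) (W := (11291 / 10000)) (θ := 1)
      (p0 := (7 / 2) ^ 2) (r0 := -(282 / 100)) hl' hlb hTa hTb
      (exp_lo (by norm_num) (by norm_num)) (exp_hi (by norm_num) (by norm_num) (by norm_num)) (exp_hi (by norm_num) (by norm_num) (by norm_num))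
      (Xxi hn h (ξ := (7 / 2)) (by norm_num) (by norm_num) (le_trans (by norm_num) ((exp_lo (y := (351 / 500)) (E := (201777 / 100000)) (by norm_num) (by norm_num)).trans (Real.exp_le_exp.2 hl'))))
      (by norm_num) (by norm_num) (by norm_num) (by norm_num) (by norm_num) (by norm_num)
  clear hl'
  have hl' := hl''
  clear hl''
  have hlb := hl9
  exact boxT h hk (a := (797 / 1000)) (b := (9 / 10)) (Ta := (9 / 10)) (Tb := (19 / 20)) (ea := (44377 / 20000)) (eb := (122981 / 50000)) (shi := (4583 / 25000)) (K := (5533 / 5000))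
    (σ0 := 0) (σ1 := (8601 / 5000)) (hh := (73501 / 10000)) (vb := (5463 / 10000)) (E := (263401 / 100000)) (t0 := (129 / 10000)) (W := (80647 / 50000)) (θ := 1)
    (p0 := (7 / 2) ^ 2) (r0 := -(282 / 100)) hl' hlb hTa hTb
    (exp_lo (by norm_num) (by norm_num)) (exp_hi (by norm_num) (by norm_num) (by norm_num)) (exp_hi (by norm_num) (by norm_num) (by norm_num))
    (Xxi hn h (ξ := (7 / 2)) (by norm_num) (by norm_num) (le_trans (by norm_num) ((exp_lo (y := (797 / 1000)) (E := (44377 / 20000)) (by norm_num) (by norm_num)).trans (Real.exp_le_exp.2 hl'))))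
    (by norm_num) (by norm_num) (by norm_num) (by norm_num) (by norm_num) (by norm_num)

theorem zone8 {n : ℕ} (hn : 23 ≤ n) {s l k : ℝ} (h : FarC n s l k) (hk : 0 ≤ k) (hl9 : l ≤ 9 / 10)
    (hTa : (19 / 20) ≤ s * Real.exp l) (hTb : s * Real.exp l ≤ 1) :
    1 / 100 ≤ Pinf n s l k + 7 / 10 * s ^ 2 := by
  have hl' : (63 / 200) ≤ l := l_lo h (Tb := 1) (by norm_num) hTb (by norm_num)
  rcases le_total l (201 / 500) with hlb | hl''
  · exact boxT h hk (a := (63 / 200)) (b := (201 / 500)) (Ta := (19 / 20)) (Tb := 1) (ea := (5481 / 4000)) (eb := (74741 / 50000)) (shi := (2663 / 5000)) (K := (3657 / 2500))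
      (σ0 := 0) (σ1 := (11509 / 10000)) (hh := (44403 / 5000)) (vb := (87 / 1000)) (E := (110123 / 100000)) (t0 := (19879 / 100000)) (W := (8111 / 100000)) (θ := 1)
      (p0 := (10551 / 5000) ^ 2) (r0 := -(282 / 100)) hl' hlb hTa hTb
      (exp_lo (by norm_num) (by norm_num)) (exp_hi (by norm_num) (by norm_num) (by norm_num)) (exp_hi (by norm_num) (by norm_num) (by norm_num))
      (Xxi hn h (ξ := (10551 / 5000)) (by norm_num) (by norm_num) (le_trans (by norm_num) ((exp_lo (y := (63 / 200)) (E := (5481 / 4000)) (by norm_num) (by norm_num)).trans (Real.exp_le_exp.2 hl'))))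
      (by norm_num) (by norm_num) (by norm_num) (by norm_num) (by norm_num) (by norm_num)
  clear hl'
  have hl' := hl''
  clear hl''
  rcases le_total l (11 / 20) with hlb | hl''
  · exact boxT h hk (a := (201 / 500)) (b := (11 / 20)) (Ta := (19 / 20)) (Tb := 1) (ea := (3737 / 2500)) (eb := (86663 / 50000)) (shi := (8951 / 20000)) (K := (2691 / 2000))
      (σ0 := 0) (σ1 := (2591 / 2000)) (hh := (20993 / 2000)) (vb := (47 / 200)) (E := (143639 / 100000)) (t0 := (5267 / 100000)) (W := (41341 / 100000)) (θ := 1)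
      (p0 := (4903 / 2000) ^ 2) (r0 := -(282 / 100)) hl' hlb hTa hTb
      (exp_lo (by norm_num) (by norm_num)) (exp_hi (by norm_num) (by norm_num) (by norm_num)) (exp_hi (by norm_num) (by norm_num) (by norm_num))
      (Xxi hn h (ξ := (4903 / 2000)) (by norm_num) (by norm_num) (le_trans (by norm_num) ((exp_lo (y := (201 / 500)) (E := (3737 / 2500)) (by norm_num) (by norm_num)).trans (Real.exp_le_exp.2 hl'))))
      (by norm_num) (by norm_num) (by norm_num) (by norm_num) (by norm_num) (by norm_num)
  clear hl'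
  have hl' := hl''
  clear hl''
  rcases le_total l (401 / 500) with hlb | hl''
  · exact boxT h hk (a := (11 / 20)) (b := (401 / 500)) (Ta := (19 / 20)) (Tb := 1) (ea := (43331 / 25000)) (eb := (223001 / 100000)) (shi := (4161 / 12500)) (K := (3061 / 2500))
      (σ0 := 0) (σ1 := (14837 / 10000)) (hh := (7922 / 625)) (vb := (487 / 1000)) (E := (234339 / 100000)) (t0 := (1579 / 100000)) (W := (66109 / 50000)) (θ := 1)
      (p0 := (31047 / 10000) ^ 2) (r0 := -(282 / 100)) hl' hlb hTa hTb
      (exp_lo (by norm_num) (by norm_num)) (exp_hi (by norm_num) (by norm_num) (by norm_num)) (exp_hi (by norm_num) (by norm_num) (by norm_num))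
      (Xxi hn h (ξ := (31047 / 10000)) (by norm_num) (by norm_num) (le_trans (by norm_num) ((exp_lo (y := (11 / 20)) (E := (43331 / 25000)) (by norm_num) (by norm_num)).trans (Real.exp_le_exp.2 hl'))))
      (by norm_num) (by norm_num) (by norm_num) (by norm_num) (by norm_num) (by norm_num)
  clear hl'
  have hl' := hl''
  clear hl''
  have hlb := hl9
  exact boxT h hk (a := (401 / 500)) (b := (9 / 10)) (Ta := (19 / 20)) (Tb := 1) (ea := (222997 / 100000)) (eb := (122981 / 50000)) (shi := (2011 / 10000)) (K := (11189 / 10000))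
    (σ0 := (7459 / 50000)) (σ1 := 0) (hh := (151791 / 10000)) (vb := (117 / 200)) (E := (284331 / 100000)) (t0 := (571 / 50000)) (W := (91113 / 50000)) (θ := 1)
    (p0 := (7 / 2) ^ 2) (r0 := -(282 / 100)) hl' hlb hTa hTb
    (exp_lo (by norm_num) (by norm_num)) (exp_hi (by norm_num) (by norm_num) (by norm_num)) (exp_hi (by norm_num) (by norm_num) (by norm_num))
    (Xxi hn h (ξ := (7 / 2)) (by norm_num) (by norm_num) (le_trans (by norm_num) ((exp_lo (y := (401 / 500)) (E := (222997 / 100000)) (by norm_num) (by norm_num)).trans (Real.exp_le_exp.2 hl'))))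
    (by norm_num) (by norm_num) (by norm_num) (by norm_num) (by norm_num) (by norm_num)

end FI

/-- `Pinf + 7/10 s² ≥ 1/100` on the far class, `k ≥ 0`, `l ≤ 9/10` -/
theorem Pinf_pos {n : ℕ} (hn : 23 ≤ n) {s l k : ℝ} (h : FarC n s l k) (hk : 0 ≤ k) (hl9 : l ≤ 9 / 10) :
    1 / 100 ≤ Pinf n s l k + 7 / 10 * s ^ 2 := by
  have hT0 : 0 ≤ s * Real.exp l := mul_nonneg h.hs.1.le (Real.exp_pos l).le
  rcases le_total (s * Real.exp l) (3 / 5) with h1 | h1'
  · exact FI.zone0 hn h hk hl9 hT0 h1
  rcases le_total (s * Real.exp l) (7 / 10) with h2 | h2'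
  · exact FI.zone1 hn h hk hl9 h1' h2
  rcases le_total (s * Real.exp l) (19 / 25) with h3 | h3'
  · exact FI.zone2 hn h hk hl9 h2' h3
  rcases le_total (s * Real.exp l) (4 / 5) with h4 | h4'
  · exact FI.zone3 hn h hk hl9 h3' h4
  rcases le_total (s * Real.exp l) (83 / 100) with h5 | h5'
  · exact FI.zone4 hn h hk hl9 h4' h5
  rcases le_total (s * Real.exp l) (43 / 50) with h6 | h6'
  · exact FI.zone5 hn h hk hl9 h5' h6
  rcases le_total (s * Real.exp l) (9 / 10) with h7 | h7'
  · exact FI.zone6 hn h hk hl9 h6' h7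
  rcases le_total (s * Real.exp l) (19 / 20) with h8 | h8'
  · exact FI.zone7 hn h hk hl9 h7' h8
  exact FI.zone8 hn h hk hl9 h8' h.hT.le

end WR

end Crest.Agent.R230
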