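import Crest.Agent.R230.OneDFar

/-!
# Row 230: the limiting density of the far region (`k ≥ 0`)
-/

set_option autoImplicit false

open Set
open scoped Pointwise ENNReal

namespace Crest.Agent.R230

namespace WR

/-- `V'(l - cap T)` -/
noncomputable def Vf (s l : ℝ) : ℝ := Vq' (7 / 100) (l - capF (s * Real.exp l))

/-- limiting density of the far region -/
noncomputable def Pinf (n : ℕ) (s l k : ℝ) : ℝ :=
  7 / 25 * (((n : ℝ) + 1) * s ^ 2) * l ^ 2 + Uf s l - (Real.exp (2 * Uf s l) - 1) / 2
    + (1 - Vf s l) * (k ^ 2 / (1 + k)) - Vf s l * (Real.exp (2 * Uf s l) - 1) * k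
    - 7 / 50 * k ^ 2 - 107 / 100 * (k - Real.log (1 + k))

end WR

end Crest.Agent.R230
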