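import Crest.Agent.R230.FarK

/-!
# Row 230: elimination of `κ = 1 + k ≥ 1` in the far block (helper237)
-/

set_option autoImplicit false

open MeasureTheory Set Filter Topology

namespace Crest.Agent.R230.WR

/-- concavity of `gk` on `[1, K]` -/
lemma gk_concave_ge1 {ρ D b M K : ℝ} (hρ : 0 ≤ ρ) (hb : 0 ≤ b) (hM : 0 ≤ M)
    (h2ρ : 2 * ρ ≤ 2 * b + M) : ConcaveOn ℝ (Icc 1 K) (gk ρ D b M) := by
  have hd : ∀ x : ℝ, 0 < x → HasDerivAt (gk ρ D b M)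
      ((M * x - ρ) / x ^ 2 - D + 2 * b * (1 - x)) x := by
    intro x hx
    have h1 : HasDerivAt (fun x : ℝ => 1 / x - 1) (-(1 / x ^ 2)) x := by
      have := (hasDerivAt_inv hx.ne').sub_const 1
      simpa [one_div] using this
    have h2 : HasDerivAt (fun x : ℝ => 1 - x) (-1) x := by
      simpa using (hasDerivAt_id x).const_sub 1
    have h3 := (((h1.const_mul ρ).add (h2.const_mul D)).sub ((h2.pow 2).const_mul b)).add
      ((Real.hasDerivAt_log hx.ne').const_mul M)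
    refine (h3.congr_deriv ?_)
    field_simp
    push_cast
    ring
  refine AntitoneOn.concaveOn_of_deriv (convex_Icc _ _) ?_ ?_ ?_
  · intro x hx
    exact (hd x (lt_of_lt_of_le one_pos hx.1)).continuousAt.continuousWithinAt
  · intro x hx
    rw [interior_Icc] at hx
    exact (hd x (one_pos.trans hx.1)).differentiableAt.differentiableWithinAt
  · intro x hx y hy hxy
    rw [interior_Icc] at hx hy
    have hx1 := hx.1
    have hy1 := hy.1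
    have hx0 := one_pos.trans hx.1
    have hy0 := one_pos.trans hy.1
    rw [(hd x hx0).deriv, (hd y hy0).deriv]
    have hxy1 : 1 ≤ x * y := by nlinarith
    have e1 : (M * x - ρ) / x ^ 2 - D + 2 * b * (1 - x) - ((M * y - ρ) / y ^ 2 - D + 2 * b * (1 - y)) =
        (y - x) * (2 * b + M / (x * y) - ρ * (x + y) / (x * y) ^ 2) := by
      field_simp
      ring
    have h2 : ρ * (x + y) / (x * y) ^ 2 ≤ 2 * b + M / (x * y) := by
      rw [div_le_iff₀ (by positivity)]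
      have e2 : (2 * b + M / (x * y)) * (x * y) ^ 2 = 2 * b * (x * y) ^ 2 + M * (x * y) := by
        field_simp
      rw [e2]
      have h3 : x + y ≤ 2 * (x * y) := by nlinarith
      have h4 : 2 * (x * y) ≤ 2 * (x * y) ^ 2 := by nlinarith
      have h5 : 2 * ρ * (x + y) ≤ (2 * b + M) * (x + y) :=
        mul_le_mul_of_nonneg_right h2ρ (by positivity)
      have h6 : b * (x + y) ≤ b * (2 * (x * y) ^ 2) := mul_le_mul_of_nonneg_left (h3.trans h4) hb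
      have h7 : M * (x + y) ≤ M * (2 * (x * y)) := mul_le_mul_of_nonneg_left h3 hM
      linarith
    have h8 := mul_nonneg (sub_nonneg.2 hxy) (sub_nonneg.2 h2)
    linarith

/-- positivity on a segment from the end points -/
lemma gk_pos_seg {ρ D b M G0 G1 κ1 κ2 κ : ℝ} (hρ : 0 ≤ ρ) (hb : 0 ≤ b) (hM : 0 ≤ M)
    (h2ρ : 2 * ρ ≤ 2 * b + M) (h1 : 1 ≤ κ1) (hκ : κ ∈ Icc κ1 κ2)
    (e1 : 0 < G0 + G1 * (κ1 - 1) + gk ρ D b M κ1) (e2 : 0 < G0 + G1 * (κ2 - 1) + gk ρ D b M κ2) :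
    0 < G0 + G1 * (κ - 1) + gk ρ D b M κ := by
  have hc := gk_concave_ge1 (D := D - G1) (K := κ2) hρ hb hM h2ρ
  have h12 : κ1 ≤ κ2 := hκ.1.trans hκ.2
  have h3 := hc.min_le_of_mem_Icc ⟨h1, h12⟩ ⟨h1.trans h12, le_rfl⟩ hκ
  have e : ∀ x : ℝ, gk ρ (D - G1) b M x = G1 * (x - 1) + gk ρ D b M x := by
    intro x; unfold gk; ring
  rw [e, e, e] at h3
  rcases min_choice (G1 * (κ1 - 1) + gk ρ D b M κ1) (G1 * (κ2 - 1) + gk ρ D b M κ2) with h5 | h5 <;>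
    rw [h5] at h3 <;> linarith

lemma elimY {A X y g z : ℝ} (hX : 0 < X) (hy : X ≤ y) (hA : 0 ≤ A) (_hg : 0 ≤ g) (_hz : 0 ≤ z)
    (h : g * z / X ≤ X * A) : X * A + g * z / X ≤ y * A + g * z / y := by
  have hy0 : 0 < y := hX.trans_le hy
  rw [div_le_iff₀ hX] at h
  have e2 : y * A + g * z / y - (X * A + g * z / X) = (y - X) * (A - g * z / (X * y)) := by
    field_simp
    ring
  have h6 : g * z / (X * y) ≤ A := by
    rw [div_le_iff₀ (by positivity)]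
    have h7 : X * A * X ≤ X * A * y := mul_le_mul_of_nonneg_left hy (by positivity)
    linarith
  have h8 := mul_nonneg (sub_nonneg.2 hy) (sub_nonneg.2 h6)
  linarith

/-- the `k`-part, `0 ≤ k` -/
noncomputable def phk (C1 ρ0 ρ1 b M k : ℝ) : ℝ :=
  C1 * k - ρ0 * (k / (1 + k)) - ρ1 * k - b * k ^ 2 - M * (k - Real.log (1 + k))

lemma phk_seg {C1 ρ0 ρ1 b M G0 G1 k1 k2 k : ℝ} (hρ : 0 ≤ ρ0) (hb : 0 ≤ b) (hM : 0 ≤ M)
    (h2ρ : 2 * ρ0 ≤ 2 * b + M) (h1 : 0 ≤ k1) (hk1 : k1 ≤ k) (hk2 : k ≤ k2)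
    (e1 : 0 < G0 + G1 * k1 + phk C1 ρ0 ρ1 b M k1) (e2 : 0 < G0 + G1 * k2 + phk C1 ρ0 ρ1 b M k2) :
    0 < G0 + G1 * k + phk C1 ρ0 ρ1 b M k := by
  have key : ∀ x : ℝ, 0 ≤ x → G0 + G1 * x + phk C1 ρ0 ρ1 b M x =
      G0 + G1 * ((1 + x) - 1) + gk ρ0 (M + ρ1 - C1) b M (1 + x) := by
    intro x hx
    have h9 : (1 + x) ≠ 0 := by positivity
    have h8 : x / (1 + x) = 1 - 1 / (1 + x) := by field_simp; ring
    unfold phk gk
    rw [h8]
    ring
  rw [key k1 h1] at e1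
  rw [key k2 (by linarith)] at e2
  rw [key k (by linarith)]
  exact gk_pos_seg hρ hb hM h2ρ (by linarith) ⟨by linarith, by linarith⟩ e1 e2

lemma kpos_core {A B K k Xr y g0 w1 gN tg ρ ρ0 ρ1 b M C1 : ℝ} (hk0 : 0 ≤ k) (hkK : k ≤ K)
    (hA : 0 ≤ A) (hρ0 : 0 ≤ ρ0) (hρ1 : 0 ≤ ρ1) (hb : 0 ≤ b) (hM : 0 ≤ M)
    (h2ρ : 2 * ρ0 ≤ 2 * b + M) (hρ : ρ ≤ ρ0 + ρ1) (hgN : 0 ≤ gN)
    (hE : Xr * A + tg * (g0 + 5 * w1 * k) ≤ y * A + gN)
    (p0 : 0 < Xr * A + tg * g0 + B)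
    (pK : 0 < Xr * A + tg * (g0 + 5 * w1 * K) + B + phk C1 ρ0 ρ1 b M K ∨
      ∃ ks h' : ℝ, 0 ≤ ks ∧ ks ≤ K ∧ (1 + k) * h' - 1 ≤ y ∧
        0 < Xr * A + tg * (g0 + 5 * w1 * ks) + B + phk C1 ρ0 ρ1 b M ks ∧
        0 < ((1 + ks) * h' - 1) * A + B + phk C1 ρ0 ρ1 b M ks ∧
        0 < ((1 + K) * h' - 1) * A + B + phk C1 ρ0 ρ1 b M K) :
    0 < y * A + gN + B + C1 * k - ρ * (k / (1 + k)) - b * k ^ 2 - M * (k - Real.log (1 + k)) := by
  have h1k : 0 < 1 + k := by linarith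
  have hkk0 : 0 ≤ k / (1 + k) := by positivity
  have hkk : k / (1 + k) ≤ k := by
    rw [div_le_iff₀ h1k]; nlinarith
  have hr1 : ρ * (k / (1 + k)) ≤ (ρ0 + ρ1) * (k / (1 + k)) := mul_le_mul_of_nonneg_right hρ hkk0
  have hr2 : ρ1 * (k / (1 + k)) ≤ ρ1 * k := mul_le_mul_of_nonneg_left hkk hρ1
  have hph0 : phk C1 ρ0 ρ1 b M 0 = 0 := by unfold phk; simp
  have hfin : 0 < y * A + gN + B + phk C1 ρ0 ρ1 b M k := by
    rcases pK with pK | ⟨ks, h', q1, q2, q3, q4, q5, q6⟩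
    · have h := phk_seg (G0 := Xr * A + tg * g0 + B) (G1 := tg * (5 * w1)) (C1 := C1) (ρ1 := ρ1)
        hρ0 hb hM h2ρ le_rfl hk0 hkK (by rw [hph0]; linarith) (by linarith)
      linarith
    · rcases le_total k ks with hk | hk
      · have h := phk_seg (G0 := Xr * A + tg * g0 + B) (G1 := tg * (5 * w1)) (C1 := C1) (ρ1 := ρ1)
          hρ0 hb hM h2ρ le_rfl hk0 hk (by rw [hph0]; linarith) (by linarith)
        linarith
      · have h := phk_seg (G0 := (h' - 1) * A + B) (G1 := h' * A) (C1 := C1) (ρ1 := ρ1)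
          hρ0 hb hM h2ρ q1 hk hkK (by linarith) (by linarith)
        have h3 := mul_le_mul_of_nonneg_right q3 hA
        linarith
  unfold phk at hfin
  linarith

end Crest.Agent.R230.WR
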