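import Crest.Agent.R230.OneDFar
import Crest.Agent.R230.FarForm

/-!
# Row 230: closed form of the far density in the variables `c, Y, l, u, e = e^{2u} - 1, r = √(1 - Y e)`
-/

set_option autoImplicit false
set_option maxHeartbeats 4000000

open MeasureTheory Set Filter Topology
open scoped Pointwise ENNReal

namespace Crest.Agent.R230.WR

noncomputable def nA (c Yv l lh u e r : ℝ) : ℝ :=
  (1 + Yv) * (l ^ 2 * (Yv + 7 / 25) + Yv * (-(e ^ 2 * (2 + r) / (2 * r * (1 + r) ^ 2)) +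
    lh * e * (e * (1 + 2 * r) / (1 + r) + 1 + r + r ^ 2) / (r ^ 3 * (1 + r)) -
    u * c ^ 2 * (1 + 2 * c) / (1 + c) ^ 2) + e / 2000)

noncomputable def nW (c Yv lh e r : ℝ) : ℝ :=
  (2 - 2 * (c * r) ^ 2 / (1 + c * r)) / r - 3 * lh * Yv * (1 + e) / r ^ 3

noncomputable def nB (c Yv l lh u e r R V1 t1 : ℝ) : ℝ :=
  -(4 * Yv ^ 2 * l ^ 2) - 103 / 25 * Yv * l ^ 2 + R - 3501 / 1000 * Yv * e - 1001 / 2000 * e +
    c ^ 2 * Yv * e / ((1 + r) * (1 + c) * (1 + c * r)) -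
    lh * Yv * e * (4 * ((1 + Yv) * (1 + r + r ^ 2) / r ^ 2) - 3) / (r * (1 + r)) +
    u * (1 + 4 * Yv) + V1 * t1 * (nW c Yv lh e r - 1001 / 1000 * (1 + e))

noncomputable def ngam (Yv e V1 t1 : ℝ) : ℝ := 5 * (1 / 2 * (1 + 2 * Yv) * e + (1 + e) * V1 * t1)

lemma cW_eq {c r lh e : ℝ} (hc : 0 < c) (hr : 0 < r)
    (he : (1 - c ^ 2) * e = (1 - r ^ 2) * c ^ 2) :
    c * Wq (1 / (c * r)) lh = nW c ((1 - c ^ 2) / c ^ 2) lh e r := by
  have h1 : 1 + c * r ≠ 0 := by positivity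
  have h2 : (1 - c ^ 2) * (1 + e) = 1 - (c * r) ^ 2 := by linear_combination he
  have h3 : 3 * lh * ((1 - c ^ 2) / c ^ 2) * (1 + e) / r ^ 3 =
      3 * lh * (1 - (c * r) ^ 2) / (c ^ 2 * r ^ 3) := by
    rw [← h2]; field_simp
  unfold nW
  rw [h3]
  unfold Wq
  have h4 : 1 + 1 / (c * r) ≠ 0 := by positivity
  field_simp
  ring

lemma id_a {c r Yv e : ℝ} (hc : 0 < c) (hr : 0 < r) (hY : 1 + Yv = 1 / c ^ 2)
    (hYe : Yv * e = 1 - r ^ 2) :
    c * (rq (1 / (c * r)) - rq (1 / c)) =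
      Yv ^ 2 * (e * (e * (1 + 2 * r) / (1 + r) + 1 + r + r ^ 2) / (r ^ 3 * (1 + r))) := by
  have h1 : 1 + r ≠ 0 := by positivity
  have e1 : Yv ^ 2 * (e * (e * (1 + 2 * r) / (1 + r) + 1 + r + r ^ 2) / (r ^ 3 * (1 + r))) =
      (Yv * e) * ((Yv * e) * (1 + 2 * r) / (1 + r) + Yv * (1 + r + r ^ 2)) / (r ^ 3 * (1 + r)) := by
    field_simp
    ring
  have e2 : Yv = 1 / c ^ 2 - 1 := by linarith
  rw [e1, hYe, e2]
  unfold rq
  field_simp
  ring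

lemma id_b {c Yv : ℝ} (hc : 0 < c) (hY : 1 + Yv = 1 / c ^ 2) :
    c * rq (1 / c) = Yv ^ 2 * (c ^ 2 * (1 + 2 * c) / (1 + c) ^ 2) := by
  have h1 : 1 + c ≠ 0 := by positivity
  have e2 : Yv = 1 / c ^ 2 - 1 := by linarith
  rw [e2]
  unfold rq
  field_simp
  ring

lemma id_c {c r Yv e : ℝ} (hc : 0 < c) (hr : 0 < r) (hYe : Yv * e = 1 - r ^ 2) :
    -(c * (1 / (c * r) - 1 / c)) + 1 / 2 * (Yv * e) =
      -(Yv ^ 2 * (e ^ 2 * (2 + r) / (2 * r * (1 + r) ^ 2))) := by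
  have h1 : 1 + r ≠ 0 := by positivity
  have e1 : Yv ^ 2 * (e ^ 2 * (2 + r) / (2 * r * (1 + r) ^ 2)) =
      (Yv * e) ^ 2 * (2 + r) / (2 * r * (1 + r) ^ 2) := by
    field_simp
  rw [e1, hYe]
  field_simp
  ring

lemma id_d {c r Yv e : ℝ} (hc : 0 < c) (hr : 0 < r) (hYe : Yv * e = 1 - r ^ 2) :
    c * ((1 / (c * r)) / (1 + 1 / (c * r)) - (1 / c) / (1 + 1 / c)) =
      c ^ 2 * Yv * e / ((1 + r) * (1 + c) * (1 + c * r)) := by
  have h1 : 1 + r ≠ 0 := by positivity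
  have h2 : 1 + c ≠ 0 := by positivity
  have h3 : 1 + c * r ≠ 0 := by positivity
  have h4 : 1 + 1 / c ≠ 0 := by positivity
  have h5 : 1 + 1 / (c * r) ≠ 0 := by positivity
  have e1 : c ^ 2 * Yv * e = c ^ 2 * (1 - r ^ 2) := by rw [mul_assoc, hYe]
  rw [e1]
  field_simp
  ring

lemma id_e {c r Yv e : ℝ} (hc : 0 < c) (hr : 0 < r) (hY : 1 + Yv = 1 / c ^ 2)
    (hYe : Yv * e = 1 - r ^ 2) :
    c * ((4 * (1 / (c * r)) ^ 3 - 3 * (1 / (c * r))) - (4 * (1 / c) ^ 3 - 3 * (1 / c))) =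
      Yv * e * (4 * ((1 + Yv) * (1 + r + r ^ 2) / r ^ 2) - 3) / (r * (1 + r)) := by
  have h1 : 1 + r ≠ 0 := by positivity
  rw [hYe, hY]
  field_simp
  ring

lemma id_f {c Yv : ℝ} (hc : 0 < c) (hY : 1 + Yv = 1 / c ^ 2) :
    c * (4 * (1 / c) ^ 3 - 3 * (1 / c)) = 1 + 4 * Yv := by
  have e2 : Yv = 1 / c ^ 2 - 1 := by linarith
  rw [e2]
  field_simp
  ring

/-- the `k`-free part -/
lemma P0_id {c r l u e R V1 t1 N Yv W : ℝ} (hc : 0 < c) (hr : 0 < r) (hN : 0 < N)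
    (hY : 1 + Yv = 1 / c ^ 2) (hYe : Yv * e = 1 - r ^ 2) :
    ((N - 4) * Yv ^ 2 + (2 * (N - 4) * (7 / 50) - 3) * Yv) * l ^ 2 + R +
      N * (c * ((l - u) * rq (1 / (c * r)) - l * rq (1 / c) - (1 / (c * r) - 1 / c))) +
      1 / 2 * (((N - 5) / N + 1 / 1000) * (((N - 2) * Yv - 1) * e)) +
      c * ((1 / (c * r)) / (1 + 1 / (c * r)) - (1 / c) / (1 + 1 / c)) -
      c * ((l - u) * (4 * (1 / (c * r)) ^ 3 - 3 * (1 / (c * r))) - l * (4 * (1 / c) ^ 3 - 3 * (1 / c))) +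
      V1 * t1 * (W - ((N - 5) / N + 1 / 1000) * (1 + e)) =
    N * (1 - c ^ 2) * nA c Yv l (l - u) u e r + ngam Yv e V1 t1 / N +
      (-(4 * Yv ^ 2 * l ^ 2) - 103 / 25 * Yv * l ^ 2 + R - 3501 / 1000 * Yv * e - 1001 / 2000 * e +
    c ^ 2 * Yv * e / ((1 + r) * (1 + c) * (1 + c * r)) -
    (l - u) * Yv * e * (4 * ((1 + Yv) * (1 + r + r ^ 2) / r ^ 2) - 3) / (r * (1 + r)) +
    u * (1 + 4 * Yv) + V1 * t1 * (W - 1001 / 1000 * (1 + e))) := by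
  have ha := id_a hc hr hY hYe
  have hb := id_b hc hY
  have hcc := id_c hc hr hYe
  have hd := id_d hc hr hYe
  have he := id_e hc hr hY hYe
  have hf := id_f hc hY
  have hnA : (1 - c ^ 2) * nA c Yv l (l - u) u e r = Yv * (l ^ 2 * (Yv + 7 / 25)) +
      (c * ((l - u) * rq (1 / (c * r)) - l * rq (1 / c) - (1 / (c * r) - 1 / c)) + 1 / 2 * (Yv * e)) +
      Yv * e / 2000 := by
    have h0 : (1 - c ^ 2) * (1 + Yv) = Yv := by
      have : c ^ 2 * (1 + Yv) = 1 := by rw [hY]; field_simp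
      linarith
    have h1 : (1 - c ^ 2) * nA c Yv l (l - u) u e r = ((1 - c ^ 2) * (1 + Yv)) *
        (l ^ 2 * (Yv + 7 / 25) + Yv * (-(e ^ 2 * (2 + r) / (2 * r * (1 + r) ^ 2)) +
    (l - u) * e * (e * (1 + 2 * r) / (1 + r) + 1 + r + r ^ 2) / (r ^ 3 * (1 + r)) -
    u * c ^ 2 * (1 + 2 * c) / (1 + c) ^ 2) + e / 2000) := by unfold nA; ring
    rw [h1, h0]
    linear_combination -hcc - (l - u) * ha + u * hb
  have hsum : N * (1 - c ^ 2) * nA c Yv l (l - u) u e r =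
      N * ((1 - c ^ 2) * nA c Yv l (l - u) u e r) := by ring
  rw [hsum, hnA]
  have he2 : (l - u) * Yv * e * (4 * ((1 + Yv) * (1 + r + r ^ 2) / r ^ 2) - 3) / (r * (1 + r)) =
      (l - u) * (Yv * e * (4 * ((1 + Yv) * (1 + r + r ^ 2) / r ^ 2) - 3) / (r * (1 + r))) := by ring
  have hg : ngam Yv e V1 t1 / N = 5 / N * (1 / 2 * (1 + 2 * Yv) * e + (1 + e) * V1 * t1) := by
    unfold ngam; ring
  have hNN : (N - 5) / N = 1 - 5 / N := by field_simp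
  have hNi : 5 / N * N = 5 := by field_simp
  rw [he2, hg, hNN]
  linear_combination hd - (l - u) * he + u * hf - (1 / 2 * Yv * e) * hNi


lemma cc_exp_eq {s u e r : ℝ} (hs : s ∈ Ioo (0 : ℝ) 1) (hu : s * Real.exp u < 1)
    (he : e = Real.exp (2 * u) - 1) (hr : r = Real.sqrt (1 - Y s * e)) :
    cc (s * Real.exp u) = cc s * r ∧ 0 < r ∧ Y s * e = 1 - r ^ 2 := by
  have hc := cc_pos' hs
  have hp : s * Real.exp u ∈ Ioo (0 : ℝ) 1 := ⟨mul_pos hs.1 (Real.exp_pos _), hu⟩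
  have hd := cc_pos' hp
  have hd2 : cc (s * Real.exp u) ^ 2 = 1 - s ^ 2 * Real.exp (2 * u) := by
    rw [cc_sq' hp, mul_pow, ← Real.exp_nat_mul]
    push_cast
    ring_nf
  have hs2 : s ^ 2 = 1 - cc s ^ 2 := by rw [cc_sq' hs]; ring
  have h1 : 1 - Y s * e = (cc (s * Real.exp u) / cc s) ^ 2 := by
    have hE : Real.exp (2 * u) = 1 + e := by rw [he]; ring
    rw [div_pow, hd2, hE, Y_eq hs, hs2]
    field_simp
    ring
  have h2 : r = cc (s * Real.exp u) / cc s := by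
    rw [hr, h1, Real.sqrt_sq (by positivity)]
  refine ⟨?_, ?_, ?_⟩
  · rw [h2]; field_simp
  · rw [h2]; positivity
  · rw [h2, ← h1]; ring

theorem PF_eq_neg {n : ℕ} {μ s l k u e r V1 t1 : ℝ} (hs : s ∈ Ioo (0 : ℝ) 1) (hk : 0 < 1 + k)
    (hu' : u = Uf s l) (he : e = Real.exp (2 * u) - 1) (hr : r = Real.sqrt (1 - Y s * e))
    (hV : V1 = Vq' (7 / 100) (l - capF (s * Real.exp l)))
    (ht : t1 = 23 / 25 * (s * Real.exp l) ^ 8) (hu : s * Real.exp u < 1) :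
    PF n μ s l k = ((n : ℝ) + 1) * s ^ 2 * nA (cc s) (Y s) l (l - u) u e r +
      ngam (Y s) e V1 t1 / ((n : ℝ) + 1) +
      nB (cc s) (Y s) l (l - u) u e r (cR s l) V1 t1 +
      μ * (((n : ℝ) - 1) * Y s * Gm n l) +
      (aq s - 2 * (Y s * l) - e0F n * ((1 + e) * (V1 * (1 + t1)))) * k +
      (1 - V1) * nW (cc s) (Y s) (l - u) e r * (1 / (1 + k) - 1) -
      7 / 50 * (cc s ^ 2 * k ^ 2) - μ * (Real.exp (l / n) * hm n k) := by
  have hc := cc_pos' hs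
  obtain ⟨hcr, hr0, hYe⟩ := cc_exp_eq hs hu he hr
  have hE : Real.exp (2 * u) = 1 + e := by rw [he]; ring
  have hs2 : s ^ 2 = 1 - cc s ^ 2 := by rw [cc_sq' hs]; ring
  have hY : 1 + Y s = 1 / cc s ^ 2 := by
    rw [Y_eq hs]
    field_simp
    ring
  have hYc : Y s = (1 - cc s ^ 2) / cc s ^ 2 := Y_eq hs
  have hSU : SUf s l k = V1 * (k + t1 * (1 + k)) := by
    unfold SUf capF'
    rw [hV, ht]
    ring
  unfold PF
  rw [hSU, ← hu', far_eq hs hu hk]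
  have hWW : cc s * Wq (1 / cc (s * Real.exp u)) (l - u) = nW (cc s) (Y s) (l - u) e r := by
    rw [hcr, hYc]
    refine cW_eq hc hr0 ?_
    have : Y s * cc s ^ 2 = 1 - cc s ^ 2 := by rw [hYc]; field_simp
    calc (1 - cc s ^ 2) * e = (Y s * e) * cc s ^ 2 := by rw [← this]; ring
      _ = (1 - r ^ 2) * cc s ^ 2 := by rw [hYe]
  have hN : (0 : ℝ) < (n : ℝ) + 1 := by positivity
  have hP := P0_id (l := l) (u := u) (R := cR s l) (V1 := V1) (t1 := t1)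
    (W := nW (cc s) (Y s) (l - u) e r) hc hr0 hN hY hYe
  have he0 : e0F n = ((n : ℝ) + 1 - 5) / ((n : ℝ) + 1) + 1 / 1000 := by
    unfold e0F; ring
  have hP0 : farP0 n μ (7 / 50) (e0F n) s l u V1 t1 = μ * (((n : ℝ) - 1) * Y s * Gm n l) +
      (((n : ℝ) + 1) * s ^ 2 * nA (cc s) (Y s) l (l - u) u e r +
      ngam (Y s) e V1 t1 / ((n : ℝ) + 1) +
      nB (cc s) (Y s) l (l - u) u e r (cR s l) V1 t1) := by
    unfold farP0 nB
    rw [hWW, hE, hcr, he0, hs2]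
    linear_combination hP
  have hA2 : farA2 s l u V1 = (1 - V1) * nW (cc s) (Y s) (l - u) e r := by
    unfold farA2
    rw [hWW]
  have hK : KK k = 1 / (1 + k) - 1 + k := by
    unfold KK
    field_simp
    ring
  unfold farB
  rw [hP0, hA2, hK, hE]
  ring

/-- `0 < u`, `s e^u < s e^l < 1` on the far class -/
theorem Uf_far {n : ℕ} {s l k : ℝ} (h : FarC n s l k) :
    0 < Uf s l ∧ Uf s l < l ∧ s * Real.exp (Uf s l) < s * Real.exp l ∧ s * Real.exp l < 1 := by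
  have hx : 0 < l - capF (s * Real.exp l) := by linarith [h.hcap]
  have hT0 : 0 < s * Real.exp l := mul_pos h.hs.1 (Real.exp_pos _)
  have hcap : 0 < capF (s * Real.exp l) := by
    unfold capF
    have : (s * Real.exp l) ^ 8 ≤ 1 := pow_le_one₀ hT0.le h.hT.le
    linarith
  have h1 : 0 < Uf s l := by
    unfold Uf
    rw [Vq_of_nonneg hx.le]
    positivity
  have h2 : Uf s l < l := by
    have := Vq_le (w := 7 / 100) (by norm_num) hx.le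
    unfold Uf
    linarith
  exact ⟨h1, h2, mul_lt_mul_of_pos_left (Real.exp_lt_exp.2 h2) h.hs.1, h.hT⟩

end Crest.Agent.R230.WR
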