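import Crest.Agent.R230.FarNegEv
import Crest.Agent.R230.FarK
import Crest.Agent.R230.FarMu
import Crest.Agent.R230.FarNegEq

/-!
# Row 230: soundness of the box evaluator `FN.ev` (helper237)
-/

set_option autoImplicit false
set_option maxHeartbeats 4000000

open MeasureTheory Set Filter Topology

namespace Crest.Agent.R230.FN

open IA WR

lemma _root_.Crest.Agent.R230.IA.LB.cg {a : ℕ} {x y : ℝ} (h : LB a x) (e : x = y) : LB a y := e ▸ h
lemma _root_.Crest.Agent.R230.IA.UB.cg {a : ℕ} {x y : ℝ} (h : UB x a) (e : x = y) : UB y a := e ▸ h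

lemma mD_ge {a b : ℕ} (hb : SC ≤ b) : a ≤ mD a b := by
  unfold mD
  rw [Nat.le_div_iff_mul_le (by norm_num)]
  exact Nat.mul_le_mul_left a hb

lemma pos_of_mD {a b : ℕ} (h : 0 < mD a b) : 0 < a := by
  rcases Nat.eq_zero_or_pos a with h0 | h0
  · rw [h0] at h; simp [mD] at h
  · exact h0

lemma pos_of_mD' {a b : ℕ} (h : 0 < mD a b) : 0 < b := by
  rcases Nat.eq_zero_or_pos b with h0 | h0
  · rw [h0] at h; simp [mD] at h
  · exact h0

/-- lower bound of `x² = N z` on the far class -/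
lemma xLow_spec {zD zU eLD : ℕ} {N z x E : ℝ} (hz : LB zD z) (hz' : UB z zU) (hE : LB eLD E)
    (hx : x ^ 2 = N * z) (hN : 24 ≤ N) (hx2 : 2 ≤ x) (hz0 : 0 < z)
    (hC1 : x ≤ 7 / 2 → E ≤ 3 / 5 + (73 / 200 + 1 / (2 * N)) * x)
    (hC2 : 7 / 2 ≤ x → E ≤ 3 / 5 * x) : LB (xLow zD zU eLD) (N * z) := by
  have hx0 : 0 < x := by linarith
  have hN0 : 0 < N := by linarith
  unfold xLow
  extract_lets yD xa xb xc
  have h35 : LB 3848290697216 (7 / 2) := by unfold LB; norm_num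
  have h2 : LB 2199023255552 2 := by unfold LB; norm_num
  have h6 : UB (3 / 5) 659706976666 := by unfold UB; norm_num
  have h365 : UB (365 / 1000) 401321744139 := by unfold UB; norm_num
  have hy : LB yD (max (E - 3 / 5) 0) := LB_sub' hE h6
  have hxe : x ≤ 7 / 2 → E - 3 / 5 - z / (2 * x) ≤ 365 / 1000 * x := by
    intro h
    have h1 := hC1 h
    have h3 : 1 / (2 * N) * x = z / (2 * x) := by
      field_simp
      linarith
    have h4 : (73 / 200 + 1 / (2 * N)) * x = 365 / 1000 * x + 1 / (2 * N) * x := by ring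
    linarith
  have hstep : x ≤ 7 / 2 → ∀ (a : ℕ) (w : ℝ), UB w a → 0 ≤ w → z / (2 * x) ≤ w →
      LB (dD (yD - a) 401321744139) x := by
    intro h a w ha hw hzw
    have h1 := hxe h
    refine (LB_div (LB_sub' hy ha) h365 (by norm_num)).le ?_
    rw [div_le_iff₀ (by norm_num)]
    refine max_le ?_ (by positivity)
    rcases max_choice (E - 3 / 5) 0 with h5 | h5 <;> rw [h5]
    · linarith
    · have : 0 ≤ x * (365 / 1000) := by positivity
      linarith
  have hxa' : x ≤ 7 / 2 → LB xa x := by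
    intro h
    have h1 := hstep h (zU / 4 + 1) (z / 4) (by exact_mod_cast UB_ndiv (n := 4) (by norm_num) hz')
      (by positivity) (by
        rw [div_le_div_iff₀ (by positivity) (by norm_num)]
        nlinarith)
    have h3 := LB_max (h2.le hx2) h1
    exact le_trans (by exact_mod_cast min_le_right _ _) h3
  have hxa : LB xa x := by
    rcases le_total x (7 / 2) with h | h
    · exact hxa' h
    · have h3 : LB 3848290697216 x := h35.le h
      exact le_trans (by exact_mod_cast min_le_left _ _) h3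
  have hxa0 : 0 < xa := by
    have : 2199023255552 ≤ xa := le_min (by norm_num) (le_max_left _ _)
    omega
  have hxb : x ≤ 7 / 2 → LB xb x := by
    intro h
    have h4 : UB (z / (2 * x)) (dU zU (2 * xa)) := by
      have := UB_div hz' (LB_nmul 2 hxa) (by omega) hz0.le
      exact_mod_cast this
    exact LB_max hxa (hstep h _ _ h4 (by positivity) le_rfl)
  have hxc : LB xc x := by
    rcases le_or_gt xb 3848290697216 with h | h
    · have e : xc = xb := if_pos h
      rw [e]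
      rcases le_total x (7 / 2) with h' | h'
      · exact hxb h'
      · exact le_trans (by exact_mod_cast h) (h35.le h')
    · have e : xc = max 3848290697216 (5 * eLD / 3) := if_neg (by omega)
      rw [e]
      have hx35 : 7 / 2 ≤ x := by
        by_contra hc
        push Not at hc
        have h5 := hxb hc.le
        have h6 : (3848290697216 : ℝ) < xb := by exact_mod_cast h
        unfold LB at h5
        nlinarith
      refine LB_max (h35.le hx35) ?_
      have h7 := LB_ndiv 3 (LB_nmul 5 hE)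
      refine LB.le (by exact_mod_cast h7) ?_
      have := hC2 hx35
      linarith
  refine LB_max ?_ ?_
  · exact (LB_mul hxc hxc).cg (by rw [← hx]; ring)
  · refine LB.le (x := 24 * z) (by exact_mod_cast LB_nmul 24 hz) ?_
    exact mul_le_mul_of_nonneg_right hN hz0.le

lemma lt_one_of_sq {c z : ℝ} (h0 : 0 ≤ c) (hz : 0 < z) (h : c ^ 2 = 1 - z) : c < 1 := by nlinarith
lemma mul_lt_one' {a b : ℝ} (ha : 0 < a) (ha1 : a < 1) (_hb : 0 < b) (hb1 : b < 1) : a * b < 1 := by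
  nlinarith
lemma mul_sub_le {v o : ℝ} (hv : 0 < v) (ho : 0 < o) : v * (1 - o) ≤ v := by nlinarith
lemma two_sq_le {x : ℝ} (h0 : 0 < x) (h1 : x < 1) : 2 * x ^ 2 ≤ 2 * (1 + x) := by nlinarith

lemma S3_le {Yv r : ℝ} (hY : 0 < Yv) (h0 : 0 < r) (h1 : r < 1) :
    3 * r ^ 2 ≤ (1 + Yv) * (1 + r + r ^ 2) := by
  have h2 : 0 ≤ Yv * (1 + r + r ^ 2) := by positivity
  nlinarith

lemma elimN {X A gD gU zD zU : ℕ} {N z Ar g : ℝ} (hX : LB X (N * z)) (pX : 0 < X) (hA : LB A Ar)
    (hXA : LB (mD X A) (N * z * Ar)) (hgD : LB gD g) (hgU : UB g gU) (hzD : LB zD z) (hzU : UB z zU)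
    (hg : 0 ≤ g) (hz : 0 < z) (hN : 0 < N) :
    LB (mD X A + if dU (mU gU zU) X ≤ mD X A then dD (mD gD zD) X else 0) (N * z * Ar + g / N) := by
  split_ifs with h
  · set x : ℝ := (X : ℝ) / 1099511627776 with hx
    have hx0 : 0 < x := by rw [hx]; have : (0 : ℝ) < X := by exact_mod_cast pX
                           positivity
    have hXx : LB X x := LB_self X
    have hXx' : UB x X := UB_self X
    have hxN : x ≤ N * z := by
      unfold LB at hX
      rw [hx, div_le_iff₀ (by norm_num)]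
      exact hX
    have h1 : LB (mD X A) (x * Ar) := LB_mul hXx hA
    have h2 : UB (g * z / x) (dU (mU gU zU) X) := UB_div (UB_mul hgU hzU hg hz.le) hXx pX (by positivity)
    have h3 : g * z / x ≤ x * Ar := LB.le_of h1 h2 h
    have h4 : LB (dD (mD gD zD) X) (g * z / x) := LB_div (LB_mul hgD hzD) hXx' hx0
    refine (LB_add h1 h4).le ?_
    have hy0 : 0 < N * z := by positivity
    have e1 : g / N = g * z / (N * z) := by field_simp
    rw [e1]
    set y := N * z
    have h5 : g * z ≤ x * Ar * x := by rwa [div_le_iff₀ hx0] at h3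
    have e2 : y * Ar + g * z / y - (x * Ar + g * z / x) = (y - x) * (Ar - g * z / (x * y)) := by
      field_simp
      ring
    have h6 : g * z / (x * y) ≤ Ar := by
      rw [div_le_iff₀ (by positivity)]
      have hAr : 0 ≤ Ar := hA.nonneg
      have h7 : x * Ar * x ≤ x * Ar * y := mul_le_mul_of_nonneg_left hxN (by positivity)
      linarith
    have h8 := mul_nonneg (sub_nonneg.2 hxN) (sub_nonneg.2 h6)
    linarith
  · refine hXA.le ?_
    have : 0 ≤ g / N := by positivity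
    linarith

lemma fin0 {Bn GP : ℕ} {Gp Gm : ℝ} (h : Bn < GP) (h1 : LB GP Gp) (h2 : UB Gm Bn) :
    0 < Gp - Gm := by
  have h5 : ((Bn : ℕ) : ℝ) < ((GP : ℕ) : ℝ) := by exact_mod_cast h
  unfold LB UB at *
  linarith

lemma fin1 {Bn cost GP M : ℕ} {Gp Gm cr Mr : ℝ} (h : Bn + cost < GP + M) (h1 : LB GP Gp)
    (h2 : UB Gm Bn) (h3 : UB cr cost) (h4 : LB M Mr) : 0 < Gp - Gm + (Mr - cr) := by
  have h5 : ((Bn + cost : ℕ) : ℝ) < ((GP + M : ℕ) : ℝ) := by exact_mod_cast h
  push_cast at h5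
  unfold LB UB at *
  linarith

lemma fin2 {Bn cost bU GP M DD : ℕ} {Gp Gm cr br Mr D : ℝ} (h : Bn + cost + bU < GP + M + DD)
    (h1 : LB GP Gp) (h2 : UB Gm Bn) (h3 : UB cr cost) (h4 : LB M Mr) (h5 : UB br bU) (h6 : LB DD D) :
    0 < Gp - Gm + (Mr - cr) + (D - br) := by
  have h7 : ((Bn + cost + bU : ℕ) : ℝ) < ((GP + M + DD : ℕ) : ℝ) := by exact_mod_cast h
  push_cast at h7
  unfold LB UB at *
  linarith

lemma xLow_pos (zD zU eLD : ℕ) : 0 < xLow zD zU eLD := by
  unfold xLow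
  extract_lets yD xa xb xc
  have h1 : 2199023255552 ≤ xa := le_min (by norm_num) (le_max_left _ _)
  have h2 : 2199023255552 ≤ xb := h1.trans (le_max_left _ _)
  have h3 : 2199023255552 ≤ xc := by
    rcases le_or_gt xb 3848290697216 with h | h
    · have e : xc = xb := if_pos h
      omega
    · have e : xc = max 3848290697216 (5 * eLD / 3) := if_neg (by omega)
      rw [e]
      exact le_trans (by norm_num) (le_max_left _ _)
  have h4 : xc ≤ mD xc xc := mD_ge (le_trans (by norm_num) h3)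
  exact lt_of_lt_of_le (by omega) (le_max_left _ _)

/-- real data of the box -/
theorem ev_core {s1 s2 l1 l2 : ℕ} {s l z c Yv T cap v o u e r lh P1 : ℝ} {x N nn κ e0 : ℝ}
    (hev : ev s1 s2 l1 l2 = true)
    (b1 : LB s1 s) (b2 : UB s s2) (b3 : LB l1 l) (b4 : UB l l2)
    (hs0 : 0 < s) (hs1 : s < 1) (hl0 : 0 ≤ l) (hl8 : l ≤ 2) (hz : z = s ^ 2) (hc : c = Real.sqrt (1 - z))
    (hY : Yv = z / (1 - z)) (hT : T = s * Real.exp l) (hT1 : T < 1) (hcap : cap = 43 / 100 - 115 / 1000 * T ^ 8)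
    (hv : v = l - cap) (hv0 : 0 < v) (ho : o = 7 / 100 / (v + 7 / 100)) (hu : u = v * (1 - o))
    (he : e = Real.exp (2 * u) - 1) (hYe : Yv * e < 1) (hr : r = Real.sqrt (1 - Yv * e))
    (hlh : lh = cap + 7 / 100 * (1 - o))
    (hx : x ^ 2 = N * z) (hN : 24 ≤ N) (hx2 : 2 ≤ x) (hnn : nn = N - 1)
    (hC1 : x ≤ 7 / 2 → Real.exp l ≤ 3 / 5 + (73 / 200 + 1 / (2 * N)) * x)
    (hC2 : 7 / 2 ≤ x → Real.exp l ≤ 3 / 5 * x) 
    (hP1 : P1 = 1 - 1 / (1 + Real.sqrt (1 - T ^ 2))) 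
    (hκ : 0 < κ) (hκ1 : κ ≤ 1) (hg0 : e0 = 1001 / 1000 - 5 / N) :
    ∃ M : ℝ, (107 / 100 + 79 / 100 / nn) * Real.exp (l / nn) ≤ M ∧
      0 < (N * z * nA c Yv l lh u e r + ngam Yv e (1 - o ^ 2) (92 / 100 * T ^ 8) / N +
        nB c Yv l lh u e r (c * (P1 - c / (1 + c)) + l * ((1 - c) / (1 + c))) (1 - o ^ 2) 
          (92 / 100 * T ^ 8)) + 
        gk (o ^ 2 * nW c Yv lh e r) (M - ((2 - 2 * c ^ 2 / (1 + c)) - 2 * (Yv * l) - 
          e0 * ((1 + e) * ((1 - o ^ 2) * (1 + 92 / 100 * T ^ 8))))) (14 / 100 * c ^ 2) M κ := by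
  unfold ev at hev
  extract_lets zD zU c2D c2U cD cU YD YU eLD eLU TD TU t8D t8U capD capU vD vU oU oD uD uU eD eU ED EU YeD YeU rD rU lhD lhU r1D r1U c1D c1U h1n h1p Ap An A X XA dN del M CT chD chU V1D V1U t1D t1U ahn Wp Wn WD WU Bp SU Bn gD gU gt GP aU e0D bU rhD rhU DP DD g0 Lt cost k0 at hev
  -- basic real facts
  have hz0 : 0 < z := by rw [hz]; positivity
  have hz1 : z < 1 := by rw [hz, pow_two]; exact mul_lt_one' hs0 hs1 hs0 hs1
  have hc20 : 0 < 1 - z := by linarith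
  have hc0 : 0 < c := by rw [hc]; exact Real.sqrt_pos.2 hc20
  have hcsq : c ^ 2 = 1 - z := by rw [hc, Real.sq_sqrt hc20.le]
  have hc1 : c < 1 := lt_one_of_sq hc0.le hz0 hcsq
  have hY0 : 0 < Yv := by rw [hY]; positivity
  have hT0 : 0 < T := by rw [hT]; positivity
  have hT8 : T ^ 8 ≤ 1 := pow_le_one₀ hT0.le hT1.le
  have hT80 : 0 < T ^ 8 := by positivity
  have hcap0 : 0 < cap := by rw [hcap]; linarith
  have ho0 : 0 < o := by rw [ho]; positivity
  have ho1 : o < 1 := by rw [ho, div_lt_one (by positivity)]; linarith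
  have hu0 : 0 < u := by rw [hu]; exact mul_pos hv0 (by linarith)
  have hul : u ≤ l := by
    have : u ≤ v := by rw [hu]; exact mul_sub_le hv0 ho0
    linarith
  have he1 : 0 < e := by
    rw [he]
    have := Real.add_one_lt_exp (x := 2 * u) (by linarith)
    linarith
  have hYe0 : 0 < Yv * e := mul_pos hY0 he1
  have hr0 : 0 < r := by rw [hr]; exact Real.sqrt_pos.2 (by linarith)
  have hrsq : r ^ 2 = 1 - Yv * e := by rw [hr, Real.sq_sqrt (by linarith)]
  have hr1 : r < 1 := lt_one_of_sq hr0.le hYe0 hrsq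
  have hlh0 : 0 < lh := by
    have : 0 < 7 / 100 * (1 - o) := mul_pos (by norm_num) (by linarith)
    linarith
  -- interval chain
  have hzD : LB zD z := (LB_mul b1 b1).cg (by rw [hz]; ring)
  have hzU : UB z zU := (UB_mul b2 b2 hs0.le hs0.le).cg (by rw [hz]; ring)
  have hc2D : LB c2D (1 - z) := LB_sub LB_one hzU hz1.le
  have hc2U : UB (1 - z) c2U := UB_sub UB_one hzD
  have hcD : LB cD c := by rw [hc]; exact LB_sqrt hc2D
  have hcU : UB c cU := by rw [hc]; exact UB_sqrt hc2U hc20.le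
  have hYD : LB YD Yv := by rw [hY]; exact LB_div hzD hc2U hc20
  have heLD : LB eLD (Real.exp l) := LB_exp b3
  have heLU : UB (Real.exp l) eLU := UB_exp b4 hl0 (by linarith)
  have hTD : LB TD T := by rw [hT]; exact LB_mul b1 heLD
  have hTU : UB T TU := UB_min (by rw [hT]; exact UB_mul b2 heLU hs0.le (Real.exp_pos _).le)
    (UB_one.ge hT1.le)
  have ht8D : LB t8D (T ^ 8) := p8D_spec hTD
  have ht8U : UB (T ^ 8) t8U := p8U_spec hTU hT0.le
  have hcapD : LB capD cap := by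
    rw [hcap]
    refine LB_sub (by unfold LB; norm_num) ?_ (by linarith)
    exact (UB_ndiv (n := 1000) (by norm_num) (UB_nmul 115 ht8U)).cg (by push_cast; ring)
  have hcapU : UB cap capU := by
    rw [hcap]
    refine UB_sub (by unfold UB; norm_num) ?_
    exact (LB_ndiv 1000 (LB_nmul 115 ht8D)).cg (by push_cast; ring)
  have hvD : LB vD v := by rw [hv]; exact LB_sub b3 hcapU (by linarith)
  have hvU : UB v vU := by rw [hv]; exact UB_sub b4 hcapD
  have hwU : UB (7 / 100) 76965813945 := by unfold UB; norm_num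
  have hwD : LB 76965813944 (7 / 100) := by unfold LB; norm_num
  have hoU : UB o oU := by rw [ho]; exact UB_div hwU (LB_add hvD hwD) (by omega) (by norm_num)
  have hoD : LB oD o := by rw [ho]; exact LB_div hwD (UB_add hvU hwU) (by linarith)
  have h1oD : LB (SC - oU) (1 - o) := LB_sub LB_one hoU ho1.le
  have h1oU : UB (1 - o) (SC - oD) := UB_sub UB_one hoD
  have huD : LB uD u := by rw [hu]; exact LB_mul hvD h1oD
  have huU : UB u uU := by rw [hu]; exact UB_mul hvU h1oU hv0.le (by linarith)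
  have heD : LB eD e := by
    rw [he]
    exact LB_sub (LB_exp ((LB_nmul 2 huD).cg (by push_cast; ring))) UB_one (by linarith)
  have heU : UB e eU := by
    rw [he]
    exact UB_sub (UB_exp ((UB_nmul 2 huU).cg (by push_cast; ring)) (by linarith) (by linarith)) LB_one
  have hED : LB ED (1 + e) := (LB_add heD LB_one).cg (by ring)
  have hEU : UB (1 + e) EU := (UB_add heU UB_one).cg (by ring)
  have hYeD : LB YeD (Yv * e) := LB_mul hYD heD
  have hrU : UB r rU := by rw [hr]; exact UB_sqrt (UB_sub UB_one hYeD) (by linarith)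
  have hlhD : LB lhD lh := by rw [hlh]; exact LB_add hcapD (LB_mul hwD h1oD)
  have hlhU : UB lh lhU := by rw [hlh]; exact UB_add hcapU (UB_mul hwU h1oU (by norm_num) (by linarith))
  -- vacuous cases
  simp only [Bool.or_eq_true, Bool.and_eq_true, decide_eq_true_eq] at hev
  rcases hev with (hev | hev) | hev
  · exfalso
    have := LB.le_of hTD UB_one hev
    linarith
  · exfalso
    have := LB.le_of hcapD b4 hev
    linarith
  obtain ⟨⟨⟨⟨⟨⟨⟨⟨d1, d2⟩, d3⟩, d4⟩, d5⟩, d6⟩, d7⟩, d8⟩, d9⟩ := hev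
  have d2a : 0 < rD := pos_of_mD d2
  have d2b : 0 < mD rD rD := pos_of_mD' d2
  have hSC : 0 < SC := by norm_num
  have hYU : UB Yv YU := by rw [hY]; exact UB_div hzU hc2D d1 hz0.le
  have hYeU : UB (Yv * e) YeU := UB_mul hYU heU hY0.le he1.le
  have hrD : LB rD r := by rw [hr]; exact LB_sqrt (LB_sub LB_one hYeU hYe.le)
  have hr1D : LB r1D (1 + r) := LB_add LB_one hrD
  have hr1U : UB (1 + r) r1U := UB_add UB_one hrU
  have hc1D : LB c1D (1 + c) := LB_add LB_one hcD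
  have hc1U : UB (1 + c) c1U := UB_add UB_one hcU
  have pr1 : 0 < r1D := lt_of_lt_of_le hSC (Nat.le_add_right _ _)
  have pc1 : 0 < c1D := lt_of_lt_of_le hSC (Nat.le_add_right _ _)
  have pr2 : 0 < mD r1D r1D := lt_of_lt_of_le pr1 (mD_ge (Nat.le_add_right _ _))
  have pc2 : 0 < mD c1D c1D := lt_of_lt_of_le pc1 (mD_ge (Nat.le_add_right _ _))
  have pr3 : 0 < mD rD (mD r1D r1D) :=
    lt_of_lt_of_le d2a (mD_ge ((Nat.le_add_right _ _ : SC ≤ r1D).trans (mD_ge (Nat.le_add_right _ _))))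
  have pr4 : 0 < mD rD r1D := lt_of_lt_of_le d2a (mD_ge (Nat.le_add_right _ _))
  have hh1n : UB (e ^ 2 * (2 + r) / (2 * r * (1 + r) ^ 2) + u * c ^ 2 * (1 + 2 * c) / (1 + c) ^ 2) h1n := by
    refine (UB_add (UB_div (UB_mul (UB_mul heU heU he1.le he1.le) (UB_add (UB_nat 2) hrU) (by positivity)
      (by positivity)) (LB_nmul 2 (LB_mul hrD (LB_mul hr1D hr1D))) (by omega) (by positivity))
      (UB_mul huU (UB_div (UB_mul hc2U (UB_add UB_one (UB_nmul 2 hcU)) hc20.le (by positivity))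
        (LB_mul hc1D hc1D) pc2 (by positivity)) hu0.le (by positivity))).cg ?_
    rw [← hcsq]
    push_cast
    ring
  have hh1p : LB h1p (lh * e * (e * (1 + 2 * r) / (1 + r) + 1 + r + r ^ 2) / (r ^ 3 * (1 + r))) := by
    refine (LB_mul hlhD (LB_div (LB_mul heD (LB_add (LB_div (LB_mul heD (LB_add LB_one
      (LB_nmul 2 hrD))) hr1U (by positivity)) (LB_add (LB_add LB_one hrD) (LB_mul hrD hrD))))
      (UB_mul (UB_mul hrU (UB_mul hrU hrU hr0.le hr0.le) hr0.le (by positivity)) hr1U (by positivity)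
        (by positivity)) (by positivity))).cg ?_
    push_cast
    ring
  have hAp : LB Ap (l ^ 2 * (Yv + 7 / 25) + Yv * (lh * e * (e * (1 + 2 * r) / (1 + r) + 1 + r + r ^ 2) /
      (r ^ 3 * (1 + r))) + e / 2000) := by
    refine (LB_add (LB_add (LB_mul (LB_mul b3 b3) (LB_add hYD (x := Yv) (y := 7 / 25)
      (b := 307863255777) (by unfold LB; norm_num))) (LB_mul hYD hh1p)) (LB_ndiv 2000 heD)).cg ?_
    push_cast
    ring
  have hAn : UB (Yv * (e ^ 2 * (2 + r) / (2 * r * (1 + r) ^ 2) + u * c ^ 2 * (1 + 2 * c) / (1 + c) ^ 2)) An :=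
    UB_mul hYU hh1n hY0.le (by positivity)
  have hA : LB A (nA c Yv l lh u e r) := by
    refine (LB_mul (LB_add LB_one hYD) (LB_sub hAp hAn (LB.le_of hAp hAn d3))).cg ?_
    unfold nA
    ring
  have hX : LB X (N * z) := xLow_spec hzD hzU heLD hx hN hx2 hz0 hC1 hC2
  have pX : 0 < X := xLow_pos _ _ _
  have hN0 : 0 < N := by linarith
  have hnn0 : 0 < nn := by linarith
  have hXA : LB XA (N * z * nA c Yv l lh u e r) := LB_mul hX hA
  have hdN : UB (1 / N) dN := by
    refine UB_min ((UB_div hzU hX pX hz0.le).cg (by field_simp)) ?_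
    refine (UB_ndiv (n := 24) (by norm_num) UB_one).ge ?_
    push_cast
    exact one_div_le_one_div_of_le (by norm_num) hN
  have hdel : UB (1 / nn) del := by
    refine (UB_ndiv (n := 23) (by norm_num) (UB_nmul 24 hdN)).ge ?_
    push_cast
    rw [hnn, div_le_iff₀ (by linarith)]
    have e1 : 24 * (1 / N) / 23 * (N - 1) = 24 / 23 * (1 - 1 / N) := by field_simp
    have e2 : 1 / N ≤ 1 / 24 := one_div_le_one_div_of_le (by norm_num) hN
    rw [e1]
    linarith
  have h1nn : 1 / nn ≤ 1 := by rw [div_le_one hnn0]; linarith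
  have h1nn0 : 0 < 1 / nn := by positivity
  have hM : UB ((107 / 100 + 79 / 100 / nn) * Real.exp (l / nn)) M := by
    have e1 : l / nn = l * (1 / nn) := by ring
    have e2 : l * (1 / nn) ≤ l * 1 := mul_le_mul_of_nonneg_left h1nn hl0
    rw [e1]
    refine UB_mul (UB_add (by unfold UB; norm_num) ((UB_ndiv (n := 100) (by norm_num)
      (UB_nmul 79 hdel)).cg ?_)) (UB_exp (UB_mul b4 hdel hl0 h1nn0.le) (by positivity) (by linarith))
      (by positivity) (Real.exp_pos _).le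
    push_cast
    ring
  have hCT : LB CT (Real.sqrt (1 - T ^ 2)) := by
    refine LB_sqrt ((LB_sub LB_one (UB_mul hTU hTU hT0.le hT0.le)
      (mul_lt_one' hT0 hT1 hT0 hT1).le).cg ?_)
    ring
  have hsq0 := Real.sqrt_nonneg (1 - T ^ 2)
  have hP1D : LB (SC - dU SC (SC + CT)) P1 := by
    rw [hP1]
    refine LB_sub LB_one (UB_div UB_one (LB_add LB_one hCT) (by omega) (by norm_num)) ?_
    rw [div_le_one (by positivity)]
    linarith
  have hcr0 : 0 < c * r := mul_pos hc0 hr0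
  have hcr1 : c * r < 1 := mul_lt_one' hc0 hc1 hr0 hr1
  have hchD : LB chD (c * r) := LB_mul hcD hrD
  have hchU : UB (c * r) chU := UB_mul hcU hrU hc0.le hr0.le
  have hoo : o * o < 1 := mul_lt_one' ho0 ho1 ho0 ho1
  have hV1D : LB V1D (1 - o ^ 2) := (LB_sub LB_one (UB_mul hoU hoU ho0.le ho0.le) hoo.le).cg (by ring)
  have hV1U : UB (1 - o ^ 2) V1U := (UB_sub UB_one (LB_mul hoD hoD)).cg (by ring)
  have hV10 : 0 ≤ 1 - o ^ 2 := by rw [pow_two]; linarith
  have ht1D : LB t1D (92 / 100 * T ^ 8) := (LB_ndiv 100 (LB_nmul 92 ht8D)).cg (by push_cast; ring)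
  have ht1U : UB (92 / 100 * T ^ 8) t1U :=
    (UB_ndiv (n := 100) (by norm_num) (UB_nmul 92 ht8U)).cg (by push_cast; ring)
  have hahn : UB (2 * (c * r) ^ 2 / (1 + c * r)) ahn := by
    refine (UB_div (UB_nmul 2 (UB_mul hchU hchU hcr0.le hcr0.le)) (LB_add LB_one hchD) (by omega)
      (by positivity)).cg ?_
    push_cast
    ring
  have hahn2 : 2 * (c * r) ^ 2 / (1 + c * r) ≤ 2 := by
    rw [div_le_iff₀ (by positivity)]
    exact two_sq_le hcr0 hcr1
  have hWp : LB Wp ((2 - 2 * (c * r) ^ 2 / (1 + c * r)) / r) := by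
    refine LB_div (LB_sub ?_ hahn hahn2) hrU hr0
    exact (LB_nat 2).cg (by norm_num)
  have hWn : UB (3 * lh * Yv * (1 + e) / r ^ 3) Wn := by
    refine (UB_div (UB_nmul 3 (UB_mul hlhU (UB_mul hYU hEU hY0.le (by positivity)) hlh0.le
      (by positivity))) (LB_mul hrD (LB_mul hrD hrD)) d2 (by positivity)).cg ?_
    push_cast
    ring
  have hWD : LB WD (nW c Yv lh e r) := LB_sub hWp hWn (LB.le_of hWp hWn d4.le)
  have hW0 : 0 ≤ nW c Yv lh e r := hWD.nonneg
  have hahp : LB (dD (2 * mD chD chD) (SC + chU)) (2 * (c * r) ^ 2 / (1 + c * r)) := by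
    refine (LB_div (LB_nmul 2 (LB_mul hchD hchD)) (UB_add UB_one hchU) (by positivity)).cg ?_
    push_cast
    ring
  have hWU : UB (nW c Yv lh e r) WU := by
    unfold nW
    refine UB_sub (UB_div (UB_sub ((UB_nat 2).cg (by norm_num)) hahp) hrD d2a (by linarith)) ?_
    refine (LB_div (LB_nmul 3 (LB_mul hlhD (LB_mul hYD hED))) (UB_mul hrU (UB_mul hrU hrU hr0.le hr0.le)
      hr0.le (by positivity)) (by positivity)).cg ?_
    push_cast
    ring
  have hP10 : 0 ≤ P1 := hP1D.nonneg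
  have hcc0 : 0 ≤ c / (1 + c) := by positivity
  have hBp : LB Bp (c * P1 + l * ((1 - c) / (1 + c)) + c ^ 2 * Yv * e / ((1 + r) * (1 + c) * (1 + c * r)) +
      u * (1 + 4 * Yv) + (1 - o ^ 2) * (92 / 100 * T ^ 8) * nW c Yv lh e r) := by
    refine (LB_add (LB_add (LB_add (LB_add (LB_mul hcD hP1D) (LB_mul b3 (LB_div (LB_sub LB_one hcU
      hc1.le) hc1U (by positivity)))) (LB_div (LB_mul hc2D hYeD) (UB_mul hr1U (UB_mul hc1U
      (UB_add UB_one hchU) (by positivity) (by positivity)) (by positivity) (by positivity))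
      (by positivity))) (LB_mul huD (LB_add LB_one (LB_nmul 4 hYD))))
      (LB_mul (LB_mul hV1D ht1D) hWD)).cg ?_
    rw [← hcsq]
    push_cast
    ring
  have hSU : UB ((1 + Yv) * (1 + r + r ^ 2) / r ^ 2) SU := by
    refine (UB_div (UB_mul (UB_add UB_one hYU) (UB_add (UB_add UB_one hrU) (UB_mul hrU hrU hr0.le hr0.le))
      (by positivity) (by positivity)) (LB_mul hrD hrD) d2b (by positivity)).cg ?_
    ring
  have hS3 : 3 ≤ (1 + Yv) * (1 + r + r ^ 2) / r ^ 2 := by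
    rw [le_div_iff₀ (by positivity)]
    exact S3_le hY0 hr0 hr1
  have hBn : UB (4 * Yv ^ 2 * l ^ 2 + 103 / 25 * Yv * l ^ 2 + c ^ 2 / (1 + c) + 3501 / 1000 * Yv * e +
      1001 / 2000 * e + lh * Yv * e * (4 * ((1 + Yv) * (1 + r + r ^ 2) / r ^ 2) - 3) / (r * (1 + r)) +
      (1 - o ^ 2) * (92 / 100 * T ^ 8) * (1001 / 1000 * (1 + e))) Bn := by
    refine (UB_add (UB_add (UB_add (UB_add (UB_add (UB_add
      (UB_nmul 4 (UB_mul (UB_mul hYU hYU hY0.le hY0.le) (UB_mul b4 b4 hl0 hl0) (by positivity)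
        (by positivity)))
      (UB_ndiv (n := 100) (by norm_num) (UB_nmul 412 (UB_mul hYU (UB_mul b4 b4 hl0 hl0) hY0.le
        (by positivity)))))
      (UB_div hc2U hc1D pc1 hc20.le))
      (UB_ndiv (n := 1000) (by norm_num) (UB_nmul 3501 hYeU)))
      (UB_ndiv (n := 10000) (by norm_num) (UB_nmul 5005 heU)))
      (UB_div (UB_mul (UB_mul hlhU hYeU hlh0.le hYe0.le) (UB_sub (UB_nmul 4 hSU) (LB_nat 3))
        (by positivity) (by push_cast; linarith)) (LB_mul hrD hr1D) pr4 (mul_nonneg (by positivity)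
          (by push_cast; linarith))))
      (UB_mul (UB_mul hV1U ht1U hV10 (by positivity)) (UB_ndiv (n := 1000) (by norm_num)
        (UB_nmul 1001 hEU)) (mul_nonneg hV10 (by positivity)) (by positivity))).cg ?_
    rw [← hcsq]
    push_cast
    ring
  have hgD : LB gD (ngam Yv e (1 - o ^ 2) (92 / 100 * T ^ 8)) := by
    refine (LB_nmul 5 (LB_add (LB_ndiv 2 (LB_mul (LB_add LB_one (LB_nmul 2 hYD)) heD))
      (LB_mul hED (LB_mul hV1D ht1D)))).cg ?_
    unfold ngam
    push_cast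
    ring
  have hgU : UB (ngam Yv e (1 - o ^ 2) (92 / 100 * T ^ 8)) gU := by
    refine (UB_nmul 5 (UB_add (UB_ndiv (n := 2) (by norm_num) (UB_mul (UB_add UB_one (UB_nmul 2 hYU)) heU
      (by positivity) he1.le)) (UB_mul hEU (UB_mul hV1U ht1U hV10 (by positivity)) (by positivity)
      (mul_nonneg hV10 (by positivity))))).cg ?_
    unfold ngam
    push_cast
    ring
  have hgam0 : 0 ≤ ngam Yv e (1 - o ^ 2) (92 / 100 * T ^ 8) := hgD.nonneg
  have hXg : LB (XA + gt) (N * z * nA c Yv l lh u e r +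
      ngam Yv e (1 - o ^ 2) (92 / 100 * T ^ 8) / N) :=
    elimN hX pX hA hXA hgD hgU hzD hzU hgam0 hz0 hN0
  have eGP : GP = XA + gt + Bp := by
    show XA + Bp + gt = XA + gt + Bp
    ring
  have hGP := LB_add hXg hBp
  rw [← eGP] at hGP
  have haU : UB (2 - 2 * c ^ 2 / (1 + c)) aU := by
    refine UB_sub ((UB_nat 2).cg (by norm_num)) ((LB_div (LB_nmul 2 hc2D) hc1U (by positivity)).cg ?_)
    rw [← hcsq]
    push_cast
    ring
  have hbU : UB (14 / 100 * c ^ 2) bU := by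
    refine (UB_ndiv (n := 100) (by norm_num) (UB_nmul 14 hc2U)).cg ?_
    rw [← hcsq]
    push_cast
    ring
  have hrhD : LB rhD (o ^ 2 * nW c Yv lh e r) := (LB_mul (LB_mul hoD hoD) hWD).cg (by ring)
  have hrhU : UB (o ^ 2 * nW c Yv lh e r) rhU :=
    (UB_mul (UB_mul hoU hoU ho0.le ho0.le) hWU (by positivity) hW0).cg (by ring)
  have pM : 0 < M := Nat.succ_pos _
  obtain ⟨Mr, hMr⟩ : ∃ Mr : ℝ, Mr = (M : ℝ) / 1099511627776 := ⟨_, rfl⟩
  have hMD : LB M Mr := by rw [hMr]; exact LB_self M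
  have hMU : UB Mr M := by rw [hMr]; exact UB_self M
  have hMr0 : 0 < Mr := hMD.pos pM
  have hMM : (107 / 100 + 79 / 100 / nn) * Real.exp (l / nn) ≤ Mr := by
    rw [hMr, le_div_iff₀ (by norm_num)]
    exact hM
  obtain ⟨Lr, hLr⟩ : ∃ Lr : ℝ, Lr = (Lt : ℝ) / 1099511627776 := ⟨_, rfl⟩
  have hLD : LB Lt Lr := by rw [hLr]; exact LB_self Lt
  have hLU : UB Lr Lt := by rw [hLr]; exact UB_self Lt
  have heL : LB (expD Lt) (Real.exp Lr) := LB_exp hLD
  have peL : 0 < expD Lt := pos_of_mD' (lt_of_lt_of_le pM d6)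
  have hpos := Real.exp_pos Lr
  have hcost : UB (Mr * (Lr + 1 / Real.exp Lr)) cost :=
    UB_mul hMU (UB_add hLU (UB_div UB_one heL peL (by norm_num))) hMr0.le
      (add_nonneg hLD.nonneg (by positivity))
  have hMt : Mr ≤ o ^ 2 * nW c Yv lh e r * Real.exp Lr := LB.le_of (LB_mul hrhD heL) hMU d6
  have hMt' : Mr * (1 / Real.exp Lr) ≤ o ^ 2 * nW c Yv lh e r := by
    rw [mul_one_div, div_le_iff₀ hpos]
    exact hMt
  have h5N : 1 / N ≤ 1 / 24 := one_div_le_one_div_of_le (by norm_num) hN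
  have he0D : LB e0D e0 := by
    rw [hg0]
    refine LB_sub (by unfold LB; norm_num) ((UB_nmul 5 hdN).cg (by push_cast; ring)) ?_
    have : 5 / N = 5 * (1 / N) := by ring
    rw [this]
    linarith
  have hDP : LB DP (Mr + 2 * (Yv * l) + e0 * ((1 + e) * ((1 - o ^ 2) * (1 + 92 / 100 * T ^ 8)))) := by
    refine LB_add (LB_add hMD ?_) (LB_mul he0D (LB_mul hED (LB_mul hV1D (LB_add LB_one ht1D))))
    exact (LB_nmul 2 (LB_mul hYD b3)).cg (by push_cast; ring)
  have hDD := LB_sub hDP haU (LB.le_of hDP haU d5)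
  have hW1 : 0 ≤ o ^ 2 * nW c Yv lh e r := hrhD.nonneg
  have hb0 : 0 ≤ 14 / 100 * c ^ 2 := by positivity
  have hlog : Real.log (1 / Real.exp Lr) = -Lr := by
    rw [one_div, Real.log_inv, Real.log_exp]
  have ht0 : 0 < 1 / Real.exp Lr := by positivity
  have hcr : Mr * (1 + Real.log (1 / Real.exp Lr) - 1 / Real.exp Lr) =
      Mr - Mr * (Lr + 1 / Real.exp Lr) := by rw [hlog]; ring
  refine ⟨Mr, hMM, ?_⟩
  have f2 := fin2 d8 hGP hBn hcost hMD hbU hDD
  have eG : N * z * nA c Yv l lh u e r + ngam Yv e (1 - o ^ 2) (92 / 100 * T ^ 8) / N +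
      nB c Yv l lh u e r (c * (P1 - c / (1 + c)) + l * ((1 - c) / (1 + c))) (1 - o ^ 2)
      (92 / 100 * T ^ 8) =
    (N * z * nA c Yv l lh u e r + ngam Yv e (1 - o ^ 2) (92 / 100 * T ^ 8) / N +
      (c * P1 + l * ((1 - c) / (1 + c)) + c ^ 2 * Yv * e / ((1 + r) * (1 + c) * (1 + c * r)) +
      u * (1 + 4 * Yv) + (1 - o ^ 2) * (92 / 100 * T ^ 8) * nW c Yv lh e r)) -
    (4 * Yv ^ 2 * l ^ 2 + 103 / 25 * Yv * l ^ 2 + c ^ 2 / (1 + c) + 3501 / 1000 * Yv * e +
      1001 / 2000 * e + lh * Yv * e * (4 * ((1 + Yv) * (1 + r + r ^ 2) / r ^ 2) - 3) / (r * (1 + r)) +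
      (1 - o ^ 2) * (92 / 100 * T ^ 8) * (1001 / 1000 * (1 + e))) := by
    unfold nB
    ring
  rw [eG]
  have eD : Mr - ((2 - 2 * c ^ 2 / (1 + c)) - 2 * (Yv * l) - e0 * ((1 + e) * ((1 - o ^ 2) *
      (1 + 92 / 100 * T ^ 8)))) = Mr + 2 * (Yv * l) + e0 * ((1 + e) * ((1 - o ^ 2) *
      (1 + 92 / 100 * T ^ 8))) - (2 - 2 * c ^ 2 / (1 + c)) := by ring
  rw [eD]
  rcases d9 with d9 | ⟨d9, d10⟩
  · have f1 := fin1 d9 hGP hBn hcost hMD
    refine gk_pos₁ hMr0.le hb0 hκ hκ1 ht0 hMt' ?_ ?_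
    · rw [hcr]; exact f1
    · rw [hcr]; exact f2
  · obtain ⟨kr, hkr⟩ : ∃ kr : ℝ, kr = (k0 : ℝ) / 1099511627776 := ⟨_, rfl⟩
    have hkD : LB k0 kr := by rw [hkr]; exact LB_self k0
    have hkU : UB kr k0 := by rw [hkr]; exact UB_self k0
    have pk : 0 < k0 := Nat.succ_pos _
    have hk0 : 0 < kr := hkD.pos pk
    have hk1 : kr ≤ 1 := by
      refine LB.le_of LB_one hkU ?_
      exact d9
    have h1kD : LB (SC - k0) (1 - kr) := LB_sub LB_one hkU hk1
    have h1kU : UB (1 - kr) (SC - k0) := UB_sub UB_one hkD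
    have h2ρ : 2 * (o ^ 2 * nW c Yv lh e r) ≤ Mr * kr := by
      have h1 : UB (2 * (o ^ 2 * nW c Yv lh e r) / Mr) k0 :=
        UB_div ((UB_nmul 2 hrhU).cg (by push_cast; ring)) hMD pM (by positivity)
      have h2 : 2 * (o ^ 2 * nW c Yv lh e r) / Mr ≤ kr := LB.le_of hkD h1 le_rfl
      rw [div_le_iff₀ hMr0] at h2
      linarith
    have f3 := fin2 d10 hGP hBn hcost hMD (UB_mul hbU (UB_mul h1kU h1kU (by linarith) (by linarith)) hb0
      (mul_nonneg (by linarith) (by linarith))) (LB_mul hDD h1kD)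
    refine gk_pos₂ hMr0.le hW1 hb0 hκ hκ1 ht0 hMt' hk0 hk1 h2ρ (fin0 d7 hGP hBn) ?_ ?_
    · rw [hcr]; exact f2
    · rw [hcr]
      convert f3 using 3
      ring

/-- soundness of the evaluator -/
theorem ev_sound {n : ℕ} {s l k : ℝ} {s1 s2 l1 l2 : ℕ} (hn : 23 ≤ n) (h : FarC n s l k) (hk : k ≤ 0)
    (hl : l ≤ 2) (b1 : LB s1 s) (b2 : UB s s2) (b3 : LB l1 l) (b4 : UB l l2)
    (hev : ev s1 s2 l1 l2 = true) : 0 < PStar n s l k := by
  have hs := h.hs
  have hnR : (23 : ℝ) ≤ n := by exact_mod_cast hn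
  obtain ⟨hu0, hul, hsu, hT1⟩ := Uf_far h
  have hv0 : 0 < l - capF (s * Real.exp l) := by linarith [h.hcap]
  have hk1 : 0 < 1 + k := h.hk0
  have hsu1 : s * Real.exp (Uf s l) < 1 := by linarith
  obtain ⟨e, he⟩ : ∃ e : ℝ, e = Real.exp (2 * Uf s l) - 1 := ⟨_, rfl⟩
  obtain ⟨r, hr⟩ : ∃ r : ℝ, r = Real.sqrt (1 - Y s * e) := ⟨_, rfl⟩
  obtain ⟨-, hr0, hYr⟩ := cc_exp_eq hs hsu1 he hr
  have hYe : Y s * e < 1 := by
    rw [hYr]
    have : 0 < r ^ 2 := by positivity
    linarith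
  obtain ⟨v, hv⟩ : ∃ v : ℝ, v = l - capF (s * Real.exp l) := ⟨_, rfl⟩
  rw [← hv] at hv0
  obtain ⟨o, ho⟩ : ∃ o : ℝ, o = 7 / 100 / (v + 7 / 100) := ⟨_, rfl⟩
  have hcap : capF (s * Real.exp l) = 43 / 100 - 115 / 1000 * (s * Real.exp l) ^ 8 := by
    unfold capF; ring
  have hu : Uf s l = v * (1 - o) := by
    unfold Uf
    rw [← hv, Vq_of_nonneg hv0.le, ho]
    field_simp
    ring
  have hV : 1 - o ^ 2 = Vq' (7 / 100) (l - capF (s * Real.exp l)) := by
    rw [← hv, Vq'_of_nonneg hv0.le, ho, div_pow]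
  have ht : 92 / 100 * (s * Real.exp l) ^ 8 = 23 / 25 * (s * Real.exp l) ^ 8 := by ring
  have hlh : l - Uf s l = capF (s * Real.exp l) + 7 / 100 * (1 - o) := by
    have e1 : l = capF (s * Real.exp l) + v := by rw [hv]; ring
    have e2 : v * o = 7 / 100 * (1 - o) := by
      rw [ho]
      field_simp
      ring
    have e3 : l - Uf s l = capF (s * Real.exp l) + v * o := by rw [hu]; linear_combination e1
    rw [e3, e2]
  have hN0 : (0 : ℝ) < (n : ℝ) + 1 := by linarith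
  have hx : (s * Real.sqrt ((n : ℝ) + 1)) ^ 2 = ((n : ℝ) + 1) * s ^ 2 := by
    rw [mul_pow, Real.sq_sqrt hN0.le]; ring
  have hl0 : 0 ≤ l := by linarith
  have hc1 : (0 : ℝ) < 1 + cc s := by have := cc_pos' hs; linarith
  have hcT := cc_nonneg (s * Real.exp l)
  obtain ⟨M, hM, hpos⟩ := ev_core (z := s ^ 2) (c := cc s) (Yv := Y s) (T := s * Real.exp l)
    (cap := capF (s * Real.exp l)) (v := v) (o := o) (u := Uf s l) (e := e) (r := r)
    (lh := l - Uf s l) (P1 := Phi (s * Real.exp l)) (x := s * Real.sqrt ((n : ℝ) + 1))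
    (N := (n : ℝ) + 1) (nn := n) (κ := 1 + k) (e0 := e0F n) hev b1 b2 b3 b4 hs.1 hs.2 hl0 hl rfl rfl rfl
    rfl hT1 hcap hv hv0 ho hu he hYe hr hlh hx (by linarith) h.hx2 (by ring) h.hC1 h.hC2
    (by
      unfold Phi
      have : Real.sqrt (1 - (s * Real.exp l) ^ 2) = cc (s * Real.exp l) := rfl
      rw [this]
      field_simp
      ring) hk1 (by linarith) (by
      unfold e0F
      field_simp
      ring)
  have hkp := far_k_part (n := n) (ρ := (1 - (1 - o ^ 2)) * nW (cc s) (Y s) (l - Uf s l) e r)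
    (B := aq s - 2 * (Y s * l) - e0F n * ((1 + e) * ((1 - o ^ 2) * (1 + 92 / 100 * (s * Real.exp l) ^ 8))))
    (b := 14 / 100 * cc s ^ 2) (μ := muF n) (M := M) (l := l) (k := k) (by omega)
    (by unfold muF; exact div_nonneg (by linarith) (by linarith)) hk1 hk (by
      refine le_trans (le_of_eq ?_) hM
      have h1 : (n : ℝ) - 1 ≠ 0 := by intro h; linarith
      have h2 : (n : ℝ) ≠ 0 := by intro h; linarith
      congr 1
      unfold muF
      field_simp
      ring)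
  have hP := PF_eq_neg (n := n) (μ := 0) (k := k) hs hk1 rfl he hr hV ht hsu1
  have hR : cR s l = cc s * (Phi (s * Real.exp l) - cc s / (1 + cc s)) +
      l * ((1 - cc s) / (1 + cc s)) := rfl
  unfold PStar
  rw [hP, hR]
  have e1 : (1 : ℝ) - (1 - o ^ 2) = o ^ 2 := by ring
  rw [e1] at hkp ⊢
  have hpos' := lt_of_lt_of_le hpos (add_le_add_right hkp _)
  unfold aq at hpos' ⊢
  linarith

/-- soundness of the bisection -/
theorem rec_sound {P : ℝ → ℝ → Prop} {f : ℕ → ℕ → ℕ → ℕ → Bool}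
    (hf : ∀ s1 s2 l1 l2, f s1 s2 l1 l2 = true → ∀ s l : ℝ, LB s1 s → UB s s2 → LB l1 l → UB l l2 → P s l) :
    ∀ d s1 s2 l1 l2, rec f d s1 s2 l1 l2 = true →
      ∀ s l : ℝ, LB s1 s → UB s s2 → LB l1 l → UB l l2 → P s l := by
  intro d
  induction d with
  | zero => intro s1 s2 l1 l2 h; exact hf _ _ _ _ h
  | succ d ih =>
    intro s1 s2 l1 l2 h s l b1 b2 b3 b4
    unfold rec at h
    rw [Bool.or_eq_true] at h
    rcases h with h | h
    · exact hf _ _ _ _ h s l b1 b2 b3 b4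
    · split_ifs at h with hc <;> rw [Bool.and_eq_true] at h
      · rcases le_total (((s1 + s2) / 2 : ℕ) : ℝ) (s * 1099511627776) with h' | h'
        · exact ih _ _ _ _ h.2 s l h' b2 b3 b4
        · exact ih _ _ _ _ h.1 s l b1 h' b3 b4
      · rcases le_total (((l1 + l2) / 2 : ℕ) : ℝ) (l * 1099511627776) with h' | h'
        · exact ih _ _ _ _ h.2 s l b1 b2 h' b4
        · exact ih _ _ _ _ h.1 s l b1 b2 b3 h'

end Crest.Agent.R230.FN

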