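import Crest.Agent.R230.IA

/-!
# Row 230: the box evaluator for the far block, `k ≤ 0` (helper237)

`ev s1 s2 l1 l2` certifies positivity of the far density on the box `[s1,s2] × [l1,l2]` (units `2⁻⁴⁰`).
-/

set_option autoImplicit false

namespace Crest.Agent.R230.FN

open IA

/-- Halley step for the logarithm (no soundness needed) -/
def hal (g L : ℕ) : ℕ :=
  let E := expD L
  if E ≤ g then L + 2 * dD (g - E) (g + E) else L - 2 * dD (E - g) (g + E)

/-- lower end data for `x²` -/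
def xLow (zD zU eLD : ℕ) : ℕ :=
  let yD := eLD - 659706976666
  let xa := min 3848290697216 (max 2199023255552 (dD (yD - (zU / 4 + 1)) 401321744139))
  let xb := max xa (dD (yD - dU zU (2 * xa)) 401321744139)
  let xc := if xb ≤ 3848290697216 then xb else max 3848290697216 (5 * eLD / 3)
  max (mD xc xc) (24 * zD)

/-- the evaluator -/
def ev (s1 s2 l1 l2 : ℕ) : Bool :=
  let zD := mD s1 s1
  let zU := mU s2 s2
  let c2D := SC - zU
  let c2U := SC - zD
  let cD := sqD c2D
  let cU := sqU c2U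
  let YD := dD zD c2U
  let YU := dU zU c2D
  let eLD := expD l1
  let eLU := expU l2
  let TD := mD s1 eLD
  let TU := min (mU s2 eLU) SC
  let t8D := p8D TD
  let t8U := p8U TU
  let capD := 472789999943 - (115 * t8U / 1000 + 1)
  let capU := 472789999944 - 115 * t8D / 1000
  let vD := l1 - capU
  let vU := l2 - capD
  let oU := dU 76965813945 (vD + 76965813944)
  let oD := dD 76965813944 (vU + 76965813945)
  let uD := mD vD (SC - oU)
  let uU := mU vU (SC - oD)
  let eD := expD (2 * uD) - SC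
  let eU := expU (2 * uU) - SC
  let ED := eD + SC
  let EU := eU + SC
  let YeD := mD YD eD
  let YeU := mU YU eU
  let rD := sqD (SC - YeU)
  let rU := sqU (SC - YeD)
  let lhD := capD + mD 76965813944 (SC - oU)
  let lhU := capU + mU 76965813945 (SC - oD)
  let r1D := SC + rD
  let r1U := SC + rU
  let c1D := SC + cD
  let c1U := SC + cU
  let h1n := dU (mU (mU eU eU) (2 * SC + rU)) (2 * mD rD (mD r1D r1D)) +
    mU uU (dU (mU c2U (SC + 2 * cU)) (mD c1D c1D))
  let h1p := mD lhD (dD (mD eD (dD (mD eD (SC + 2 * rD)) r1U + (SC + rD + mD rD rD)))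
    (mU (mU rU (mU rU rU)) r1U))
  let Ap := mD (mD l1 l1) (YD + 307863255777) + mD YD h1p + eD / 2000
  let An := mU YU h1n
  let A := mD (SC + YD) (Ap - An)
  let X := xLow zD zU eLD
  let XA := mD X A
  let dN := min (dU zU X) (SC / 24 + 1)
  let del := 24 * dN / 23 + 1
  let M := mU (1176477441721 + (79 * del / 100 + 1)) (expU (mU l2 del))
  let CT := sqD (SC - mU TU TU)
  let chD := mD cD rD
  let chU := mU cU rU
  let V1D := SC - mU oU oU
  let V1U := SC - mD oD oD
  let t1D := 92 * t8D / 100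
  let t1U := 92 * t8U / 100 + 1
  let ahn := dU (2 * mU chU chU) (SC + chD)
  let Wp := dD (2 * SC - ahn) rU
  let Wn := dU (3 * mU lhU (mU YU EU)) (mD rD (mD rD rD))
  let WD := Wp - Wn
  let WU := dU (2 * SC - dD (2 * mD chD chD) (SC + chU)) rD -
    dD (3 * mD lhD (mD YD ED)) (mU rU (mU rU rU))
  let Bp := mD cD (SC - dU SC (SC + CT)) + mD l1 (dD (SC - cU) c1U) +
    dD (mD c2D YeD) (mU r1U (mU c1U (SC + chU))) + mD uD (SC + 4 * YD) + mD (mD V1D t1D) WD
  let SU := dU (mU (SC + YU) (SC + rU + mU rU rU)) (mD rD rD)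
  let Bn := 4 * mU (mU YU YU) (mU l2 l2) + (412 * mU YU (mU l2 l2) / 100 + 1) + dU c2U c1D +
    (3501 * YeU / 1000 + 1) + (5005 * eU / 10000 + 1) +
    dU (mU (mU lhU YeU) (4 * SU - 3 * SC)) (mD rD r1D) + mU (mU V1U t1U) (1001 * EU / 1000 + 1)
  let gD := 5 * (mD (SC + 2 * YD) eD / 2 + mD ED (mD V1D t1D))
  let gU := 5 * (mU (SC + 2 * YU) eU / 2 + 1 + mU EU (mU V1U t1U))
  let gt := if dU (mU gU zU) X ≤ XA then dD (mD gD zD) X else 0
  let GP := XA + Bp + gt
  let aU := 2 * SC - dD (2 * c2D) c1U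
  let e0D := 1100611139403 - 5 * dN
  let bU := 14 * c2U / 100 + 1
  let rhD := mD (mD oD oD) WD
  let rhU := mU (mU oU oU) WU
  let DP := M + 2 * mD YD l1 + mD e0D (mD ED (mD V1D (SC + t1D)))
  let DD := DP - aU
  let g0 := dD M rhD
  let Lt := if g0 ≤ SC then 0 else hal g0 (hal g0 (hal g0 (hal g0 (hal g0 0)))) + 134217728
  let cost := mU M (Lt + dU SC (expD Lt))
  let k0 := dU (2 * rhU) M
  decide (SC ≤ TD) || decide (l2 ≤ capD) ||
    (decide (0 < c2D) && decide (0 < mD rD (mD rD rD)) && decide (An ≤ Ap) && decide (Wn < Wp) &&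
      decide (aU ≤ DP) && decide (M ≤ mD rhD (expD Lt)) && decide (Bn < GP) &&
      decide (Bn + cost + bU < GP + M + DD) &&
      (decide (Bn + cost < GP + M) ||
        (decide (k0 ≤ SC) &&
          decide (Bn + cost + mU bU (mU (SC - k0) (SC - k0)) < GP + M + mD DD (SC - k0)))))

/-- bisection -/
def rec (f : ℕ → ℕ → ℕ → ℕ → Bool) : ℕ → ℕ → ℕ → ℕ → ℕ → Bool
  | 0, s1, s2, l1, l2 => f s1 s2 l1 l2
  | d + 1, s1, s2, l1, l2 => f s1 s2 l1 l2 ||
    (if l2 - l1 < s2 - s1 then
      rec f d s1 ((s1 + s2) / 2) l1 l2 && rec f d ((s1 + s2) / 2) s2 l1 l2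
    else rec f d s1 s2 l1 ((l1 + l2) / 2) && rec f d s1 s2 ((l1 + l2) / 2) l2)

end Crest.Agent.R230.FN
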