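import Crest.Agent.R230.FarPosEv
import Crest.Agent.R230.FarNegBox
import Crest.Agent.R230.FarKPos

/-!
# Row 230: soundness of the box evaluator `FN.evp`, `0 ≤ k` (helper237)
-/

set_option autoImplicit false
set_option maxHeartbeats 4000000

open MeasureTheory Set Filter Topology

namespace Crest.Agent.R230.FN

open IA WR

lemma log_LB {L g : ℕ} {x : ℝ} (h : expU L ≤ g) (hx : LB g x) (hx0 : 0 < x) (hL : L ≤ 8 * SC) :
    LB L (Real.log x) := by
  have hU : UB ((L : ℝ) / 1099511627776) L := UB_self L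
  have hL8 : (L : ℝ) / 1099511627776 ≤ 8 := by
    rw [div_le_iff₀ (by norm_num)]
    have : (L : ℝ) ≤ ((8 * SC : ℕ) : ℝ) := by exact_mod_cast hL
    refine this.trans (le_of_eq ?_)
    norm_num
  have h1 := UB_exp hU (by positivity) hL8
  have h2 : Real.exp ((L : ℝ) / 1099511627776) ≤ x := LB.le_of hx h1 h
  have h3 := (Real.le_log_iff_exp_le hx0).2 h2
  exact (LB_self L).le h3

lemma fin_phk {P Bpr Bnr tv a Cn ρ0 ρ1 b b2 M k : ℝ} (hb : b2 = b * k ^ 2)
    (h : 0 < (P + Bpr + tv + a * k) - (Bnr + (Cn * k + ρ0 * (k / (1 + k)) + ρ1 * k + b2 +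
      M * (k - Real.log (1 + k))))) :
    0 < P + tv + (Bpr - Bnr) + phk (a - Cn) ρ0 ρ1 b M k := by
  unfold phk
  linarith

lemma fin_phk' {P Bpr Bnr a Cn ρ0 ρ1 b b2 M k : ℝ} (hb : b2 = b * k ^ 2)
    (h : 0 < (P + Bpr + a * k) - (Bnr + (Cn * k + ρ0 * (k / (1 + k)) + ρ1 * k + b2 +
      M * (k - Real.log (1 + k))))) :
    0 < P + (Bpr - Bnr) + phk (a - Cn) ρ0 ρ1 b M k := by
  unfold phk
  linarith

/-- the box lemma, `0 ≤ k` -/
theorem evp_core {s1 s2 l1 l2 : ℕ} {s l z c Yv T cap v o u e r lh P1 : ℝ} {x N nn k : ℝ}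
    (hev : evp s1 s2 l1 l2 = true)
    (b1 : LB s1 s) (b2 : UB s s2) (b3 : LB l1 l) (b4 : UB l l2)
    (hs0 : 0 < s) (hs1 : s < 1) (hl0 : 0 ≤ l) (hl8 : l ≤ 2) (hz : z = s ^ 2) (hc : c = Real.sqrt (1 - z))
    (hY : Yv = z / (1 - z)) (hT : T = s * Real.exp l) (hT1 : T < 1) (hcap : cap = 43 / 100 - 115 / 1000 * T ^ 8)
    (hv : v = l - cap) (hv0 : 0 < v) (ho : o = 7 / 100 / (v + 7 / 100)) (hu : u = v * (1 - o))
    (he : e = Real.exp (2 * u) - 1) (hYe : Yv * e < 1) (hr : r = Real.sqrt (1 - Yv * e))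
    (hlh : lh = cap + 7 / 100 * (1 - o))
    (hx : x ^ 2 = N * z) (hN : 24 ≤ N) (hx2 : 2 ≤ x) (hnn : nn = N - 1)
    (hC1 : x ≤ 7 / 2 → Real.exp l ≤ 3 / 5 + (73 / 200 + 1 / (2 * N)) * x)
    (hC2 : 7 / 2 ≤ x → Real.exp l ≤ 3 / 5 * x)
    (hP1 : P1 = 1 - 1 / (1 + Real.sqrt (1 - T ^ 2)))
    (hk0 : 0 ≤ k) (hk1 : k * c ≤ 1)
    (hk2 : (1 + k) * (s * c ^ 2) ≤ (1 + N * z) * (1 / Real.exp l - s)) :
    ∃ M : ℝ, (107 / 100 + 186 / 100 / (nn - 1)) * Real.exp (l / nn) ≤ M ∧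
      0 < N * z * nA c Yv l lh u e r + (ngam Yv e (1 - o ^ 2) (92 / 100 * T ^ 8) +
          5 * ((1 + e) * ((1 - o ^ 2) * (1 + 92 / 100 * T ^ 8))) * k) / N +
        nB c Yv l lh u e r (c * (P1 - c / (1 + c)) + l * ((1 - c) / (1 + c))) (1 - o ^ 2)
          (92 / 100 * T ^ 8) +
        ((2 - 2 * c ^ 2 / (1 + c)) - (2 * (Yv * l) +
          1001 / 1000 * ((1 + e) * ((1 - o ^ 2) * (1 + 92 / 100 * T ^ 8))))) * k -
        o ^ 2 * nW c Yv lh e r * (k / (1 + k)) - 14 / 100 * c ^ 2 * k ^ 2 -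
        M * (k - Real.log (1 + k)) := by
  unfold evp at hev
  extract_lets zD zU c2D c2U cD cU YD YU eLD eLU TD TU t8D t8U capD capU vD vU oU oD uD uU eD eU ED EU YeD YeU rD rU lhD lhU r1D r1U c1D c1U h1n h1p Ap An A X XA dN del M CT chD chU V1D V1U t1D t1U ahn Wp Wn WD WU Bp SU Bn KD KU w1D w1U gD gU aD Cn bD bU rhU r0 r1 LK PhK cond gtK xgU xhD ks Lk Phs gt1 y2s y2k at hev
  -- basic real facts
  have hz0 : 0 < z := by rw [hz]; positivity
  have hz1 : z < 1 := by rw [hz, pow_two]; exact mul_lt_one' hs0 hs1 hs0 hs1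
  have hc20 : 0 < 1 - z := by linarith
  have hc0 : 0 < c := by rw [hc]; exact Real.sqrt_pos.2 hc20
  have hcsq : c ^ 2 = 1 - z := by rw [hc, Real.sq_sqrt hc20.le]
  have hc1 : c < 1 := lt_one_of_sq hc0.le hz0 hcsq
  have hY0 : 0 < Yv := by rw [hY]; positivity
  have hT0 : 0 < T := by rw [hT]; positivity
  have hT8 : T ^ 8 ≤ 1 := pow_le_one₀ hT0.le hT1.le
  have hT80 : 0 < T ^ 8 := by positivity
  have hcap0 : 0 < cap := by rw [hcap]; linarith
  have ho0 : 0 < o := by rw [ho]; positivity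
  have ho1 : o < 1 := by rw [ho, div_lt_one (by positivity)]; linarith
  have hu0 : 0 < u := by rw [hu]; exact mul_pos hv0 (by linarith)
  have hul : u ≤ l := by
    have : u ≤ v := by rw [hu]; exact mul_sub_le hv0 ho0
    linarith
  have he1 : 0 < e := by
    rw [he]
    have := Real.add_one_lt_exp (x := 2 * u) (by linarith)
    linarith
  have hYe0 : 0 < Yv * e := mul_pos hY0 he1
  have hr0 : 0 < r := by rw [hr]; exact Real.sqrt_pos.2 (by linarith)
  have hrsq : r ^ 2 = 1 - Yv * e := by rw [hr, Real.sq_sqrt (by linarith)]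
  have hr1 : r < 1 := lt_one_of_sq hr0.le hYe0 hrsq
  have hlh0 : 0 < lh := by
    have : 0 < 7 / 100 * (1 - o) := mul_pos (by norm_num) (by linarith)
    linarith
  -- interval chain
  have hzD : LB zD z := (LB_mul b1 b1).cg (by rw [hz]; ring)
  have hzU : UB z zU := (UB_mul b2 b2 hs0.le hs0.le).cg (by rw [hz]; ring)
  have hc2D : LB c2D (1 - z) := LB_sub LB_one hzU hz1.le
  have hc2U : UB (1 - z) c2U := UB_sub UB_one hzD
  have hcD : LB cD c := by rw [hc]; exact LB_sqrt hc2D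
  have hcU : UB c cU := by rw [hc]; exact UB_sqrt hc2U hc20.le
  have hYD : LB YD Yv := by rw [hY]; exact LB_div hzD hc2U hc20
  have heLD : LB eLD (Real.exp l) := LB_exp b3
  have heLU : UB (Real.exp l) eLU := UB_exp b4 hl0 (by linarith)
  have hTD : LB TD T := by rw [hT]; exact LB_mul b1 heLD
  have hTU : UB T TU := UB_min (by rw [hT]; exact UB_mul b2 heLU hs0.le (Real.exp_pos _).le)
    (UB_one.ge hT1.le)
  have ht8D : LB t8D (T ^ 8) := p8D_spec hTD
  have ht8U : UB (T ^ 8) t8U := p8U_spec hTU hT0.le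
  have hcapD : LB capD cap := by
    rw [hcap]
    refine LB_sub (by unfold LB; norm_num) ?_ (by linarith)
    exact (UB_ndiv (n := 1000) (by norm_num) (UB_nmul 115 ht8U)).cg (by push_cast; ring)
  have hcapU : UB cap capU := by
    rw [hcap]
    refine UB_sub (by unfold UB; norm_num) ?_
    exact (LB_ndiv 1000 (LB_nmul 115 ht8D)).cg (by push_cast; ring)
  have hvD : LB vD v := by rw [hv]; exact LB_sub b3 hcapU (by linarith)
  have hvU : UB v vU := by rw [hv]; exact UB_sub b4 hcapD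
  have hwU : UB (7 / 100) 76965813945 := by unfold UB; norm_num
  have hwD : LB 76965813944 (7 / 100) := by unfold LB; norm_num
  have hoU : UB o oU := by rw [ho]; exact UB_div hwU (LB_add hvD hwD) (by omega) (by norm_num)
  have hoD : LB oD o := by rw [ho]; exact LB_div hwD (UB_add hvU hwU) (by linarith)
  have h1oD : LB (SC - oU) (1 - o) := LB_sub LB_one hoU ho1.le
  have h1oU : UB (1 - o) (SC - oD) := UB_sub UB_one hoD
  have huD : LB uD u := by rw [hu]; exact LB_mul hvD h1oD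
  have huU : UB u uU := by rw [hu]; exact UB_mul hvU h1oU hv0.le (by linarith)
  have heD : LB eD e := by
    rw [he]
    exact LB_sub (LB_exp ((LB_nmul 2 huD).cg (by push_cast; ring))) UB_one (by linarith)
  have heU : UB e eU := by
    rw [he]
    exact UB_sub (UB_exp ((UB_nmul 2 huU).cg (by push_cast; ring)) (by linarith) (by linarith)) LB_one
  have hED : LB ED (1 + e) := (LB_add heD LB_one).cg (by ring)
  have hEU : UB (1 + e) EU := (UB_add heU UB_one).cg (by ring)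
  have hYeD : LB YeD (Yv * e) := LB_mul hYD heD
  have hrU : UB r rU := by rw [hr]; exact UB_sqrt (UB_sub UB_one hYeD) (by linarith)
  have hlhD : LB lhD lh := by rw [hlh]; exact LB_add hcapD (LB_mul hwD h1oD)
  have hlhU : UB lh lhU := by rw [hlh]; exact UB_add hcapU (UB_mul hwU h1oU (by norm_num) (by linarith))
  -- vacuous cases
  simp only [Bool.or_eq_true, Bool.and_eq_true, decide_eq_true_eq] at hev
  rcases hev with (hev | hev) | hev
  · exfalso
    have := LB.le_of hTD UB_one hev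
    linarith
  · exfalso
    have := LB.le_of hcapD b4 hev
    linarith
  obtain ⟨⟨⟨⟨⟨⟨⟨d1, d2⟩, d3⟩, d4⟩, d5⟩, d6⟩, d7⟩, d8⟩ := hev
  have d2a : 0 < rD := pos_of_mD d2
  have d2b : 0 < mD rD rD := pos_of_mD' d2
  have hSC : 0 < SC := by norm_num
  have hYU : UB Yv YU := by rw [hY]; exact UB_div hzU hc2D d1 hz0.le
  have hYeU : UB (Yv * e) YeU := UB_mul hYU heU hY0.le he1.le
  have hrD : LB rD r := by rw [hr]; exact LB_sqrt (LB_sub LB_one hYeU hYe.le)
  have hr1D : LB r1D (1 + r) := LB_add LB_one hrD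
  have hr1U : UB (1 + r) r1U := UB_add UB_one hrU
  have hc1D : LB c1D (1 + c) := LB_add LB_one hcD
  have hc1U : UB (1 + c) c1U := UB_add UB_one hcU
  have pr1 : 0 < r1D := lt_of_lt_of_le hSC (Nat.le_add_right _ _)
  have pc1 : 0 < c1D := lt_of_lt_of_le hSC (Nat.le_add_right _ _)
  have pr2 : 0 < mD r1D r1D := lt_of_lt_of_le pr1 (mD_ge (Nat.le_add_right _ _))
  have pc2 : 0 < mD c1D c1D := lt_of_lt_of_le pc1 (mD_ge (Nat.le_add_right _ _))
  have pr3 : 0 < mD rD (mD r1D r1D) :=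
    lt_of_lt_of_le d2a (mD_ge ((Nat.le_add_right _ _ : SC ≤ r1D).trans (mD_ge (Nat.le_add_right _ _))))
  have pr4 : 0 < mD rD r1D := lt_of_lt_of_le d2a (mD_ge (Nat.le_add_right _ _))
  have hh1n : UB (e ^ 2 * (2 + r) / (2 * r * (1 + r) ^ 2) + u * c ^ 2 * (1 + 2 * c) / (1 + c) ^ 2) h1n := by
    refine (UB_add (UB_div (UB_mul (UB_mul heU heU he1.le he1.le) (UB_add (UB_nat 2) hrU) (by positivity)
      (by positivity)) (LB_nmul 2 (LB_mul hrD (LB_mul hr1D hr1D))) (by omega) (by positivity))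
      (UB_mul huU (UB_div (UB_mul hc2U (UB_add UB_one (UB_nmul 2 hcU)) hc20.le (by positivity))
        (LB_mul hc1D hc1D) pc2 (by positivity)) hu0.le (by positivity))).cg ?_
    rw [← hcsq]
    push_cast
    ring
  have hh1p : LB h1p (lh * e * (e * (1 + 2 * r) / (1 + r) + 1 + r + r ^ 2) / (r ^ 3 * (1 + r))) := by
    refine (LB_mul hlhD (LB_div (LB_mul heD (LB_add (LB_div (LB_mul heD (LB_add LB_one
      (LB_nmul 2 hrD))) hr1U (by positivity)) (LB_add (LB_add LB_one hrD) (LB_mul hrD hrD))))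
      (UB_mul (UB_mul hrU (UB_mul hrU hrU hr0.le hr0.le) hr0.le (by positivity)) hr1U (by positivity)
        (by positivity)) (by positivity))).cg ?_
    push_cast
    ring
  have hAp : LB Ap (l ^ 2 * (Yv + 7 / 25) + Yv * (lh * e * (e * (1 + 2 * r) / (1 + r) + 1 + r + r ^ 2) /
      (r ^ 3 * (1 + r))) + e / 2000) := by
    refine (LB_add (LB_add (LB_mul (LB_mul b3 b3) (LB_add hYD (x := Yv) (y := 7 / 25)
      (b := 307863255777) (by unfold LB; norm_num))) (LB_mul hYD hh1p)) (LB_ndiv 2000 heD)).cg ?_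
    push_cast
    ring
  have hAn : UB (Yv * (e ^ 2 * (2 + r) / (2 * r * (1 + r) ^ 2) + u * c ^ 2 * (1 + 2 * c) / (1 + c) ^ 2)) An :=
    UB_mul hYU hh1n hY0.le (by positivity)
  have hA : LB A (nA c Yv l lh u e r) := by
    refine (LB_mul (LB_add LB_one hYD) (LB_sub hAp hAn (LB.le_of hAp hAn d3))).cg ?_
    unfold nA
    ring
  have hX : LB X (N * z) := xLow_spec hzD hzU heLD hx hN hx2 hz0 hC1 hC2
  have pX : 0 < X := xLow_pos _ _ _
  have hN0 : 0 < N := by linarith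
  have hnn0 : 0 < nn := by linarith
  have hXA : LB XA (N * z * nA c Yv l lh u e r) := LB_mul hX hA
  have hdN : UB (1 / N) dN := by
    refine UB_min ((UB_div hzU hX pX hz0.le).cg (by field_simp)) ?_
    refine (UB_ndiv (n := 24) (by norm_num) UB_one).ge ?_
    push_cast
    exact one_div_le_one_div_of_le (by norm_num) hN
  have hdel : UB (1 / nn) del := by
    refine (UB_ndiv (n := 23) (by norm_num) (UB_nmul 24 hdN)).ge ?_
    push_cast
    rw [hnn, div_le_iff₀ (by linarith)]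
    have e1 : 24 * (1 / N) / 23 * (N - 1) = 24 / 23 * (1 - 1 / N) := by field_simp
    have e2 : 1 / N ≤ 1 / 24 := one_div_le_one_div_of_le (by norm_num) hN
    rw [e1]
    linarith
  have h1nn : 1 / nn ≤ 1 := by rw [div_le_one hnn0]; linarith
  have h1nn0 : 0 < 1 / nn := by positivity
  have hnn2 : UB (1 / (nn - 1)) (12 * dN / 11 + 1) := by
    refine (UB_ndiv (n := 11) (by norm_num) (UB_nmul 12 hdN)).ge ?_
    push_cast
    rw [hnn, div_le_iff₀ (by linarith)]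
    have e1 : 12 * (1 / N) / 11 * (N - 1 - 1) = 12 / 11 * (1 - 2 * (1 / N)) := by field_simp; ring
    have e2 : 1 / N ≤ 1 / 24 := one_div_le_one_div_of_le (by norm_num) hN
    rw [e1]
    linarith
  have hnn1 : 0 < nn - 1 := by linarith
  have hM : UB ((107 / 100 + 186 / 100 / (nn - 1)) * Real.exp (l / nn)) M := by
    have e1 : l / nn = l * (1 / nn) := by ring
    have e2 : l * (1 / nn) ≤ l * 1 := mul_le_mul_of_nonneg_left h1nn hl0
    rw [e1]
    refine UB_mul (UB_add (by unfold UB; norm_num) ((UB_ndiv (n := 100) (by norm_num)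
      (UB_nmul 186 hnn2)).cg ?_)) (UB_exp (UB_mul b4 hdel hl0 h1nn0.le) (by positivity) (by linarith))
      (by positivity) (Real.exp_pos _).le
    push_cast
    ring
  have hCT : LB CT (Real.sqrt (1 - T ^ 2)) := by
    refine LB_sqrt ((LB_sub LB_one (UB_mul hTU hTU hT0.le hT0.le)
      (mul_lt_one' hT0 hT1 hT0 hT1).le).cg ?_)
    ring
  have hsq0 := Real.sqrt_nonneg (1 - T ^ 2)
  have hP1D : LB (SC - dU SC (SC + CT)) P1 := by
    rw [hP1]
    refine LB_sub LB_one (UB_div UB_one (LB_add LB_one hCT) (by omega) (by norm_num)) ?_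
    rw [div_le_one (by positivity)]
    linarith
  have hcr0 : 0 < c * r := mul_pos hc0 hr0
  have hcr1 : c * r < 1 := mul_lt_one' hc0 hc1 hr0 hr1
  have hchD : LB chD (c * r) := LB_mul hcD hrD
  have hchU : UB (c * r) chU := UB_mul hcU hrU hc0.le hr0.le
  have hoo : o * o < 1 := mul_lt_one' ho0 ho1 ho0 ho1
  have hV1D : LB V1D (1 - o ^ 2) := (LB_sub LB_one (UB_mul hoU hoU ho0.le ho0.le) hoo.le).cg (by ring)
  have hV1U : UB (1 - o ^ 2) V1U := (UB_sub UB_one (LB_mul hoD hoD)).cg (by ring)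
  have hV10 : 0 ≤ 1 - o ^ 2 := by rw [pow_two]; linarith
  have ht1D : LB t1D (92 / 100 * T ^ 8) := (LB_ndiv 100 (LB_nmul 92 ht8D)).cg (by push_cast; ring)
  have ht1U : UB (92 / 100 * T ^ 8) t1U :=
    (UB_ndiv (n := 100) (by norm_num) (UB_nmul 92 ht8U)).cg (by push_cast; ring)
  have hahn : UB (2 * (c * r) ^ 2 / (1 + c * r)) ahn := by
    refine (UB_div (UB_nmul 2 (UB_mul hchU hchU hcr0.le hcr0.le)) (LB_add LB_one hchD) (by omega)
      (by positivity)).cg ?_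
    push_cast
    ring
  have hahn2 : 2 * (c * r) ^ 2 / (1 + c * r) ≤ 2 := by
    rw [div_le_iff₀ (by positivity)]
    exact two_sq_le hcr0 hcr1
  have hWp : LB Wp ((2 - 2 * (c * r) ^ 2 / (1 + c * r)) / r) := by
    refine LB_div (LB_sub ?_ hahn hahn2) hrU hr0
    exact (LB_nat 2).cg (by norm_num)
  have hWn : UB (3 * lh * Yv * (1 + e) / r ^ 3) Wn := by
    refine (UB_div (UB_nmul 3 (UB_mul hlhU (UB_mul hYU hEU hY0.le (by positivity)) hlh0.le
      (by positivity))) (LB_mul hrD (LB_mul hrD hrD)) d2 (by positivity)).cg ?_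
    push_cast
    ring
  have hWD : LB WD (nW c Yv lh e r) := LB_sub hWp hWn (LB.le_of hWp hWn d4.le)
  have hW0 : 0 ≤ nW c Yv lh e r := hWD.nonneg
  have hahp : LB (dD (2 * mD chD chD) (SC + chU)) (2 * (c * r) ^ 2 / (1 + c * r)) := by
    refine (LB_div (LB_nmul 2 (LB_mul hchD hchD)) (UB_add UB_one hchU) (by positivity)).cg ?_
    push_cast
    ring
  have hWU : UB (nW c Yv lh e r) WU := by
    unfold nW
    refine UB_sub (UB_div (UB_sub ((UB_nat 2).cg (by norm_num)) hahp) hrD d2a (by linarith)) ?_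
    refine (LB_div (LB_nmul 3 (LB_mul hlhD (LB_mul hYD hED))) (UB_mul hrU (UB_mul hrU hrU hr0.le hr0.le)
      hr0.le (by positivity)) (by positivity)).cg ?_
    push_cast
    ring
  have hP10 : 0 ≤ P1 := hP1D.nonneg
  have hcc0 : 0 ≤ c / (1 + c) := by positivity
  have hBp : LB Bp (c * P1 + l * ((1 - c) / (1 + c)) + c ^ 2 * Yv * e / ((1 + r) * (1 + c) * (1 + c * r)) +
      u * (1 + 4 * Yv) + (1 - o ^ 2) * (92 / 100 * T ^ 8) * nW c Yv lh e r) := by
    refine (LB_add (LB_add (LB_add (LB_add (LB_mul hcD hP1D) (LB_mul b3 (LB_div (LB_sub LB_one hcU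
      hc1.le) hc1U (by positivity)))) (LB_div (LB_mul hc2D hYeD) (UB_mul hr1U (UB_mul hc1U
      (UB_add UB_one hchU) (by positivity) (by positivity)) (by positivity) (by positivity))
      (by positivity))) (LB_mul huD (LB_add LB_one (LB_nmul 4 hYD))))
      (LB_mul (LB_mul hV1D ht1D) hWD)).cg ?_
    rw [← hcsq]
    push_cast
    ring
  have hSU : UB ((1 + Yv) * (1 + r + r ^ 2) / r ^ 2) SU := by
    refine (UB_div (UB_mul (UB_add UB_one hYU) (UB_add (UB_add UB_one hrU) (UB_mul hrU hrU hr0.le hr0.le))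
      (by positivity) (by positivity)) (LB_mul hrD hrD) d2b (by positivity)).cg ?_
    ring
  have hS3 : 3 ≤ (1 + Yv) * (1 + r + r ^ 2) / r ^ 2 := by
    rw [le_div_iff₀ (by positivity)]
    exact S3_le hY0 hr0 hr1
  have hBn : UB (4 * Yv ^ 2 * l ^ 2 + 103 / 25 * Yv * l ^ 2 + c ^ 2 / (1 + c) + 3501 / 1000 * Yv * e +
      1001 / 2000 * e + lh * Yv * e * (4 * ((1 + Yv) * (1 + r + r ^ 2) / r ^ 2) - 3) / (r * (1 + r)) +
      (1 - o ^ 2) * (92 / 100 * T ^ 8) * (1001 / 1000 * (1 + e))) Bn := by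
    refine (UB_add (UB_add (UB_add (UB_add (UB_add (UB_add
      (UB_nmul 4 (UB_mul (UB_mul hYU hYU hY0.le hY0.le) (UB_mul b4 b4 hl0 hl0) (by positivity)
        (by positivity)))
      (UB_ndiv (n := 100) (by norm_num) (UB_nmul 412 (UB_mul hYU (UB_mul b4 b4 hl0 hl0) hY0.le
        (by positivity)))))
      (UB_div hc2U hc1D pc1 hc20.le))
      (UB_ndiv (n := 1000) (by norm_num) (UB_nmul 3501 hYeU)))
      (UB_ndiv (n := 10000) (by norm_num) (UB_nmul 5005 heU)))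
      (UB_div (UB_mul (UB_mul hlhU hYeU hlh0.le hYe0.le) (UB_sub (UB_nmul 4 hSU) (LB_nat 3))
        (by positivity) (by push_cast; linarith)) (LB_mul hrD hr1D) pr4 (mul_nonneg (by positivity)
          (by push_cast; linarith))))
      (UB_mul (UB_mul hV1U ht1U hV10 (by positivity)) (UB_ndiv (n := 1000) (by norm_num)
        (UB_nmul 1001 hEU)) (mul_nonneg hV10 (by positivity)) (by positivity))).cg ?_
    rw [← hcsq]
    push_cast
    ring
  -- the `k`-part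
  clear_value Bn SU Bp WU WD Wn Wp ahn t1U t1D V1U V1D chU chD CT del X A An Ap h1p h1n c1U c1D r1U r1D lhU lhD rU rD YeU YeD EU ED eU eD uU uD oD oU vU vD capU capD t8U t8D TU TD
  have h1k : 0 < 1 + k := by linarith
  obtain ⟨K, hK⟩ : ∃ K : ℝ, K = 1 / c := ⟨_, rfl⟩
  have hK0 : 0 < K := by rw [hK]; positivity
  have hKc : K * c = 1 := by rw [hK]; field_simp
  have hkK : k ≤ K := by rw [hK, le_div_iff₀ hc0]; exact hk1
  have hKD : LB KD K := by rw [hK]; exact LB_div LB_one hcU hc0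
  have hKU : UB K KU := by rw [hK]; exact UB_div UB_one hcD d7 (by norm_num)
  obtain ⟨w1, hw1⟩ : ∃ w1 : ℝ, w1 = (1 + e) * ((1 - o ^ 2) * (1 + 92 / 100 * T ^ 8)) := ⟨_, rfl⟩
  have hw1D : LB w1D w1 := by rw [hw1]; exact LB_mul hED (LB_mul hV1D (LB_add LB_one ht1D))
  have hw1U : UB w1 w1U := by
    rw [hw1]
    exact UB_mul hEU (UB_mul hV1U (UB_add UB_one ht1U) hV10 (by positivity)) (by positivity)
      (mul_nonneg hV10 (by positivity))
  have hw10 : 0 ≤ w1 := hw1D.nonneg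
  rw [← hw1]
  have hgD : LB gD (ngam Yv e (1 - o ^ 2) (92 / 100 * T ^ 8)) := by
    refine (LB_nmul 5 (LB_add (LB_ndiv 2 (LB_mul (LB_add LB_one (LB_nmul 2 hYD)) heD))
      (LB_mul hED (LB_mul hV1D ht1D)))).cg ?_
    unfold ngam
    push_cast
    ring
  have hgU : UB (ngam Yv e (1 - o ^ 2) (92 / 100 * T ^ 8)) gU := by
    refine (UB_nmul 5 (UB_add (UB_ndiv (n := 2) (by norm_num) (UB_mul (UB_add UB_one (UB_nmul 2 hYU)) heU
      (by positivity) he1.le)) (UB_mul hEU (UB_mul hV1U ht1U hV10 (by positivity)) (by positivity)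
      (mul_nonneg hV10 (by positivity))))).cg ?_
    unfold ngam
    push_cast
    ring
  obtain ⟨g0, hg0⟩ : ∃ g0 : ℝ, g0 = ngam Yv e (1 - o ^ 2) (92 / 100 * T ^ 8) := ⟨_, rfl⟩
  rw [← hg0] at hgD hgU ⊢
  have hg00 : 0 ≤ g0 := hgD.nonneg
  have haD : LB aD (2 - 2 * c ^ 2 / (1 + c)) := by
    have h2 : 2 * c ^ 2 / (1 + c) ≤ 2 := by
      rw [div_le_iff₀ (by positivity)]
      exact two_sq_le hc0 hc1
    refine LB_sub ((LB_nat 2).cg (by norm_num)) ((UB_div (UB_nmul 2 hc2U) hc1D pc1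
      (by positivity)).cg ?_) h2
    rw [← hcsq]
    push_cast
    ring
  obtain ⟨a, ha⟩ : ∃ a : ℝ, a = 2 - 2 * c ^ 2 / (1 + c) := ⟨_, rfl⟩
  rw [← ha] at haD ⊢
  have hCn : UB (2 * (Yv * l) + 1001 / 1000 * w1) Cn := by
    refine (UB_add (UB_nmul 2 (UB_mul hYU b4 hY0.le hl0)) (UB_ndiv (n := 1000) (by norm_num)
      (UB_nmul 1001 hw1U))).cg ?_
    push_cast
    ring
  have hCn0 : 0 ≤ 2 * (Yv * l) + 1001 / 1000 * w1 := by positivity
  have hbD : LB bD (14 / 100 * c ^ 2) := by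
    refine (LB_ndiv 100 (LB_nmul 14 hc2D)).cg ?_
    rw [← hcsq]
    push_cast
    ring
  have hbU : UB (14 / 100 * c ^ 2) bU := by
    refine (UB_ndiv (n := 100) (by norm_num) (UB_nmul 14 hc2U)).cg ?_
    rw [← hcsq]
    push_cast
    ring
  have hrhU : UB (o ^ 2 * nW c Yv lh e r) rhU :=
    (UB_mul (UB_mul hoU hoU ho0.le ho0.le) hWU (by positivity) hW0).cg (by ring)
  have pM : 0 < M := Nat.succ_pos _
  obtain ⟨Mr, hMr⟩ : ∃ Mr : ℝ, Mr = (M : ℝ) / 1099511627776 := ⟨_, rfl⟩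
  have hMD : LB M Mr := by rw [hMr]; exact LB_self M
  have hMU : UB Mr M := by rw [hMr]; exact UB_self M
  have hMr0 : 0 < Mr := hMD.pos pM
  have hMM : (107 / 100 + 186 / 100 / (nn - 1)) * Real.exp (l / nn) ≤ Mr := by
    rw [hMr, le_div_iff₀ (by norm_num)]
    exact hM
  refine ⟨Mr, hMM, ?_⟩
  obtain ⟨ρ0, hρ0⟩ : ∃ ρ0 : ℝ, ρ0 = (r0 : ℝ) / 1099511627776 := ⟨_, rfl⟩
  obtain ⟨ρ1, hρ1⟩ : ∃ ρ1 : ℝ, ρ1 = (r1 : ℝ) / 1099511627776 := ⟨_, rfl⟩
  have hρ0D : LB r0 ρ0 := by rw [hρ0]; exact LB_self _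
  have hρ0U : UB ρ0 r0 := by rw [hρ0]; exact UB_self _
  have hρ1D : LB r1 ρ1 := by rw [hρ1]; exact LB_self _
  have hρ1U : UB ρ1 r1 := by rw [hρ1]; exact UB_self _
  have er0 : r0 ≤ rhU := min_le_left _ _
  have er0' : r0 ≤ bD + M / 2 := min_le_right _ _
  have er1 : r0 + r1 = rhU := Nat.add_sub_cancel' er0
  have hLK8 : LK ≤ 8 * SC := min_le_right _ _
  clear_value r1 r0 rhU bU bD Cn aD gU gD w1U w1D M dN
  have hρ : o ^ 2 * nW c Yv lh e r ≤ ρ0 + ρ1 := by
    have h1 : (rhU : ℝ) = r0 + r1 := by rw [← er1]; push_cast; ring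
    unfold UB at hrhU
    rw [h1] at hrhU
    unfold LB at hρ0D hρ1D
    linarith
  have h2ρ : 2 * ρ0 ≤ 2 * (14 / 100 * c ^ 2) + Mr := by
    have h1 : 2 * r0 ≤ 2 * bD + M := by omega
    have h2 : (2 * r0 : ℝ) ≤ 2 * bD + M := by exact_mod_cast h1
    have h3 : (bD : ℝ) ≤ 14 / 100 * c ^ 2 * 1099511627776 := hbD
    rw [hρ0, hMr]
    linarith
  have hb0 : 0 ≤ 14 / 100 * c ^ 2 := by positivity
  obtain ⟨Xr, hXr⟩ : ∃ Xr : ℝ, Xr = (X : ℝ) / 1099511627776 := ⟨_, rfl⟩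
  have hXrD : LB X Xr := by rw [hXr]; exact LB_self X
  have hXrU : UB Xr X := by rw [hXr]; exact UB_self X
  have hXr0 : 0 < Xr := hXrD.pos pX
  have hXy : Xr ≤ N * z := LB.le_of hX hXrU le_rfl
  have hXAr : LB XA (Xr * nA c Yv l lh u e r) := LB_mul hXrD hA
  obtain ⟨Ar, hAr⟩ : ∃ Ar : ℝ, Ar = nA c Yv l lh u e r := ⟨_, rfl⟩
  rw [← hAr] at hA hXAr ⊢
  have hAr0 : 0 ≤ Ar := hA.nonneg
  have eB : nB c Yv l lh u e r (c * (P1 - c / (1 + c)) + l * ((1 - c) / (1 + c))) (1 - o ^ 2)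
      (92 / 100 * T ^ 8) =
    (c * P1 + l * ((1 - c) / (1 + c)) + c ^ 2 * Yv * e / ((1 + r) * (1 + c) * (1 + c * r)) +
      u * (1 + 4 * Yv) + (1 - o ^ 2) * (92 / 100 * T ^ 8) * nW c Yv lh e r) -
    (4 * Yv ^ 2 * l ^ 2 + 103 / 25 * Yv * l ^ 2 + c ^ 2 / (1 + c) + 3501 / 1000 * Yv * e +
      1001 / 2000 * e + lh * Yv * e * (4 * ((1 + Yv) * (1 + r + r ^ 2) / r ^ 2) - 3) / (r * (1 + r)) +
      (1 - o ^ 2) * (92 / 100 * T ^ 8) * (1001 / 1000 * (1 + e))) := by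
    unfold nB
    ring
  rw [eB]
  obtain ⟨Bpr, hBpr⟩ : ∃ Bpr : ℝ, Bpr = c * P1 + l * ((1 - c) / (1 + c)) +
      c ^ 2 * Yv * e / ((1 + r) * (1 + c) * (1 + c * r)) +
      u * (1 + 4 * Yv) + (1 - o ^ 2) * (92 / 100 * T ^ 8) * nW c Yv lh e r := ⟨_, rfl⟩
  obtain ⟨Bnr, hBnr⟩ : ∃ Bnr : ℝ, Bnr = 4 * Yv ^ 2 * l ^ 2 + 103 / 25 * Yv * l ^ 2 + c ^ 2 / (1 + c) +
      3501 / 1000 * Yv * e + 1001 / 2000 * e +
      lh * Yv * e * (4 * ((1 + Yv) * (1 + r + r ^ 2) / r ^ 2) - 3) / (r * (1 + r)) +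
      (1 - o ^ 2) * (92 / 100 * T ^ 8) * (1001 / 1000 * (1 + e)) := ⟨_, rfl⟩
  rw [← hBpr] at hBp ⊢
  rw [← hBnr] at hBn ⊢
  have hLK : LB LK (Real.log (1 + K)) := log_LB d6 (LB_add LB_one hKD) (by linarith) hLK8
  have hlogK : Real.log (1 + K) ≤ K := by
    have := Real.log_le_sub_one_of_pos (show 0 < 1 + K by linarith)
    linarith
  have hPhK : UB ((2 * (Yv * l) + 1001 / 1000 * w1) * K + ρ0 * (K / (1 + K)) + ρ1 * K +
      14 / 100 * c ^ 2 * K ^ 2 + Mr * (K - Real.log (1 + K))) PhK := by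
    have e1 : K / (1 + K) = 1 / (1 + c) := by rw [hK]; field_simp; ring
    have e2 : 14 / 100 * c ^ 2 * K ^ 2 = 14 / 100 := by
      have : c ^ 2 * K ^ 2 = (K * c) ^ 2 := by ring
      rw [mul_assoc, this, hKc]; ring
    rw [e1, e2]
    exact UB_add (UB_add (UB_add (UB_add (UB_mul hCn hKU hCn0 hK0.le) (UB_mul hρ0U (UB_div UB_one hc1D pc1
      (by norm_num)) hρ0D.nonneg (by positivity))) (UB_mul hρ1U hKU hρ1D.nonneg hK0.le))
      (by unfold UB; norm_num)) (UB_mul hMU (UB_sub hKU hLK) hMr0.le (by linarith))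
  have hcond : ∃ tg : ℝ, 0 ≤ tg ∧
      (∀ k' : ℝ, 0 ≤ k' → k' ≤ K → Xr * Ar + tg * (g0 + 5 * w1 * k') ≤
        N * z * Ar + (g0 + 5 * w1 * k') / N) ∧
      (∀ (kn : ℕ) (k' : ℝ), LB kn k' → LB (if cond then dD (mD (gD + 5 * mD w1D kn) zD) X else 0)
        (tg * (g0 + 5 * w1 * k'))) := by
    have hyA : Xr * Ar ≤ N * z * Ar := mul_le_mul_of_nonneg_right hXy hAr0
    rcases Bool.eq_false_or_eq_true cond with hcd | hcd
    · refine ⟨z / Xr, by positivity, ?_, ?_⟩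
      · intro k' hk' hk'K
        have h1 : UB ((g0 + 5 * (w1 * K)) * z / Xr) (dU (mU (gU + 5 * mU w1U KU) zU) X) :=
          UB_div (UB_mul (UB_add hgU (by exact_mod_cast UB_nmul 5 (UB_mul hw1U hKU hw10 hK0.le))) hzU
            (by positivity) hz0.le) hXrD pX (by positivity)
        have h2 : (g0 + 5 * (w1 * K)) * z / Xr ≤ Xr * Ar := LB.le_of hXAr h1 (of_decide_eq_true hcd)
        have h3 : (g0 + 5 * w1 * k') * z / Xr ≤ Xr * Ar := by
          refine le_trans ?_ h2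
          have h5 : 5 * w1 * k' ≤ 5 * (w1 * K) := by
            have := mul_le_mul_of_nonneg_left hk'K hw10
            linarith
          have h6 : (g0 + 5 * w1 * k') * z ≤ (g0 + 5 * (w1 * K)) * z :=
            mul_le_mul_of_nonneg_right (by linarith) hz0.le
          exact div_le_div_of_nonneg_right h6 hXr0.le
        have h4 := elimY (g := g0 + 5 * w1 * k') hXr0 hXy hAr0 (by positivity) hz0.le h3
        have e1 : (g0 + 5 * w1 * k') * z / (N * z) = (g0 + 5 * w1 * k') / N := by field_simp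
        have e2 : z / Xr * (g0 + 5 * w1 * k') = (g0 + 5 * w1 * k') * z / Xr := by ring
        rw [e1] at h4
        rw [e2]
        exact h4
      · intro kn k' hkn
        rw [if_pos hcd]
        refine (LB_div (LB_mul (LB_add hgD (LB_nmul 5 (LB_mul hw1D hkn))) hzD) hXrU hXr0).cg ?_
        push_cast
        ring
    · refine ⟨0, le_rfl, ?_, ?_⟩
      · intro k' hk' _
        have : 0 ≤ (g0 + 5 * w1 * k') / N := by positivity
        linarith
      · intro kn k' _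
        rw [if_neg (by rw [hcd]; simp)]
        exact LB_zero (by simp)
  obtain ⟨tg, htg0, hE, hgt⟩ := hcond
  have p0 : 0 < Xr * Ar + tg * g0 + (Bpr - Bnr) := by
    have h1 := fin0 d5 (LB_add hXAr hBp) hBn
    have : 0 ≤ tg * g0 := by positivity
    linarith
  have hres := kpos_core (A := Ar) (B := Bpr - Bnr) (K := K) (k := k) (Xr := Xr) (y := N * z)
    (g0 := g0) (w1 := w1) (gN := (g0 + 5 * w1 * k) / N) (tg := tg) (ρ := o ^ 2 * nW c Yv lh e r)
    (ρ0 := ρ0) (ρ1 := ρ1) (b := 14 / 100 * c ^ 2) (M := Mr) (C1 := a - (2 * (Yv * l) + 1001 / 1000 * w1))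
    hk0 hkK hAr0 hρ0D.nonneg hρ1D.nonneg hb0 hMr0.le h2ρ hρ (by positivity) (hE k hk0 hkK) p0 ?_
  · refine lt_of_lt_of_eq hres ?_
    ring
  · rcases d8 with d8 | ⟨⟨⟨⟨⟨f1, f2⟩, f3⟩, f4⟩, f5⟩, f6⟩
    · left
      exact fin_phk rfl (fin0 d8 (LB_add (LB_add (LB_add hXAr hBp) (hgt KD K hKD)) (LB_mul haD hKD))
        (UB_add hBn hPhK))
    · right
      have hkn : ks ≤ KD := min_le_left _ _
      have hLk8 : Lk ≤ 8 * SC := min_le_right _ _
      obtain ⟨kr, hkr⟩ : ∃ kr : ℝ, kr = (ks : ℝ) / 1099511627776 := ⟨_, rfl⟩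
      have hkrD : LB ks kr := by rw [hkr]; exact LB_self ks
      have hkrU : UB kr ks := by rw [hkr]; exact UB_self ks
      obtain ⟨hh, hhh⟩ : ∃ hh : ℝ, hh = (xhD : ℝ) / 1099511627776 := ⟨_, rfl⟩
      have hhD : LB xhD hh := by rw [hhh]; exact LB_self xhD
      have hhU : UB hh xhD := by rw [hhh]; exact UB_self xhD
      have hgl0 : 0 < 1 / Real.exp l - s := by
        have h1 := Real.exp_pos l
        rw [sub_pos, lt_div_iff₀ h1, ← hT]
        exact hT1
      have hglU : UB (1 / Real.exp l - s) xgU := UB_sub (UB_div UB_one heLD f1 (by norm_num)) b1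
      have hh1 : hh ≤ s * c ^ 2 / (1 / Real.exp l - s) := by
        refine LB.le_of (LB_div (LB_mul b1 hc2D) hglU hgl0 |>.cg ?_) hhU le_rfl
        rw [← hcsq]
      have hkr0 : 0 ≤ kr := hkrD.nonneg
      have hkrK : kr ≤ K := LB.le_of hKD hkrU hkn
      have hyk : (1 + k) * hh - 1 ≤ N * z := by
        have h1 : (1 + k) * hh ≤ (1 + k) * (s * c ^ 2 / (1 / Real.exp l - s)) :=
          mul_le_mul_of_nonneg_left hh1 h1k.le
        have h2 : (1 + k) * (s * c ^ 2 / (1 / Real.exp l - s)) ≤ 1 + N * z := by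
          rw [← mul_div_assoc, div_le_iff₀ hgl0]
          exact hk2
        linarith
      have h1s : LB (mD (SC + ks) xhD) ((1 + kr) * hh) := LB_mul (LB_add LB_one hkrD) hhD
      have h1s1 : 1 ≤ (1 + kr) * hh := LB.le_of h1s UB_one f2
      have hh0 : 0 ≤ hh := hhD.nonneg
      have h1K1 : 1 ≤ (1 + K) * hh := h1s1.trans (mul_le_mul_of_nonneg_right (by linarith) hh0)
      have hy2s : LB y2s ((1 + kr) * hh - 1) := LB_sub h1s UB_one h1s1
      have hy2k : LB y2k ((1 + K) * hh - 1) := LB_sub (LB_mul (LB_add LB_one hKD) hhD) UB_one h1K1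
      have hLk : LB Lk (Real.log (1 + kr)) := by
        rcases f3 with f3 | f3
        · rw [f3]; exact LB_zero (Real.log_nonneg (by linarith))
        · exact log_LB f3 (LB_add LB_one hkrD) (by linarith) hLk8
      have hlogk : Real.log (1 + kr) ≤ kr := by
        have := Real.log_le_sub_one_of_pos (show 0 < 1 + kr by linarith)
        linarith
      have hPhs : UB ((2 * (Yv * l) + 1001 / 1000 * w1) * kr + ρ0 * (kr / (1 + kr)) + ρ1 * kr +
          14 / 100 * c ^ 2 * (kr * kr) + Mr * (kr - Real.log (1 + kr))) Phs := by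
        refine UB_add (UB_add (UB_add (UB_add (UB_mul hCn hkrU hCn0 hkr0) (UB_mul hρ0U (UB_div hkrU
          (LB_add LB_one hkrD) (Nat.add_pos_left hSC _) hkr0) hρ0D.nonneg (by positivity))) (UB_mul hρ1U hkrU
          hρ1D.nonneg hkr0)) (UB_mul hbU (UB_mul hkrU hkrU hkr0 hkr0) hb0 (by positivity)))
          (UB_mul hMU (UB_sub hkrU hLk) hMr0.le (by linarith))
      have q4 := fin0 f4 (LB_add (LB_add (LB_add hXAr hBp) (hgt ks kr hkrD)) (LB_mul haD hkrD))
        (UB_add hBn hPhs)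
      have q5 := fin0 f5 (LB_add (LB_add (LB_mul hy2s hA) hBp) (LB_mul haD hkrD)) (UB_add hBn hPhs)
      have q6 := fin0 f6 (LB_add (LB_add (LB_mul hy2k hA) hBp) (LB_mul haD hKD)) (UB_add hBn hPhK)
      refine ⟨kr, hh, hkr0, hkrK, hyk, ?_, ?_, ?_⟩
      · exact fin_phk (by ring) q4
      · exact fin_phk' (by ring) q5
      · exact fin_phk' rfl q6

end Crest.Agent.R230.FN
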