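import Crest.Agent.R230.FarNegEv

/-!
# Row 230: the box evaluator for the far block, `0 ≤ k` (helper237)

`evp s1 s2 l1 l2` certifies positivity of the far density on the box `[s1,s2] × [l1,l2]` (units `2⁻⁴⁰`).
-/

set_option autoImplicit false

namespace Crest.Agent.R230.FN

open IA

/-- the evaluator, `0 ≤ k` -/
def evp (s1 s2 l1 l2 : ℕ) : Bool :=
  let zD := mD s1 s1
  let zU := mU s2 s2
  let c2D := SC - zU
  let c2U := SC - zD
  let cD := sqD c2D
  let cU := sqU c2U
  let YD := dD zD c2U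
  let YU := dU zU c2D
  let eLD := expD l1
  let eLU := expU l2
  let TD := mD s1 eLD
  let TU := min (mU s2 eLU) SC
  let t8D := p8D TD
  let t8U := p8U TU
  let capD := 472789999943 - (115 * t8U / 1000 + 1)
  let capU := 472789999944 - 115 * t8D / 1000
  let vD := l1 - capU
  let vU := l2 - capD
  let oU := dU 76965813945 (vD + 76965813944)
  let oD := dD 76965813944 (vU + 76965813945)
  let uD := mD vD (SC - oU)
  let uU := mU vU (SC - oD)
  let eD := expD (2 * uD) - SC
  let eU := expU (2 * uU) - SC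
  let ED := eD + SC
  let EU := eU + SC
  let YeD := mD YD eD
  let YeU := mU YU eU
  let rD := sqD (SC - YeU)
  let rU := sqU (SC - YeD)
  let lhD := capD + mD 76965813944 (SC - oU)
  let lhU := capU + mU 76965813945 (SC - oD)
  let r1D := SC + rD
  let r1U := SC + rU
  let c1D := SC + cD
  let c1U := SC + cU
  let h1n := dU (mU (mU eU eU) (2 * SC + rU)) (2 * mD rD (mD r1D r1D)) +
    mU uU (dU (mU c2U (SC + 2 * cU)) (mD c1D c1D))
  let h1p := mD lhD (dD (mD eD (dD (mD eD (SC + 2 * rD)) r1U + (SC + rD + mD rD rD)))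
    (mU (mU rU (mU rU rU)) r1U))
  let Ap := mD (mD l1 l1) (YD + 307863255777) + mD YD h1p + eD / 2000
  let An := mU YU h1n
  let A := mD (SC + YD) (Ap - An)
  let X := xLow zD zU eLD
  let XA := mD X A
  let dN := min (dU zU X) (SC / 24 + 1)
  let del := 24 * dN / 23 + 1
  let M := mU (1176477441721 + (186 * (12 * dN / 11 + 1) / 100 + 1)) (expU (mU l2 del))
  let CT := sqD (SC - mU TU TU)
  let chD := mD cD rD
  let chU := mU cU rU
  let V1D := SC - mU oU oU
  let V1U := SC - mD oD oD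
  let t1D := 92 * t8D / 100
  let t1U := 92 * t8U / 100 + 1
  let ahn := dU (2 * mU chU chU) (SC + chD)
  let Wp := dD (2 * SC - ahn) rU
  let Wn := dU (3 * mU lhU (mU YU EU)) (mD rD (mD rD rD))
  let WD := Wp - Wn
  let WU := dU (2 * SC - dD (2 * mD chD chD) (SC + chU)) rD -
    dD (3 * mD lhD (mD YD ED)) (mU rU (mU rU rU))
  let Bp := mD cD (SC - dU SC (SC + CT)) + mD l1 (dD (SC - cU) c1U) +
    dD (mD c2D YeD) (mU r1U (mU c1U (SC + chU))) + mD uD (SC + 4 * YD) + mD (mD V1D t1D) WD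
  let SU := dU (mU (SC + YU) (SC + rU + mU rU rU)) (mD rD rD)
  let Bn := 4 * mU (mU YU YU) (mU l2 l2) + (412 * mU YU (mU l2 l2) / 100 + 1) + dU c2U c1D +
    (3501 * YeU / 1000 + 1) + (5005 * eU / 10000 + 1) +
    dU (mU (mU lhU YeU) (4 * SU - 3 * SC)) (mD rD r1D) + mU (mU V1U t1U) (1001 * EU / 1000 + 1)
  let KD := dD SC cU
  let KU := dU SC cD
  let w1D := mD ED (mD V1D (SC + t1D))
  let w1U := mU EU (mU V1U (SC + t1U))
  let gD := 5 * (mD (SC + 2 * YD) eD / 2 + mD ED (mD V1D t1D))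
  let gU := 5 * (mU (SC + 2 * YU) eU / 2 + 1 + mU EU (mU V1U t1U))
  let aD := 2 * SC - dU (2 * c2U) c1D
  let Cn := 2 * mU YU l2 + (1001 * w1U / 1000 + 1)
  let bD := 14 * c2D / 100
  let bU := 14 * c2U / 100 + 1
  let rhU := mU (mU oU oU) WU
  let r0 := min rhU (bD + M / 2)
  let r1 := rhU - r0
  let LK := min (hal (SC + KD) (hal (SC + KD) (hal (SC + KD) (hal (SC + KD) 549755813888))) - 134217728) (8 * SC)
  let PhK := mU Cn KU + mU r0 (dU SC c1D) + mU r1 KU + 153931627889 + mU M (KU - LK)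
  let cond := decide (dU (mU (gU + 5 * mU w1U KU) zU) X ≤ XA)
  let gtK := if cond then dD (mD (gD + 5 * mD w1D KD) zD) X else 0
  let hgU := dU SC eLD - s1
  let hD := dD (mD s1 c2D) hgU
  let ks := min KD ((X + SC) * SC / hD - SC)
  let Lk := min (min (hal (SC + ks) (hal (SC + ks) (hal (SC + ks) (hal (SC + ks) (ks / 2)))) - 134217728) ks) (8 * SC)
  let Phs := mU Cn ks + mU r0 (dU ks (SC + ks)) + mU r1 ks + mU bU (mU ks ks) + mU M (ks - Lk)
  let gt1 := if cond then dD (mD (gD + 5 * mD w1D ks) zD) X else 0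
  let y2s := mD (SC + ks) hD - SC
  let y2k := mD (SC + KD) hD - SC
  decide (SC ≤ TD) || decide (l2 ≤ capD) ||
    (decide (0 < c2D) && decide (0 < mD rD (mD rD rD)) && decide (An ≤ Ap) && decide (Wn < Wp) &&
      decide (Bn < XA + Bp) && decide (expU LK ≤ SC + KD) && decide (0 < cD) &&
      (decide (Bn + PhK < XA + Bp + gtK + mD aD KD) ||
        (decide (0 < eLD) && decide (SC ≤ mD (SC + ks) hD) && decide (Lk = 0 ∨ expU Lk ≤ SC + ks) &&
         decide (Bn + Phs < XA + Bp + gt1 + mD aD ks) &&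
         decide (Bn + Phs < mD y2s A + Bp + mD aD ks) &&
         decide (Bn + PhK < mD y2k A + Bp + mD aD KD))))

end Crest.Agent.R230.FN
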