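import Crest.Agent.R230.FarPosBox
import Crest.Agent.R230.FarLow

/-!
# Row 230: soundness of the box evaluator for the far block, `0 ≤ k` (helper237)
-/

set_option autoImplicit false
set_option maxHeartbeats 4000000

open MeasureTheory Set Filter Topology

namespace Crest.Agent.R230.FN

open IA WR

/-- soundness of the evaluator, `0 ≤ k` -/
theorem evp_sound {n : ℕ} {s l k : ℝ} {s1 s2 l1 l2 : ℕ} (hn : 23 ≤ n) (h : FarC n s l k) (hk : 0 ≤ k)
    (hl : l ≤ 2) (b1 : LB s1 s) (b2 : UB s s2) (b3 : LB l1 l) (b4 : UB l l2)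
    (hev : evp s1 s2 l1 l2 = true) : 0 < PStar n s l k := by
  have hs := h.hs
  have hnR : (23 : ℝ) ≤ n := by exact_mod_cast hn
  obtain ⟨hu0, hul, hsu, hT1⟩ := Uf_far h
  have hv0 : 0 < l - capF (s * Real.exp l) := by linarith [h.hcap]
  have hk1 : 0 < 1 + k := h.hk0
  have hsu1 : s * Real.exp (Uf s l) < 1 := by linarith
  obtain ⟨e, he⟩ : ∃ e : ℝ, e = Real.exp (2 * Uf s l) - 1 := ⟨_, rfl⟩
  obtain ⟨r, hr⟩ : ∃ r : ℝ, r = Real.sqrt (1 - Y s * e) := ⟨_, rfl⟩
  obtain ⟨-, hr0, hYr⟩ := cc_exp_eq hs hsu1 he hr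
  have hYe : Y s * e < 1 := by
    rw [hYr]
    have : 0 < r ^ 2 := by positivity
    linarith
  obtain ⟨v, hv⟩ : ∃ v : ℝ, v = l - capF (s * Real.exp l) := ⟨_, rfl⟩
  rw [← hv] at hv0
  obtain ⟨o, ho⟩ : ∃ o : ℝ, o = 7 / 100 / (v + 7 / 100) := ⟨_, rfl⟩
  have hcap : capF (s * Real.exp l) = 43 / 100 - 115 / 1000 * (s * Real.exp l) ^ 8 := by
    unfold capF; ring
  have hu : Uf s l = v * (1 - o) := by
    unfold Uf
    rw [← hv, Vq_of_nonneg hv0.le, ho]
    field_simp
    ring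
  have hV : 1 - o ^ 2 = Vq' (7 / 100) (l - capF (s * Real.exp l)) := by
    rw [← hv, Vq'_of_nonneg hv0.le, ho, div_pow]
  have ht : 92 / 100 * (s * Real.exp l) ^ 8 = 23 / 25 * (s * Real.exp l) ^ 8 := by ring
  have hlh : l - Uf s l = capF (s * Real.exp l) + 7 / 100 * (1 - o) := by
    have e1 : l = capF (s * Real.exp l) + v := by rw [hv]; ring
    have e2 : v * o = 7 / 100 * (1 - o) := by
      rw [ho]
      field_simp
      ring
    have e3 : l - Uf s l = capF (s * Real.exp l) + v * o := by rw [hu]; linear_combination e1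
    rw [e3, e2]
  have hN0 : (0 : ℝ) < (n : ℝ) + 1 := by linarith
  have hx : (s * Real.sqrt ((n : ℝ) + 1)) ^ 2 = ((n : ℝ) + 1) * s ^ 2 := by
    rw [mul_pow, Real.sq_sqrt hN0.le]; ring
  have hl0 : 0 ≤ l := by linarith
  have hc1 : (0 : ℝ) < 1 + cc s := by have := cc_pos' hs; linarith
  have hcT := cc_nonneg (s * Real.exp l)
  have hk2 := h.hk2
  rw [Real.exp_neg, inv_eq_one_div] at hk2
  obtain ⟨M, hM, hpos⟩ := evp_core (z := s ^ 2) (c := cc s) (Yv := Y s) (T := s * Real.exp l)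
    (cap := capF (s * Real.exp l)) (v := v) (o := o) (u := Uf s l) (e := e) (r := r)
    (lh := l - Uf s l) (P1 := Phi (s * Real.exp l)) (x := s * Real.sqrt ((n : ℝ) + 1))
    (N := (n : ℝ) + 1) (nn := n) (k := k) hev b1 b2 b3 b4 hs.1 hs.2 hl0 hl rfl rfl rfl
    rfl hT1 hcap hv hv0 ho hu he hYe hr hlh hx (by linarith) h.hx2 (by ring) h.hC1 h.hC2
    (by
      unfold Phi
      have : Real.sqrt (1 - (s * Real.exp l) ^ 2) = cc (s * Real.exp l) := rfl
      rw [this]
      field_simp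
      ring) hk h.hk1 hk2
  have hmu : muF n = 107 / 100 + 186 / 100 / ((n : ℝ) - 1) := by
    have h1 : (n : ℝ) - 1 ≠ 0 := by intro h; linarith
    unfold muF
    field_simp
    ring
  rw [← hmu] at hM
  have hmu0 : 0 ≤ muF n := by
    unfold muF; exact div_nonneg (by linarith) (by linarith)
  have hh := hm_le_log1 (n := n) (by omega) hk1
  have hlog := log_sub_nonneg hk1
  have h2 : muF n * (Real.exp (l / n) * hm n k) ≤ M * (k - Real.log (1 + k)) := by
    calc muF n * (Real.exp (l / n) * hm n k) = (muF n * Real.exp (l / n)) * hm n k := by ring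
      _ ≤ (muF n * Real.exp (l / n)) * (k - Real.log (1 + k)) :=
        mul_le_mul_of_nonneg_left hh (mul_nonneg hmu0 (Real.exp_pos _).le)
      _ ≤ M * (k - Real.log (1 + k)) := mul_le_mul_of_nonneg_right hM hlog
  have hP := PF_eq_neg (n := n) (μ := 0) (k := k) hs hk1 rfl he hr hV ht hsu1
  have hR : cR s l = cc s * (Phi (s * Real.exp l) - cc s / (1 + cc s)) +
      l * ((1 - cc s) / (1 + cc s)) := rfl
  have he0 : e0F n = 1001 / 1000 - 5 / ((n : ℝ) + 1) := by
    unfold e0F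
    field_simp
    ring
  have hkk : 1 / (1 + k) - 1 = -(k / (1 + k)) := by field_simp; ring
  unfold PStar
  rw [hP, hR, he0, hkk]
  refine lt_of_lt_of_le hpos ?_
  refine le_trans (le_of_eq ?_) (sub_le_sub_left h2 _)
  unfold aq
  ring

end Crest.Agent.R230.FN
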