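import Crest.Agent.R230.FarLow

/-!
# Row 230: far block, tail `l ≥ 9/10` (helper825): algebra

Real-variable estimates for the closed form of `FarLow` (`far_lower`).
-/

set_option autoImplicit false

open Set

namespace Crest.Agent.R230.WR

/-- `F = L r(Q) - (Q-1) + ρ/2` with `Q = 1 + d`, `ρ = 1 - 1/Q²` -/
noncomputable def FF (d L : ℝ) : ℝ := d ^ 2 * (L * (3 + d) - (3 + 2 * d) / (2 * (1 + d) ^ 2))

lemma Lg_eq {c h l u : ℝ} (hc : 0 < c) (hh : 0 < h) (hz : 0 < 1 - c ^ 2) :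
    (1 - c ^ 2) * Lg (1 - c ^ 2) c h ((1 - h ^ 2) / (1 - c ^ 2)) l u =
      ((1 - c ^ 2) / c ^ 2) ^ 2 * l ^ 2 + 7 / 25 * ((1 - c ^ 2) / c ^ 2) * l ^ 2 +
      c * FF (1 / h - 1) (l - u) + 1 / 2 * (1 - h ^ 2) * (1 / c ^ 2 - c) -
      (1 / 2 + l) * ((1 - c) ^ 2 * (1 + 2 * c) / c ^ 2) +
      ((1 - h ^ 2) - (1 - c ^ 2)) / 2000 * (1 / c ^ 2) := by
  have h1 : 1 + c ≠ 0 := by positivity
  have h3 : c ≠ 0 := hc.ne'
  have h4 : h ≠ 0 := hh.ne'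
  have h7 : c + h ≠ 0 := by positivity
  have h8 : (1 - c ^ 2) ≠ 0 := hz.ne'
  have e1 : FF (1 / h - 1) (l - u) =
      (1 / h - 1) ^ 2 * ((l - u) * (2 + 1 / h) - (1 + 2 * (1 / h)) * h ^ 2 / 2) := by
    unfold FF
    have e2 : 1 + (1 / h - 1) = 1 / h := by ring
    have e3 : 3 + (1 / h - 1) = 2 + 1 / h := by ring
    have e4 : 3 + 2 * (1 / h - 1) = 1 + 2 * (1 / h) := by ring
    rw [e2, e3, e4]
    field_simp
  rw [e1]
  unfold Lg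
  field_simp
  ring

/-- lower bound of `z Lg` -/
lemma Lg_ge {c h l u : ℝ} (hc : 9 / 10 ≤ c) (hc1 : c < 1) (hh : 0 < h) (hhc : h ≤ c) (hl : 0 ≤ l) :
    (1 - c ^ 2) * (7 / 25 * l ^ 2 * (1 + (1 - c ^ 2))) + (1 - c ^ 2) ^ 2 * (1 + 2 * (1 - c ^ 2)) * l ^ 2 +
      c * FF (1 / h - 1) (l - u) +
      (1 - h ^ 2) * (1 - c ^ 2) * (3 / 4 + 9 / 16 * (1 - c ^ 2)) -
      3 / 4 * (1 - c ^ 2) ^ 2 * (1 + 3 / 2 * (1 - c ^ 2)) * (1 / 2 + l) +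
      ((1 - h ^ 2) - (1 - c ^ 2)) / 2000 ≤
    (1 - c ^ 2) * Lg (1 - c ^ 2) c h ((1 - h ^ 2) / (1 - c ^ 2)) l u := by
  have hc0 : 0 < c := by linarith
  have hz : 0 < 1 - c ^ 2 := by nlinarith
  have hc2 : 0 < c ^ 2 := by positivity
  rw [Lg_eq hc0 hh hz]
  have hhc2 : h ^ 2 ≤ c ^ 2 := by gcongr
  -- a1
  have a0 : 1 + (1 - c ^ 2) ≤ 1 / c ^ 2 := by
    rw [le_div_iff₀ hc2]
    nlinarith [sq_nonneg (1 - c ^ 2)]
  have a1 : (1 - c ^ 2) * (1 + (1 - c ^ 2)) ≤ (1 - c ^ 2) / c ^ 2 := by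
    have := mul_le_mul_of_nonneg_left a0 hz.le
    rwa [mul_one_div] at this
  have a2 : (1 - c ^ 2) ^ 2 * (1 + 2 * (1 - c ^ 2)) ≤ ((1 - c ^ 2) / c ^ 2) ^ 2 := by
    have h1 : ((1 - c ^ 2) * (1 + (1 - c ^ 2))) ^ 2 ≤ ((1 - c ^ 2) / c ^ 2) ^ 2 := by
      gcongr
    refine le_trans ?_ h1
    have : 0 ≤ (1 - c ^ 2) ^ 4 := by positivity
    nlinarith
  have a3 : (1 - c ^ 2) * (3 / 4 + 9 / 16 * (1 - c ^ 2)) ≤ 1 / 2 * (1 / c ^ 2 - c) := by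
    have e : 1 / 2 * (1 / c ^ 2 - c) = (1 - c ^ 3) / (2 * c ^ 2) := by
      field_simp
    rw [e, le_div_iff₀ (by positivity)]
    have : 0 ≤ (1 - c) ^ 3 * (8 + 24 * c + 27 * c ^ 2 + 9 * c ^ 3) := by
      have : 0 ≤ 1 - c := by linarith
      positivity
    nlinarith
  have a4 : (1 - c) ^ 2 * (1 + 2 * c) / c ^ 2 ≤ 3 / 4 * (1 - c ^ 2) ^ 2 * (1 + 3 / 2 * (1 - c ^ 2)) := by
    rw [div_le_iff₀ hc2]
    have h1 : 4 * (1 + 2 * c) ≤ 3 * c ^ 2 * (1 + c) ^ 2 * (1 + 3 / 2 * (1 - c ^ 2)) := by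
      -- polynomial in `c`, equality at `c = 1`
      set x := 1 - c with hx
      have hcx : c = 1 - x := by rw [hx]; ring
      have hx0 : 0 ≤ x := by rw [hx]; linarith
      have hx1 : x ≤ 1 / 10 := by rw [hx]; linarith
      rw [hcx]
      have e : 3 * (1 - x) ^ 2 * (1 + (1 - x)) ^ 2 * (1 + 3 / 2 * (1 - (1 - x) ^ 2)) -
          4 * (1 + 2 * (1 - x)) =
          x * (8 - 87 * x + 153 * x ^ 2 - 219 / 2 * x ^ 3 + x ^ 4 * (36 - 9 / 2 * x)) := by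
        ring
      have p1 : 0 ≤ 8 - 87 * x + 153 * x ^ 2 - 219 / 2 * x ^ 3 := by
        have q1 : 0 ≤ x * (1 / 10 - x) := mul_nonneg hx0 (by linarith)
        have q2 : 0 ≤ x ^ 2 * (1 / 10 - x) := mul_nonneg (sq_nonneg x) (by linarith)
        have q3 : 0 ≤ (1 / 10 - x) ^ 2 := sq_nonneg _
        nlinarith
      have p2 : 0 ≤ x ^ 4 * (36 - 9 / 2 * x) := by
        apply mul_nonneg (by positivity)
        linarith
      have p3 : 0 ≤ x * (8 - 87 * x + 153 * x ^ 2 - 219 / 2 * x ^ 3 + x ^ 4 * (36 - 9 / 2 * x)) :=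
        mul_nonneg hx0 (by linarith)
      linarith
    have h2 : 0 ≤ (1 - c) ^ 2 := sq_nonneg _
    have := mul_le_mul_of_nonneg_left h1 h2
    nlinarith
  have b1 := mul_le_mul_of_nonneg_right a1 (show 0 ≤ 7 / 25 * l ^ 2 by positivity)
  have b2 := mul_le_mul_of_nonneg_right a2 (sq_nonneg l)
  have hρ : 0 ≤ 1 - h ^ 2 := by nlinarith
  have b3 := mul_le_mul_of_nonneg_left a3 hρ
  have b4 := mul_le_mul_of_nonneg_left a4 (show 0 ≤ 1 / 2 + l by linarith)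
  have b5 : ((1 - h ^ 2) - (1 - c ^ 2)) / 2000 ≤ ((1 - h ^ 2) - (1 - c ^ 2)) / 2000 * (1 / c ^ 2) := by
    have h1 : 0 ≤ ((1 - h ^ 2) - (1 - c ^ 2)) / 2000 := by
      apply div_nonneg _ (by norm_num)
      linarith
    have h2 : 1 ≤ 1 / c ^ 2 := by linarith
    nlinarith
  linarith

end Crest.Agent.R230.WR
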