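import Crest.Agent.R230.FarTailA

/-!
# Row 230: far block, tail `l ≥ 9/10` (helper825): the `N`-free parts

`z = 1 - c²`, `ρ = 1 - h²`, `E = ρ/z`, `L = l - u`, `c = cc s`, `h = cc (s e^u)`, `cT = cc (s e^l)`.
-/

set_option autoImplicit false

open Set

namespace Crest.Agent.R230.WR

/-- `h/(1+h) - cT/(1+cT) ≤ t/2`, `cT² = 1 - t` -/
lemma tail_phi {c h cT t : ℝ} (hc0 : 0 ≤ c) (hc1 : c ≤ 1) (hh : 0 ≤ h) (hh1 : h ≤ 1) (hT : 0 ≤ cT)
    (ht0 : 0 ≤ t) (hct : cT ^ 2 = 1 - t) : c * (h / (1 + h) - cT / (1 + cT)) ≤ t / 2 := by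
  have h1 : h / (1 + h) ≤ 1 / 2 := by
    rw [div_le_iff₀ (by linarith)]
    linarith
  have h2 : 1 / 2 - t / 2 ≤ cT / (1 + cT) := by
    rw [le_div_iff₀ (by linarith)]
    have : t = (1 - cT) * (1 + cT) := by nlinarith
    have hcT1 : cT ≤ 1 := by nlinarith
    rw [this]
    nlinarith [mul_nonneg (sub_nonneg.2 hcT1) hT, mul_nonneg (mul_nonneg (sub_nonneg.2 hcT1) hT) hT]
  have h3 : h / (1 + h) - cT / (1 + cT) ≤ t / 2 := by linarith
  calc c * (h / (1 + h) - cT / (1 + cT)) ≤ c * (t / 2) := mul_le_mul_of_nonneg_left h3 hc0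
    _ ≤ 1 * (t / 2) := mul_le_mul_of_nonneg_right hc1 (by linarith)
    _ = t / 2 := one_mul _

/-- `0 ≤ LWh ≤ 193/100` on the tail -/
lemma tail_LWh {z c h E l u : ℝ} (hc0 : 0 ≤ c) (hc1 : c ≤ 1) (hh : 727 / 1000 ≤ h) (hh1 : h ≤ 1)
    (hE : z * E = 1 - h ^ 2) (hL0 : 0 ≤ l - u) (hL : l - u ≤ 1 / 2) :
    0 ≤ LWh z c h E l u ∧ LWh z c h E l u ≤ 193 / 100 := by
  have hh0 : 0 < h := by linarith
  have e : LWh z c h E l u = c * (2 * (1 / h - h / (1 + h)) - 3 * (l - u) * (1 - h ^ 2) * (1 / h) ^ 3) := by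
    unfold LWh
    rw [show 3 * c * (l - u) * z * E * (1 / h) ^ 3 = 3 * c * (l - u) * (z * E) * (1 / h) ^ 3 by ring, hE]
    ring
  have h1 : 0 ≤ 3 * (l - u) * (1 - h ^ 2) * (1 / h) ^ 3 := by
    have : 0 ≤ 1 - h ^ 2 := by nlinarith
    positivity
  have h2 : 3 * (l - u) * (1 - h ^ 2) * (1 / h) ^ 3 ≤ 3 / 2 * ((1 - h ^ 2) * (1 / h) ^ 3) := by
    have : 0 ≤ 1 - h ^ 2 := by nlinarith
    have h3 : 0 ≤ (1 - h ^ 2) * (1 / h) ^ 3 := by positivity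
    nlinarith
  have h4 : 3 / 2 * ((1 - h ^ 2) * (1 / h) ^ 3) ≤ 2 * (1 / h - h / (1 + h)) := by
    have e1 : 2 * (1 / h - h / (1 + h)) - 3 / 2 * ((1 - h ^ 2) * (1 / h) ^ 3) =
        (7 / 2 * h ^ 2 + 7 / 2 * h ^ 3 - 2 * h ^ 4 - 3 / 2 - 3 / 2 * h) / (h ^ 3 * (1 + h)) := by
      field_simp
      ring
    have h5 : 0 ≤ 7 / 2 * h ^ 2 + 7 / 2 * h ^ 3 - 2 * h ^ 4 - 3 / 2 - 3 / 2 * h := by
      have a1 : 0 ≤ h - 727 / 1000 := by linarith
      have a2 : 0 ≤ 1 - h := by linarith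
      nlinarith [mul_nonneg a1 a2, mul_nonneg a1 hh0.le, mul_nonneg (mul_nonneg a1 a2) hh0.le,
        mul_nonneg (mul_nonneg a1 a2) (sq_nonneg h)]
    have h6 : 0 ≤ (7 / 2 * h ^ 2 + 7 / 2 * h ^ 3 - 2 * h ^ 4 - 3 / 2 - 3 / 2 * h) / (h ^ 3 * (1 + h)) :=
      div_nonneg h5 (by positivity)
    linarith
  have h7 : 2 * (1 / h - h / (1 + h)) ≤ 193 / 100 := by
    have a1 : 1 / h ≤ 1000 / 727 := by
      rw [div_le_div_iff₀ hh0 (by norm_num)]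
      linarith
    have a2 : 727 / 1727 ≤ h / (1 + h) := by
      rw [div_le_div_iff₀ (by norm_num) (by linarith)]
      linarith
    linarith
  rw [e]
  constructor
  · exact mul_nonneg hc0 (by linarith)
  · have h8 : 2 * (1 / h - h / (1 + h)) - 3 * (l - u) * (1 - h ^ 2) * (1 / h) ^ 3 ≤ 193 / 100 := by linarith
    have h9 : 0 ≤ 2 * (1 / h - h / (1 + h)) - 3 * (l - u) * (1 - h ^ 2) * (1 / h) ^ 3 := by linarith
    calc _ ≤ 1 * (2 * (1 / h - h / (1 + h)) - 3 * (l - u) * (1 - h ^ 2) * (1 / h) ^ 3) :=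
          mul_le_mul_of_nonneg_right hc1 h9
      _ ≤ 193 / 100 := by linarith

/-- lower bound of the constant part -/
lemma tail_LP0 {z c h cT t E l u V1 tp : ℝ} (hc0 : 0 < c) (hc1 : c ≤ 1) (hz : z = 1 - c ^ 2)
    (hh : 727 / 1000 ≤ h) (hh1 : h ≤ 1) (hT : 0 ≤ cT) (ht0 : 0 ≤ t) (hct : cT ^ 2 = 1 - t)
    (hE : z * E = 1 - h ^ 2) (hE0 : 0 ≤ E) (hL0 : 0 ≤ l - u) (hL : l - u ≤ 1 / 2)
    (hV0 : 0 ≤ V1) (hV : V1 ≤ 1) (htp : 0 ≤ tp) :
    -(4 * (z / c ^ 2) ^ 2 + 103 / 25 * (z / c ^ 2)) * l ^ 2 +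
      l * (1 + 4 * (z / c ^ 2) + (1 - c) / (1 + c)) - t / 2 -
      (l - u) * (4 * (1 / h) ^ 3 - 3 * (1 / h)) - 1001 / 2000 * (E - 1) -
      3501 / 1000 * ((1 - h ^ 2) - z) / c ^ 2 - 1001 / 1000 * (tp * E) ≤
    LP0 z c h cT E l u V1 tp := by
  have hh0 : 0 < h := by linarith
  obtain ⟨w0, w1⟩ := tail_LWh (z := z) (E := E) (l := l) (u := u) hc0.le hc1 hh hh1 hE hL0 hL
  have hphi := tail_phi hc0.le hc1 hh0.le hh1 hT ht0 hct
  have e1 : c * (1 / h) ^ 3 * (1 + 3 * z * E) = c * (4 * (1 / h) ^ 3 - 3 * (1 / h)) := by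
    rw [show 3 * z * E = 3 * (z * E) by ring, hE]
    field_simp
    ring
  have h1 : 0 ≤ 4 * (1 / h) ^ 3 - 3 * (1 / h) := by
    have : 1 ≤ 1 / h := by rw [le_div_iff₀ hh0]; linarith
    have e : 4 * (1 / h) ^ 3 - 3 * (1 / h) = (1 / h) * (4 * (1 / h) ^ 2 - 3) := by ring
    rw [e]
    apply mul_nonneg (by positivity)
    nlinarith
  have h2 : (l - u) * (c * (4 * (1 / h) ^ 3 - 3 * (1 / h))) ≤ (l - u) * (4 * (1 / h) ^ 3 - 3 * (1 / h)) := by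
    refine mul_le_mul_of_nonneg_left ?_ hL0
    calc _ ≤ 1 * (4 * (1 / h) ^ 3 - 3 * (1 / h)) := mul_le_mul_of_nonneg_right hc1 h1
      _ = _ := one_mul _
  have h3 : -(1001 / 1000 * (tp * E)) ≤ V1 * tp * (LWh z c h E l u - (1 + 1 / 1000) * E) := by
    have a1 : 0 ≤ V1 * tp * LWh z c h E l u := by positivity
    have a2 : V1 * (tp * E) ≤ 1 * (tp * E) := mul_le_mul_of_nonneg_right hV (by positivity)
    nlinarith
  have e2 : 1 / 2 * (E - 1) * ((1 + 1 / 1000) * (1 + 2 * (z / c ^ 2)) + 5 * (z / c ^ 2)) =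
      1001 / 2000 * (E - 1) + 3501 / 1000 * ((1 - h ^ 2) - z) / c ^ 2 := by
    rw [← hE]
    field_simp
    ring
  unfold LP0
  rw [e1, e2]
  have e3 : u * (1 + 4 * (z / c ^ 2) + (1 - c) / (1 + c)) + (l - u) *
      (1 + 4 * (z / c ^ 2) + (1 - c) / (1 + c) - c * (4 * (1 / h) ^ 3 - 3 * (1 / h))) =
      l * (1 + 4 * (z / c ^ 2) + (1 - c) / (1 + c)) -
        (l - u) * (c * (4 * (1 / h) ^ 3 - 3 * (1 / h))) := by ring
  linarith

lemma tail_k5 {z c h E tp : ℝ} (hc : 571 / 625 ≤ c) (hc1 : c < 1) (hz : z = 1 - c ^ 2)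
    (hh1 : h ≤ 1) (hh0 : 0 ≤ h) (hE : z * E = 1 - h ^ 2) (htp1 : tp ≤ 23 / 25) (htp : 0 ≤ tp) :
    1001 / 1000 * ((1 + tp) * E) / c ≤
      1001 / 1000 * ((1 + tp) * E) + 10994 / 10000 * (1 - h ^ 2) := by
  have hc0 : 0 < c := by linarith
  have hE1 : E * (1 - c) ≤ (1 - h ^ 2) / (1 + c) := by
    rw [le_div_iff₀ (by linarith), ← hE, hz]
    exact le_of_eq (by ring)
  have a0 : 0 ≤ 1 - h ^ 2 := by nlinarith
  have a1 : (1 - h ^ 2) / (1 + c) ≤ (1 - h ^ 2) * (625 / 1196) := by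
    rw [div_le_iff₀ (by linarith)]
    have : (1 - h ^ 2) * 1 ≤ (1 - h ^ 2) * (625 / 1196 * (1 + c)) :=
      mul_le_mul_of_nonneg_left (by linarith) a0
    linarith
  rw [div_le_iff₀ hc0]
  have a2 : E ≤ E * c + (1 - h ^ 2) * (625 / 1196) := by linarith
  have a3 : (1 + tp) * E ≤ (1 + tp) * (E * c + (1 - h ^ 2) * (625 / 1196)) :=
    mul_le_mul_of_nonneg_left a2 (by linarith)
  have a4 : (1 + tp) * ((1 - h ^ 2) * (625 / 1196)) ≤ 48 / 25 * ((1 - h ^ 2) * (625 / 1196)) :=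
    mul_le_mul_of_nonneg_right (by linarith) (by positivity)
  have a5 : 1001 / 1000 * (48 / 25 * ((1 - h ^ 2) * (625 / 1196))) ≤ 10994 / 10000 * (1 - h ^ 2) * c := by
    have : (1 - h ^ 2) * (571 / 625) ≤ (1 - h ^ 2) * c := mul_le_mul_of_nonneg_left hc a0
    linarith
  linarith

/-- `k`-part, `0 ≤ k ≤ 1/c` -/
lemma tail_k {z c h E l u V1 tp k Mu : ℝ} (hc : 571 / 625 ≤ c) (hc1 : c < 1) (hz : z = 1 - c ^ 2)
    (hh : 727 / 1000 ≤ h) (hh1 : h ≤ 1)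
    (hE : z * E = 1 - h ^ 2) (hE0 : 2 ≤ E) (hL0 : 0 ≤ l - u) (hL : l - u ≤ 1 / 2) (hl : 0 ≤ l)
    (hV0 : 1 - 169 / 10000 ≤ V1) (hV : V1 ≤ 1) (htp : 0 ≤ tp) (htp1 : tp ≤ 23 / 25)
    (hk0 : 0 ≤ k) (hk1 : k * c ≤ 1) (hMu0 : 0 ≤ Mu) (hMu : Mu ≤ 10987 / 10000) :
    -(1001 / 1000 * ((1 + tp) * E)) - 10994 / 10000 * (1 - h ^ 2) - 2 * (z / c ^ 2) * l / c +
      (2 - 2 * c ^ 2 / (1 + c)) / c - 5829 / 10000 ≤
    LBp z c E l V1 tp * k - (1 - V1) * LWh z c h E l u * (1 - 1 / (1 + k)) - 7 / 50 * c ^ 2 * k ^ 2 -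
      Mu * (k - Real.log (1 + k)) := by
  have hc0 : 0 < c := by linarith
  have hz0 : 0 ≤ z := by rw [hz]; nlinarith
  obtain ⟨w0, w1⟩ := tail_LWh (z := z) (E := E) (l := l) (u := u) hc0.le hc1.le hh hh1 hE hL0 hL
  have hkc : k ≤ 1 / c := by rw [le_div_iff₀ hc0]; exact hk1
  have hk2 : k ≤ 625 / 571 := by
    refine hkc.trans ?_
    rw [div_le_div_iff₀ hc0 (by norm_num)]
    linarith
  -- the term `(1-V1) LWh (1-1/(1+k))`
  have t1 : (1 - V1) * LWh z c h E l u * (1 - 1 / (1 + k)) ≤ 173 / 10000 := by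
    have a1 : 1 - 1 / (1 + k) ≤ 625 / 1196 := by
      have : 571 / 1196 ≤ 1 / (1 + k) := by
        rw [div_le_div_iff₀ (by norm_num) (by linarith)]
        linarith
      linarith
    have a2 : 0 ≤ 1 - 1 / (1 + k) := by
      have : 1 / (1 + k) ≤ 1 := by rw [div_le_one (by linarith)]; linarith
      linarith
    have a3 : (1 - V1) * LWh z c h E l u ≤ 169 / 10000 * (193 / 100) :=
      mul_le_mul (by linarith) w1 w0 (by norm_num)
    calc _ ≤ 169 / 10000 * (193 / 100) * (625 / 1196) := mul_le_mul a3 a1 a2 (by norm_num)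
      _ ≤ 173 / 10000 := by norm_num
  have t2 : 7 / 50 * c ^ 2 * k ^ 2 ≤ 7 / 50 := by
    have : (k * c) ^ 2 ≤ 1 := by
      have h0 : 0 ≤ k * c := by positivity
      nlinarith
    nlinarith
  have t3 : Mu * (k - Real.log (1 + k)) ≤ 4256 / 10000 := by
    have a1 := Real.le_log_one_add_of_nonneg hk0
    have a2 : k - 2 * k / (k + 2) = k ^ 2 / (k + 2) := by
      field_simp
      ring
    have a3 : k ^ 2 / (k + 2) ≤ 38716 / 100000 := by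
      rw [div_le_iff₀ (by linarith)]
      nlinarith
    have a4 : 0 ≤ k - Real.log (1 + k) := by
      have := Real.log_le_sub_one_of_pos (show 0 < 1 + k by linarith)
      linarith
    calc Mu * (k - Real.log (1 + k)) ≤ 10987 / 10000 * (38716 / 100000) :=
          mul_le_mul hMu (by linarith) a4 (by norm_num)
      _ ≤ 4256 / 10000 := by norm_num
  -- the linear term
  set A := 2 - 2 * c ^ 2 / (1 + c) with hA
  have hA2 : A ≤ 2 := by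
    have : 0 ≤ 2 * c ^ 2 / (1 + c) := by positivity
    rw [hA]; linarith
  have hYl : 0 ≤ 2 * (z / c ^ 2) * l := by positivity
  have hW0 : 0 ≤ 1001 / 1000 * ((1 + tp) * E) + 2 * (z / c ^ 2) * l - A := by
    have : E ≤ (1 + tp) * E := by nlinarith
    linarith
  have hW : -(1001 / 1000 * ((1 + tp) * E) + 2 * (z / c ^ 2) * l - A) ≤ LBp z c E l V1 tp := by
    unfold LBp
    rw [← hA]
    have a1 : V1 * ((1 + tp) * E) ≤ 1 * ((1 + tp) * E) := mul_le_mul_of_nonneg_right hV (by positivity)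
    linarith
  have t4 : -((1001 / 1000 * ((1 + tp) * E) + 2 * (z / c ^ 2) * l - A) / c) ≤ LBp z c E l V1 tp * k := by
    have a1 := mul_le_mul_of_nonneg_right hW hk0
    have a2 := mul_le_mul_of_nonneg_left hkc hW0
    rw [mul_one_div] at a2
    linarith
  have t5 := tail_k5 hc hc1 hz hh1 (by linarith) hE htp1 htp
  have e1 : (1001 / 1000 * ((1 + tp) * E) + 2 * (z / c ^ 2) * l - A) / c =
      1001 / 1000 * ((1 + tp) * E) / c + 2 * (z / c ^ 2) * l / c - A / c := by ring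
  rw [e1] at t4
  linarith

end Crest.Agent.R230.WR
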