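import Crest.Agent.R230.FarTailB

/-!
# Row 230: far block, tail `l ≥ 9/10` (helper825): elementary inequalities
-/

set_option autoImplicit false

open Set

namespace Crest.Agent.R230.WR

/-- lower bound of `FF` -/
lemma FF_ge {d L η : ℝ} (hd : 0 ≤ d) (hd1 : d ≤ 39 / 100) (hL : 1 / 2 - η ≤ L) :
    d ^ 2 * (5 / 2 * d - 5 / 2 * d ^ 2 + 2 * d ^ 3 - η * (3 + d)) ≤ FF d L := by
  unfold FF
  refine mul_le_mul_of_nonneg_left ?_ (sq_nonneg d)
  have h1 : (3 + 2 * d) / (2 * (1 + d) ^ 2) ≤ 1 / 2 * (3 + d) - (5 / 2 * d - 5 / 2 * d ^ 2 + 2 * d ^ 3) := by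
    rw [div_le_iff₀ (by positivity)]
    have e : (1 / 2 * (3 + d) - (5 / 2 * d - 5 / 2 * d ^ 2 + 2 * d ^ 3)) * (2 * (1 + d) ^ 2) - (3 + 2 * d) =
        d ^ 3 * (2 - 3 * d - 4 * d ^ 2) := by ring
    have h2 : 0 ≤ 2 - 3 * d - 4 * d ^ 2 := by nlinarith
    have h3 : 0 ≤ d ^ 3 * (2 - 3 * d - 4 * d ^ 2) := mul_nonneg (by positivity) h2
    linarith
  have h2 : (1 / 2 - η) * (3 + d) ≤ L * (3 + d) := mul_le_mul_of_nonneg_right hL (by linarith)
  linarith

lemma tail_s1 {l : ℝ} (hl : 9 / 10 ≤ l) : -(1 / 25) ≤ 32 / 9 * l ^ 2 - 25 / 12 * l - 25 / 24 := by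
  nlinarith [mul_nonneg (sub_nonneg.2 hl) (sub_nonneg.2 hl)]

lemma tail_s2 {l : ℝ} (hl : 9 / 10 ≤ l) : 0 ≤ 32 / 9 * l ^ 2 - 25 / 12 * l - 25 / 24 +
    10000 / 60496 * (-588555 / 100000 * l ^ 2 + 24194 / 10000 * l + 4751 / 1000) := by
  nlinarith [mul_nonneg (sub_nonneg.2 hl) (sub_nonneg.2 hl)]

lemma tail_s3 {l : ℝ} (hl : 9 / 10 ≤ l) : 0 ≤ 50 / 9 * l ^ 2 - 25 / 8 * (1 / 2 + l) := by
  nlinarith [mul_nonneg (sub_nonneg.2 hl) (sub_nonneg.2 hl)]

/-- the terms carrying a factor `z` or `t = T²` -/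
lemma tail_z {c z l G t : ℝ} (hc : 571 / 625 ≤ c) (hc1 : c < 1) (hz : z = 1 - c ^ 2)
    (hl : 9 / 10 ≤ l) (hG : 60496 / 10000 ≤ G) (hzG : z * G = t) :
    -(t / 25) ≤ 7 / 9 * t * l ^ 2 + 25 / 9 * t * (1 + 2 * z) * l ^ 2 -
      25 / 12 * t * (1 + 3 / 2 * z) * (1 / 2 + l) -
      (4 * (z / c ^ 2) ^ 2 + 103 / 25 * (z / c ^ 2)) * l ^ 2 +
      l * (4 * (z / c ^ 2) + (1 - c) / (1 + c)) + 3501 / 1000 * (z / c ^ 2) -
      2 * (z / c ^ 2) * l / c + ((2 - 2 * c ^ 2 / (1 + c)) / c - 1) := by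
  have hc0 : 0 < c := by linarith
  have hc2 : 0 < c ^ 2 := by positivity
  have hz0 : 0 < z := by rw [hz]; nlinarith
  have hz1 : z ≤ 165336 / 1000000 := by rw [hz]; nlinarith
  have hG0 : 0 < G := by linarith
  have ht0 : 0 < t := by rw [← hzG]; positivity
  have hcl : (834664 / 1000000 : ℝ) ≤ c ^ 2 := by nlinarith
  set Y := z / c ^ 2 with hY
  have hY0 : 0 < Y := by positivity
  have hYz : z ≤ Y := by
    rw [hY, le_div_iff₀ hc2]; nlinarith
  have hY1 : Y ≤ 11981 / 10000 * z := by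
    rw [hY, div_le_iff₀ hc2]
    nlinarith
  have hY2 : Y ≤ 19809 / 100000 := by linarith
  -- b1
  have b1 : -(11981 / 10000 * z * l * (49124 / 10000 * l - 4)) ≤
      -(4 * Y ^ 2 + 103 / 25 * Y) * l ^ 2 + l * (4 * Y) := by
    have B0 : 0 ≤ 49124 / 10000 * l - 4 := by linarith
    have h1 : (4 * Y + 103 / 25) * l - 4 ≤ 49124 / 10000 * l - 4 := by
      have : (4 * Y + 103 / 25) * l ≤ 49124 / 10000 * l :=
        mul_le_mul_of_nonneg_right (by linarith) (by linarith)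
      linarith
    have h2 : Y * l * ((4 * Y + 103 / 25) * l - 4) ≤ Y * l * (49124 / 10000 * l - 4) :=
      mul_le_mul_of_nonneg_left h1 (by positivity)
    have h3 : Y * l * (49124 / 10000 * l - 4) ≤ 11981 / 10000 * z * l * (49124 / 10000 * l - 4) := by
      refine mul_le_mul_of_nonneg_right ?_ B0
      exact mul_le_mul_of_nonneg_right hY1 (by linarith)
    have e : -(4 * Y ^ 2 + 103 / 25 * Y) * l ^ 2 + l * (4 * Y) = -(Y * l * ((4 * Y + 103 / 25) * l - 4)) := by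
      ring
    rw [e]
    linarith
  have b2 : l * (z / 4) ≤ l * ((1 - c) / (1 + c)) := by
    refine mul_le_mul_of_nonneg_left ?_ (by linarith)
    rw [div_le_div_iff₀ (by norm_num) (by linarith), hz]
    nlinarith [mul_nonneg (sub_nonneg.2 hc1.le) (sub_nonneg.2 hc1.le),
      mul_nonneg (mul_nonneg (sub_nonneg.2 hc1.le) (sub_nonneg.2 hc1.le)) hc0.le]
  have b3 : 3501 / 1000 * z ≤ 3501 / 1000 * Y := by linarith
  have b4 : 2 * Y * l / c ≤ 2623 / 1000 * z * l := by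
    rw [div_le_iff₀ hc0]
    have h1 : 2 * Y * l ≤ 2 * (11981 / 10000 * z) * l := by
      refine mul_le_mul_of_nonneg_right ?_ (by linarith)
      linarith
    have h2 : 2623 / 1000 * z * l * (571 / 625) ≤ 2623 / 1000 * z * l * c :=
      mul_le_mul_of_nonneg_left hc (by positivity)
    have h3 : 0 ≤ z * l := by positivity
    linarith
  have b5 : 5 / 4 * z ≤ (2 - 2 * c ^ 2 / (1 + c)) / c - 1 := by
    have h1 : 1 + 3 / 4 * z ≤ 2 - 2 * c ^ 2 / (1 + c) := by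
      have : 2 * c ^ 2 / (1 + c) ≤ 1 - 3 / 4 * z := by
        rw [div_le_iff₀ (by linarith), hz]
        nlinarith [mul_nonneg (mul_nonneg (sub_nonneg.2 hc1.le) (sub_nonneg.2 hc1.le)) hc0.le,
          mul_nonneg (sub_nonneg.2 hc1.le) (sub_nonneg.2 hc1.le)]
      linarith
    have h2 : (1 + 5 / 4 * z) * c ≤ 1 + 3 / 4 * z := by
      rw [hz]
      nlinarith [mul_nonneg (mul_nonneg (sub_nonneg.2 hc1.le) (sub_nonneg.2 hc1.le)) hc0.le,
        mul_nonneg (sub_nonneg.2 hc1.le) (sub_nonneg.2 hc1.le)]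
    have h3 : 1 + 5 / 4 * z ≤ (2 - 2 * c ^ 2 / (1 + c)) / c := by
      rw [le_div_iff₀ hc0]
      linarith
    linarith
  -- first group
  set S1 := 32 / 9 * l ^ 2 - 25 / 12 * l - 25 / 24 with hS1
  set S2 := -588555 / 100000 * l ^ 2 + 24194 / 10000 * l + 4751 / 1000 with hS2
  have f1 : t * S1 ≤ 7 / 9 * t * l ^ 2 + 25 / 9 * t * (1 + 2 * z) * l ^ 2 -
      25 / 12 * t * (1 + 3 / 2 * z) * (1 / 2 + l) := by
    have h1 : 0 ≤ t * z * (50 / 9 * l ^ 2 - 25 / 8 * (1 / 2 + l)) := by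
      have := tail_s3 hl
      positivity
    have e : 7 / 9 * t * l ^ 2 + 25 / 9 * t * (1 + 2 * z) * l ^ 2 -
      25 / 12 * t * (1 + 3 / 2 * z) * (1 / 2 + l) =
      t * S1 + t * z * (50 / 9 * l ^ 2 - 25 / 8 * (1 / 2 + l)) := by rw [hS1]; ring
    linarith
  have f2 : z * S2 ≤ -(11981 / 10000 * z * l * (49124 / 10000 * l - 4)) + l * (z / 4) + 3501 / 1000 * z -
      2623 / 1000 * z * l + 5 / 4 * z := by
    have e : -(11981 / 10000 * z * l * (49124 / 10000 * l - 4)) + l * (z / 4) + 3501 / 1000 * z -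
      2623 / 1000 * z * l + 5 / 4 * z - z * S2 =
      z * (((588555 / 100000 - 11981 / 10000 * (49124 / 10000)) * l + (11981 / 10000 * 4 + 1 / 4 - 2623 / 1000 - 24194 / 10000)) * l) := by
      rw [hS2]; ring
    have h1 : 0 ≤ z * (((588555 / 100000 - 11981 / 10000 * (49124 / 10000)) * l + (11981 / 10000 * 4 + 1 / 4 - 2623 / 1000 - 24194 / 10000)) * l) := by
      apply mul_nonneg hz0.le
      apply mul_nonneg _ (by linarith)
      norm_num
      linarith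
    linarith
  have key : -(t / 25) ≤ t * S1 + z * S2 := by
    have s1 : -(1 / 25) ≤ S1 := tail_s1 hl
    rcases le_or_gt 0 S2 with h | h
    · have h1 : 0 ≤ z * S2 := by positivity
      have h2 := mul_le_mul_of_nonneg_left s1 ht0.le
      linarith
    · -- `z ≤ t / 6.0496`
      have h1 : z * (60496 / 10000) ≤ t := by
        rw [← hzG]
        exact mul_le_mul_of_nonneg_left hG hz0.le
      have h2 : t * (10000 / 60496) * S2 ≤ z * S2 := by
        refine mul_le_mul_of_nonpos_right ?_ h.le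
        linarith
      have h3 : 0 ≤ S1 + 10000 / 60496 * S2 := tail_s2 hl
      have h4 : 0 ≤ t * (S1 + 10000 / 60496 * S2) := mul_nonneg ht0.le h3
      linarith
  have e1 : l * (4 * Y + (1 - c) / (1 + c)) = l * (4 * Y) + l * ((1 - c) / (1 + c)) := by ring
  rw [e1]
  linarith

end Crest.Agent.R230.WR
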