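import Crest.Agent.R230.FarTailC

/-!
# Row 230: far block, tail `l ≥ 9/10` (helper825): the final inequality in `t = T²`

`y = T⁸`, `η = 1/2 - L = 23/200 y + δ`, `ε = e^{-2L}`, `E = ε G`, `ρ = ε t`, `h² = 1 - ρ`.
-/

set_option autoImplicit false

open Set

namespace Crest.Agent.R230.WR

lemma exp_up4 {x : ℝ} (h0 : 0 ≤ x) (h1 : x ≤ 1) :
    Real.exp x ≤ 1 + x + x ^ 2 / 2 + x ^ 3 / 6 + x ^ 4 * 5 / 96 := by
  have h := Real.exp_bound' h0 h1 (n := 4) (by norm_num)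
  simp only [Finset.sum_range_succ, Finset.sum_range_zero, Nat.factorial] at h
  norm_num at h
  linarith

lemma exp_lo4 {x : ℝ} (h0 : 0 ≤ x) : 1 + x + x ^ 2 / 2 + x ^ 3 / 6 ≤ Real.exp x := by
  have h := Real.sum_le_exp_of_nonneg h0 4
  simp only [Finset.sum_range_succ, Finset.sum_range_zero, Nat.factorial] at h
  norm_num at h
  linarith

lemma exp_m1_up : Real.exp (-1) ≤ 36788 / 100000 := by
  rw [Real.exp_neg, inv_le_comm₀ (Real.exp_pos _) (by norm_num)]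
  have := Real.exp_one_gt_d9
  norm_num
  linarith

lemma exp_m1_lo : 367879 / 1000000 ≤ Real.exp (-1) := by
  rw [Real.exp_neg, le_inv_comm₀ (by norm_num) (Real.exp_pos _)]
  have := Real.exp_one_lt_d9
  norm_num
  linarith

/-- upper bound of `e^{-1+x}` -/
lemma exp_m1_add_up {x : ℝ} (h0 : 0 ≤ x) (h1 : x ≤ 1) :
    Real.exp (-1 + x) ≤ 36788 / 100000 * (1 + x + x ^ 2 / 2 + x ^ 3 / 6 + x ^ 4 * 5 / 96) := by
  rw [Real.exp_add]
  exact mul_le_mul exp_m1_up (exp_up4 h0 h1) (Real.exp_pos _).le (by norm_num)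

lemma exp_m1_add_lo {x : ℝ} (h0 : 0 ≤ x) :
    367879 / 1000000 * (1 + x + x ^ 2 / 2 + x ^ 3 / 6) ≤ Real.exp (-1 + x) := by
  rw [Real.exp_add]
  exact mul_le_mul exp_m1_lo (exp_lo4 h0) (by positivity) (Real.exp_pos _).le

/-- the reduced far density -/
noncomputable def RR (G l L ε t c h : ℝ) : ℝ :=
  G * (7 / 9 * l ^ 2 + ε * (25 / 12 * t - 3003 / 2000 - 184184 / 100000 * t ^ 4)) +
    25 / 16 * t ^ 2 * ε - 5294 / 1000 * t * ε - 27 / 50 * t + l + 9176 / 10000 -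
    L * (4 * (1 / h) ^ 3 - 3 * (1 / h)) +
    25 / 9 * (G ^ 2 / t) * (c * FF (1 / h - 1) L + (ε * t - t / G) / 2000)

/-- `FF` is monotone in `d` -/
lemma FF_ge_of {d d0 L ηb f : ℝ} (hd0 : 0 ≤ d0) (hdd : d0 ≤ d) (hd1 : d ≤ 39 / 100) (hη1 : ηb ≤ 1)
    (hL : 1 / 2 - ηb ≤ L)
    (hf : f ≤ d0 ^ 2 * (5 / 2 * d0 - 5 / 2 * d0 ^ 2 + 2 * d0 ^ 3 - ηb * (3 + d0)))
    (hm : 0 ≤ 5 / 2 * d0 - 5 / 2 * d0 ^ 2 + 2 * d0 ^ 3 - ηb * (3 + d0)) : f ≤ FF d L := by
  have hd : 0 ≤ d := hd0.trans hdd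
  refine le_trans ?_ (FF_ge hd hd1 hL)
  have h1 : 5 / 2 * d0 - 5 / 2 * d0 ^ 2 + 2 * d0 ^ 3 - ηb * (3 + d0) ≤
      5 / 2 * d - 5 / 2 * d ^ 2 + 2 * d ^ 3 - ηb * (3 + d) := by
    have e : 5 / 2 * d - 5 / 2 * d ^ 2 + 2 * d ^ 3 - ηb * (3 + d) -
        (5 / 2 * d0 - 5 / 2 * d0 ^ 2 + 2 * d0 ^ 3 - ηb * (3 + d0)) =
        (d - d0) * (5 / 2 - 5 / 2 * (d + d0) + 2 * (d ^ 2 + d * d0 + d0 ^ 2) - ηb) := by ring
    have h2 : 0 ≤ 5 / 2 - 5 / 2 * (d + d0) + 2 * (d ^ 2 + d * d0 + d0 ^ 2) - ηb := by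
      nlinarith [sq_nonneg (d - d0), sq_nonneg (d + d0 - 5 / 6)]
    have := mul_nonneg (sub_nonneg.2 hdd) h2
    linarith
  calc f ≤ _ := hf
    _ ≤ d ^ 2 * (5 / 2 * d0 - 5 / 2 * d0 ^ 2 + 2 * d0 ^ 3 - ηb * (3 + d0)) := by
        refine mul_le_mul_of_nonneg_right ?_ hm
        gcongr
    _ ≤ _ := mul_le_mul_of_nonneg_left h1 (sq_nonneg d)

set_option maxHeartbeats 2000000 in
lemma reg2_piece {A B ηb el eh d0 Qh f : ℝ}
    (n0 : 81 / 100 ≤ A) (n1 : B ≤ 1)
    (n2 : 49 / 10000 / (54 / 100 + 23 / 200 * A ^ 4) + 23 / 200 * B ^ 4 ≤ ηb)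
    (n2' : ηb ≤ 1 / 2)
    (n3 : el ≤ 367879 / 1000000 * (1 + (23 / 100 * A ^ 4) + (23 / 100 * A ^ 4) ^ 2 / 2 + (23 / 100 * A ^ 4) ^ 3 / 6))
    (n4 : 36788 / 100000 * (1 + (2 * ηb) + (2 * ηb) ^ 2 / 2 + (2 * ηb) ^ 3 / 6 + (2 * ηb) ^ 4 * 5 / 96) ≤ eh)
    (n5 : (1 + d0) ^ 2 * (1 - A * el) ≤ 1) (n5' : 0 ≤ d0)
    (n6 : 1 ≤ Qh ^ 2 * (1 - B * eh)) (n6' : 1 ≤ Qh)
    (n6'' : Qh ≤ 139 / 100) (n11 : 25 / 12 * A - 3003 / 2000 - 184184 / 100000 * B ^ 4 ≤ 0)
    (hm : 0 ≤ 5 / 2 * d0 - 5 / 2 * d0 ^ 2 + 2 * d0 ^ 3 - ηb * (3 + d0))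
    (n7 : 0 ≤ f)
    (n8 : f ≤ d0 ^ 2 * (5 / 2 * d0 - 5 / 2 * d0 ^ 2 + 2 * d0 ^ 3 - ηb * (3 + d0)))
    (n9 : 0 ≤ 63 / 100 + eh * (25 / 12 * A - 3003 / 2000 - 184184 / 100000 * B ^ 4) +
      25 / 9 * (60496 / 10000 / B) * (571 / 625 * f))
    (n10 : 0 < 60496 / 10000 * (63 / 100 + eh * (25 / 12 * A - 3003 / 2000 - 184184 / 100000 * B ^ 4) +
      25 / 9 * (60496 / 10000 / B) * (571 / 625 * f)) + eh * (B * (25 / 16 * B - 5294 / 1000)) -
      27 / 50 * B + 9 / 10 + 9176 / 10000 - (1 / 2 - 23 / 200 * A ^ 4) * (4 * Qh ^ 3 - 3 * Qh))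
    {G l L ε t c h δ : ℝ} (hA : A ≤ t) (hB : t ≤ B) (hδ0 : 0 ≤ δ)
    (hδ : δ ≤ 49 / 10000 / (54 / 100 + 23 / 200 * t ^ 4))
    (hη : L = 1 / 2 - (23 / 200 * t ^ 4 + δ)) (hε : ε = Real.exp (-(2 * L))) (hh : h ^ 2 = 1 - ε * t)
    (hh0 : 0 < h) (hL : 0 ≤ L) (hc : 571 / 625 ≤ c) (hG : 60496 / 10000 ≤ G) (hl : 9 / 10 ≤ l) :
    0 < RR G l L ε t c h := by
  have hA0 : 0 < A := by linarith
  have ht0 : 0 < t := by linarith
  have hB0 : 0 < B := by linarith
  have ht1 : t ≤ 1 := by linarith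
  have hG0 : 0 < G := by linarith
  have yA : A ^ 4 ≤ t ^ 4 := by gcongr
  have yB : t ^ 4 ≤ B ^ 4 := by gcongr
  have hA4 : 0 ≤ A ^ 4 := by positivity
  -- δ and η
  have hδA : δ ≤ 49 / 10000 / (54 / 100 + 23 / 200 * A ^ 4) := by
    refine hδ.trans ?_
    gcongr
  have hηb : 23 / 200 * t ^ 4 + δ ≤ ηb := by linarith
  have hLb : 1 / 2 - ηb ≤ L := by linarith
  -- ε
  have hεe : ε = Real.exp (-1 + 2 * (23 / 200 * t ^ 4 + δ)) := by
    rw [hε, hη]; congr 1; ring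
  have hε0 : 0 < ε := by rw [hε]; exact Real.exp_pos _
  have hεl : el ≤ ε := by
    refine n3.trans ?_
    refine (exp_m1_add_lo (by positivity)).trans ?_
    rw [hεe]
    apply Real.exp_le_exp.2
    linarith
  have hεh : ε ≤ eh := by
    refine le_trans ?_ n4
    refine le_trans ?_ (exp_m1_add_up (by linarith [show 0 ≤ 23 / 200 * t ^ 4 by positivity]) (by linarith))
    rw [hεe]
    apply Real.exp_le_exp.2
    linarith
  have heh0 : 0 < eh := lt_of_lt_of_le hε0 hεh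
  -- `Q = 1/h`
  have hρl : A * el ≤ ε * t := by
    rcases le_or_gt 0 el with h | h
    · calc A * el ≤ t * ε := mul_le_mul hA hεl h ht0.le
        _ = ε * t := by ring
    · have h1 : A * el ≤ 0 := mul_nonpos_of_nonneg_of_nonpos hA0.le h.le
      have : 0 ≤ ε * t := by positivity
      linarith
  have hρh : ε * t ≤ B * eh := by
    calc ε * t ≤ eh * B := mul_le_mul hεh hB ht0.le heh0.le
      _ = B * eh := by ring
  set Q := 1 / h with hQ
  have hQ0 : 0 < Q := by positivity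
  have hQh : Q * h = 1 := by rw [hQ]; field_simp
  have hQ2 : Q ^ 2 * h ^ 2 = 1 := by rw [← mul_pow, hQh]; norm_num
  have hQup : Q ≤ Qh := by
    by_contra hlt
    push Not at hlt
    have h1 : Qh ^ 2 < Q ^ 2 := by gcongr
    have h2 : 1 - B * eh ≤ h ^ 2 := by rw [hh]; linarith
    have h3 : 0 < h ^ 2 := by positivity
    have h4 : Qh ^ 2 * (1 - B * eh) ≤ Qh ^ 2 * h ^ 2 := mul_le_mul_of_nonneg_left h2 (sq_nonneg _)
    have h5 : Qh ^ 2 * h ^ 2 < Q ^ 2 * h ^ 2 := mul_lt_mul_of_pos_right h1 h3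
    linarith
  have hQlo : 1 + d0 ≤ Q := by
    by_contra hlt
    push Not at hlt
    have h1 : Q ^ 2 < (1 + d0) ^ 2 := by gcongr
    have h2 : h ^ 2 ≤ 1 - A * el := by rw [hh]; linarith
    have h3 : 0 < h ^ 2 := by positivity
    have h4 : (1 + d0) ^ 2 * h ^ 2 ≤ (1 + d0) ^ 2 * (1 - A * el) := mul_le_mul_of_nonneg_left h2 (sq_nonneg _)
    have h5 : Q ^ 2 * h ^ 2 < (1 + d0) ^ 2 * h ^ 2 := mul_lt_mul_of_pos_right h1 h3
    linarith
  have hQ139 : Q - 1 ≤ 39 / 100 := by linarith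
  have hF : f ≤ FF (Q - 1) L := FF_ge_of n5' (by linarith) hQ139 (by linarith) hLb n8 hm
  -- last term
  have hz : 0 ≤ (ε * t - t / G) / 2000 := by
    apply div_nonneg _ (by norm_num)
    have h1 : 1 / G ≤ ε := by
      have h0 : (3678 : ℝ) / 10000 ≤ ε := by
        have h2 := exp_m1_add_lo (x := 2 * (23 / 200 * t ^ 4 + δ)) (by positivity)
        rw [← hεe] at h2
        have h3 : 0 ≤ 2 * (23 / 200 * t ^ 4 + δ) := by positivity
        refine le_trans ?_ h2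
        have h4 : 0 ≤ (2 * (23 / 200 * t ^ 4 + δ)) ^ 2 := sq_nonneg _
        have h5 : 0 ≤ (2 * (23 / 200 * t ^ 4 + δ)) ^ 3 := by positivity
        linarith
      refine le_trans ?_ h0
      rw [div_le_div_iff₀ hG0 (by norm_num)]
      linarith
    have h2 := mul_le_mul_of_nonneg_right h1 ht0.le
    have e : 1 / G * t = t / G := by ring
    rw [e] at h2
    linarith
  have hlast : G * (25 / 9 * (60496 / 10000 / B) * (571 / 625 * f)) ≤
      25 / 9 * (G ^ 2 / t) * (c * FF (Q - 1) L + (ε * t - t / G) / 2000) := by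
    have h1 : 571 / 625 * f ≤ c * FF (Q - 1) L + (ε * t - t / G) / 2000 := by
      have : 571 / 625 * f ≤ c * FF (Q - 1) L := mul_le_mul hc hF n7 (by linarith)
      linarith
    have h2 : G * (60496 / 10000 / B) ≤ G ^ 2 / t := by
      have : 60496 / 10000 / B ≤ G / t := by
        rw [div_le_div_iff₀ hB0 ht0]
        exact mul_le_mul hG hB ht0.le hG0.le
      calc G * (60496 / 10000 / B) ≤ G * (G / t) := mul_le_mul_of_nonneg_left this hG0.le
        _ = G ^ 2 / t := by ring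
    calc G * (25 / 9 * (60496 / 10000 / B) * (571 / 625 * f)) =
          (25 / 9 * (G * (60496 / 10000 / B))) * (571 / 625 * f) := by ring
      _ ≤ (25 / 9 * (G ^ 2 / t)) * (c * FF (Q - 1) L + (ε * t - t / G) / 2000) := by
          refine mul_le_mul (by linarith) h1 (by positivity) (by positivity)
      _ = _ := by ring
  -- main term
  set m := 25 / 12 * A - 3003 / 2000 - 184184 / 100000 * B ^ 4 with hmdef
  have hmain : 63 / 100 + eh * m ≤
      7 / 9 * l ^ 2 + ε * (25 / 12 * t - 3003 / 2000 - 184184 / 100000 * t ^ 4) := by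
    have h1 : m ≤ 25 / 12 * t - 3003 / 2000 - 184184 / 100000 * t ^ 4 := by
      rw [hmdef]; linarith
    have h2 : ε * m ≤ ε * (25 / 12 * t - 3003 / 2000 - 184184 / 100000 * t ^ 4) :=
      mul_le_mul_of_nonneg_left h1 hε0.le
    have h3 : eh * m ≤ ε * m := mul_le_mul_of_nonpos_right hεh n11
    have h4 : (9 / 10 : ℝ) ^ 2 ≤ l ^ 2 := by gcongr
    linarith
  have hmain2 : 60496 / 10000 * (63 / 100 + eh * m + 25 / 9 * (60496 / 10000 / B) * (571 / 625 * f)) ≤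
      G * (7 / 9 * l ^ 2 + ε * (25 / 12 * t - 3003 / 2000 - 184184 / 100000 * t ^ 4)) +
      G * (25 / 9 * (60496 / 10000 / B) * (571 / 625 * f)) := by
    calc _ ≤ G * (63 / 100 + eh * m + 25 / 9 * (60496 / 10000 / B) * (571 / 625 * f)) :=
          mul_le_mul_of_nonneg_right hG n9
      _ = G * (63 / 100 + eh * m) + G * (25 / 9 * (60496 / 10000 / B) * (571 / 625 * f)) := by ring
      _ ≤ _ := by
          have := mul_le_mul_of_nonneg_left hmain hG0.le
          linarith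
  have hρ : eh * (B * (25 / 16 * B - 5294 / 1000)) ≤ 25 / 16 * t ^ 2 * ε - 5294 / 1000 * t * ε := by
    have h1 : B * (25 / 16 * B - 5294 / 1000) ≤ t * (25 / 16 * t - 5294 / 1000) := by
      have h2 : 0 ≤ (B - t) * (5294 / 1000 - 25 / 16 * (t + B)) :=
        mul_nonneg (by linarith) (by linarith)
      linarith
    have h2 : B * (25 / 16 * B - 5294 / 1000) ≤ 0 :=
      mul_nonpos_of_nonneg_of_nonpos hB0.le (by linarith)
    have h3 : eh * (B * (25 / 16 * B - 5294 / 1000)) ≤ ε * (B * (25 / 16 * B - 5294 / 1000)) :=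
      mul_le_mul_of_nonpos_right hεh h2
    have h4 := mul_le_mul_of_nonneg_left h1 hε0.le
    linarith
  have hLQ : L * (4 * Q ^ 3 - 3 * Q) ≤ (1 / 2 - 23 / 200 * A ^ 4) * (4 * Qh ^ 3 - 3 * Qh) := by
    have h1 : 1 ≤ Q := by linarith
    have h2 : 4 * Q ^ 3 - 3 * Q ≤ 4 * Qh ^ 3 - 3 * Qh := by
      have : 0 ≤ (Qh - Q) * (4 * (Qh ^ 2 + Qh * Q + Q ^ 2) - 3) := by
        refine mul_nonneg (by linarith) ?_
        nlinarith [mul_nonneg (show 0 ≤ Qh by linarith) hQ0.le]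
      linarith
    have h3 : 0 ≤ 4 * Q ^ 3 - 3 * Q := by
      have : 0 ≤ Q * (4 * Q ^ 2 - 3) := mul_nonneg hQ0.le (by nlinarith)
      linarith
    have h4 : L ≤ 1 / 2 - 23 / 200 * A ^ 4 := by rw [hη]; linarith
    exact mul_le_mul h4 h2 h3 (by linarith)
  unfold RR
  rw [← hQ]
  linarith

/-- region 2: `81/100 ≤ t ≤ 1` -/
lemma reg2 {G l L ε t c h δ : ℝ} (ht : 81 / 100 ≤ t) (ht1 : t ≤ 1) (hδ0 : 0 ≤ δ)
    (hδ : δ ≤ 49 / 10000 / (54 / 100 + 23 / 200 * t ^ 4))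
    (hη : L = 1 / 2 - (23 / 200 * t ^ 4 + δ)) (hε : ε = Real.exp (-(2 * L))) (hh : h ^ 2 = 1 - ε * t)
    (hh0 : 0 < h) (hL : 0 ≤ L) (hc : 571 / 625 ≤ c) (hG : 60496 / 10000 ≤ G) (hl : 9 / 10 ≤ l) :
    0 < RR G l L ε t c h := by
  rcases le_total t (870 / 1000) with hB0 | hA1
  · exact reg2_piece (A := 810 / 1000) (B := 870 / 1000) (ηb := 7420 / 100000)
      (el := 40616 / 100000) (eh := 42674 / 100000) (d0 := 22077 / 100000) (Qh := 126115 / 100000)
      (f := 10362 / 1000000) (by norm_num) (by norm_num) (by norm_num) (by norm_num) (by norm_num) (by norm_num) (by norm_num) (by norm_num) (by norm_num) (by norm_num) (by norm_num) (by norm_num) (by norm_num) (by norm_num) (by norm_num) (by norm_num) (by norm_num)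
      (by linarith) hB0 hδ0 hδ hη hε hh hh0 hL hc hG hl
  rcases le_total t (915 / 1000) with hB1 | hA2
  · exact reg2_piece (A := 870 / 1000) (B := 915 / 1000) (ηb := 8870 / 100000)
      (el := 41968 / 100000) (eh := 43930 / 100000) (d0 := 25503 / 100000) (Qh := 129311 / 100000)
      (f := 14271 / 1000000) (by norm_num) (by norm_num) (by norm_num) (by norm_num) (by norm_num) (by norm_num) (by norm_num) (by norm_num) (by norm_num) (by norm_num) (by norm_num) (by norm_num) (by norm_num) (by norm_num) (by norm_num) (by norm_num) (by norm_num)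
      hA1 hB1 hδ0 hδ hη hε hh hh0 hL hc hG hl
  rcases le_total t (945 / 1000) with hB2 | hA3
  · exact reg2_piece (A := 915 / 1000) (B := 945 / 1000) (ηb := 9961 / 100000)
      (el := 43222 / 100000) (eh := 44899 / 100000) (d0 := 28616 / 100000) (Qh := 131796 / 100000)
      (f := 18851 / 1000000) (by norm_num) (by norm_num) (by norm_num) (by norm_num) (by norm_num) (by norm_num) (by norm_num) (by norm_num) (by norm_num) (by norm_num) (by norm_num) (by norm_num) (by norm_num) (by norm_num) (by norm_num) (by norm_num) (by norm_num)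
      hA2 hB2 hδ0 hδ hη hε hh hh0 hL hc hG hl
  rcases le_total t (966 / 1000) with hB3 | hA4
  · exact reg2_piece (A := 945 / 1000) (B := 966 / 1000) (ηb := 10790 / 100000)
      (el := 44192 / 100000) (eh := 45650 / 100000) (d0 := 31037 / 100000) (Qh := 133748 / 100000)
      (f := 22898 / 1000000) (by norm_num) (by norm_num) (by norm_num) (by norm_num) (by norm_num) (by norm_num) (by norm_num) (by norm_num) (by norm_num) (by norm_num) (by norm_num) (by norm_num) (by norm_num) (by norm_num) (by norm_num) (by norm_num) (by norm_num)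
      hA3 hB3 hδ0 hδ hη hε hh hh0 hL hc hG hl
  rcases le_total t (980 / 1000) with hB4 | hA5
  · exact reg2_piece (A := 966 / 1000) (B := 980 / 1000) (ηb := 11373 / 100000)
      (el := 44942 / 100000) (eh := 46185 / 100000) (d0 := 32936 / 100000) (Qh := 135162 / 100000)
      (f := 26578 / 1000000) (by norm_num) (by norm_num) (by norm_num) (by norm_num) (by norm_num) (by norm_num) (by norm_num) (by norm_num) (by norm_num) (by norm_num) (by norm_num) (by norm_num) (by norm_num) (by norm_num) (by norm_num) (by norm_num) (by norm_num)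
      hA4 hB4 hδ0 hδ hη hε hh hh0 hL hc hG hl
  rcases le_total t (990 / 1000) with hB5 | hA6
  · exact reg2_piece (A := 980 / 1000) (B := 990 / 1000) (ηb := 11806 / 100000)
      (el := 45478 / 100000) (eh := 46587 / 100000) (d0 := 34314 / 100000) (Qh := 136236 / 100000)
      (f := 29389 / 1000000) (by norm_num) (by norm_num) (by norm_num) (by norm_num) (by norm_num) (by norm_num) (by norm_num) (by norm_num) (by norm_num) (by norm_num) (by norm_num) (by norm_num) (by norm_num) (by norm_num) (by norm_num) (by norm_num) (by norm_num)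
      hA5 hB5 hδ0 hδ hη hε hh hh0 hL hc hG hl
  exact reg2_piece (A := 990 / 1000) (B := 1000 / 1000) (ηb := 12254 / 100000)
      (el := 45879 / 100000) (eh := 47006 / 100000) (d0 := 35358 / 100000) (Qh := 137369 / 100000)
      (f := 31112 / 1000000) (by norm_num) (by norm_num) (by norm_num) (by norm_num) (by norm_num) (by norm_num) (by norm_num) (by norm_num) (by norm_num) (by norm_num) (by norm_num) (by norm_num) (by norm_num) (by norm_num) (by norm_num) (by norm_num) (by norm_num)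
      hA6 (by linarith) hδ0 hδ hη hε hh hh0 hL hc hG hl

end Crest.Agent.R230.WR
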