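import Crest.Agent.R230.FarTailC

/-!
# Row 230: far block, tail `l ≥ 9/10` (helper825): `t = T² ≤ 81/100`
-/

set_option autoImplicit false

open Set

namespace Crest.Agent.R230.WR

lemma reg1_poly {t : ℝ} (h0 : 0 ≤ t) (h1 : t ≤ 81 / 100) :
    0 < 5128848 / 1000000 - 27 / 50 * t -
      37463 / 100000 * (908348 / 100000 + 145015 / 10000 * t ^ 4 - 300933 / 100000 * t - 25 / 16 * t ^ 2) := by
  have h2 : t ^ 4 ≤ 6561 / 10000 * t ^ 2 := by
    have : t ^ 2 ≤ (81 / 100) ^ 2 := by gcongr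
    nlinarith [sq_nonneg t]
  nlinarith [mul_nonneg h0 (sub_nonneg.2 h1)]

/-- `ε ≤ 0.37463 (1 + 0.242 y)` -/
lemma reg1_eps {y δ : ℝ} (hy : 0 ≤ y) (hy1 : y ≤ 4305 / 10000) (hδ1 : δ ≤ 908 / 100000)
    (hup : Real.exp (-1 + (1816 / 100000 + 23 / 100 * y)) ≤
      36788 / 100000 * (1 + (1816 / 100000 + 23 / 100 * y) + (1816 / 100000 + 23 / 100 * y) ^ 2 / 2 +
        (1816 / 100000 + 23 / 100 * y) ^ 3 / 6 + (1816 / 100000 + 23 / 100 * y) ^ 4 * 5 / 96)) :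
    Real.exp (-1 + 2 * (23 / 200 * y + δ)) ≤ 37463 / 100000 * (1 + 242 / 1000 * y) := by
  have h1 : Real.exp (-1 + 2 * (23 / 200 * y + δ)) ≤ Real.exp (-1 + (1816 / 100000 + 23 / 100 * y)) := by
    apply Real.exp_le_exp.2; linarith
  refine h1.trans (hup.trans ?_)
  set x := 1816 / 100000 + 23 / 100 * y with hx
  have hx0 : 1816 / 100000 ≤ x := by linarith
  have hx1 : x ≤ 11718 / 100000 := by linarith
  have hy' : y = 100 / 23 * (x - 1816 / 100000) := by rw [hx]; ring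
  rw [hy']
  -- convexity: polynomial in x on [0.01816, 0.11718]
  have h3 : x ^ 2 ≤ 13534 / 100000 * x - 1816 / 100000 * (11718 / 100000) := by nlinarith
  have h4 : x ^ 3 ≤ 11718 / 100000 * x ^ 2 := by nlinarith [sq_nonneg x]
  have h5 : x ^ 4 ≤ 11718 / 100000 * x ^ 3 := by
    have : 0 ≤ x ^ 3 := by positivity
    nlinarith
  have h6 : 0 ≤ x ^ 2 := sq_nonneg x
  linarith

/-- the `F`-term is harmless -/
lemma reg1_F {t ρ z d L c : ℝ} (ht0 : 0 < t) (ht1 : t ≤ 81 / 100) (hρt : 367879 / 1000000 * t ≤ ρ)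
    (hd0 : 0 ≤ d) (hd1 : d ≤ 1 / 4) (hd : (1 + d) ^ 2 * (1 - ρ) = 1)
    (hL : 1 / 2 - (23 / 200 * t ^ 4 + 908 / 100000) ≤ L) (hz : z * (22 / 10) ≤ ρ) (hc0 : 0 ≤ c) (hc1 : c ≤ 1) :
    0 ≤ c * FF d L + (ρ - z) / 2000 := by
  -- `ρ ≤ 2 d`
  have hρ2 : ρ ≤ 2 * d := by
    have h1 : 0 ≤ (1 + d) ^ 2 * (2 * d - ρ) := by
      have e : (1 + d) ^ 2 * (2 * d - ρ) = (1 + d) ^ 2 * (1 - ρ) - (1 + d) ^ 2 * (1 - 2 * d) := by ring
      rw [e, hd]
      nlinarith [pow_nonneg hd0 3, sq_nonneg d]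
    have := nonneg_of_mul_nonneg_right h1 (by positivity)
    linarith
  have htd : t ≤ 54366 / 10000 * d := by linarith
  have hy : t ^ 4 ≤ 28893 / 10000 * d := by
    have h1 : t ^ 3 ≤ (81 / 100) ^ 3 := by gcongr
    have h2 : t ^ 4 = t ^ 3 * t := by ring
    rw [h2]
    calc t ^ 3 * t ≤ (81 / 100) ^ 3 * (54366 / 10000 * d) := mul_le_mul h1 htd ht0.le (by norm_num)
      _ ≤ 28893 / 10000 * d := by nlinarith
  have hF := FF_ge (η := 23 / 200 * t ^ 4 + 908 / 100000) hd0 (by linarith) hL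
  have hη : 23 / 200 * t ^ 4 + 908 / 100000 ≤ 33228 / 100000 * d + 908 / 100000 := by linarith
  have hb : 92 / 100 * d - 296 / 10000 ≤
      5 / 2 * d - 5 / 2 * d ^ 2 + 2 * d ^ 3 - (23 / 200 * t ^ 4 + 908 / 100000) * (3 + d) := by
    have h1 : (23 / 200 * t ^ 4 + 908 / 100000) * (3 + d) ≤ (33228 / 100000 * d + 908 / 100000) * (13 / 4) := by
      refine mul_le_mul hη (by linarith) (by linarith) (by positivity)
    have h2 : 2 * d ≤ 5 / 2 * d - 5 / 2 * d ^ 2 + 2 * d ^ 3 := by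
      have : 0 ≤ d * (1 / 2 - 5 / 2 * d + 2 * d ^ 2) := by
        apply mul_nonneg hd0
        nlinarith
      linarith
    linarith
  have hF2 : d ^ 2 * (92 / 100 * d - 296 / 10000) ≤ FF d L := le_trans (mul_le_mul_of_nonneg_left hb (sq_nonneg d)) hF
  have hρz : 0 ≤ ρ - z := by
    have : 0 ≤ ρ := by nlinarith
    linarith
  rcases le_or_gt 0 (92 / 100 * d - 296 / 10000) with h | h
  · have h1 : 0 ≤ FF d L := le_trans (by positivity) hF2
    have h2 : 0 ≤ (ρ - z) / 2000 := by positivity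
    positivity
  · -- `d` small
    have hd3 : d ≤ 1 / 10 := by linarith
    have h1 : 3 / 2 * d ≤ ρ := by
      have h2 : 0 ≤ (1 + d) ^ 2 * (ρ - 3 / 2 * d) := by
        have e : (1 + d) ^ 2 * (ρ - 3 / 2 * d) = (1 + d) ^ 2 * (1 - 3 / 2 * d) - (1 + d) ^ 2 * (1 - ρ) := by ring
        rw [e, hd]
        have : 0 ≤ d * (1 / 2 - 2 * d - 3 / 2 * d ^ 2) := by
          apply mul_nonneg hd0
          nlinarith
        nlinarith
      have := nonneg_of_mul_nonneg_right h2 (by positivity)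
      linarith
    have h2 : 40 / 100000 * d ≤ (ρ - z) / 2000 := by
      linarith
    have h3 : d ^ 2 * (92 / 100 * d - 296 / 10000) ≤ c * FF d L := by
      have a1 : d ^ 2 * (92 / 100 * d - 296 / 10000) ≤ 0 :=
        mul_nonpos_of_nonneg_of_nonpos (sq_nonneg d) h.le
      rcases le_or_gt 0 (FF d L) with hp | hp
      · have : 0 ≤ c * FF d L := mul_nonneg hc0 hp
        linarith
      · have : 1 * FF d L ≤ c * FF d L := mul_le_mul_of_nonpos_right hc1 hp.le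
        linarith
    have h4 : 0 ≤ d * (d * (92 / 100 * d - 296 / 10000) + 40 / 100000) := by
      apply mul_nonneg hd0
      nlinarith [sq_nonneg (d - 161 / 10000)]
    linarith

/-- `L (4Q³-3Q) ≤ L + 4.3 ρ` for `Q ≤ 5/4` -/
lemma reg1_Q {d ρ L : ℝ} (hd0 : 0 ≤ d) (hd1 : d ≤ 1 / 4) (hd : (1 + d) ^ 2 * (1 - ρ) = 1)
    (hL : L ≤ 1 / 2) :
    L * (4 * (1 + d) ^ 3 - 3 * (1 + d)) ≤ L + 43 / 10 * ρ := by
  have e : 4 * (1 + d) ^ 3 - 3 * (1 + d) = 1 + d * (3 + 2 * d) ^ 2 := by ring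
  rw [e]
  have hρ : (1 + d) ^ 2 * ρ = d * (2 + d) := by nlinarith
  have h1 : L * (d * (3 + 2 * d) ^ 2) ≤ 1 / 2 * (d * (3 + 2 * d) ^ 2) :=
    mul_le_mul_of_nonneg_right hL (by positivity)
  have h2 : (1 + d) ^ 2 * (1 / 2 * (d * (3 + 2 * d) ^ 2)) ≤ (1 + d) ^ 2 * (43 / 10 * ρ) := by
    have e2 : (1 + d) ^ 2 * (43 / 10 * ρ) = 43 / 10 * (d * (2 + d)) := by rw [← hρ]; ring
    rw [e2]
    have h3 : (1 + d) ^ 2 * (3 + 2 * d) ^ 2 ≤ 86 / 10 * (2 + d) := by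
      have a1 : (1 + d) * (3 + 2 * d) ≤ 3 + 11 / 2 * d := by nlinarith
      have a2 : (1 + d) ^ 2 * (3 + 2 * d) ^ 2 ≤ (3 + 11 / 2 * d) ^ 2 := by
        rw [← mul_pow]
        gcongr
      nlinarith
    nlinarith
  have h4 := le_of_mul_le_mul_left h2 (by positivity)
  linarith

/-- region 1: `t ≤ 81/100` (in terms of the reduced quantities) -/
lemma reg1_main {G l L ε t : ℝ} (ht0 : 0 ≤ t) (ht1 : t ≤ 81 / 100) (hε0 : 0 ≤ ε)
    (hε : ε ≤ 37463 / 100000 * (1 + 242 / 1000 * t ^ 4)) (hG : 60496 / 10000 ≤ G) (hl : 9 / 10 ≤ l)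
    (hL : L ≤ 1 / 2) :
    0 < G * (7 / 9 * l ^ 2 + ε * (25 / 12 * t - 3003 / 2000 - 184184 / 100000 * t ^ 4)) +
      25 / 16 * t ^ 2 * ε - 5294 / 1000 * t * ε - 27 / 50 * t + l + 9176 / 10000 -
      (L + 43 / 10 * (ε * t)) := by
  have hy0 : 0 ≤ t ^ 4 := by positivity
  have hy1 : t ^ 4 ≤ 430468 / 1000000 := by
    have : t ^ 4 ≤ (81 / 100) ^ 4 := by gcongr
    norm_num at this ⊢
    linarith
  have hyt : t ^ 4 ≤ 531441 / 1000000 * t := by
    have h3 : t ^ 3 ≤ (81 / 100) ^ 3 := by gcongr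
    have e : t ^ 4 = t ^ 3 * t := by ring
    rw [e]
    have := mul_le_mul_of_nonneg_right h3 ht0
    norm_num at this ⊢
    linarith
  -- bracket
  have hB : 0 ≤ 63 / 100 + ε * (25 / 12 * t - 3003 / 2000 - 184184 / 100000 * t ^ 4) := by
    have h1 : ε * (3003 / 2000 + 184184 / 100000 * t ^ 4 - 25 / 12 * t) ≤ ε * (3003 / 2000 - 11 / 10 * t) :=
      mul_le_mul_of_nonneg_left (by linarith) hε0
    have h2 : ε * (3003 / 2000 - 11 / 10 * t) ≤
        37463 / 100000 * (1 + 242 / 1000 * t ^ 4) * (3003 / 2000 - 11 / 10 * t) :=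
      mul_le_mul_of_nonneg_right hε (by linarith)
    have h3 : 37463 / 100000 * (1 + 242 / 1000 * t ^ 4) * (3003 / 2000 - 11 / 10 * t) ≤
        37463 / 100000 * (1 + 242 / 1000 * (531441 / 1000000 * t)) * (3003 / 2000 - 11 / 10 * t) := by
      refine mul_le_mul_of_nonneg_right ?_ (by linarith)
      linarith
    have h4 : 37463 / 100000 * (1 + 242 / 1000 * (531441 / 1000000 * t)) * (3003 / 2000 - 11 / 10 * t) ≤ 63 / 100 := by
      nlinarith [sq_nonneg t]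
    linarith
  have hl2 : (63 / 100 : ℝ) ≤ 7 / 9 * l ^ 2 := by nlinarith
  have h1 : 60496 / 10000 * (63 / 100 + ε * (25 / 12 * t - 3003 / 2000 - 184184 / 100000 * t ^ 4)) ≤
      G * (7 / 9 * l ^ 2 + ε * (25 / 12 * t - 3003 / 2000 - 184184 / 100000 * t ^ 4)) := by
    refine mul_le_mul hG (by linarith) hB (by linarith)
  -- remaining one-variable inequality
  set P := 908348 / 100000 + 1114242 / 100000 * t ^ 4 - 300933 / 100000 * t - 25 / 16 * t ^ 2 with hP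
  have hP0 : 0 ≤ P := by rw [hP]; nlinarith
  have h2 : ε * P ≤ 37463 / 100000 * (1 + 242 / 1000 * t ^ 4) * P := mul_le_mul_of_nonneg_right hε hP0
  have h3 : (1 + 242 / 1000 * t ^ 4) * P ≤
      908348 / 100000 + 145015 / 10000 * t ^ 4 - 300933 / 100000 * t - 25 / 16 * t ^ 2 := by
    have h4 : P ≤ 138801 / 10000 := by rw [hP]; nlinarith
    have h5 : 242 / 1000 * t ^ 4 * P ≤ 242 / 1000 * t ^ 4 * (138801 / 10000) :=
      mul_le_mul_of_nonneg_left h4 (by positivity)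
    have e : (1 + 242 / 1000 * t ^ 4) * P = P + 242 / 1000 * t ^ 4 * P := by ring
    rw [e, hP] at *
    linarith
  have h4 := reg1_poly ht0 ht1
  have h5 : ε * (25 / 12 * t * (60496 / 10000) - 3003 / 2000 * (60496 / 10000) -
      184184 / 100000 * (60496 / 10000) * t ^ 4 + 25 / 16 * t ^ 2 - 5294 / 1000 * t - 43 / 10 * t) ≥
      -(ε * P) := by
    have : 0 ≤ ε * (P + (25 / 12 * t * (60496 / 10000) - 3003 / 2000 * (60496 / 10000) -
      184184 / 100000 * (60496 / 10000) * t ^ 4 + 25 / 16 * t ^ 2 - 5294 / 1000 * t - 43 / 10 * t)) := by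
      apply mul_nonneg hε0
      rw [hP]
      linarith
    linarith
  linarith

end Crest.Agent.R230.WR
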