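import Crest.Agent.R230.FarTailD
import Crest.Agent.R230.FarTailE

/-!
# Row 230: far block, tail `l ≥ 9/10` (helper825): summation of the estimates
-/

set_option autoImplicit false

open Set

namespace Crest.Agent.R230.WR

/-- the lower bound of `z Lg` -/
noncomputable def Klow (z c h l L : ℝ) : ℝ :=
  z * (7 / 25 * l ^ 2 * (1 + z)) + z ^ 2 * (1 + 2 * z) * l ^ 2 + c * FF (1 / h - 1) L +
    (1 - h ^ 2) * z * (3 / 4 + 9 / 16 * z) - 3 / 4 * z ^ 2 * (1 + 3 / 2 * z) * (1 / 2 + l) +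
    ((1 - h ^ 2) - z) / 2000

/-- the lower bound of `LP0` -/
noncomputable def P0low (z c h l L t tp E : ℝ) : ℝ :=
  -(4 * (z / c ^ 2) ^ 2 + 103 / 25 * (z / c ^ 2)) * l ^ 2 +
    l * (1 + 4 * (z / c ^ 2) + (1 - c) / (1 + c)) - t / 2 -
    L * (4 * (1 / h) ^ 3 - 3 * (1 / h)) - 1001 / 2000 * (E - 1) -
    3501 / 1000 * ((1 - h ^ 2) - z) / c ^ 2 - 1001 / 1000 * (tp * E)

/-- the lower bound of the `k`-part -/
noncomputable def kklow (z c h l tp E : ℝ) : ℝ :=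
  -(1001 / 1000 * ((1 + tp) * E)) - 10994 / 10000 * (1 - h ^ 2) - 2 * (z / c ^ 2) * l / c +
    (2 - 2 * c ^ 2 / (1 + c)) / c - 5829 / 10000

lemma tail_sum {z c h l L t G ε E tp : ℝ} (hc : 571 / 625 ≤ c) (hc1 : c < 1) (hz : z = 1 - c ^ 2)
    (hl : 9 / 10 ≤ l) (hG : 60496 / 10000 ≤ G) (hzG : z * G = t) (hE : E = G * ε)
    (hh : h ^ 2 = 1 - ε * t) (hρ0 : 0 ≤ ε * t) (htp : tp = 23 / 25 * t ^ 4) :
    RR G l L ε t c h ≤ 25 / 9 * (G / z) * Klow z c h l L + P0low z c h l L t tp E +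
      kklow z c h l tp E := by
  have hc0 : 0 < c := by linarith
  have hc2 : 0 < c ^ 2 := by positivity
  have hz0 : 0 < z := by rw [hz]; nlinarith
  have hG0 : 0 < G := by linarith
  have hcl : (834664 / 1000000 : ℝ) ≤ c ^ 2 := by nlinarith
  have hT := tail_z hc hc1 hz hl hG hzG
  have ht0 : 0 < t := by rw [← hzG]; positivity
  have e1 : 25 / 9 * (G / z) * Klow z c h l L =
      G * (7 / 9 * l ^ 2) + 7 / 9 * t * l ^ 2 + 25 / 9 * t * (1 + 2 * z) * l ^ 2 +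
      25 / 12 * G * (ε * t) + 25 / 16 * t * (ε * t) -
      25 / 12 * t * (1 + 3 / 2 * z) * (1 / 2 + l) +
      25 / 9 * (G ^ 2 / t) * (c * FF (1 / h - 1) L + (ε * t - t / G) / 2000) := by
    unfold Klow
    rw [hh, ← hzG]
    field_simp
    ring
  have e2 : 3501 / 1000 * ((1 - h ^ 2) - z) / c ^ 2 = 3501 / 1000 * (ε * t) / c ^ 2 - 3501 / 1000 * (z / c ^ 2) := by
    rw [hh]; ring
  have e3 : 3501 / 1000 * (ε * t) / c ^ 2 ≤ 41946 / 10000 * (ε * t) := by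
    rw [div_le_iff₀ hc2]
    have : 41946 / 10000 * (ε * t) * (834664 / 1000000) ≤ 41946 / 10000 * (ε * t) * c ^ 2 :=
      mul_le_mul_of_nonneg_left hcl (by positivity)
    linarith
  unfold RR P0low kklow
  rw [e1, e2, hE, hh, htp]
  have e4 : l * (1 + 4 * (z / c ^ 2) + (1 - c) / (1 + c)) =
      l + l * (4 * (z / c ^ 2) + (1 - c) / (1 + c)) := by ring
  rw [e4]
  have e5 : (2 - 2 * c ^ 2 / (1 + c)) / c = 1 + ((2 - 2 * c ^ 2 / (1 + c)) / c - 1) := by ring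
  rw [e5]
  have e6 : -(4 * (z / c ^ 2) ^ 2 + 103 / 25 * (z / c ^ 2)) * l ^ 2 =
      -((4 * (z / c ^ 2) ^ 2 + 103 / 25 * (z / c ^ 2)) * l ^ 2) := by ring
  rw [e6]
  generalize 2 * (z / c ^ 2) * l / c = w1 at *
  generalize (2 - 2 * c ^ 2 / (1 + c)) / c - 1 = w2 at *
  generalize l * (4 * (z / c ^ 2) + (1 - c) / (1 + c)) = w3 at *
  generalize (4 * (z / c ^ 2) ^ 2 + 103 / 25 * (z / c ^ 2)) * l ^ 2 = w4 at *
  generalize z / c ^ 2 = w5 at *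
  generalize 3501 / 1000 * (ε * t) / c ^ 2 = w6 at *
  generalize 25 / 9 * (G ^ 2 / t) * (c * FF (1 / h - 1) L + (ε * t - t / G) / 2000) = w7 at *
  generalize L * (4 * (1 / h) ^ 3 - 3 * (1 / h)) = w8 at *
  linarith

/-- `Klow ≥ 0` once the `F`-term is -/
lemma Klow_nonneg {z c h l L t G : ℝ} (hz0 : 0 < z) (hl : 9 / 10 ≤ l) (hG : 60496 / 10000 ≤ G) (hzG : z * G = t)
    (hh : h ^ 2 ≤ 1) (ht1 : t ≤ 1) (hF : 0 ≤ c * FF (1 / h - 1) L + ((1 - h ^ 2) - z) / 2000) :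
    0 ≤ Klow z c h l L := by
  have hG0 : 0 < G := by linarith
  have hz1 : z * (60496 / 10000) ≤ 1 := by
    calc z * (60496 / 10000) ≤ z * G := mul_le_mul_of_nonneg_left hG hz0.le
      _ ≤ 1 := by rw [hzG]; exact ht1
  have h1 : 0 ≤ (1 - h ^ 2) * z * (3 / 4 + 9 / 16 * z) := by
    have : 0 ≤ 1 - h ^ 2 := by linarith
    positivity
  have h2 : 0 ≤ 7 / 25 * l ^ 2 + z * (32 / 25 * l ^ 2 + 2 * z * l ^ 2 - 3 / 4 * (1 + 3 / 2 * z) * (1 / 2 + l)) := by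
    have a1 : 0 ≤ 2 * z * l ^ 2 - 9 / 8 * z * (1 / 2 + l) := by
      have : 0 ≤ 2 * l ^ 2 - 9 / 8 * (1 / 2 + l) := by nlinarith
      have := mul_nonneg hz0.le this
      linarith
    have a2 : -(1 / 25) ≤ 32 / 25 * l ^ 2 - 3 / 4 * (1 / 2 + l) := by nlinarith
    have a3 : z * -(1 / 25) ≤ z * (32 / 25 * l ^ 2 + 2 * z * l ^ 2 - 3 / 4 * (1 + 3 / 2 * z) * (1 / 2 + l)) :=
      mul_le_mul_of_nonneg_left (by linarith) hz0.le
    have a4 : (9 / 10 : ℝ) ^ 2 ≤ l ^ 2 := by gcongr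
    linarith
  have h3 := mul_nonneg hz0.le h2
  unfold Klow
  linarith

end Crest.Agent.R230.WR
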