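import Crest.Agent.R230.FarElim
import Crest.Agent.R230.FarMu
import Crest.Agent.R230.FarK

/-!
# Row 230: the tail `l ≥ 9/10`, `k ≤ 0` of the far block (helper608)

`WR.PF_tail_neg : 0 < PF n μ s l k` for `23 ≤ n`, `0 ≤ μ ≤ muF n`, `FarC n s l k`, `9/10 ≤ l`, `k ≤ 0`.
-/

set_option autoImplicit false

open MeasureTheory Set Filter Topology
open scoped Pointwise ENNReal

namespace Crest.Agent.R230.WR

namespace TailN

/-- block 1: the terms with `l²` and the loss `N c u r(q)` -/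
lemma T1 {N X Y q s2 u l T2 : ℝ} (hN : 0 ≤ N) (hq : 1 ≤ q) (hY : Y = q ^ 2 - 1)
    (hX : N * Y = X * q ^ 2) (hs0 : 0 ≤ s2) (hsY : s2 ≤ Y) (hX1 : 167 / 10 ≤ X)
    (_hT0 : 0 ≤ T2) (hT2 : T2 ≤ 9 / 25 * (X * s2)) (hu0 : 0 ≤ u) (hul : u ≤ l - 3 / 8)
    (hl : 9 / 10 ≤ l) :
    7 / 25 * X * l ^ 2 + 25 / 9 * T2 * (103 / 100 * l ^ 2 - 3 / 4 * u) ≤
      ((N - 4) * Y ^ 2 + (2 * (N - 4) * (7 / 50) - 3) * Y) * l ^ 2 -
        N * (u * ((q - 1) ^ 2 * (q + 2) / q)) := by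
  have hq0 : 0 < q := by linarith
  have hY0 : 0 ≤ Y := by rw [hY]; nlinarith
  have hX0 : 0 ≤ X := by linarith
  have hr : (q - 1) ^ 2 * (q + 2) / q ≤ 3 / 4 * Y ^ 2 := by
    rw [div_le_iff₀ hq0]
    have h1 : 4 * (q + 2) ≤ 3 * q * (q + 1) ^ 2 := by nlinarith [mul_nonneg (sub_nonneg.2 hq) hq0.le]
    have h2 := mul_le_mul_of_nonneg_left h1 (sq_nonneg (q - 1))
    have e : Y ^ 2 = (q - 1) ^ 2 * (q + 1) ^ 2 := by rw [hY]; ring
    rw [e]
    linarith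
  have h3 : N * (u * ((q - 1) ^ 2 * (q + 2) / q)) ≤ 3 / 4 * u * (X * q ^ 2) * Y := by
    calc N * (u * ((q - 1) ^ 2 * (q + 2) / q)) ≤ N * (u * (3 / 4 * Y ^ 2)) := by gcongr
      _ = 3 / 4 * u * (N * Y) * Y := by ring
      _ = 3 / 4 * u * (X * q ^ 2) * Y := by rw [hX]
  have e1 : ((N - 4) * Y ^ 2 + (2 * (N - 4) * (7 / 50) - 3) * Y) * l ^ 2 =
      (X * q ^ 2) * (Y + 7 / 25) * l ^ 2 - Y * (4 * Y + 103 / 25) * l ^ 2 := by
    have : ((N - 4) * Y ^ 2 + (2 * (N - 4) * (7 / 50) - 3) * Y) * l ^ 2 =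
      (N * Y) * (Y + 7 / 25) * l ^ 2 - Y * (4 * Y + 103 / 25) * l ^ 2 := by ring
    rw [this, hX]
  have hq2 : q ^ 2 = 1 + Y := by rw [hY]; ring
  have h4 : Y * (4 * Y + 103 / 25) * l ^ 2 ≤ 247 / 1000 * ((X * q ^ 2) * Y * l ^ 2) := by
    have h5 : 4 * Y + 103 / 25 ≤ 247 / 1000 * (X * q ^ 2) := by
      rw [hq2]
      nlinarith [mul_nonneg (sub_nonneg.2 hX1) hY0]
    have h6 := mul_le_mul_of_nonneg_right h5 (mul_nonneg hY0 (sq_nonneg l))
    linarith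
  have hf : 0 ≤ 753 / 1000 * l ^ 2 - 3 / 4 * u := by nlinarith [sq_nonneg (l - 1 / 2)]
  have ha : X * (1 + Y) = X * q ^ 2 := by rw [hq2]
  have h7 : X * s2 ≤ X * Y := mul_le_mul_of_nonneg_left hsY hX0
  have h8 : X * s2 * (753 / 1000 * l ^ 2 - 3 / 4 * u) ≤
      (X * q ^ 2) * Y * (753 / 1000 * l ^ 2 - 3 / 4 * u) := by
    refine mul_le_mul_of_nonneg_right ?_ hf
    rw [← ha]
    nlinarith [mul_nonneg (mul_nonneg hX0 hY0) hY0]
  have h9 : 7 / 25 * (X * s2) * l ^ 2 ≤ 7 / 25 * (X * Y) * l ^ 2 := by gcongr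
  have hf2 : 0 ≤ 103 / 100 * l ^ 2 - 3 / 4 * u := by nlinarith [sq_nonneg l]
  have h10 := mul_le_mul_of_nonneg_right hT2 hf2
  have h11 : 0 ≤ X * s2 * l ^ 2 := by positivity
  rw [e1, ← ha]
  rw [← ha] at h8 h3 h4
  nlinarith

/-- block 2: the `N`-part of the line and the gauge -/
lemma T2 {N q Q lh : ℝ} (hN : 0 < N) (hq : 1 ≤ q) (hqQ : q ≤ Q) (hq2 : q ≤ 11 / 10)
    (hQ2 : Q ≤ 1377 / 1000) (hlh1 : 3 / 8 ≤ lh) (hlh2 : lh ≤ 1 / 2) (hNq : 167 / 20 ≤ N * (q - 1))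
    (hZ : 0 ≤ -1 + lh * (Q ^ 2 + Q - 2) + 1001 / 2000 * ((Q + 1) / Q ^ 2)) :
    0 ≤ N * (-1 + lh * (Q ^ 2 + Q * q + q ^ 2 - 3)) +
      1 / 2 * (1001 / 1000 * N - 7002 / 1000 + 10 / N) * (q * (Q + q) / Q ^ 2) -
      lh * (4 * (Q ^ 2 + Q * q + q ^ 2) - 3) := by
  have hQ0 : 0 < Q := by linarith
  have hq0 : 0 < q := by linarith
  have e1 : -1 + lh * (Q ^ 2 + Q * q + q ^ 2 - 3) + 1001 / 2000 * (q * (Q + q) / Q ^ 2) =
      (-1 + lh * (Q ^ 2 + Q - 2) + 1001 / 2000 * ((Q + 1) / Q ^ 2)) +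
      (q - 1) * ((Q + q + 1) * (lh + 1001 / 2000 * (1 / Q ^ 2))) := by
    field_simp
    ring
  have hQi : 527 / 1000 ≤ 1 / Q ^ 2 := by
    rw [le_div_iff₀ (by positivity)]
    have : Q ^ 2 ≤ (1377 / 1000) ^ 2 := by gcongr
    linarith
  have h1 : 3 * (3 / 8 + 1001 / 2000 * (527 / 1000)) ≤
      (Q + q + 1) * (lh + 1001 / 2000 * (1 / Q ^ 2)) := by
    have : (3 : ℝ) ≤ Q + q + 1 := by linarith
    have h2 : 3 / 8 + 1001 / 2000 * (527 / 1000) ≤ lh + 1001 / 2000 * (1 / Q ^ 2) := by linarith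
    exact mul_le_mul this h2 (by norm_num) (by linarith)
  have h2 : 167 / 20 * (3 * (3 / 8 + 1001 / 2000 * (527 / 1000))) ≤
      (N * (q - 1)) * ((Q + q + 1) * (lh + 1001 / 2000 * (1 / Q ^ 2))) :=
    mul_le_mul hNq h1 (by norm_num) (by linarith)
  have h3 : q * (Q + q) / Q ^ 2 ≤ 2 := by
    rw [div_le_iff₀ (by positivity)]
    nlinarith
  have h30 : 0 ≤ q * (Q + q) / Q ^ 2 := by positivity
  have h4 : lh * (4 * (Q ^ 2 + Q * q + q ^ 2) - 3) ≤ 1 / 2 * (4 * ((1377 / 1000) ^ 2 +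
      1377 / 1000 * (11 / 10) + (11 / 10) ^ 2) - 3) := by
    have h5 : Q ^ 2 + Q * q + q ^ 2 ≤ (1377 / 1000) ^ 2 + 1377 / 1000 * (11 / 10) + (11 / 10) ^ 2 := by
      gcongr
    refine mul_le_mul hlh2 (by linarith) ?_ (by norm_num)
    nlinarith
  have h5 := mul_nonneg hN.le hZ
  have h6 : 0 ≤ 1 / 2 * (10 / N) * (q * (Q + q) / Q ^ 2) := by positivity
  have e2 : N * (-1 + lh * (Q ^ 2 + Q * q + q ^ 2 - 3)) +
      1 / 2 * (1001 / 1000 * N - 7002 / 1000 + 10 / N) * (q * (Q + q) / Q ^ 2) =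
      N * (-1 + lh * (Q ^ 2 + Q * q + q ^ 2 - 3) + 1001 / 2000 * (q * (Q + q) / Q ^ 2)) -
      3501 / 1000 * (q * (Q + q) / Q ^ 2) + 1 / 2 * (10 / N) * (q * (Q + q) / Q ^ 2) := by ring
  rw [e2, e1]
  have e3 : N * ((-1 + lh * (Q ^ 2 + Q - 2) + 1001 / 2000 * ((Q + 1) / Q ^ 2)) +
      (q - 1) * ((Q + q + 1) * (lh + 1001 / 2000 * (1 / Q ^ 2)))) =
      N * (-1 + lh * (Q ^ 2 + Q - 2) + 1001 / 2000 * ((Q + 1) / Q ^ 2)) +
      (N * (q - 1)) * ((Q + q + 1) * (lh + 1001 / 2000 * (1 / Q ^ 2))) := by ring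
  rw [e3]
  norm_num at h2 h4 ⊢
  linarith

/-- the `Z`-hypothesis of `T2` -/
lemma Z0 {Q lh : ℝ} (hQ1 : 1 ≤ Q) (hQ2 : Q ≤ 154 / 100) (hl1 : 73 / 200 ≤ lh)
    (hl2 : 12 / 25 - 201 / 2 * (Q - 1) ^ 4 / Q ^ 4 ≤ lh) :
    0 ≤ -1 + lh * (Q ^ 2 + Q - 2) + 1001 / 2000 * ((Q + 1) / Q ^ 2) := by
  have hQ0 : 0 < Q := by linarith
  have h := elim_B_case2 (a := 0) (b := Q - 1) (lh := lh) le_rfl (by linarith) (by linarith) hl1
    (by
      have : 1 + (Q - 1) = Q := by ring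
      rw [this]
      exact hl2)
  have e : Q ^ 2 * (-1 + lh * (Q ^ 2 + Q - 2) + 1001 / 2000 * ((Q + 1) / Q ^ 2)) =
      1 / 2 * (lh * (3 * (0 + (Q - 1)) + 0 ^ 2 + 0 * (Q - 1) + (Q - 1) ^ 2) * (1 + (Q - 1)) ^ 2 * (2 + 0) -
      (Q - 1) * ((2 + (Q - 1)) * (2 + 0) - 1) + 9 / 10000 * 2) + 1 / 10000 + 1 / 2000 * (Q - 1) := by
    field_simp
    ring
  refine nonneg_of_mul_nonneg_right ?_ (show 0 < Q ^ 2 by positivity)
  rw [e]
  linarith

/-- the slope of the contact line -/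
lemma W0 {Q lh y : ℝ} (hQ1 : 1 ≤ Q) (hQ2 : Q ≤ 1377 / 1000) (hlh : lh ≤ 1 / 2 - 23 / 200 * y)
    (hy : 4 * (2116 / 1000 * (1 - 1 / Q ^ 2)) - 3 ≤ y) : 12 / 25 ≤ Wq Q lh := by
  have hQ0 : 0 < Q := by linarith
  have h1 : lh ≤ 1 / 2 - 23 / 200 * (4 * (2116 / 1000 * (1 - 1 / Q ^ 2)) - 3) := by linarith
  have h2 : 0 ≤ Q * (Q ^ 2 - 1) := by
    have : 1 ≤ Q ^ 2 := by nlinarith
    exact mul_nonneg hQ0.le (by linarith)
  have h3 : 3 * lh * (Q * (Q ^ 2 - 1)) ≤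
      3 * (1 / 2 - 23 / 200 * (4 * (2116 / 1000 * (1 - 1 / Q ^ 2)) - 3)) * (Q * (Q ^ 2 - 1)) := by
    gcongr
  have h4 : 12 / 25 ≤ 2 * (Q - 1 / (1 + Q)) -
      3 * (1 / 2 - 23 / 200 * (4 * (2116 / 1000 * (1 - 1 / Q ^ 2)) - 3)) * (Q * (Q ^ 2 - 1)) := by
    have e : 2 * (Q - 1 / (1 + Q)) -
      3 * (1 / 2 - 23 / 200 * (4 * (2116 / 1000 * (1 - 1 / Q ^ 2)) - 3)) * (Q * (Q ^ 2 - 1)) - 12 / 25 =
      (2 * Q ^ 2 * (1 + Q) - 2 * Q - 3 * (1 / 2 + 69 / 200 - 97336 / 100000) * Q ^ 2 * (Q ^ 2 - 1) * (1 + Q) -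
        3 * (97336 / 100000) * (Q ^ 2 - 1) * (1 + Q) - 12 / 25 * Q * (1 + Q)) / (Q * (1 + Q)) := by
      field_simp
      ring
    have h5 : 0 ≤ (2 * Q ^ 2 * (1 + Q) - 2 * Q -
        3 * (1 / 2 + 69 / 200 - 97336 / 100000) * Q ^ 2 * (Q ^ 2 - 1) * (1 + Q) -
        3 * (97336 / 100000) * (Q ^ 2 - 1) * (1 + Q) - 12 / 25 * Q * (1 + Q)) / (Q * (1 + Q)) := by
      refine div_nonneg ?_ (by positivity)
      obtain ⟨b, rfl⟩ : ∃ b, Q = 1 + b := ⟨Q - 1, by ring⟩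
      have hb0 : 0 ≤ b := by linarith
      have hb1 : b ≤ 377 / 1000 := by linarith
      nlinarith [mul_nonneg hb0 (sub_nonneg.2 hb1), mul_nonneg (mul_nonneg hb0 hb0) (sub_nonneg.2 hb1),
        mul_nonneg (mul_nonneg (mul_nonneg hb0 hb0) hb0) (sub_nonneg.2 hb1), pow_nonneg hb0 5,
        pow_nonneg hb0 4, pow_nonneg hb0 3]
    rw [← e] at h5
    linarith
  unfold Wq
  linarith

lemma cR_ge {s l : ℝ} (hs : s ∈ Ioo (0 : ℝ) 1) (hl : 0 ≤ l) (hT : s * Real.exp l < 1) :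
    -((s * Real.exp l) ^ 2 / 2) ≤ cR s l := by
  have hc := cc_pos' hs
  have hTT : s * Real.exp l ∈ Ioo (0 : ℝ) 1 := ⟨mul_pos hs.1 (Real.exp_pos _), hT⟩
  have hd := cc_pos' hTT
  have hd2 := cc_sq' hTT
  have hc1 : cc s ≤ 1 := by
    have h := cc_sq' hs
    nlinarith [sq_nonneg s]
  have hd1 : cc (s * Real.exp l) ≤ 1 := by nlinarith [sq_nonneg (s * Real.exp l)]
  unfold cR Phi
  have h1 : cc s / (1 + cc s) ≤ 1 / 2 := by
    rw [div_le_div_iff₀ (by positivity) (by norm_num)]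
    linarith
  have h2 : 1 / 2 - (s * Real.exp l) ^ 2 / 2 ≤ cc (s * Real.exp l) / (1 + cc (s * Real.exp l)) := by
    rw [le_div_iff₀ (by positivity)]
    have e : (s * Real.exp l) ^ 2 = 1 - cc (s * Real.exp l) ^ 2 := by rw [hd2]; ring
    rw [e]
    nlinarith [mul_nonneg hd.le (sub_nonneg.2 hd1), mul_nonneg (mul_nonneg hd.le hd.le) (sub_nonneg.2 hd1)]
  have h3 : 0 ≤ l * ((1 - cc s) / (1 + cc s)) := by
    have : 0 ≤ (1 - cc s) / (1 + cc s) := div_nonneg (by linarith) (by positivity)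
    positivity
  have h4 : -((s * Real.exp l) ^ 2 / 2) ≤
      cc s * (cc (s * Real.exp l) / (1 + cc (s * Real.exp l)) - cc s / (1 + cc s)) := by
    have h5 : -((s * Real.exp l) ^ 2 / 2) ≤
        cc (s * Real.exp l) / (1 + cc (s * Real.exp l)) - cc s / (1 + cc s) := by linarith
    have h6 : 0 ≤ (s * Real.exp l) ^ 2 / 2 := by positivity
    nlinarith
  linarith


lemma aux_q {q : ℝ} (hq : 1 ≤ q) : q + 1 ≤ 2 * q ^ 2 := by nlinarith

lemma aux_y {y : ℝ} (hy0 : 0 ≤ y) (hy1 : y ≤ 1) :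
    (1 / 2 + 23 / 25 * y) * (1001 / 1000 * (3754 / 10000 * (1 + 283 / 1000 * y))) ≤
      1879 / 10000 + 4968 / 10000 * y := by
  nlinarith [mul_nonneg hy0 (sub_nonneg.2 hy1)]

lemma aux_z (z : ℝ) (_hz : 0 ≤ z) : 4 * z - 3 ≤ z ^ 4 := by
  nlinarith [sq_nonneg (z ^ 2 - 1), sq_nonneg (z - 1)]

/-- numerical facts on `e^l`, `l ≥ 9/10` -/
lemma expl_ge {l : ℝ} (hl : 9 / 10 ≤ l) : 604 / 100 * (1 + 2 * (l - 9 / 10)) ≤ Real.exp (2 * l) := by
  have h1 : (604 : ℝ) / 100 ≤ Real.exp (18 / 10) := by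
    have h := Real.sum_le_exp_of_nonneg (x := 18 / 10) (by norm_num) 9
    simp only [Finset.sum_range_succ, Finset.sum_range_zero, Nat.factorial] at h
    norm_num at h
    linarith
  have h2 : 1 + 2 * (l - 9 / 10) ≤ Real.exp (2 * (l - 9 / 10)) := by
    have := Real.add_one_le_exp (2 * (l - 9 / 10))
    linarith
  have e : Real.exp (2 * l) = Real.exp (18 / 10) * Real.exp (2 * (l - 9 / 10)) := by
    rw [← Real.exp_add]; congr 1; ring
  rw [e]
  exact mul_le_mul h1 h2 (by linarith) (Real.exp_pos _).le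

lemma exp34 : (2116 : ℝ) / 1000 ≤ Real.exp (3 / 4) := by
  have h := Real.sum_le_exp_of_nonneg (x := 3 / 4) (by norm_num) 7
  simp only [Finset.sum_range_succ, Finset.sum_range_zero, Nat.factorial] at h
  norm_num at h
  linarith

/-- facts on the contact point in the tail -/
lemma contact {s l u : ℝ} (hs : s ∈ Ioo (0 : ℝ) 1) (hT : s * Real.exp l < 1)
    (hcap : capF (s * Real.exp l) < l) (hl : 9 / 10 ≤ l)
    (hu : u = Vq (7 / 100) (l - capF (s * Real.exp l))) :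
    0 < u ∧ l - u ≤ 1 / 2 - 23 / 200 * (s * Real.exp l) ^ 8 ∧
    49 / 100 - 23 / 200 * (s * Real.exp l) ^ 8 ≤ l - u ∧ 3 / 8 ≤ l - u ∧
    1 / cc (s * Real.exp u) ≤ 1377 / 1000 ∧ 12 / 25 ≤ Wq (1 / cc (s * Real.exp u)) (l - u) ∧
    0 ≤ -1 + (l - u) * ((1 / cc (s * Real.exp u)) ^ 2 + 1 / cc (s * Real.exp u) - 2) +
      1001 / 2000 * ((1 / cc (s * Real.exp u) + 1) / (1 / cc (s * Real.exp u)) ^ 2) := by
  obtain ⟨hu0, hlh, hc1, hlc, hl2, hp, hQ⟩ := soft_facts hs hT.le hcap hu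
  obtain ⟨hq1, hqQ, hE, hY, hphi⟩ := soft_qQ hs hu0.le hp
  have hT0 : 0 < s * Real.exp l := mul_pos hs.1 (Real.exp_pos _)
  have hT1 : (s * Real.exp l) ^ 8 ≤ 1 := pow_le_one₀ hT0.le hT.le
  have hT8 : 0 ≤ (s * Real.exp l) ^ 8 := by positivity
  have hcd : capF (s * Real.exp l) = 43 / 100 - 23 / 200 * (s * Real.exp l) ^ 8 := rfl
  have hv : 47 / 100 ≤ l - capF (s * Real.exp l) := by rw [hcd]; linarith
  have h1 : 6 / 100 ≤ 7 / 100 * (l - capF (s * Real.exp l)) / (l - capF (s * Real.exp l) + 7 / 100) := by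
    rw [le_div_iff₀ (by linarith)]
    linarith
  have h2 : 7 / 100 * (l - capF (s * Real.exp l)) / (l - capF (s * Real.exp l) + 7 / 100) ≤ 7 / 100 := by
    rw [div_le_iff₀ (by linarith)]
    linarith
  have hlh1 : l - u ≤ 1 / 2 - 23 / 200 * (s * Real.exp l) ^ 8 := by rw [hlh, hcd] at *; linarith
  have hlh2 : 49 / 100 - 23 / 200 * (s * Real.exp l) ^ 8 ≤ l - u := by rw [hlh]; linarith
  have hlh3 : 3 / 8 ≤ l - u := by linarith
  have hTp : s * Real.exp l = s * Real.exp u * Real.exp (l - u) := by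
    rw [mul_assoc, ← Real.exp_add]
    congr 2
    ring
  have hexp : (2116 : ℝ) / 1000 ≤ Real.exp (l - u) ^ 2 := by
    rw [← Real.exp_nat_mul]
    refine exp34.trans (Real.exp_le_exp.2 ?_)
    push_cast
    linarith
  have hT2 : (s * Real.exp l) ^ 2 = (s * Real.exp u) ^ 2 * Real.exp (l - u) ^ 2 := by
    rw [hTp]; ring
  have hT2le : (s * Real.exp l) ^ 2 ≤ 1 := pow_le_one₀ hT0.le hT.le
  have hp2 : 2116 / 1000 * (s * Real.exp u) ^ 2 ≤ (s * Real.exp l) ^ 2 := by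
    rw [hT2]
    have := mul_le_mul_of_nonneg_left hexp (sq_nonneg (s * Real.exp u))
    linarith
  set Q := 1 / cc (s * Real.exp u) with hQd
  have hQ1 : 1 < Q := lt_of_lt_of_le hq1 hqQ
  have hQ0 : 0 < Q := by linarith
  have hQ2 : Q ≤ 1377 / 1000 := by
    by_contra hcon
    push Not at hcon
    have h3 : 1 / Q ^ 2 ≤ 1 / (1377 / 1000) ^ 2 := by
      refine one_div_le_one_div_of_le (by norm_num) ?_
      gcongr
    have h4 : (1 : ℝ) / (1377 / 1000) ^ 2 = 1000000 / 1896129 := by norm_num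
    rw [h4] at h3
    rw [hphi] at hp2
    linarith
  refine ⟨hu0, hlh1, hlh2, hlh3, hQ2, ?_, ?_⟩
  · refine W0 (y := (s * Real.exp l) ^ 8) hQ1.le hQ2 hlh1 ?_
    rw [← hphi]
    have h4 : 4 * (s * Real.exp l) ^ 2 - 3 ≤ (s * Real.exp l) ^ 8 := by
      have e : (s * Real.exp l) ^ 8 = ((s * Real.exp l) ^ 2) ^ 4 := by ring
      rw [e]
      exact aux_z _ (sq_nonneg _)
    linarith
  · refine Z0 hQ1.le (by linarith) (by linarith) ?_
    have he1 : Real.exp (l - u) ^ 2 ≤ Real.exp 1 := by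
      rw [← Real.exp_nat_mul]
      refine Real.exp_le_exp.2 ?_
      push_cast
      linarith
    have hT8b := T8_bound hTp he1 hphi (by linarith)
    linarith

set_option maxHeartbeats 1600000 in
/-- lower bound of `P₀` in the tail -/
lemma P0_low {n : ℕ} {s l u V1 t1 : ℝ} (hs : s ∈ Ioo (0 : ℝ) 1) (hn : 100 ≤ (n : ℝ))
    (hT : s * Real.exp l < 1) (hcap : capF (s * Real.exp l) < l) (hl : 9 / 10 ≤ l)
    (hu : u = Vq (7 / 100) (l - capF (s * Real.exp l)))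
    (hX : 25 / 9 * Real.exp (2 * l) ≤ ((n : ℝ) + 1) * s ^ 2) (hV0 : 0 ≤ V1) (ht0 : 0 ≤ t1) :
    7 / 25 * (((n : ℝ) + 1) * s ^ 2) * l ^ 2 +
      25 / 9 * (s * Real.exp l) ^ 2 * (103 / 100 * l ^ 2 - 3 / 4 * u) - (s * Real.exp l) ^ 2 / 2 + u -
      1 / 2 * (e0F n * (Real.exp (2 * u) - 1)) - V1 * t1 * (e0F n * Real.exp (2 * u)) ≤
      farP0 n 0 (7 / 50) (e0F n) s l u V1 t1 := by
  obtain ⟨hu0, hlh1, hlh2, hlh3, hQ2, hW, hZ⟩ := contact hs hT hcap hl hu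
  obtain ⟨_, _, _, _, _, hp, _⟩ := soft_facts hs hT.le hcap hu
  obtain ⟨hq1, hqQ, hE, hY, hphi⟩ := soft_qQ hs hu0.le hp
  have hc := cc_pos' hs
  have hc2 := cc_sq' hs
  have hG := expl_ge hl
  have hG0 : 604 / 100 ≤ Real.exp (2 * l) := by linarith
  have hT0 : 0 < s * Real.exp l := mul_pos hs.1 (Real.exp_pos _)
  have hT2 : (s * Real.exp l) ^ 2 = s ^ 2 * Real.exp (2 * l) := by
    rw [mul_pow, ← Real.exp_nat_mul]; norm_num
  have hT2le : (s * Real.exp l) ^ 2 ≤ 1 := pow_le_one₀ hT0.le hT.le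
  have hs2 : 0 < s ^ 2 := by have := hs.1; positivity
  have hs2le : s ^ 2 ≤ 100 / 604 := by
    rw [hT2] at hT2le
    have h1 : s ^ 2 * (604 / 100) ≤ s ^ 2 * Real.exp (2 * l) := by gcongr
    linarith
  have hcR := cR_ge hs (by linarith) hT
  have hccq : cc s = 1 / (1 / cc s) := by rw [one_div_one_div]
  have hqc : (1 / cc s) * cc s = 1 := by field_simp
  have hYs : Y s = s ^ 2 * (1 / cc s) ^ 2 := by
    have h1 : s ^ 2 = 1 - cc s ^ 2 := by rw [hc2]; ring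
    rw [Y_eq hs, h1]
    field_simp
  set q := 1 / cc s with hqd
  set Q := 1 / cc (s * Real.exp u) with hQd
  have hq0 : 0 < q := by linarith
  have hQ0 : 0 < Q := by linarith
  have hq2 : q ≤ 11 / 10 := by
    by_contra hcon
    push Not at hcon
    have h1 : 11 / 10 * cc s < q * cc s := mul_lt_mul_of_pos_right hcon hc
    rw [hqc] at h1
    have h2 : cc s ≤ 10 / 11 := by linarith
    have h3 : cc s ^ 2 ≤ (10 / 11) ^ 2 := by gcongr
    norm_num at h3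
    linarith
  have hN : (0 : ℝ) < (n : ℝ) + 1 := by linarith
  have hX1 : 167 / 10 ≤ ((n : ℝ) + 1) * s ^ 2 := by linarith
  have hNY : ((n : ℝ) + 1) * Y s = ((n : ℝ) + 1) * s ^ 2 * q ^ 2 := by rw [hYs]; ring
  have hq1' : 1 ≤ q ^ 2 := one_le_pow₀ hq1.le
  have hsY : s ^ 2 ≤ Y s := by
    rw [hYs]
    exact le_mul_of_one_le_right hs2.le hq1'
  have hTX : (s * Real.exp l) ^ 2 ≤ 9 / 25 * (((n : ℝ) + 1) * s ^ 2 * s ^ 2) := by
    rw [hT2]
    have := mul_le_mul_of_nonneg_right hX hs2.le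
    linarith
  have b1 := T1 (N := (n : ℝ) + 1) (X := ((n : ℝ) + 1) * s ^ 2) (Y := Y s) (q := q) (s2 := s ^ 2)
    (u := u) (l := l) (T2 := (s * Real.exp l) ^ 2) hN.le hq1.le hY hNY hs2.le hsY hX1
    (sq_nonneg _) hTX hu0.le (by linarith) hl
  have hNq : 167 / 20 ≤ ((n : ℝ) + 1) * (q - 1) := by
    have h1 : ((n : ℝ) + 1) * (q - 1) * (q + 1) = ((n : ℝ) + 1) * s ^ 2 * q ^ 2 := by
      rw [← hNY, hY]; ring
    have h2 : ((n : ℝ) + 1) * s ^ 2 * (q + 1) ≤ ((n : ℝ) + 1) * s ^ 2 * (2 * q ^ 2) := by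
      have := aux_q hq1.le
      gcongr
    have h3 : 167 / 20 * (q + 1) ≤ ((n : ℝ) + 1) * (q - 1) * (q + 1) := by
      rw [h1]
      have h4 := mul_le_mul_of_nonneg_right hX1 (sq_nonneg q)
      have h5 := aux_q hq1.le
      linarith
    exact le_of_mul_le_mul_right h3 (by linarith)
  have b2 := T2 hN hq1.le hqQ hq2 hQ2 hlh3 (by
    have : 0 ≤ (s * Real.exp l) ^ 8 := by positivity
    linarith) hNq hZ
  have b3 := mul_nonneg (div_nonneg (sub_nonneg.2 hqQ) hq0.le) b2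
  have hYE : Y s * (Real.exp (2 * u) - 1) = (Q - q) * (Q + q) / Q ^ 2 := by
    rw [hY, eq_div_iff (by positivity), hE]
    ring
  have he0 : e0F n * ((n : ℝ) - 1) = 1001 / 1000 * ((n : ℝ) + 1) - 7002 / 1000 + 10 / ((n : ℝ) + 1) := by
    unfold e0F
    field_simp
    ring
  have b4 : 0 ≤ 1 / q * (Q / (1 + Q) - q / (1 + q)) := by
    refine mul_nonneg (by positivity) ?_
    rw [sub_nonneg, div_le_div_iff₀ (by positivity) (by positivity)]
    have : q * Q = Q * q := mul_comm _ _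
    linarith
  have b5 : 0 ≤ V1 * t1 * (1 / q * Wq Q (l - u)) := by positivity
  have b6 : u ≤ u * (4 * q ^ 2 - 3) := by
    exact le_mul_of_one_le_right hu0.le (by linarith)
  have key : farP0 n 0 (7 / 50) (e0F n) s l u V1 t1 =
      (((((n : ℝ) + 1) - 4) * Y s ^ 2 + (2 * (((n : ℝ) + 1) - 4) * (7 / 50) - 3) * Y s) * l ^ 2 -
        ((n : ℝ) + 1) * (u * ((q - 1) ^ 2 * (q + 2) / q))) +
      (Q - q) / q * (((n : ℝ) + 1) * (-1 + (l - u) * (Q ^ 2 + Q * q + q ^ 2 - 3)) +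
        1 / 2 * (1001 / 1000 * ((n : ℝ) + 1) - 7002 / 1000 + 10 / ((n : ℝ) + 1)) * (q * (Q + q) / Q ^ 2) -
        (l - u) * (4 * (Q ^ 2 + Q * q + q ^ 2) - 3)) + cR s l +
      1 / q * (Q / (1 + Q) - q / (1 + q)) + u * (4 * q ^ 2 - 3) -
      1 / 2 * (e0F n * (Real.exp (2 * u) - 1)) +
      V1 * t1 * (1 / q * Wq Q (l - u)) - V1 * t1 * (e0F n * Real.exp (2 * u)) := by
    have g1 : 1 / 2 * (e0F n * ((((n : ℝ) - 1) * Y s - 1) * (Real.exp (2 * u) - 1))) =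
        1 / 2 * ((e0F n * ((n : ℝ) - 1)) * (Y s * (Real.exp (2 * u) - 1))) -
          1 / 2 * (e0F n * (Real.exp (2 * u) - 1)) := by ring
    unfold farP0
    rw [g1, he0, hYE, ← hqd, ← hQd, hccq]
    generalize cR s l = R
    generalize Wq Q (l - u) = W
    generalize e0F n = e0
    generalize Real.exp (2 * u) = E
    generalize Y s = Yv
    unfold rq
    have hq' : q ≠ 0 := hq0.ne'
    have hQ' : Q ≠ 0 := hQ0.ne'
    have hN' : (n : ℝ) + 1 ≠ 0 := hN.ne'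
    have h1' : 1 + q ≠ 0 := by positivity
    have h2' : 1 + Q ≠ 0 := by positivity
    field_simp
    ring
  rw [key]
  linarith

lemma scA {l G L2 : ℝ} (hl : 9 / 10 ≤ l) (hG : 604 / 100 * (1 + 2 * (l - 9 / 10)) ≤ G)
    (hL : L2 ≤ 69315 / 100000) :
    0 < 7 / 9 * G * l ^ 2 + (l - 1 / 2) + 475 / 1000 + 127 / 1000 * G - 33 / 1000 - 14 / 100 +
      11 / 10 * (2 - 8 * L2 - 33 / 16 * (l - 49 / 200) ^ 2 - 1 / 200) := by
  obtain ⟨t, rfl⟩ : ∃ t, l = 9 / 10 + t := ⟨l - 9 / 10, by ring⟩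
  have ht : 0 ≤ t := by linarith
  have h1 : 604 / 100 * (1 + 2 * t) ≤ G := by
    have : (9 / 10 + t - 9 / 10 : ℝ) = t := by ring
    rw [this] at hG; exact hG
  have h2 : 7 / 9 * (604 / 100 * (1 + 2 * t)) * (9 / 10 + t) ^ 2 ≤ 7 / 9 * G * (9 / 10 + t) ^ 2 := by
    gcongr
  nlinarith [mul_nonneg ht ht, mul_nonneg (mul_nonneg ht ht) ht]

lemma scB1 {l G y : ℝ} (hl : 9 / 10 ≤ l) (hG : 604 / 100 * (1 + 2 * (l - 9 / 10)) ≤ G)
    (hG1 : l ≤ 1 → G ≤ 74 / 10) (hy0 : 0 ≤ y) (hy : y ≤ 1) :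
    0 < G * (7 / 9 * l ^ 2 - 1879 / 10000 - 4968 / 10000 * y) + 72 / 100 * y + (l - 1 / 2) +
      475 / 1000 := by
  have hG0 : 604 / 100 ≤ G := by nlinarith
  have h0 : 81 / 100 ≤ l ^ 2 := by nlinarith
  rcases le_or_gt l 1 with h | h
  · have h1 := hG1 h
    have h2 : -(547 / 10000) ≤ 7 / 9 * l ^ 2 - 1879 / 10000 - 4968 / 10000 * y := by linarith
    nlinarith
  · have h2 : 0 ≤ 7 / 9 * l ^ 2 - 1879 / 10000 - 4968 / 10000 * y := by nlinarith
    have : 0 ≤ G * (7 / 9 * l ^ 2 - 1879 / 10000 - 4968 / 10000 * y) := mul_nonneg (by linarith) h2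
    linarith

lemma scB2 {l G : ℝ} (hl : 9 / 10 ≤ l) (hG : 604 / 100 * (1 + 2 * (l - 9 / 10)) ≤ G) :
    0 < 7 / 9 * G * l ^ 2 + (l - 1 / 2) + 475 / 1000 - 343 / 100 := by
  have hG0 : 604 / 100 ≤ G := by nlinarith
  have h0 : 81 / 100 ≤ l ^ 2 := by nlinarith
  have : 604 / 100 * (81 / 100) ≤ G * l ^ 2 := mul_le_mul hG0 h0 (by norm_num) (by linarith)
  linarith

/-- chord bound of the logarithm on `[1/16, 1]` -/
lemma log_chord {κ : ℝ} (h0 : 1 / 16 ≤ κ) (h1 : κ ≤ 1) :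
    -(64 / 15 * Real.log 2) * (1 - κ) ≤ Real.log κ := by
  have hc := (strictConcaveOn_log_Ioi.concaveOn).2 (show (1 / 16 : ℝ) ∈ Ioi (0 : ℝ) by simp)
    (show (1 : ℝ) ∈ Ioi (0 : ℝ) by simp) (show 0 ≤ 16 / 15 * (1 - κ) by linarith)
    (show 0 ≤ 1 - 16 / 15 * (1 - κ) by linarith) (by ring)
  have e : Real.log (1 / 16) = -(4 * Real.log 2) := by
    rw [one_div, Real.log_inv, show (16 : ℝ) = 2 ^ 4 by norm_num, Real.log_pow]
    push_cast
    ring
  simp only [smul_eq_mul, Real.log_one, mul_zero, add_zero, mul_one] at hc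
  rw [e] at hc
  have e2 : 16 / 15 * (1 - κ) * (1 / 16) + (1 - 16 / 15 * (1 - κ)) = κ := by ring
  rw [e2] at hc
  linarith

/-- logarithm of the tangent parameter -/
lemma log_t {x : ℝ} (hx : 0 < x) : Real.log (528 * x ^ 2) ≤ 8 * Real.log 2 + 33 / 16 * x ^ 2 - 1 := by
  have h1 : 528 * x ^ 2 = 256 * (33 / 16 * x ^ 2) := by ring
  have h2 : (0 : ℝ) < 33 / 16 * x ^ 2 := by positivity
  rw [h1, Real.log_mul (by norm_num) h2.ne', show (256 : ℝ) = 2 ^ 8 by norm_num, Real.log_pow]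
  have := Real.log_le_sub_one_of_pos h2
  push_cast
  linarith

/-- upper bound of `E` -/
lemma expE {l u y : ℝ} (hlh : 49 / 100 - 23 / 200 * y ≤ l - u) (hy0 : 0 ≤ y) (hy : y ≤ 1) :
    Real.exp (2 * u) ≤ 3754 / 10000 * (1 + 283 / 1000 * y) * Real.exp (2 * l) := by
  have h1 : Real.exp (2 * u) ≤ Real.exp (2 * l) * (Real.exp (-(98 / 100)) * Real.exp (23 / 100 * y)) := by
    rw [← Real.exp_add, ← Real.exp_add]
    refine Real.exp_le_exp.2 ?_
    linarith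
  have h2 : Real.exp (23 / 100 * y) ≤ 1 + 283 / 1000 * y := by
    have h := Real.abs_exp_sub_one_sub_id_le (x := 23 / 100 * y) (by
      rw [abs_of_nonneg (by positivity)]; linarith)
    have h3 := (abs_le.1 h).2
    nlinarith
  have h3 : Real.exp (-(98 / 100)) ≤ 3754 / 10000 := by
    have h := Real.sum_le_exp_of_nonneg (x := 98 / 100) (by norm_num) 9
    simp only [Finset.sum_range_succ, Finset.sum_range_zero, Nat.factorial] at h
    norm_num at h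
    rw [Real.exp_neg]
    refine inv_le_of_inv_le₀ (by norm_num) ?_
    norm_num
    linarith
  have h4 : Real.exp (-(98 / 100)) * Real.exp (23 / 100 * y) ≤ 3754 / 10000 * (1 + 283 / 1000 * y) :=
    mul_le_mul h3 h2 (Real.exp_pos _).le (by norm_num)
  have h5 := mul_le_mul_of_nonneg_left h4 (Real.exp_pos (2 * l)).le
  linarith

lemma expE_ge {l u : ℝ} (hlh : l - u ≤ 1 / 2) : 3678 / 10000 * Real.exp (2 * l) ≤ Real.exp (2 * u) := by
  have h1 : Real.exp (2 * l) * Real.exp (-1) ≤ Real.exp (2 * u) := by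
    rw [← Real.exp_add]
    refine Real.exp_le_exp.2 ?_
    linarith
  have h2 : (3678 : ℝ) / 10000 ≤ Real.exp (-1) := by
    rw [Real.exp_neg]
    have := Real.exp_one_lt_d9
    rw [le_inv_comm₀ (by norm_num) (Real.exp_pos 1)]
    norm_num
    linarith
  have h3 := mul_le_mul_of_nonneg_left h2 (Real.exp_pos (2 * l)).le
  linarith



lemma comb {j a b : ℝ} (h0 : 0 ≤ j) (h1 : j ≤ 1) (ha : 0 < a) (hb : 0 < b) : 0 < (1 - j) * a + j * b := by
  rcases eq_or_lt_of_le h0 with h | h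
  · rw [← h]; simpa using ha
  · have := mul_pos h hb
    have := mul_nonneg (sub_nonneg.2 h1) ha.le
    linarith

end TailN


open TailN in
set_option maxHeartbeats 4000000 in
/-- **the tail `l ≥ 9/10`, `k ≤ 0`** -/
theorem PStar_pos_tailneg {n : ℕ} (hn : 23 ≤ n) {s l k : ℝ} (h : FarC n s l k) (hl : 9 / 10 ≤ l)
    (hk : k ≤ 0) : 0 < PStar n s l k := by
  obtain ⟨hs, hx2, hT, hcap, hC1, hC2, hk0, hk1, hk2⟩ := h
  have hn23 : (23 : ℝ) ≤ n := by exact_mod_cast hn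
  have hc := cc_pos' hs
  have hc2 := cc_sq' hs
  have hs0 := hs.1
  have hG := expl_ge hl
  have hG0 : 604 / 100 ≤ Real.exp (2 * l) := by linarith
  have hN : (0 : ℝ) < (n : ℝ) + 1 := by linarith
  have hel : Real.exp (2 * l) = Real.exp l ^ 2 := by rw [← Real.exp_nat_mul]; norm_num
  have hel0 := Real.exp_pos l
  have hel1 : 245 / 100 ≤ Real.exp l := by
    by_contra hcon
    push Not at hcon
    have h1 : Real.exp l ^ 2 ≤ (245 / 100) ^ 2 := by gcongr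
    norm_num at h1
    linarith
  -- `x ≥ 7/2`
  have hx : 7 / 2 ≤ s * Real.sqrt ((n : ℝ) + 1) := by
    by_contra hcon
    push Not at hcon
    have h1 := hC1 hcon.le
    have h2 : 1 / (2 * ((n : ℝ) + 1)) ≤ 1 / 48 :=
      one_div_le_one_div_of_le (by norm_num) (by linarith)
    have h3 : (73 / 200 + 1 / (2 * ((n : ℝ) + 1))) * (s * Real.sqrt ((n : ℝ) + 1)) ≤
        (73 / 200 + 1 / 48) * (7 / 2) := by
      refine mul_le_mul (by linarith) hcon.le (by linarith) (by norm_num)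
    have h4 : ((73 : ℝ) / 200 + 1 / 48) * (7 / 2) = 3241 / 2400 := by norm_num
    rw [h4] at h3
    linarith
  have hex := hC2 hx
  have hX : 25 / 9 * Real.exp (2 * l) ≤ ((n : ℝ) + 1) * s ^ 2 := by
    have h1 : Real.exp l ^ 2 ≤ (3 / 5 * (s * Real.sqrt ((n : ℝ) + 1))) ^ 2 := by gcongr
    have h2 : (3 / 5 * (s * Real.sqrt ((n : ℝ) + 1))) ^ 2 = 9 / 25 * (((n : ℝ) + 1) * s ^ 2) := by
      rw [mul_pow, mul_pow, Real.sq_sqrt hN.le]; ring
    rw [hel]
    linarith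
  have hT0 : 0 < s * Real.exp l := mul_pos hs.1 (Real.exp_pos _)
  have hT2 : (s * Real.exp l) ^ 2 = s ^ 2 * Real.exp (2 * l) := by
    rw [mul_pow, hel]
  have hT2le : (s * Real.exp l) ^ 2 ≤ 1 := pow_le_one₀ hT0.le hT.le
  have hs2 : 0 < s ^ 2 := by positivity
  have hNG : 25 / 9 * Real.exp (2 * l) ^ 2 ≤ (n : ℝ) + 1 := by
    have h1 : 25 / 9 * Real.exp (2 * l) * Real.exp (2 * l) ≤ ((n : ℝ) + 1) * (s ^ 2 * Real.exp (2 * l)) := by
      have := mul_le_mul_of_nonneg_right hX (Real.exp_pos (2 * l)).le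
      linarith
    have h2 : ((n : ℝ) + 1) * (s ^ 2 * Real.exp (2 * l)) ≤ ((n : ℝ) + 1) * 1 := by
      rw [← hT2]
      gcongr
    linarith
  have hnl : 1000 / 9 * l ≤ (n : ℝ) := by
    have h1 : (604 / 100) ^ 2 * (1 + 4 * (l - 9 / 10)) ≤ Real.exp (2 * l) ^ 2 := by
      have h2 : (604 / 100 * (1 + 2 * (l - 9 / 10))) ^ 2 ≤ Real.exp (2 * l) ^ 2 := by
        have : 0 ≤ 1 + 2 * (l - 9 / 10) := by linarith
        gcongr
      have h3 : (604 / 100 * (1 + 2 * (l - 9 / 10))) ^ 2 =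
        (604 / 100) ^ 2 * (1 + 4 * (l - 9 / 10)) + (604 / 100) ^ 2 * 4 * (l - 9 / 10) ^ 2 := by ring
      have h4 : 0 ≤ (604 / 100) ^ 2 * 4 * (l - 9 / 10) ^ 2 := by positivity
      linarith
    linarith
  have hn100 : (100 : ℝ) ≤ n := by linarith
  -- the multiplier of the logarithm
  have hmu0 : 0 ≤ muF n := by unfold muF; apply div_nonneg <;> linarith
  have hmu1 : muF n ≤ 10889 / 10000 := by
    unfold muF
    rw [div_le_iff₀ (by linarith)]
    linarith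
  have hexpn : Real.exp (l / n) ≤ 10091 / 10000 := by
    have h1 : l / n ≤ 9 / 1000 := by
      rw [div_le_iff₀ (by linarith)]
      linarith
    have h2 : Real.exp (l / n) ≤ Real.exp (9 / 1000) := Real.exp_le_exp.2 h1
    have h3 : Real.exp (9 / 1000) ≤ 10091 / 10000 := by
      have h := Real.abs_exp_sub_one_sub_id_le (x := 9 / 1000) (by rw [abs_of_nonneg] <;> norm_num)
      have h4 := (abs_le.1 h).2
      norm_num at h4
      linarith
    exact h2.trans h3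
  have hM : muF n * (1 - 1 / (n : ℝ)) * Real.exp (l / n) ≤ 11 / 10 := by
    have h1 : muF n * (1 - 1 / (n : ℝ)) ≤ 10889 / 10000 := by
      have h2 : 0 ≤ 1 / (n : ℝ) := by positivity
      have h3 := mul_nonneg hmu0 h2
      linarith
    have h3 : 0 ≤ muF n * (1 - 1 / (n : ℝ)) := by
      have h2 : 1 / (n : ℝ) ≤ 1 := by rw [div_le_one (by linarith)]; linarith
      exact mul_nonneg hmu0 (by linarith)
    calc muF n * (1 - 1 / (n : ℝ)) * Real.exp (l / n) ≤ 10889 / 10000 * (10091 / 10000) := by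
          gcongr
      _ ≤ 11 / 10 := by norm_num
  -- names
  obtain ⟨hu0, hlh1, hlh2, hlh3, hQ2, hW, hZ⟩ :=
    contact hs hT hcap hl (u := Uf s l) rfl
  obtain ⟨_, _, _, _, _, hp, _⟩ := soft_facts hs hT.le hcap (u := Uf s l) rfl
  set u := Uf s l with hu
  set T := s * Real.exp l with hTd
  set V1 := Vq' (7 / 100) (l - capF T) with hV1
  set t1 := 23 / 25 * T ^ 8 with ht1
  have hy0 : 0 ≤ T ^ 8 := by positivity
  have hy1 : T ^ 8 ≤ 1 := pow_le_one₀ hT0.le hT.le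
  have hyT : T ^ 8 ≤ T ^ 2 := by
    have e : T ^ 8 = T ^ 2 * (T ^ 2) ^ 3 := by ring
    rw [e]
    have : (T ^ 2) ^ 3 ≤ 1 := pow_le_one₀ (sq_nonneg _) hT2le
    exact mul_le_of_le_one_right (sq_nonneg _) this
  have ht10 : 0 ≤ t1 := by rw [ht1]; positivity
  have ht11 : t1 ≤ 23 / 25 := by rw [ht1]; linarith
  have hcd : capF T = 43 / 100 - 23 / 200 * T ^ 8 := rfl
  have hv0 : 47 / 100 ≤ l - capF T := by rw [hcd]; linarith
  have hv1 : l - capF T ≤ l - 63 / 200 := by rw [hcd]; linarith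
  have hVd : V1 = 1 - (7 / 100) ^ 2 / (l - capF T + 7 / 100) ^ 2 := by
    rw [hV1, Vq'_of_nonneg (by linarith)]
  have hx0 : 0 < l - 49 / 200 := by linarith
  have hVlo : 983 / 1000 ≤ V1 := by
    rw [hVd]
    have h1 : (7 / 100) ^ 2 / (l - capF T + 7 / 100) ^ 2 ≤ 17 / 1000 := by
      rw [div_le_iff₀ (by positivity)]
      have h2 : (54 / 100) ^ 2 ≤ (l - capF T + 7 / 100) ^ 2 := by
        have : 54 / 100 ≤ l - capF T + 7 / 100 := by linarith
        gcongr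
      norm_num at h2 ⊢
      linarith
    linarith
  have hVhi : V1 ≤ 1 := by
    rw [hVd]
    have : 0 ≤ (7 / 100) ^ 2 / (l - capF T + 7 / 100) ^ 2 := by positivity
    linarith
  have hV2 : (7 / 100) ^ 2 / (l - 49 / 200) ^ 2 ≤ 1 - V1 := by
    have h1 : (7 / 100) ^ 2 / (l - 49 / 200) ^ 2 ≤ (7 / 100) ^ 2 / (l - capF T + 7 / 100) ^ 2 := by
      refine div_le_div_of_nonneg_left (by norm_num) (by positivity) ?_
      have : 0 ≤ l - capF T + 7 / 100 := by linarith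
      gcongr
      linarith
    rw [hVd]
    linarith
  have hV0 : 0 ≤ V1 := by linarith
  have hP0 := P0_low (n := n) (u := u) (V1 := V1) (t1 := t1) hs hn100 hT hcap hl rfl hX hV0 ht10
  rw [← hTd] at hP0
  -- the density
  have hSU : SUf s l k = V1 * (k + t1 * (1 + k)) := by
    unfold SUf
    rw [← hTd, ← hV1, ht1]
    unfold capF'
    ring
  have hPF : PF n 0 s l k = farP0 n 0 (7 / 50) (e0F n) s l u V1 t1 + farB (e0F n) s l u V1 t1 * k +
      farA2 s l u V1 * KK k - 7 / 50 * (cc s ^ 2 * k ^ 2) := by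
    unfold PF
    rw [hSU, ← hu]
    have := far_eq (n := n) (μ := 0) (β := 7 / 50) (e0 := e0F n) (lm := 0) (s := s) (l := l) (k := k)
      (u := u) (V1 := V1) (t1 := t1) hs hp hk0
    rw [this]
    ring
  -- constants
  have he0a : 95 / 100 ≤ e0F n := by
    unfold e0F
    have : 95 / 100 ≤ ((n : ℝ) - 4) / ((n : ℝ) + 1) := by
      rw [le_div_iff₀ hN]; linarith
    linarith
  have he0b : e0F n ≤ 1001 / 1000 := by
    unfold e0F
    have : ((n : ℝ) - 4) / ((n : ℝ) + 1) ≤ 1 := by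
      rw [div_le_iff₀ hN]; linarith
    linarith
  have hE1 := expE (y := T ^ 8) hlh2 hy0 hy1
  have hE2 := expE_ge (l := l) (u := u) (by linarith)
  have hcge : 913 / 1000 ≤ cc s := by
    have h1 : s ^ 2 * (604 / 100) ≤ 1 := by
      rw [hT2] at hT2le
      have h1 : s ^ 2 * (604 / 100) ≤ s ^ 2 * Real.exp (2 * l) := by gcongr
      linarith
    by_contra hcon
    push Not at hcon
    have h3 : cc s ^ 2 ≤ (913 / 1000) ^ 2 := by gcongr
    norm_num at h3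
    linarith
  have hcle : cc s ≤ 1 := by
    by_contra hcon
    push Not at hcon
    have := one_lt_pow₀ hcon (two_ne_zero)
    linarith
  have ha : aq s ≤ 1133 / 1000 := by
    unfold aq
    have h1 : 867 / 1000 ≤ 2 * cc s ^ 2 / (1 + cc s) := by
      rw [le_div_iff₀ (by positivity)]
      have := mul_le_mul_of_nonneg_right hcge hc.le
      linarith
    linarith
  have hYl : 0 ≤ 2 * (Y s * l) := by
    have := Y_nonneg hs
    positivity
  -- `ρ`
  set ρ := farA2 s l u V1 with hρ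
  have hρ1 : 11 / 10 * (1 / (528 * (l - 49 / 200) ^ 2)) ≤ ρ := by
    rw [hρ]
    unfold farA2
    have h1 : 913 / 1000 * (12 / 25) ≤ cc s * Wq (1 / cc (s * Real.exp u)) (l - u) :=
      mul_le_mul hcge hW (by norm_num) hc.le
    have h2 : (7 / 100) ^ 2 / (l - 49 / 200) ^ 2 * (913 / 1000 * (12 / 25)) ≤
        (1 - V1) * (cc s * Wq (1 / cc (s * Real.exp u)) (l - u)) :=
      mul_le_mul hV2 h1 (by norm_num) (by linarith)
    refine le_trans ?_ h2
    have e : (7 / 100) ^ 2 / (l - 49 / 200) ^ 2 * (913 / 1000 * (12 / 25)) =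
        ((7 / 100) ^ 2 * (913 / 1000 * (12 / 25))) * (1 / (l - 49 / 200) ^ 2) := by ring
    have e2 : 11 / 10 * (1 / (528 * (l - 49 / 200) ^ 2)) = (11 / 10 / 528) * (1 / (l - 49 / 200) ^ 2) := by
      field_simp
    rw [e, e2]
    refine mul_le_mul_of_nonneg_right (by norm_num) (by positivity)
  have hρ0 : 0 ≤ ρ := le_trans (by positivity) hρ1
  have hkk := far_k_part (n := n) (ρ := ρ) (B := farB (e0F n) s l u V1 t1 + ρ)
    (b := 7 / 50 * cc s ^ 2) (μ := muF n) (M := 11 / 10) (l := l) (k := k) (by omega) hmu0 hk0 hk hM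
  have hKK : KK k = 1 / (1 + k) - 1 + k := by
    unfold KK
    have : 1 + k ≠ 0 := hk0.ne'
    field_simp
    ring
  have hPS : PStar n s l k = farP0 n 0 (7 / 50) (e0F n) s l u V1 t1 +
      (ρ * (1 / (1 + k) - 1) + (farB (e0F n) s l u V1 t1 + ρ) * k - 7 / 50 * cc s ^ 2 * k ^ 2 -
        muF n * (Real.exp (l / n) * hm n k)) := by
    unfold PStar
    rw [hPF, hKK]
    ring
  have hB : farB (e0F n) s l u V1 t1 + ρ =
      aq s - 2 * (Y s * l) - e0F n * (Real.exp (2 * u) * (V1 * (1 + t1))) := by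
    rw [hρ]; unfold farB; ring
  rw [hB] at hkk hPS
  rw [hPS]
  have hκ1 : 1 + k ≤ 1 := by linarith
  set κ := 1 + k with hκ
  set j := 1 - κ with hj
  have hj0 : 0 ≤ j := by rw [hj]; linarith
  have hj1 : j ≤ 1 := by rw [hj]; linarith
  set E := Real.exp (2 * u) with hE
  set G := Real.exp (2 * l) with hGd
  set e0 := e0F n with he0
  have hE0 : 0 < E := Real.exp_pos _
  have hG1 : 0 < G := Real.exp_pos _
  -- common part
  have hXl : 7 / 9 * G * l ^ 2 ≤ 7 / 25 * (((n : ℝ) + 1) * s ^ 2) * l ^ 2 := by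
    have := mul_le_mul_of_nonneg_right hX (sq_nonneg l)
    linarith
  have hul : u ≤ l - 3 / 8 := by linarith
  have hul2 : l - 1 / 2 ≤ u := by linarith
  have hTp : 72 / 100 * T ^ 2 ≤ 25 / 9 * T ^ 2 * (103 / 100 * l ^ 2 - 3 / 4 * u) - T ^ 2 / 2 := by
    have h1 : 4405 / 10000 ≤ 103 / 100 * l ^ 2 - 3 / 4 * u := by
      have := sq_nonneg (l - 9 / 10)
      linarith
    have h2 := mul_le_mul_of_nonneg_left h1 (sq_nonneg T)
    linarith [sq_nonneg T]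
  have hT2n := sq_nonneg T
  have hcj : 7 / 50 * cc s ^ 2 * j ^ 2 ≤ 7 / 50 * j := by
    have h1 : cc s ^ 2 ≤ 1 := by linarith
    have h2 : j ^ 2 ≤ j := by
      have := mul_le_mul_of_nonneg_left hj1 hj0
      linarith [sq j]
    have h3 : cc s ^ 2 * j ^ 2 ≤ 1 * j := mul_le_mul h1 h2 (sq_nonneg _) (by norm_num)
    linarith
  have hVt : V1 * t1 ≤ 23 / 25 * T ^ 8 := by
    have := mul_le_mul_of_nonneg_right hVhi ht10
    rw [one_mul] at this
    rw [← ht1]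
    exact this
  have he0E : 0 ≤ e0 * E := by positivity
  -- the `E` terms
  rcases le_total κ (1 / 16) with h16 | h16
  · -- small κ
    have ht0 : 0 < 1 / (528 * (l - 49 / 200) ^ 2) := by positivity
    have htan := gk_tan (D := 11 / 10 - (aq s - 2 * (Y s * l) - e0 * (E * (V1 * (1 + t1)))))
      (b := 7 / 50 * cc s ^ 2) (κ := κ) (by norm_num : (0 : ℝ) ≤ 11 / 10) hk0 hκ1 ht0 hρ1
    have hlog : -(8 * Real.log 2 + 33 / 16 * (l - 49 / 200) ^ 2 - 1) ≤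
        Real.log (1 / (528 * (l - 49 / 200) ^ 2)) := by
      rw [one_div, Real.log_inv]
      have := log_t hx0
      linarith
    have htle : 1 / (528 * (l - 49 / 200) ^ 2) ≤ 1 / 200 := by
      refine one_div_le_one_div_of_le (by norm_num) ?_
      have : (655 / 1000) ^ 2 ≤ (l - 49 / 200) ^ 2 := by
        have : 655 / 1000 ≤ l - 49 / 200 := by linarith
        gcongr
      norm_num at this
      linarith
    have hfin := scA (L2 := Real.log 2) hl hG (by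
      have := Real.log_two_lt_d9
      linarith)
    have hj16 : 15 / 16 ≤ j := by rw [hj]; linarith
    -- E-part: e0 E V1 (1+t1) j - e0 E / 2 - V1 t1 e0 E
    have hEp : 364 / 1000 * (e0 * E) ≤ e0 * (E * (V1 * (1 + t1))) * j - 1 / 2 * (e0 * E) -
        V1 * t1 * (e0 * E) := by
      have h1 : 364 / 1000 ≤ V1 * (1 + t1) * j - 1 / 2 - V1 * t1 := by
        have h2 : V1 * t1 * (1 - j) ≤ 1 * (23 / 25) * (1 / 16) := by
          have : 1 - j ≤ 1 / 16 := by linarith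
          have h10 : 0 ≤ 1 - j := by linarith
          gcongr
        have h3 : 983 / 1000 * (15 / 16) ≤ V1 * j := mul_le_mul hVlo hj16 (by norm_num) hV0
        linarith
      have h4 := mul_le_mul_of_nonneg_right h1 he0E
      linarith
    have hEp2 : 95 / 100 * (3678 / 10000 * G) ≤ e0 * E := mul_le_mul he0a hE2 (by positivity) (by linarith)
    have hja : -(33 / 1000) ≤ (11 / 10 - aq s) * j := by
      have := mul_le_mul_of_nonneg_right (show -(33 / 1000) ≤ 11 / 10 - aq s by linarith) hj0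
      linarith
    have hYj : 0 ≤ 2 * (Y s * l) * j := mul_nonneg hYl hj0
    rw [← hj] at htan
    linarith
  · -- large κ
    have hlc := log_chord h16 hκ1
    have hL2 : Real.log 2 < 69315 / 100000 := by
      have := Real.log_two_lt_d9
      linarith
    have hgk : 11 / 10 * (-(64 / 15 * Real.log 2) * j) +
        (11 / 10 - (aq s - 2 * (Y s * l) - e0 * (E * (V1 * (1 + t1))))) * j - 7 / 50 * cc s ^ 2 * j ^ 2 ≤
        gk ρ (11 / 10 - (aq s - 2 * (Y s * l) - e0 * (E * (V1 * (1 + t1))))) (7 / 50 * cc s ^ 2)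
          (11 / 10) κ := by
      unfold gk
      have h1 : 0 ≤ ρ * (1 / κ - 1) := by
        refine mul_nonneg hρ0 ?_
        rw [sub_nonneg, le_div_iff₀ hk0]
        linarith
      rw [← hj]
      linarith
    have hYj : 0 ≤ 2 * (Y s * l) * j := mul_nonneg hYl hj0
    have hG1' : l ≤ 1 → G ≤ 74 / 10 := by
      intro h1
      have h2 : G ≤ Real.exp 1 ^ 2 := by
        rw [hGd, ← Real.exp_nat_mul]
        refine Real.exp_le_exp.2 ?_
        push_cast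
        linarith
      have h3 : Real.exp 1 ^ 2 ≤ (27183 / 10000) ^ 2 := by
        have := Real.exp_one_lt_d9
        have h4 := Real.exp_pos 1
        gcongr
        linarith
      have h5 : ((27183 : ℝ) / 10000) ^ 2 ≤ 74 / 10 := by norm_num
      linarith
    have hfin1 := scB1 (y := T ^ 8) hl hG hG1' hy0 hy1
    have hfin2 := scB2 hl hG
    -- A - V1 t1 e0 E > 0
    have hA1 : 0 < 7 / 9 * G * l ^ 2 + 72 / 100 * T ^ 2 + u - 1 / 2 * (e0 * (E - 1)) - V1 * t1 * (e0 * E) := by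
      have h1 : 1 / 2 * (e0 * E) + V1 * t1 * (e0 * E) ≤
          (1 / 2 + 23 / 25 * T ^ 8) * (1001 / 1000 * (3754 / 10000 * (1 + 283 / 1000 * T ^ 8) * G)) := by
        have h2 : e0 * E ≤ 1001 / 1000 * (3754 / 10000 * (1 + 283 / 1000 * T ^ 8) * G) :=
          mul_le_mul he0b hE1 hE0.le (by norm_num)
        have h3 : 1 / 2 + V1 * t1 ≤ 1 / 2 + 23 / 25 * T ^ 8 := by linarith
        have h4 := mul_le_mul h3 h2 he0E (by positivity)
        linarith
      have h5 : (1 / 2 + 23 / 25 * T ^ 8) * (1001 / 1000 * (3754 / 10000 * (1 + 283 / 1000 * T ^ 8) * G)) ≤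
          G * (1879 / 10000 + 4968 / 10000 * T ^ 8) := by
        have h6 := aux_y hy0 hy1
        have := mul_le_mul_of_nonneg_right h6 hG1.le
        linarith
      linarith
    have hA2 : 0 < 7 / 9 * G * l ^ 2 + 72 / 100 * T ^ 2 + u - 1 / 2 * (e0 * (E - 1)) +
        e0 * (E * V1) - 343 / 100 := by
      have h1 := mul_le_mul_of_nonneg_left hVlo he0E
      linarith
    have hja : -(33 / 1000) * j ≤ (11 / 10 - aq s) * j := by
      refine mul_le_mul_of_nonneg_right ?_ hj0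
      linarith
    have hlj : -(11 / 10 * (64 / 15 * (69315 / 100000))) * j ≤ 11 / 10 * (-(64 / 15 * Real.log 2) * j) := by
      have h1 : -(11 / 10 * (64 / 15 * (69315 / 100000))) ≤ 11 / 10 * (-(64 / 15 * Real.log 2)) := by
        linarith
      have h2 := mul_le_mul_of_nonneg_right h1 hj0
      linarith
    have hc1 := comb hj0 hj1 hA1 hA2
    linarith

end Crest.Agent.R230.WR
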