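import Mathlib

/-!
# Row 230: a small verified checker for positivity of polynomials in two variables on a box

Polynomials are lists (low degree first) of integers, polynomials in two variables are lists
(over the powers of the second variable) of polynomials in the first variable.
The test substitutes `x = (u + w z)/(d (1 + z))`, clears denominators and looks whether all
coefficients are nonnegative (this is the test of Bernstein).
-/

set_option autoImplicit false

namespace Crest.Agent.R230.PolyC

/-! ## one variable -/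

/-- value of a polynomial -/
noncomputable def ev : List ℤ → ℝ → ℝ
  | [], _ => 0
  | a :: L, x => (a : ℝ) + x * ev L x

/-- sum (written with the recursor: fast in the kernel) -/
def add (L : List ℤ) : List ℤ → List ℤ :=
  List.rec (motive := fun _ => List ℤ → List ℤ) (fun M => M)
    (fun a L' ih M => List.rec (motive := fun _ => List ℤ) (a :: L')
      (fun b M' _ => Int.add a b :: ih M') M) L

theorem add_nil' (M : List ℤ) : add [] M = M := rfl
theorem add_cons_nil (a : ℤ) (L : List ℤ) : add (a :: L) [] = a :: L := rfl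
theorem add_cons_cons (a b : ℤ) (L M : List ℤ) : add (a :: L) (b :: M) = (a + b) :: add L M := rfl

/-- multiple by an integer -/
def sm (k : ℤ) (L : List ℤ) : List ℤ :=
  List.rec (motive := fun _ => List ℤ) [] (fun a _ ih => Int.mul k a :: ih) L

theorem sm_nil (k : ℤ) : sm k [] = [] := rfl
theorem sm_cons (k a : ℤ) (L : List ℤ) : sm k (a :: L) = (k * a) :: sm k L := rfl

/-- product -/
def mul (L M : List ℤ) : List ℤ :=
  List.rec (motive := fun _ => List ℤ) [] (fun a _ ih => add (sm a M) (0 :: ih)) L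

theorem mul_nil' (M : List ℤ) : mul [] M = [] := rfl
theorem mul_cons (a : ℤ) (L M : List ℤ) : mul (a :: L) M = add (sm a M) (0 :: mul L M) := rfl

@[simp] theorem ev_nil (x : ℝ) : ev [] x = 0 := rfl
@[simp] theorem ev_cons (a : ℤ) (L : List ℤ) (x : ℝ) : ev (a :: L) x = a + x * ev L x := rfl

@[simp] theorem ev_add (L M : List ℤ) (x : ℝ) : ev (add L M) x = ev L x + ev M x := by
  induction L generalizing M with
  | nil => simp [add_nil']
  | cons a L ih =>
    cases M with
    | nil => simp [add_cons_nil]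
    | cons b M => simp only [add_cons_cons, ev_cons, ih]; push_cast; ring

@[simp] theorem ev_sm (k : ℤ) (L : List ℤ) (x : ℝ) : ev (sm k L) x = k * ev L x := by
  induction L with
  | nil => simp [sm_nil]
  | cons a L ih => simp only [sm_cons, ev_cons, ih]; push_cast; ring

@[simp] theorem ev_mul (L M : List ℤ) (x : ℝ) : ev (mul L M) x = ev L x * ev M x := by
  induction L with
  | nil => simp [mul_nil']
  | cons a L ih => simp only [mul_cons, ev_cons, ev_add, ev_sm, ih]; push_cast; ring

/-- sign test -/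
def nng : ℤ → Bool
  | Int.ofNat _ => true
  | Int.negSucc _ => false

theorem nng_iff (a : ℤ) : nng a = true ↔ 0 ≤ a := by
  cases a with
  | ofNat n => simp [nng]
  | negSucc n => simp [nng, Int.negSucc_not_nonneg]

/-- all coefficients are nonnegative -/
def nn (L : List ℤ) : Bool :=
  List.rec (motive := fun _ => Bool) true (fun a _ ih => and (nng a) ih) L

theorem nn_cons (a : ℤ) (L : List ℤ) : nn (a :: L) = (nng a && nn L) := rfl

theorem ev_nonneg {L : List ℤ} (h : nn L = true) {x : ℝ} (hx : 0 ≤ x) : 0 ≤ ev L x := by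
  induction L with
  | nil => simp
  | cons a L ih =>
    simp only [nn_cons, Bool.and_eq_true, nng_iff] at h
    have h1 : (0 : ℝ) ≤ a := by exact_mod_cast h.1
    have h2 := ih h.2
    simp only [ev_cons]
    positivity

/-! ## two variables -/

/-- value of a polynomial in two variables -/
noncomputable def ev2 : List (List ℤ) → ℝ → ℝ → ℝ
  | [], _, _ => 0
  | A :: L, x, y => ev A x + y * ev2 L x y

/-- sum -/
def add2 (L : List (List ℤ)) : List (List ℤ) → List (List ℤ) :=
  List.rec (motive := fun _ => List (List ℤ) → List (List ℤ)) (fun M => M)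
    (fun a L' ih M => List.rec (motive := fun _ => List (List ℤ)) (a :: L')
      (fun b M' _ => add a b :: ih M') M) L

theorem add2_nil' (M : List (List ℤ)) : add2 [] M = M := rfl
theorem add2_cons_nil (a : List ℤ) (L : List (List ℤ)) : add2 (a :: L) [] = a :: L := rfl
theorem add2_cons_cons (a b : List ℤ) (L M : List (List ℤ)) :
    add2 (a :: L) (b :: M) = add a b :: add2 L M := rfl

/-- multiple by an integer -/
def sm2 (k : ℤ) (L : List (List ℤ)) : List (List ℤ) :=
  List.rec (motive := fun _ => List (List ℤ)) [] (fun a _ ih => sm k a :: ih) L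

theorem sm2_nil (k : ℤ) : sm2 k [] = [] := rfl
theorem sm2_cons (k : ℤ) (a : List ℤ) (L : List (List ℤ)) : sm2 k (a :: L) = sm k a :: sm2 k L := rfl

/-- multiple by a polynomial in the first variable -/
def pm2 (P : List ℤ) (L : List (List ℤ)) : List (List ℤ) :=
  List.rec (motive := fun _ => List (List ℤ)) [] (fun a _ ih => mul P a :: ih) L

theorem pm2_nil (P : List ℤ) : pm2 P [] = [] := rfl
theorem pm2_cons (P : List ℤ) (a : List ℤ) (L : List (List ℤ)) :
    pm2 P (a :: L) = mul P a :: pm2 P L := rfl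

/-- product -/
def mul2 (L M : List (List ℤ)) : List (List ℤ) :=
  List.rec (motive := fun _ => List (List ℤ)) [] (fun a _ ih => add2 (pm2 a M) ([] :: ih)) L

theorem mul2_nil' (M : List (List ℤ)) : mul2 [] M = [] := rfl
theorem mul2_cons (a : List ℤ) (L M : List (List ℤ)) :
    mul2 (a :: L) M = add2 (pm2 a M) ([] :: mul2 L M) := rfl

@[simp] theorem ev2_nil (x y : ℝ) : ev2 [] x y = 0 := rfl
@[simp] theorem ev2_cons (A : List ℤ) (L : List (List ℤ)) (x y : ℝ) :
    ev2 (A :: L) x y = ev A x + y * ev2 L x y := rfl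

@[simp] theorem ev2_add (L M : List (List ℤ)) (x y : ℝ) :
    ev2 (add2 L M) x y = ev2 L x y + ev2 M x y := by
  induction L generalizing M with
  | nil => simp [add2_nil']
  | cons a L ih =>
    cases M with
    | nil => simp [add2_cons_nil]
    | cons b M => simp only [add2_cons_cons, ev2_cons, ev_add, ih]; ring

@[simp] theorem ev2_sm (k : ℤ) (L : List (List ℤ)) (x y : ℝ) :
    ev2 (sm2 k L) x y = k * ev2 L x y := by
  induction L with
  | nil => simp [sm2_nil]
  | cons a L ih => simp only [sm2_cons, ev2_cons, ev_sm, ih]; ring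

@[simp] theorem ev2_pm (P : List ℤ) (L : List (List ℤ)) (x y : ℝ) :
    ev2 (pm2 P L) x y = ev P x * ev2 L x y := by
  induction L with
  | nil => simp [pm2_nil]
  | cons a L ih => simp only [pm2_cons, ev2_cons, ev_mul, ih]; ring

@[simp] theorem ev2_mul (L M : List (List ℤ)) (x y : ℝ) :
    ev2 (mul2 L M) x y = ev2 L x y * ev2 M x y := by
  induction L with
  | nil => simp [mul2_nil']
  | cons a L ih => simp only [mul2_cons, ev2_cons, ev2_add, ev2_pm, ev_nil, ih]; ring

/-- all coefficients are nonnegative -/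
def nn2 (L : List (List ℤ)) : Bool :=
  List.rec (motive := fun _ => Bool) true (fun a _ ih => and (nn a) ih) L

theorem nn2_cons (a : List ℤ) (L : List (List ℤ)) : nn2 (a :: L) = (nn a && nn2 L) := rfl

theorem ev2_nonneg {L : List (List ℤ)} (h : nn2 L = true) {x y : ℝ} (hx : 0 ≤ x) (hy : 0 ≤ y) :
    0 ≤ ev2 L x y := by
  induction L with
  | nil => simp
  | cons a L ih =>
    simp only [nn2_cons, Bool.and_eq_true] at h
    have h1 := ev_nonneg h.1 hx
    have h2 := ih h.2
    simp only [ev2_cons]
    positivity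

/-! ## the substitution in one variable -/

/-- product with `u + w z` -/
def ml (u w : ℤ) (L : List ℤ) : List ℤ := add (sm u L) (0 :: sm w L)

@[simp] theorem ev_ml (u w : ℤ) (L : List ℤ) (z : ℝ) : ev (ml u w L) z = (u + w * z) * ev L z := by
  simp only [ml, ev_add, ev_sm, ev_cons]; push_cast; ring

/-- `(d (1 + z))^n` -/
def pw (d : ℤ) : ℕ → List ℤ
  | 0 => [1]
  | n + 1 => ml d d (pw d n)

@[simp] theorem ev_pw (d : ℤ) (n : ℕ) (z : ℝ) : ev (pw d n) z = (d * (1 + z)) ^ n := by
  induction n with
  | zero => simp [pw]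
  | succ n ih => simp only [pw, ev_ml, ih, pow_succ]; ring

/-- the substitution -/
def mob (u w d : ℤ) : List ℤ → List ℤ
  | [] => []
  | a :: L => add (sm a (pw d (L.length + 1))) (ml u w (mob u w d L))

theorem ev_mob (u w d : ℤ) (L : List ℤ) {x z : ℝ} (hx : x * (d * (1 + z)) = u + w * z) :
    ev (mob u w d L) z = (d * (1 + z)) ^ L.length * ev L x := by
  induction L with
  | nil => simp [mob]
  | cons a L ih =>
    simp only [mob, ev_add, ev_sm, ev_pw, ev_ml, ih, ev_cons, List.length_cons, ← hx]
    ring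

/-- padding with zeros to length `n` -/
def padTo : ℕ → List ℤ → List ℤ
  | 0, L => L
  | n + 1, [] => 0 :: padTo n []
  | n + 1, a :: L => a :: padTo n L

theorem ev_padTo (n : ℕ) (L : List ℤ) (x : ℝ) : ev (padTo n L) x = ev L x := by
  induction n generalizing L with
  | zero => rfl
  | succ n ih =>
    cases L with
    | nil => simp [padTo, ih]
    | cons a L => simp [padTo, ih]

/-- the substitution in the inner variable, all lists of length `n` -/
def mobI (n : ℕ) (u w d : ℤ) : List (List ℤ) → List (List ℤ)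
  | [] => []
  | A :: L => mob u w d (padTo n A) :: mobI n u w d L

/-- all inner lists have length `n` after padding -/
def lenOk (n : ℕ) : List (List ℤ) → Bool
  | [] => true
  | A :: L => ((padTo n A).length == n) && lenOk n L

theorem ev_mobI (n : ℕ) (u w d : ℤ) (P : List (List ℤ)) (h : lenOk n P = true) {x z : ℝ} (y : ℝ)
    (hx : x * (d * (1 + z)) = u + w * z) :
    ev2 (mobI n u w d P) z y = (d * (1 + z)) ^ n * ev2 P x y := by
  induction P with
  | nil => simp [mobI]
  | cons A L ih =>
    simp only [lenOk, Bool.and_eq_true, beq_iff_eq] at h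
    simp only [mobI, ev2_cons, ev_mob u w d _ hx, h.1, ev_padTo, ih h.2]
    ring

/-- multiples of `A` by the entries of a list -/
def out (A : List ℤ) : List ℤ → List (List ℤ)
  | [] => []
  | k :: L => sm k A :: out A L

@[simp] theorem ev_out (A L : List ℤ) (x y : ℝ) : ev2 (out A L) x y = ev A x * ev L y := by
  induction L with
  | nil => simp [out]
  | cons a L ih => simp only [out, ev2_cons, ev_sm, ih, ev_cons]; ring

/-- product with `u + w z` in the outer variable -/
def ml2 (u w : ℤ) (L : List (List ℤ)) : List (List ℤ) := add2 (sm2 u L) ([] :: sm2 w L)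

@[simp] theorem ev_ml2 (u w : ℤ) (L : List (List ℤ)) (x z : ℝ) :
    ev2 (ml2 u w L) x z = (u + w * z) * ev2 L x z := by
  simp only [ml2, ev2_add, ev2_sm, ev2_cons, ev_nil]; ring

/-- the substitution in the outer variable -/
def mobO (u w d : ℤ) : List (List ℤ) → List (List ℤ)
  | [] => []
  | A :: L => add2 (out A (pw d (L.length + 1))) (ml2 u w (mobO u w d L))

theorem ev_mobO (u w d : ℤ) (L : List (List ℤ)) (x : ℝ) {y z : ℝ}
    (hy : y * (d * (1 + z)) = u + w * z) :
    ev2 (mobO u w d L) x z = (d * (1 + z)) ^ L.length * ev2 L x y := by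
  induction L with
  | nil => simp [mobO]
  | cons A L ih =>
    simp only [mobO, ev2_add, ev_out, ev_pw, ev_ml2, ih, ev2_cons, List.length_cons, ← hy]
    ring

/-- maximal length -/
def maxLen : List (List ℤ) → ℕ
  | [] => 0
  | A :: L => max A.length (maxLen L)

/-- the test on `[u/d, w/d] × [u'/d', w'/d']` -/
def chk (P : List (List ℤ)) (u w d u' w' d' : ℤ) : Bool :=
  lenOk (maxLen P) P && nn2 (mobO u' w' d' (mobI (maxLen P) u w d P))

theorem pointZ {u w d : ℤ} (hd : (0:ℝ) < d) {x : ℝ} (h0 : (u:ℝ) ≤ d * x) (h1 : d * x < w) :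
    ∃ z : ℝ, 0 ≤ z ∧ x * (d * (1 + z)) = u + w * z := by
  have h2 : 0 < (w:ℝ) - d * x := by linarith
  have hne : (w:ℝ) - d * x ≠ 0 := h2.ne'
  refine ⟨(d * x - u) / (w - d * x), div_nonneg (by linarith) h2.le, ?_⟩
  have e : (d * x - u) / (w - d * x) * (w - d * x) = d * x - u := div_mul_cancel₀ _ hne
  apply mul_right_cancel₀ hne
  linear_combination (x * d - w) * e

theorem continuous_ev (L : List ℤ) : Continuous (ev L) := by
  induction L with
  | nil => exact continuous_const
  | cons a L ih =>
    have : ev (a :: L) = fun x => (a : ℝ) + x * ev L x := by ext x; simp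
    rw [this]
    exact continuous_const.add (continuous_id.mul ih)

theorem continuous_ev2 (L : List (List ℤ)) : Continuous (fun p : ℝ × ℝ => ev2 L p.1 p.2) := by
  induction L with
  | nil => simp only [ev2_nil]; exact continuous_const
  | cons A L ih =>
    simp only [ev2_cons]
    exact ((continuous_ev A).comp continuous_fst).add (continuous_snd.mul ih)

/-- extension of an inequality to the closed box -/
theorem nonneg_closed {f : ℝ × ℝ → ℝ} (hf : Continuous f) {a b c d : ℝ} (hab : a < b) (hcd : c < d)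
    (h : ∀ x y, a ≤ x → x < b → c ≤ y → y < d → 0 ≤ f (x, y)) {x y : ℝ}
    (h1 : a ≤ x) (h2 : x ≤ b) (h3 : c ≤ y) (h4 : y ≤ d) : 0 ≤ f (x, y) := by
  have hcl : (x, y) ∈ closure (Set.Ico a b ×ˢ Set.Ico c d) := by
    rw [closure_prod_eq, closure_Ico hab.ne, closure_Ico hcd.ne]
    exact ⟨⟨h1, h2⟩, ⟨h3, h4⟩⟩
  have hc : IsClosed {p : ℝ × ℝ | 0 ≤ f p} := isClosed_le continuous_const hf
  have hs : Set.Ico a b ×ˢ Set.Ico c d ⊆ {p : ℝ × ℝ | 0 ≤ f p} := by
    rintro ⟨x', y'⟩ ⟨hx, hy⟩
    exact h x' y' hx.1 hx.2 hy.1 hy.2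
  exact closure_minimal hs hc hcl

theorem chk_sound {P : List (List ℤ)} {u w d u' w' d' : ℤ} (h : chk P u w d u' w' d' = true)
    (hd : 0 < d) (hd' : 0 < d') (huw : u < w) (huw' : u' < w') {x y : ℝ}
    (h0 : (u:ℝ) ≤ d * x) (h1 : d * x ≤ w) (h2 : (u':ℝ) ≤ d' * y) (h3 : d' * y ≤ w') :
    0 ≤ ev2 P x y := by
  simp only [chk, Bool.and_eq_true] at h
  have hdR : (0:ℝ) < d := by exact_mod_cast hd
  have hdR' : (0:ℝ) < d' := by exact_mod_cast hd'
  have huwR : (u:ℝ) < w := by exact_mod_cast huw
  have huwR' : (u':ℝ) < w' := by exact_mod_cast huw'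
  have key : ∀ x y : ℝ, (u:ℝ) / d ≤ x → x < w / d → (u':ℝ) / d' ≤ y → y < w' / d' →
      0 ≤ (fun p : ℝ × ℝ => ev2 P p.1 p.2) (x, y) := by
    intro x y a1 a2 a3 a4
    rw [div_le_iff₀ hdR] at a1
    rw [lt_div_iff₀ hdR] at a2
    rw [div_le_iff₀ hdR'] at a3
    rw [lt_div_iff₀ hdR'] at a4
    obtain ⟨z, hz, ez⟩ := pointZ (u := u) (w := w) hdR (x := x) (by linarith) (by linarith)
    obtain ⟨z', hz', ez'⟩ := pointZ (u := u') (w := w') hdR' (x := y) (by linarith) (by linarith)
    have e1 := ev_mobO u' w' d' (mobI (maxLen P) u w d P) z ez'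
    rw [ev_mobI (maxLen P) u w d P h.1 y ez] at e1
    have e2 := ev2_nonneg h.2 hz hz'
    rw [e1] at e2
    have p1 : 0 < ((d':ℝ) * (1 + z')) ^ (mobI (maxLen P) u w d P).length := by positivity
    have p2 : 0 < ((d:ℝ) * (1 + z)) ^ (maxLen P) := by positivity
    have e3 := nonneg_of_mul_nonneg_right e2 p1
    exact nonneg_of_mul_nonneg_right e3 p2
  refine nonneg_closed (continuous_ev2 P) (a := (u:ℝ) / d) (b := w / d) (c := (u':ℝ) / d')
    (d := w' / d') ?_ ?_ key ?_ ?_ ?_ ?_
  · exact (div_lt_div_iff_of_pos_right hdR).mpr huwR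
  · exact (div_lt_div_iff_of_pos_right hdR').mpr huwR'
  · rw [div_le_iff₀ hdR]; linarith
  · rw [le_div_iff₀ hdR]; linarith
  · rw [div_le_iff₀ hdR']; linarith
  · rw [le_div_iff₀ hdR']; linarith

end Crest.Agent.R230.PolyC
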