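import Crest.Agent.R230.WSoft
import Crest.Agent.R230.PolyCheck
import Crest.Agent.R230.LegalSoft2
import Crest.Agent.R230.PLargeProf
import Crest.Agent.R230.LamNeg

/-!
# Row 230: the far block in case I (`λ ≤ 0`, `μ = 0`), `N = n + 1 ≥ 24` (helper930)

Certificate `PQ n 0 0 (3/20) 1 0 lam`, contact with the hard constant cap
`u = max (l - 77/200) 0`, gauge `softG n (51/50) 0`.  With `q = 1/c`, `p = 1/√(1 - s² e^{2u})`
the density is decreasing in `κ = 1 + k`, at `κ = 1 + q` it is `F1`, and `F1 > 0` is reduced to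
polynomial inequalities in `(u, Y)`.
-/

set_option autoImplicit false

open MeasureTheory Set Filter Topology

namespace Crest.Agent.R230.FarZ

open WR PolyC




/-- the far density of the hard cap at `κ = 1 + q` (`μ = 0`) -/
noncomputable def F1 (N q p l u E V : ℝ) : ℝ :=
  N * (3 / 10 * (q ^ 2 - 1) * l ^ 2 + (q ^ 2 - 1) ^ 2 * l ^ 2 - u / q * (q - 1) ^ 2 * (q + 2) -
      (p / q - 1) * (1 - (l - u) * (p ^ 2 + p * q + q ^ 2 - 3)) + 51 / 100 * (q ^ 2 - 1) * (E - 1)) +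
    (2 * q - 2 / (q + 1)) - 1 / q * (1 / (1 + p) - V) -
    (l - u) * (4 * p ^ 3 / q - 3 * p / q - q ^ 2) +
    l * (q ^ 2 - 1) * (3 - 2 * q + 1 / (q + 1) ^ 2) -
    51 / 50 * (q * E + (1 / 2 + (q ^ 2 - 1)) * (E - 1)) + u * q ^ 2 -
    (4 * (q ^ 2 - 1) ^ 2 + 21 / 5 * (q ^ 2 - 1)) * l ^ 2 - 3 / 20

/-- algebra: the far density of the hard cap, `μ = 0`. -/
lemma alg {N q p l u E k V : ℝ} (hq : 0 < q) (hq1 : q + 1 ≠ 0) (hp : 0 < p) (hp1 : 1 + p ≠ 0) (hk : 1 + k ≠ 0) :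
    (2 - 2 / (q * (q + 1)) - 3 * (q ^ 2 - 1) * l) * (k ^ 2 / (1 + k)) +
      (q ^ 2 - 1) * l * k +
      ((N - 4) * (q ^ 2 - 1) ^ 2 + (3 / 10 * (N - 4) - 3) * (q ^ 2 - 1)) * l ^ 2 +
      (1 / q * (V - 1 / (q + 1)) + l * ((q - 1) / (q + 1))) - 3 / 20 * (k ^ 2 / q ^ 2) +
      (1 / q * (N * xA p (l - u) + (1 + 1 / (1 + p) - 2 * p - (l - u) * p ^ 3) +
        (2 * (p - 1 / (1 + p)) - 3 * (l - u) * (1 - 1 / p ^ 2) * p ^ 3) -
        (N * ((q - 1) * (l * (q - 1) * (q + 2) - 1)) + (1 + 1 / (q + 1) - 2 * q - l * q ^ 3) +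
          (1 + k)⁻¹ * (2 * (q - 1 / (q + 1)) - 3 * l * (1 - 1 / q ^ 2) * q ^ 3))) +
      1 / 2 * ((((N - 2) * (q ^ 2 - 1) - 1) * (51 / 50)) * (E - 1) - 2 * (51 / 50) * E * k)) =
    F1 N q p l u E V +
    (q - k) * (-(2 - 2 / (q * (q + 1)) - 2 * (q ^ 2 - 1) * l - 51 / 50 * E)) +
      3 / 20 * (1 - k ^ 2 / q ^ 2) := by
  unfold xA F1
  field_simp
  ring

/-- the far density in terms of `q = 1/c`, `p = 1/ĉ` -/
lemma far_eq {n : ℕ} {s l u k lm : ℝ} (hs : s ∈ Ioo (0 : ℝ) 1) (hφ : s * Real.exp u < 1) (hk : 0 < 1 + k) :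
    PQ n 0 0 (3 / 20) 1 0 lm s l k + (lineC n s l k u k + softG n (51 / 50) 0 s u k) =
    F1 ((n : ℝ) + 1) (1 / cc s) (1 / cc (s * Real.exp u)) l u (Real.exp (2 * u))
      (Phi (s * Real.exp l)) +
    (1 / cc s - k) * (-(2 - 2 / (1 / cc s * (1 / cc s + 1)) - 2 * ((1 / cc s) ^ 2 - 1) * l -
      51 / 50 * Real.exp (2 * u))) +
      3 / 20 * (1 - k ^ 2 / (1 / cc s) ^ 2) := by
  have hc := cc_pos' hs
  have hφ' : s * Real.exp u ∈ Ioo (0 : ℝ) 1 := ⟨mul_pos hs.1 (Real.exp_pos u), hφ⟩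
  have hd := cc_pos' hφ'
  have hc2 := cc_sq' hs
  have hd2 := cc_sq' hφ'
  set c := cc s with hcd
  set d := cc (s * Real.exp u) with hdd
  have hq : 0 < 1 / c := by positivity
  have hp : 0 < 1 / d := by positivity
  rw [← alg (k := k) hq (by positivity) hp (by positivity) hk.ne']
  have hs2 : s ^ 2 = 1 - 1 / (1 / c) ^ 2 := by
    rw [one_div_pow, one_div_one_div]; linarith
  have hφ2 : (s * Real.exp u) ^ 2 = 1 - 1 / (1 / d) ^ 2 := by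
    rw [one_div_pow, one_div_one_div]; linarith
  have hY : Y s = (1 / c) ^ 2 - 1 := by
    unfold Y
    rw [← hc2]
    have : s ^ 2 = 1 - c ^ 2 := by linarith
    rw [this]
    field_simp
  have ha : aq s = 2 - 2 / (1 / c * (1 / c + 1)) := by
    unfold aq
    rw [← hcd]
    field_simp
  have hΦ : Phi s = 1 / (1 / c + 1) := by
    unfold Phi
    rw [← hcd]
    field_simp
  have hcR : cR s l = 1 / (1 / c) * (Phi (s * Real.exp l) - 1 / (1 / c + 1)) +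
      l * ((1 / c - 1) / (1 / c + 1)) := by
    unfold cR
    rw [hΦ, ← hcd]
    field_simp
  unfold PQ lineC softG rawL KK sg
  rw [hcR, hY, ha, ← hcd, ← hdd, hφ2, hs2]
  have e1 : (1 + k) * (1 + k)⁻¹ = 1 := mul_inv_cancel₀ hk.ne'
  have e2 : c⁻¹ = 1 / c := (one_div c).symm
  rw [e1, e2]
  have e3 : c = 1 / (1 / c) := by rw [one_div_one_div]
  have e4 : c ^ 2 * k ^ 2 = k ^ 2 / (1 / c) ^ 2 := by
    rw [one_div_pow, div_div_eq_mul_div]; ring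
  rw [e4]
  set q := 1 / c with hqd
  rw [show c = 1 / q from e3]
  rw [show (1 : ℝ) + q = q + 1 by ring]
  ring



lemma id1 {Y r C e : ℝ} (hr : 0 < r) (h : r ^ 2 * (1 - Y * e) = 1) :
    -((r - 1) * (1 - C * ((1 + Y) * (r ^ 2 + r + 1) - 3))) + 1 / 2 * (Y * e) =
      Y * e * (r ^ 2 / (1 + r)) * (Y * (C * (r ^ 2 + r + 1)) -
        Y * e * ((1 + 2 * r - 2 * C * r ^ 2 * (r + 2)) / (2 * (1 + r)))) := by
  have hw : Y * e = (r ^ 2 - 1) / r ^ 2 := by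
    field_simp
    linear_combination -h
  rw [hw]
  have : 1 + r ≠ 0 := by positivity
  field_simp
  ring

lemma id2 {Y r C e : ℝ} (hr : 0 < r) (h : r ^ 2 * (1 - Y * e) = 1) :
    C * (4 * (1 + Y) * r ^ 3 - 3 * r - (1 + Y)) =
      3 * C * Y + Y * e * (r ^ 2 / (1 + r)) * (C * ((2 * r + 1) ^ 2 + 4 * Y * (r ^ 2 + r + 1))) := by
  have hw : Y * e = (r ^ 2 - 1) / r ^ 2 := by
    field_simp
    linear_combination -h
  rw [hw]
  have : 1 + r ≠ 0 := by positivity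
  field_simp
  ring

/-- monotonicity in `r` -/
lemma br_mono {X Y r e : ℝ} (hr : 1 ≤ r) (he : 0 ≤ e) (hX : 4 * Y + 4 ≤ X) (hX0 : 0 ≤ X) :
    X * (231 / 200 - 69 / 400 * e) - 231 / 50 * Y - 693 / 200 ≤
      X * (77 / 200 * (r ^ 2 + r + 1)) - X * e * ((1 + 2 * r - 2 * (77 / 200) * r ^ 2 * (r + 2)) / (2 * (1 + r))) -
        77 / 200 * ((2 * r + 1) ^ 2 + 4 * Y * (r ^ 2 + r + 1)) := by
  have h1 : (0:ℝ) < 1 + r := by linarith
  have e1 : X * (77 / 200 * (r ^ 2 + r + 1)) - X * e * ((1 + 2 * r - 2 * (77 / 200) * r ^ 2 * (r + 2)) / (2 * (1 + r))) -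
        77 / 200 * ((2 * r + 1) ^ 2 + 4 * Y * (r ^ 2 + r + 1)) -
      (X * (231 / 200 - 69 / 400 * e) - 231 / 50 * Y - 693 / 200) =
      77 / 200 * ((X - 4 * Y - 4) * ((r - 1) * (r + 2))) +
      X * e * ((r - 1) * (77 / 200 * (4 * r ^ 2 + 12 * r + 6) - 1)) / (4 * (1 + r)) := by
    field_simp
    ring
  have h2 : 0 ≤ 77 / 200 * ((X - 4 * Y - 4) * ((r - 1) * (r + 2))) := by
    have : 0 ≤ X - 4 * Y - 4 := by linarith
    have : 0 ≤ r - 1 := by linarith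
    positivity
  have h3 : 0 ≤ X * e * ((r - 1) * (77 / 200 * (4 * r ^ 2 + 12 * r + 6) - 1)) / (4 * (1 + r)) := by
    have : 0 ≤ r - 1 := by linarith
    have : 0 ≤ 77 / 200 * (4 * r ^ 2 + 12 * r + 6) - 1 := by nlinarith
    positivity
  linarith

/-- the lower form -/
noncomputable def FZ (X Y l u e q PT : ℝ) : ℝ :=
  X * (3 / 10 * l ^ 2 + 1 / 100 * e + Y * (l ^ 2 - 3 / 4 * u) + 1 / 2 * Y * (231 / 200 * e - 69 / 400 * e ^ 2)) -
    1 / 2 * e * Y * (231 / 50 * Y + 693 / 200) - 231 / 200 * Y + (2 * q - 2 / (q + 1)) - PT +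
    l * Y * (3 - 2 * q + 1 / (q + 1) ^ 2) - 51 / 50 * (q * (1 + e) + (1 / 2 + Y) * e) + u * q ^ 2 -
    (4 * Y ^ 2 + 21 / 5 * Y) * l ^ 2 - 3 / 20

lemma uq_le {q : ℝ} (hq : 1 ≤ q) : 1 / q * (q - 1) ^ 2 * (q + 2) ≤ 3 / 4 * (q ^ 2 - 1) ^ 2 := by
  have h0 : 0 < q := by linarith
  have : 1 / q * (q - 1) ^ 2 * (q + 2) = ((q - 1) ^ 2 * (q + 2)) / q := by ring
  rw [this, div_le_iff₀ h0]
  have e : 3 / 4 * (q ^ 2 - 1) ^ 2 * q - (q - 1) ^ 2 * (q + 2) =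
      (q - 1) ^ 2 * ((q - 1) * (3 / 4 * q ^ 2 + 9 / 4 * q + 2)) := by ring
  have : 0 ≤ (q - 1) ^ 2 * ((q - 1) * (3 / 4 * q ^ 2 + 9 / 4 * q + 2)) := by
    have : 0 ≤ q - 1 := by linarith
    positivity
  linarith

lemma F1_ge {N q p l u e V : ℝ} (hN : 0 ≤ N) (hq : 1 ≤ q) (hp : q ≤ p) (hu : l - u = 77 / 200) (hu0 : 0 ≤ u)
    (he : 0 ≤ e) (hr : (p / q) ^ 2 * (1 - (q ^ 2 - 1) * e) = 1)
    (hX : 4 * (q ^ 2 - 1) + 4 ≤ N * (q ^ 2 - 1))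
    (hB : 0 ≤ N * (q ^ 2 - 1) * (231 / 200 - 69 / 400 * e) - 231 / 50 * (q ^ 2 - 1) - 693 / 200) :
    FZ (N * (q ^ 2 - 1)) (q ^ 2 - 1) l u e q (1 / q * (1 / (1 + p) - V)) ≤ F1 N q p l u (1 + e) V := by
  have hq0 : 0 < q := by linarith
  obtain ⟨r, hrd⟩ : ∃ r, r = p / q := ⟨_, rfl⟩
  have hr1 : 1 ≤ r := by rw [hrd, le_div_iff₀ hq0]; linarith
  have hr0 : 0 < r := by linarith
  have hpr : p = q * r := by rw [hrd]; field_simp
  rw [← hrd] at hr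
  obtain ⟨Y, hY⟩ : ∃ Y, Y = q ^ 2 - 1 := ⟨_, rfl⟩
  have hY0 : 0 ≤ Y := by rw [hY]; nlinarith
  have hq2 : q ^ 2 = 1 + Y := by rw [hY]; ring
  rw [← hY] at hr hX hB ⊢
  have i1 := id1 (C := 77 / 200) hr0 hr
  have i2 := id2 (C := 77 / 200) hr0 hr
  have hu1 := mul_le_mul_of_nonneg_left (uq_le hq) hu0
  rw [← hY] at hu1
  have hbr := br_mono hr1 he hX (by linarith : 0 ≤ N * Y)
  set Br1 := N * Y * (231 / 200 - 69 / 400 * e) - 231 / 50 * Y - 693 / 200 with hBr1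
  set R := r ^ 2 / (1 + r) with hR
  have hR1 : 1 / 2 ≤ R := by
    rw [hR, div_le_div_iff₀ (by norm_num) (by linarith)]
    nlinarith
  set Brr := N * Y * (77 / 200 * (r ^ 2 + r + 1)) - N * Y * e * ((1 + 2 * r - 2 * (77 / 200) * r ^ 2 * (r + 2)) / (2 * (1 + r))) -
        77 / 200 * ((2 * r + 1) ^ 2 + 4 * Y * (r ^ 2 + r + 1)) with hBrr
  have hmain : 1 / 2 * (Y * e) * Br1 ≤ Y * e * R * Brr := by
    have h0 : 0 ≤ Y * e := mul_nonneg hY0 he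
    have h1 : 1 / 2 * Br1 ≤ R * Brr := by
      calc 1 / 2 * Br1 ≤ R * Br1 := mul_le_mul_of_nonneg_right hR1 hB
        _ ≤ R * Brr := mul_le_mul_of_nonneg_left hbr (by linarith)
    calc 1 / 2 * (Y * e) * Br1 = Y * e * (1 / 2 * Br1) := by ring
      _ ≤ Y * e * (R * Brr) := mul_le_mul_of_nonneg_left h1 h0
      _ = _ := by ring
  -- rewrite F1
  have hF : F1 N q p l u (1 + e) V =
      N * (3 / 10 * Y * l ^ 2 + Y ^ 2 * l ^ 2 - u * (1 / q * (q - 1) ^ 2 * (q + 2)) +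
        (-((r - 1) * (1 - 77 / 200 * ((1 + Y) * (r ^ 2 + r + 1) - 3))) + 1 / 2 * (Y * e)) + 1 / 100 * (Y * e)) +
      (2 * q - 2 / (q + 1)) - 1 / q * (1 / (1 + p) - V) -
      77 / 200 * (4 * (1 + Y) * r ^ 3 - 3 * r - (1 + Y)) +
      l * Y * (3 - 2 * q + 1 / (q + 1) ^ 2) -
      51 / 50 * (q * (1 + e) + (1 / 2 + Y) * e) + u * q ^ 2 -
      (4 * Y ^ 2 + 21 / 5 * Y) * l ^ 2 - 3 / 20 := by
    unfold F1
    rw [hu, ← hY]
    have e1 : p ^ 2 + p * q + q ^ 2 - 3 = (1 + Y) * (r ^ 2 + r + 1) - 3 := by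
      rw [hpr, ← hq2]; ring
    have e2 : 4 * p ^ 3 / q - 3 * p / q - q ^ 2 = 4 * (1 + Y) * r ^ 3 - 3 * r - (1 + Y) := by
      rw [hpr, ← hq2]
      field_simp
    rw [e1, e2, ← hrd]
    ring
  rw [hF, i1, i2]
  unfold FZ
  have hN2 := mul_le_mul_of_nonneg_left hu1 hN
  have e3 : N * (Y * e * R * (Y * (77 / 200 * (r ^ 2 + r + 1)) -
        Y * e * ((1 + 2 * r - 2 * (77 / 200) * r ^ 2 * (r + 2)) / (2 * (1 + r))))) -
      Y * e * R * (77 / 200 * ((2 * r + 1) ^ 2 + 4 * Y * (r ^ 2 + r + 1))) = Y * e * R * Brr := by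
    rw [hBrr]; ring
  rw [hBr1] at hmain
  linarith



/-- lower form, after elimination of `q` -/
noncomputable def FQ (X Y l u e e' PT : ℝ) : ℝ :=
  X * (3 / 10 * l ^ 2 + 1 / 100 * e + Y * (l ^ 2 - 3 / 4 * u) + 1 / 2 * Y * (231 / 200 * e - 69 / 400 * e ^ 2)) -
    1 / 2 * e' * Y * (231 / 50 * Y + 693 / 200) - 231 / 200 * Y + (1 + Y * (5 / 4 - 3 / 8 * Y)) - PT +
    l * Y * (5 / 4 - 9 / 8 * Y) -
    51 / 50 * ((1 + Y * (1 / 2 - 1 / 8 * Y + 1 / 16 * Y ^ 2)) * (1 + e') + (1 / 2 + Y) * e') + u * (1 + Y) -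
    (4 * Y ^ 2 + 21 / 5 * Y) * l ^ 2 - 3 / 20

lemma q1 {q Y : ℝ} (hq : 1 ≤ q) (hY : Y = q ^ 2 - 1) : 1 + Y * (5 / 4 - 3 / 8 * Y) ≤ 2 * q - 2 / (q + 1) := by
  obtain ⟨z, rfl⟩ : ∃ z, q = 1 + z := ⟨q - 1, by ring⟩
  have hz : 0 ≤ z := by linarith
  have h0 : (0:ℝ) < 1 + z + 1 := by linarith
  have e : 2 * (1 + z) - 2 / (1 + z + 1) - (1 + Y * (5 / 4 - 3 / 8 * Y)) =
      (13 / 4 * z ^ 3 + 9 / 4 * z ^ 4 + 3 / 8 * z ^ 5) / (1 + z + 1) := by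
    rw [hY]; field_simp; ring
  have : 0 ≤ (13 / 4 * z ^ 3 + 9 / 4 * z ^ 4 + 3 / 8 * z ^ 5) / (1 + z + 1) := by positivity
  linarith

lemma q2 {q Y : ℝ} (hq : 1 ≤ q) (hY : Y = q ^ 2 - 1) : q ≤ 1 + Y * (1 / 2 - 1 / 8 * Y + 1 / 16 * Y ^ 2) := by
  obtain ⟨z, rfl⟩ : ∃ z, q = 1 + z := ⟨q - 1, by ring⟩
  have hz : 0 ≤ z := by linarith
  have e : 1 + Y * (1 / 2 - 1 / 8 * Y + 1 / 16 * Y ^ 2) - (1 + z) =
      5 / 8 * z ^ 4 + 3 / 8 * z ^ 5 + 1 / 16 * z ^ 6 := by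
    rw [hY]; ring
  have : 0 ≤ 5 / 8 * z ^ 4 + 3 / 8 * z ^ 5 + 1 / 16 * z ^ 6 := by positivity
  linarith

lemma q3 {q Y : ℝ} (hq : 1 ≤ q) (hY : Y = q ^ 2 - 1) : 5 / 4 - 9 / 8 * Y ≤ 3 - 2 * q + 1 / (q + 1) ^ 2 := by
  obtain ⟨z, rfl⟩ : ∃ z, q = 1 + z := ⟨q - 1, by ring⟩
  have hz : 0 ≤ z := by linarith
  have h0 : (0:ℝ) < 1 + z + 1 := by linarith
  have e : 3 - 2 * (1 + z) + 1 / (1 + z + 1) ^ 2 - (5 / 4 - 9 / 8 * Y) =
      (21 / 4 * z ^ 2 + 19 / 4 * z ^ 3 + 9 / 8 * z ^ 4) / (1 + z + 1) ^ 2 := by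
    rw [hY]; field_simp; ring
  have : 0 ≤ (21 / 4 * z ^ 2 + 19 / 4 * z ^ 3 + 9 / 8 * z ^ 4) / (1 + z + 1) ^ 2 := by positivity
  linarith

lemma FZ_ge {X Y l u e q PT : ℝ} (hq : 1 ≤ q) (hY : Y = q ^ 2 - 1) (hl : 0 ≤ l) (he : 0 ≤ e) :
    FQ X Y l u e e PT ≤ FZ X Y l u e q PT := by
  have hY0 : 0 ≤ Y := by rw [hY]; nlinarith
  have h1 := q1 hq hY
  have h2 := mul_le_mul_of_nonneg_right (q2 hq hY) (by linarith : 0 ≤ 1 + e)
  have h3 := mul_le_mul_of_nonneg_left (q3 hq hY) (mul_nonneg hl hY0)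
  have h4 : q ^ 2 = 1 + Y := by rw [hY]; ring
  unfold FQ FZ
  rw [h4]
  linarith

lemma FQ_mono {X X' Y l u e elo ehi PT PT' : ℝ} (hY : 0 ≤ Y) (hX' : 0 ≤ X') (hX : X' ≤ X)
    (h1 : elo ≤ e) (h2 : e ≤ ehi) (h0 : 0 ≤ elo) (h3 : e ≤ 33 / 10) (hPT : PT ≤ PT')
    (hK : 0 ≤ l ^ 2 - 3 / 4 * u) :
    FQ X' Y l u elo ehi PT' ≤ FQ X Y l u e e PT := by
  have hsq : 231 / 200 * elo - 69 / 400 * elo ^ 2 ≤ 231 / 200 * e - 69 / 400 * e ^ 2 := by nlinarith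
  have hs0 : 0 ≤ 231 / 200 * elo - 69 / 400 * elo ^ 2 := by nlinarith
  have hK1 : 3 / 10 * l ^ 2 + 1 / 100 * elo + Y * (l ^ 2 - 3 / 4 * u) +
      1 / 2 * Y * (231 / 200 * elo - 69 / 400 * elo ^ 2) ≤
      3 / 10 * l ^ 2 + 1 / 100 * e + Y * (l ^ 2 - 3 / 4 * u) + 1 / 2 * Y * (231 / 200 * e - 69 / 400 * e ^ 2) := by
    have := mul_le_mul_of_nonneg_left hsq (by linarith : 0 ≤ 1 / 2 * Y)
    linarith
  have hK0 : 0 ≤ 3 / 10 * l ^ 2 + 1 / 100 * elo + Y * (l ^ 2 - 3 / 4 * u) +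
      1 / 2 * Y * (231 / 200 * elo - 69 / 400 * elo ^ 2) := by positivity
  have hXK := mul_le_mul hX hK1 hK0 (hX'.trans hX)
  have he : 0 ≤ e := h0.trans h1
  have hA : 1 / 2 * e * Y * (231 / 50 * Y + 693 / 200) ≤ 1 / 2 * ehi * Y * (231 / 50 * Y + 693 / 200) := by
    have : 0 ≤ 1 / 2 * Y * (231 / 50 * Y + 693 / 200) := by positivity
    nlinarith [mul_le_mul_of_nonneg_right h2 this]
  have hB0 : 0 ≤ 1 / 2 - 1 / 8 * Y + 1 / 16 * Y ^ 2 := by nlinarith [sq_nonneg (Y - 1)]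
  have hB : (1 + Y * (1 / 2 - 1 / 8 * Y + 1 / 16 * Y ^ 2)) * (1 + e) + (1 / 2 + Y) * e ≤
      (1 + Y * (1 / 2 - 1 / 8 * Y + 1 / 16 * Y ^ 2)) * (1 + ehi) + (1 / 2 + Y) * ehi := by
    have a1 : 0 ≤ 1 + Y * (1 / 2 - 1 / 8 * Y + 1 / 16 * Y ^ 2) := by positivity
    have a2 := mul_le_mul_of_nonneg_left (by linarith : 1 + e ≤ 1 + ehi) a1
    have a3 := mul_le_mul_of_nonneg_left h2 (by linarith : 0 ≤ 1 / 2 + Y)
    linarith
  unfold FQ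
  linarith





def cA1 : List (List ℤ) := [[14923792424, 145097433648, 3143601224448, 7334831524024, 8330802050406, 4133172111200, 863889664000],
   [110258187379, 2052558774808, 21515903533608, 47650264375104, 42408012298426, 10581769563200, -7630795128000, -5588286264000, -931381044000],
   [-319777832545, -1084992658840, 15929871934160, 41779490766080, 34724947748020, 6448597452000, -8494684792000, -5588286264000, -931381044000],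
   [-350465015625, -700930031250, -700930031250, -532706823750]]

def cA2 : List (List ℤ) := [[338192184473, -3079207933454, 1585549648146, 11096406919478, 16661604100812, 8266344222400, 1727779328000],
   [-1162821948892, -1127354010184, 35721025507416, 86220799964760, 84816024596852, 21163539126400, -15261590256000, -11176572528000, -1862762088000],
   [2085128728660, 22996483632320, 77602814068320, 56328260484160, 58418865496040, 12897194904000, -16989369584000, -11176572528000, -1862762088000],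
   [-169861875000, -339723750000, -339723750000, -258190050000]]

def cB1 : List (List ℤ) := [[76332, 1142400, 936000, -2256000, -1224000, -642600],
   [801135, 8328000, 14358000, -5452000, -14966000, -8395350, -2208000],
   [72600, 2406000, 9510000, -2628000, -10440000, -5884650, -1656000],
   [-76500, -153000, -153000, -102000, -51000, -26775]]

theorem chkA1 : chk cA1 0 6 25 0 31 100 = true := by decide +kernel
theorem chkA2 : chk cA2 0 6 25 15 87 100 = true := by decide +kernel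
theorem chkB1 : chk cB1 6 18 25 0 41 100 = true := by decide +kernel

lemma polA1 {u Y : ℝ} (hu0 : 0 ≤ u) (hu1 : u ≤ 6 / 25) (hY0 : 0 ≤ Y) (hY1 : Y ≤ 31 / 100) :
    3 / 50 ≤ FQ (((8696 / 10000 + 14696 / 10000 * u + 7348 / 10000 * u ^ 2) ^ 2 * (1 + Y) - 3755 / 10000 * Y) *
      (1000000 / 133225)) Y (77 / 200 + u) u (2 * u + 2 * u ^ 2) (2 * u + 2 * u ^ 2 + 38 / 25 * u ^ 3)
      (1233 / 5000 * (1 + (2 * u + 2 * u ^ 2 + 38 / 25 * u ^ 3)) * Y * (1 - 3 / 2 * Y + 15 / 8 * Y ^ 2)) := by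
  have h := chk_sound chkA1 (by norm_num) (by norm_num) (by norm_num) (by norm_num) (x := u) (y := Y)
    (by push_cast; linarith) (by push_cast; linarith) (by push_cast; linarith) (by push_cast; linarith)
  simp only [cA1, ev2_cons, ev2_nil, ev_cons, ev_nil] at h
  push_cast at h
  unfold FQ
  linarith

lemma polA2 {u Y : ℝ} (hu0 : 0 ≤ u) (hu1 : u ≤ 6 / 25) (hY0 : 15 / 100 ≤ Y) (hY1 : Y ≤ 87 / 100) :
    1 / 25 ≤ FQ (1 / 2 * (((8696 / 10000 + 14696 / 10000 * u + 7348 / 10000 * u ^ 2) ^ 2 * (1 + Y) - 3755 / 10000 * Y) *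
      (1000000 / 133225)) + 12 * Y) Y (77 / 200 + u) u (2 * u + 2 * u ^ 2) (2 * u + 2 * u ^ 2 + 38 / 25 * u ^ 3)
      (-(328 / 1000 * (1 - 1 / 2 * Y + 1 / 5 * Y ^ 2)) +
        16635 / 10000 * (1 + (2 * u + 2 * u ^ 2 + 38 / 25 * u ^ 3)) * (705 / 10000 + 4412 / 10000 * Y)) := by
  have h := chk_sound chkA2 (by norm_num) (by norm_num) (by norm_num) (by norm_num) (x := u) (y := Y)
    (by push_cast; linarith) (by push_cast; linarith) (by push_cast; linarith) (by push_cast; linarith)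
  simp only [cA2, ev2_cons, ev2_nil, ev_cons, ev_nil] at h
  push_cast at h
  unfold FQ
  linarith

lemma polB1 {u Y : ℝ} (hu0 : 6 / 25 ≤ u) (hu1 : u ≤ 18 / 25) (hY0 : 0 ≤ Y) (hY1 : Y ≤ 41 / 100) :
    3 / 10 ≤ FQ (12 + 9 * Y) Y (77 / 200 + u) u (2 * u + 2 * u ^ 2 + 4 / 3 * u ^ 3)
      (2 * u + 2 * u ^ 2 + 4 / 3 * u ^ 3 + 2 / 3 * u ^ 4 + 7 / 20 * u ^ 5)
      (955 / 1000 * (1 + (2 * u + 2 * u ^ 2 + 4 / 3 * u ^ 3 + 2 / 3 * u ^ 4 + 7 / 20 * u ^ 5)) * Y) := by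
  have h := chk_sound chkB1 (by norm_num) (by norm_num) (by norm_num) (by norm_num) (x := u) (y := Y)
    (by push_cast; linarith) (by push_cast; linarith) (by push_cast; linarith) (by push_cast; linarith)
  simp only [cB1, ev2_cons, ev2_nil, ev_cons, ev_nil] at h
  push_cast at h
  unfold FQ
  linarith



lemma up_p {p w : ℝ} (hp : 1 ≤ p) (hw : w = 1 - 1 / p ^ 2) : 1 / (1 + p) ≤ 1 / 2 - w / 8 := by
  have h0 : 0 < p := by linarith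
  have e : 1 / 2 - w / 8 - 1 / (1 + p) = (p - 1) ^ 2 * (3 * p + 1) / (8 * p ^ 2 * (1 + p)) := by
    rw [hw]
    have : 1 + p ≠ 0 := by positivity
    field_simp
    ring
  have : 0 ≤ (p - 1) ^ 2 * (3 * p + 1) / (8 * p ^ 2 * (1 + p)) := by positivity
  linarith

lemma lo_v1 {v t : ℝ} (hv0 : 0 ≤ v) (hv : v ^ 2 = 1 - t) (ht0 : 0 ≤ t) (ht : t ≤ 1 / 2) :
    1 / 2 - 172 / 1000 * t ≤ v / (1 + v) := by
  have h1 : v ≤ 1 := by nlinarith
  have h2 : 705 / 1000 ≤ v := by nlinarith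
  have h3 : t = 1 - v ^ 2 := by linarith
  have e : v / (1 + v) - (1 / 2 - 172 / 1000 * t) = (1 - v) * (344 / 1000 * (1 + v) ^ 2 - 1) / (2 * (1 + v)) := by
    rw [h3]
    have : 1 + v ≠ 0 := by positivity
    field_simp
    ring
  have h4 : 0 ≤ 344 / 1000 * (1 + v) ^ 2 - 1 := by nlinarith
  have h5 : 0 ≤ 1 - v := by linarith
  have : 0 ≤ (1 - v) * (344 / 1000 * (1 + v) ^ 2 - 1) / (2 * (1 + v)) := by positivity
  linarith

lemma lo_v2 {v t : ℝ} (hv0 : 0 ≤ v) (hv : v ^ 2 = 1 - t) (ht : 1 / 2 ≤ t) :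
    828 / 1000 * (1 - t) ≤ v / (1 + v) := by
  rw [← hv, le_div_iff₀ (by linarith)]
  have h1 : v ≤ 7072 / 10000 := by nlinarith
  have h2 : 828 / 1000 * (v * (1 + v)) ≤ 1 := by nlinarith
  nlinarith [mul_le_mul_of_nonneg_left h2 hv0]

lemma lo_v3 {v t : ℝ} (hv0 : 0 ≤ v) (hv : v ^ 2 = 1 - t) (ht0 : 0 ≤ t) :
    1 / 2 * (1 - t) ≤ v / (1 + v) := by
  rw [← hv, le_div_iff₀ (by linarith)]
  have h1 : v ≤ 1 := by nlinarith
  have h2 : 1 / 2 * (v * (1 + v)) ≤ 1 := by nlinarith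
  nlinarith [mul_le_mul_of_nonneg_left h2 hv0]

lemma q4 {q Y : ℝ} (hq : 1 ≤ q) (hY : Y = q ^ 2 - 1) : 1 / q ^ 3 ≤ 1 - 3 / 2 * Y + 15 / 8 * Y ^ 2 := by
  obtain ⟨z, rfl⟩ : ∃ z, q = 1 + z := ⟨q - 1, by ring⟩
  have hz : 0 ≤ z := by linarith
  have h0 : (0:ℝ) < 1 + z := by linarith
  have e : 1 - 3 / 2 * Y + 15 / 8 * Y ^ 2 - 1 / (1 + z) ^ 3 =
      (35 / 2 * z ^ 3 + 315 / 8 * z ^ 4 + 273 / 8 * z ^ 5 + 105 / 8 * z ^ 6 + 15 / 8 * z ^ 7) / (1 + z) ^ 3 := by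
    rw [hY]; field_simp; ring
  have : 0 ≤ (35 / 2 * z ^ 3 + 315 / 8 * z ^ 4 + 273 / 8 * z ^ 5 + 105 / 8 * z ^ 6 + 15 / 8 * z ^ 7) / (1 + z) ^ 3 := by
    positivity
  linarith

lemma q5 {q Y : ℝ} (hq : 1 ≤ q) (hY : Y = q ^ 2 - 1) (hY1 : Y ≤ 87 / 100) :
    1 - 1 / 2 * Y + 1 / 5 * Y ^ 2 ≤ 1 / q := by
  have h0 : 0 < q := by linarith
  have h1 : q ≤ 1368 / 1000 := by nlinarith
  rw [le_div_iff₀ h0, hY]
  obtain ⟨z, rfl⟩ : ∃ z, q = 1 + z := ⟨q - 1, by ring⟩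
  have hz : 0 ≤ z := by linarith
  have hz1 : z ≤ 368 / 1000 := by linarith
  have e : 1 - (1 - 1 / 2 * ((1 + z) ^ 2 - 1) + 1 / 5 * ((1 + z) ^ 2 - 1) ^ 2) * (1 + z) =
      z ^ 2 * (7 / 10 - 11 / 10 * z - z ^ 2 - 1 / 5 * z ^ 3) := by ring
  have h3 : 0 ≤ 7 / 10 - 11 / 10 * z - z ^ 2 - 1 / 5 * z ^ 3 := by
    have a2 : z ^ 2 ≤ (368 / 1000) ^ 2 := pow_le_pow_left₀ hz hz1 2
    have a3 : z ^ 3 ≤ (368 / 1000) ^ 3 := pow_le_pow_left₀ hz hz1 3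
    norm_num at a2 a3
    linarith
  have := mul_nonneg (sq_nonneg z) h3
  linarith

lemma q6 {q Y : ℝ} (hq : 1 ≤ q) (hY : Y = q ^ 2 - 1) :
    Y / q ^ 3 ≤ 705 / 10000 + 4412 / 10000 * Y := by
  have h0 : 0 < q := by linarith
  rw [div_le_iff₀ (by positivity), hY]
  have key : 0 ≤ (705 / 10000 + 4412 / 10000 * (q ^ 2 - 1)) * q ^ 3 - (q ^ 2 - 1) := by
    nlinarith [sq_nonneg (q - 57 / 50), mul_nonneg h0.le (sq_nonneg (q - 57 / 50)),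
      mul_nonneg (pow_pos h0 2).le (sq_nonneg (q - 57 / 50)), mul_nonneg (pow_pos h0 3).le (sq_nonneg (q - 57 / 50))]
  linarith

section
variable {q p v w t E Y : ℝ}

lemma PT1 (hq : 1 ≤ q) (hY : Y = q ^ 2 - 1) (hp : 1 ≤ p) (hw : w = 1 - 1 / p ^ 2) (hv0 : 0 ≤ v)
    (hv : v ^ 2 = 1 - t) (ht : t ≤ 216 / 100 * w) (ht0 : 0 ≤ t) (ht1 : t ≤ 1 / 2) (hwE : w * q ^ 2 = E * Y)
    (hE : 0 ≤ E) :
    1 / q * (1 / (1 + p) - v / (1 + v)) ≤ 1233 / 5000 * E * Y * (1 - 3 / 2 * Y + 15 / 8 * Y ^ 2) := by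
  have h0 : 0 < q := by linarith
  have hY0 : 0 ≤ Y := by rw [hY]; nlinarith
  have a1 := up_p hp hw
  have a2 := lo_v1 hv0 hv ht0 ht1
  have a3 : 1 / (1 + p) - v / (1 + v) ≤ 1233 / 5000 * w := by linarith
  have a4 : w = E * Y / q ^ 2 := by field_simp; linarith
  calc 1 / q * (1 / (1 + p) - v / (1 + v)) ≤ 1 / q * (1233 / 5000 * w) :=
        mul_le_mul_of_nonneg_left a3 (by positivity)
    _ = 1233 / 5000 * E * Y * (1 / q ^ 3) := by rw [a4]; field_simp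
    _ ≤ _ := mul_le_mul_of_nonneg_left (q4 hq hY) (by positivity)

lemma PT2 (hq : 1 ≤ q) (hY : Y = q ^ 2 - 1) (hp : 1 ≤ p) (hw : w = 1 - 1 / p ^ 2) (hv0 : 0 ≤ v)
    (hv : v ^ 2 = 1 - t) (ht : t ≤ 216 / 100 * w) (ht1 : 1 / 2 ≤ t) (hwE : w * q ^ 2 = E * Y)
    (hE : 0 ≤ E) (hY1 : Y ≤ 87 / 100) :
    1 / q * (1 / (1 + p) - v / (1 + v)) ≤
      -(328 / 1000 * (1 - 1 / 2 * Y + 1 / 5 * Y ^ 2)) + 16635 / 10000 * E * (705 / 10000 + 4412 / 10000 * Y) := by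
  have h0 : 0 < q := by linarith
  have hw0 : 0 ≤ w := by
    rw [hw, sub_nonneg, div_le_one (by positivity)]; nlinarith
  have hY0 : 0 ≤ Y := by rw [hY]; nlinarith
  have a1 := up_p hp hw
  have a2 := lo_v2 hv0 hv ht1
  have a3 : 1 / (1 + p) - v / (1 + v) ≤ -(328 / 1000) + 16635 / 10000 * w := by linarith
  have a4 : w = E * Y / q ^ 2 := by field_simp; linarith
  have a5 := q5 hq hY hY1
  have a6 := mul_le_mul_of_nonneg_left (q6 hq hY) (by positivity : 0 ≤ 16635 / 10000 * E)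
  calc 1 / q * (1 / (1 + p) - v / (1 + v)) ≤ 1 / q * (-(328 / 1000) + 16635 / 10000 * w) :=
        mul_le_mul_of_nonneg_left a3 (by positivity)
    _ = -(328 / 1000 * (1 / q)) + 16635 / 10000 * E * (Y / q ^ 3) := by rw [a4]; field_simp
    _ ≤ _ := by linarith

lemma PT3 (hq : 1 ≤ q) (hY : Y = q ^ 2 - 1) (hp : 1 ≤ p) (hw : w = 1 - 1 / p ^ 2) (hv0 : 0 ≤ v)
    (hv : v ^ 2 = 1 - t) (ht : t ≤ 216 / 100 * w) (ht0 : 0 ≤ t) (hwE : w * q ^ 2 = E * Y)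
    (hE : 0 ≤ E) :
    1 / q * (1 / (1 + p) - v / (1 + v)) ≤ 955 / 1000 * E * Y := by
  have h0 : 0 < q := by linarith
  have hY0 : 0 ≤ Y := by rw [hY]; nlinarith
  have a1 := up_p hp hw
  have a2 := lo_v3 hv0 hv ht0
  have a3 : 1 / (1 + p) - v / (1 + v) ≤ 955 / 1000 * w := by linarith
  have a4 : w = E * Y / q ^ 2 := by field_simp; linarith
  have a5 : 1 / q ^ 3 ≤ 1 := by
    rw [div_le_one (by positivity)]
    exact one_le_pow₀ hq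
  calc 1 / q * (1 / (1 + p) - v / (1 + v)) ≤ 1 / q * (955 / 1000 * w) :=
        mul_le_mul_of_nonneg_left a3 (by positivity)
    _ = 955 / 1000 * E * Y * (1 / q ^ 3) := by rw [a4]; field_simp
    _ ≤ 955 / 1000 * E * Y * 1 := mul_le_mul_of_nonneg_left a5 (by positivity)
    _ = _ := by ring

end



/-! ### exponentials -/

lemma exp385_ge : (14696 / 10000 : ℝ) ≤ Real.exp (77 / 200) := by
  have h := Real.sum_le_exp_of_nonneg (x := 77 / 200) (by norm_num) 6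
  refine le_trans ?_ h
  simp only [Finset.sum_range_succ, Finset.sum_range_zero, Nat.factorial]
  norm_num

lemma exp77_ge : (2159 / 1000 : ℝ) ≤ Real.exp (77 / 100) := by
  have h := Real.sum_le_exp_of_nonneg (x := 77 / 100) (by norm_num) 7
  refine le_trans ?_ h
  simp only [Finset.sum_range_succ, Finset.sum_range_zero, Nat.factorial]
  norm_num

lemma exp77_le : Real.exp (77 / 100) ≤ (216 / 100 : ℝ) := by
  have h := Real.exp_bound' (x := 77 / 100) (by norm_num) (by norm_num) (n := 7) (by norm_num)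
  refine h.trans ?_
  simp only [Finset.sum_range_succ, Finset.sum_range_zero, Nat.factorial]
  norm_num

lemma elo2 {u : ℝ} (hu : 0 ≤ u) : 2 * u + 2 * u ^ 2 ≤ Real.exp (2 * u) - 1 := by
  have h := Real.quadratic_le_exp_of_nonneg (x := 2 * u) (by linarith)
  nlinarith

lemma elo3 {u : ℝ} (hu : 0 ≤ u) : 2 * u + 2 * u ^ 2 + 4 / 3 * u ^ 3 ≤ Real.exp (2 * u) - 1 := by
  have h := Real.sum_le_exp_of_nonneg (x := 2 * u) (by linarith) 4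
  simp only [Finset.sum_range_succ, Finset.sum_range_zero, Nat.factorial] at h
  push_cast at h
  norm_num at h
  nlinarith

lemma ehi3 {u : ℝ} (hu : 0 ≤ u) (hu1 : u ≤ 6 / 25) :
    Real.exp (2 * u) - 1 ≤ 2 * u + 2 * u ^ 2 + 38 / 25 * u ^ 3 := by
  have h := Real.exp_bound' (x := 2 * u) (by linarith) (by linarith) (n := 5) (by norm_num)
  simp only [Finset.sum_range_succ, Finset.sum_range_zero, Nat.factorial] at h
  push_cast at h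
  norm_num at h
  have h3 : 0 ≤ u ^ 3 := by positivity
  have h4 : u ^ 4 ≤ 6 / 25 * u ^ 3 := by
    have := mul_le_mul_of_nonneg_right hu1 h3
    linarith [show u * u ^ 3 = u ^ 4 by ring]
  have h5 : u ^ 5 ≤ (6 / 25) ^ 2 * u ^ 3 := by
    have h6 : u ^ 2 ≤ (6 / 25) ^ 2 := pow_le_pow_left₀ hu hu1 2
    have := mul_le_mul_of_nonneg_right h6 h3
    linarith [show u ^ 2 * u ^ 3 = u ^ 5 by ring]
  nlinarith

lemma ehi5 {u : ℝ} (hu : 0 ≤ u) (hu1 : u ≤ 18 / 25) :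
    Real.exp (2 * u) - 1 ≤ 2 * u + 2 * u ^ 2 + 4 / 3 * u ^ 3 + 2 / 3 * u ^ 4 + 7 / 20 * u ^ 5 := by
  have h := Real.exp_bound' (x := u) hu (by linarith) (n := 6) (by norm_num)
  simp only [Finset.sum_range_succ, Finset.sum_range_zero, Nat.factorial] at h
  push_cast at h
  norm_num at h
  have h2 : Real.exp (2 * u) = Real.exp u ^ 2 := by rw [two_mul, Real.exp_add, sq]
  have h3 := pow_le_pow_left₀ (Real.exp_pos u).le h 2
  rw [h2]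
  have hp : ∀ k : ℕ, u ^ k ≤ (18 / 25) ^ k := fun k => pow_le_pow_left₀ hu hu1 k
  have e : (2 * u + 2 * u ^ 2 + 4 / 3 * u ^ 3 + 2 / 3 * u ^ 4 + 7 / 20 * u ^ 5) + 1 -
      (1 + u + u ^ 2 / 2 + u ^ 3 / 6 + u ^ 4 / 24 + u ^ 5 / 120 + u ^ 6 * 7 / (720 * 6)) ^ 2 =
      u ^ 5 * (1 / 12 - (193 / 2160 * u + 11 / 432 * u ^ 2 + 53 / 8640 * u ^ 3 + 1 / 810 * u ^ 4 +
        53 / 259200 * u ^ 5 + 7 / 259200 * u ^ 6 + 49 / 18662400 * u ^ 7)) := by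
    ring
  have h4 : 0 ≤ 1 / 12 - (193 / 2160 * u + 11 / 432 * u ^ 2 + 53 / 8640 * u ^ 3 + 1 / 810 * u ^ 4 +
        53 / 259200 * u ^ 5 + 7 / 259200 * u ^ 6 + 49 / 18662400 * u ^ 7) := by
    have a2 := hp 2
    have a3 := hp 3
    have a4 := hp 4
    have a5 := hp 5
    have a6 := hp 6
    have a7 := hp 7
    norm_num at a2 a3 a4 a5 a6 a7
    linarith
  have h5 := mul_nonneg (pow_nonneg hu 5) h4
  linarith


end Crest.Agent.R230.FarZ
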