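import Crest.Agent.R230.FarZeroA

/-!
# Row 230: the far block in case I, the three regions (helper930)
-/

set_option autoImplicit false

open MeasureTheory Set Filter Topology

namespace Crest.Agent.R230.FarZ

open WR PolyC

section
variable {N q p l u e Y w t v : ℝ}

/-- `F1` from the lower form -/
lemma F1_ge' (hN : 24 ≤ N) (hq : 1 ≤ q) (hY : Y = q ^ 2 - 1) (hpq : q ≤ p) (hlu : l = 77 / 200 + u)
    (hu : 0 ≤ u) (he : 0 ≤ e) (he1 : e ≤ 33 / 10) (hr : (p / q) ^ 2 * (1 - Y * e) = 1)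
    {X' elo ehi PT' : ℝ} (hX' : 0 ≤ X') (hX : X' ≤ N * Y) (hX5 : 28 / 5 ≤ N * Y)
    (h8 : 693 / 200 ≤ N * Y * (77 / 80 - 69 / 400 * ehi))
    (h1 : elo ≤ e) (h2 : e ≤ ehi) (h0 : 0 ≤ elo)
    (hPT : 1 / q * (1 / (1 + p) - v / (1 + v)) ≤ PT') :
    FQ X' Y l u elo ehi PT' ≤ F1 N q p l u (1 + e) (v / (1 + v)) := by
  have hY0 : 0 ≤ Y := by rw [hY]; nlinarith
  have hX0 : 24 * Y ≤ N * Y := mul_le_mul_of_nonneg_right hN hY0
  have hK : 0 ≤ l ^ 2 - 3 / 4 * u := by rw [hlu]; nlinarith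
  have a1 := FQ_mono (X := N * Y) hY0 hX' hX h1 h2 h0 he1 hPT hK
  have a2 := FZ_ge (X := N * Y) (PT := 1 / q * (1 / (1 + p) - v / (1 + v))) (l := l) (u := u) hq hY
    (by rw [hlu]; linarith) he
  have b2 : N * Y * (69 / 400 * e) ≤ N * Y * (69 / 400 * ehi) :=
    mul_le_mul_of_nonneg_left (by linarith) (by linarith)
  have a3 := F1_ge (N := N) (V := v / (1 + v)) (l := l) (u := u) (e := e) (by linarith) hq hpq
    (by rw [hlu]; ring) hu he (by rw [← hY]; exact hr) (by rw [← hY]; linarith) (by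
      rw [← hY]; linarith)
  rw [← hY] at a3
  exact (a1.trans a2).trans a3

lemma Xlo_ge (hu : 0 ≤ u) (hY0 : 0 ≤ Y) :
    28 / 5 ≤ ((8696 / 10000 + 14696 / 10000 * u + 7348 / 10000 * u ^ 2) ^ 2 * (1 + Y) - 3755 / 10000 * Y) *
      (1000000 / 133225) := by
  have h1 : (8696 / 10000 : ℝ) ^ 2 ≤ (8696 / 10000 + 14696 / 10000 * u + 7348 / 10000 * u ^ 2) ^ 2 :=
    pow_le_pow_left₀ (by norm_num) (by nlinarith) 2
  have h2 := mul_le_mul_of_nonneg_right h1 (by linarith : 0 ≤ 1 + Y)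
  linarith

/-- region A, `t ≤ 1/2` -/
lemma regA1 (hN : 24 ≤ N) (hq : 1 ≤ q) (hY : Y = q ^ 2 - 1) (hpq : q ≤ p) (hlu : l = 77 / 200 + u)
    (hu : 0 ≤ u) (hu1 : u ≤ 6 / 25) (hr : (p / q) ^ 2 * (1 - Y * e) = 1)
    (he0 : 2 * u + 2 * u ^ 2 ≤ e) (he1 : e ≤ 2 * u + 2 * u ^ 2 + 38 / 25 * u ^ 3) (he2 : e ≤ 617 / 1000)
    (hehi : 2 * u + 2 * u ^ 2 + 38 / 25 * u ^ 3 ≤ 617 / 1000) (hY1 : Y ≤ 31 / 100)
    (hPT : 1 / q * (1 / (1 + p) - v / (1 + v)) ≤ 1233 / 5000 * (1 + e) * Y * (1 - 3 / 2 * Y + 15 / 8 * Y ^ 2))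
    (hX : ((8696 / 10000 + 14696 / 10000 * u + 7348 / 10000 * u ^ 2) ^ 2 * (1 + Y) - 3755 / 10000 * Y) *
      (1000000 / 133225) ≤ N * Y) :
    0 < F1 N q p l u (1 + e) (v / (1 + v)) := by
  have hY0 : 0 ≤ Y := by rw [hY]; nlinarith
  have hee : 0 ≤ e := le_trans (by positivity) he0
  have hlo := Xlo_ge hu hY0
  have hc : 0 ≤ 1233 / 5000 * Y * (1 - 3 / 2 * Y + 15 / 8 * Y ^ 2) := by
    have : 0 ≤ 1 - 3 / 2 * Y + 15 / 8 * Y ^ 2 := by nlinarith [sq_nonneg (Y - 2 / 5)]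
    positivity
  have hPT' : 1233 / 5000 * (1 + e) * Y * (1 - 3 / 2 * Y + 15 / 8 * Y ^ 2) ≤
      1233 / 5000 * (1 + (2 * u + 2 * u ^ 2 + 38 / 25 * u ^ 3)) * Y * (1 - 3 / 2 * Y + 15 / 8 * Y ^ 2) := by
    have := mul_le_mul_of_nonneg_right he1 hc
    linarith
  have hX5 := hlo.trans hX
  have h := F1_ge' (v := v) hN hq hY hpq hlu hu hee (by linarith) hr (by linarith) hX hX5
    (by nlinarith) he0 he1 (by positivity) (hPT.trans hPT')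
  have h2 := polA1 hu hu1 hY0 hY1
  rw [hlu] at h ⊢
  linarith

/-- region A, `1/2 ≤ t` -/
lemma regA2 (hN : 24 ≤ N) (hq : 1 ≤ q) (hY : Y = q ^ 2 - 1) (hpq : q ≤ p) (hlu : l = 77 / 200 + u)
    (hu : 0 ≤ u) (hu1 : u ≤ 6 / 25) (hr : (p / q) ^ 2 * (1 - Y * e) = 1)
    (he0 : 2 * u + 2 * u ^ 2 ≤ e) (he1 : e ≤ 2 * u + 2 * u ^ 2 + 38 / 25 * u ^ 3) (he2 : e ≤ 617 / 1000)
    (hehi : 2 * u + 2 * u ^ 2 + 38 / 25 * u ^ 3 ≤ 617 / 1000) (hY1 : Y ≤ 87 / 100) (hY2 : 15 / 100 ≤ Y)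
    (hPT : 1 / q * (1 / (1 + p) - v / (1 + v)) ≤ -(328 / 1000 * (1 - 1 / 2 * Y + 1 / 5 * Y ^ 2)) +
      16635 / 10000 * (1 + e) * (705 / 10000 + 4412 / 10000 * Y))
    (hX : ((8696 / 10000 + 14696 / 10000 * u + 7348 / 10000 * u ^ 2) ^ 2 * (1 + Y) - 3755 / 10000 * Y) *
      (1000000 / 133225) ≤ N * Y) :
    0 < F1 N q p l u (1 + e) (v / (1 + v)) := by
  have hY0 : 0 ≤ Y := by linarith
  have hee : 0 ≤ e := le_trans (by positivity) he0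
  have hlo := Xlo_ge hu hY0
  have hPT' : -(328 / 1000 * (1 - 1 / 2 * Y + 1 / 5 * Y ^ 2)) +
      16635 / 10000 * (1 + e) * (705 / 10000 + 4412 / 10000 * Y) ≤
      -(328 / 1000 * (1 - 1 / 2 * Y + 1 / 5 * Y ^ 2)) +
      16635 / 10000 * (1 + (2 * u + 2 * u ^ 2 + 38 / 25 * u ^ 3)) * (705 / 10000 + 4412 / 10000 * Y) := by
    have := mul_le_mul_of_nonneg_right he1 (by positivity : 0 ≤ 705 / 10000 + 4412 / 10000 * Y)
    linarith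
  have hX0 : 24 * Y ≤ N * Y := mul_le_mul_of_nonneg_right hN hY0
  have hX5 := hlo.trans hX
  have h := F1_ge' (v := v) (X' := 1 / 2 * (((8696 / 10000 + 14696 / 10000 * u + 7348 / 10000 * u ^ 2) ^ 2 *
      (1 + Y) - 3755 / 10000 * Y) * (1000000 / 133225)) + 12 * Y) hN hq hY hpq hlu hu hee (by linarith) hr
    (by linarith) (by linarith) hX5 (by nlinarith) he0 he1 (by positivity) (hPT.trans hPT')
  have h2 := polA2 hu hu1 hY2 hY1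
  rw [hlu] at h ⊢
  linarith

/-- region B1 -/
lemma regB1 (hN : 24 ≤ N) (hq : 1 ≤ q) (hY : Y = q ^ 2 - 1) (hpq : q ≤ p) (hlu : l = 77 / 200 + u)
    (hu : 6 / 25 ≤ u) (hu1 : u ≤ 18 / 25) (hr : (p / q) ^ 2 * (1 - Y * e) = 1)
    (he0 : 2 * u + 2 * u ^ 2 + 4 / 3 * u ^ 3 ≤ e)
    (he1 : e ≤ 2 * u + 2 * u ^ 2 + 4 / 3 * u ^ 3 + 2 / 3 * u ^ 4 + 7 / 20 * u ^ 5)
    (hY1 : Y ≤ 41 / 100)
    (hPT : 1 / q * (1 / (1 + p) - v / (1 + v)) ≤ 955 / 1000 * (1 + e) * Y)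
    (hX : 12 + 9 * Y ≤ N * Y) :
    0 < F1 N q p l u (1 + e) (v / (1 + v)) := by
  have hY0 : 0 ≤ Y := by rw [hY]; nlinarith
  have hu0 : 0 ≤ u := by linarith
  have hp : ∀ k : ℕ, u ^ k ≤ (18 / 25) ^ k := fun k => pow_le_pow_left₀ hu0 hu1 k
  have hehi : 2 * u + 2 * u ^ 2 + 4 / 3 * u ^ 3 + 2 / 3 * u ^ 4 + 7 / 20 * u ^ 5 ≤ 323 / 100 := by
    have a2 := hp 2
    have a3 := hp 3
    have a4 := hp 4
    have a5 := hp 5
    norm_num at a2 a3 a4 a5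
    linarith
  have hee : 0 ≤ e := le_trans (by positivity) he0
  have hPT' : 955 / 1000 * (1 + e) * Y ≤
      955 / 1000 * (1 + (2 * u + 2 * u ^ 2 + 4 / 3 * u ^ 3 + 2 / 3 * u ^ 4 + 7 / 20 * u ^ 5)) * Y := by
    have := mul_le_mul_of_nonneg_right he1 hY0
    linarith
  have h := F1_ge' (v := v) hN hq hY hpq hlu hu0 hee (by linarith) hr (by positivity) hX (by linarith)
    (by nlinarith) he0 he1 (by positivity) (hPT.trans hPT')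
  have h2 := polB1 hu hu1 hY0 hY1
  rw [hlu] at h ⊢
  linarith

lemma hr_pos {r : ℝ} (hr : 1 ≤ r) : 0 ≤ 77 / 200 * r ^ 4 + 77 / 200 * r ^ 3 - 177 / 100 * r ^ 2 + 51 / 100 * r + 51 / 100 := by
  nlinarith [sq_nonneg (r - 217 / 200), mul_nonneg (by linarith : 0 ≤ r) (sq_nonneg (r - 217 / 200)),
    mul_nonneg (sq_nonneg r) (sq_nonneg (r - 217 / 200))]

lemma brk_nonneg {r : ℝ} (hr1 : 1 ≤ r) (hY0 : 0 ≤ Y) (hr : r ^ 2 * (1 - Y * e) = 1) :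
    0 ≤ -((r - 1) * (1 - 77 / 200 * ((1 + Y) * (r ^ 2 + r + 1) - 3))) + 51 / 100 * (Y * e) := by
  have hr0 : 0 < r := by linarith
  have hYe : Y * e = (r ^ 2 - 1) / r ^ 2 := by
    field_simp
    linear_combination -hr
  have e1 : -((r - 1) * (1 - 77 / 200 * ((1 + Y) * (r ^ 2 + r + 1) - 3))) + 51 / 100 * (Y * e) =
      (r - 1) * (77 / 200 * r ^ 4 + 77 / 200 * r ^ 3 - 177 / 100 * r ^ 2 + 51 / 100 * r + 51 / 100) / r ^ 2 +
      77 / 200 * Y * ((r - 1) * (r ^ 2 + r + 1)) := by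
    rw [hYe]
    field_simp
    ring
  rw [e1]
  have h1 := hr_pos hr1
  have h2 : 0 ≤ r - 1 := by linarith
  positivity

lemma C_le (hq : 1 ≤ q) (hp1 : 1 ≤ p) (hp2 : p ≤ 1365 / 1000) :
    77 / 200 * (4 * p ^ 3 / q - 3 * p / q - q ^ 2) ≤ 1956 / 1000 := by
  have h1 : 0 ≤ 4 * p ^ 3 - 3 * p := by nlinarith [mul_pos (by linarith : 0 < p) (by linarith : 0 < p)]
  have h2 : (4 * p ^ 3 - 3 * p) / q ≤ 4 * p ^ 3 - 3 * p := div_le_self h1 hq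
  have h3 : 4 * p ^ 3 - 3 * p ≤ 4 * (1365 / 1000) ^ 3 - 3 * (1365 / 1000) := by
    have a1 : 0 ≤ 1365 / 1000 - p := by linarith
    have a2 : 0 ≤ 4 * ((1365 / 1000) ^ 2 + 1365 / 1000 * p + p ^ 2) - 3 := by nlinarith
    nlinarith [mul_nonneg a1 a2]
  have h4 : 4 * p ^ 3 / q - 3 * p / q = (4 * p ^ 3 - 3 * p) / q := by ring
  have h5 : 1 ≤ q ^ 2 := one_le_pow₀ hq
  rw [h4]
  norm_num at h3
  linarith

lemma PT_le_half (hq : 1 ≤ q) (hp1 : 1 ≤ p) {V : ℝ} (hV : 0 ≤ V) : 1 / q * (1 / (1 + p) - V) ≤ 1 / 2 := by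
  have hq0 : 0 < q := by linarith
  have h1 : 1 / (1 + p) ≤ 1 / 2 := by
    rw [div_le_div_iff₀ (by linarith) (by norm_num)]; linarith
  have h2 : 1 / q ≤ 1 := by rw [div_le_one hq0]; exact hq
  calc 1 / q * (1 / (1 + p) - V) ≤ 1 / q * (1 / 2) := mul_le_mul_of_nonneg_left (by linarith) (by positivity)
    _ ≤ 1 * (1 / 2) := mul_le_mul_of_nonneg_right h2 (by norm_num)
    _ = _ := by ring

/-- the main estimate in region B2 -/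
lemma mainB2 {X : ℝ} (hY0 : 0 ≤ Y) (hYs : Y ≤ 2 / 15) (hlu : l = 77 / 200 + u) (hu : 143 / 200 ≤ u)
    (he1 : 293 / 100 ≤ e) (hX : 4857 / 1000 * (1 + e) * (1 + Y) ≤ X) :
    393 / 100 * (3 / 10 * (4857 / 1000) * (11 / 10) ^ 2 - 153 / 100) ≤
      X * (3 / 10 * l ^ 2 + Y * (l ^ 2 - 3 / 4 * u)) - 153 / 100 * ((1 + e) * (1 + Y)) -
      (4 * Y ^ 2 + 21 / 5 * Y) * l ^ 2 := by
  have hl0 : 11 / 10 ≤ l := by rw [hlu]; linarith
  have hl2 : (11 / 10 : ℝ) ^ 2 ≤ l ^ 2 := pow_le_pow_left₀ (by norm_num) hl0 2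
  have hK : 55 / 100 * l ^ 2 ≤ l ^ 2 - 3 / 4 * u := by
    have : u = l - 77 / 200 := by rw [hlu]; ring
    rw [this]; nlinarith
  have hee : 0 ≤ e := by linarith
  have hEY : 393 / 100 ≤ (1 + e) * (1 + Y) := by nlinarith [mul_nonneg hee hY0]
  have hX1 : 19 ≤ X := by linarith
  have hXl : 3 / 10 * (4857 / 1000 * ((1 + e) * (1 + Y))) * l ^ 2 ≤ 3 / 10 * X * l ^ 2 := by
    have := mul_le_mul_of_nonneg_right hX (by positivity : 0 ≤ 3 / 10 * l ^ 2)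
    linarith
  have hmain : 393 / 100 * (3 / 10 * (4857 / 1000) * (11 / 10) ^ 2 - 153 / 100) ≤
      3 / 10 * (4857 / 1000 * ((1 + e) * (1 + Y))) * l ^ 2 - 153 / 100 * ((1 + e) * (1 + Y)) := by
    have h1 : (0:ℝ) ≤ 3 / 10 * (4857 / 1000) * (11 / 10) ^ 2 - 153 / 100 := by norm_num
    have h2 : 3 / 10 * (4857 / 1000) * (11 / 10) ^ 2 - 153 / 100 ≤ 3 / 10 * (4857 / 1000) * l ^ 2 - 153 / 100 := by
      linarith
    have h3 := mul_le_mul hEY h2 h1 (by linarith)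
    linarith
  have hYl : (4 * Y ^ 2 + 21 / 5 * Y) * l ^ 2 ≤ X * (Y * (l ^ 2 - 3 / 4 * u)) := by
    have h1 : 19 * (55 / 100 * l ^ 2) ≤ X * (l ^ 2 - 3 / 4 * u) :=
      mul_le_mul hX1 hK (by positivity) (by linarith)
    have h2 : (4 * Y + 21 / 5) * l ^ 2 ≤ X * (l ^ 2 - 3 / 4 * u) := by
      have : (4 * Y + 21 / 5) * l ^ 2 ≤ 5 * l ^ 2 := mul_le_mul_of_nonneg_right (by linarith) (sq_nonneg l)
      nlinarith [sq_nonneg l]
    have h3 := mul_le_mul_of_nonneg_left h2 hY0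
    linarith
  linarith

/-- region B2 -/
lemma regB2 (hN : 0 ≤ N) (hq : 1 ≤ q) (hY : Y = q ^ 2 - 1) (hpq : q ≤ p) (hlu : l = 77 / 200 + u)
    (hu : 143 / 200 ≤ u) (he : 2 * u + 2 * u ^ 2 + 4 / 3 * u ^ 3 ≤ e) (hr : (p / q) ^ 2 * (1 - Y * e) = 1)
    (hw : w = 1 - 1 / p ^ 2) (hw1 : w ≤ 4632 / 10000) (hwE : w * q ^ 2 = (1 + e) * Y) {V : ℝ} (hV : 0 ≤ V)
    (hX : 4857 / 1000 * (1 + e) * (1 + Y) ≤ N * Y) :
    0 < F1 N q p l u (1 + e) V := by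
  have hY0 : 0 ≤ Y := by rw [hY]; nlinarith
  have hq0 : 0 < q := by linarith
  have hp0 : 0 < p := by linarith
  have hq2 : q ^ 2 = 1 + Y := by rw [hY]; ring
  have he1 : 293 / 100 ≤ e := by
    have hu3 : (143 / 200 : ℝ) ^ 3 ≤ u ^ 3 := pow_le_pow_left₀ (by norm_num) hu 3
    have hu2 : (143 / 200 : ℝ) ^ 2 ≤ u ^ 2 := pow_le_pow_left₀ (by norm_num) hu 2
    norm_num at hu3 hu2; linarith
  have hee : 0 ≤ e := by linarith
  have hYs : Y ≤ 2 / 15 := by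
    rw [hq2] at hwE
    nlinarith [mul_le_mul_of_nonneg_right hw1 (by linarith : 0 ≤ 1 + Y), mul_le_mul_of_nonneg_right he1 hY0]
  have hqh : q ≤ 1 + Y / 2 := by rw [hY]; nlinarith [sq_nonneg (q - 1)]
  have hp2 : p ≤ 1365 / 1000 := by
    have h1 : 5368 / 10000 ≤ 1 / p ^ 2 := by linarith
    rw [le_div_iff₀ (by positivity)] at h1
    nlinarith
  obtain ⟨r, hrd⟩ : ∃ r, r = p / q := ⟨_, rfl⟩
  have hr1 : 1 ≤ r := by rw [hrd, le_div_iff₀ hq0]; linarith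
  have hpr : p = q * r := by rw [hrd]; field_simp
  rw [← hrd] at hr
  have hbr := brk_nonneg hr1 hY0 hr
  have hC := C_le hq (hq.trans hpq) hp2
  have hPT := PT_le_half hq (hq.trans hpq) hV
  have hq1 : 1 ≤ 2 * q - 2 / (q + 1) := by
    have h1 := q1 hq hY
    have h2 : 0 ≤ Y * (5 / 4 - 3 / 8 * Y) := mul_nonneg hY0 (by linarith)
    linarith
  have hq3 : 0 ≤ 3 - 2 * q + 1 / (q + 1) ^ 2 := by
    have h1 := q3 hq hY
    linarith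
  have hl0 : 0 ≤ l := by rw [hlu]; linarith
  have hlq : 0 ≤ l * Y * (3 - 2 * q + 1 / (q + 1) ^ 2) := mul_nonneg (mul_nonneg hl0 hY0) hq3
  have hE1 : 51 / 50 * (q * (1 + e) + (1 / 2 + Y) * e) ≤ 153 / 100 * ((1 + e) * (1 + Y)) - 51 / 100 - 51 / 50 * Y := by
    have := mul_le_mul_of_nonneg_right hqh (by linarith : 0 ≤ 1 + e)
    linarith
  have hM := mainB2 hY0 hYs hlu hu he1 hX
  have huq := mul_le_mul_of_nonneg_left (uq_le hq) (by linarith : 0 ≤ u)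
  rw [← hY] at huq
  have hNuq := mul_le_mul_of_nonneg_left huq hN
  have hNbr := mul_nonneg hN hbr
  have huq2 : u ≤ u * q ^ 2 := le_mul_of_one_le_right (by linarith) (one_le_pow₀ hq)
  have hF : F1 N q p l u (1 + e) V =
      N * (3 / 10 * Y * l ^ 2 + Y ^ 2 * l ^ 2 - u * (1 / q * (q - 1) ^ 2 * (q + 2)) +
        (-((r - 1) * (1 - 77 / 200 * ((1 + Y) * (r ^ 2 + r + 1) - 3))) + 51 / 100 * (Y * e))) +
      (2 * q - 2 / (q + 1)) - 1 / q * (1 / (1 + p) - V) -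
      77 / 200 * (4 * p ^ 3 / q - 3 * p / q - q ^ 2) +
      l * Y * (3 - 2 * q + 1 / (q + 1) ^ 2) -
      51 / 50 * (q * (1 + e) + (1 / 2 + Y) * e) + u * q ^ 2 -
      (4 * Y ^ 2 + 21 / 5 * Y) * l ^ 2 - 3 / 20 := by
    unfold F1
    rw [show l - u = 77 / 200 by rw [hlu]; ring, ← hY]
    have e1 : p ^ 2 + p * q + q ^ 2 - 3 = (1 + Y) * (r ^ 2 + r + 1) - 3 := by
      rw [hpr, ← hq2]; ring
    rw [e1, ← hrd]
    ring
  rw [hF]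
  norm_num at hM
  linarith

end

end Crest.Agent.R230.FarZ
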