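import Crest.Agent.R230.FarZeroB

/-!
# Row 230: the far block in case I: the pointwise theorem (helper930)
-/

set_option autoImplicit false

open MeasureTheory Set Filter Topology

namespace Crest.Agent.R230.FarZ

open WR PolyC

/-- the class `(C1)`/`(C2)` of the far region, `x = s √N`, `N = n + 1` -/
def Cls (n : ℕ) (s l : ℝ) : Prop :=
  (s * √((n : ℝ) + 1) ≤ 7 / 2 ∧
    Real.exp l ≤ 3 / 5 + (73 / 200 + 1 / (2 * ((n : ℝ) + 1))) * (s * √((n : ℝ) + 1))) ∨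
  (7 / 2 ≤ s * √((n : ℝ) + 1) ∧ Real.exp l ≤ 2 / 3 * (s * √((n : ℝ) + 1)))

lemma exp_l_ge {l u : ℝ} (hlu : l = 77 / 200 + u) (hu : 0 ≤ u) :
    3 / 5 + (8696 / 10000 + 14696 / 10000 * u + 7348 / 10000 * u ^ 2) ≤ Real.exp l := by
  rw [hlu, Real.exp_add]
  have h1 := exp385_ge
  have h2 := Real.quadratic_le_exp_of_nonneg hu
  have h3 := mul_le_mul h1 h2 (by positivity) (Real.exp_pos _).le
  linarith

/-- the bound for `X = N Y` in case `x ≤ 7/2` -/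
lemma X_ge1 {N x Y g X : ℝ} (hN : 24 ≤ N) (hY0 : 0 ≤ Y) (hg : 0 ≤ g) (hX : X = x ^ 2 * (1 + Y))
    (hX' : X = N * Y) (h : g ≤ (73 / 200 + 1 / (2 * N)) * x) :
    (g ^ 2 * (1 + Y) - 3755 / 10000 * Y) * (1000000 / 133225) ≤ X := by
  have hN0 : 0 < N := by linarith
  have h1 : g ^ 2 ≤ ((73 / 200 + 1 / (2 * N)) * x) ^ 2 := pow_le_pow_left₀ hg h 2
  have h2 := mul_le_mul_of_nonneg_right h1 (by linarith : 0 ≤ 1 + Y)
  have h3 : ((73 / 200 + 1 / (2 * N)) * x) ^ 2 * (1 + Y) = (73 / 200 + 1 / (2 * N)) ^ 2 * X := by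
    rw [hX]; ring
  have h4 : (73 / 200 + 1 / (2 * N)) ^ 2 * X = 133225 / 1000000 * X + 73 / 200 * Y + Y / (4 * N) := by
    have : X = N * Y := hX'
    rw [this]
    field_simp
    ring
  have h5 : Y / (4 * N) ≤ 1 / 96 * Y := by
    rw [div_le_iff₀ (by positivity)]
    nlinarith
  rw [h3, h4] at h2
  linarith

section
variable {N q p l u e Y w t v x : ℝ}

/-- the basic relations -/
structure Rel (N q p l u e Y w t v x : ℝ) : Prop where
  hN : 24 ≤ N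
  hq1 : 1 ≤ q
  hY : Y = q ^ 2 - 1
  hpq : q ≤ p
  hlu : l = 77 / 200 + u
  hu0 : 0 ≤ u
  hE : Real.exp (2 * u) = 1 + e
  hr : (p / q) ^ 2 * (1 - Y * e) = 1
  hw : w = 1 - 1 / p ^ 2
  hw0 : 0 ≤ w
  hv : 0 ≤ v
  hvt : v ^ 2 = 1 - t
  htw : t = Real.exp (77 / 100) * w
  hwE : w * q ^ 2 = (1 + e) * Y
  ht1 : t < 1
  hx0 : 0 ≤ x
  hx2 : x ^ 2 * (1 + Y) = N * Y
  hC : (x ≤ 7 / 2 ∧ Real.exp l ≤ 3 / 5 + (73 / 200 + 1 / (2 * N)) * x) ∨
    (7 / 2 ≤ x ∧ Real.exp l ≤ 2 / 3 * x)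

lemma Rel.hY0 (h : Rel N q p l u e Y w t v x) : 0 ≤ Y := by
  have := h.hq1
  rw [h.hY]; nlinarith

lemma Rel.ht0 (h : Rel N q p l u e Y w t v x) : 0 ≤ t := by
  have := h.hw0
  rw [h.htw]; positivity

lemma Rel.htw' (h : Rel N q p l u e Y w t v x) : t ≤ 216 / 100 * w := by
  rw [h.htw]; exact mul_le_mul_of_nonneg_right exp77_le h.hw0

lemma Rel.htw2 (h : Rel N q p l u e Y w t v x) : 2159 / 1000 * w ≤ t := by
  rw [h.htw]; exact mul_le_mul_of_nonneg_right exp77_ge h.hw0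

lemma Rel.hee (h : Rel N q p l u e Y w t v x) : 0 ≤ e := by
  have := elo2 h.hu0
  have h1 := h.hu0
  have h2 := h.hE
  nlinarith

lemma Rel.hYt (h : Rel N q p l u e Y w t v x) : w * (1 + Y) = (1 + e) * Y := by
  have h1 := h.hwE
  have h2 : q ^ 2 = 1 + Y := by rw [h.hY]; ring
  rw [← h2]; exact h1

/-- `X` in region A -/
lemma Rel.XA (h : Rel N q p l u e Y w t v x) (h1 : u ≤ 6 / 25) :
    ((8696 / 10000 + 14696 / 10000 * u + 7348 / 10000 * u ^ 2) ^ 2 * (1 + Y) - 3755 / 10000 * Y) *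
      (1000000 / 133225) ≤ N * Y := by
  have hu0 := h.hu0
  have hY0 := h.hY0
  have hgl := exp_l_ge h.hlu hu0
  have hu2 : u ^ 2 ≤ (6 / 25) ^ 2 := pow_le_pow_left₀ hu0 h1 2
  norm_num at hu2
  rcases h.hC with ⟨_, h3⟩ | ⟨h2, _⟩
  · exact X_ge1 (x := x) h.hN hY0 (by positivity) h.hx2.symm rfl (by linarith)
  · have h4 : (7 / 2 : ℝ) ^ 2 ≤ x ^ 2 := pow_le_pow_left₀ (by norm_num) h2 2
    have h5 := mul_le_mul_of_nonneg_right h4 (by linarith : 0 ≤ 1 + Y)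
    have h6 : (8696 / 10000 + 14696 / 10000 * u + 7348 / 10000 * u ^ 2) ^ 2 ≤ (12647 / 10000 : ℝ) ^ 2 :=
      pow_le_pow_left₀ (by positivity) (by linarith) 2
    have h7 := mul_le_mul_of_nonneg_right h6 (by linarith : 0 ≤ 1 + Y)
    rw [h.hx2] at h5
    linarith

lemma Rel.posA (h : Rel N q p l u e Y w t v x) (h1 : u ≤ 6 / 25) :
    0 < F1 N q p l u (1 + e) (v / (1 + v)) := by
  have hu0 := h.hu0
  have hY0 := h.hY0
  have hee := h.hee
  have hE := h.hE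
  have he0 : 2 * u + 2 * u ^ 2 ≤ e := by have := elo2 hu0; linarith
  have he1 : e ≤ 2 * u + 2 * u ^ 2 + 38 / 25 * u ^ 3 := by have := ehi3 hu0 h1; linarith
  have hehi : 2 * u + 2 * u ^ 2 + 38 / 25 * u ^ 3 ≤ 617 / 1000 := by
    have hu2 : u ^ 2 ≤ (6 / 25) ^ 2 := pow_le_pow_left₀ hu0 h1 2
    have hu3 : u ^ 3 ≤ (6 / 25) ^ 3 := pow_le_pow_left₀ hu0 h1 3
    norm_num at hu2 hu3; linarith
  have hX := h.XA h1
  have hYt := h.hYt
  have htw' := h.htw'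
  have htw2 := h.htw2
  have ht1 := h.ht1
  rcases le_or_gt t (1 / 2) with ht2 | ht2
  · have hY1 : Y ≤ 31 / 100 := by
      have h1 : w ≤ 1000 / 4318 := by linarith
      have h2 := mul_le_mul_of_nonneg_right h1 (by linarith : 0 ≤ 1 + Y)
      have h3 := mul_nonneg hee hY0
      linarith
    have hPT := PT1 h.hq1 h.hY (h.hq1.trans h.hpq) h.hw h.hv h.hvt htw' h.ht0 ht2 h.hwE (by linarith : 0 ≤ 1 + e)
    exact regA1 h.hN h.hq1 h.hY h.hpq h.hlu hu0 h1 h.hr he0 he1 (he1.trans hehi) hehi hY1 hPT hX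
  · have hY1 : Y ≤ 87 / 100 := by
      have h1 : w ≤ 1000 / 2159 := by linarith
      have h2 := mul_le_mul_of_nonneg_right h1 (by linarith : 0 ≤ 1 + Y)
      have h3 := mul_nonneg hee hY0
      linarith
    have hY2 : 15 / 100 ≤ Y := by
      have h1 : 100 / 432 ≤ w := by linarith
      have h2 := mul_le_mul_of_nonneg_right h1 (by linarith : 0 ≤ 1 + Y)
      have h3 := mul_le_mul_of_nonneg_right (he1.trans hehi) hY0
      linarith
    have hPT := PT2 h.hq1 h.hY (h.hq1.trans h.hpq) h.hw h.hv h.hvt htw' ht2.le h.hwE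
      (by linarith : 0 ≤ 1 + e) hY1
    exact regA2 h.hN h.hq1 h.hY h.hpq h.hlu hu0 h1 h.hr he0 he1 (he1.trans hehi) hehi hY1 hY2 hPT hX

lemma Rel.posB1 (h : Rel N q p l u e Y w t v x) (h1 : 6 / 25 ≤ u) (h2 : u ≤ 18 / 25) :
    0 < F1 N q p l u (1 + e) (v / (1 + v)) := by
  have hu0 := h.hu0
  have hY0 := h.hY0
  have hee := h.hee
  have hE := h.hE
  have htw2 := h.htw2
  have ht1 := h.ht1
  have he0 : 2 * u + 2 * u ^ 2 + 4 / 3 * u ^ 3 ≤ e := by have := elo3 hu0; linarith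
  have hw1 : w ≤ 4632 / 10000 := by linarith
  have he1 : e ≤ 2 * u + 2 * u ^ 2 + 4 / 3 * u ^ 3 + 2 / 3 * u ^ 4 + 7 / 20 * u ^ 5 := by
    have := ehi5 hu0 h2; linarith
  have hu2 : (6 / 25 : ℝ) ^ 2 ≤ u ^ 2 := pow_le_pow_left₀ (by norm_num) h1 2
  norm_num at hu2
  have he2 : 61 / 100 ≤ e := by
    have hu3 : (6 / 25 : ℝ) ^ 3 ≤ u ^ 3 := pow_le_pow_left₀ (by norm_num) h1 3
    norm_num at hu3
    linarith
  have hYt := h.hYt
  have hgl := exp_l_ge h.hlu hu0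
  have hY1 : Y ≤ 41 / 100 := by
    have h3 := mul_le_mul_of_nonneg_right hw1 (by linarith : 0 ≤ 1 + Y)
    have h4 := mul_le_mul_of_nonneg_right he2 hY0
    linarith
  have hX : 12 + 9 * Y ≤ N * Y := by
    rcases h.hC with ⟨_, h3⟩ | ⟨h3, _⟩
    · have h4 := X_ge1 (x := x) h.hN hY0 (by positivity) h.hx2.symm rfl
        (g := 8696 / 10000 + 14696 / 10000 * u + 7348 / 10000 * u ^ 2) (by linarith)
      have h5 : (12646 / 10000 : ℝ) ^ 2 ≤ (8696 / 10000 + 14696 / 10000 * u + 7348 / 10000 * u ^ 2) ^ 2 :=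
        pow_le_pow_left₀ (by norm_num) (by linarith) 2
      have h6 := mul_le_mul_of_nonneg_right h5 (by linarith : 0 ≤ 1 + Y)
      norm_num at h6
      linarith
    · have h4 : (7 / 2 : ℝ) ^ 2 ≤ x ^ 2 := pow_le_pow_left₀ (by norm_num) h3 2
      have h5 := mul_le_mul_of_nonneg_right h4 (by linarith : 0 ≤ 1 + Y)
      rw [h.hx2] at h5
      linarith
  have hPT := PT3 h.hq1 h.hY (h.hq1.trans h.hpq) h.hw h.hv h.hvt h.htw' h.ht0 h.hwE (by linarith : 0 ≤ 1 + e)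
  exact regB1 h.hN h.hq1 h.hY h.hpq h.hlu h1 h2 h.hr he0 he1 hY1 hPT hX

lemma Rel.posB2 (h : Rel N q p l u e Y w t v x) (h2 : 143 / 200 ≤ u) :
    0 < F1 N q p l u (1 + e) (v / (1 + v)) := by
  have hu0 := h.hu0
  have hY0 := h.hY0
  have hee := h.hee
  have hE := h.hE
  have hN := h.hN
  have htw2 := h.htw2
  have ht1 := h.ht1
  have he0 : 2 * u + 2 * u ^ 2 + 4 / 3 * u ^ 3 ≤ e := by have := elo3 hu0; linarith
  have hw1 : w ≤ 4632 / 10000 := by linarith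
  have hgl := exp_l_ge h.hlu hu0
  have hX : 4857 / 1000 * (1 + e) * (1 + Y) ≤ N * Y := by
    rcases h.hC with ⟨h3, h4⟩ | ⟨_, h3⟩
    · exfalso
      have h5 : 1 / (2 * N) ≤ 1 / 48 := one_div_le_one_div_of_le (by norm_num) (by linarith)
      have h6 : (73 / 200 + 1 / (2 * N)) * x ≤ (73 / 200 + 1 / 48) * (7 / 2) :=
        mul_le_mul (by linarith) h3 h.hx0 (by norm_num)
      have h7 : 0 ≤ u ^ 2 := sq_nonneg u
      linarith
    · have h4 : Real.exp l ^ 2 ≤ (2 / 3 * x) ^ 2 := pow_le_pow_left₀ (Real.exp_pos l).le h3 2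
      have h5 : Real.exp l ^ 2 = Real.exp (77 / 100) * (1 + e) := by
        rw [← hE, ← Real.exp_add, ← Real.exp_nat_mul]
        congr 1
        push_cast
        rw [h.hlu]; ring
      rw [h5] at h4
      have h6 := mul_le_mul_of_nonneg_right exp77_ge (by linarith : 0 ≤ 1 + e)
      have h7 : 2159 / 1000 * (1 + e) ≤ 4 / 9 * x ^ 2 := by linarith
      have h8 := mul_le_mul_of_nonneg_right h7 (by linarith : 0 ≤ 1 + Y)
      have h9 : 4 / 9 * x ^ 2 * (1 + Y) = 4 / 9 * (N * Y) := by rw [← h.hx2]; ring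
      rw [h9] at h8
      have h10 : 0 ≤ (1 + e) * (1 + Y) := by positivity
      linarith
  have hv := h.hv
  exact regB2 (by linarith) h.hq1 h.hY h.hpq h.hlu h2 he0 h.hr h.hw hw1 h.hwE (by positivity) hX

theorem Rel.pos (h : Rel N q p l u e Y w t v x) : 0 < F1 N q p l u (1 + e) (v / (1 + v)) := by
  rcases le_or_gt u (6 / 25) with h1 | h1
  · exact h.posA h1
  · rcases le_or_gt u (18 / 25) with h2 | h2
    · exact h.posB1 h1.le h2
    · exact h.posB2 (by linarith)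

end

/-- positivity of `F1` on the class -/
theorem F1_pos {n : ℕ} (hn : 23 ≤ n) {s l : ℝ} (hs : s ∈ Ioo (0 : ℝ) 1) (hl : 77 / 200 ≤ l)
    (hT : s * Real.exp l < 1) (hC : Cls n s l) :
    0 < F1 ((n : ℝ) + 1) (1 / cc s) (1 / cc (s * Real.exp (l - 77 / 200))) l (l - 77 / 200)
      (Real.exp (2 * (l - 77 / 200))) (Phi (s * Real.exp l)) := by
  obtain ⟨u, hu⟩ : ∃ u, u = l - 77 / 200 := ⟨_, rfl⟩
  rw [← hu]
  have hu0 : 0 ≤ u := by linarith
  have hlu : l = 77 / 200 + u := by linarith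
  have hN : (24 : ℝ) ≤ (n : ℝ) + 1 := by
    have : (23 : ℝ) ≤ n := by exact_mod_cast hn
    linarith
  obtain ⟨N, hNd⟩ : ∃ N, N = (n : ℝ) + 1 := ⟨_, rfl⟩
  rw [← hNd] at hN
  have hφ : s * Real.exp u < 1 := by
    refine lt_of_le_of_lt ?_ hT
    exact mul_le_mul_of_nonneg_left (Real.exp_le_exp.2 (by linarith)) hs.1.le
  have hφ' : s * Real.exp u ∈ Ioo (0 : ℝ) 1 := ⟨mul_pos hs.1 (Real.exp_pos u), hφ⟩
  have hT' : s * Real.exp l ∈ Ioo (0 : ℝ) 1 := ⟨mul_pos hs.1 (Real.exp_pos l), hT⟩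
  have hc := cc_pos' hs
  have hc1 := cc_le_one s
  have hc2 := cc_sq' hs
  have hd := cc_pos' hφ'
  have hd1 := cc_le_one (s * Real.exp u)
  have hd2 := cc_sq' hφ'
  have hv := cc_pos' hT'
  have hv2 := cc_sq' hT'
  have hdc : cc (s * Real.exp u) ≤ cc s := by
    refine cc_anti hs.1.le ?_
    exact le_mul_of_one_le_right hs.1.le (Real.one_le_exp hu0)
  obtain ⟨c, hcd⟩ : ∃ c, c = cc s := ⟨_, rfl⟩
  obtain ⟨d, hdd⟩ : ∃ d, d = cc (s * Real.exp u) := ⟨_, rfl⟩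
  obtain ⟨v, hvd⟩ : ∃ v, v = cc (s * Real.exp l) := ⟨_, rfl⟩
  have hPhi : Phi (s * Real.exp l) = v / (1 + v) := by unfold Phi; rw [← hvd]
  rw [hPhi, ← hNd, ← hcd, ← hdd]
  rw [← hcd] at hc hc1 hc2 hdc
  rw [← hdd] at hd hd1 hd2 hdc
  rw [← hvd] at hv hv2
  obtain ⟨q, hq⟩ : ∃ q, q = 1 / c := ⟨_, rfl⟩
  obtain ⟨p, hp⟩ : ∃ p, p = 1 / d := ⟨_, rfl⟩
  rw [← hq, ← hp]
  have hq0 : 0 < q := by rw [hq]; positivity
  have hp0 : 0 < p := by rw [hp]; positivity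
  have hq1 : 1 ≤ q := by rw [hq, le_div_iff₀ hc]; linarith
  have hpq : q ≤ p := by rw [hq, hp]; exact one_div_le_one_div_of_le hd hdc
  have hqc : c = 1 / q := by rw [hq, one_div_one_div]
  have hpd : d = 1 / p := by rw [hp, one_div_one_div]
  obtain ⟨e, hE⟩ : ∃ e, e = Real.exp (2 * u) - 1 := ⟨_, rfl⟩
  have hE' : Real.exp (2 * u) = 1 + e := by rw [hE]; ring
  rw [hE']
  obtain ⟨Y, hY⟩ : ∃ Y, Y = q ^ 2 - 1 := ⟨_, rfl⟩
  have hq2 : q ^ 2 = 1 + Y := by rw [hY]; ring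
  have hs2 : s ^ 2 * (1 + Y) = Y := by
    have h1 : s ^ 2 = 1 - c ^ 2 := by linarith
    rw [h1, hqc, ← hq2, hY]; field_simp
  obtain ⟨w, hw⟩ : ∃ w, w = 1 - 1 / p ^ 2 := ⟨_, rfl⟩
  have hw' : w = s ^ 2 * (1 + e) := by
    have h1 : w = 1 - d ^ 2 := by rw [hw, hpd, one_div_pow]
    have h2 : Real.exp u ^ 2 = 1 + e := by rw [← hE', two_mul, Real.exp_add, sq]
    rw [h1, hd2, mul_pow, h2]; ring
  have hwE : w * q ^ 2 = (1 + e) * Y := by
    rw [hq2, hw']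
    linear_combination (1 + e) * hs2
  obtain ⟨t, ht⟩ : ∃ t, t = 1 - v ^ 2 := ⟨_, rfl⟩
  have hvt : v ^ 2 = 1 - t := by rw [ht]; ring
  have htw : t = Real.exp (77 / 100) * w := by
    have h2 : Real.exp l ^ 2 = Real.exp (77 / 100) * (1 + e) := by
      rw [← hE', ← Real.exp_add, ← Real.exp_nat_mul]
      congr 1
      push_cast
      rw [hlu]; ring
    rw [ht, hv2, mul_pow, h2, hw']
    ring
  have hr : (p / q) ^ 2 * (1 - Y * e) = 1 := by
    have h1 : 1 / p ^ 2 = 1 - w := by rw [hw]; ring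
    have h2 : p ^ 2 * (1 - w) = 1 := by rw [← h1]; field_simp
    have h3 : q ^ 2 * (1 - w) = 1 - Y * e := by
      linear_combination (-1 : ℝ) * hwE + hq2
    rw [div_pow, div_mul_eq_mul_div, div_eq_one_iff_eq (by positivity), ← h3]
    linear_combination q ^ 2 * h2
  have hw0 : 0 ≤ w := by
    have : 0 ≤ 1 + e := by rw [← hE']; exact (Real.exp_pos _).le
    rw [hw']; positivity
  have ht1 : t < 1 := by
    have := pow_pos hv 2
    linarith
  have hx2 : (s * √N) ^ 2 * (1 + Y) = N * Y := by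
    rw [mul_pow, Real.sq_sqrt (by linarith)]
    linear_combination N * hs2
  have hx0 : 0 ≤ s * √N := mul_nonneg hs.1.le (Real.sqrt_nonneg _)
  unfold Cls at hC
  rw [← hNd] at hC
  have hR : Rel N q p l u e Y w t v (s * √N) :=
    ⟨hN, hq1, hY, hpq, hlu, hu0, hE', hr, hw, hw0, hv.le, hvt, htw, hwE, ht1, hx0, hx2, hC⟩
  exact hR.pos

/-- **the far block of case I** -/
theorem far0_pos {n : ℕ} (hn : 23 ≤ n) {s l k lm : ℝ} (hs : s ∈ Ioo (0 : ℝ) 1) (hl : 77 / 200 ≤ l)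
    (hT : s * Real.exp l < 1) (hk : -1 < k) (hkc : k * cc s ≤ 1) (hC : Cls n s l) :
    0 < PQ n 0 0 (3 / 20) 1 0 lm s l k +
      (lineC n s l k (l - 77 / 200) k + softG n (51 / 50) 0 s (l - 77 / 200) k) := by
  have hφ : s * Real.exp (l - 77 / 200) < 1 := by
    refine lt_of_le_of_lt ?_ hT
    exact mul_le_mul_of_nonneg_left (Real.exp_le_exp.2 (by linarith)) hs.1.le
  have h := F1_pos hn hs hl hT hC
  have hc := cc_pos' hs
  have hc1 := cc_le_one s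
  rw [far_eq hs hφ (by linarith)]
  have hE : 1 ≤ Real.exp (2 * (l - 77 / 200)) := Real.one_le_exp (by linarith)
  set c := cc s with hcd
  set q := 1 / c with hq
  have hq1 : 1 ≤ q := by rw [hq, le_div_iff₀ hc]; linarith
  have hq0 : 0 < q := by linarith
  have hkq : k ≤ q := by rw [hq, le_div_iff₀ hc]; exact hkc
  have h1 : 0 ≤ q - k := by linarith
  have h2 : 0 ≤ -(2 - 2 / (q * (q + 1)) - 2 * (q ^ 2 - 1) * l - 51 / 50 * Real.exp (2 * (l - 77 / 200))) := by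
    have h3 : 2 - 2 / (q * (q + 1)) ≤ 2 * (q ^ 2 - 1) * (77 / 200) + 51 / 50 := by
      have : (2:ℝ) - (2 * (q ^ 2 - 1) * (77 / 200) + 51 / 50) ≤ 2 / (q * (q + 1)) := by
        rw [le_div_iff₀ (by positivity)]
        nlinarith [mul_nonneg (by linarith : 0 ≤ q - 1) (by linarith : 0 ≤ q - 1),
          mul_nonneg (mul_nonneg (by linarith : 0 ≤ q - 1) (by linarith : 0 ≤ q - 1)) (by linarith : 0 ≤ q)]
      linarith
    have h4 : 2 * (q ^ 2 - 1) * (77 / 200) ≤ 2 * (q ^ 2 - 1) * l :=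
      mul_le_mul_of_nonneg_left hl (by nlinarith)
    linarith
  have h5 : 0 ≤ 3 / 20 * (1 - k ^ 2 / q ^ 2) := by
    have h6 : k ^ 2 ≤ q ^ 2 := by
      apply sq_le_sq'
      · linarith
      · exact hkq
    have : k ^ 2 / q ^ 2 ≤ 1 := by rw [div_le_one (by positivity)]; exact h6
    linarith
  have h7 := mul_nonneg h1 h2
  linarith

end Crest.Agent.R230.FarZ
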