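import Crest.Agent.R230.SDWrap

/-!
# Row 230: `SDL 2`
-/

set_option autoImplicit false
set_option maxHeartbeats 1000000

open MeasureTheory Set Filter Topology Real

namespace Crest.Agent.R230

open SD in
theorem sdl_two : SDL 2 := by
  intro r hr hge hN hM
  have hc := ext_cont hr
  have hmain := main3 hr hge
  set I1 := ∫ s in (0 : ℝ)..1, ext r s ^ 1 with hI1
  set I2 := ∫ s in (0 : ℝ)..1, ext r s ^ 2 with hI2
  set J := ∫ s in (0 : ℝ)..1, (s ^ 2 * ext r s ^ 2 - ext r s ^ 4 / 4) with hJ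
  have hD : ∫ s in (0 : ℝ)..1, (ext r s - √(1 - s ^ 2)) = I1 - π / 4 := by
    rw [intervalIntegral.integral_sub (hc.intervalIntegrable _ _)
      ((by fun_prop : Continuous fun s : ℝ => √(1 - s ^ 2)).intervalIntegrable _ _)]
    have hI := int_sqrt (α := π / 2) (by positivity) le_rfl
    rw [Real.sin_pi_div_two, Real.cos_pi_div_two] at hI
    rw [hI, hI1]
    simp only [pow_one]
    ring
  have hV : ∫ s in (0 : ℝ)..1, PV3 s (ext r s) = 3 / 2 * I2 + 3 / 4 * J := by
    have e : ∀ s : ℝ, PV3 s (ext r s) =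
        3 / 2 * ext r s ^ 2 + 3 / 4 * (s ^ 2 * ext r s ^ 2 - ext r s ^ 4 / 4) := by
      intro s; unfold PV3; ring
    simp only [e]
    rw [intervalIntegral.integral_add
      ((by fun_prop : Continuous fun s : ℝ => 3 / 2 * ext r s ^ 2).intervalIntegrable _ _)
      ((by fun_prop : Continuous fun s : ℝ =>
        3 / 4 * (s ^ 2 * ext r s ^ 2 - ext r s ^ 4 / 4)).intervalIntegrable _ _),
      intervalIntegral.integral_const_mul, intervalIntegral.integral_const_mul]
  have hJ0 : 0 ≤ J := by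
    have e1 : ∫ s in (-1 : ℝ)..1, (s ^ 2 * r s ^ 2 - r s ^ (2 + 2) / (((2 : ℕ) : ℝ) + 2)) =
        ∫ s in (-1 : ℝ)..1, (s ^ 2 * ext r s ^ 2 - ext r s ^ 4 / 4) := by
      apply intervalIntegral.integral_congr
      intro s hs
      rw [uIcc_of_le (by norm_num)] at hs
      simp only [ext_eq hs]
      norm_num
    rw [e1, even_int (by fun_prop)] at hM
    · linarith
    · intro s hs
      rw [ext_even hr hs]; ring
  have hm1 : mom 1 r = 2 * I1 := mom_eq hr 1
  have hm2 : mom 2 r = 2 * I2 := mom_eq hr 2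
  have hN' : (2 * I1) ^ 2 * (4 / 3) ≤ (π / 2) ^ 2 * (2 * I2) := by
    have := hN
    unfold NleB at this
    simp only [show 2 - 1 = 1 from rfl, hm1, hm2, w_two, w_one] at this
    linarith
  have hI1n : 0 ≤ I1 := intervalIntegral.integral_nonneg zero_le_one fun s _ =>
    pow_nonneg (ext_nonneg hge s) 1
  have hpi := Real.pi_pos
  have e3 : 1 + 4 / π * (I1 - π / 4) = 4 / π * I1 := by
    field_simp
    ring
  rw [hD, hV, e3] at hmain
  have hkey : (4 / π * I1) ^ 2 ≤ 3 / 2 * I2 := by
    have : (4 / π * I1) ^ 2 = 16 * I1 ^ 2 / π ^ 2 := by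
      field_simp
      ring
    rw [this, div_le_iff₀ (by positivity)]
    nlinarith
  have hD0 : I1 - π / 4 ≤ 0 := by
    have h1 : 4 / π * (I1 - π / 4) ≤ 0 := by linarith
    by_contra h
    push Not at h
    have : 0 < 4 / π * (I1 - π / 4) := by positivity
    linarith
  have hz := zero_of_int (f := fun s => ext r s - √(1 - s ^ 2)) (by fun_prop) ?_
    (by rw [hD]; exact hD0)
  · have key : ∀ s ∈ Icc (0 : ℝ) 1, r s = √(1 - s ^ 2) := by
      intro s hs
      have hs' : s ∈ Icc (-1 : ℝ) 1 := ⟨by linarith [hs.1], hs.2⟩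
      have h1 := hz s hs
      simp only [ext_eq hs'] at h1
      linarith
    intro s hs
    rcases le_total 0 s with h0 | h0
    · exact key s ⟨h0, hs.2⟩
    · have h1 := key (-s) ⟨by linarith, by linarith [hs.1]⟩
      rw [hr.even s hs] at h1
      rw [h1]; congr 1; ring
  · intro s hs
    have hs' : s ∈ Icc (-1 : ℝ) 1 := ⟨by linarith [hs.1], hs.2⟩
    simp only [ext_eq hs']
    linarith [hge s hs']

end Crest.Agent.R230
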