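import Crest.Agent.R230.SDWrap

/-!
# Row 230: `SDL 3`
-/

set_option autoImplicit false
set_option maxHeartbeats 1000000

open MeasureTheory Set Filter Topology Real

namespace Crest.Agent.R230

open SD in
theorem sdl_three : SDL 3 := by
  intro r hr hge hN hM
  have hc := ext_cont hr
  have hmain := main4 hr hge
  -- `D`
  set I2 := ∫ s in (0 : ℝ)..1, ext r s ^ 2 with hI2
  set I3 := ∫ s in (0 : ℝ)..1, ext r s ^ 3 with hI3
  set J := ∫ s in (0 : ℝ)..1, (s ^ 2 * ext r s ^ 3 - ext r s ^ 5 / 5) with hJ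
  have hD : ∫ s in (0 : ℝ)..1, 3 / 2 * (ext r s ^ 2 - (1 - s ^ 2)) = 3 / 2 * I2 - 1 := by
    have e : ∀ s : ℝ, 3 / 2 * (ext r s ^ 2 - (1 - s ^ 2)) =
        3 / 2 * ext r s ^ 2 - (3 / 2 - 3 / 2 * s ^ 2) := by
      intro s; ring
    simp only [e]
    rw [intervalIntegral.integral_sub
      ((by fun_prop : Continuous fun s : ℝ => 3 / 2 * ext r s ^ 2).intervalIntegrable _ _)
      ((by fun_prop : Continuous fun s : ℝ => 3 / 2 - 3 / 2 * s ^ 2).intervalIntegrable _ _),
      intervalIntegral.integral_const_mul,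
      intervalIntegral.integral_sub (by simp)
        ((by fun_prop : Continuous fun s : ℝ => 3 / 2 * s ^ 2).intervalIntegrable _ _),
      intervalIntegral.integral_const, intervalIntegral.integral_const_mul, integral_pow]
    simp only [smul_eq_mul]
    push_cast
    ring
  have hV : ∫ s in (0 : ℝ)..1, 16 / π * PV4 s (ext r s) = 16 / π * (I3 / 3 + J / 6) := by
    rw [intervalIntegral.integral_const_mul]
    congr 1
    have e : ∀ s : ℝ, PV4 s (ext r s) =
        1 / 3 * ext r s ^ 3 + 1 / 6 * (s ^ 2 * ext r s ^ 3 - ext r s ^ 5 / 5) := by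
      intro s; unfold PV4; ring
    simp only [e]
    rw [intervalIntegral.integral_add
      ((by fun_prop : Continuous fun s : ℝ => 1 / 3 * ext r s ^ 3).intervalIntegrable _ _)
      ((by fun_prop : Continuous fun s : ℝ =>
        1 / 6 * (s ^ 2 * ext r s ^ 3 - ext r s ^ 5 / 5)).intervalIntegrable _ _),
      intervalIntegral.integral_const_mul, intervalIntegral.integral_const_mul]
    ring
  have hJ0 : 0 ≤ J := by
    have e1 : ∫ s in (-1 : ℝ)..1, (s ^ 2 * r s ^ 3 - r s ^ (3 + 2) / (((3 : ℕ) : ℝ) + 2)) =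
        ∫ s in (-1 : ℝ)..1, (s ^ 2 * ext r s ^ 3 - ext r s ^ 5 / 5) := by
      apply intervalIntegral.integral_congr
      intro s hs
      rw [uIcc_of_le (by norm_num)] at hs
      simp only [ext_eq hs]
      norm_num
    rw [e1, even_int (by fun_prop)] at hM
    · linarith
    · intro s hs
      rw [ext_even hr hs]; ring
  have hm2 : mom 2 r = 2 * I2 := mom_eq hr 2
  have hm3 : mom 3 r = 2 * I3 := mom_eq hr 3
  have hN' : (2 * I2) ^ 3 * (3 * π / 8) ^ 2 ≤ (4 / 3) ^ 3 * (2 * I3) ^ 2 := by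
    have := hN
    unfold NleB at this
    simp only [show 3 - 1 = 2 from rfl, hm2, hm3, w_two, w_three] at this
    exact this
  have hI3 : 0 ≤ I3 := intervalIntegral.integral_nonneg zero_le_one fun s _ =>
    pow_nonneg (ext_nonneg hge s) 3
  have hI2 : 0 ≤ I2 := intervalIntegral.integral_nonneg zero_le_one fun s _ =>
    pow_nonneg (ext_nonneg hge s) 2
  rw [hD, hV, show 1 + (3 / 2 * I2 - 1) = 3 / 2 * I2 by ring] at hmain
  have hpi := Real.pi_pos
  have hkey : 3 / 2 * I2 * √(3 / 2 * I2) ≤ 16 / π * (I3 / 3) := by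
    have h1 : (3 / 2 * I2 * √(3 / 2 * I2)) ^ 2 ≤ (16 / π * (I3 / 3)) ^ 2 := by
      rw [mul_pow, Real.sq_sqrt (by positivity)]
      have e2 : (16 / π * (I3 / 3)) ^ 2 = (256 / 9) * I3 ^ 2 / π ^ 2 := by
        field_simp
        ring
      rw [e2, le_div_iff₀ (by positivity)]
      nlinarith
    exact (abs_le_of_sq_le_sq' h1 (by positivity)).2
  have hD0 : 3 / 2 * I2 - 1 ≤ 0 := by
    have h1 : 16 / π * (I3 / 3 + J / 6) = 16 / π * (I3 / 3) + 16 / π * (J / 6) := by ring
    have h2 : 0 ≤ 16 / π * (J / 6) := by positivity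
    linarith
  have hz := zero_of_int (f := fun s => 3 / 2 * (ext r s ^ 2 - (1 - s ^ 2))) (by fun_prop) ?_
    (by rw [hD]; exact hD0)
  · have key : ∀ s ∈ Icc (0 : ℝ) 1, r s = √(1 - s ^ 2) := by
      intro s hs
      have hs' : s ∈ Icc (-1 : ℝ) 1 := ⟨by linarith [hs.1], hs.2⟩
      have h1 := hz s hs
      simp only [ext_eq hs'] at h1
      have h2 : r s ^ 2 = 1 - s ^ 2 := by linarith
      rw [← h2, Real.sqrt_sq ((Real.sqrt_nonneg _).trans (hge s hs'))]
    intro s hs
    rcases le_total 0 s with h0 | h0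
    · exact key s ⟨h0, hs.2⟩
    · have h1 := key (-s) ⟨by linarith, by linarith [hs.1]⟩
      rw [hr.even s hs] at h1
      rw [h1]; congr 1; ring
  · intro s hs
    have hs' : s ∈ Icc (-1 : ℝ) 1 := ⟨by linarith [hs.1], hs.2⟩
    simp only [ext_eq hs']
    have h1 := hge s hs'
    have h3 : √(1 - s ^ 2) ^ 2 = 1 - s ^ 2 := Real.sq_sqrt (by nlinarith [hs.1, hs.2])
    have h4 : √(1 - s ^ 2) ^ 2 ≤ r s ^ 2 := by
      have := Real.sqrt_nonneg (1 - s ^ 2)
      gcongr
    linarith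

end Crest.Agent.R230
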