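import Crest.Agent.R230.Assembly
import Crest.Agent.R230.AssemblyE
import Crest.Agent.R230.SDL2
import Crest.Agent.R230.SDL3

/-!
# Row 230: everything up to the one dimensional statements `SDL 4` and `OneD n`, `n ≥ 5`
-/

set_option autoImplicit false

open MeasureTheory Set
open scoped Pointwise ENNReal

namespace Crest.Agent.R230

theorem crux_all (h4 : CruxE 4) (h5 : ∀ n, 5 ≤ n → OneD n) : ∀ n, 2 ≤ n → CruxE n := by
  intro n hn
  rcases lt_or_ge n 5 with h | h
  · interval_cases n
    · exact crux_of_SDL (by norm_num) sdl_two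
    · exact crux_of_SDL (by norm_num) sdl_three
    · exact h4
  · exact crux_of_OneD hn (h5 n h)

theorem crux_four_of_SDL (h : SDL 4) : CruxE 4 := crux_of_SDL (by norm_num) h

theorem crux_four_of_OneD (h : OneD 4) : CruxE 4 := crux_of_OneD (by norm_num) h

end Crest.Agent.R230
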