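import Crest.Agent.R230.PosAsm
import Crest.Agent.R230.CaseIIpp

/-!
# Row 230: `PosPos n` for `5 ≤ n ≤ 19`, `OneD n` for `8 ≤ n ≤ 15`
-/

set_option autoImplicit false

open MeasureTheory Set Filter Topology
open scoped Pointwise ENNReal

namespace Crest.Agent.R230

open WR

variable {n : ℕ} {r : ℝ → ℝ}

theorem posPos_small (h5 : 5 ≤ n) (h19 : n ≤ 19) : PosPos n := by
  intro r hr hN s hs hl hk
  obtain ⟨h1, h2⟩ := caseII_pp h5 h19 hr hs hl.le (ll_half_all h5 (by omega) hr hN s hs) hk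
  exact lt_of_le_of_ne h1 fun h => hl.ne' (h2 h.symm)

/-- dimensions 9 to 16 (and up to 20) -/
theorem oneD_8_19 (h8 : 8 ≤ n) (h19 : n ≤ 19) : OneD n := by
  refine oneD_of_pos (by omega) (by omega) (posPos_small (by omega) h19) ?_
  rcases h8.eq_or_lt with h | h
  · subst h
    exact posNeg_eight
  · exact posNeg_nine h (by omega)

end Crest.Agent.R230
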