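import Crest.Agent.R230.Final
import Crest.Agent.R230.SDL4
import Crest.Agent.R230.OneDFin
import Crest.Agent.R230.PosAsm2

/-!
# Row 230: everything up to `PosNeg 6`, `PosNeg 7` and the far blocks (`n ≥ 23`)
-/

set_option autoImplicit false

open MeasureTheory Set
open scoped Pointwise ENNReal

namespace Crest.Agent.R230

theorem oneD_all (h6 : PosNeg 6) (h7 : PosNeg 7) (hF : ∀ n, 23 ≤ n → OneD n) :
    ∀ n, 5 ≤ n → OneD n := by
  intro n hn
  rcases Nat.lt_or_ge n 6 with a | a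
  · obtain rfl : n = 5 := by omega
    exact oneD_five
  rcases Nat.lt_or_ge n 8 with b | b
  · have hc : n = 6 ∨ n = 7 := by omega
    rcases hc with rfl | rfl
    · exact oneD_of_pos (by norm_num) (by norm_num) (posPos_small (by norm_num) (by norm_num)) h6
    · exact oneD_of_pos (by norm_num) (by norm_num) (posPos_small (by norm_num) (by norm_num)) h7
  rcases Nat.lt_or_ge n 20 with c | c
  · exact oneD_8_19 b (by omega)
  rcases Nat.lt_or_ge n 23 with d | d
  · exact WR.oneD_16_22 (by omega) (by omega)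
  · exact hF n d

theorem crux_final (h : ∀ n, 5 ≤ n → OneD n) : ∀ n, 2 ≤ n → CruxE n :=
  crux_all (crux_four_of_SDL sdl_four) h

/-- the whole chain: far blocks for `n ≥ 23` and `PosNeg 6`, `PosNeg 7` give the crux -/
theorem crux_of_blocks (h6 : PosNeg 6) (h7 : PosNeg 7)
    (hapr : ∀ n, 23 ≤ n → ∀ r : ℝ → ℝ, Prof r → NleB n r → WR.FarApr n r)
    (hF0 : ∀ n, 23 ≤ n → ∀ s l k : ℝ, WR.FarC n s l k → 0 < WR.PF n 0 s l k)
    (hF1 : ∀ n, 23 ≤ n → ∀ s l k : ℝ, WR.FarC n s l k → 0 < WR.PF n (WR.muF n) s l k) :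
    ∀ n, 2 ≤ n → CruxE n :=
  crux_final (oneD_all h6 h7 fun n hn => WR.oneD_far' hn (hapr n hn) (hF0 n hn) (hF1 n hn))

end Crest.Agent.R230
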