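import Crest.Agent.R230.Gauge
import Mathlib.MeasureTheory.Integral.Layercake
import Mathlib.MeasureTheory.Integral.IntervalIntegral.Basic
import Mathlib.MeasureTheory.Integral.DominatedConvergence

/-!
First variation: `(1/t) ∫_0^1 (|sK + tL| - |sK|) ds → V1 K L` as `t → 0+`.
-/

set_option autoImplicit false
set_option linter.unusedSectionVars false

open MeasureTheory Set Filter Topology
open scoped ENNReal Pointwise NNReal

namespace Crest.Agent.R230.G

variable {E : Type*} [NormedAddCommGroup E] [InnerProductSpace ℝ E] [FiniteDimensional ℝ E]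

/-- infimal convolution of the gauge with `t • L` -/
noncomputable def q (K L : Set E) (t : ℝ) (x : E) : ℝ := sInf ((fun y => gauge K (x - t • y)) '' L)

section q

variable {K L : Set E} (hK : Body K) (hL : IsCompact L) (hL0 : L.Nonempty)

include hK in
lemma q_le (t : ℝ) (x : E) {y : E} (hy : y ∈ L) : q K L t x ≤ gauge K (x - t • y) :=
  csInf_le ⟨0, by rintro _ ⟨y, _, rfl⟩; exact gauge_nonneg _⟩ (mem_image_of_mem _ hy)

include hL0 in
lemma q_nonneg (t : ℝ) (x : E) : 0 ≤ q K L t x :=
  le_csInf (hL0.image _) (by rintro _ ⟨y, _, rfl⟩; exact gauge_nonneg _)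

include hK hL hL0 in
lemma exists_q (t : ℝ) (x : E) : ∃ y ∈ L, gauge K (x - t • y) = q K L t x := by
  have hc : Continuous fun y => gauge K (x - t • y) := hK.continuous_gauge.comp (by fun_prop)
  obtain ⟨y, hy, h⟩ := (hL.image hc).sInf_mem (hL0.image _)
  exact ⟨y, hy, h⟩

include hK hL hL0 in
lemma q_le_iff {s : ℝ} (hs : 0 ≤ s) (t : ℝ) (x : E) :
    q K L t x ≤ s ↔ x ∈ s • K + t • L := by
  constructor
  · intro h
    obtain ⟨y, hy, e⟩ := exists_q hK hL hL0 t x
    rw [← e] at h
    rw [hK.gauge_le_iff' hs] at h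
    exact ⟨x - t • y, h, t • y, smul_mem_smul_set hy, by simp⟩
  · rintro ⟨z, hz, _, ⟨y, hy, rfl⟩, rfl⟩
    refine (q_le hK t _ hy).trans ?_
    simp only [add_sub_cancel_right]
    exact (hK.gauge_le_iff' hs).2 hz

include hK hL hL0 in
lemma q_zero (x : E) : q K L 0 x = gauge K x := by
  obtain ⟨y, hy, e⟩ := exists_q hK hL hL0 0 x
  rw [← e]; simp

include hK hL hL0 in
lemma exists_q_bound : ∃ D : ℝ, 0 ≤ D ∧ ∀ t : ℝ, 0 ≤ t → ∀ x, |q K L t x - gauge K x| ≤ D * t := by
  obtain ⟨C, hC⟩ := hK.exists_lip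
  obtain ⟨R, hR⟩ := hL.isBounded.exists_norm_le
  have hR0 : 0 ≤ R := by
    obtain ⟨y, hy⟩ := hL0
    exact (norm_nonneg y).trans (hR y hy)
  refine ⟨C * R, by positivity, fun t ht x => ?_⟩
  obtain ⟨y, hy, e⟩ := exists_q hK hL hL0 t x
  rw [← e]
  have := hC.dist_le_mul (x - t • y) x
  rw [Real.dist_eq, dist_eq_norm] at this
  refine this.trans ?_
  rw [sub_sub_cancel_left, norm_neg, norm_smul, Real.norm_eq_abs, abs_of_nonneg ht]
  have h2 : t * ‖y‖ ≤ t * R := mul_le_mul_of_nonneg_left (hR y hy) ht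
  calc (C : ℝ) * (t * ‖y‖) ≤ C * (t * R) := mul_le_mul_of_nonneg_left h2 C.2
    _ = C * R * t := by ring

include hK hL hL0 in
lemma continuous_q (t : ℝ) : Continuous (q K L t) := by
  obtain ⟨C, hC⟩ := hK.exists_lip
  have key : ∀ x x', q K L t x ≤ q K L t x' + C * ‖x - x'‖ := by
    intro x x'
    obtain ⟨y, hy, e⟩ := exists_q hK hL hL0 t x'
    have h1 := q_le (L := L) hK t x hy
    have h2 := hC.dist_le_mul (x - t • y) (x' - t • y)
    rw [Real.dist_eq, dist_eq_norm, sub_sub_sub_cancel_right] at h2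
    have h3 := (abs_le.1 h2).2
    linarith
  refine LipschitzWith.continuous (K := C) (LipschitzWith.of_dist_le_mul fun x x' => ?_)
  rw [Real.dist_eq, dist_eq_norm, abs_le]
  have h1 := key x x'
  have h2 := key x' x
  rw [norm_sub_rev x' x] at h2
  constructor <;> linarith

include hK hL hL0 in
lemma q_ge {x : E} (hx : DifferentiableAt ℝ (gauge K) x) {t : ℝ} (ht : 0 ≤ t) :
    gauge K x - t * hs L (nu K x) ≤ q K L t x := by
  obtain ⟨y, hy, e⟩ := exists_q hK hL hL0 t x
  rw [← e]
  have h1 := hK.gauge_add_inner_le hx (-(t • y))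
  rw [inner_neg_right, real_inner_smul_right, ← sub_eq_add_neg, ← sub_eq_add_neg] at h1
  have h2 := mul_le_mul_of_nonneg_left (inner_le_hs hL (nu K x) hy) ht
  linarith

include hK hL hL0 in
lemma tendsto_q {x : E} (hx : DifferentiableAt ℝ (gauge K) x) :
    Tendsto (fun t : ℝ => t⁻¹ * (gauge K x - q K L t x)) (𝓝[>] 0) (𝓝 (hs L (nu K x))) := by
  obtain ⟨y, hy, e⟩ := exists_hs hL hL0 (nu K x)
  have h1 : HasDerivAt (fun c : ℝ => gauge K (x - c • y)) (-(hs L (nu K x))) 0 := by
    have h2 : HasDerivAt (fun c : ℝ => x - c • y) (-y) 0 := by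
      simpa using ((hasDerivAt_id (0 : ℝ)).smul_const y).const_sub x
    have h3 : HasFDerivAt (gauge K) (fderiv ℝ (gauge K) x) (x - (0:ℝ) • y) := by
      rw [zero_smul, sub_zero]; exact hx.hasFDerivAt
    have h4 := h3.comp_hasDerivAt (0 : ℝ) h2
    rw [← Body.nu_inner, inner_neg_right, e] at h4
    exact h4
  have h6 := h1.hasDerivWithinAt (s := Ioi 0)
  rw [hasDerivWithinAt_iff_tendsto_slope' (by simp)] at h6
  have h7 := h6.neg
  rw [neg_neg] at h7
  refine tendsto_of_tendsto_of_tendsto_of_le_of_le' h7 tendsto_const_nhds ?_ ?_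
  · filter_upwards [self_mem_nhdsWithin] with c hc
    have hc : 0 < c := hc
    rw [slope_def_field, sub_zero, zero_smul, sub_zero, ← neg_div, neg_sub, div_eq_inv_mul]
    refine mul_le_mul_of_nonneg_left ?_ (inv_nonneg.2 hc.le)
    have := q_le (L := L) hK c x hy
    linarith
  · filter_upwards [self_mem_nhdsWithin] with c hc
    have hc : 0 < c := hc
    rw [inv_mul_le_iff₀ hc]
    have := q_ge hK hL hL0 hx hc.le
    linarith

end q

section Phi

variable [MeasurableSpace E] [BorelSpace E]
variable {K L : Set E} (hK : Body K) (hL : IsCompact L) (hL0 : L.Nonempty)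

/-- the truncated function -/
noncomputable def Phi (K L : Set E) (t : ℝ) (x : E) : ℝ := max 0 (1 - q K L t x)

lemma Phi_nonneg (K L : Set E) (t : ℝ) (x : E) : 0 ≤ Phi K L t x := le_max_left _ _

include hL0 in
lemma Phi_le_one (t : ℝ) (x : E) : Phi K L t x ≤ 1 :=
  max_le zero_le_one (by have := q_nonneg (K := K) hL0 t x; linarith)

include hK hL hL0 in
lemma le_Phi_iff {s : ℝ} (hs : 0 < s) (hs1 : s ≤ 1) (t : ℝ) (x : E) :
    s ≤ Phi K L t x ↔ x ∈ (1 - s) • K + t • L := by
  rw [← q_le_iff hK hL hL0 (by linarith), Phi, le_max_iff]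
  constructor
  · rintro (h | h) <;> linarith
  · intro h; right; linarith

include hK hL hL0 in
lemma continuous_Phi (t : ℝ) : Continuous (Phi K L t) :=
  continuous_const.max (continuous_const.sub (continuous_q hK hL hL0 t))

include hK hL hL0 in
lemma support_Phi (t : ℝ) {x : E} (hx : x ∉ K + t • L) : Phi K L t x = 0 := by
  rw [Phi, max_eq_left]
  by_contra h
  push Not at h
  apply hx
  have h1 : q K L t x ≤ 1 := by linarith
  rw [q_le_iff hK hL hL0 zero_le_one, one_smul] at h1
  exact h1

include hK hL hL0 in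
lemma integrable_Phi (t : ℝ) : Integrable (Phi K L t) := by
  refine (continuous_Phi hK hL hL0 t).integrable_of_hasCompactSupport ?_
  refine HasCompactSupport.intro (hK.cpt.add (hL.smul t)) fun x hx => ?_
  exact support_Phi hK hL hL0 t hx

include hK hL hL0 in
lemma integral_Phi (t : ℝ) :
    ∫ x, Phi K L t x = ∫ s in (0:ℝ)..1, volume.real (s • K + t • L) := by
  have h1 := (integrable_Phi hK hL hL0 t).integral_eq_integral_Ioc_meas_le (M := 1)
    (Eventually.of_forall (Phi_nonneg K L t)) (Eventually.of_forall (Phi_le_one hL0 t))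
  rw [h1, ← intervalIntegral.integral_of_le zero_le_one]
  have h2 := intervalIntegral.integral_comp_sub_left (a := 0) (b := 1)
    (fun s => volume.real (s • K + t • L)) 1
  rw [sub_self, sub_zero] at h2
  rw [← h2]
  refine intervalIntegral.integral_congr_ae (Eventually.of_forall fun s hs => ?_)
  rw [uIoc_of_le zero_le_one] at hs
  congr 1
  ext x
  exact le_Phi_iff hK hL hL0 hs.1 hs.2 t x

include hK hL hL0 in
/-- first variation of volume -/
theorem firstVar : Tendsto (fun t : ℝ => t⁻¹ * ((∫ s in (0:ℝ)..1, volume.real (s • K + t • L)) -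
    ∫ s in (0:ℝ)..1, volume.real (s • K))) (𝓝[>] 0) (𝓝 (V1 K L)) := by
  obtain ⟨D, hD0, hD⟩ := exists_q_bound hK hL hL0
  obtain ⟨R1, hR1⟩ := hK.cpt.isBounded.exists_norm_le
  obtain ⟨R2, hR2⟩ := hL.isBounded.exists_norm_le
  have hR20 : 0 ≤ R2 := by
    obtain ⟨y, hy⟩ := hL0
    exact (norm_nonneg y).trans (hR2 y hy)
  have h0 : ∫ s in (0:ℝ)..1, volume.real (s • K) = ∫ x, Phi K L 0 x := by
    rw [integral_Phi hK hL hL0]
    congr 1
    ext s
    rw [zero_smul_set hL0, add_zero]
  have h1 : ∀ t : ℝ, t⁻¹ * ((∫ s in (0:ℝ)..1, volume.real (s • K + t • L)) -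
    ∫ s in (0:ℝ)..1, volume.real (s • K)) = ∫ x, t⁻¹ * (Phi K L t x - Phi K L 0 x) := by
    intro t
    rw [h0, ← integral_Phi hK hL hL0, ← integral_sub (integrable_Phi hK hL hL0 t)
      (integrable_Phi hK hL hL0 0), integral_const_mul]
  simp_rw [h1]
  rw [V1, ← integral_indicator hK.cpt.measurableSet]
  refine tendsto_integral_filter_of_dominated_convergence
    ((Metric.closedBall (0 : E) (R1 + R2)).indicator fun _ => D) ?_ ?_ ?_ ?_
  · refine Eventually.of_forall fun t => ?_
    exact (((continuous_Phi hK hL hL0 t).sub (continuous_Phi hK hL hL0 0)).const_mul _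
      |>.aestronglyMeasurable)
  · have h2 : Ioo (0:ℝ) 1 ∈ 𝓝[>] (0:ℝ) := Ioo_mem_nhdsGT zero_lt_one
    filter_upwards [h2] with t ht
    refine Eventually.of_forall fun x => ?_
    by_cases hx : x ∈ Metric.closedBall (0 : E) (R1 + R2)
    · rw [indicator_of_mem hx, norm_mul, norm_inv, Real.norm_eq_abs, Real.norm_eq_abs,
        abs_of_pos ht.1, inv_mul_le_iff₀ ht.1]
      have h3 : |Phi K L t x - Phi K L 0 x| ≤ |q K L t x - gauge K x| := by
        have := abs_max_sub_max_le_abs (1 - q K L t x) (1 - q K L 0 x) 0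
        rw [q_zero hK hL hL0, sub_sub_sub_cancel_left, abs_sub_comm (gauge K x)] at this
        simp only [Phi, q_zero hK hL hL0]
        rw [max_comm, max_comm 0]
        exact this
      have := hD t ht.1.le x
      linarith
    · rw [indicator_of_notMem hx]
      have hx' : R1 + R2 < ‖x‖ := by simpa using hx
      have h4 : ∀ τ : ℝ, 0 ≤ τ → τ ≤ 1 → Phi K L τ x = 0 := by
        intro τ hτ hτ1
        refine support_Phi hK hL hL0 τ ?_
        rintro ⟨k, hk, _, ⟨l, hl, rfl⟩, rfl⟩
        have e1 := norm_add_le k (τ • l)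
        rw [norm_smul, Real.norm_eq_abs, abs_of_nonneg hτ] at e1
        have e2 := hR1 k hk
        have e3 : τ * ‖l‖ ≤ 1 * R2 := mul_le_mul hτ1 (hR2 l hl) (norm_nonneg _) zero_le_one
        simp only at hx'
        linarith
      rw [h4 t ht.1.le ht.2.le, h4 0 le_rfl zero_le_one]
      simp
  · exact (integrable_indicator_iff Metric.isClosed_closedBall.measurableSet).2
      (integrableOn_const (isCompact_closedBall _ _).measure_lt_top.ne)
  · filter_upwards [hK.ae_differentiableAt,
      (measure_eq_zero_iff_ae_notMem.1 (hK.cvx.addHaar_frontier volume))] with x hx hx1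
    have hne : gauge K x ≠ 1 := by
      intro h
      exact hx1 ((gauge_eq_one_iff_mem_frontier hK.cvx hK.nhd).1 h)
    rcases lt_or_gt_of_ne hne with hlt | hgt
    · have hxK : x ∈ K := hK.gauge_le_one_iff.1 hlt.le
      rw [indicator_of_mem hxK]
      refine (tendsto_q hK hL hL0 hx).congr' ?_
      have h5 : Tendsto (fun t : ℝ => gauge K x + D * t) (𝓝[>] 0) (𝓝 (gauge K x + D * 0)) :=
        ((continuous_const.add (continuous_const.mul continuous_id)).tendsto 0).mono_left
          nhdsWithin_le_nhds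
      rw [mul_zero, add_zero] at h5
      filter_upwards [h5.eventually (gt_mem_nhds hlt), self_mem_nhdsWithin] with t ht ht0
      have ht0 : 0 < t := ht0
      have h6 := abs_le.1 (hD t ht0.le x)
      simp only [Phi, q_zero hK hL hL0]
      rw [max_eq_right, max_eq_right]
      · ring
      · linarith
      · linarith
    · have hxK : x ∉ K := fun h => by
        have := hK.gauge_le_one_iff.2 h
        linarith
      rw [indicator_of_notMem hxK]
      refine tendsto_const_nhds.congr' ?_
      have h5 : Tendsto (fun t : ℝ => gauge K x - D * t) (𝓝[>] 0) (𝓝 (gauge K x - D * 0)) :=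
        ((continuous_const.sub (continuous_const.mul continuous_id)).tendsto 0).mono_left
          nhdsWithin_le_nhds
      rw [mul_zero, sub_zero] at h5
      filter_upwards [h5.eventually (lt_mem_nhds hgt), self_mem_nhdsWithin] with t ht ht0
      have ht0 : 0 < t := ht0
      have h6 := abs_le.1 (hD t ht0.le x)
      simp only [Phi, q_zero hK hL hL0]
      rw [max_eq_left, max_eq_left]
      · ring
      · linarith
      · linarith

end Phi

end Crest.Agent.R230.G
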