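import Mathlib

/-!
# Row 230: fixed point arithmetic with directed rounding (helper782)

`LB a x` : `a / 2^40 ≤ x`, `UB x a` : `x ≤ a / 2^40` (`a : ℕ`); products, quotients, square roots and
exponentials with directed rounding. Everything reduces in the kernel (`decide +kernel`).
-/

set_option autoImplicit false

namespace Crest.Agent.R230.IA

/-- scale -/
abbrev SC : ℕ := 1099511627776

/-- `a / SC ≤ x` -/
def LB (a : ℕ) (x : ℝ) : Prop := (a : ℝ) ≤ x * 1099511627776

/-- `x ≤ a / SC` -/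
def UB (x : ℝ) (a : ℕ) : Prop := x * 1099511627776 ≤ (a : ℝ)

def mD (a b : ℕ) : ℕ := a * b / 1099511627776
def mU (a b : ℕ) : ℕ := a * b / 1099511627776 + 1
def dD (a b : ℕ) : ℕ := a * 1099511627776 / b
def dU (a b : ℕ) : ℕ := a * 1099511627776 / b + 1
/-- Newton step for the square root (upper bounds) -/
def nw (x r : ℕ) : ℕ := (r + x * 1099511627776 / r) / 2 + 1
def sqU (x : ℕ) : ℕ := nw x (nw x (nw x (nw x (nw x 1099511627776))))
def sqD (x : ℕ) : ℕ := x * 1099511627776 / sqU x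
/-- Taylor polynomial of order 6, lower -/
def tyD (t : ℕ) : ℕ :=
  1099511627776 + mD t (1099511627776 + mD t (1099511627776 + mD t (1099511627776 +
    mD t (1099511627776 + mD t (1099511627776 + t / 6) / 5) / 4) / 3) / 2)
def tyU (t : ℕ) : ℕ :=
  1099511627776 + mU t (1099511627776 + (mU t (1099511627776 + (mU t (1099511627776 +
    (mU t (1099511627776 + (mU t (1099511627776 + (7 * t / 36 + 1)) / 5 + 1)) / 4 + 1)) / 3 + 1)) / 2 + 1))
def p8D (a : ℕ) : ℕ := mD (mD (mD a a) (mD a a)) (mD (mD a a) (mD a a))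
def p8U (a : ℕ) : ℕ := mU (mU (mU a a) (mU a a)) (mU (mU a a) (mU a a))
def expD (a : ℕ) : ℕ := p8D (tyD (a / 8))
def expU (a : ℕ) : ℕ := p8U (tyU (a / 8 + 1))

lemma LB.nonneg {a : ℕ} {x : ℝ} (h : LB a x) : 0 ≤ x := by
  unfold LB at h
  have : (0 : ℝ) ≤ a := Nat.cast_nonneg a
  by_contra hx
  push Not at hx
  nlinarith

lemma UB.pos {a : ℕ} {x : ℝ} (h : UB x a) (hx : 0 < x) : 0 < a := by
  unfold UB at h
  have : (0 : ℝ) < a := by nlinarith
  exact_mod_cast this

lemma LB.pos {a : ℕ} {x : ℝ} (h : LB a x) (ha : 0 < a) : 0 < x := by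
  unfold LB at h
  have : (0 : ℝ) < a := by exact_mod_cast ha
  by_contra hx
  push Not at hx
  nlinarith

lemma LB.le {a : ℕ} {x y : ℝ} (h : LB a x) (hxy : x ≤ y) : LB a y := by
  unfold LB at *
  nlinarith

lemma UB.ge {a : ℕ} {x y : ℝ} (h : UB x a) (hxy : y ≤ x) : UB y a := by
  unfold UB at *
  nlinarith

lemma LB_zero {x : ℝ} (h : 0 ≤ x) : LB 0 x := by
  unfold LB; push_cast; positivity

lemma LB.lt {a b : ℕ} {x y : ℝ} (h1 : LB a x) (h2 : UB y b) (h : b < a) : y < x := by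
  unfold LB at h1
  unfold UB at h2
  have : (b : ℝ) < a := by exact_mod_cast h
  by_contra hh
  push Not at hh
  nlinarith

lemma LB.le_of {a b : ℕ} {x y : ℝ} (h1 : LB a x) (h2 : UB y b) (h : b ≤ a) : y ≤ x := by
  unfold LB at h1
  unfold UB at h2
  have : (b : ℝ) ≤ a := by exact_mod_cast h
  by_contra hh
  push Not at hh
  nlinarith

lemma div_cast_le (a b : ℕ) : ((a / b : ℕ) : ℝ) ≤ (a : ℝ) / b := Nat.cast_div_le

lemma le_div_cast (a : ℕ) {b : ℕ} (hb : 0 < b) : (a : ℝ) / b ≤ ((a / b + 1 : ℕ) : ℝ) := by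
  have hb' : (0 : ℝ) < b := by exact_mod_cast hb
  rw [div_le_iff₀ hb']
  have h : a ≤ (a / b + 1) * b := by
    have h1 := Nat.div_add_mod a b
    have h2 := Nat.mod_lt a hb
    nlinarith
  exact_mod_cast h

lemma LB_mul {a b : ℕ} {x y : ℝ} (h1 : LB a x) (h2 : LB b y) : LB (mD a b) (x * y) := by
  have hx := h1.nonneg
  have hy := h2.nonneg
  unfold LB mD at *
  refine (div_cast_le _ _).trans ?_
  push_cast
  rw [div_le_iff₀ (by norm_num)]
  calc (a : ℝ) * b ≤ (x * 1099511627776) * (y * 1099511627776) :=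
        mul_le_mul h1 h2 (Nat.cast_nonneg b) (by positivity)
    _ = _ := by ring

lemma UB_mul {a b : ℕ} {x y : ℝ} (h1 : UB x a) (h2 : UB y b) (_hx : 0 ≤ x) (hy : 0 ≤ y) :
    UB (x * y) (mU a b) := by
  unfold UB mU at *
  refine le_trans ?_ (le_div_cast _ (by norm_num))
  push_cast
  rw [le_div_iff₀ (by norm_num)]
  calc x * y * 1099511627776 * 1099511627776 = (x * 1099511627776) * (y * 1099511627776) := by ring
    _ ≤ (a : ℝ) * b := mul_le_mul h1 h2 (by positivity) (Nat.cast_nonneg a)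

lemma LB_div {a b : ℕ} {x y : ℝ} (h1 : LB a x) (h2 : UB y b) (hy : 0 < y) : LB (dD a b) (x / y) := by
  have hb := h2.pos hy
  have hx := h1.nonneg
  have hb' : (0 : ℝ) < b := by exact_mod_cast hb
  unfold LB UB dD at *
  refine (div_cast_le _ _).trans ?_
  push_cast
  rw [div_le_iff₀ hb']
  calc (a : ℝ) * 1099511627776 ≤ (x * 1099511627776) * 1099511627776 :=
        mul_le_mul_of_nonneg_right h1 (by norm_num)
    _ = x / y * 1099511627776 * (y * 1099511627776) := by field_simp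
    _ ≤ x / y * 1099511627776 * b := mul_le_mul_of_nonneg_left h2 (by positivity)

lemma UB_div {a b : ℕ} {x y : ℝ} (h1 : UB x a) (h2 : LB b y) (hb : 0 < b) (hx : 0 ≤ x) :
    UB (x / y) (dU a b) := by
  have hy := h2.pos hb
  have hb' : (0 : ℝ) < b := by exact_mod_cast hb
  unfold LB UB dU at *
  refine le_trans ?_ (le_div_cast _ hb)
  push_cast
  rw [le_div_iff₀ hb']
  calc x / y * 1099511627776 * b ≤ x / y * 1099511627776 * (y * 1099511627776) :=
        mul_le_mul_of_nonneg_left h2 (by positivity)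
    _ = (x * 1099511627776) * 1099511627776 := by field_simp
    _ ≤ (a : ℝ) * 1099511627776 := mul_le_mul_of_nonneg_right h1 (by norm_num)

lemma LB_add {a b : ℕ} {x y : ℝ} (h1 : LB a x) (h2 : LB b y) : LB (a + b) (x + y) := by
  unfold LB at *; push_cast; linarith

lemma UB_add {a b : ℕ} {x y : ℝ} (h1 : UB x a) (h2 : UB y b) : UB (x + y) (a + b) := by
  unfold UB at *; push_cast; linarith

lemma LB_sub {a b : ℕ} {x y : ℝ} (h1 : LB a x) (h2 : UB y b) (h : y ≤ x) : LB (a - b) (x - y) := by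
  rcases le_total b a with hab | hab
  · unfold LB UB at *
    rw [Nat.cast_sub hab]; linarith
  · rw [Nat.sub_eq_zero_of_le hab]
    exact LB_zero (by linarith)

/-- clipped difference -/
lemma LB_sub' {a b : ℕ} {x y : ℝ} (h1 : LB a x) (h2 : UB y b) : LB (a - b) (max (x - y) 0) := by
  rcases le_total b a with hab | hab
  · refine LB.le ?_ (le_max_left _ _)
    unfold LB UB at *
    rw [Nat.cast_sub hab]; linarith
  · rw [Nat.sub_eq_zero_of_le hab]
    exact LB_zero (le_max_right _ _)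

lemma UB_sub {a b : ℕ} {x y : ℝ} (h1 : UB x a) (h2 : LB b y) : UB (x - y) (a - b) := by
  unfold LB UB at *
  rcases le_total b a with hab | hab
  · rw [Nat.cast_sub hab]; linarith
  · rw [Nat.sub_eq_zero_of_le hab]
    have : (a : ℝ) ≤ b := by exact_mod_cast hab
    push_cast; linarith

lemma UB_sub' {a b : ℕ} {x y : ℝ} (h1 : UB x a) (h2 : LB b y) : UB (max (x - y) 0) (a - b) := by
  rcases le_total (x - y) 0 with h | h
  · rw [max_eq_right h]; unfold UB; simp
  · rw [max_eq_left h]; exact UB_sub h1 h2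

lemma LB_nat (n : ℕ) : LB (n * 1099511627776) (n : ℝ) := by unfold LB; push_cast; exact le_rfl
lemma UB_nat (n : ℕ) : UB (n : ℝ) (n * 1099511627776) := by unfold UB; push_cast; exact le_rfl
lemma LB_self (a : ℕ) : LB a ((a : ℝ) / 1099511627776) := by
  unfold LB; rw [div_mul_cancel₀ _ (by norm_num)]
lemma UB_self (a : ℕ) : UB ((a : ℝ) / 1099511627776) a := by
  unfold UB; rw [div_mul_cancel₀ _ (by norm_num)]

/-- rational constants -/
lemma LB_q {a : ℕ} {x : ℝ} (h : (a : ℝ) ≤ x * 1099511627776) : LB a x := h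
lemma UB_q {a : ℕ} {x : ℝ} (h : x * 1099511627776 ≤ (a : ℝ)) : UB x a := h

lemma LB_one : LB 1099511627776 1 := by unfold LB; norm_num
lemma UB_one : UB 1 1099511627776 := by unfold UB; norm_num

lemma LB_nmul {a : ℕ} {x : ℝ} (n : ℕ) (h : LB a x) : LB (n * a) ((n : ℝ) * x) := by
  unfold LB at *
  push_cast
  have := mul_le_mul_of_nonneg_left h (Nat.cast_nonneg (α := ℝ) n)
  linarith

lemma UB_nmul {a : ℕ} {x : ℝ} (n : ℕ) (h : UB x a) : UB ((n : ℝ) * x) (n * a) := by
  unfold UB at *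
  push_cast
  have := mul_le_mul_of_nonneg_left h (Nat.cast_nonneg (α := ℝ) n)
  linarith

lemma LB_ndiv {a : ℕ} {x : ℝ} (n : ℕ) (h : LB a x) : LB (a / n) (x / n) := by
  unfold LB at *
  refine (div_cast_le _ _).trans ?_
  rw [div_mul_eq_mul_div]
  exact div_le_div_of_nonneg_right h (Nat.cast_nonneg n)

lemma UB_ndiv {a : ℕ} {x : ℝ} {n : ℕ} (hn : 0 < n) (h : UB x a) : UB (x / n) (a / n + 1) := by
  unfold UB at *
  refine le_trans ?_ (le_div_cast _ hn)
  rw [div_mul_eq_mul_div]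
  exact div_le_div_of_nonneg_right h (Nat.cast_nonneg n)

lemma LB_max {a b : ℕ} {x : ℝ} (h1 : LB a x) (h2 : LB b x) : LB (max a b) x := by
  rcases le_total a b with h | h
  · rwa [max_eq_right h]
  · rwa [max_eq_left h]

lemma UB_min {a b : ℕ} {x : ℝ} (h1 : UB x a) (h2 : UB x b) : UB x (min a b) := by
  rcases le_total a b with h | h
  · rwa [min_eq_left h]
  · rwa [min_eq_right h]

/-! ### square roots -/

lemma nw_spec {x r : ℕ} {X : ℝ} (hX : UB X x) (hX0 : 0 ≤ X) (hr : 0 < r) :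
    UB (Real.sqrt X) (nw x r) ∧ 0 < nw x r := by
  refine ⟨?_, Nat.succ_pos _⟩
  have hr' : (0 : ℝ) < r := by exact_mod_cast hr
  unfold UB at *
  have h1 : (x : ℝ) * 1099511627776 / r - 1 ≤ ((x * 1099511627776 / r : ℕ) : ℝ) := by
    have := le_div_cast (x * 1099511627776) hr
    push_cast at this ⊢
    linarith
  have h2 : ((r : ℝ) + (x * 1099511627776 / r : ℕ) - 1) / 2 ≤
      (((r + x * 1099511627776 / r) / 2 : ℕ) : ℝ) := by
    have h3 : (((r + x * 1099511627776 / r : ℕ) : ℝ)) ≤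
        2 * (((r + x * 1099511627776 / r) / 2 : ℕ) : ℝ) + 1 := by
      have : r + x * 1099511627776 / r ≤ 2 * ((r + x * 1099511627776 / r) / 2) + 1 := by omega
      exact_mod_cast this
    push_cast at h3 ⊢
    linarith
  have h4 : ((r : ℝ) + (x : ℝ) * 1099511627776 / r) / 2 ≤ ((nw x r : ℕ) : ℝ) := by
    unfold nw
    push_cast at h1 h2 ⊢
    linarith
  refine le_trans ?_ h4
  obtain ⟨w, hw⟩ : ∃ w : ℝ, w = Real.sqrt X * 1099511627776 := ⟨_, rfl⟩
  have hw2 : w ^ 2 = X * 1099511627776 * 1099511627776 := by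
    rw [hw, mul_pow, Real.sq_sqrt hX0]; ring
  rw [← hw, le_div_iff₀ (by norm_num : (0 : ℝ) < 2)]
  have h5 : w ^ 2 ≤ (x : ℝ) * 1099511627776 := by
    rw [hw2]; exact mul_le_mul_of_nonneg_right hX (by norm_num)
  have h6 : w ^ 2 / r ≤ (x : ℝ) * 1099511627776 / r := div_le_div_of_nonneg_right h5 hr'.le
  have h7 : w * 2 ≤ r + w ^ 2 / r := by
    have : r + w ^ 2 / r - w * 2 = (r - w) ^ 2 / r := by field_simp; ring
    have h8 : 0 ≤ ((r : ℝ) - w) ^ 2 / r := by positivity
    linarith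
  linarith

lemma UB_sqrt {x : ℕ} {X : ℝ} (hX : UB X x) (hX0 : 0 ≤ X) : UB (Real.sqrt X) (sqU x) := by
  unfold sqU
  have h1 := (nw_spec hX hX0 (r := 1099511627776) (by norm_num)).2
  have h2 := (nw_spec hX hX0 h1).2
  have h3 := (nw_spec hX hX0 h2).2
  have h4 := (nw_spec hX hX0 h3).2
  exact (nw_spec hX hX0 h4).1

lemma sqU_pos (x : ℕ) : 0 < sqU x := Nat.succ_pos _

lemma LB_sqrt {x : ℕ} {X : ℝ} (hX : LB x X) : LB (sqD x) (Real.sqrt X) := by
  have hx0 : (0 : ℝ) ≤ (x : ℝ) / 1099511627776 := by positivity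
  have h1 := UB_sqrt (UB_self x) hx0
  have h2 := sqU_pos x
  have h2' : (0 : ℝ) < sqU x := by exact_mod_cast h2
  have h3 : LB (sqD x) (Real.sqrt ((x : ℝ) / 1099511627776)) := by
    unfold LB sqD
    refine (div_cast_le _ _).trans ?_
    rw [div_le_iff₀ h2']
    unfold UB at h1
    obtain ⟨w, hw⟩ : ∃ w : ℝ, w = Real.sqrt ((x : ℝ) / 1099511627776) := ⟨_, rfl⟩
    have hw0 : 0 ≤ w := by rw [hw]; exact Real.sqrt_nonneg _
    have hw2 : w ^ 2 = (x : ℝ) / 1099511627776 := by rw [hw]; exact Real.sq_sqrt hx0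
    rw [← hw] at h1 ⊢
    have h4 := mul_le_mul_of_nonneg_left h1 (by positivity : 0 ≤ w * 1099511627776)
    push_cast
    have h5 : (x : ℝ) = w ^ 2 * 1099511627776 := by rw [hw2]; field_simp
    rw [h5]
    linarith
  refine h3.le (Real.sqrt_le_sqrt ?_)
  unfold LB at hX
  rw [div_le_iff₀ (by norm_num)]
  exact hX

/-! ### exponentials -/

lemma tyD_spec {t : ℕ} {x : ℝ} (h : LB t x) : LB (tyD t) (Real.exp x) := by
  have hx := h.nonneg
  have e1 : LB (1099511627776 + t / 6) (1 + x / 6) := LB_add LB_one (by exact_mod_cast LB_ndiv 6 h)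
  have e2 := LB_add LB_one (LB_ndiv 5 (LB_mul h e1))
  have e3 := LB_add LB_one (LB_ndiv 4 (LB_mul h e2))
  have e4 := LB_add LB_one (LB_ndiv 3 (LB_mul h e3))
  have e5 := LB_add LB_one (LB_ndiv 2 (LB_mul h e4))
  have e6 := LB_add LB_one (LB_mul h e5)
  have h7 : LB (tyD t) (1 + x * (1 + x * (1 + x * (1 + x * (1 + x * (1 + x / 6) / 5) / 4) / 3) / 2)) := by
    unfold tyD
    exact_mod_cast e6
  refine h7.le ?_
  have h8 := Real.sum_le_exp_of_nonneg hx 7
  refine le_trans (le_of_eq ?_) h8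
  simp only [Finset.sum_range_succ, Finset.sum_range_zero, Nat.factorial]
  push_cast
  ring

lemma tyU_spec {t : ℕ} {x : ℝ} (h : UB x t) (hx : 0 ≤ x) (hx1 : x ≤ 1) : UB (Real.exp x) (tyU t) := by
  have e0 : UB (7 * x / 36) (7 * t / 36 + 1) := by
    have := UB_ndiv (n := 36) (by norm_num) (UB_nmul 7 h)
    exact_mod_cast this
  have e1 : UB (1 + 7 * x / 36) (1099511627776 + (7 * t / 36 + 1)) := UB_add UB_one e0
  have e2 := UB_add UB_one (UB_ndiv (n := 5) (by norm_num) (UB_mul h e1 hx (by positivity)))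
  have e3 := UB_add UB_one (UB_ndiv (n := 4) (by norm_num) (UB_mul h e2 hx (by positivity)))
  have e4 := UB_add UB_one (UB_ndiv (n := 3) (by norm_num) (UB_mul h e3 hx (by positivity)))
  have e5 := UB_add UB_one (UB_ndiv (n := 2) (by norm_num) (UB_mul h e4 hx (by positivity)))
  have e6 := UB_add UB_one (UB_mul h e5 hx (by positivity))
  have h7 : UB (1 + x * (1 + x * (1 + x * (1 + x * (1 + x * (1 + 7 * x / 36) / 5) / 4) / 3) / 2))
      (tyU t) := by
    unfold tyU
    exact_mod_cast e6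
  refine h7.ge ?_
  have h8 := Real.exp_bound' hx hx1 (n := 6) (by norm_num)
  refine h8.trans (le_of_eq ?_)
  simp only [Finset.sum_range_succ, Finset.sum_range_zero, Nat.factorial]
  push_cast
  ring

lemma p8D_spec {a : ℕ} {x : ℝ} (h : LB a x) : LB (p8D a) (x ^ 8) := by
  have h1 := LB_mul h h
  have h2 := LB_mul h1 h1
  have h3 := LB_mul h2 h2
  unfold p8D
  refine h3.le (le_of_eq ?_)
  ring

lemma p8U_spec {a : ℕ} {x : ℝ} (h : UB x a) (hx : 0 ≤ x) : UB (x ^ 8) (p8U a) := by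
  have h1 := UB_mul h h hx hx
  have h2 := UB_mul h1 h1 (by positivity) (by positivity)
  have h3 := UB_mul h2 h2 (by positivity) (by positivity)
  unfold p8U
  refine h3.ge (le_of_eq ?_)
  ring

lemma LB_exp {a : ℕ} {x : ℝ} (h : LB a x) : LB (expD a) (Real.exp x) := by
  have h1 := p8D_spec (tyD_spec (LB_ndiv 8 h))
  unfold expD
  refine h1.le (le_of_eq ?_)
  rw [← Real.exp_nat_mul]
  push_cast
  ring_nf

lemma UB_exp {a : ℕ} {x : ℝ} (h : UB x a) (hx : 0 ≤ x) (hx8 : x ≤ 8) : UB (Real.exp x) (expU a) := by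
  have h0 : UB (x / (8 : ℕ)) (a / 8 + 1) := UB_ndiv (by norm_num) h
  have h1 := p8U_spec (tyU_spec h0 (by positivity) (by push_cast; linarith)) (Real.exp_pos _).le
  unfold expU
  refine h1.ge (le_of_eq ?_)
  rw [← Real.exp_nat_mul]
  push_cast
  ring_nf

end Crest.Agent.R230.IA
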