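import Crest.Agent.R230.LegalD

/-!
# Row 230: a-priori bound `l ≤ c - 17/50` on `c ∈ [3/4, 21/25]`, Lean `n = 5, …, 22` (helper91)

Input of case I (helper238, `PP_caseI`); built on helper446's fixed cone comparison
(`ConeUB`, `tau_le_of_chk`, `ll_le_regA`).
-/

set_option autoImplicit false

open MeasureTheory Set Filter Topology
open scoped Pointwise ENNReal Real

namespace Crest.Agent.R230

open WR

namespace LExp

section

variable {n : ℕ} {r : ℝ → ℝ}

/-- the bound up to the point `a` -/
def LC (n : ℕ) (r : ℝ → ℝ) (a : ℝ) : Prop :=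
  ∀ s ∈ Ioc (0 : ℝ) a, 3 / 4 ≤ cc s → cc s ≤ 21 / 25 → ll n r s ≤ cc s - 17 / 50

lemma LC_start : LC n r (54257 / 100000) := by
  intro s hs _ h2
  exfalso
  have hc0 := cc_nonneg s
  have hc2 : cc s ^ 2 = 1 - s ^ 2 := cc_sq ⟨by linarith [hs.1], by linarith [hs.2]⟩
  nlinarith [hs.1, hs.2]

lemma exp4_le {x : ℝ} (hx : 0 ≤ x) : 1 + x + x ^ 2 / 2 + x ^ 3 / 6 + x ^ 4 / 24 ≤ Real.exp x := by
  have h := Real.sum_le_exp_of_nonneg hx 5
  simp only [Finset.sum_range_succ, Finset.sum_range_zero, Nat.factorial] at h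
  refine le_trans (le_of_eq ?_) h
  norm_num

lemma LC_step (hn : 5 ≤ n) (hr : Prof r) (hN : NleB n r) {e H : ℝ} (hU : ConeUB n r e)
    (he0 : 0 ≤ e) (he : e < 1) (hH : hB n 0 ≤ H) {a b t c : ℝ} (ha : 0 < a) (hb : b ≤ 66144 / 100000)
    (_ht0 : 0 < t) (ht1 : t ≤ 1) (hc0 : 17 / 50 ≤ c) (hc : c ^ 2 ≤ 1 - b ^ 2)
    (hchk : ((1 - (1 - e) * t) ^ (n + 1) - e ^ (n + 1)) * H * (1 + (n + 1) * b ^ 2) ≤
      (1 - e ^ (n + 1)) * (b * c ^ (n + 2)))
    (hE : t ≤ a * (1 + (c - 17 / 50) + (c - 17 / 50) ^ 2 / 2 + (c - 17 / 50) ^ 3 / 6 +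
      (c - 17 / 50) ^ 4 / 24))
    (hprev : LC n r a) : LC n r b := by
  intro s hs h1 h2
  rcases le_total s a with h | h
  · exact hprev s ⟨hs.1, h⟩ h1 h2
  have hs' : s ∈ Ioo (0 : ℝ) 1 := ⟨hs.1, by linarith [hs.2]⟩
  rcases le_total (lB n s) (89 / 100 * hB n 0) with hF | hF
  · have h3 := ll_le_regA hn hr hN hs' hF
    have h4 : cc s ^ 2 ≤ (cc s - 17 / 50) * (1 + cc s) := by nlinarith
    have h5 : 0 < 1 + cc s := by linarith
    exact le_of_mul_le_mul_right (h3.trans h4) h5
  · have hb' : b ∈ Ioo (0 : ℝ) 1 := ⟨by linarith [hs.1, hs.2], by linarith⟩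
    have hFb : 89 / 100 * hB n 0 ≤ lB n b := hF.trans (lB_mono n hs.2)
    have h3 := tau_le_of_chk hr hU he0 he hb' hFb ht1 hH (by linarith) hc hchk
    have h4 : tau n r s ≤ tau n r b := (tau_strictMonoOn hr n).monotoneOn
      ⟨by linarith [hs.1], hs'.2.le⟩ ⟨by linarith [hb'.1], hb'.2.le⟩ hs.2
    have hT := tau_pos hr n (s := s) ⟨hs'.1, hs'.2.le⟩
    have h5 : c ≤ cc b := Real.le_sqrt_of_sq_le hc
    have h6 : cc b ≤ cc s := cc_anti hs.1.le hs.2
    have h7 := exp4_le (x := c - 17 / 50) (by linarith)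
    rw [ll_eq_log hs']
    have h8 : tau n r s / s ≤ Real.exp (c - 17 / 50) := by
      rw [div_le_iff₀ hs'.1]
      calc tau n r s ≤ t := h4.trans h3
        _ ≤ a * Real.exp (c - 17 / 50) := hE.trans (mul_le_mul_of_nonneg_left h7 ha.le)
        _ ≤ s * Real.exp (c - 17 / 50) := mul_le_mul_of_nonneg_right h (Real.exp_pos _).le
        _ = _ := mul_comm _ _
    calc Real.log (tau n r s / s) ≤ Real.log (Real.exp (c - 17 / 50)) :=
          Real.log_le_log (div_pos hT hs'.1) h8
      _ = c - 17 / 50 := Real.log_exp _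
      _ ≤ cc s - 17 / 50 := by linarith

lemma LC_end (h : LC n r (66144 / 100000)) : ∀ s ∈ Ioo (0 : ℝ) 1, 3 / 4 ≤ cc s → cc s ≤ 21 / 25 →
    ll n r s ≤ cc s - 17 / 50 := by
  intro s hs h1 h2
  refine h s ⟨hs.1, ?_⟩ h1 h2
  have hc2 : cc s ^ 2 = 1 - s ^ 2 := cc_sq ⟨by linarith [hs.1], hs.2.le⟩
  by_contra hcon
  push Not at hcon
  nlinarith [hs.1]

end

lemma lc_n5 {r : ℝ → ℝ} (hr : Prof r) (hN : NleB 5 r) : ∀ s ∈ Ioo (0 : ℝ) 1, 3 / 4 ≤ cc s →
    cc s ≤ 21 / 25 → ll 5 r s ≤ cc s - 17 / 50 := by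
  have hp1 := Real.pi_gt_d6
  have hp2 := Real.pi_lt_d6
  have hw1 : 981747 / 1000000 ≤ w 5 := by rw [lgw_5]; linarith
  have hw2 : w 4 ≤ 1066667 / 1000000 := by rw [lgw_4]; linarith
  have hH : hB 5 0 ≤ 245437 / 500000 := by
    have h := w_eq_two_hB 5
    rw [lgw_5] at h
    linarith
  have hU : ConeUB 5 r (5847 / 10000) := by
    refine coneUB_of (T₁ := 66147 / 100000) (by norm_num) hr hN (by norm_num) (by norm_num) ?_ (by norm_num) (by norm_num)
    calc 89 / 200 * w (5 - 1) ^ 5 ≤ 89 / 200 * (1066667 / 1000000) ^ 5 := by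
          have := w_pos' 4
          gcongr
      _ ≤ 66147 / 100000 * (981747 / 1000000) ^ (5 - 1) := by norm_num
      _ ≤ _ := by gcongr
  have h1 : LC 5 r (2067 / 3125) := LC_step (by norm_num) hr hN hU (by norm_num) (by norm_num) hH (a := 54257 / 100000) (b := 2067 / 3125) (t := 4017 / 5000)
    (c := 7499 / 10000) (by norm_num) (by norm_num) (by norm_num) (by norm_num) (by norm_num) (by norm_num) (by norm_num) (by norm_num)
    LC_start
  exact LC_end (by norm_num at h1 ⊢; exact h1)

lemma lc_n6 {r : ℝ → ℝ} (hr : Prof r) (hN : NleB 6 r) : ∀ s ∈ Ioo (0 : ℝ) 1, 3 / 4 ≤ cc s →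
    cc s ≤ 21 / 25 → ll 6 r s ≤ cc s - 17 / 50 := by
  have hp1 := Real.pi_gt_d6
  have hp2 := Real.pi_lt_d6
  have hw1 : 182857 / 200000 ≤ w 6 := by rw [lgw_6]; linarith
  have hw2 : w 5 ≤ 245437 / 250000 := by rw [lgw_5]; linarith
  have hH : hB 6 0 ≤ 457143 / 1000000 := by
    have h := w_eq_two_hB 6
    rw [lgw_6] at h
    linarith
  have hU : ConeUB 6 r (376 / 625) := by
    refine coneUB_of (T₁ := 62367 / 100000) (by norm_num) hr hN (by norm_num) (by norm_num) ?_ (by norm_num) (by norm_num)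
    calc 89 / 200 * w (6 - 1) ^ 6 ≤ 89 / 200 * (245437 / 250000) ^ 6 := by
          have := w_pos' 5
          gcongr
      _ ≤ 62367 / 100000 * (182857 / 200000) ^ (6 - 1) := by norm_num
      _ ≤ _ := by gcongr
  have h1 : LC 6 r (11 / 20) := LC_step (by norm_num) hr hN hU (by norm_num) (by norm_num) hH (a := 54257 / 100000) (b := 11 / 20) (t := 3311 / 5000)
    (c := 8351 / 10000) (by norm_num) (by norm_num) (by norm_num) (by norm_num) (by norm_num) (by norm_num) (by norm_num) (by norm_num)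
    LC_start
  have h2 : LC 6 r (2067 / 3125) := LC_step (by norm_num) hr hN hU (by norm_num) (by norm_num) hH (a := 11 / 20) (b := 2067 / 3125) (t := 4093 / 5000)
    (c := 7499 / 10000) (by norm_num) (by norm_num) (by norm_num) (by norm_num) (by norm_num) (by norm_num) (by norm_num) (by norm_num)
    h1
  exact LC_end (by norm_num at h2 ⊢; exact h2)

lemma lc_n7 {r : ℝ → ℝ} (hr : Prof r) (hN : NleB 7 r) : ∀ s ∈ Ioo (0 : ℝ) 1, 3 / 4 ≤ cc s →
    cc s ≤ 21 / 25 → ll 7 r s ≤ cc s - 17 / 50 := by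
  have hp1 := Real.pi_gt_d6
  have hp2 := Real.pi_lt_d6
  have hw1 : 859029 / 1000000 ≤ w 7 := by rw [lgw_7]; linarith
  have hw2 : w 6 ≤ 457143 / 500000 := by rw [lgw_6]; linarith
  have hH : hB 7 0 ≤ 85903 / 200000 := by
    have h := w_eq_two_hB 7
    rw [lgw_7] at h
    linarith
  have hU : ConeUB 7 r (6181 / 10000) := by
    refine coneUB_of (T₁ := 59141 / 100000) (by norm_num) hr hN (by norm_num) (by norm_num) ?_ (by norm_num) (by norm_num)
    calc 89 / 200 * w (7 - 1) ^ 7 ≤ 89 / 200 * (457143 / 500000) ^ 7 := by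
          have := w_pos' 6
          gcongr
      _ ≤ 59141 / 100000 * (859029 / 1000000) ^ (7 - 1) := by norm_num
      _ ≤ _ := by gcongr
  have h1 : LC 7 r (14 / 25) := LC_step (by norm_num) hr hN hU (by norm_num) (by norm_num) hH (a := 54257 / 100000) (b := 14 / 25) (t := 3429 / 5000)
    (c := 2071 / 2500) (by norm_num) (by norm_num) (by norm_num) (by norm_num) (by norm_num) (by norm_num) (by norm_num) (by norm_num)
    LC_start
  have h2 : LC 7 r (2067 / 3125) := LC_step (by norm_num) hr hN hU (by norm_num) (by norm_num) hH (a := 14 / 25) (b := 2067 / 3125) (t := 4173 / 5000)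
    (c := 7499 / 10000) (by norm_num) (by norm_num) (by norm_num) (by norm_num) (by norm_num) (by norm_num) (by norm_num) (by norm_num)
    h1
  exact LC_end (by norm_num at h2 ⊢; exact h2)

lemma lc_n8 {r : ℝ → ℝ} (hr : Prof r) (hN : NleB 8 r) : ∀ s ∈ Ioo (0 : ℝ) 1, 3 / 4 ≤ cc s →
    cc s ≤ 21 / 25 → ll 8 r s ≤ cc s - 17 / 50 := by
  have hp1 := Real.pi_gt_d6
  have hp2 := Real.pi_lt_d6
  have hw1 : 406349 / 500000 ≤ w 8 := by rw [lgw_8]; linarith
  have hw2 : w 7 ≤ 85903 / 100000 := by rw [lgw_7]; linarith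
  have hH : hB 8 0 ≤ 8127 / 20000 := by
    have h := w_eq_two_hB 8
    rw [lgw_8] at h
    linarith
  have hU : ConeUB 8 r (1267 / 2000) := by
    refine coneUB_of (T₁ := 28177 / 50000) (by norm_num) hr hN (by norm_num) (by norm_num) ?_ (by norm_num) (by norm_num)
    calc 89 / 200 * w (8 - 1) ^ 8 ≤ 89 / 200 * (85903 / 100000) ^ 8 := by
          have := w_pos' 7
          gcongr
      _ ≤ 28177 / 50000 * (406349 / 500000) ^ (8 - 1) := by norm_num
      _ ≤ _ := by gcongr
  have h1 : LC 8 r (57 / 100) := LC_step (by norm_num) hr hN hU (by norm_num) (by norm_num) hH (a := 54257 / 100000) (b := 57 / 100) (t := 7123 / 10000)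
    (c := 1027 / 1250) (by norm_num) (by norm_num) (by norm_num) (by norm_num) (by norm_num) (by norm_num) (by norm_num) (by norm_num)
    LC_start
  have h2 : LC 8 r (2067 / 3125) := LC_step (by norm_num) hr hN hU (by norm_num) (by norm_num) hH (a := 57 / 100) (b := 2067 / 3125) (t := 4253 / 5000)
    (c := 7499 / 10000) (by norm_num) (by norm_num) (by norm_num) (by norm_num) (by norm_num) (by norm_num) (by norm_num) (by norm_num)
    h1
  exact LC_end (by norm_num at h2 ⊢; exact h2)

lemma lc_n9 {r : ℝ → ℝ} (hr : Prof r) (hN : NleB 9 r) : ∀ s ∈ Ioo (0 : ℝ) 1, 3 / 4 ≤ cc s →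
    cc s ≤ 21 / 25 → ll 9 r s ≤ cc s - 17 / 50 := by
  have hp1 := Real.pi_gt_d6
  have hp2 := Real.pi_lt_d6
  have hw1 : 386563 / 500000 ≤ w 9 := by rw [lgw_9]; linarith
  have hw2 : w 8 ≤ 812699 / 1000000 := by rw [lgw_8]; linarith
  have hH : hB 9 0 ≤ 96641 / 250000 := by
    have h := w_eq_two_hB 9
    rw [lgw_9] at h
    linarith
  have hU : ConeUB 9 r (1619 / 2500) := by
    refine coneUB_of (T₁ := 53917 / 100000) (by norm_num) hr hN (by norm_num) (by norm_num) ?_ (by norm_num) (by norm_num)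
    calc 89 / 200 * w (9 - 1) ^ 9 ≤ 89 / 200 * (812699 / 1000000) ^ 9 := by
          have := w_pos' 8
          gcongr
      _ ≤ 53917 / 100000 * (386563 / 500000) ^ (9 - 1) := by norm_num
      _ ≤ _ := by gcongr
  have h1 : LC 9 r (29 / 50) := LC_step (by norm_num) hr hN hU (by norm_num) (by norm_num) hH (a := 54257 / 100000) (b := 29 / 50) (t := 7409 / 10000)
    (c := 4073 / 5000) (by norm_num) (by norm_num) (by norm_num) (by norm_num) (by norm_num) (by norm_num) (by norm_num) (by norm_num)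
    LC_start
  have h2 : LC 9 r (2067 / 3125) := LC_step (by norm_num) hr hN hU (by norm_num) (by norm_num) hH (a := 29 / 50) (b := 2067 / 3125) (t := 8661 / 10000)
    (c := 7499 / 10000) (by norm_num) (by norm_num) (by norm_num) (by norm_num) (by norm_num) (by norm_num) (by norm_num) (by norm_num)
    h1
  exact LC_end (by norm_num at h2 ⊢; exact h2)

lemma lc_n10 {r : ℝ → ℝ} (hr : Prof r) (hN : NleB 10 r) : ∀ s ∈ Ioo (0 : ℝ) 1, 3 / 4 ≤ cc s →
    cc s ≤ 21 / 25 → ll 10 r s ≤ cc s - 17 / 50 := by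
  have hp1 := Real.pi_gt_d6
  have hp2 := Real.pi_lt_d6
  have hw1 : 11544 / 15625 ≤ w 10 := by rw [lgw_10]; linarith
  have hw2 : w 9 ≤ 773127 / 1000000 := by rw [lgw_9]; linarith
  have hH : hB 10 0 ≤ 369409 / 1000000 := by
    have h := w_eq_two_hB 10
    rw [lgw_10] at h
    linarith
  have hU : ConeUB 10 r (1321 / 2000) := by
    refine coneUB_of (T₁ := 25883 / 50000) (by norm_num) hr hN (by norm_num) (by norm_num) ?_ (by norm_num) (by norm_num)
    calc 89 / 200 * w (10 - 1) ^ 10 ≤ 89 / 200 * (773127 / 1000000) ^ 10 := by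
          have := w_pos' 9
          gcongr
      _ ≤ 25883 / 50000 * (11544 / 15625) ^ (10 - 1) := by norm_num
      _ ≤ _ := by gcongr
  have h1 : LC 10 r (59 / 100) := LC_step (by norm_num) hr hN hU (by norm_num) (by norm_num) hH (a := 54257 / 100000) (b := 59 / 100) (t := 7707 / 10000)
    (c := 4037 / 5000) (by norm_num) (by norm_num) (by norm_num) (by norm_num) (by norm_num) (by norm_num) (by norm_num) (by norm_num)
    LC_start
  have h2 : LC 10 r (2067 / 3125) := LC_step (by norm_num) hr hN hU (by norm_num) (by norm_num) hH (a := 59 / 100) (b := 2067 / 3125) (t := 1101 / 1250)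
    (c := 7499 / 10000) (by norm_num) (by norm_num) (by norm_num) (by norm_num) (by norm_num) (by norm_num) (by norm_num) (by norm_num)
    h1
  exact LC_end (by norm_num at h2 ⊢; exact h2)

lemma lc_n11 {r : ℝ → ℝ} (hr : Prof r) (hN : NleB 11 r) : ∀ s ∈ Ioo (0 : ℝ) 1, 3 / 4 ≤ cc s →
    cc s ≤ 21 / 25 → ll 11 r s ≤ cc s - 17 / 50 := by
  have hp1 := Real.pi_gt_d6
  have hp2 := Real.pi_lt_d6
  have hw1 : 354349 / 500000 ≤ w 11 := by rw [lgw_11]; linarith
  have hw2 : w 10 ≤ 738817 / 1000000 := by rw [lgw_10]; linarith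
  have hH : hB 11 0 ≤ 7087 / 20000 := by
    have h := w_eq_two_hB 11
    rw [lgw_11] at h
    linarith
  have hU : ConeUB 11 r (6723 / 10000) := by
    refine coneUB_of (T₁ := 49849 / 100000) (by norm_num) hr hN (by norm_num) (by norm_num) ?_ (by norm_num) (by norm_num)
    calc 89 / 200 * w (11 - 1) ^ 11 ≤ 89 / 200 * (738817 / 1000000) ^ 11 := by
          have := w_pos' 10
          gcongr
      _ ≤ 49849 / 100000 * (354349 / 500000) ^ (11 - 1) := by norm_num
      _ ≤ _ := by gcongr
  have h1 : LC 11 r (3 / 5) := LC_step (by norm_num) hr hN hU (by norm_num) (by norm_num) hH (a := 54257 / 100000) (b := 3 / 5) (t := 2003 / 2500)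
    (c := 4 / 5) (by norm_num) (by norm_num) (by norm_num) (by norm_num) (by norm_num) (by norm_num) (by norm_num) (by norm_num)
    LC_start
  have h2 : LC 11 r (2067 / 3125) := LC_step (by norm_num) hr hN hU (by norm_num) (by norm_num) hH (a := 3 / 5) (b := 2067 / 3125) (t := 8947 / 10000)
    (c := 7499 / 10000) (by norm_num) (by norm_num) (by norm_num) (by norm_num) (by norm_num) (by norm_num) (by norm_num) (by norm_num)
    h1
  exact LC_end (by norm_num at h2 ⊢; exact h2)

lemma lc_n12 {r : ℝ → ℝ} (hr : Prof r) (hN : NleB 12 r) : ∀ s ∈ Ioo (0 : ℝ) 1, 3 / 4 ≤ cc s →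
    cc s ≤ 21 / 25 → ll 12 r s ≤ cc s - 17 / 50 := by
  have hp1 := Real.pi_gt_d6
  have hp2 := Real.pi_lt_d6
  have hw1 : 10656 / 15625 ≤ w 12 := by rw [lgw_12]; linarith
  have hw2 : w 11 ≤ 7087 / 10000 := by rw [lgw_11]; linarith
  have hH : hB 12 0 ≤ 340993 / 1000000 := by
    have h := w_eq_two_hB 12
    rw [lgw_12] at h
    linarith
  have hU : ConeUB 12 r (6831 / 10000) := by
    refine coneUB_of (T₁ := 1504 / 3125) (by norm_num) hr hN (by norm_num) (by norm_num) ?_ (by norm_num) (by norm_num)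
    calc 89 / 200 * w (12 - 1) ^ 12 ≤ 89 / 200 * (7087 / 10000) ^ 12 := by
          have := w_pos' 11
          gcongr
      _ ≤ 1504 / 3125 * (10656 / 15625) ^ (12 - 1) := by norm_num
      _ ≤ _ := by gcongr
  have h1 : LC 12 r (61 / 100) := LC_step (by norm_num) hr hN hU (by norm_num) (by norm_num) hH (a := 54257 / 100000) (b := 61 / 100) (t := 1663 / 2000)
    (c := 1981 / 2500) (by norm_num) (by norm_num) (by norm_num) (by norm_num) (by norm_num) (by norm_num) (by norm_num) (by norm_num)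
    LC_start
  have h2 : LC 12 r (2067 / 3125) := LC_step (by norm_num) hr hN hU (by norm_num) (by norm_num) hH (a := 61 / 100) (b := 2067 / 3125) (t := 2269 / 2500)
    (c := 7499 / 10000) (by norm_num) (by norm_num) (by norm_num) (by norm_num) (by norm_num) (by norm_num) (by norm_num) (by norm_num)
    h1
  exact LC_end (by norm_num at h2 ⊢; exact h2)

lemma lc_n13 {r : ℝ → ℝ} (hr : Prof r) (hN : NleB 13 r) : ∀ s ∈ Ioo (0 : ℝ) 1, 3 / 4 ≤ cc s →
    cc s ≤ 21 / 25 → ll 13 r s ≤ cc s - 17 / 50 := by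
  have hp1 := Real.pi_gt_d6
  have hp2 := Real.pi_lt_d6
  have hw1 : 658077 / 1000000 ≤ w 13 := by rw [lgw_13]; linarith
  have hw2 : w 12 ≤ 136397 / 200000 := by rw [lgw_12]; linarith
  have hH : hB 13 0 ≤ 329039 / 1000000 := by
    have h := w_eq_two_hB 13
    rw [lgw_13] at h
    linarith
  have hU : ConeUB 13 r (6929 / 10000) := by
    refine coneUB_of (T₁ := 46571 / 100000) (by norm_num) hr hN (by norm_num) (by norm_num) ?_ (by norm_num) (by norm_num)
    calc 89 / 200 * w (13 - 1) ^ 13 ≤ 89 / 200 * (136397 / 200000) ^ 13 := by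
          have := w_pos' 12
          gcongr
      _ ≤ 46571 / 100000 * (658077 / 1000000) ^ (13 - 1) := by norm_num
      _ ≤ _ := by gcongr
  have h1 : LC 13 r (14 / 25) := LC_step (by norm_num) hr hN hU (by norm_num) (by norm_num) hH (a := 54257 / 100000) (b := 14 / 25) (t := 3789 / 5000)
    (c := 2071 / 2500) (by norm_num) (by norm_num) (by norm_num) (by norm_num) (by norm_num) (by norm_num) (by norm_num) (by norm_num)
    LC_start
  have h2 : LC 13 r (31 / 50) := LC_step (by norm_num) hr hN hU (by norm_num) (by norm_num) hH (a := 14 / 25) (b := 31 / 50) (t := 538 / 625)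
    (c := 3923 / 5000) (by norm_num) (by norm_num) (by norm_num) (by norm_num) (by norm_num) (by norm_num) (by norm_num) (by norm_num)
    h1
  have h3 : LC 13 r (2067 / 3125) := LC_step (by norm_num) hr hN hU (by norm_num) (by norm_num) hH (a := 31 / 50) (b := 2067 / 3125) (t := 9193 / 10000)
    (c := 7499 / 10000) (by norm_num) (by norm_num) (by norm_num) (by norm_num) (by norm_num) (by norm_num) (by norm_num) (by norm_num)
    h2
  exact LC_end (by norm_num at h3 ⊢; exact h3)

lemma lc_n14 {r : ℝ → ℝ} (hr : Prof r) (hN : NleB 14 r) : ∀ s ∈ Ioo (0 : ℝ) 1, 3 / 4 ≤ cc s →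
    cc s ≤ 21 / 25 → ll 14 r s ≤ cc s - 17 / 50 := by
  have hp1 := Real.pi_gt_d6
  have hp2 := Real.pi_lt_d6
  have hw1 : 636519 / 1000000 ≤ w 14 := by rw [lgw_14]; linarith
  have hw2 : w 13 ≤ 329039 / 500000 := by rw [lgw_13]; linarith
  have hH : hB 14 0 ≤ 15913 / 50000 := by
    have h := w_eq_two_hB 14
    rw [lgw_14] at h
    linarith
  have hU : ConeUB 14 r (351 / 500) := by
    refine coneUB_of (T₁ := 22577 / 50000) (by norm_num) hr hN (by norm_num) (by norm_num) ?_ (by norm_num) (by norm_num)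
    calc 89 / 200 * w (14 - 1) ^ 14 ≤ 89 / 200 * (329039 / 500000) ^ 14 := by
          have := w_pos' 13
          gcongr
      _ ≤ 22577 / 50000 * (636519 / 1000000) ^ (14 - 1) := by norm_num
      _ ≤ _ := by gcongr
  have h1 : LC 14 r (57 / 100) := LC_step (by norm_num) hr hN hU (by norm_num) (by norm_num) hH (a := 54257 / 100000) (b := 57 / 100) (t := 3941 / 5000)
    (c := 1027 / 1250) (by norm_num) (by norm_num) (by norm_num) (by norm_num) (by norm_num) (by norm_num) (by norm_num) (by norm_num)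
    LC_start
  have h2 : LC 14 r (31 / 50) := LC_step (by norm_num) hr hN hU (by norm_num) (by norm_num) hH (a := 57 / 100) (b := 31 / 50) (t := 1747 / 2000)
    (c := 3923 / 5000) (by norm_num) (by norm_num) (by norm_num) (by norm_num) (by norm_num) (by norm_num) (by norm_num) (by norm_num)
    h1
  have h3 : LC 14 r (2067 / 3125) := LC_step (by norm_num) hr hN hU (by norm_num) (by norm_num) hH (a := 31 / 50) (b := 2067 / 3125) (t := 93 / 100)
    (c := 7499 / 10000) (by norm_num) (by norm_num) (by norm_num) (by norm_num) (by norm_num) (by norm_num) (by norm_num) (by norm_num)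
    h2
  exact LC_end (by norm_num at h3 ⊢; exact h3)

lemma lc_n15 {r : ℝ → ℝ} (hr : Prof r) (hN : NleB 15 r) : ∀ s ∈ Ioo (0 : ℝ) 1, 3 / 4 ≤ cc s →
    cc s ≤ 21 / 25 → ll 15 r s ≤ cc s - 17 / 50 := by
  have hp1 := Real.pi_gt_d6
  have hp2 := Real.pi_lt_d6
  have hw1 : 616947 / 1000000 ≤ w 15 := by rw [lgw_15]; linarith
  have hw2 : w 14 ≤ 15913 / 25000 := by rw [lgw_14]; linarith
  have hH : hB 15 0 ≤ 154237 / 500000 := by
    have h := w_eq_two_hB 15
    rw [lgw_15] at h
    linarith
  have hU : ConeUB 15 r (444 / 625) := by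
    refine coneUB_of (T₁ := 43861 / 100000) (by norm_num) hr hN (by norm_num) (by norm_num) ?_ (by norm_num) (by norm_num)
    calc 89 / 200 * w (15 - 1) ^ 15 ≤ 89 / 200 * (15913 / 25000) ^ 15 := by
          have := w_pos' 14
          gcongr
      _ ≤ 43861 / 100000 * (616947 / 1000000) ^ (15 - 1) := by norm_num
      _ ≤ _ := by gcongr
  have h1 : LC 15 r (59 / 100) := LC_step (by norm_num) hr hN hU (by norm_num) (by norm_num) hH (a := 54257 / 100000) (b := 59 / 100) (t := 4181 / 5000)
    (c := 4037 / 5000) (by norm_num) (by norm_num) (by norm_num) (by norm_num) (by norm_num) (by norm_num) (by norm_num) (by norm_num)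
    LC_start
  have h2 : LC 15 r (63 / 100) := LC_step (by norm_num) hr hN hU (by norm_num) (by norm_num) hH (a := 59 / 100) (b := 63 / 100) (t := 9003 / 10000)
    (c := 1553 / 2000) (by norm_num) (by norm_num) (by norm_num) (by norm_num) (by norm_num) (by norm_num) (by norm_num) (by norm_num)
    h1
  have h3 : LC 15 r (2067 / 3125) := LC_step (by norm_num) hr hN hU (by norm_num) (by norm_num) hH (a := 63 / 100) (b := 2067 / 3125) (t := 9397 / 10000)
    (c := 7499 / 10000) (by norm_num) (by norm_num) (by norm_num) (by norm_num) (by norm_num) (by norm_num) (by norm_num) (by norm_num)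
    h2
  exact LC_end (by norm_num at h3 ⊢; exact h3)

lemma lc_n16 {r : ℝ → ℝ} (hr : Prof r) (hN : NleB 16 r) : ∀ s ∈ Ioo (0 : ℝ) 1, 3 / 4 ≤ cc s →
    cc s ≤ 21 / 25 → ll 16 r s ≤ cc s - 17 / 50 := by
  have hp1 := Real.pi_gt_d6
  have hp2 := Real.pi_lt_d6
  have hw1 : 149769 / 250000 ≤ w 16 := by rw [lgw_16]; linarith
  have hw2 : w 15 ≤ 154237 / 250000 := by rw [lgw_15]; linarith
  have hH : hB 16 0 ≤ 299539 / 1000000 := by
    have h := w_eq_two_hB 16
    rw [lgw_16] at h
    linarith
  have hU : ConeUB 16 r (3591 / 5000) := by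
    refine coneUB_of (T₁ := 42669 / 100000) (by norm_num) hr hN (by norm_num) (by norm_num) ?_ (by norm_num) (by norm_num)
    calc 89 / 200 * w (16 - 1) ^ 16 ≤ 89 / 200 * (154237 / 250000) ^ 16 := by
          have := w_pos' 15
          gcongr
      _ ≤ 42669 / 100000 * (149769 / 250000) ^ (16 - 1) := by norm_num
      _ ≤ _ := by gcongr
  have h1 : LC 16 r (59 / 100) := LC_step (by norm_num) hr hN hU (by norm_num) (by norm_num) hH (a := 54257 / 100000) (b := 59 / 100) (t := 8481 / 10000)
    (c := 4037 / 5000) (by norm_num) (by norm_num) (by norm_num) (by norm_num) (by norm_num) (by norm_num) (by norm_num) (by norm_num)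
    LC_start
  have h2 : LC 16 r (63 / 100) := LC_step (by norm_num) hr hN hU (by norm_num) (by norm_num) hH (a := 59 / 100) (b := 63 / 100) (t := 9111 / 10000)
    (c := 1553 / 2000) (by norm_num) (by norm_num) (by norm_num) (by norm_num) (by norm_num) (by norm_num) (by norm_num) (by norm_num)
    h1
  have h3 : LC 16 r (2067 / 3125) := LC_step (by norm_num) hr hN hU (by norm_num) (by norm_num) hH (a := 63 / 100) (b := 2067 / 3125) (t := 9483 / 10000)
    (c := 7499 / 10000) (by norm_num) (by norm_num) (by norm_num) (by norm_num) (by norm_num) (by norm_num) (by norm_num) (by norm_num)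
    h2
  exact LC_end (by norm_num at h3 ⊢; exact h3)

lemma lc_n17 {r : ℝ → ℝ} (hr : Prof r) (hN : NleB 17 r) : ∀ s ∈ Ioo (0 : ℝ) 1, 3 / 4 ≤ cc s →
    cc s ≤ 21 / 25 → ll 17 r s ≤ cc s - 17 / 50 := by
  have hp1 := Real.pi_gt_d6
  have hp2 := Real.pi_lt_d6
  have hw1 : 36417 / 62500 ≤ w 17 := by rw [lgw_17]; linarith
  have hw2 : w 16 ≤ 599077 / 1000000 := by rw [lgw_16]; linarith
  have hH : hB 17 0 ≤ 291337 / 1000000 := by
    have h := w_eq_two_hB 17
    rw [lgw_17] at h
    linarith
  have hU : ConeUB 17 r (7253 / 10000) := by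
    refine coneUB_of (T₁ := 4157 / 10000) (by norm_num) hr hN (by norm_num) (by norm_num) ?_ (by norm_num) (by norm_num)
    calc 89 / 200 * w (17 - 1) ^ 17 ≤ 89 / 200 * (599077 / 1000000) ^ 17 := by
          have := w_pos' 16
          gcongr
      _ ≤ 4157 / 10000 * (36417 / 62500) ^ (17 - 1) := by norm_num
      _ ≤ _ := by gcongr
  have h1 : LC 17 r (57 / 100) := LC_step (by norm_num) hr hN hU (by norm_num) (by norm_num) hH (a := 54257 / 100000) (b := 57 / 100) (t := 1647 / 2000)
    (c := 1027 / 1250) (by norm_num) (by norm_num) (by norm_num) (by norm_num) (by norm_num) (by norm_num) (by norm_num) (by norm_num)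
    LC_start
  have h2 : LC 17 r (61 / 100) := LC_step (by norm_num) hr hN hU (by norm_num) (by norm_num) hH (a := 57 / 100) (b := 61 / 100) (t := 8921 / 10000)
    (c := 1981 / 2500) (by norm_num) (by norm_num) (by norm_num) (by norm_num) (by norm_num) (by norm_num) (by norm_num) (by norm_num)
    h1
  have h3 : LC 17 r (16 / 25) := LC_step (by norm_num) hr hN hU (by norm_num) (by norm_num) hH (a := 61 / 100) (b := 16 / 25) (t := 4667 / 5000)
    (c := 7683 / 10000) (by norm_num) (by norm_num) (by norm_num) (by norm_num) (by norm_num) (by norm_num) (by norm_num) (by norm_num)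
    h2
  have h4 : LC 17 r (2067 / 3125) := LC_step (by norm_num) hr hN hU (by norm_num) (by norm_num) hH (a := 16 / 25) (b := 2067 / 3125) (t := 4779 / 5000)
    (c := 7499 / 10000) (by norm_num) (by norm_num) (by norm_num) (by norm_num) (by norm_num) (by norm_num) (by norm_num) (by norm_num)
    h3
  exact LC_end (by norm_num at h4 ⊢; exact h4)

lemma lc_n18 {r : ℝ → ℝ} (hr : Prof r) (hN : NleB 18 r) : ∀ s ∈ Ioo (0 : ℝ) 1, 3 / 4 ≤ cc s →
    cc s ≤ 21 / 25 → ll 18 r s ≤ cc s - 17 / 50 := by
  have hp1 := Real.pi_gt_d6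
  have hp2 := Real.pi_lt_d6
  have hw1 : 283773 / 500000 ≤ w 18 := by rw [lgw_18]; linarith
  have hw2 : w 17 ≤ 291337 / 500000 := by rw [lgw_17]; linarith
  have hH : hB 18 0 ≤ 141887 / 500000 := by
    have h := w_eq_two_hB 18
    rw [lgw_18] at h
    linarith
  have hU : ConeUB 18 r (7321 / 10000) := by
    refine coneUB_of (T₁ := 5069 / 12500) (by norm_num) hr hN (by norm_num) (by norm_num) ?_ (by norm_num) (by norm_num)
    calc 89 / 200 * w (18 - 1) ^ 18 ≤ 89 / 200 * (291337 / 500000) ^ 18 := by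
          have := w_pos' 17
          gcongr
      _ ≤ 5069 / 12500 * (283773 / 500000) ^ (18 - 1) := by norm_num
      _ ≤ _ := by gcongr
  have h1 : LC 18 r (11 / 20) := LC_step (by norm_num) hr hN hU (by norm_num) (by norm_num) hH (a := 54257 / 100000) (b := 11 / 20) (t := 1991 / 2500)
    (c := 8351 / 10000) (by norm_num) (by norm_num) (by norm_num) (by norm_num) (by norm_num) (by norm_num) (by norm_num) (by norm_num)
    LC_start
  have h2 : LC 18 r (59 / 100) := LC_step (by norm_num) hr hN hU (by norm_num) (by norm_num) hH (a := 11 / 20) (b := 59 / 100) (t := 544 / 625)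
    (c := 4037 / 5000) (by norm_num) (by norm_num) (by norm_num) (by norm_num) (by norm_num) (by norm_num) (by norm_num) (by norm_num)
    h1
  have h3 : LC 18 r (31 / 50) := LC_step (by norm_num) hr hN hU (by norm_num) (by norm_num) hH (a := 59 / 100) (b := 31 / 50) (t := 9169 / 10000)
    (c := 3923 / 5000) (by norm_num) (by norm_num) (by norm_num) (by norm_num) (by norm_num) (by norm_num) (by norm_num) (by norm_num)
    h2
  have h4 : LC 18 r (16 / 25) := LC_step (by norm_num) hr hN hU (by norm_num) (by norm_num) hH (a := 31 / 50) (b := 16 / 25) (t := 9419 / 10000)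
    (c := 7683 / 10000) (by norm_num) (by norm_num) (by norm_num) (by norm_num) (by norm_num) (by norm_num) (by norm_num) (by norm_num)
    h3
  have h5 : LC 18 r (2067 / 3125) := LC_step (by norm_num) hr hN hU (by norm_num) (by norm_num) hH (a := 16 / 25) (b := 2067 / 3125) (t := 4813 / 5000)
    (c := 7499 / 10000) (by norm_num) (by norm_num) (by norm_num) (by norm_num) (by norm_num) (by norm_num) (by norm_num) (by norm_num)
    h4
  exact LC_end (by norm_num at h5 ⊢; exact h5)

lemma lc_n19 {r : ℝ → ℝ} (hr : Prof r) (hN : NleB 19 r) : ∀ s ∈ Ioo (0 : ℝ) 1, 3 / 4 ≤ cc s →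
    cc s ≤ 21 / 25 → ll 19 r s ≤ cc s - 17 / 50 := by
  have hp1 := Real.pi_gt_d6
  have hp2 := Real.pi_lt_d6
  have hw1 : 553539 / 1000000 ≤ w 19 := by rw [lgw_19]; linarith
  have hw2 : w 18 ≤ 567547 / 1000000 := by rw [lgw_18]; linarith
  have hH : hB 19 0 ≤ 27677 / 100000 := by
    have h := w_eq_two_hB 19
    rw [lgw_19] at h
    linarith
  have hU : ConeUB 19 r (7383 / 10000) := by
    refine coneUB_of (T₁ := 39603 / 100000) (by norm_num) hr hN (by norm_num) (by norm_num) ?_ (by norm_num) (by norm_num)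
    calc 89 / 200 * w (19 - 1) ^ 19 ≤ 89 / 200 * (567547 / 1000000) ^ 19 := by
          have := w_pos' 18
          gcongr
      _ ≤ 39603 / 100000 * (553539 / 1000000) ^ (19 - 1) := by norm_num
      _ ≤ _ := by gcongr
  have h1 : LC 19 r (11 / 20) := LC_step (by norm_num) hr hN hU (by norm_num) (by norm_num) hH (a := 54257 / 100000) (b := 11 / 20) (t := 8069 / 10000)
    (c := 8351 / 10000) (by norm_num) (by norm_num) (by norm_num) (by norm_num) (by norm_num) (by norm_num) (by norm_num) (by norm_num)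
    LC_start
  have h2 : LC 19 r (117 / 200) := LC_step (by norm_num) hr hN hU (by norm_num) (by norm_num) hH (a := 11 / 20) (b := 117 / 200) (t := 4361 / 5000)
    (c := 811 / 1000) (by norm_num) (by norm_num) (by norm_num) (by norm_num) (by norm_num) (by norm_num) (by norm_num) (by norm_num)
    h1
  have h3 : LC 19 r (61 / 100) := LC_step (by norm_num) hr hN hU (by norm_num) (by norm_num) hH (a := 117 / 200) (b := 61 / 100) (t := 114 / 125)
    (c := 1981 / 2500) (by norm_num) (by norm_num) (by norm_num) (by norm_num) (by norm_num) (by norm_num) (by norm_num) (by norm_num)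
    h2
  have h4 : LC 19 r (63 / 100) := LC_step (by norm_num) hr hN hU (by norm_num) (by norm_num) hH (a := 61 / 100) (b := 63 / 100) (t := 1173 / 1250)
    (c := 1553 / 2000) (by norm_num) (by norm_num) (by norm_num) (by norm_num) (by norm_num) (by norm_num) (by norm_num) (by norm_num)
    h3
  have h5 : LC 19 r (129 / 200) := LC_step (by norm_num) hr hN hU (by norm_num) (by norm_num) hH (a := 63 / 100) (b := 129 / 200) (t := 1193 / 1250)
    (c := 7641 / 10000) (by norm_num) (by norm_num) (by norm_num) (by norm_num) (by norm_num) (by norm_num) (by norm_num) (by norm_num)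
    h4
  have h6 : LC 19 r (2067 / 3125) := LC_step (by norm_num) hr hN hU (by norm_num) (by norm_num) hH (a := 129 / 200) (b := 2067 / 3125) (t := 9683 / 10000)
    (c := 7499 / 10000) (by norm_num) (by norm_num) (by norm_num) (by norm_num) (by norm_num) (by norm_num) (by norm_num) (by norm_num)
    h5
  exact LC_end (by norm_num at h6 ⊢; exact h6)

lemma lc_n20 {r : ℝ → ℝ} (hr : Prof r) (hN : NleB 20 r) : ∀ s ∈ Ioo (0 : ℝ) 1, 3 / 4 ≤ cc s →
    cc s ≤ 21 / 25 → ll 20 r s ≤ cc s - 17 / 50 := by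
  have hp1 := Real.pi_gt_d6
  have hp2 := Real.pi_lt_d6
  have hw1 : 13513 / 25000 ≤ w 20 := by rw [lgw_20]; linarith
  have hw2 : w 19 ≤ 27677 / 50000 := by rw [lgw_19]; linarith
  have hH : hB 20 0 ≤ 270261 / 1000000 := by
    have h := w_eq_two_hB 20
    rw [lgw_20] at h
    linarith
  have hU : ConeUB 20 r (3721 / 5000) := by
    refine coneUB_of (T₁ := 38719 / 100000) (by norm_num) hr hN (by norm_num) (by norm_num) ?_ (by norm_num) (by norm_num)
    calc 89 / 200 * w (20 - 1) ^ 20 ≤ 89 / 200 * (27677 / 50000) ^ 20 := by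
          have := w_pos' 19
          gcongr
      _ ≤ 38719 / 100000 * (13513 / 25000) ^ (20 - 1) := by norm_num
      _ ≤ _ := by gcongr
  have h1 : LC 20 r (11 / 20) := LC_step (by norm_num) hr hN hU (by norm_num) (by norm_num) hH (a := 54257 / 100000) (b := 11 / 20) (t := 8173 / 10000)
    (c := 8351 / 10000) (by norm_num) (by norm_num) (by norm_num) (by norm_num) (by norm_num) (by norm_num) (by norm_num) (by norm_num)
    LC_start
  have h2 : LC 20 r (29 / 50) := LC_step (by norm_num) hr hN hU (by norm_num) (by norm_num) hH (a := 11 / 20) (b := 29 / 50) (t := 546 / 625)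
    (c := 4073 / 5000) (by norm_num) (by norm_num) (by norm_num) (by norm_num) (by norm_num) (by norm_num) (by norm_num) (by norm_num)
    h1
  have h3 : LC 20 r (3 / 5) := LC_step (by norm_num) hr hN hU (by norm_num) (by norm_num) hH (a := 29 / 50) (b := 3 / 5) (t := 1133 / 1250)
    (c := 4 / 5) (by norm_num) (by norm_num) (by norm_num) (by norm_num) (by norm_num) (by norm_num) (by norm_num) (by norm_num)
    h2
  have h4 : LC 20 r (31 / 50) := LC_step (by norm_num) hr hN hU (by norm_num) (by norm_num) hH (a := 3 / 5) (b := 31 / 50) (t := 9341 / 10000)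
    (c := 3923 / 5000) (by norm_num) (by norm_num) (by norm_num) (by norm_num) (by norm_num) (by norm_num) (by norm_num) (by norm_num)
    h3
  have h5 : LC 20 r (127 / 200) := LC_step (by norm_num) hr hN hU (by norm_num) (by norm_num) hH (a := 31 / 50) (b := 127 / 200) (t := 1189 / 1250)
    (c := 309 / 400) (by norm_num) (by norm_num) (by norm_num) (by norm_num) (by norm_num) (by norm_num) (by norm_num) (by norm_num)
    h4
  have h6 : LC 20 r (13 / 20) := LC_step (by norm_num) hr hN hU (by norm_num) (by norm_num) hH (a := 127 / 200) (b := 13 / 20) (t := 9649 / 10000)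
    (c := 7599 / 10000) (by norm_num) (by norm_num) (by norm_num) (by norm_num) (by norm_num) (by norm_num) (by norm_num) (by norm_num)
    h5
  have h7 : LC 20 r (2067 / 3125) := LC_step (by norm_num) hr hN hU (by norm_num) (by norm_num) hH (a := 13 / 20) (b := 2067 / 3125) (t := 4867 / 5000)
    (c := 7499 / 10000) (by norm_num) (by norm_num) (by norm_num) (by norm_num) (by norm_num) (by norm_num) (by norm_num) (by norm_num)
    h6
  exact LC_end (by norm_num at h7 ⊢; exact h7)

lemma lc_n21 {r : ℝ → ℝ} (hr : Prof r) (hN : NleB 21 r) : ∀ s ∈ Ioo (0 : ℝ) 1, 3 / 4 ≤ cc s →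
    cc s ≤ 21 / 25 → ll 21 r s ≤ cc s - 17 / 50 := by
  have hp1 := Real.pi_gt_d6
  have hp2 := Real.pi_lt_d6
  have hw1 : 264189 / 500000 ≤ w 21 := by rw [lgw_21]; linarith
  have hw2 : w 20 ≤ 540521 / 1000000 := by rw [lgw_20]; linarith
  have hH : hB 21 0 ≤ 26419 / 100000 := by
    have h := w_eq_two_hB 21
    rw [lgw_21] at h
    linarith
  have hU : ConeUB 21 r (937 / 1250) := by
    refine coneUB_of (T₁ := 37891 / 100000) (by norm_num) hr hN (by norm_num) (by norm_num) ?_ (by norm_num) (by norm_num)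
    calc 89 / 200 * w (21 - 1) ^ 21 ≤ 89 / 200 * (540521 / 1000000) ^ 21 := by
          have := w_pos' 20
          gcongr
      _ ≤ 37891 / 100000 * (264189 / 500000) ^ (21 - 1) := by norm_num
      _ ≤ _ := by gcongr
  have h1 : LC 21 r (57 / 100) := LC_step (by norm_num) hr hN hU (by norm_num) (by norm_num) hH (a := 54257 / 100000) (b := 57 / 100) (t := 4327 / 5000)
    (c := 1027 / 1250) (by norm_num) (by norm_num) (by norm_num) (by norm_num) (by norm_num) (by norm_num) (by norm_num) (by norm_num)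
    LC_start
  have h2 : LC 21 r (59 / 100) := LC_step (by norm_num) hr hN hU (by norm_num) (by norm_num) hH (a := 57 / 100) (b := 59 / 100) (t := 8997 / 10000)
    (c := 4037 / 5000) (by norm_num) (by norm_num) (by norm_num) (by norm_num) (by norm_num) (by norm_num) (by norm_num) (by norm_num)
    h1
  have h3 : LC 21 r (121 / 200) := LC_step (by norm_num) hr hN hU (by norm_num) (by norm_num) hH (a := 59 / 100) (b := 121 / 200) (t := 9223 / 10000)
    (c := 3981 / 5000) (by norm_num) (by norm_num) (by norm_num) (by norm_num) (by norm_num) (by norm_num) (by norm_num) (by norm_num)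
    h2
  have h4 : LC 21 r (31 / 50) := LC_step (by norm_num) hr hN hU (by norm_num) (by norm_num) hH (a := 121 / 200) (b := 31 / 50) (t := 1177 / 1250)
    (c := 3923 / 5000) (by norm_num) (by norm_num) (by norm_num) (by norm_num) (by norm_num) (by norm_num) (by norm_num) (by norm_num)
    h3
  have h5 : LC 21 r (63 / 100) := LC_step (by norm_num) hr hN hU (by norm_num) (by norm_num) hH (a := 31 / 50) (b := 63 / 100) (t := 9527 / 10000)
    (c := 1553 / 2000) (by norm_num) (by norm_num) (by norm_num) (by norm_num) (by norm_num) (by norm_num) (by norm_num) (by norm_num)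
    h4
  have h6 : LC 21 r (16 / 25) := LC_step (by norm_num) hr hN hU (by norm_num) (by norm_num) hH (a := 63 / 100) (b := 16 / 25) (t := 9621 / 10000)
    (c := 7683 / 10000) (by norm_num) (by norm_num) (by norm_num) (by norm_num) (by norm_num) (by norm_num) (by norm_num) (by norm_num)
    h5
  have h7 : LC 21 r (13 / 20) := LC_step (by norm_num) hr hN hU (by norm_num) (by norm_num) hH (a := 16 / 25) (b := 13 / 20) (t := 9701 / 10000)
    (c := 7599 / 10000) (by norm_num) (by norm_num) (by norm_num) (by norm_num) (by norm_num) (by norm_num) (by norm_num) (by norm_num)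
    h6
  have h8 : LC 21 r (2067 / 3125) := LC_step (by norm_num) hr hN hU (by norm_num) (by norm_num) hH (a := 13 / 20) (b := 2067 / 3125) (t := 9777 / 10000)
    (c := 7499 / 10000) (by norm_num) (by norm_num) (by norm_num) (by norm_num) (by norm_num) (by norm_num) (by norm_num) (by norm_num)
    h7
  exact LC_end (by norm_num at h8 ⊢; exact h8)

lemma lc_n22 {r : ℝ → ℝ} (hr : Prof r) (hN : NleB 22 r) : ∀ s ∈ Ioo (0 : ℝ) 1, 3 / 4 ≤ cc s →
    cc s ≤ 21 / 25 → ll 22 r s ≤ cc s - 17 / 50 := by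
  have hp1 := Real.pi_gt_d6
  have hp2 := Real.pi_lt_d6
  have hw1 : 517019 / 1000000 ≤ w 22 := by rw [lgw_22]; linarith
  have hw2 : w 21 ≤ 528379 / 1000000 := by rw [lgw_21]; linarith
  have hH : hB 22 0 ≤ 25851 / 100000 := by
    have h := w_eq_two_hB 22
    rw [lgw_22] at h
    linarith
  have hU : ConeUB 22 r (1887 / 2500) := by
    refine coneUB_of (T₁ := 37113 / 100000) (by norm_num) hr hN (by norm_num) (by norm_num) ?_ (by norm_num) (by norm_num)
    calc 89 / 200 * w (22 - 1) ^ 22 ≤ 89 / 200 * (528379 / 1000000) ^ 22 := by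
          have := w_pos' 21
          gcongr
      _ ≤ 37113 / 100000 * (517019 / 1000000) ^ (22 - 1) := by norm_num
      _ ≤ _ := by gcongr
  have h1 : LC 22 r (113 / 200) := LC_step (by norm_num) hr hN hU (by norm_num) (by norm_num) hH (a := 54257 / 100000) (b := 113 / 200) (t := 4329 / 5000)
    (c := 33 / 40) (by norm_num) (by norm_num) (by norm_num) (by norm_num) (by norm_num) (by norm_num) (by norm_num) (by norm_num)
    LC_start
  have h2 : LC 22 r (117 / 200) := LC_step (by norm_num) hr hN hU (by norm_num) (by norm_num) hH (a := 113 / 200) (b := 117 / 200) (t := 4503 / 5000)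
    (c := 811 / 1000) (by norm_num) (by norm_num) (by norm_num) (by norm_num) (by norm_num) (by norm_num) (by norm_num) (by norm_num)
    h1
  have h3 : LC 22 r (3 / 5) := LC_step (by norm_num) hr hN hU (by norm_num) (by norm_num) hH (a := 117 / 200) (b := 3 / 5) (t := 4617 / 5000)
    (c := 4 / 5) (by norm_num) (by norm_num) (by norm_num) (by norm_num) (by norm_num) (by norm_num) (by norm_num) (by norm_num)
    h2
  have h4 : LC 22 r (61 / 100) := LC_step (by norm_num) hr hN hU (by norm_num) (by norm_num) hH (a := 3 / 5) (b := 61 / 100) (t := 9367 / 10000)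
    (c := 1981 / 2500) (by norm_num) (by norm_num) (by norm_num) (by norm_num) (by norm_num) (by norm_num) (by norm_num) (by norm_num)
    h3
  have h5 : LC 22 r (31 / 50) := LC_step (by norm_num) hr hN hU (by norm_num) (by norm_num) hH (a := 61 / 100) (b := 31 / 50) (t := 1897 / 2000)
    (c := 3923 / 5000) (by norm_num) (by norm_num) (by norm_num) (by norm_num) (by norm_num) (by norm_num) (by norm_num) (by norm_num)
    h4
  have h6 : LC 22 r (157 / 250) := LC_step (by norm_num) hr hN hU (by norm_num) (by norm_num) hH (a := 31 / 50) (b := 157 / 250) (t := 598 / 625)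
    (c := 3891 / 5000) (by norm_num) (by norm_num) (by norm_num) (by norm_num) (by norm_num) (by norm_num) (by norm_num) (by norm_num)
    h5
  have h7 : LC 22 r (159 / 250) := LC_step (by norm_num) hr hN hU (by norm_num) (by norm_num) hH (a := 157 / 250) (b := 159 / 250) (t := 4821 / 5000)
    (c := 1929 / 2500) (by norm_num) (by norm_num) (by norm_num) (by norm_num) (by norm_num) (by norm_num) (by norm_num) (by norm_num)
    h6
  have h8 : LC 22 r (129 / 200) := LC_step (by norm_num) hr hN hU (by norm_num) (by norm_num) hH (a := 159 / 250) (b := 129 / 200) (t := 9713 / 10000)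
    (c := 7641 / 10000) (by norm_num) (by norm_num) (by norm_num) (by norm_num) (by norm_num) (by norm_num) (by norm_num) (by norm_num)
    h7
  have h9 : LC 22 r (163 / 250) := LC_step (by norm_num) hr hN hU (by norm_num) (by norm_num) hH (a := 129 / 200) (b := 163 / 250) (t := 122 / 125)
    (c := 3791 / 5000) (by norm_num) (by norm_num) (by norm_num) (by norm_num) (by norm_num) (by norm_num) (by norm_num) (by norm_num)
    h8
  have h10 : LC 22 r (2067 / 3125) := LC_step (by norm_num) hr hN hU (by norm_num) (by norm_num) hH (a := 163 / 250) (b := 2067 / 3125) (t := 4907 / 5000)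
    (c := 7499 / 10000) (by norm_num) (by norm_num) (by norm_num) (by norm_num) (by norm_num) (by norm_num) (by norm_num) (by norm_num)
    h9
  exact LC_end (by norm_num at h10 ⊢; exact h10)

/-- **case I export**: `l ≤ c - 17/50` on `c ∈ [3/4, 21/25]`, Lean `n = 5, …, 22` -/
theorem ll_le_c {n : ℕ} (h5 : 5 ≤ n) (h22 : n ≤ 22) {r : ℝ → ℝ} (hr : Prof r) (hN : NleB n r) :
    ∀ s ∈ Ioo (0 : ℝ) 1, 3 / 4 ≤ cc s → cc s ≤ 21 / 25 → ll n r s ≤ cc s - 17 / 50 := by
  interval_cases n
  · exact lc_n5 hr hN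
  · exact lc_n6 hr hN
  · exact lc_n7 hr hN
  · exact lc_n8 hr hN
  · exact lc_n9 hr hN
  · exact lc_n10 hr hN
  · exact lc_n11 hr hN
  · exact lc_n12 hr hN
  · exact lc_n13 hr hN
  · exact lc_n14 hr hN
  · exact lc_n15 hr hN
  · exact lc_n16 hr hN
  · exact lc_n17 hr hN
  · exact lc_n18 hr hN
  · exact lc_n19 hr hN
  · exact lc_n20 hr hN
  · exact lc_n21 hr hN
  · exact lc_n22 hr hN

end LExp

end Crest.Agent.R230
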