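import Crest.Agent.R230.LPath

/-!
# Row 230: integrabilities for the logarithmic path
-/

set_option autoImplicit false

open MeasureTheory Set Filter Topology
open scoped Pointwise ENNReal

namespace Crest.Agent.R230

/-- `1/c` is integrable on `[0,1]` -/
lemma intervalIntegrable_inv_cc : IntervalIntegrable (fun s => (cc s)⁻¹) volume 0 1 := by
  have h := intervalIntegral.integrableOn_deriv_of_nonneg (g := Real.arcsin) (a := 0) (b := 1)
    (g' := fun s => (cc s)⁻¹) Real.continuous_arcsin.continuousOn ?_ ?_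
  · rw [intervalIntegrable_iff_integrableOn_Ioc_of_le (by norm_num)]
    exact h
  · intro x hx
    have := Real.hasDerivAt_arcsin (x := x) (by linarith [hx.1]) hx.2.ne
    refine this.congr_deriv ?_
    unfold cc
    rw [one_div]
  · intro x _
    exact inv_nonneg.2 (cc_nonneg _)

section

variable {r : ℝ → ℝ} (hr : Prof r) (n : ℕ)
include hr

lemma intervalIntegrable_dtau : IntervalIntegrable (dtau n r) volume (-1) 1 := by
  rw [intervalIntegrable_iff_integrableOn_Ioc_of_le (by norm_num)]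
  exact intervalIntegral.integrableOn_deriv_of_nonneg (tau_continuous hr n).continuousOn
    (fun x hx => hasDerivAt_tau hr n hx) (fun x hx => (dtau_pos hr n hx).le)

lemma intervalIntegrable_dtau_half : IntervalIntegrable (dtau n r) volume 0 1 :=
  (intervalIntegrable_dtau hr n).mono_set (by
    rw [uIcc_of_le (by norm_num), uIcc_of_le (by norm_num)]; exact Icc_subset_Icc_left (by norm_num))

lemma measurable_dtau_half : AEStronglyMeasurable (dtau n r) (volume.restrict (Ioo 0 1)) :=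
  ((continuousOn_dtau hr n).mono (Ioo_subset_Ioo_left (by norm_num))).aestronglyMeasurable
    measurableSet_Ioo

/-- continuous times `k` -/
lemma intervalIntegrable_mul_kk {g : ℝ → ℝ} (hg : ContinuousOn g (Icc 0 1)) :
    IntervalIntegrable (fun s => g s * kk n r s) volume 0 1 := by
  have hl := continuousOn_ll hr n
  have h1 : IntervalIntegrable (fun s => (g s * Real.exp (-ll n r s)) * dtau n r s) volume 0 1 := by
    refine (intervalIntegrable_dtau_half hr n).continuousOn_mul ?_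
    rw [uIcc_of_le zero_le_one]
    exact hg.mul (hl.neg.rexp)
  have h2 : IntervalIntegrable g volume 0 1 := hg.intervalIntegrable_of_Icc zero_le_one
  refine (h1.sub h2).congr_ae ?_
  rw [uIoc_of_le (by norm_num), ← restrict_Ioo_eq_restrict_Ioc, EventuallyEq,
    ae_restrict_iff' measurableSet_Ioo]
  refine Eventually.of_forall fun s hs => ?_
  have h3 := dtau_eq hr n hs
  rw [h3, Real.exp_neg]
  have := Real.exp_ne_zero (ll n r s)
  field_simp
  ring

/-- `1/κ = e^l (w/mom) r(T)^n / c^n` -/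
lemma inv_one_add_kk {s : ℝ} (hs : s ∈ Ioo (0 : ℝ) 1) :
    cc s ^ n * (1 + kk n r s)⁻¹ = w n / mom n r * (Real.exp (ll n r s) * r (tau n r s) ^ n) := by
  have hs' : s ∈ Ioo (-1 : ℝ) 1 := ⟨by linarith [hs.1], hs.2⟩
  have h1 := pow_mul_dtau hr n hs'
  have h2 := dtau_eq hr n hs
  have h3 := one_add_kk_pos hr n hs
  have hm := (hr.mom_pos' n).ne'
  have hw := (w_pos' n).ne'
  rw [h2] at h1
  have h4 : cc s ^ n = w n / mom n r * (Real.exp (ll n r s) * (1 + kk n r s) * r (tau n r s) ^ n) := by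
    rw [h1]
    unfold cc
    field_simp
  rw [h4]
  field_simp

lemma continuousOn_r_tau : ContinuousOn (fun s => r (tau n r s)) (Icc 0 1) :=
  hr.cont.comp (tau_continuous hr n).continuousOn fun s hs =>
    tau_mem_Icc hr n ⟨by linarith [hs.1], hs.2⟩

/-- continuous times `c^{n-1}/κ` -/
lemma intervalIntegrable_inv_kk (hn : 1 ≤ n) {g : ℝ → ℝ} (hg : ContinuousOn g (Icc 0 1)) :
    IntervalIntegrable (fun s => g s * (cc s ^ (n - 1) * (1 + kk n r s)⁻¹)) volume 0 1 := by
  have hl := continuousOn_ll hr n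
  have h1 : IntervalIntegrable (fun s => (g s * (w n / mom n r * (Real.exp (ll n r s) *
      r (tau n r s) ^ n))) * (cc s)⁻¹) volume 0 1 := by
    refine intervalIntegrable_inv_cc.continuousOn_mul ?_
    rw [uIcc_of_le zero_le_one]
    exact hg.mul (continuousOn_const.mul (hl.rexp.mul ((continuousOn_r_tau hr n).pow n)))
  refine h1.congr_ae ?_
  rw [uIoc_of_le (by norm_num), ← restrict_Ioo_eq_restrict_Ioc, EventuallyEq,
    ae_restrict_iff' measurableSet_Ioo]
  refine Eventually.of_forall fun s hs => ?_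
  have h3 := inv_one_add_kk hr n hs
  have hc := cc_pos (t := s) ⟨by linarith [hs.1], hs.2⟩
  rw [← h3]
  have : cc s ^ n = cc s ^ (n - 1) * cc s := by rw [← pow_succ, Nat.sub_add_cancel hn]
  rw [this]
  field_simp

/-- bound `s |l| r(T)^n ≤ C c²` -/
lemma exists_ll_pow_bound : ∃ M : ℝ, 0 < M ∧ ∀ s ∈ Icc (0 : ℝ) 1,
    s * |ll n r s| * r (tau n r s) ^ n ≤ M * cc s ^ 2 := by
  obtain ⟨M, hM, h⟩ := exists_ll_bound' hr n
  set C : ℝ := ((n : ℝ) + 1) * (mom n r / w n) with hC
  have hm := hr.mom_pos' n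
  have hw := w_pos' n
  have hC0 : 0 < C := by positivity
  have hr0 : 0 < r 0 := hr.pos 0 (by norm_num)
  refine ⟨M * (r 0 ^ n + C), by positivity, fun s hs => ?_⟩
  have h1 := h s hs
  have hrt : 0 ≤ r (tau n r s) := by
    have := tau_mem_half' hr n hs
    exact hr.nonneg' ⟨by linarith [this.1], this.2⟩
  have hrp : 0 ≤ r (tau n r s) ^ n := pow_nonneg hrt n
  have h2 := pow_tau_mul_le hr n hs
  have h3 : cc s ^ (n + 2) ≤ cc s ^ 2 := by
    rw [pow_add]
    have := pow_le_one₀ (n := n) (cc_nonneg s) (cc_le_one s)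
    have h4 : 0 ≤ cc s ^ 2 := sq_nonneg _
    nlinarith
  have h4 := one_sub_le_cc_sq hs
  have h5 : r (tau n r s) ^ n ≤ r 0 ^ n :=
    pow_le_pow_left₀ hrt (r_le_r0 hr (tau_mem_half' hr n hs)) n
  have h6 : (1 - s) * r (tau n r s) ^ n ≤ cc s ^ 2 * r 0 ^ n :=
    mul_le_mul h4 h5 hrp (sq_nonneg _)
  have h7 : r (tau n r s) ^ n * (1 - tau n r s) ≤ C * cc s ^ 2 :=
    h2.trans (mul_le_mul_of_nonneg_left h3 hC0.le)
  calc s * |ll n r s| * r (tau n r s) ^ n ≤ (M * ((1 - s) + (1 - tau n r s))) * r (tau n r s) ^ n :=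
        mul_le_mul_of_nonneg_right h1 hrp
    _ = M * ((1 - s) * r (tau n r s) ^ n + r (tau n r s) ^ n * (1 - tau n r s)) := by ring
    _ ≤ M * (cc s ^ 2 * r 0 ^ n + C * cc s ^ 2) :=
        mul_le_mul_of_nonneg_left (add_le_add h6 h7) hM.le
    _ = _ := by ring

omit hr in
lemma measurable_of_Ioo {f : ℝ → ℝ} (hf : ContinuousOn f (Ioo 0 1)) :
    AEStronglyMeasurable f (volume.restrict (Ioo 0 1)) := hf.aestronglyMeasurable measurableSet_Ioo

lemma continuousOn_kk : ContinuousOn (kk n r) (Ioo 0 1) := by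
  unfold kk
  refine ContinuousOn.sub (ContinuousOn.div (continuousOn_id.mul
    ((continuousOn_dtau hr n).mono (Ioo_subset_Ioo_left (by norm_num))))
    (tau_continuous hr n).continuousOn ?_) continuousOn_const
  intro s hs
  exact (tau_pos hr n ⟨hs.1, hs.2.le⟩).ne'

/-- continuous times `s c^{n-3} l / κ` -/
lemma intervalIntegrable_l_inv_kk (hn : 3 ≤ n) {g : ℝ → ℝ} (hg : ContinuousOn g (Icc 0 1)) :
    IntervalIntegrable (fun s => g s * (s * cc s ^ (n - 3) * ll n r s * (1 + kk n r s)⁻¹))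
      volume 0 1 := by
  have hl := continuousOn_ll hr n
  obtain ⟨M, hM, hb⟩ := exists_ll_pow_bound hr n
  obtain ⟨L, hL, hLb⟩ := exists_ll_bound hr n
  obtain ⟨G, hG⟩ := isCompact_Icc.exists_bound_of_continuousOn hg
  have hm := hr.mom_pos' n
  have hw := w_pos' n
  rw [intervalIntegrable_iff_integrableOn_Ioo_of_le (by norm_num)]
  have hdom : IntegrableOn (fun s => (G * (w n / mom n r * Real.exp L * M)) * (cc s)⁻¹) (Ioo 0 1) := by
    have := intervalIntegrable_inv_cc
    rw [intervalIntegrable_iff_integrableOn_Ioo_of_le (by norm_num)] at this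
    exact this.const_mul _
  refine hdom.mono' ?_ ?_
  · refine ContinuousOn.aestronglyMeasurable ?_ measurableSet_Ioo
    have hcc : ContinuousOn (fun s => cc s) (Ioo 0 1) := cc_continuous.continuousOn
    refine (hg.mono Ioo_subset_Icc_self).mul (ContinuousOn.mul (ContinuousOn.mul
      (continuousOn_id.mul (hcc.pow _)) (hl.mono Ioo_subset_Icc_self)) ?_)
    exact (continuousOn_const.add (continuousOn_kk hr n)).inv₀ fun s hs =>
      (one_add_kk_pos hr n hs).ne'
  · rw [ae_restrict_iff' measurableSet_Ioo]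
    refine Eventually.of_forall fun s hs => ?_
    have hs' : s ∈ Icc (0 : ℝ) 1 := ⟨hs.1.le, hs.2.le⟩
    have hc := cc_pos (t := s) ⟨by linarith [hs.1], hs.2⟩
    have h3 := inv_one_add_kk hr n hs
    have hk := one_add_kk_pos hr n hs
    have hrt : 0 ≤ r (tau n r s) := by
      have := tau_mem_half' hr n hs'
      exact hr.nonneg' ⟨by linarith [this.1], this.2⟩
    have e1 : s * cc s ^ (n - 3) * ll n r s * (1 + kk n r s)⁻¹ =
        (cc s ^ n * (1 + kk n r s)⁻¹) * (s * ll n r s) / cc s ^ 3 := by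
      have : cc s ^ n = cc s ^ (n - 3) * cc s ^ 3 := by rw [← pow_add, Nat.sub_add_cancel hn]
      rw [this]
      field_simp
    rw [norm_mul]
    have hgs := hG s hs'
    rw [e1, h3]
    have h4 : ‖w n / mom n r * (Real.exp (ll n r s) * r (tau n r s) ^ n) * (s * ll n r s) / cc s ^ 3‖ ≤
        w n / mom n r * Real.exp L * M * (cc s)⁻¹ := by
      rw [norm_div, Real.norm_eq_abs, Real.norm_eq_abs, abs_of_pos (pow_pos hc 3), div_le_iff₀ (pow_pos hc 3)]
      rw [abs_mul, abs_mul s, abs_of_nonneg hs.1.le]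
      rw [abs_of_nonneg (by positivity)]
      have h5 : Real.exp (ll n r s) ≤ Real.exp L := Real.exp_le_exp.2 ((le_abs_self _).trans (hLb s hs'))
      have h6 := hb s hs'
      calc w n / mom n r * (Real.exp (ll n r s) * r (tau n r s) ^ n) * (s * |ll n r s|)
          = w n / mom n r * Real.exp (ll n r s) * (s * |ll n r s| * r (tau n r s) ^ n) := by ring
        _ ≤ w n / mom n r * Real.exp L * (M * cc s ^ 2) := by
            refine mul_le_mul (mul_le_mul_of_nonneg_left h5 (by positivity)) h6 ?_ (by positivity)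
            have := abs_nonneg (ll n r s)
            have := hs.1.le
            positivity
        _ = w n / mom n r * Real.exp L * M * (cc s)⁻¹ * cc s ^ 3 := by field_simp
    have hG0 : 0 ≤ G := (norm_nonneg _).trans hgs
    calc ‖g s‖ * ‖w n / mom n r * (Real.exp (ll n r s) * r (tau n r s) ^ n) * (s * ll n r s) / cc s ^ 3‖
        ≤ G * (w n / mom n r * Real.exp L * M * (cc s)⁻¹) :=
          mul_le_mul hgs h4 (norm_nonneg _) hG0
      _ = _ := by ring

/-- `k²` is integrable against `c^{n-1}`, `n ≥ 5` -/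
lemma intervalIntegrable_kk_sq (hn : 5 ≤ n) {g : ℝ → ℝ} (hg : ContinuousOn g (Icc 0 1)) :
    IntervalIntegrable (fun s => g s * (cc s ^ (n - 1) * kk n r s ^ 2)) volume 0 1 := by
  obtain ⟨L, hL, hLb⟩ := exists_ll_bound hr n
  obtain ⟨G, hG⟩ := isCompact_Icc.exists_bound_of_continuousOn hg
  rw [intervalIntegrable_iff_integrableOn_Ioo_of_le (by norm_num)]
  set D : ℝ := Real.exp L * ((n : ℝ) / 2 + 1) + 1 with hD
  have hD0 : 0 < D := by positivity
  have hdom : IntegrableOn (fun _ : ℝ => G * (4 * D ^ 2)) (Ioo 0 1) :=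
    integrableOn_const (by simp)
  refine hdom.mono' ?_ ?_
  · refine ContinuousOn.aestronglyMeasurable ?_ measurableSet_Ioo
    have hcc : ContinuousOn (fun s => cc s) (Ioo 0 1) := cc_continuous.continuousOn
    exact (hg.mono Ioo_subset_Icc_self).mul ((hcc.pow _).mul ((continuousOn_kk hr n).pow 2))
  · rw [ae_restrict_iff' measurableSet_Ioo]
    refine Eventually.of_forall fun s hs => ?_
    have hs' : s ∈ Icc (0 : ℝ) 1 := ⟨hs.1.le, hs.2.le⟩
    have hc := cc_pos (t := s) ⟨by linarith [hs.1], hs.2⟩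
    have hk := one_add_kk_pos hr n hs
    have hgs := hG s hs'
    have h1 := dtau_mul_one_sub_le hr (n := n) (by omega) (s := s) ⟨hs.1.le, hs.2⟩
    have h2 := dtau_eq hr n hs
    have hT := tau_mem_half' hr n hs'
    have h1s : 0 < 1 - s := by linarith [hs.2]
    -- |k| (1-s) ≤ D
    have h3 : (1 + kk n r s) * (1 - s) ≤ Real.exp L * ((n : ℝ) / 2 + 1) := by
      have e : 1 + kk n r s = Real.exp (-ll n r s) * dtau n r s := by
        rw [h2, Real.exp_neg]
        have := Real.exp_ne_zero (ll n r s)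
        field_simp
      rw [e, mul_assoc]
      have h5 : Real.exp (-ll n r s) ≤ Real.exp L :=
        Real.exp_le_exp.2 ((neg_le_abs _).trans (hLb s hs'))
      have h6 : dtau n r s * (1 - s) ≤ (n : ℝ) / 2 + 1 := by
        refine h1.trans ?_
        have : (0 : ℝ) ≤ (n : ℝ) / 2 + 1 := by positivity
        nlinarith [hT.1]
      have hd := dtau_pos hr n (s := s) ⟨by linarith [hs.1], hs.2⟩
      exact mul_le_mul h5 h6 (mul_nonneg hd.le h1s.le) (Real.exp_pos _).le
    have h4 : |kk n r s * (1 - s)| ≤ D := by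
      rw [abs_le]
      constructor
      · have : -1 ≤ kk n r s * (1 - s) := by nlinarith [mul_pos hk h1s, hs.1]
        have : (1 : ℝ) ≤ D := by rw [hD]; linarith [mul_nonneg (Real.exp_pos L).le (by positivity : (0 : ℝ) ≤ (n : ℝ) / 2 + 1)]
        linarith
      · nlinarith
    have h5 : cc s ^ (n - 1) ≤ 4 * (1 - s) ^ 2 := by
      have e : cc s ^ (n - 1) = cc s ^ 4 * cc s ^ (n - 5) := by
        rw [← pow_add]; congr 1; omega
      have e2 : cc s ^ 4 = (1 - s) ^ 2 * (1 + s) ^ 2 := by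
        have : cc s ^ 4 = (cc s ^ 2) ^ 2 := by ring
        rw [this, cc_sq ⟨by linarith [hs.1], hs.2.le⟩]
        ring
      have h6 := pow_le_one₀ (n := n - 5) (cc_nonneg s) (cc_le_one s)
      have h7 : 0 ≤ cc s ^ 4 := pow_nonneg hc.le 4
      have h8 : (1 + s) ^ 2 ≤ 4 := by nlinarith [hs.1, hs.2]
      rw [e]
      calc cc s ^ 4 * cc s ^ (n - 5) ≤ cc s ^ 4 * 1 := mul_le_mul_of_nonneg_left h6 h7
        _ = (1 - s) ^ 2 * (1 + s) ^ 2 := by rw [mul_one, e2]
        _ ≤ (1 - s) ^ 2 * 4 := mul_le_mul_of_nonneg_left h8 (sq_nonneg _)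
        _ = _ := by ring
    rw [norm_mul]
    have h6 : ‖cc s ^ (n - 1) * kk n r s ^ 2‖ ≤ 4 * D ^ 2 := by
      rw [Real.norm_eq_abs, abs_of_nonneg (by positivity)]
      calc cc s ^ (n - 1) * kk n r s ^ 2 ≤ 4 * (1 - s) ^ 2 * kk n r s ^ 2 :=
            mul_le_mul_of_nonneg_right h5 (sq_nonneg _)
        _ = 4 * |kk n r s * (1 - s)| ^ 2 := by rw [sq_abs]; ring
        _ ≤ 4 * D ^ 2 := by
            have := pow_le_pow_left₀ (abs_nonneg _) h4 2
            linarith
    have hG0 : 0 ≤ G := (norm_nonneg _).trans hgs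
    exact mul_le_mul hgs h6 (norm_nonneg _) hG0

/-- `c^{n-1} T'^{1/n}` is integrable on `[-1,1]` -/
lemma intervalIntegrable_dtau_rpow (hn : 1 ≤ n) {g : ℝ → ℝ} (hg : Continuous g) :
    IntervalIntegrable (fun s => g s * dtau n r s ^ ((1 : ℝ) / n)) volume (-1) 1 := by
  have h1 := intervalIntegrable_dtau hr n
  have h2 : IntervalIntegrable (fun s => g s * (1 + dtau n r s)) volume (-1) 1 :=
    (intervalIntegrable_const.add h1).continuousOn_mul hg.continuousOn
  rw [intervalIntegrable_iff_integrableOn_Ioo_of_le (by norm_num)] at h2 ⊢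
  refine MeasureTheory.Integrable.mono h2 ?_ ?_
  · refine ContinuousOn.aestronglyMeasurable ?_ measurableSet_Ioo
    refine hg.continuousOn.mul ?_
    exact (continuousOn_dtau hr n).rpow_const fun s hs => Or.inl (dtau_pos hr n hs).ne'
  · rw [ae_restrict_iff' measurableSet_Ioo]
    refine Eventually.of_forall fun s hs => ?_
    have hd := dtau_pos hr n hs
    rw [norm_mul, norm_mul]
    refine mul_le_mul_of_nonneg_left ?_ (norm_nonneg _)
    rw [Real.norm_eq_abs, Real.norm_eq_abs, abs_of_nonneg (Real.rpow_nonneg hd.le _),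
      abs_of_pos (by linarith)]
    have hn0 : (0 : ℝ) < n := by exact_mod_cast hn
    have hn1 : (1 : ℝ) / n ≤ 1 := by
      rw [div_le_one hn0]; exact_mod_cast hn
    rcases le_total (dtau n r s) 1 with h | h
    · have := Real.rpow_le_one hd.le h (by positivity : (0 : ℝ) ≤ 1 / n)
      linarith
    · have := Real.rpow_le_rpow_of_exponent_le h hn1
      rw [Real.rpow_one] at this
      linarith

/-- `(1-T)/c → 0` at `1` -/
lemma tendsto_one_sub_tau_div : Tendsto (fun s => (1 - tau n r s) / cc s) (𝓝[<] 1) (𝓝 0) := by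
  have hm := hr.mom_pos' n
  have hw := w_pos' n
  have hr0 : 0 < r 0 := hr.pos 0 (by norm_num)
  set C : ℝ := (((n : ℝ) + 1) * (mom n r / w n)) / r 0 ^ n with hC
  have hC0 : 0 < C := by positivity
  -- ((1-T)/c)^{n+1} ≤ C c
  have hcc : Tendsto (fun s => C * cc s) (𝓝[<] 1) (𝓝 0) := by
    have h1 : Continuous fun s => C * cc s := continuous_const.mul cc_continuous
    have h2 := h1.tendsto 1
    have e : C * cc 1 = 0 := by unfold cc; simp
    rw [e] at h2
    exact h2.mono_left nhdsWithin_le_nhds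
  have hroot : Tendsto (fun s => (C * cc s) ^ ((1 : ℝ) / (n + 1 : ℕ))) (𝓝[<] 1) (𝓝 0) := by
    have hpos : (0 : ℝ) < (1 : ℝ) / (n + 1 : ℕ) := by positivity
    have h1 := (Real.continuousAt_rpow_const 0 ((1 : ℝ) / (n + 1 : ℕ)) (Or.inr hpos.le)).tendsto.comp hcc
    rw [Real.zero_rpow hpos.ne'] at h1
    exact h1
  refine tendsto_of_tendsto_of_tendsto_of_le_of_le' tendsto_const_nhds hroot ?_ ?_
  · filter_upwards [Ioo_mem_nhdsLT (show (0 : ℝ) < 1 by norm_num)] with s hs
    have := tau_mem_half' hr n (s := s) ⟨hs.1.le, hs.2.le⟩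
    exact div_nonneg (by linarith [this.2]) (cc_nonneg _)
  · filter_upwards [Ioo_mem_nhdsLT (show (0 : ℝ) < 1 by norm_num)] with s hs
    have hs' : s ∈ Icc (0 : ℝ) 1 := ⟨hs.1.le, hs.2.le⟩
    have hc := cc_pos (t := s) ⟨by linarith [hs.1], hs.2⟩
    have hT := tau_mem_half' hr n hs'
    have h1 := one_sub_tau_pow_le hr n hs'
    have h2 : 0 ≤ (1 - tau n r s) / cc s := div_nonneg (by linarith [hT.2]) hc.le
    have h3 : ((1 - tau n r s) / cc s) ^ (n + 1) ≤ C * cc s := by
      rw [div_pow, div_le_iff₀ (pow_pos hc _), hC]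
      have e : (((n : ℝ) + 1) * (mom n r / w n)) / r 0 ^ n * cc s * cc s ^ (n + 1) =
          ((((n : ℝ) + 1) * (mom n r / w n)) * cc s ^ (n + 2)) / r 0 ^ n := by
        rw [pow_succ (cc s) (n + 1)]; ring
      rw [e, le_div_iff₀ (pow_pos hr0 n)]
      linarith
    have h4 : (1 - tau n r s) / cc s = (((1 - tau n r s) / cc s) ^ (n + 1)) ^ ((1 : ℝ) / (n + 1 : ℕ)) := by
      rw [one_div, Real.pow_rpow_inv_natCast h2 (by omega)]
    rw [h4]
    exact Real.rpow_le_rpow (pow_nonneg h2 _) h3 (by positivity)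

/-- `l/c → 0` at `1` -/
lemma tendsto_ll_div : Tendsto (fun s => ll n r s / cc s) (𝓝[<] 1) (𝓝 0) := by
  obtain ⟨M, hM, h⟩ := exists_ll_bound' hr n
  have h1 : Tendsto (fun s => 2 * M * (cc s + (1 - tau n r s) / cc s)) (𝓝[<] 1) (𝓝 0) := by
    have h2 : Tendsto (fun s => cc s) (𝓝[<] 1) (𝓝 0) := by
      have h3 := cc_continuous.tendsto 1
      have e : cc 1 = 0 := by unfold cc; simp
      rw [e] at h3
      exact h3.mono_left nhdsWithin_le_nhds
    have := (h2.add (tendsto_one_sub_tau_div hr n)).const_mul (2 * M)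
    simpa using this
  refine squeeze_zero_norm' ?_ h1
  filter_upwards [Ioo_mem_nhdsLT (show (1 / 2 : ℝ) < 1 by norm_num)] with s hs
  have hs' : s ∈ Icc (0 : ℝ) 1 := ⟨by linarith [hs.1], hs.2.le⟩
  have hc := cc_pos (t := s) ⟨by linarith [hs.1], hs.2⟩
  have h2 := h s hs'
  have h3 := one_sub_le_cc_sq hs'
  have hT := tau_mem_half' hr n hs'
  rw [norm_div, Real.norm_eq_abs, Real.norm_eq_abs, abs_of_pos hc, div_le_iff₀ hc]
  have h4 : |ll n r s| ≤ 2 * (s * |ll n r s|) := by
    have := abs_nonneg (ll n r s)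
    nlinarith [hs.1]
  have h5 : 2 * M * (cc s + (1 - tau n r s) / cc s) * cc s =
      2 * (M * (cc s ^ 2 + (1 - tau n r s))) := by
    field_simp
  rw [h5]
  have h6 : M * ((1 - s) + (1 - tau n r s)) ≤ M * (cc s ^ 2 + (1 - tau n r s)) :=
    mul_le_mul_of_nonneg_left (by linarith) hM.le
  linarith

end

end Crest.Agent.R230
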