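import Crest.Agent.R230.DefsE

/-!
Integration by parts against `r^n` for concave profiles.
-/

set_option autoImplicit false

open MeasureTheory Set Filter Topology
open scoped Pointwise ENNReal

namespace Crest.Agent.R230

/-- right derivative of a concave profile -/
noncomputable def rd (r : ℝ → ℝ) (s : ℝ) : ℝ := -derivWithin (fun x => -r x) (Ioi s) s

namespace Prof

variable {r : ℝ → ℝ} (hr : Prof r)
include hr

lemma hasRightDeriv {s : ℝ} (hs : s ∈ Ioo (-1 : ℝ) 1) : HasDerivWithinAt r (rd r s) (Ioi s) s := by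
  have hcv : ConvexOn ℝ (Icc (-1) 1) (fun x => -r x) := hr.conc.neg
  have h := hcv.hasDerivWithinAt_rightDeriv_of_mem_interior (x := s) (by rwa [interior_Icc])
  have h2 := h.neg
  unfold rd
  refine h2.congr (fun x _ => by simp) (by simp)

lemma monotoneOn_left : MonotoneOn r (Icc (-1) 0) := by
  intro a ha b hb hab
  rcases ha.2.eq_or_lt with h0 | h0
  · have : b = a := le_antisymm (hb.2.trans h0.ge) hab
    rw [this]
  have ha1 : a ∈ Icc (-1 : ℝ) 1 := ⟨ha.1, by linarith [ha.2]⟩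
  have hma : -a ∈ Icc (-1 : ℝ) 1 := ⟨by linarith, by linarith [ha.1]⟩
  have ha' : 0 < -2 * a := by linarith
  have hane : a ≠ 0 := h0.ne
  have hc' := hr.conc.2
  have hc := hc' ha1 hma (a := (b + a) / (2 * a)) (b := (b - a) / (-2 * a))
    (div_nonneg_of_nonpos (by linarith [hb.2]) (by linarith)) (div_nonneg (by linarith) ha'.le)
    (by field_simp; ring)
  rw [hr.even a ha1] at hc
  simp only [smul_eq_mul] at hc
  have e1 : (b + a) / (2 * a) * a + (b - a) / (-2 * a) * -a = b := by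
    field_simp; ring
  have e2 : (b + a) / (2 * a) * r a + (b - a) / (-2 * a) * r a = r a := by
    field_simp; ring
  rw [e1, e2] at hc
  exact hc

lemma antitoneOn_right : AntitoneOn r (Icc 0 1) := by
  intro a ha b hb hab
  have h := hr.monotoneOn_left (a := -b) (b := -a) ⟨by linarith [hb.2], by linarith [hb.1]⟩
    ⟨by linarith [ha.2], by linarith [ha.1]⟩ (by linarith)
  rwa [hr.even b ⟨by linarith [hb.1], hb.2⟩, hr.even a ⟨by linarith [ha.1], ha.2⟩] at h

lemma nonneg' {s : ℝ} (hs : s ∈ Icc (-1 : ℝ) 1) : 0 ≤ r s := by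
  have h1 : closure (Ioo (-1 : ℝ) 1) = Icc (-1) 1 := closure_Ioo (by norm_num)
  have h2 : ContinuousWithinAt r (Ioo (-1) 1) s := (hr.cont s hs).mono Ioo_subset_Icc_self
  have h3 : s ∈ closure (Ioo (-1 : ℝ) 1) := by rw [h1]; exact hs
  have : (𝓝[Ioo (-1 : ℝ) 1] s).NeBot := mem_closure_iff_nhdsWithin_neBot.1 h3
  refine ge_of_tendsto h2 ?_
  filter_upwards [self_mem_nhdsWithin] with x hx
  exact (hr.pos x hx).le

lemma ae_deriv_eq : ∀ᵐ s, s ∈ Ioo (-1 : ℝ) 1 → deriv r s = rd r s := by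
  have h1 := hr.monotoneOn_left.ae_differentiableWithinAt_of_mem
  have h2 : ∀ᵐ x, x ∈ Icc (0 : ℝ) 1 → DifferentiableWithinAt ℝ r (Icc 0 1) x := by
    have h3 : MonotoneOn (fun x => -r x) (Icc (0 : ℝ) 1) := hr.antitoneOn_right.neg
    filter_upwards [h3.ae_differentiableWithinAt_of_mem] with x hx hx2
    have := (hx hx2).neg
    simpa using this
  filter_upwards [h1, h2, Measure.ae_ne volume (0 : ℝ)] with s h1 h2 h0 hs
  have hd : DifferentiableAt ℝ r s := by
    rcases lt_or_gt_of_ne h0 with h | h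
    · exact (h1 ⟨hs.1.le, h.le⟩).differentiableAt (Icc_mem_nhds hs.1 h)
    · exact (h2 ⟨h.le, hs.2.le⟩).differentiableAt (Icc_mem_nhds h hs.2)
  have h3 := hd.hasDerivAt.hasDerivWithinAt (s := Ioi s)
  exact (uniqueDiffWithinAt_Ioi s).eq_deriv _ h3 (hr.hasRightDeriv hs)

lemma rd_nonneg {s : ℝ} (hs : s ∈ Ioo (-1 : ℝ) 0) : 0 ≤ rd r s := by
  have h := hr.hasRightDeriv (s := s) ⟨hs.1, by linarith [hs.2]⟩
  rw [hasDerivWithinAt_iff_tendsto_slope' (by simp)] at h
  refine ge_of_tendsto h ?_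
  filter_upwards [Ioo_mem_nhdsGT hs.2] with x hx
  rw [slope_def_field]
  refine div_nonneg ?_ (by linarith [hx.1])
  rw [sub_nonneg]
  exact hr.monotoneOn_left ⟨hs.1.le, hs.2.le⟩ ⟨by linarith [hs.1, hx.1], hx.2.le⟩ hx.1.le

lemma rd_nonpos {s : ℝ} (hs : s ∈ Ioo (0 : ℝ) 1) : rd r s ≤ 0 := by
  have h := hr.hasRightDeriv (s := s) ⟨by linarith [hs.1], hs.2⟩
  rw [hasDerivWithinAt_iff_tendsto_slope' (by simp)] at h
  refine le_of_tendsto h ?_
  filter_upwards [Ioo_mem_nhdsGT hs.2] with x hx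
  rw [slope_def_field]
  refine div_nonpos_of_nonpos_of_nonneg ?_ (by linarith [hx.1])
  rw [sub_nonpos]
  exact hr.antitoneOn_right ⟨hs.1.le, hs.2.le⟩ ⟨by linarith [hs.1, hx.1], hx.2.le⟩ hx.1.le

lemma intervalIntegrable_rd : IntervalIntegrable (rd r) volume (-1) 1 := by
  have h1 : IntervalIntegrable (rd r) volume (-1) 0 := by
    rw [intervalIntegrable_iff_integrableOn_Ioc_of_le (by norm_num)]
    exact intervalIntegral.integrableOn_deriv_right_of_nonneg
      (hr.cont.mono (Icc_subset_Icc_right (by norm_num)))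
      (fun x hx => hr.hasRightDeriv ⟨hx.1, by linarith [hx.2]⟩) (fun x hx => hr.rd_nonneg hx)
  have h2 : IntervalIntegrable (rd r) volume 0 1 := by
    rw [intervalIntegrable_iff_integrableOn_Ioc_of_le (by norm_num)]
    have := intervalIntegral.integrableOn_deriv_right_of_nonneg (g := fun x => -r x)
      (g' := fun x => -rd r x) (a := 0) (b := 1)
      (hr.cont.mono (Icc_subset_Icc_left (by norm_num))).neg
      (fun x hx => (hr.hasRightDeriv ⟨by linarith [hx.1], hx.2⟩).neg)
      (fun x hx => by have := hr.rd_nonpos hx; linarith)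
    simpa using this.neg
  exact h1.trans h2

lemma intervalIntegrable_mul_rd {u : ℝ → ℝ} (hu : ContinuousOn u (Icc (-1) 1)) :
    IntervalIntegrable (fun s => u s * rd r s) volume (-1) 1 := by
  refine hr.intervalIntegrable_rd.continuousOn_mul ?_
  rw [uIcc_of_le (by norm_num)]
  exact hu

lemma intervalIntegrable_mul_deriv {u : ℝ → ℝ} (hu : ContinuousOn u (Icc (-1) 1)) :
    IntervalIntegrable (fun s => u s * deriv r s) volume (-1) 1 := by
  refine (hr.intervalIntegrable_mul_rd hu).congr_ae ?_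
  rw [uIoc_of_le (by norm_num), ← restrict_Ioo_eq_restrict_Ioc, EventuallyEq,
    ae_restrict_iff' measurableSet_Ioo]
  filter_upwards [hr.ae_deriv_eq] with s h1 h2
  rw [h1 h2]

lemma integral_deriv_eq (u : ℝ → ℝ) :
    ∫ s in (-1 : ℝ)..1, u s * deriv r s = ∫ s in (-1 : ℝ)..1, u s * rd r s := by
  rw [intervalIntegral.integral_of_le (by norm_num), intervalIntegral.integral_of_le (by norm_num),
    integral_Ioc_eq_integral_Ioo, integral_Ioc_eq_integral_Ioo]
  refine setIntegral_congr_ae measurableSet_Ioo ?_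
  filter_upwards [hr.ae_deriv_eq] with s h1 h2
  rw [h1 h2]

/-- integration by parts -/
theorem ibp {n : ℕ} {u u' : ℝ → ℝ} (hu : ContinuousOn u (Icc (-1) 1))
    (hu' : ∀ t ∈ Ioo (-1 : ℝ) 1, HasDerivAt u (u' t) t)
    (hi : IntervalIntegrable (fun t => r t ^ n * u' t) volume (-1) 1) :
    n * (∫ s in (-1 : ℝ)..1, (r s ^ (n - 1) * u s) * deriv r s) + ∫ s in (-1 : ℝ)..1, r s ^ n * u' s
      = (u 1 - u (-1)) * r 1 ^ n := by
  rw [hr.integral_deriv_eq, ← intervalIntegral.integral_const_mul]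
  have hi1 : IntervalIntegrable (fun s => (r s ^ (n - 1) * u s) * rd r s) volume (-1) 1 :=
    hr.intervalIntegrable_mul_rd ((hr.cont.pow _).mul hu)
  rw [← intervalIntegral.integral_add (hi1.const_mul _) hi]
  have h := intervalIntegral.integral_eq_sub_of_hasDeriv_right_of_le (a := -1) (b := 1)
    (f := fun s => r s ^ n * u s) (f' := fun s => (n : ℝ) * (r s ^ (n - 1) * u s * rd r s) + r s ^ n * u' s)
    (by norm_num) ((hr.cont.pow _).mul hu) ?_ ((hi1.const_mul _).add hi)
  · rw [h, hr.even 1 ⟨by norm_num, le_rfl⟩]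
    ring
  · intro s hs
    have h1 := (hr.hasRightDeriv hs).fun_pow n
    have h2 := h1.fun_mul (hu' s hs).hasDerivWithinAt
    exact h2.congr_deriv (by ring)

end Prof

end Crest.Agent.R230
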