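import Crest.Agent.R230.Transport
import Crest.Agent.R230.ProfIBP

/-!
The transport from the ball marginal to the marginal of a profile, expectation of line families.
-/

set_option autoImplicit false

open MeasureTheory Set Filter Topology
open scoped Pointwise ENNReal

namespace Crest.Agent.R230

open Tr

/-- the ball density -/
noncomputable def dB (n : ℕ) (s : ℝ) : ℝ := Real.sqrt (1 - s ^ 2) ^ n / w n

/-- the density of a profile -/
noncomputable def dP (n : ℕ) (r : ℝ → ℝ) (t : ℝ) : ℝ := r t ^ n / mom n r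

lemma sqrt_pos_of_mem {s : ℝ} (hs : s ∈ Ioo (-1 : ℝ) 1) : 0 < Real.sqrt (1 - s ^ 2) := by
  apply Real.sqrt_pos.2
  nlinarith [hs.1, hs.2]

lemma dens_base (n : ℕ) : Dens (fun s => Real.sqrt (1 - s ^ 2) ^ n) where
  cont := by fun_prop
  pos := fun s hs => pow_pos (sqrt_pos_of_mem hs) n
  even := fun s _ => by simp

lemma w_pos' (n : ℕ) : 0 < w n := (dens_base n).prim_pos

lemma Prof.dens {r : ℝ → ℝ} (hr : Prof r) (n : ℕ) : Dens (fun s => r s ^ n) where
  cont := hr.cont.pow n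
  pos := fun s hs => pow_pos (hr.pos s hs) n
  even := fun s hs => by simp only [hr.even s hs]

lemma Prof.mom_pos' {r : ℝ → ℝ} (hr : Prof r) (n : ℕ) : 0 < mom n r := (hr.dens n).prim_pos

lemma dens_dB (n : ℕ) : Dens (dB n) where
  cont := by
    unfold dB
    fun_prop
  pos := fun s hs => div_pos (pow_pos (sqrt_pos_of_mem hs) n) (w_pos' n)
  even := fun s _ => by simp [dB]

lemma Prof.dens_dP {r : ℝ → ℝ} (hr : Prof r) (n : ℕ) : Dens (dP n r) where
  cont := (hr.cont.pow n).div_const _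
  pos := fun s hs => div_pos (pow_pos (hr.pos s hs) n) (hr.mom_pos' n)
  even := fun s hs => by simp only [dP, hr.even s hs]

lemma prim_dB (n : ℕ) : prim (dB n) 1 = 1 := by
  unfold prim dB
  rw [intervalIntegral.integral_div]
  exact div_self (w_pos' n).ne'

lemma Prof.prim_dP {r : ℝ → ℝ} (hr : Prof r) (n : ℕ) : prim (dP n r) 1 = 1 := by
  unfold prim dP
  rw [intervalIntegral.integral_div]
  exact div_self (hr.mom_pos' n).ne'

lemma Prof.mass_eq {r : ℝ → ℝ} (hr : Prof r) (n : ℕ) : prim (dB n) 1 = prim (dP n r) 1 := by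
  rw [prim_dB, hr.prim_dP]

/-- the transport `ball marginal → marginal of r` -/
noncomputable def tau (n : ℕ) (r : ℝ → ℝ) : ℝ → ℝ := trans (dB n) (dP n r)

/-- the inverse transport -/
noncomputable def sig (n : ℕ) (r : ℝ → ℝ) : ℝ → ℝ := trans (dP n r) (dB n)

/-- derivative of the transport -/
noncomputable def dtau (n : ℕ) (r : ℝ → ℝ) (s : ℝ) : ℝ := dB n s / dP n r (tau n r s)

section

variable {r : ℝ → ℝ} (hr : Prof r) (n : ℕ)
include hr

lemma hasDerivAt_tau {s : ℝ} (hs : s ∈ Ioo (-1 : ℝ) 1) : HasDerivAt (tau n r) (dtau n r s) s :=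
  hasDerivAt_trans (dens_dB n) (hr.dens_dP n) (hr.mass_eq n) hs

lemma tau_mem {s : ℝ} (hs : s ∈ Ioo (-1 : ℝ) 1) : tau n r s ∈ Ioo (-1 : ℝ) 1 :=
  trans_mem_Ioo (dens_dB n) (hr.dens_dP n) (hr.mass_eq n) hs

lemma tau_mem_Icc {s : ℝ} (hs : s ∈ Icc (-1 : ℝ) 1) : tau n r s ∈ Icc (-1 : ℝ) 1 :=
  (trans_spec (dens_dB n) (hr.dens_dP n) (hr.mass_eq n) hs).1

lemma tau_continuous : Continuous (tau n r) :=
  trans_continuous (dens_dB n) (hr.dens_dP n) (hr.mass_eq n)

lemma tau_strictMonoOn : StrictMonoOn (tau n r) (Icc (-1) 1) :=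
  trans_strictMonoOn (dens_dB n) (hr.dens_dP n) (hr.mass_eq n)

lemma tau_odd {s : ℝ} (hs : s ∈ Icc (-1 : ℝ) 1) : tau n r (-s) = -tau n r s :=
  trans_odd (dens_dB n) (hr.dens_dP n) (hr.mass_eq n) hs

lemma tau_zero : tau n r 0 = 0 := trans_zero (dens_dB n) (hr.dens_dP n) (hr.mass_eq n)

lemma tau_one : tau n r 1 = 1 := trans_one (dens_dB n) (hr.dens_dP n) (hr.mass_eq n)

lemma tau_neg_one : tau n r (-1) = -1 := trans_neg_one (dens_dB n) (hr.dens_dP n) (hr.mass_eq n)

lemma sig_tau {s : ℝ} (hs : s ∈ Icc (-1 : ℝ) 1) : sig n r (tau n r s) = s :=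
  trans_inv (dens_dB n) (hr.dens_dP n) (hr.mass_eq n) hs

lemma tau_sig {t : ℝ} (ht : t ∈ Icc (-1 : ℝ) 1) : tau n r (sig n r t) = t :=
  trans_inv (hr.dens_dP n) (dens_dB n) (hr.mass_eq n).symm ht

lemma sig_mem {t : ℝ} (ht : t ∈ Ioo (-1 : ℝ) 1) : sig n r t ∈ Ioo (-1 : ℝ) 1 :=
  trans_mem_Ioo (hr.dens_dP n) (dens_dB n) (hr.mass_eq n).symm ht

lemma sig_mem_Icc {t : ℝ} (ht : t ∈ Icc (-1 : ℝ) 1) : sig n r t ∈ Icc (-1 : ℝ) 1 :=
  (trans_spec (hr.dens_dP n) (dens_dB n) (hr.mass_eq n).symm ht).1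

lemma sig_continuous : Continuous (sig n r) :=
  trans_continuous (hr.dens_dP n) (dens_dB n) (hr.mass_eq n).symm

lemma sig_one : sig n r 1 = 1 := trans_one (hr.dens_dP n) (dens_dB n) (hr.mass_eq n).symm

lemma sig_neg_one : sig n r (-1) = -1 := trans_neg_one (hr.dens_dP n) (dens_dB n) (hr.mass_eq n).symm

lemma dtau_pos {s : ℝ} (hs : s ∈ Ioo (-1 : ℝ) 1) : 0 < dtau n r s :=
  div_pos ((dens_dB n).pos s hs) ((hr.dens_dP n).pos _ (tau_mem hr n hs))

lemma continuousOn_dtau : ContinuousOn (dtau n r) (Ioo (-1) 1) := by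
  unfold dtau
  refine ContinuousOn.div ((dens_dB n).cont.mono Ioo_subset_Icc_self) ?_ ?_
  · exact ((hr.dens_dP n).cont.mono Ioo_subset_Icc_self).comp (tau_continuous hr n).continuousOn
      (fun s hs => tau_mem hr n hs)
  · exact fun s hs => ((hr.dens_dP n).pos _ (tau_mem hr n hs)).ne'

lemma hasDerivAt_sig {t : ℝ} (ht : t ∈ Ioo (-1 : ℝ) 1) :
    HasDerivAt (sig n r) (dtau n r (sig n r t))⁻¹ t := by
  have h := hasDerivAt_trans (hr.dens_dP n) (dens_dB n) (hr.mass_eq n).symm ht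
  have h2 : (dtau n r (sig n r t))⁻¹ = dP n r t / dB n (sig n r t) := by
    unfold dtau
    rw [tau_sig hr n ⟨ht.1.le, ht.2.le⟩, inv_div]
  rw [h2]
  exact h

/-- change of variables `t = τ(s)` -/
theorem integral_pow_eq (φ : ℝ → ℝ) :
    ∫ t in (-1 : ℝ)..1, r t ^ n * φ t =
      mom n r / w n * ∫ s in (-1 : ℝ)..1, Real.sqrt (1 - s ^ 2) ^ n * φ (tau n r s) := by
  have h := integral_trans (dens_dB n) (hr.dens_dP n) (hr.mass_eq n) φ
  have hm := (hr.mom_pos' n).ne'
  have hw := (w_pos' n).ne'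
  have h1 : ∫ t in (-1 : ℝ)..1, r t ^ n * φ t = mom n r * ∫ t in (-1 : ℝ)..1, dP n r t * φ t := by
    rw [← intervalIntegral.integral_const_mul]
    congr 1; ext t
    unfold dP
    field_simp
  have h2 : ∫ s in (-1 : ℝ)..1, Real.sqrt (1 - s ^ 2) ^ n * φ (tau n r s) =
      w n * ∫ s in (-1 : ℝ)..1, dB n s * φ (tau n r s) := by
    rw [← intervalIntegral.integral_const_mul]
    congr 1; ext t
    unfold dB
    field_simp
  rw [h1, h2, h]
  unfold tau
  field_simp

theorem integrable_pow_iff (φ : ℝ → ℝ) :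
    IntervalIntegrable (fun t => r t ^ n * φ t) volume (-1) 1 ↔
      IntervalIntegrable (fun s => Real.sqrt (1 - s ^ 2) ^ n * φ (tau n r s)) volume (-1) 1 := by
  have h := integrable_trans_iff (dens_dB n) (hr.dens_dP n) (hr.mass_eq n) φ
  have hm := (hr.mom_pos' n).ne'
  have hw := (w_pos' n).ne'
  have h1 : (fun t => r t ^ n * φ t) = fun t => mom n r * (dP n r t * φ t) := by
    ext t; unfold dP; field_simp
  have h2 : (fun s => Real.sqrt (1 - s ^ 2) ^ n * φ (tau n r s)) =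
      fun s => w n * (dB n s * φ (tau n r s)) := by
    ext t; unfold dB; field_simp
  rw [h1, h2]
  constructor
  · intro h3
    have h4 := h3.const_mul (mom n r)⁻¹
    simp only [inv_mul_cancel_left₀ hm] at h4
    exact (h.1 h4).const_mul _
  · intro h3
    have h4 := h3.const_mul (w n)⁻¹
    simp only [inv_mul_cancel_left₀ hw] at h4
    exact (h.2 h4).const_mul _

/-- expectation of a line family -/
theorem EP_lines (hn : 1 ≤ n) {A B A' B' : ℝ → ℝ} (hA : ContinuousOn A (Icc (-1) 1))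
    (hB : ContinuousOn B (Icc (-1) 1)) (hA' : ∀ t ∈ Ioo (-1 : ℝ) 1, HasDerivAt A (A' t) t)
    (hB' : ∀ t ∈ Ioo (-1 : ℝ) 1, HasDerivAt B (B' t) t)
    (hi : IntervalIntegrable (fun t => r t ^ n * (t * A' t + B' t)) volume (-1) 1) :
    ((n : ℝ) + 1) * EP n r (fun t p => A t + B t * p) =
      (∫ t in (-1 : ℝ)..1, r t ^ n * ((n + 1) * A t + (t * A' t + B' t))) / mom n r := by
  have hm := (hr.mom_pos' n).ne'
  have hiA : IntervalIntegrable (fun t => r t ^ n * A t) volume (-1) 1 := by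
    refine ContinuousOn.intervalIntegrable ?_
    rw [uIcc_of_le (by norm_num)]
    exact (hr.cont.pow n).mul hA
  set u : ℝ → ℝ := fun t => t * A t + B t with hu
  have huc : ContinuousOn u (Icc (-1) 1) := (continuousOn_id.mul hA).add hB
  have hu' : ∀ t ∈ Ioo (-1 : ℝ) 1, HasDerivAt u (A t + (t * A' t + B' t)) t := by
    intro t ht
    have h1 := ((hasDerivAt_id t).fun_mul (hA' t ht)).fun_add (hB' t ht)
    exact h1.congr_deriv (by simp; ring)
  have hi2 : IntervalIntegrable (fun t => r t ^ n * (A t + (t * A' t + B' t))) volume (-1) 1 := by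
    have := hiA.add hi
    refine this.congr (fun t _ => ?_)
    ring
  have hibp := hr.ibp (n := n) huc hu' hi2
  have hmain : ∫ s in (-1 : ℝ)..1, r s ^ (n - 1) * (r s - s * deriv r s) * (A s + B s * pp r s) =
      (∫ s in (-1 : ℝ)..1, r s ^ n * A s) - ∫ s in (-1 : ℝ)..1, (r s ^ (n - 1) * u s) * deriv r s := by
    have hi3 : IntervalIntegrable (fun s => (r s ^ (n - 1) * u s) * deriv r s) volume (-1) 1 :=
      hr.intervalIntegrable_mul_deriv ((hr.cont.pow _).mul huc)
    rw [← intervalIntegral.integral_sub hiA hi3]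
    rw [intervalIntegral.integral_of_le (by norm_num), intervalIntegral.integral_of_le (by norm_num),
      integral_Ioc_eq_integral_Ioo, integral_Ioc_eq_integral_Ioo]
    refine setIntegral_congr_ae measurableSet_Ioo ?_
    filter_upwards [hr.ae_deriv_eq, Measure.ae_ne volume (0 : ℝ)] with s h1 h0 hs
    have hrs := hr.pos s hs
    have hpos : 0 < r s - s * deriv r s := by
      rw [h1 hs]
      rcases lt_or_gt_of_ne h0 with h | h
      · have := hr.rd_nonneg ⟨hs.1, h⟩
        nlinarith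
      · have := hr.rd_nonpos ⟨h, hs.2⟩
        nlinarith
    have hpow : r s ^ n = r s ^ (n - 1) * r s := by
      rw [← pow_succ, Nat.sub_add_cancel hn]
    simp only [pp, hu, hpow]
    field_simp
    ring
  unfold EP
  rw [hmain]
  have hsum : ∫ t in (-1 : ℝ)..1, r t ^ n * ((n + 1) * A t + (t * A' t + B' t)) =
      n * (∫ s in (-1 : ℝ)..1, r s ^ n * A s) +
        ∫ t in (-1 : ℝ)..1, r t ^ n * (A t + (t * A' t + B' t)) := by
    rw [← intervalIntegral.integral_const_mul, ← intervalIntegral.integral_add (hiA.const_mul _) hi2]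
    congr 1; ext t; ring
  rw [hsum]
  have hn1 : (n : ℝ) + 1 ≠ 0 := by positivity
  have e1 : u 1 - u (-1) = (A 1 + B 1 * 1) + (A (-1) + B (-1) * -1) := by
    simp only [hu]; ring
  rw [e1] at hibp
  rw [mul_div_assoc']
  rw [div_eq_div_iff (mul_ne_zero hn1 hm) hm]
  linear_combination (-((n : ℝ) + 1) * mom n r) * hibp

/-- expectation of a line family in the transport coordinate: `A(τ s) = a s`, `B(τ s) = b s` -/
theorem EP_trans (hn : 1 ≤ n) {a b a' b' : ℝ → ℝ} (ha : ContinuousOn a (Icc (-1) 1))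
    (hb : ContinuousOn b (Icc (-1) 1)) (ha' : ∀ s ∈ Ioo (-1 : ℝ) 1, HasDerivAt a (a' s) s)
    (hb' : ∀ s ∈ Ioo (-1 : ℝ) 1, HasDerivAt b (b' s) s)
    (hi : IntervalIntegrable (fun s => Real.sqrt (1 - s ^ 2) ^ n *
      ((tau n r s * a' s + b' s) / dtau n r s)) volume (-1) 1) :
    ((n : ℝ) + 1) * EP n r (fun t p => a (sig n r t) + b (sig n r t) * p) =
      (∫ s in (-1 : ℝ)..1, Real.sqrt (1 - s ^ 2) ^ n *
        ((n + 1) * a s + (tau n r s * a' s + b' s) / dtau n r s)) / w n := by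
  have hw := (w_pos' n).ne'
  have hm := (hr.mom_pos' n).ne'
  have hmaps : MapsTo (sig n r) (Icc (-1) 1) (Icc (-1) 1) := fun t ht => sig_mem_Icc hr n ht
  have hval : ∀ s ∈ Icc (-1 : ℝ) 1, sig n r (tau n r s) = s := fun s hs => sig_tau hr n hs
  have h1 := EP_lines hr n hn (A := fun t => a (sig n r t)) (B := fun t => b (sig n r t))
    (A' := fun t => a' (sig n r t) * (dtau n r (sig n r t))⁻¹)
    (B' := fun t => b' (sig n r t) * (dtau n r (sig n r t))⁻¹)
    (ha.comp (sig_continuous hr n).continuousOn hmaps) (hb.comp (sig_continuous hr n).continuousOn hmaps)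
    (fun t ht => (ha' _ (sig_mem hr n ht)).comp t (hasDerivAt_sig hr n ht))
    (fun t ht => (hb' _ (sig_mem hr n ht)).comp t (hasDerivAt_sig hr n ht)) ?_
  · rw [h1, integral_pow_eq hr n]
    rw [div_eq_div_iff hm hw]
    have h2 : ∫ s in (-1 : ℝ)..1, Real.sqrt (1 - s ^ 2) ^ n *
        ((n + 1) * a (sig n r (tau n r s)) + (tau n r s * (a' (sig n r (tau n r s)) *
          (dtau n r (sig n r (tau n r s)))⁻¹) + b' (sig n r (tau n r s)) *
          (dtau n r (sig n r (tau n r s)))⁻¹)) = ∫ s in (-1 : ℝ)..1, Real.sqrt (1 - s ^ 2) ^ n *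
        ((n + 1) * a s + (tau n r s * a' s + b' s) / dtau n r s) := by
      refine intervalIntegral.integral_congr fun s hs => ?_
      rw [uIcc_of_le (by norm_num)] at hs
      simp only [hval s hs]
      ring
    rw [h2]
    field_simp
  · rw [integrable_pow_iff hr n]
    refine hi.congr fun s hs => ?_
    rw [uIoc_of_le (by norm_num)] at hs
    simp only [hval s ⟨hs.1.le, hs.2⟩]
    ring

/-- **the constraint** in transport form -/
theorem constraint_trans (hn : 1 ≤ n) :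
    mom (n - 1) r = (mom n r / w n) ^ (((n : ℝ) - 1) / n) *
      ∫ s in (-1 : ℝ)..1, Real.sqrt (1 - s ^ 2) ^ (n - 1) * dtau n r s ^ ((1 : ℝ) / n) := by
  have hw := w_pos' n
  have hm := hr.mom_pos' n
  have hn0 : (n : ℝ) ≠ 0 := by exact_mod_cast (by omega : n ≠ 0)
  have hmom : mom (n - 1) r = ∫ t in (-1 : ℝ)..1, r t ^ n * (r t)⁻¹ := by
    unfold mom
    rw [intervalIntegral.integral_of_le (by norm_num), intervalIntegral.integral_of_le (by norm_num),
      integral_Ioc_eq_integral_Ioo, integral_Ioc_eq_integral_Ioo]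
    refine setIntegral_congr_fun measurableSet_Ioo fun s hs => ?_
    have hrs := (hr.pos s hs).ne'
    rw [eq_mul_inv_iff_mul_eq₀ hrs, ← pow_succ, Nat.sub_add_cancel hn]
  rw [hmom, integral_pow_eq hr n (fun t => (r t)⁻¹), ← intervalIntegral.integral_const_mul,
    ← intervalIntegral.integral_const_mul]
  rw [intervalIntegral.integral_of_le (by norm_num), intervalIntegral.integral_of_le (by norm_num),
    integral_Ioc_eq_integral_Ioo, integral_Ioc_eq_integral_Ioo]
  refine setIntegral_congr_fun measurableSet_Ioo fun s hs => ?_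
  have hc := sqrt_pos_of_mem hs
  have hrt := hr.pos _ (tau_mem hr n hs)
  set c := Real.sqrt (1 - s ^ 2) with hcdef
  set ρ := r (tau n r s) with hρ
  have hdt : dtau n r s = (mom n r / w n) * (c / ρ) ^ n := by
    have : dtau n r s = (c ^ n / w n) / (ρ ^ n / mom n r) := rfl
    rw [this, div_pow]
    field_simp
  have hcr : 0 < c / ρ := div_pos hc hrt
  have h1 : dtau n r s ^ ((1 : ℝ) / n) = (mom n r / w n) ^ ((1 : ℝ) / n) * (c / ρ) := by
    rw [hdt, Real.mul_rpow (by positivity) (by positivity), ← Real.rpow_natCast (c / ρ) n,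
      ← Real.rpow_mul hcr.le, mul_one_div_cancel hn0, Real.rpow_one]
  have h2 : (mom n r / w n) ^ (((n : ℝ) - 1) / n) * (mom n r / w n) ^ ((1 : ℝ) / n) = mom n r / w n := by
    rw [← Real.rpow_add (by positivity)]
    have : ((n : ℝ) - 1) / n + 1 / n = 1 := by field_simp; ring
    rw [this, Real.rpow_one]
  rw [h1]
  have hcp : c ^ n = c ^ (n - 1) * c := by rw [← pow_succ, Nat.sub_add_cancel hn]
  calc mom n r / w n * (c ^ n * ρ⁻¹) = (mom n r / w n) * (c ^ (n - 1) * (c / ρ)) := by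
        rw [hcp]; ring
    _ = ((mom n r / w n) ^ (((n : ℝ) - 1) / n) * (mom n r / w n) ^ ((1 : ℝ) / n)) *
        (c ^ (n - 1) * (c / ρ)) := by rw [h2]
    _ = _ := by ring

/-- `NleB` in transport form -/
theorem NleB_trans (hn : 1 ≤ n) (h : NleB n r) :
    ∫ s in (-1 : ℝ)..1, Real.sqrt (1 - s ^ 2) ^ (n - 1) * dtau n r s ^ ((1 : ℝ) / n) ≤ w (n - 1) := by
  set I := ∫ s in (-1 : ℝ)..1, Real.sqrt (1 - s ^ 2) ^ (n - 1) * dtau n r s ^ ((1 : ℝ) / n) with hI
  have hw := w_pos' n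
  have hm := hr.mom_pos' n
  have hn0 : (n : ℝ) ≠ 0 := by exact_mod_cast (by omega : n ≠ 0)
  have hc := constraint_trans hr n hn
  rw [← hI] at hc
  unfold NleB at h
  have hq : 0 < mom n r / w n := by positivity
  have h1 : ((mom n r / w n) ^ (((n : ℝ) - 1) / n)) ^ n = (mom n r / w n) ^ (n - 1) := by
    rw [← Real.rpow_natCast, ← Real.rpow_mul hq.le, div_mul_cancel₀ _ hn0, ← Real.rpow_natCast,
      Nat.cast_sub hn, Nat.cast_one]
  rw [hc, mul_pow, h1, div_pow] at h
  have h2 : 0 < mom n r ^ (n - 1) := pow_pos hm _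
  have h3 : mom n r ^ (n - 1) / w n ^ (n - 1) * I ^ n * w n ^ (n - 1) = mom n r ^ (n - 1) * I ^ n := by
    have : w n ^ (n - 1) ≠ 0 := (pow_pos hw _).ne'
    field_simp
  rw [h3, mul_comm] at h
  have h4 : I ^ n ≤ w (n - 1) ^ n := le_of_mul_le_mul_right h h2
  exact le_of_pow_le_pow_left₀ (by omega) (w_pos' (n - 1)).le h4

end

end Crest.Agent.R230
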