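import Crest.Agent.R230.Cyl89
import Crest.Agent.R230.ConeCmp
import Crest.Agent.R230.LPath
import Crest.Agent.R230.Apriori4

/-!
# Row 230 (helper91): tools for explicit bounds `l (1+c) ≤ ρ c²`
-/

set_option autoImplicit false

open MeasureTheory Set Filter Topology
open scoped Pointwise ENNReal

namespace Crest.Agent.R230

/-- `V ρ s = s exp (ρ c²/(1+c))` -/
noncomputable def Vr (ρ s : ℝ) : ℝ := s * Real.exp (ρ * (cc s ^ 2 / (1 + cc s)))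

lemma cc_of_sq {a c : ℝ} (hc : 0 ≤ c) (h : a ^ 2 + c ^ 2 = 1) : cc a = c := by
  unfold cc
  rw [show 1 - a ^ 2 = c ^ 2 by linarith]
  exact Real.sqrt_sq hc

lemma ll_eq {n : ℕ} {r : ℝ → ℝ} {s : ℝ} (hs : 0 < s) : ll n r s = Real.log (tau n r s / s) := by
  unfold ll
  rw [if_neg hs.ne']

/-- from a bound of `τ` to a bound of `l` -/
lemma ll_le_of_tau_le {n : ℕ} {r : ℝ → ℝ} (hr : Prof r) {ρ s : ℝ} (hs : s ∈ Ioo (0 : ℝ) 1)
    (h : tau n r s ≤ Vr ρ s) : ll n r s * (1 + cc s) ≤ ρ * cc s ^ 2 := by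
  have hT : 0 < tau n r s := tau_pos hr n ⟨hs.1, hs.2.le⟩
  have hc : 0 ≤ cc s := Real.sqrt_nonneg _
  rw [ll_eq hs.1]
  have h1 : tau n r s / s ≤ Real.exp (ρ * (cc s ^ 2 / (1 + cc s))) := by
    rw [div_le_iff₀ hs.1]
    unfold Vr at h
    linarith
  have h2 : Real.log (tau n r s / s) ≤ ρ * (cc s ^ 2 / (1 + cc s)) := by
    calc Real.log (tau n r s / s) ≤ Real.log (Real.exp (ρ * (cc s ^ 2 / (1 + cc s)))) :=
          Real.log_le_log (div_pos hT hs.1) h1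
      _ = _ := Real.log_exp _
  calc Real.log (tau n r s / s) * (1 + cc s) ≤ ρ * (cc s ^ 2 / (1 + cc s)) * (1 + cc s) :=
        mul_le_mul_of_nonneg_right h2 (by linarith)
    _ = ρ * cc s ^ 2 := by field_simp

lemma Vr_mono {ρ : ℝ} (hρ : ρ ≤ 7 / 8) : MonotoneOn (Vr ρ) (Icc 0 (93 / 100)) := by
  have hder : ∀ x ∈ Ioo (0 : ℝ) (93 / 100), HasDerivAt (Vr ρ) (Real.exp (ρ * (cc x ^ 2 / (1 + cc x))) *
      (1 - ρ * x ^ 2 * (2 + cc x) / (1 + cc x) ^ 2)) x := by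
    intro x hx
    have hx' : x ∈ Ioo (-1 : ℝ) 1 := ⟨by linarith [hx.1], by linarith [hx.2]⟩
    have h1 : HasDerivAt cc (-x / cc x) x := hasDerivAt_cs hx'
    have hc : 0 < cc x := sqrt_pos_of_mem hx'
    have h2 := ((h1.fun_pow 2).fun_div (h1.const_add 1) (by positivity)).const_mul ρ
    have h3 := (hasDerivAt_id x).fun_mul h2.exp
    refine h3.congr_deriv ?_
    simp only [id]
    field_simp
    ring
  refine monotoneOn_of_deriv_nonneg (convex_Icc _ _) ?_ ?_ ?_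
  · unfold Vr
    have : Continuous cc := by unfold cc; fun_prop
    have h2 : ∀ x, 1 + cc x ≠ 0 := fun x => by
      have : 0 ≤ cc x := Real.sqrt_nonneg _
      positivity
    exact (continuous_id.mul (Real.continuous_exp.comp (continuous_const.mul
      ((this.pow 2).div (continuous_const.add this) h2)))).continuousOn
  · intro x hx
    rw [interior_Icc] at hx
    exact (hder x hx).differentiableAt.differentiableWithinAt
  · intro x hx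
    rw [interior_Icc] at hx
    rw [(hder x hx).deriv]
    have hx' : x ∈ Ioo (-1 : ℝ) 1 := ⟨by linarith [hx.1], by linarith [hx.2]⟩
    have hc : 0 < cc x := sqrt_pos_of_mem hx'
    have hc2 : cc x ^ 2 = 1 - x ^ 2 := cs_sq ⟨hx.1.le, by linarith [hx.2]⟩
    apply mul_nonneg (Real.exp_pos _).le
    rw [sub_nonneg, div_le_one (by positivity)]
    have hx0 := hx.1
    have hx1 := hx.2
    have hc1 : 0.3675 ≤ cc x := by
      by_contra hcon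
      push Not at hcon
      nlinarith
    have hx2 : x ^ 2 = (1 - cc x) * (1 + cc x) := by ring_nf; linarith
    rw [show ρ * x ^ 2 * (2 + cc x) = ρ * (x ^ 2 * (2 + cc x)) by ring, hx2]
    have hc1' : cc x ≤ 1 := cc_le_one x
    have h4 : 0 ≤ (1 - cc x) * (1 + cc x) * (2 + cc x) := by
      have : 0 ≤ 1 - cc x := by linarith
      positivity
    have h5 := mul_le_mul_of_nonneg_right hρ h4
    nlinarith [mul_nonneg hc.le (sub_nonneg.2 hc1'), sq_nonneg (cc x)]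

/-- numerical lower bound of `V` -/
lemma Vr_ge {ρ a c τ : ℝ} (hρ : 0 ≤ ρ) (ha : 0 ≤ a) (hc : 0 ≤ c) (h : a ^ 2 + c ^ 2 = 1)
    (hτ : τ ≤ a * (1 + ρ * (c ^ 2 / (1 + c)) + (ρ * (c ^ 2 / (1 + c))) ^ 2 / 2 +
      (ρ * (c ^ 2 / (1 + c))) ^ 3 / 6 + (ρ * (c ^ 2 / (1 + c))) ^ 4 / 24)) : τ ≤ Vr ρ a := by
  unfold Vr
  rw [cc_of_sq hc h]
  have hx : 0 ≤ ρ * (c ^ 2 / (1 + c)) := by positivity
  have h1 := Real.sum_le_exp_of_nonneg hx 5
  simp only [Finset.sum_range_succ, Finset.sum_range_zero, Nat.factorial, pow_zero, pow_one] at h1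
  refine hτ.trans (mul_le_mul_of_nonneg_left ?_ ha)
  norm_num at h1 ⊢
  linarith

/-- one piece -/
lemma ll_piece {n : ℕ} {r : ℝ → ℝ} (hr : Prof r) {ρ a b τ s : ℝ} (hρ : ρ ≤ 7 / 8)
    (ha : 0 < a) (hb : b ≤ 1) (hs : s ∈ Icc a b) (hs1 : s ≤ 93 / 100) (hT : tau n r b ≤ τ)
    (hV : τ ≤ Vr ρ a) : ll n r s * (1 + cc s) ≤ ρ * cc s ^ 2 := by
  have hs0 : 0 < s := ha.trans_le hs.1
  refine ll_le_of_tau_le hr ⟨hs0, by linarith⟩ ?_
  have h1 : tau n r s ≤ tau n r b := (tau_strictMonoOn hr n).monotoneOn ⟨by linarith, by linarith⟩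
    ⟨by linarith [hs.1, hs.2], hb⟩ hs.2
  have h2 : Vr ρ a ≤ Vr ρ s := Vr_mono hρ ⟨ha.le, by linarith [hs.1]⟩ ⟨hs0.le, hs1⟩ hs.1
  linarith

/-- near `s = 1` the trivial bound `τ ≤ 1` suffices -/
lemma ll_end {n : ℕ} {r : ℝ → ℝ} (hr : Prof r) {ρ c₀ s : ℝ} (hs : s ∈ Ioo (0 : ℝ) 1)
    (hc : cc s ≤ c₀) (hc0 : c₀ ≤ 1 / 2)
    (h : (1 / 2 + c₀ ^ 2 / 4 + c₀ ^ 4 / 6 + c₀ ^ 6 / (2 * (1 - c₀ ^ 2))) * (1 + c₀) ≤ ρ) :
    ll n r s * (1 + cc s) ≤ ρ * cc s ^ 2 := by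
  have hcp : 0 < cc s := sqrt_pos_of_mem ⟨by linarith [hs.1], hs.2⟩
  have hc2 : cc s ^ 2 = 1 - s ^ 2 := cs_sq ⟨hs.1.le, hs.2.le⟩
  have hT : 0 < tau n r s := tau_pos hr n ⟨hs.1, hs.2.le⟩
  have hT1 : tau n r s ≤ 1 := (tau_lt_one hr n ⟨hs.1.le, hs.2⟩).le
  rw [ll_eq hs.1]
  have h1 : Real.log (tau n r s / s) ≤ -Real.log s := by
    rw [Real.log_div hT.ne' hs.1.ne']
    have := Real.log_nonpos hT.le hT1
    linarith
  have hs2 : Real.log (s ^ 2) = 2 * Real.log s := by rw [Real.log_pow]; norm_num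
  set c := cc s with hcdef
  have hsc : s ^ 2 = 1 - c ^ 2 := by linarith
  rw [hsc] at hs2
  have hu1 : c ^ 2 ≤ 1 / 4 := by nlinarith
  have hu2 : c₀ ^ 2 ≤ 1 / 4 := by nlinarith
  have hcc : c ^ 2 ≤ c₀ ^ 2 := by nlinarith
  have h3 : -Real.log (1 - c ^ 2) ≤ c ^ 2 + (c ^ 2) ^ 2 / 2 + (c ^ 2) ^ 3 / 3 + (c ^ 2) ^ 4 / (1 - c ^ 2) := by
    have hu0 : 0 < c ^ 2 := by positivity
    have h4 := Real.abs_log_sub_add_sum_range_le (x := c ^ 2) (by rw [abs_of_pos hu0]; linarith) 3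
    rw [abs_of_pos hu0] at h4
    have h5 := (abs_le.1 h4).1
    simp only [Finset.sum_range_succ, Finset.sum_range_zero] at h5
    norm_num at h5
    linarith
  have h6 : -Real.log s ≤ c ^ 2 * (1 / 2 + c ^ 2 / 4 + c ^ 4 / 6 + c ^ 6 / (2 * (1 - c ^ 2))) := by
    have hne : (1 - c ^ 2) ≠ 0 := by linarith
    have h7 : c ^ 2 * (1 / 2 + c ^ 2 / 4 + c ^ 4 / 6 + c ^ 6 / (2 * (1 - c ^ 2))) =
        (c ^ 2 + (c ^ 2) ^ 2 / 2 + (c ^ 2) ^ 3 / 3 + (c ^ 2) ^ 4 / (1 - c ^ 2)) / 2 := by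
      field_simp
      ring
    rw [h7]
    linarith
  have h8 : 1 / 2 + c ^ 2 / 4 + c ^ 4 / 6 + c ^ 6 / (2 * (1 - c ^ 2)) ≤
      1 / 2 + c₀ ^ 2 / 4 + c₀ ^ 4 / 6 + c₀ ^ 6 / (2 * (1 - c₀ ^ 2)) := by
    have h9 : 0 < 2 * (1 - c₀ ^ 2) := by linarith
    gcongr
  have h10 : 0 ≤ 1 / 2 + c ^ 2 / 4 + c ^ 4 / 6 + c ^ 6 / (2 * (1 - c ^ 2)) := by
    have : 0 < 1 - c ^ 2 := by linarith
    positivity
  calc Real.log (tau n r s / s) * (1 + c) ≤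
        (c ^ 2 * (1 / 2 + c ^ 2 / 4 + c ^ 4 / 6 + c ^ 6 / (2 * (1 - c ^ 2)))) * (1 + c) :=
        mul_le_mul_of_nonneg_right (h1.trans h6) (by positivity)
    _ = c ^ 2 * ((1 / 2 + c ^ 2 / 4 + c ^ 4 / 6 + c ^ 6 / (2 * (1 - c ^ 2))) * (1 + c)) := by ring
    _ ≤ c ^ 2 * ((1 / 2 + c₀ ^ 2 / 4 + c₀ ^ 4 / 6 + c₀ ^ 6 / (2 * (1 - c₀ ^ 2))) * (1 + c₀)) := by
        apply mul_le_mul_of_nonneg_left _ (by positivity)
        exact mul_le_mul h8 (by linarith) (by positivity) (h10.trans h8)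
    _ ≤ c ^ 2 * ρ := mul_le_mul_of_nonneg_left h (by positivity)
    _ = ρ * c ^ 2 := by ring

end Crest.Agent.R230
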