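import Crest.Agent.R230.APLin
import Crest.Agent.R230.CylReal

/-!
# Row 230 (helper91): cylinder bound

`F₀(s) ≤ 7/8  ⇒  τ(s) ≤ (hB (n-1) 0 / hB n 0)^n * lB n s`  for profiles with `NleB`.
-/

set_option autoImplicit false

open MeasureTheory Set Filter Topology

namespace Crest.Agent.R230

lemma SA_eq_Sg (k : ℕ) (q : ℝ) : SA k q = Sg k q := rfl

/-- algebraic form of the truncated comparison implies the cylinder bound -/
theorem cyl_of_trunc {n : ℕ} (hn : 5 ≤ n) {T R e b l h0 h1 : ℝ} (hR0 : 0 < R) (he0 : 0 ≤ e)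
    (heb : e ≤ b) (hb1 : b ≤ 1) (hl0 : 0 ≤ l) (hh0 : 0 < h0) (hl : l ≤ 7 / 8 * h0)
    (h2 : T * (1 - e) = R * (1 - b)) (h3 : T * SA (n + 1) b * h0 = l * (R * SA (n + 1) e))
    (h4 : R * SA n e ^ n * h0 ^ (n - 1) ≤ h1 ^ n * SA (n + 1) e ^ (n - 1)) :
    T * h0 ^ n ≤ h1 ^ n * l := by
  have hS1 := SA_pos (n + 1) (by omega) he0
  have hS0 := SA_pos n (by omega) he0
  have hSb := SA_pos (n + 1) (by omega) (he0.trans heb)
  have hn1 : n = (n - 1) + 1 := by omega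
  have key : (SA (n + 1) e) ^ n ≤ SA (n + 1) b * SA n e ^ n := by
    rcases eq_or_lt_of_le (heb.trans hb1) with he | he
    · have hb : b = 1 := le_antisymm hb1 (he ▸ heb)
      rw [he, hb, SA_one _ (by omega), SA_one _ (by omega)]
      simp
    · have h5 : (1 - b) * SA (n + 1) b = (1 - b ^ (n + 1)) / ((n + 1 : ℕ) : ℝ) := one_sub_mul_SA _ _
      have h6 : (1 - e) * SA (n + 1) e = (1 - e ^ (n + 1)) / ((n + 1 : ℕ) : ℝ) := one_sub_mul_SA _ _
      have hN : (0 : ℝ) < ((n + 1 : ℕ) : ℝ) := by positivity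
      have h7 : (1 - b) * SA (n + 1) b * h0 = l * ((1 - e) * SA (n + 1) e) := by
        have : R * ((1 - b) * SA (n + 1) b * h0) = R * (l * ((1 - e) * SA (n + 1) e)) := by
          calc R * ((1 - b) * SA (n + 1) b * h0) = (R * (1 - b)) * SA (n + 1) b * h0 := by ring
            _ = (1 - e) * (T * SA (n + 1) b * h0) := by rw [← h2]; ring
            _ = _ := by rw [h3]; ring
        exact mul_left_cancel₀ hR0.ne' this
      rw [h5, h6] at h7
      have h8 : (1 - b ^ (n + 1)) * h0 = l * (1 - e ^ (n + 1)) := by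
        field_simp at h7
        linarith
      have hq1 : e ^ (n + 1) ≤ 1 := pow_le_one₀ he0 he.le
      have h9 : (1 - b ^ (n + 1)) * h0 ≤ (7 / 8 * (1 - e ^ (n + 1))) * h0 := by
        rw [h8]
        nlinarith [mul_le_mul_of_nonneg_right hl (by linarith : (0 : ℝ) ≤ 1 - e ^ (n + 1))]
      have h10 := le_of_mul_le_mul_right h9 hh0
      have h11 := cyl_real hn he0 he (he0.trans heb) (b := b) (by linarith)
      rw [← SA_eq_Sg, ← SA_eq_Sg, ← SA_eq_Sg, div_pow, div_le_iff₀ (pow_pos hS0 n)] at h11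
      exact h11
  -- T S'(b) h0 = l R S'(e)
  have h12 : T * h0 ^ n * (SA (n + 1) b * SA n e ^ n) =
      l * SA (n + 1) e * (R * SA n e ^ n * h0 ^ (n - 1)) := by
    have : h0 ^ n = h0 * h0 ^ (n - 1) := by rw [← pow_succ']; congr 1
    rw [this]
    calc T * (h0 * h0 ^ (n - 1)) * (SA (n + 1) b * SA n e ^ n) =
        (T * SA (n + 1) b * h0) * (h0 ^ (n - 1) * SA n e ^ n) := by ring
      _ = _ := by rw [h3]; ring
  have h13 : T * h0 ^ n * (SA (n + 1) b * SA n e ^ n) ≤ h1 ^ n * l * SA (n + 1) e ^ n := by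
    rw [h12]
    have hp : SA (n + 1) e ^ n = SA (n + 1) e * SA (n + 1) e ^ (n - 1) := by
      rw [← pow_succ']; congr 1
    rw [hp]
    calc l * SA (n + 1) e * (R * SA n e ^ n * h0 ^ (n - 1)) ≤
        l * SA (n + 1) e * (h1 ^ n * SA (n + 1) e ^ (n - 1)) :=
          mul_le_mul_of_nonneg_left h4 (by positivity)
      _ = _ := by ring
  have hpos : 0 < SA (n + 1) b * SA n e ^ n := by positivity
  by_cases hneg : h1 ^ n * l < 0
  · -- impossible: the left side of h4 is positive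
    have h14 : 0 < R * SA n e ^ n * h0 ^ (n - 1) := by positivity
    have h15 : 0 < h1 ^ n * SA (n + 1) e ^ (n - 1) := h14.trans_le h4
    have h16 : 0 < h1 ^ n := by
      by_contra hcon
      push Not at hcon
      have := mul_nonpos_of_nonpos_of_nonneg hcon (pow_pos hS1 (n - 1)).le
      linarith
    have := mul_nonneg h16.le hl0
    linarith
  · push Not at hneg
    have h17 : h1 ^ n * l * SA (n + 1) e ^ n ≤ h1 ^ n * l * (SA (n + 1) b * SA n e ^ n) :=
      mul_le_mul_of_nonneg_left key hneg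
    exact le_of_mul_le_mul_right (h13.trans h17) hpos

/-- **Cylinder bound** (`F₀(s) = lB n s / hB n 0 ≤ 7/8`). -/
theorem cyl_bound {n : ℕ} (hn : 5 ≤ n) {r : ℝ → ℝ} (hr : Prof r) (hN : NleB n r) {s : ℝ}
    (hs : s ∈ Ioo (0 : ℝ) 1) (hp : lB n s ≤ 7 / 8 * hB n 0) :
    tau n r s * hB n 0 ^ n ≤ hB (n - 1) 0 ^ n * lB n s := by
  obtain ⟨e, b, R, he0, heb, hb1, hb0, hTR, hR1, h2, h3, h4⟩ := trunc_lin (by omega) hr hN hs
  have hT : 0 < tau n r s := tau_pos hr n ⟨hs.1, hs.2.le⟩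
  exact cyl_of_trunc hn (hT.trans_le hTR) he0 heb hb1 (lB_pos n ⟨hs.1, hs.2.le⟩).le (hB_zero_pos n) hp
    h2 h3 h4

/-- `w`-form: `τ(s) ≤ (w (n-1)/w n)^n * lB n s`. -/
theorem cyl_bound_w {n : ℕ} (hn : 5 ≤ n) {r : ℝ → ℝ} (hr : Prof r) (hN : NleB n r) {s : ℝ}
    (hs : s ∈ Ioo (0 : ℝ) 1) (hp : lB n s ≤ 7 / 8 * hB n 0) :
    tau n r s ≤ (w (n - 1) / w n) ^ n * lB n s := by
  have h := cyl_bound hn hr hN hs hp
  have h0 := hB_zero_pos n
  rw [w_eq_two_hB, w_eq_two_hB, mul_div_mul_left _ _ (by norm_num : (2 : ℝ) ≠ 0), div_pow, div_mul_eq_mul_div,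
    le_div_iff₀ (pow_pos h0 n)]
  exact h

end Crest.Agent.R230
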