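import Crest.Agent.R230.WMain2
import Crest.Agent.R230.TLbound
import Crest.Agent.R230.Apriori3
import Crest.Agent.R230.Apriori4

/-!
# Row 230 (helper170): `λ ≤ 1/8` in dimension `N = 6` (`n = 5`)

`lam_six : WR.lam 5 r ≤ 1/8` from the strong constraint, `e^{l/5} ≤ w₄/w₅`, `e^l ≤ 1/s` and
`3c⁵/(2+c⁵) ≤ κ ≤ 1 + s/c`.
-/

set_option autoImplicit false

open MeasureTheory Set Filter Topology

namespace Crest.Agent.R230.Lam6

/-! ### polynomial inequalities (Bernstein form) -/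

lemma polyI1 {c : ℝ} (h1 : 841 / 1000 ≤ c) (h2 : c ≤ 1) :
    0 ≤ (14 + c ^ 5) ^ 2 * (1 + c) - 25 * (1 - c) * (14 - c - c ^ 2 - c ^ 3 - c ^ 4) ^ 2 * c ^ 2 := by
  obtain ⟨u, hu⟩ : ∃ u, c = 841 / 1000 + u := ⟨c - 841 / 1000, by ring⟩
  obtain ⟨v, hv⟩ : ∃ v, v = 159 / 1000 - u := ⟨_, rfl⟩
  have hu0 : 0 ≤ u := by linarith
  have hv0 : 0 ≤ v := by linarith
  have key : (14 + c ^ 5) ^ 2 * (1 + c) - 25 * (1 - c) * (14 - c - c ^ 2 - c ^ 3 - c ^ 4) ^ 2 * c ^ 2 =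
      (6749000322908135091261969784811422 / 547327302593498541611253) * v ^ 11 +
      (191775053265723047359220110571704000 / 547327302593498541611253) * u ^ 1 * v ^ 10 +
      (526380939032508694363385716235000000 / 182442434197832847203751) * u ^ 2 * v ^ 9 +
      (2230306276383807604541884990000000000 / 182442434197832847203751) * u ^ 3 * v ^ 8 +
      (5820752785822715685778675000000000000 / 182442434197832847203751) * u ^ 4 * v ^ 7 +
      (3375923295291727321600000000000000000 / 60814144732610949067917) * u ^ 5 * v ^ 6 +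
      (12173731847549359990000000000000000000 / 182442434197832847203751) * u ^ 6 * v ^ 5 +
      (10199155509294400000000000000000000000 / 182442434197832847203751) * u ^ 7 * v ^ 4 +
      (652145961125000000000000000000000000 / 20271381577536983022639) * u ^ 8 * v ^ 3 +
      (6653491600000000000000000000000000000 / 547327302593498541611253) * u ^ 9 * v ^ 2 +
      (1489675000000000000000000000000000000 / 547327302593498541611253) * u ^ 10 * v ^ 1 +
      (50000000000000000000000000000000000 / 182442434197832847203751) * u ^ 11 := by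
    subst hv; subst hu; ring
  rw [key]; positivity

lemma polyI2 {c : ℝ} (h1 : 7599 / 10000 ≤ c) (h2 : c ≤ 421 / 500) :
    0 ≤ 11 / 25 * (1 - c ^ 2) * (2 + c ^ 5) - c ^ 2 * (3 * c ^ 5 + (4 - 5 * (c * (1081 / 1000 - 9 / 100 * c ^ 5))) * (2 + c ^ 5)) := by
  obtain ⟨u, hu⟩ : ∃ u, c = 7599 / 10000 + u := ⟨c - 7599 / 10000, by ring⟩
  obtain ⟨v, hv⟩ : ∃ v, v = 821 / 10000 - u := ⟨_, rfl⟩
  have hu0 : 0 ≤ u := by linarith
  have hv0 : 0 ≤ v := by linarith
  have key : 11 / 25 * (1 - c ^ 2) * (2 + c ^ 5) - c ^ 2 * (3 * c ^ 5 + (4 - 5 * (c * (1081 / 1000 - 9 / 100 * c ^ 5))) * (2 + c ^ 5)) =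
      (1365300189155247680516413590078097716472292322630809 / 1539894749589850261634230584733290117220) * v ^ 13 +
      (1702604944588010190578920139437364324220667967069143 / 76994737479492513081711529236664505861) * u ^ 1 * v ^ 12 +
      (15152476759263171381689997928380865805320192880159640 / 76994737479492513081711529236664505861) * u ^ 2 * v ^ 11 +
      (73730510547552901563498451718608513605902367178154400 / 76994737479492513081711529236664505861) * u ^ 3 * v ^ 10 +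
      (229666758533987866956746325117525612672949707737880000 / 76994737479492513081711529236664505861) * u ^ 4 * v ^ 9 +
      (494352515480077600105344836289509099846127881362720000 / 76994737479492513081711529236664505861) * u ^ 5 * v ^ 8 +
      (765480867510623786150791307962899555863384964876800000 / 76994737479492513081711529236664505861) * u ^ 6 * v ^ 7 +
      (869476158843207682931651090035060173229332991744000000 / 76994737479492513081711529236664505861) * u ^ 7 * v ^ 6 +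
      (727738468147187290523513167338677238313362000640000000 / 76994737479492513081711529236664505861) * u ^ 8 * v ^ 5 +
      (444645962216848969363352685956857418856173184000000000 / 76994737479492513081711529236664505861) * u ^ 9 * v ^ 4 +
      (193177026941718596184820959027967441335385088000000000 / 76994737479492513081711529236664505861) * u ^ 10 * v ^ 3 +
      (56594689366568675989981745042304341099089920000000000 / 76994737479492513081711529236664505861) * u ^ 11 * v ^ 2 +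
      (10031658894785753775071027496359226039705600000000000 / 76994737479492513081711529236664505861) * u ^ 12 * v ^ 1 +
      (813080398180352564619010597906047184896000000000000 / 76994737479492513081711529236664505861) * u ^ 13 := by
    subst hv; subst hu; ring
  rw [key]; positivity

lemma polyI3 {c : ℝ} (h1 : 87 / 200 ≤ c) (h2 : c ≤ 19 / 25) :
    0 ≤ 51 / 100 * (1 - c ^ 2) * (2 + c ^ 5) - c ^ 2 * (3 * c ^ 5 + (4 - 5 * (c * (1083 / 1000 - 51 / 500 * c ^ 5))) * (2 + c ^ 5)) := by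
  obtain ⟨u, hu⟩ : ∃ u, c = 87 / 200 + u := ⟨c - 87 / 200, by ring⟩
  obtain ⟨v, hv⟩ : ∃ v, v = 13 / 40 - u := ⟨_, rfl⟩
  have hu0 : 0 ≤ u := by linarith
  have hv0 : 0 ≤ v := by linarith
  have key : 51 / 100 * (1 - c ^ 2) * (2 + c ^ 5) - c ^ 2 * (3 * c ^ 5 + (4 - 5 * (c * (1083 / 1000 - 51 / 500 * c ^ 5))) * (2 + c ^ 5)) =
      (16062285163850266540266593574603 / 36972058910187133789062500) * v ^ 13 +
      (3062721551937215115070466159022 / 711001132888214111328125) * u ^ 1 * v ^ 12 +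
      (13309204776873506434600748701472 / 711001132888214111328125) * u ^ 2 * v ^ 11 +
      (32938494475710813956545792447744 / 711001132888214111328125) * u ^ 3 * v ^ 10 +
      (10030052751849162849177933632512 / 142200226577642822265625) * u ^ 4 * v ^ 9 +
      (46576661763125704234763370221568 / 711001132888214111328125) * u ^ 5 * v ^ 8 +
      (23401605869670591563648004194304 / 711001132888214111328125) * u ^ 6 * v ^ 7 +
      (4157450166260952666971225718784 / 711001132888214111328125) * u ^ 7 * v ^ 6 +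
      (2651572212888985816307123355648 / 711001132888214111328125) * u ^ 8 * v ^ 5 +
      (1656276285715882507257576947712 / 142200226577642822265625) * u ^ 9 * v ^ 4 +
      (8429977686291650764118429794304 / 711001132888214111328125) * u ^ 10 * v ^ 3 +
      (4180069320232939707141069996032 / 711001132888214111328125) * u ^ 11 * v ^ 2 +
      (81001819037543014426973569024 / 54692394837554931640625) * u ^ 12 * v ^ 1 +
      (1400866782975462925559767498752 / 9243014727546783447265625) * u ^ 13 := by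
    subst hv; subst hu; ring
  rw [key]; positivity

lemma polyI5 {c : ℝ} (h1 : 0 ≤ c) (h2 : c ≤ 109 / 250) :
    0 ≤ 2 / 5 * (1 - c ^ 2) * (2 + c ^ 5) - c ^ 2 * (3 * c ^ 5 + (4 - 5 * (c * (1083 / 1000 - 51 / 500 * c ^ 5))) * (2 + c ^ 5)) := by
  obtain ⟨u, hu⟩ : ∃ u, c = u := ⟨c, rfl⟩
  obtain ⟨v, hv⟩ : ∃ v, v = 109 / 250 - u := ⟨_, rfl⟩
  have hu0 : 0 ≤ u := by linarith
  have hv0 : 0 ≤ v := by linarith
  have key : 2 / 5 * (1 - c ^ 2) * (2 + c ^ 5) - c ^ 2 * (3 * c ^ 5 + (4 - 5 * (c * (1083 / 1000 - 51 / 500 * c ^ 5))) * (2 + c ^ 5)) =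
      (11920928955078125000000000000000 / 306580461214335498944273629) * v ^ 13 +
      (154972076416015625000000000000000 / 306580461214335498944273629) * u ^ 1 * v ^ 12 +
      (904905128479003906250000000000000 / 306580461214335498944273629) * u ^ 2 * v ^ 11 +
      (3148560489721298217773437500000000 / 306580461214335498944273629) * u ^ 3 * v ^ 10 +
      (7286215439510345458984375000000000 / 306580461214335498944273629) * u ^ 4 * v ^ 9 +
      (11831214766581643676757812500000000 / 306580461214335498944273629) * u ^ 5 * v ^ 8 +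
      (13836099113335522460937500000000000 / 306580461214335498944273629) * u ^ 6 * v ^ 7 +
      (11751028981300481115576171875000000 / 306580461214335498944273629) * u ^ 7 * v ^ 6 +
      (7199782587424519783244916992187500 / 306580461214335498944273629) * u ^ 8 * v ^ 5 +
      (3108334835498927104457006835937500 / 306580461214335498944273629) * u ^ 9 * v ^ 4 +
      (900937834611109459402294921875000 / 306580461214335498944273629) * u ^ 10 * v ^ 3 +
      (159254827635989648122998046875000 / 306580461214335498944273629) * u ^ 11 * v ^ 2 +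
      (13723152346141253724584960937500 / 306580461214335498944273629) * u ^ 12 * v ^ 1 +
      (21805115132984054514065560794921 / 30658046121433549894427362900) * u ^ 13 := by
    subst hv; subst hu; ring
  rw [key]; positivity

lemma tangA {c : ℝ} (h1 : 0 ≤ c) (h2 : c ≤ 1) :
    0 ≤ 3 - (1083 / 1000 - 51 / 500 * c) ^ 5 * (2 + c) := by
  obtain ⟨u, hu⟩ : ∃ u, c = u := ⟨c, rfl⟩
  obtain ⟨v, hv⟩ : ∃ v, v = 1 - u := ⟨_, rfl⟩
  have hu0 : 0 ≤ u := by linarith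
  have hv0 : 0 ≤ v := by linarith
  have key : 3 - (1083 / 1000 - 51 / 500 * c) ^ 5 * (2 + c) =
      (10150899354357 / 500000000000000) * v ^ 6 +
      (35143670054061 / 1000000000000000) * u ^ 1 * v ^ 5 +
      (61694214412869 / 200000000000000) * u ^ 2 * v ^ 4 +
      (118122150228981 / 100000000000000) * u ^ 3 * v ^ 3 +
      (17510223122631 / 10000000000000) * u ^ 4 * v ^ 2 +
      (1137792792497553 / 1000000000000000) * u ^ 5 * v ^ 1 +
      (274373822613297 / 1000000000000000) * u ^ 6 := by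
    subst hv; subst hu; ring
  rw [key]; positivity

lemma tangB {c : ℝ} (h1 : 1 / 5 ≤ c) (h2 : c ≤ 9 / 20) :
    0 ≤ 3 - (1081 / 1000 - 9 / 100 * c) ^ 5 * (2 + c) := by
  obtain ⟨u, hu⟩ : ∃ u, c = 1 / 5 + u := ⟨c - 1 / 5, by ring⟩
  obtain ⟨v, hv⟩ : ∃ v, v = 1 / 4 - u := ⟨_, rfl⟩
  have hu0 : 0 ≤ u := by linarith
  have hv0 : 0 ≤ v := by linarith
  have key : 3 - (1081 / 1000 - 9 / 100 * c) ^ 5 * (2 + c) =
      (70027500343027 / 1220703125000) * v ^ 6 +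
      (1214617079781883 / 4882812500000) * u ^ 1 * v ^ 5 +
      (928837795159643 / 1953125000000) * u ^ 2 * v ^ 4 +
      (1087866462739779 / 1953125000000) * u ^ 3 * v ^ 3 +
      (868614374915113 / 1953125000000) * u ^ 4 * v ^ 2 +
      (17280310524659543 / 78125000000000) * u ^ 5 * v ^ 1 +
      (7697991894274351 / 156250000000000) * u ^ 6 := by
    subst hv; subst hu; ring
  rw [key]; positivity

/-! ### the function `h₅` -/

/-- `h₅` in terms of `x = (1+k)^{1/5}` -/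
lemma exists_root {k : ℝ} (hk : 0 < 1 + k) :
    ∃ x : ℝ, 0 < x ∧ x ^ 5 = 1 + k ∧ WR.hm 5 k = x ^ 5 - 5 * x + 4 := by
  refine ⟨(1 + k) ^ ((1 : ℝ) / 5), Real.rpow_pos_of_pos hk _, ?_, ?_⟩
  · rw [← Real.rpow_natCast, ← Real.rpow_mul hk.le]
    norm_num
  · have h : ((1 + k) ^ ((1 : ℝ) / 5)) ^ 5 = 1 + k := by
      rw [← Real.rpow_natCast, ← Real.rpow_mul hk.le]
      norm_num
    unfold WR.hm
    rw [h]
    push_cast
    ring

lemma hm_le_of_nonneg {k : ℝ} (hk : 0 ≤ k) : WR.hm 5 k ≤ 2 / 5 * k ^ 2 := by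
  obtain ⟨x, hx0, hx, hh⟩ := exists_root (k := k) (by linarith)
  have hx1 : 1 ≤ x := by
    by_contra hcon
    push Not at hcon
    have := pow_lt_one₀ hx0.le hcon (n := 5) (by norm_num)
    linarith
  rw [hh]
  have hk' : k = x ^ 5 - 1 := by linarith
  rw [hk']
  obtain ⟨y, hy⟩ : ∃ y, x = 1 + y := ⟨x - 1, by ring⟩
  have hy0 : 0 ≤ y := by linarith
  have key : 2 / 5 * (x ^ 5 - 1) ^ 2 - (x ^ 5 - 5 * x + 4) =
      30 * y ^ 3 + 55 * y ^ 4 + 59 * y ^ 5 + 42 * y ^ 6 + 20 * y ^ 7 + 6 * y ^ 8 + y ^ 9 + 0 * y ^ 10 +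
      ((2 / 5 * ((1 + y) ^ 5 - 1) ^ 2 - ((1 + y) ^ 5 - 5 * (1 + y) + 4)) -
      (30 * y ^ 3 + 55 * y ^ 4 + 59 * y ^ 5 + 42 * y ^ 6 + 20 * y ^ 7 + 6 * y ^ 8 + y ^ 9)) := by
    rw [hy]; ring
  have h2 : 0 ≤ 2 / 5 * ((1 + y) ^ 5 - 1) ^ 2 - ((1 + y) ^ 5 - 5 * (1 + y) + 4) := by
    have : 2 / 5 * ((1 + y) ^ 5 - 1) ^ 2 - ((1 + y) ^ 5 - 5 * (1 + y) + 4) =
        y ^ 3 * (30 + 55 * y + 59 * y ^ 2 + 48 * y ^ 3 + 26 * y ^ 4 + 9 * y ^ 5 + 2 * y ^ 6 + 2 / 5 * y ^ 7) +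
        (2 / 5 * ((1 + y) ^ 5 - 1) ^ 2 - ((1 + y) ^ 5 - 5 * (1 + y) + 4) -
        y ^ 3 * (30 + 55 * y + 59 * y ^ 2 + 48 * y ^ 3 + 26 * y ^ 4 + 9 * y ^ 5 + 2 * y ^ 6 + 2 / 5 * y ^ 7)) := by
      ring
    ring_nf
    positivity
  rw [hy]
  linarith

/-- `f x = x⁵ - 5x + 4` is antitone on `[0,1]` -/
lemma f_anti {a x : ℝ} (ha : 0 ≤ a) (hax : a ≤ x) (hx : x ≤ 1) :
    x ^ 5 - 5 * x + 4 ≤ a ^ 5 - 5 * a + 4 := by
  have h1 : x ^ 5 - a ^ 5 = (x - a) * (x ^ 4 + x ^ 3 * a + x ^ 2 * a ^ 2 + x * a ^ 3 + a ^ 4) := by ring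
  have hx0 : 0 ≤ x := ha.trans hax
  have ha1 : a ≤ 1 := hax.trans hx
  have h2 : x ^ 4 + x ^ 3 * a + x ^ 2 * a ^ 2 + x * a ^ 3 + a ^ 4 ≤ 5 := by
    have e1 : x ^ 4 ≤ 1 := pow_le_one₀ hx0 hx
    have e2 : x ^ 3 * a ≤ 1 := mul_le_one₀ (pow_le_one₀ hx0 hx) ha ha1
    have e3 : x ^ 2 * a ^ 2 ≤ 1 := mul_le_one₀ (pow_le_one₀ hx0 hx) (by positivity) (pow_le_one₀ ha ha1)
    have e4 : x * a ^ 3 ≤ 1 := mul_le_one₀ hx (by positivity) (pow_le_one₀ ha ha1)
    have e5 : a ^ 4 ≤ 1 := pow_le_one₀ ha ha1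
    linarith
  have h3 := mul_le_mul_of_nonneg_left h2 (sub_nonneg.2 hax)
  linarith

/-- pointwise bound of `h₅`, generic -/
lemma hm_le {c s k ρ a : ℝ} (hc : 0 < c) (hs : 0 < s) (hk0 : 0 < 1 + k)
    (hk1 : (1 + k) * c ≤ c + s) (hρ : 2 / 5 ≤ ρ) (ha : 0 ≤ a) (ha1 : a ^ 5 ≤ 1 + k)
    (hf : (a ^ 5 - 5 * a + 4) * c ^ 2 ≤ ρ * s ^ 2) : WR.hm 5 k * c ^ 2 ≤ ρ * s ^ 2 := by
  rcases le_or_gt 0 k with hk | hk
  · have h1 := hm_le_of_nonneg hk
    have h2 : k * c ≤ s := by nlinarith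
    have h3 : (k * c) ^ 2 ≤ s ^ 2 := pow_le_pow_left₀ (by positivity) h2 2
    calc WR.hm 5 k * c ^ 2 ≤ 2 / 5 * k ^ 2 * c ^ 2 := mul_le_mul_of_nonneg_right h1 (by positivity)
      _ = 2 / 5 * (k * c) ^ 2 := by ring
      _ ≤ 2 / 5 * s ^ 2 := by linarith
      _ ≤ ρ * s ^ 2 := mul_le_mul_of_nonneg_right hρ (by positivity)
  · obtain ⟨x, hx0, hx, hh⟩ := exists_root hk0
    have hx1 : x ≤ 1 := by
      by_contra hcon
      push Not at hcon
      have := one_lt_pow₀ hcon (n := 5) (by norm_num)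
      linarith
    have hax : a ≤ x := by
      rw [← hx] at ha1
      exact (pow_le_pow_iff_left₀ ha hx0.le (by norm_num)).1 ha1
    have h1 := f_anti ha hax hx1
    rw [hh]
    calc (x ^ 5 - 5 * x + 4) * c ^ 2 ≤ (a ^ 5 - 5 * a + 4) * c ^ 2 :=
          mul_le_mul_of_nonneg_right h1 (by positivity)
      _ ≤ _ := hf

/-- the pieces with `a = c (u₀ - u₁ c⁵)` -/
lemma hm_le_piece {c s k ρ u0 u1 : ℝ} (hc : 0 < c) (hc1 : c ≤ 1) (hs : 0 < s) (hcs : s ^ 2 = 1 - c ^ 2)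
    (hk0 : 0 < 1 + k) (hk1 : (1 + k) * c ≤ c + s) (hk2 : 3 * c ^ 5 ≤ (1 + k) * (2 + c ^ 5)) (hρ : 2 / 5 ≤ ρ)
    (hu : 0 ≤ u0 - u1 * c ^ 5) (ht : 0 ≤ 3 - (u0 - u1 * c ^ 5) ^ 5 * (2 + c ^ 5))
    (hp : 0 ≤ ρ * (1 - c ^ 2) * (2 + c ^ 5) - c ^ 2 * (3 * c ^ 5 +
      (4 - 5 * (c * (u0 - u1 * c ^ 5))) * (2 + c ^ 5))) : WR.hm 5 k * c ^ 2 ≤ ρ * s ^ 2 := by
  have hy : 0 < 2 + c ^ 5 := by positivity
  have h5 : (c * (u0 - u1 * c ^ 5)) ^ 5 * (2 + c ^ 5) ≤ 3 * c ^ 5 := by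
    have : (c * (u0 - u1 * c ^ 5)) ^ 5 * (2 + c ^ 5) = c ^ 5 * ((u0 - u1 * c ^ 5) ^ 5 * (2 + c ^ 5)) := by ring
    rw [this]
    have := mul_le_mul_of_nonneg_left (show (u0 - u1 * c ^ 5) ^ 5 * (2 + c ^ 5) ≤ 3 by linarith)
      (show 0 ≤ c ^ 5 by positivity)
    linarith
  refine hm_le (a := c * (u0 - u1 * c ^ 5)) hc hs hk0 hk1 hρ (by positivity) ?_ ?_
  · exact le_of_mul_le_mul_right (h5.trans hk2) hy
  · rw [hcs]
    refine le_of_mul_le_mul_right ?_ hy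
    have h6 := mul_le_mul_of_nonneg_left h5 (show 0 ≤ c ^ 2 by positivity)
    nlinarith

/-- the piece near `c = 1`, `a = 15 c/(14 + c⁵)` -/
lemma hm_le_one {c s k : ℝ} (hc : 841 / 1000 ≤ c) (hc1 : c ≤ 1) (hs : 0 < s) (hcs : s ^ 2 = 1 - c ^ 2)
    (hk0 : 0 < 1 + k) (hk1 : (1 + k) * c ≤ c + s) (hk2 : 3 * c ^ 5 ≤ (1 + k) * (2 + c ^ 5)) :
    WR.hm 5 k * c ^ 2 ≤ 2 / 5 * s ^ 2 := by
  have hc0 : 0 < c := by linarith
  have hy : 0 < 2 + c ^ 5 := by positivity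
  have hz : 0 < 14 + c ^ 5 := by positivity
  have hy1 : c ^ 5 ≤ 1 := pow_le_one₀ hc0.le hc1
  -- AM-GM : 15^5 (2+y) ≤ 3 (14+y)^5
  have am : 15 ^ 5 * (2 + c ^ 5) ≤ 3 * (14 + c ^ 5) ^ 5 := by
    obtain ⟨v, hv⟩ : ∃ v, c ^ 5 = 1 - v := ⟨1 - c ^ 5, by ring⟩
    have hv0 : 0 ≤ v := by linarith
    have hv1 : v ≤ 1 := by linarith [show 0 ≤ c ^ 5 by positivity]
    rw [hv]
    have : 3 * (14 + (1 - v)) ^ 5 - 15 ^ 5 * (2 + (1 - v)) =
        v ^ 2 * (3 * (33750 - 2250 * v + 75 * v ^ 2 - v ^ 3)) := by ring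
    have h2 : 0 ≤ v ^ 2 * (3 * (33750 - 2250 * v + 75 * v ^ 2 - v ^ 3)) := by
      apply mul_nonneg (by positivity)
      nlinarith [pow_le_one₀ hv0 hv1 (n := 3), pow_nonneg hv0 2]
    linarith
  have h5 : (15 * c / (14 + c ^ 5)) ^ 5 * (2 + c ^ 5) ≤ 3 * c ^ 5 := by
    rw [div_pow, div_mul_eq_mul_div, div_le_iff₀ (by positivity)]
    calc (15 * c) ^ 5 * (2 + c ^ 5) = c ^ 5 * (15 ^ 5 * (2 + c ^ 5)) := by ring
      _ ≤ c ^ 5 * (3 * (14 + c ^ 5) ^ 5) := mul_le_mul_of_nonneg_left am (by positivity)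
      _ = _ := by ring
  have ha0 : 0 ≤ 15 * c / (14 + c ^ 5) := by positivity
  have ha1 : 15 * c / (14 + c ^ 5) ≤ 1 := by
    rw [div_le_one hz]
    have : 14 + c ^ 5 - 15 * c = (1 - c) * (14 - c - c ^ 2 - c ^ 3 - c ^ 4) := by ring
    have h2 : 0 ≤ (1 - c) * (14 - c - c ^ 2 - c ^ 3 - c ^ 4) := by
      apply mul_nonneg (by linarith)
      have e1 := pow_le_one₀ hc0.le hc1 (n := 2)
      have e2 := pow_le_one₀ hc0.le hc1 (n := 3)
      have e3 := pow_le_one₀ hc0.le hc1 (n := 4)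
      linarith
    linarith
  refine hm_le (a := 15 * c / (14 + c ^ 5)) hc0 hs hk0 hk1 le_rfl ha0 ?_ ?_
  · exact le_of_mul_le_mul_right (h5.trans hk2) hy
  · set a := 15 * c / (14 + c ^ 5) with ha
    have e1 : a ^ 5 - 5 * a + 4 = (1 - a) ^ 2 * (a ^ 3 + 2 * a ^ 2 + 3 * a + 4) := by ring
    have e2 : a ^ 3 + 2 * a ^ 2 + 3 * a + 4 ≤ 10 := by
      have := pow_le_one₀ ha0 ha1 (n := 3)
      have := pow_le_one₀ ha0 ha1 (n := 2)
      linarith
    have e3 : (1 - a) * (14 + c ^ 5) = (1 - c) * (14 - c - c ^ 2 - c ^ 3 - c ^ 4) := by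
      rw [ha]; field_simp; ring
    have hp := polyI1 hc hc1
    rw [e1, hcs]
    have e4 : (1 - a) ^ 2 * (a ^ 3 + 2 * a ^ 2 + 3 * a + 4) * c ^ 2 ≤ 10 * ((1 - a) ^ 2 * c ^ 2) := by
      have := mul_le_mul_of_nonneg_left e2 (show 0 ≤ (1 - a) ^ 2 * c ^ 2 by positivity)
      linarith
    refine e4.trans ?_
    refine le_of_mul_le_mul_right ?_ (show 0 < (14 + c ^ 5) ^ 2 by positivity)
    have e5 : 10 * ((1 - a) ^ 2 * c ^ 2) * (14 + c ^ 5) ^ 2 =
        10 * c ^ 2 * ((1 - a) * (14 + c ^ 5)) ^ 2 := by ring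
    rw [e5, e3]
    have h1c : 0 ≤ 1 - c := by linarith
    have := mul_nonneg h1c hp
    nlinarith

/-! ### facts along the path -/

lemma lB_le {s : ℝ} (hs : s ∈ Icc (0 : ℝ) 1) : lB 5 s ≤ s * ((2 + cc s ^ 5) / 3) := by
  have hs0 := hs.1
  rcases hs0.eq_or_lt with h | h
  · rw [← h, lB_zero]; simp
  have h1 : ∀ x ∈ Icc (0 : ℝ) s, Real.sqrt (1 - x ^ 2) ^ 5 ≤ 1 - x ^ 2 / s ^ 2 * (1 - cc s ^ 5) := by
    intro x hx
    have hsq : s ^ 2 ≤ 1 := pow_le_one₀ hs0 hs.2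
    have ht0 : 0 ≤ x ^ 2 / s ^ 2 := by positivity
    have ht1 : x ^ 2 / s ^ 2 ≤ 1 := by
      rw [div_le_one (by positivity)]
      exact pow_le_pow_left₀ hx.1 hx.2 2
    have hC : ConvexOn ℝ (Ici 0) fun x : ℝ => x ^ ((5 : ℝ) / 2) := convexOn_rpow (by norm_num)
    have hm1 : (1 : ℝ) ∈ Ici (0 : ℝ) := by simp
    have hm2 : 1 - s ^ 2 ∈ Ici (0 : ℝ) := by simpa using hsq
    have hconv := hC.2 hm1 hm2 (show 0 ≤ 1 - x ^ 2 / s ^ 2 by linarith) ht0 (by ring)
    simp only [smul_eq_mul] at hconv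
    have e1 : (1 - x ^ 2 / s ^ 2) * 1 + x ^ 2 / s ^ 2 * (1 - s ^ 2) = 1 - x ^ 2 := by
      field_simp; ring
    have e2 : ∀ u : ℝ, 0 ≤ u → Real.sqrt u ^ 5 = u ^ ((5 : ℝ) / 2) := fun u hu => by
      rw [Real.sqrt_eq_rpow, ← Real.rpow_natCast, ← Real.rpow_mul hu]
      norm_num
    rw [e1, Real.one_rpow, ← e2 _ (by nlinarith [pow_le_pow_left₀ hx.1 hx.2 2]), ← e2 _ (by linarith)] at hconv
    refine hconv.trans (le_of_eq ?_)
    unfold cc
    ring
  have h2 : lB 5 s ≤ ∫ x in (0 : ℝ)..s, (1 - x ^ 2 / s ^ 2 * (1 - cc s ^ 5)) := by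
    unfold lB
    refine intervalIntegral.integral_mono_on hs0 ?_ ?_ h1
    · exact (by fun_prop : Continuous fun x : ℝ => Real.sqrt (1 - x ^ 2) ^ 5).intervalIntegrable _ _
    · exact (by fun_prop : Continuous fun x : ℝ => 1 - x ^ 2 / s ^ 2 * (1 - cc s ^ 5)).intervalIntegrable _ _
  have h3 : ∫ x in (0 : ℝ)..s, (1 - x ^ 2 / s ^ 2 * (1 - cc s ^ 5)) = s * ((2 + cc s ^ 5) / 3) := by
    have : ∀ x : ℝ, 1 - x ^ 2 / s ^ 2 * (1 - cc s ^ 5) = 1 - ((1 - cc s ^ 5) / s ^ 2) * x ^ 2 := fun x => by ring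
    simp only [this]
    rw [intervalIntegral.integral_sub (by simp) (by
      exact (by fun_prop : Continuous fun x : ℝ => (1 - cc s ^ 5) / s ^ 2 * x ^ 2).intervalIntegrable _ _),
      intervalIntegral.integral_const_mul, integral_pow]
    simp
    field_simp
    ring
  linarith

variable {r : ℝ → ℝ} (hr : Prof r)

include hr

lemma kk_low {s : ℝ} (hs : s ∈ Ioo (0 : ℝ) 1) : 3 * cc s ^ 5 ≤ (1 + kk 5 r s) * (2 + cc s ^ 5) := by
  have h1 := tau_mul_le_dtau hr 5 (s := s) ⟨hs.1.le, hs.2⟩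
  have h2 := lB_le (s := s) ⟨hs.1.le, hs.2.le⟩
  have hT : 0 < tau 5 r s := tau_pos hr 5 ⟨hs.1, hs.2.le⟩
  have hd := dtau_pos hr 5 (s := s) ⟨by linarith [hs.1], hs.2⟩
  have hc : Real.sqrt (1 - s ^ 2) = cc s := rfl
  rw [hc] at h1
  rw [one_add_kk]
  have h3 : tau 5 r s * cc s ^ 5 ≤ dtau 5 r s * (s * ((2 + cc s ^ 5) / 3)) :=
    h1.trans (mul_le_mul_of_nonneg_left h2 hd.le)
  rw [div_mul_eq_mul_div, le_div_iff₀ hT]
  nlinarith

lemma kk_up {s : ℝ} (hs : s ∈ Ioo (0 : ℝ) 1) : (1 + kk 5 r s) * cc s ≤ cc s + s := by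
  have h1 := kappa_le' hr 5 (α := 1) le_rfl (by norm_num) hs
  have hT : 0 < tau 5 r s := tau_pos hr 5 ⟨hs.1, hs.2.le⟩
  have hc : Real.sqrt (1 - s ^ 2) = cc s := rfl
  rw [hc, one_mul] at h1
  rw [one_add_kk, div_mul_eq_mul_div, div_le_iff₀ hT]
  exact h1

lemma exp_le_one_div {s : ℝ} (hs : s ∈ Ioo (0 : ℝ) 1) : Real.exp (ll 5 r s) ≤ 1 / s := by
  rw [exp_ll hr 5 ⟨hs.1, hs.2.le⟩]
  have h := (tau_mem_half' hr 5 (s := s) ⟨hs.1.le, hs.2.le⟩).2
  exact div_le_div_of_nonneg_right h hs.1.le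

omit hr in
lemma exp_div_five_le {s E : ℝ} (hE : 0 ≤ E) (h : Real.exp (ll 5 r s) ≤ E ^ 5) :
    Real.exp (ll 5 r s / (5 : ℕ)) ≤ E := by
  have h1 : Real.exp (ll 5 r s / (5 : ℕ)) ^ 5 = Real.exp (ll 5 r s) := by
    rw [← Real.exp_nat_mul]; congr 1; push_cast; ring
  rw [← h1] at h
  exact (pow_le_pow_iff_left₀ (Real.exp_pos _).le hE (by norm_num)).1 h

omit hr in
lemma sqrt5_le {u : ℝ} (hu0 : 0 ≤ u) (hu : u ≤ 3 / 10) :
    Real.sqrt (1 - u) ^ 5 ≤ 1 - 5 / 2 * u + 15 / 8 * u ^ 2 - 5 / 16 * u ^ 3 := by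
  have hP : 0 ≤ 1 - 5 / 2 * u + 15 / 8 * u ^ 2 - 5 / 16 * u ^ 3 := by
    nlinarith [pow_nonneg hu0 2, pow_nonneg hu0 3, mul_nonneg (pow_nonneg hu0 2) (sub_nonneg.2 hu)]
  have h1 : (Real.sqrt (1 - u) ^ 5) ^ 2 = (1 - u) ^ 5 := by
    rw [← pow_mul, mul_comm 5 2, pow_mul, Real.sq_sqrt (by linarith)]
  refine le_of_sq_le_sq ?_ hP
  rw [h1]
  have : (1 - 5 / 2 * u + 15 / 8 * u ^ 2 - 5 / 16 * u ^ 3) ^ 2 - (1 - u) ^ 5 =
      u ^ 4 * ((5 * u - 22 / 5) ^ 2 + 16 / 25) / 256 := by ring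
  have h2 : 0 ≤ u ^ 4 * ((5 * u - 22 / 5) ^ 2 + 16 / 25) / 256 := by positivity
  linarith

omit hr in
lemma lB54 : lB 5 (54 / 100) ≤ 42941 / 100000 := by
  have h1 : lB 5 (54 / 100) ≤ ∫ x in (0 : ℝ)..(54 / 100),
      (1 - 5 / 2 * x ^ 2 + 15 / 8 * x ^ 4 - 5 / 16 * x ^ 6) := by
    unfold lB
    refine intervalIntegral.integral_mono_on (by norm_num) ?_ ?_ ?_
    · exact (by fun_prop : Continuous fun x : ℝ => Real.sqrt (1 - x ^ 2) ^ 5).intervalIntegrable _ _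
    · exact (by fun_prop : Continuous fun x : ℝ =>
        1 - 5 / 2 * x ^ 2 + 15 / 8 * x ^ 4 - 5 / 16 * x ^ 6).intervalIntegrable _ _
    · intro x hx
      have hx2 : x ^ 2 ≤ 3 / 10 := by nlinarith [hx.1, hx.2]
      have h := sqrt5_le (u := x ^ 2) (by positivity) hx2
      calc _ ≤ _ := h
        _ = _ := by ring
  have h2 : ∫ x in (0 : ℝ)..(54 / 100), (1 - 5 / 2 * x ^ 2 + 15 / 8 * x ^ 4 - 5 / 16 * x ^ 6) =
      54 / 100 - 5 / 2 * ((54 / 100) ^ 3 / 3) + 15 / 8 * ((54 / 100) ^ 5 / 5) - 5 / 16 * ((54 / 100) ^ 7 / 7) := by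
    have i1 : ∀ (n : ℕ) (a b c : ℝ), IntervalIntegrable (fun x : ℝ => c * x ^ n) volume a b := fun n a b c =>
      (by fun_prop : Continuous fun x : ℝ => c * x ^ n).intervalIntegrable _ _
    have i0 : ∀ (a b c : ℝ), IntervalIntegrable (fun _ : ℝ => c) volume a b := fun a b c => by simp
    rw [intervalIntegral.integral_sub (((i0 _ _ _).sub (i1 _ _ _ _)).add (i1 _ _ _ _)) (i1 _ _ _ _),
      intervalIntegral.integral_add ((i0 _ _ _).sub (i1 _ _ _ _)) (i1 _ _ _ _),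
      intervalIntegral.integral_sub (i0 _ _ _) (i1 _ _ _ _), intervalIntegral.integral_const_mul,
      intervalIntegral.integral_const_mul, intervalIntegral.integral_const_mul, integral_pow, integral_pow,
      integral_pow]
    simp
    norm_num
  rw [h2] at h1
  refine h1.trans ?_
  norm_num

omit hr in
lemma lB_mono {s t : ℝ} (hst : s ≤ t) : lB 5 s ≤ lB 5 t := by
  have h : lB 5 t = lB 5 s + ∫ x in s..t, Real.sqrt (1 - x ^ 2) ^ 5 := by
    unfold lB
    rw [intervalIntegral.integral_add_adjacent_intervals]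
    · exact (by fun_prop : Continuous fun x : ℝ => Real.sqrt (1 - x ^ 2) ^ 5).intervalIntegrable _ _
    · exact (by fun_prop : Continuous fun x : ℝ => Real.sqrt (1 - x ^ 2) ^ 5).intervalIntegrable _ _
  have h2 : 0 ≤ ∫ x in s..t, Real.sqrt (1 - x ^ 2) ^ 5 :=
    intervalIntegral.integral_nonneg hst fun x _ => by positivity
  linarith

omit hr in
lemma w_zero : w 0 = 2 := by
  unfold w
  norm_num

omit hr in
lemma w_one : w 1 = Real.pi / 2 := by
  unfold w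
  have := integral_sqrt_one_sub_sq
  simpa using this

omit hr in
lemma w_four : w 4 = 16 / 15 := by
  have h0 := w_rec 0
  have h2 := w_rec 2
  rw [w_zero] at h0
  norm_num at h0 h2
  linarith

omit hr in
lemma w_five : w 5 = 5 * Real.pi / 16 := by
  have h0 := w_rec 1
  have h2 := w_rec 3
  rw [w_one] at h0
  norm_num at h0 h2
  linarith

omit hr in
lemma hB_five : hB 5 0 = 5 * Real.pi / 32 := by
  have := w_eq_two_hB 5
  rw [w_five] at this
  linarith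

lemma exp_small (hN : NleB 5 r) {s : ℝ} (hs : s ∈ Ioo (0 : ℝ) 1) (h : s ≤ 54 / 100) :
    Real.exp (ll 5 r s / (5 : ℕ)) ≤ 10866 / 10000 := by
  refine exp_div_five_le (by norm_num) ?_
  have h1 : lB 5 s ≤ 7 / 8 * hB 5 0 := by
    rw [hB_five]
    have := lB_mono h
    have := lB54
    have := Real.pi_gt_d4
    norm_num at *
    linarith
  have h2 := cyl_bound_w le_rfl hr hN hs h1
  have h3 := lB_le (s := s) ⟨hs.1.le, hs.2.le⟩
  have h4 : cc s ^ 5 ≤ 1 := pow_le_one₀ (cc_nonneg s) (cc_le_one s)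
  have h5 : lB 5 s ≤ s := by nlinarith [hs.1]
  rw [exp_ll hr 5 ⟨hs.1, hs.2.le⟩, div_le_iff₀ hs.1]
  have hw : w (5 - 1) / w 5 ≤ 10866 / 10000 := by
    rw [show 5 - 1 = 4 from rfl, w_four, w_five, div_le_iff₀ (by positivity)]
    have := Real.pi_gt_d4
    norm_num at *
    linarith
  have hw0 : 0 ≤ w (5 - 1) / w 5 := by
    rw [show 5 - 1 = 4 from rfl, w_four, w_five]; positivity
  have h6 : (w (5 - 1) / w 5) ^ 5 ≤ (10866 / 10000) ^ 5 := pow_le_pow_left₀ hw0 hw 5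
  calc tau 5 r s ≤ (w (5 - 1) / w 5) ^ 5 * lB 5 s := h2
    _ ≤ (w (5 - 1) / w 5) ^ 5 * s := mul_le_mul_of_nonneg_left h5 (by positivity)
    _ ≤ _ := mul_le_mul_of_nonneg_right h6 hs.1.le

/-- one segment -/
lemma seg {a b E ρ : ℝ} (ha : 0 ≤ a) (hab : a ≤ b) (hb : b ≤ 1) (hE : 0 ≤ E) (hρ : 0 ≤ ρ)
    (hint : WR.NI 5 (fun s => Real.exp (ll 5 r s / (5 : ℕ)) * WR.hm 5 (kk 5 r s)))
    (h1 : ∀ s ∈ Ioo a b, Real.exp (ll 5 r s / (5 : ℕ)) ≤ E)
    (h2 : ∀ s ∈ Ioo a b, WR.hm 5 (kk 5 r s) * cc s ^ 2 ≤ ρ * s ^ 2) :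
    ∫ s in a..b, cc s ^ (5 - 1) * (Real.exp (ll 5 r s / (5 : ℕ)) * WR.hm 5 (kk 5 r s)) ≤
      E * ρ * ((b ^ 3 / 3 - b ^ 5 / 5) - (a ^ 3 / 3 - a ^ 5 / 5)) := by
  have i1 : IntervalIntegrable (fun s => cc s ^ (5 - 1) * (Real.exp (ll 5 r s / (5 : ℕ)) * WR.hm 5 (kk 5 r s)))
      volume a b := by
    refine IntervalIntegrable.mono_set hint ?_
    rw [uIcc_of_le hab, uIcc_of_le (by norm_num : (0 : ℝ) ≤ 1)]
    exact Icc_subset_Icc ha hb
  have i2 : IntervalIntegrable (fun s : ℝ => E * ρ * (s ^ 2 - s ^ 4)) volume a b :=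
    (by fun_prop : Continuous fun s : ℝ => E * ρ * (s ^ 2 - s ^ 4)).intervalIntegrable _ _
  have h3 := intervalIntegral.integral_mono_on_of_le_Ioo hab i1 i2 (fun s hs => by
    have hs' : s ∈ Ioo (0 : ℝ) 1 := ⟨ha.trans_lt hs.1, hs.2.trans_le hb⟩
    have e1 := h1 s hs
    have e2 := h2 s hs
    have hc := WR.cc_sq' hs'
    have e3 : (0 : ℝ) ≤ cc s ^ 2 := by positivity
    have hex := (Real.exp_pos (ll 5 r s / (5 : ℕ))).le
    calc cc s ^ (5 - 1) * (Real.exp (ll 5 r s / (5 : ℕ)) * WR.hm 5 (kk 5 r s))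
        = cc s ^ 2 * Real.exp (ll 5 r s / (5 : ℕ)) * (WR.hm 5 (kk 5 r s) * cc s ^ 2) := by
          norm_num; ring
      _ ≤ cc s ^ 2 * Real.exp (ll 5 r s / (5 : ℕ)) * (ρ * s ^ 2) :=
          mul_le_mul_of_nonneg_left e2 (by positivity)
      _ = Real.exp (ll 5 r s / (5 : ℕ)) * (cc s ^ 2 * (ρ * s ^ 2)) := by ring
      _ ≤ E * (cc s ^ 2 * (ρ * s ^ 2)) := mul_le_mul_of_nonneg_right e1 (by positivity)
      _ = E * ρ * (s ^ 2 - s ^ 4) := by rw [hc]; ring)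
  refine h3.trans (le_of_eq ?_)
  rw [intervalIntegral.integral_const_mul, intervalIntegral.integral_sub
    ((continuous_pow 2).intervalIntegrable _ _) ((continuous_pow 4).intervalIntegrable _ _), integral_pow,
    integral_pow]
  push_cast
  ring

/-- **`λ ≤ 1/8`** in dimension 6. -/
theorem lam_six (hN : NleB 5 r) : WR.lam 5 r ≤ 1 / 8 := by
  have hint := WR.NI_ehm hr (n := 5) (by norm_num)
  have hst := WR.strong hr (n := 5) (by norm_num) hN
  have hl := continuousOn_ll hr 5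
  have hG : ContinuousOn (fun s => WR.Gm 5 (ll 5 r s)) (Icc 0 1) := by
    unfold WR.Gm
    exact (continuousOn_const.mul (((hl.div_const _).rexp).sub continuousOn_const)).sub hl
  have n1 : WR.NI 5 (fun s => WR.Y s * ll 5 r s) := WR.NI_Y (by norm_num) hl
  have n2 : WR.NI 5 (fun s => WR.Y s * WR.Gm 5 (ll 5 r s)) := WR.NI_Y (by norm_num) hG
  have n3 : WR.NI 5 (fun s => WR.Y s * (1 : ℝ)) := WR.NI_Y (by norm_num) continuousOn_const
  -- drop `G`
  have hG0 : 0 ≤ WR.JJ 5 (fun s => WR.Y s * WR.Gm 5 (ll 5 r s)) := by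
    refine WR.JJ_nonneg n2 fun s hs => mul_nonneg (WR.Y_nonneg hs) ?_
    unfold WR.Gm
    have := Real.add_one_le_exp (ll 5 r s / (5 : ℕ))
    push_cast at *
    linarith
  have e1 : WR.JJ 5 (fun s => Real.exp (ll 5 r s / (5 : ℕ)) * WR.hm 5 (kk 5 r s) -
      (((5 : ℕ) : ℝ) - 1) * (WR.Y s * (ll 5 r s + WR.Gm 5 (ll 5 r s)))) =
      WR.JJ 5 (fun s => Real.exp (ll 5 r s / (5 : ℕ)) * WR.hm 5 (kk 5 r s)) -
        4 * WR.JJ 5 (fun s => WR.Y s * ll 5 r s) - 4 * WR.JJ 5 (fun s => WR.Y s * WR.Gm 5 (ll 5 r s)) := by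
    rw [← WR.JJ_smul, ← WR.JJ_smul, ← WR.JJ_sub hint (n1.smul _), ← WR.JJ_sub (hint.sub (n1.smul _)) (n2.smul _)]
    refine WR.JJ_congr fun s _ => ?_
    push_cast
    ring
  rw [e1] at hst
  -- the value of `JJ Y`
  have e2 : WR.JJ 5 (fun s => WR.Y s * (1 : ℝ)) = 2 / 15 := by
    have h1 := WR.JJ_Y (n := 5) (by norm_num)
    have h2 : WR.JJ 5 (fun _ => (1 : ℝ)) = 8 / 15 := by
      have h3 := w_half 4
      rw [w_four] at h3
      have h4 : WR.JJ 5 (fun _ => (1 : ℝ)) = ∫ s in (0 : ℝ)..1, Real.sqrt (1 - s ^ 2) ^ 4 := by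
        unfold WR.JJ
        simp [cc]
      rw [h4]; linarith
    rw [h2] at h1
    push_cast at h1
    linarith
  -- segments
  have hpt : ∀ s ∈ Ioo (0 : ℝ) 1, s ^ 2 = 1 - cc s ^ 2 := fun s hs => by
    have := WR.cc_sq' hs; linarith
  have hcc0 : ∀ s ∈ Ioo (0 : ℝ) 1, 0 < cc s := fun s hs => WR.cc_pos' hs
  have g1 := seg hr (a := 0) (b := 54 / 100) (E := 10866 / 10000) (ρ := 2 / 5) le_rfl (by norm_num)
    (by norm_num) (by norm_num) (by norm_num) hint (fun s hs => exp_small hr hN ⟨hs.1, by linarith [hs.2]⟩ hs.2.le)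
    (fun s hs => by
      have hs' : s ∈ Ioo (0 : ℝ) 1 := ⟨hs.1, by linarith [hs.2]⟩
      refine hm_le_one ?_ (cc_le_one s) hs.1 (hpt s hs') (one_add_kk_pos hr 5 hs') (kk_up hr hs') (kk_low hr hs')
      refine le_of_sq_le_sq ?_ (cc_nonneg s)
      rw [WR.cc_sq' hs']
      nlinarith [hs.1, hs.2])
  have g2 := seg hr (a := 54 / 100) (b := 65 / 100) (E := 11312 / 10000) (ρ := 44 / 100) (by norm_num) (by norm_num)
    (by norm_num) (by norm_num) (by norm_num) hint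
    (fun s hs => exp_div_five_le (by norm_num) ((exp_le_one_div hr ⟨by linarith [hs.1], by linarith [hs.2]⟩).trans
      ((one_div_le_one_div_of_le (by norm_num) hs.1.le).trans (by norm_num))))
    (fun s hs => by
      have hs' : s ∈ Ioo (0 : ℝ) 1 := ⟨by linarith [hs.1], by linarith [hs.2]⟩
      have hc1 : 7599 / 10000 ≤ cc s := by
        refine le_of_sq_le_sq ?_ (cc_nonneg s)
        rw [WR.cc_sq' hs']
        nlinarith [hs.1, hs.2]
      have hc2 : cc s ≤ 421 / 500 := by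
        refine le_of_sq_le_sq ?_ (by norm_num)
        rw [WR.cc_sq' hs']
        nlinarith [hs.1, hs.2]
      have hy1 : 1 / 5 ≤ cc s ^ 5 :=
        le_trans (by norm_num) (pow_le_pow_left₀ (by norm_num) hc1 5)
      have hy2 : cc s ^ 5 ≤ 9 / 20 :=
        (pow_le_pow_left₀ (cc_nonneg s) hc2 5).trans (by norm_num)
      have hp := polyI2 hc1 hc2
      refine hm_le_piece (u0 := 1081 / 1000) (u1 := 9 / 100) (hcc0 s hs') (cc_le_one s) hs'.1 (hpt s hs')
        (one_add_kk_pos hr 5 hs') (kk_up hr hs') (kk_low hr hs') (by norm_num) (by linarith) (tangB hy1 hy2) ?_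
      convert hp using 2 <;> norm_num)
  have g3 := seg hr (a := 65 / 100) (b := 9 / 10) (E := 109 / 100) (ρ := 51 / 100) (by norm_num) (by norm_num)
    (by norm_num) (by norm_num) (by norm_num) hint
    (fun s hs => exp_div_five_le (by norm_num) ((exp_le_one_div hr ⟨by linarith [hs.1], by linarith [hs.2]⟩).trans
      ((one_div_le_one_div_of_le (by norm_num) hs.1.le).trans (by norm_num))))
    (fun s hs => by
      have hs' : s ∈ Ioo (0 : ℝ) 1 := ⟨by linarith [hs.1], by linarith [hs.2]⟩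
      have hc1 : 87 / 200 ≤ cc s := by
        refine le_of_sq_le_sq ?_ (cc_nonneg s)
        rw [WR.cc_sq' hs']
        nlinarith [hs.1, hs.2]
      have hc2 : cc s ≤ 19 / 25 := by
        refine le_of_sq_le_sq ?_ (by norm_num)
        rw [WR.cc_sq' hs']
        nlinarith [hs.1, hs.2]
      have hy2 : cc s ^ 5 ≤ 1 := pow_le_one₀ (cc_nonneg s) (cc_le_one s)
      have hp := polyI3 hc1 hc2
      refine hm_le_piece (u0 := 1083 / 1000) (u1 := 51 / 500) (hcc0 s hs') (cc_le_one s) hs'.1 (hpt s hs')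
        (one_add_kk_pos hr 5 hs') (kk_up hr hs') (kk_low hr hs') (by norm_num) (by linarith)
        (tangA (pow_nonneg (cc_nonneg s) 5) hy2) ?_
      convert hp using 2 <;> norm_num)
  have g4 := seg hr (a := 9 / 10) (b := 1) (E := 10214 / 10000) (ρ := 2 / 5) (by norm_num) (by norm_num)
    (by norm_num) (by norm_num) (by norm_num) hint
    (fun s hs => exp_div_five_le (by norm_num) ((exp_le_one_div hr ⟨by linarith [hs.1], by linarith [hs.2]⟩).trans
      ((one_div_le_one_div_of_le (by norm_num) hs.1.le).trans (by norm_num))))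
    (fun s hs => by
      have hs' : s ∈ Ioo (0 : ℝ) 1 := ⟨by linarith [hs.1], by linarith [hs.2]⟩
      have hc2 : cc s ≤ 109 / 250 := by
        refine le_of_sq_le_sq ?_ (by norm_num)
        rw [WR.cc_sq' hs']
        nlinarith [hs.1, hs.2]
      have hy2 : cc s ^ 5 ≤ 1 := pow_le_one₀ (cc_nonneg s) (cc_le_one s)
      have hp := polyI5 (cc_nonneg s) hc2
      refine hm_le_piece (u0 := 1083 / 1000) (u1 := 51 / 500) (hcc0 s hs') (cc_le_one s) hs'.1 (hpt s hs')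
        (one_add_kk_pos hr 5 hs') (kk_up hr hs') (kk_low hr hs') (by norm_num) (by linarith)
        (tangA (pow_nonneg (cc_nonneg s) 5) hy2) ?_
      convert hp using 2 <;> norm_num)
  have hsplit : WR.JJ 5 (fun s => Real.exp (ll 5 r s / (5 : ℕ)) * WR.hm 5 (kk 5 r s)) =
      (∫ s in (0 : ℝ)..(54 / 100), cc s ^ (5 - 1) * (Real.exp (ll 5 r s / (5 : ℕ)) * WR.hm 5 (kk 5 r s))) +
      (∫ s in (54 / 100 : ℝ)..(65 / 100), cc s ^ (5 - 1) * (Real.exp (ll 5 r s / (5 : ℕ)) * WR.hm 5 (kk 5 r s))) +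
      (∫ s in (65 / 100 : ℝ)..(9 / 10), cc s ^ (5 - 1) * (Real.exp (ll 5 r s / (5 : ℕ)) * WR.hm 5 (kk 5 r s))) +
      (∫ s in (9 / 10 : ℝ)..1, cc s ^ (5 - 1) * (Real.exp (ll 5 r s / (5 : ℕ)) * WR.hm 5 (kk 5 r s))) := by
    have ii : ∀ a b : ℝ, 0 ≤ a → a ≤ b → b ≤ 1 → IntervalIntegrable
        (fun s => cc s ^ (5 - 1) * (Real.exp (ll 5 r s / (5 : ℕ)) * WR.hm 5 (kk 5 r s))) volume a b :=
      fun a b ha hab hb => by
        refine IntervalIntegrable.mono_set hint ?_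
        rw [uIcc_of_le hab, uIcc_of_le (by norm_num : (0 : ℝ) ≤ 1)]
        exact Icc_subset_Icc ha hb
    unfold WR.JJ
    rw [intervalIntegral.integral_add_adjacent_intervals (ii _ _ (by norm_num) (by norm_num) (by norm_num))
        (ii _ _ (by norm_num) (by norm_num) (by norm_num)),
      intervalIntegral.integral_add_adjacent_intervals (ii _ _ (by norm_num) (by norm_num) (by norm_num))
        (ii _ _ (by norm_num) (by norm_num) (by norm_num)),
      intervalIntegral.integral_add_adjacent_intervals (ii _ _ (by norm_num) (by norm_num) (by norm_num))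
        (ii _ _ (by norm_num) (by norm_num) (by norm_num))]
  have hfin : WR.JJ 5 (fun s => WR.Y s * ll 5 r s) ≤ 1 / 60 := by
    norm_num at g1 g2 g3 g4 hsplit hst hG0 ⊢
    linarith
  unfold WR.lam
  rw [e2, div_le_iff₀ (by norm_num)]
  linarith

end Crest.Agent.R230.Lam6
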