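import Crest.Agent.R230.XlogWR
import Crest.Agent.R230.CylReal
import Crest.Agent.R230.Cyl89
import Crest.Agent.R230.Apriori4
import Crest.Agent.R230.ConeCmp

/-!
# Row 230: legality of the XLOG lines (helper446), part A: real analysis

`LG s t`: the line at `s` is legal for every `tau ≤ t`.
-/

set_option autoImplicit false

open MeasureTheory Set Filter Topology
open scoped Pointwise ENNReal

namespace Crest.Agent.R230

/-- legality at `s` with the upper bound `t` of `tau` -/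
def LG (s t : ℝ) : Prop :=
  Real.log (t / s) * ((1 - cc s) ^ 2 * (1 + 2 * cc s) + t) * (1 + cc s) ≤ cc s ^ 2 * (s ^ 2 + t)

lemma A_nonneg' (s : ℝ) : 0 ≤ (1 - cc s) ^ 2 * (1 + 2 * cc s) := by
  have := cc_nonneg s
  positivity

lemma A_le_sq {s : ℝ} (hs : s ∈ Icc (0 : ℝ) 1) : (1 - cc s) ^ 2 * (1 + 2 * cc s) ≤ s ^ 2 := by
  have hc0 := cc_nonneg s
  have hc1 := cc_le_one s
  have hc2 : cc s ^ 2 = 1 - s ^ 2 := cc_sq ⟨by linarith [hs.1], hs.2⟩
  have : s ^ 2 = 1 - cc s ^ 2 := by linarith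
  rw [this]
  nlinarith [mul_nonneg (sub_nonneg.2 hc1) (pow_nonneg hc0 2)]

/-- monotonicity in the bound -/
lemma LG_anti {s T t : ℝ} (hs : s ∈ Ioo (0 : ℝ) 1) (hT : 0 < T) (hTt : T ≤ t) (h : LG s t) : LG s T := by
  unfold LG at h ⊢
  have hc0 := cc_nonneg s
  have hA0 := A_nonneg' s
  have hA := A_le_sq (s := s) ⟨hs.1.le, hs.2.le⟩
  set A := (1 - cc s) ^ 2 * (1 + 2 * cc s) with hAdef
  set c := cc s with hcdef
  have ht : 0 < t := hT.trans_le hTt
  have hs0 := hs.1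
  by_cases hl : Real.log (T / s) ≤ 0
  · have h1 : Real.log (T / s) * (A + T) * (1 + c) ≤ 0 := by
      have : Real.log (T / s) * (A + T) ≤ 0 := mul_nonpos_of_nonpos_of_nonneg hl (by linarith)
      exact mul_nonpos_of_nonpos_of_nonneg this (by linarith)
    have h2 : 0 ≤ c ^ 2 * (s ^ 2 + T) := by positivity
    linarith
  · push Not at hl
    have hle : Real.log (T / s) ≤ Real.log (t / s) :=
      Real.log_le_log (by positivity) (by gcongr)
    have hAt : 0 < A + t := by linarith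
    have h1 : (A + t) * (Real.log (T / s) * (A + T) * (1 + c)) ≤ (A + t) * (c ^ 2 * (s ^ 2 + T)) := by
      calc (A + t) * (Real.log (T / s) * (A + T) * (1 + c)) =
          Real.log (T / s) * ((A + t) * (A + T) * (1 + c)) := by ring
        _ ≤ Real.log (t / s) * ((A + t) * (A + T) * (1 + c)) :=
          mul_le_mul_of_nonneg_right hle (by positivity)
        _ = (A + T) * (Real.log (t / s) * (A + t) * (1 + c)) := by ring
        _ ≤ (A + T) * (c ^ 2 * (s ^ 2 + t)) := mul_le_mul_of_nonneg_left h (by positivity)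
        _ ≤ (A + t) * (c ^ 2 * (s ^ 2 + T)) := by
          have h3 : 0 ≤ c ^ 2 * ((s ^ 2 - A) * (t - T)) :=
            mul_nonneg (sq_nonneg c) (mul_nonneg (by linarith) (by linarith))
          nlinarith
    exact le_of_mul_le_mul_left h1 hAt

/-- the cap function -/
noncomputable def gcap (t x : ℝ) : ℝ :=
  1 / 2 * Real.log (1 - x ^ 2) + x ^ 2 / (1 + x) +
    2 * x ^ 4 * (1 - x) / ((1 + x) * (1 + t - 3 * x ^ 2 + 2 * x ^ 3))

lemma E_pos {t x : ℝ} (ht : 0 < t) (hx0 : 0 ≤ x) : 0 < 1 + t - 3 * x ^ 2 + 2 * x ^ 3 := by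
  nlinarith [mul_nonneg (sq_nonneg (1 - x)) (by linarith : 0 ≤ 1 + 2 * x)]

lemma LG_iff {s t : ℝ} (hs : s ∈ Ioo (0 : ℝ) 1) (ht : 0 < t) : LG s t ↔ Real.log t ≤ gcap t (cc s) := by
  have hc0 := cc_nonneg s
  have hc1 := cc_le_one s
  have hc2 : cc s ^ 2 = 1 - s ^ 2 := cc_sq ⟨by linarith [hs.1], hs.2.le⟩
  have hs0 := hs.1
  unfold LG gcap
  set c := cc s with hcdef
  have hE := E_pos ht hc0
  have hs2 : 1 - c ^ 2 = s ^ 2 := by linarith
  have hs2' : s ^ 2 = 1 - c ^ 2 := by linarith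
  have hlog : 1 / 2 * Real.log (1 - c ^ 2) = Real.log s := by
    rw [hs2, Real.log_pow]
    push_cast
    ring
  have hAE : (1 - c) ^ 2 * (1 + 2 * c) + t = 1 + t - 3 * c ^ 2 + 2 * c ^ 3 := by ring
  rw [hlog, Real.log_div ht.ne' hs0.ne', hAE]
  set E := 1 + t - 3 * c ^ 2 + 2 * c ^ 3 with hEdef
  have hc3 : 0 < 1 + c := by linarith
  have e1 : c ^ 2 / (1 + c) + 2 * c ^ 4 * (1 - c) / ((1 + c) * E) =
      c ^ 2 * (s ^ 2 + t) / (E * (1 + c)) := by
    rw [hs2', div_add_div _ _ hc3.ne' (by positivity), div_eq_div_iff (by positivity) (by positivity), hEdef]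
    ring
  rw [add_assoc, e1, mul_assoc, ← le_div_iff₀ (by positivity), sub_le_iff_le_add']

lemma log_le_half {x : ℝ} (hx : 1 ≤ x) : Real.log x ≤ (x - x⁻¹) / 2 := by
  rw [← Real.sinh_log (by linarith)]
  exact Real.self_le_sinh_iff.2 (Real.log_nonneg hx)

/-- `s ≥ 7/10`: legal for every `tau ≤ 1` -/
lemma LG_one {s : ℝ} (hs : s ∈ Ico (7 / 10 : ℝ) 1) : LG s 1 := by
  have hs0 : 0 < s := by linarith [hs.1]
  have hc0 := cc_nonneg s
  have hc1 := cc_le_one s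
  have hc2 : cc s ^ 2 = 1 - s ^ 2 := cc_sq ⟨by linarith [hs.1], hs.2.le⟩
  unfold LG
  set c := cc s with hcdef
  have h1 : Real.log (1 / s) ≤ c ^ 2 / (2 * s) := by
    have h := log_le_half (x := 1 / s) (by rw [le_div_iff₀ hs0]; linarith [hs.2])
    have e : (1 / s - (1 / s)⁻¹) / 2 = c ^ 2 / (2 * s) := by
      rw [hc2]; field_simp
    rwa [e] at h
  have hc : c ≤ (1 - s ^ 2) / (357 / 250) + 357 / 1000 := by
    rw [← hc2]
    nlinarith [sq_nonneg (c - 357 / 500)]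
  have h2 : ((1 - c) ^ 2 * (1 + 2 * c) + 1) * (1 + c) = 1 - s ^ 2 + 2 * s ^ 4 + c * (1 + s ^ 2) := by
    have : s ^ 2 = 1 - c ^ 2 := by linarith
    have h4 : s ^ 4 = (1 - c ^ 2) ^ 2 := by rw [← this]; ring
    rw [h4, this]
    ring
  have h3 : 1 - s ^ 2 + 2 * s ^ 4 + c * (1 + s ^ 2) ≤ 2 * s * (1 + s ^ 2) := by
    have h4 := mul_le_mul_of_nonneg_right hc (by positivity : 0 ≤ 1 + s ^ 2)
    have hs1 := hs.1
    have hs2 := hs.2
    nlinarith [mul_nonneg (sub_nonneg.2 hs1) (sub_nonneg.2 hs2.le),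
      mul_nonneg (mul_nonneg (sub_nonneg.2 hs1) (sub_nonneg.2 hs2.le)) hs0.le,
      mul_nonneg (mul_nonneg (sub_nonneg.2 hs1) (sub_nonneg.2 hs2.le)) (sq_nonneg s)]
  rw [mul_assoc, h2]
  have h5 : 0 ≤ 1 - s ^ 2 + 2 * s ^ 4 + c * (1 + s ^ 2) := by
    have : 0 ≤ 1 - s ^ 2 := by nlinarith [hs.2]
    positivity
  calc Real.log (1 / s) * (1 - s ^ 2 + 2 * s ^ 4 + c * (1 + s ^ 2)) ≤
      c ^ 2 / (2 * s) * (1 - s ^ 2 + 2 * s ^ 4 + c * (1 + s ^ 2)) := mul_le_mul_of_nonneg_right h1 h5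
    _ ≤ c ^ 2 / (2 * s) * (2 * s * (1 + s ^ 2)) := mul_le_mul_of_nonneg_left h3 (by positivity)
    _ = c ^ 2 * (s ^ 2 + 1) := by field_simp; ring

/-- numerical certificate for `LG` -/
lemma LG_num {a t c L : ℝ} (ha : 0 < a) (ha1 : a < 1) (ht : 0 < t) (hc0 : 0 ≤ c) (hc : 1 - a ^ 2 ≤ c ^ 2)
    (hL0 : 0 ≤ L) (hL : t ≤ a * (1 + L + L ^ 2 / 2 + L ^ 3 / 6 + L ^ 4 / 24))
    (h : L * (3 * a ^ 2 - 2 + 2 * (1 - a ^ 2) * c + t) * (1 + c) ≤ (1 - a ^ 2) * (a ^ 2 + t)) : LG a t := by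
  have hcc0 := cc_nonneg a
  have hcc2 : cc a ^ 2 = 1 - a ^ 2 := cc_sq ⟨by linarith, ha1.le⟩
  have hcc : cc a ≤ c := abs_le_of_sq_le_sq' (by linarith) hc0 |>.2
  have ha2 : 0 < 1 - a ^ 2 := by nlinarith
  unfold LG
  have hA : (1 - cc a) ^ 2 * (1 + 2 * cc a) = 3 * a ^ 2 - 2 + 2 * (1 - a ^ 2) * cc a := by
    have e : (1 - cc a) ^ 2 * (1 + 2 * cc a) = 1 - 3 * cc a ^ 2 + 2 * cc a ^ 2 * cc a := by ring
    rw [e, hcc2]
    ring
  have hlog : Real.log (t / a) ≤ L := by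
    rw [Real.log_le_iff_le_exp (by positivity), div_le_iff₀' ha]
    refine hL.trans (mul_le_mul_of_nonneg_left ?_ ha.le)
    have := Real.sum_le_exp_of_nonneg hL0 5
    simp only [Finset.sum_range_succ, Finset.sum_range_zero, Nat.factorial] at this
    norm_num at this
    linarith
  have hA0 := A_nonneg' a
  have h1 : (1 - cc a) ^ 2 * (1 + 2 * cc a) + t ≤ 3 * a ^ 2 - 2 + 2 * (1 - a ^ 2) * c + t := by
    rw [hA]
    have := mul_le_mul_of_nonneg_left hcc ha2.le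
    linarith
  calc Real.log (t / a) * ((1 - cc a) ^ 2 * (1 + 2 * cc a) + t) * (1 + cc a) ≤
      L * ((1 - cc a) ^ 2 * (1 + 2 * cc a) + t) * (1 + cc a) := by
        gcongr
    _ ≤ L * (3 * a ^ 2 - 2 + 2 * (1 - a ^ 2) * c + t) * (1 + c) := by
        have h3 : 0 ≤ L * (3 * a ^ 2 - 2 + 2 * (1 - a ^ 2) * c + t) := mul_nonneg hL0 (by linarith)
        gcongr
    _ ≤ (1 - a ^ 2) * (a ^ 2 + t) := h
    _ = _ := by rw [hcc2]

lemma hasDerivAt_gcap {t x : ℝ} (ht : 0 < t) (hx0 : 0 < x) (hx1 : x < 1) :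
    HasDerivAt (gcap t) (-(x / (1 - x ^ 2)) + (2 * x + x ^ 2) / (1 + x) ^ 2 +
      (2 * x ^ 3 * (4 - 2 * x - 4 * x ^ 2) * (1 + t - 3 * x ^ 2 + 2 * x ^ 3)⁻¹ +
        12 * x ^ 5 * (1 - x) ^ 2 * (1 + x) * ((1 + t - 3 * x ^ 2 + 2 * x ^ 3)⁻¹) ^ 2) / (1 + x) ^ 2) x := by
  have hE := E_pos ht hx0.le
  have hx2 : 0 < 1 - x ^ 2 := by nlinarith
  have h1 : HasDerivAt (fun x : ℝ => 1 - x ^ 2) (-(2 * x)) x := by
    have := ((hasDerivAt_id x).fun_pow 2).const_sub 1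
    exact this.congr_deriv (by simp)
  have h2 := (h1.log hx2.ne').const_mul (1 / 2)
  have h3 : HasDerivAt (fun x : ℝ => x ^ 2) (2 * x) x := by
    have := (hasDerivAt_id x).fun_pow 2
    exact this.congr_deriv (by simp)
  have h4 : HasDerivAt (fun x : ℝ => 1 + x) 1 x := by
    simpa using (hasDerivAt_id x).const_add 1
  have h5 := h3.fun_div h4 (by positivity)
  have h6 : HasDerivAt (fun x : ℝ => 2 * x ^ 4 * (1 - x)) (8 * x ^ 3 - 10 * x ^ 4) x := by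
    have ha := ((hasDerivAt_id x).fun_pow 4).const_mul 2
    have hb := (hasDerivAt_id x).const_sub 1
    refine (ha.fun_mul hb).congr_deriv ?_
    simp
    ring
  have h7 : HasDerivAt (fun x : ℝ => (1 + x) * (1 + t - 3 * x ^ 2 + 2 * x ^ 3))
      ((1 + t - 3 * x ^ 2 + 2 * x ^ 3) + (1 + x) * (-6 * x + 6 * x ^ 2)) x := by
    have ha : HasDerivAt (fun x : ℝ => 1 + t - 3 * x ^ 2 + 2 * x ^ 3) (-6 * x + 6 * x ^ 2) x := by
      have hb := ((h3.const_mul 3).const_sub (1 + t)).fun_add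
        (((hasDerivAt_id x).fun_pow 3).const_mul 2)
      refine hb.congr_deriv ?_
      simp
      ring
    refine (h4.fun_mul ha).congr_deriv ?_
    ring
  have h8 := h6.fun_div h7 (by positivity)
  have h9 := (h2.fun_add h5).fun_add h8
  unfold gcap
  refine h9.congr_deriv ?_
  have h1x : (1 + x) ≠ 0 := by positivity
  have hE' := hE.ne'
  set E := 1 + t - 3 * x ^ 2 + 2 * x ^ 3 with hEdef
  have e1 : 1 / 2 * (-(2 * x) / (1 - x ^ 2)) = -(x / (1 - x ^ 2)) := by ring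
  have e2 : (2 * x * (1 + x) - x ^ 2 * 1) / (1 + x) ^ 2 = (2 * x + x ^ 2) / (1 + x) ^ 2 := by ring
  rw [e1, e2]
  congr 1
  field_simp
  ring

lemma gcap_anti {t : ℝ} (ht : 1 / 2 ≤ t) : AntitoneOn (gcap t) (Ico (71 / 100 : ℝ) 1) := by
  have ht0 : 0 < t := by linarith
  refine antitoneOn_of_deriv_nonpos (convex_Ico _ _) ?_ ?_ ?_
  · intro x hx
    exact (hasDerivAt_gcap ht0 (by linarith [hx.1]) hx.2).continuousAt.continuousWithinAt
  · intro x hx
    rw [interior_Ico] at hx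
    exact (hasDerivAt_gcap ht0 (by linarith [hx.1]) hx.2).differentiableAt.differentiableWithinAt
  · intro x hx
    rw [interior_Ico] at hx
    have hx0 : 0 < x := by linarith [hx.1]
    rw [(hasDerivAt_gcap ht0 hx0 hx.2).deriv]
    have hE := E_pos ht0 hx0.le
    have hx1 := hx.1
    have hx2 := hx.2
    have hEh : 1 / 2 ≤ 1 + t - 3 * x ^ 2 + 2 * x ^ 3 := by
      nlinarith [mul_nonneg (sq_nonneg (1 - x)) (by linarith : 0 ≤ 1 + 2 * x)]
    set E := 1 + t - 3 * x ^ 2 + 2 * x ^ 3 with hEdef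
    have hi0 : 0 < E⁻¹ := by positivity
    have hi2 : E⁻¹ ≤ 2 := by
      rw [inv_le_comm₀ hE (by norm_num)]
      linarith
    have hi3 : x ≤ 4 / 5 → E⁻¹ ≤ 5 / 3 := by
      intro h
      rw [inv_le_comm₀ hE (by norm_num)]
      nlinarith [mul_nonneg (sub_nonneg.2 hx1.le) (sub_nonneg.2 h),
        mul_nonneg (mul_nonneg (sub_nonneg.2 hx1.le) (sub_nonneg.2 h)) hx0.le]
    set i := E⁻¹ with hidef
    -- the polynomial inequality
    have key : (1 - x) * (2 + x) + 2 * x ^ 2 * (1 - x) * (4 - 2 * x - 4 * x ^ 2) * i +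
        12 * x ^ 4 * (1 - x) ^ 3 * (1 + x) * i ^ 2 ≤ 1 + x := by
      rcases le_total x (4 / 5) with h | h
      · have hi := hi3 h
        have hi' : i ^ 2 ≤ 25 / 9 := by nlinarith
        have a1 : (1 - x) * (2 + x) ≤ 79 / 100 := by nlinarith
        have a2 : x ^ 2 * (1 - x) ≤ 147 / 1000 := by
          nlinarith [mul_nonneg (sub_nonneg.2 hx1.le) (sub_nonneg.2 h),
            mul_nonneg (sub_nonneg.2 hx1.le) (sq_nonneg x)]
        have a2' : 0 ≤ x ^ 2 * (1 - x) := mul_nonneg (sq_nonneg x) (by linarith)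
        have a3 : 4 - 2 * x - 4 * x ^ 2 ≤ 57 / 100 := by nlinarith
        have a4 : 2 * x ^ 2 * (1 - x) * (4 - 2 * x - 4 * x ^ 2) * i ≤ 28 / 100 := by
          rcases le_total (4 - 2 * x - 4 * x ^ 2) 0 with h0 | h0
          · have : 2 * x ^ 2 * (1 - x) * (4 - 2 * x - 4 * x ^ 2) * i ≤ 0 := by
              have h5 : x ^ 2 * (1 - x) * (4 - 2 * x - 4 * x ^ 2) ≤ 0 :=
                mul_nonpos_of_nonneg_of_nonpos a2' h0
              nlinarith
            linarith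
          · calc 2 * x ^ 2 * (1 - x) * (4 - 2 * x - 4 * x ^ 2) * i =
                2 * ((x ^ 2 * (1 - x)) * (4 - 2 * x - 4 * x ^ 2) * i) := by ring
              _ ≤ 2 * (147 / 1000 * (57 / 100) * (5 / 3)) := by gcongr
              _ ≤ 28 / 100 := by norm_num
        have a5 : x ^ 4 * (1 - x) ^ 3 ≤ 63 / 10000 := by
          have h6 : x ^ 4 * (1 - x) ^ 3 = (x ^ 2 * (1 - x)) ^ 2 * (1 - x) := by ring
          rw [h6]
          calc (x ^ 2 * (1 - x)) ^ 2 * (1 - x) ≤ (147 / 1000) ^ 2 * (29 / 100) := by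
                gcongr
                linarith
            _ ≤ 63 / 10000 := by norm_num
        have a6 : 12 * x ^ 4 * (1 - x) ^ 3 * (1 + x) * i ^ 2 ≤ 38 / 100 := by
          have h7 : 0 ≤ x ^ 4 * (1 - x) ^ 3 := mul_nonneg (by positivity) (pow_nonneg (by linarith) 3)
          calc 12 * x ^ 4 * (1 - x) ^ 3 * (1 + x) * i ^ 2 =
              12 * ((x ^ 4 * (1 - x) ^ 3) * (1 + x) * i ^ 2) := by ring
            _ ≤ 12 * (63 / 10000 * (9 / 5) * (25 / 9)) := by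
                gcongr
                linarith
            _ ≤ 38 / 100 := by norm_num
        linarith
      · have a1 : (1 - x) * (2 + x) ≤ 56 / 100 := by nlinarith
        have a2' : 0 ≤ x ^ 2 * (1 - x) := mul_nonneg (sq_nonneg x) (by linarith)
        have h0 : 4 - 2 * x - 4 * x ^ 2 ≤ 0 := by nlinarith
        have a4 : 2 * x ^ 2 * (1 - x) * (4 - 2 * x - 4 * x ^ 2) * i ≤ 0 := by
          have h5 : x ^ 2 * (1 - x) * (4 - 2 * x - 4 * x ^ 2) ≤ 0 :=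
            mul_nonpos_of_nonneg_of_nonpos a2' h0
          nlinarith
        have hi' : i ^ 2 ≤ 4 := by nlinarith
        have a6 : 12 * x ^ 4 * (1 - x) ^ 3 * (1 + x) * i ^ 2 ≤ 77 / 100 := by
          have h8 : x ^ 4 ≤ 1 := pow_le_one₀ hx0.le hx2.le
          have h9 : (1 - x) ^ 3 ≤ (1 / 5) ^ 3 := pow_le_pow_left₀ (by linarith) (by linarith) 3
          have h10 : 0 ≤ (1 - x) ^ 3 := pow_nonneg (by linarith) 3
          calc 12 * x ^ 4 * (1 - x) ^ 3 * (1 + x) * i ^ 2 ≤ 12 * 1 * (1 / 5) ^ 3 * 2 * 4 := by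
                gcongr
                linarith
            _ ≤ 77 / 100 := by norm_num
        linarith
    have h1x : 0 < 1 - x := by linarith
    have e : -(x / (1 - x ^ 2)) + (2 * x + x ^ 2) / (1 + x) ^ 2 +
        (2 * x ^ 3 * (4 - 2 * x - 4 * x ^ 2) * i + 12 * x ^ 5 * (1 - x) ^ 2 * (1 + x) * i ^ 2) /
          (1 + x) ^ 2 =
        -(x * ((1 + x) - ((1 - x) * (2 + x) + 2 * x ^ 2 * (1 - x) * (4 - 2 * x - 4 * x ^ 2) * i +
          12 * x ^ 4 * (1 - x) ^ 3 * (1 + x) * i ^ 2))) / ((1 - x) * (1 + x) ^ 2) := by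
      have h2x : 1 - x ^ 2 = (1 - x) * (1 + x) := by ring
      rw [h2x]
      field_simp
      ring
    rw [e]
    apply div_nonpos_of_nonpos_of_nonneg
    · have := mul_nonneg hx0.le (sub_nonneg.2 key)
      linarith
    · positivity

/-- monotonicity in `s` -/
lemma LG_mono {a s t : ℝ} (ha : 0 < a) (has : a ≤ s) (hs : s ≤ 7 / 10) (ht : 1 / 2 ≤ t) (h : LG a t) :
    LG s t := by
  have ht0 : 0 < t := by linarith
  have hs' : s ∈ Ioo (0 : ℝ) 1 := ⟨by linarith, by linarith⟩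
  have ha' : a ∈ Ioo (0 : ℝ) 1 := ⟨ha, by linarith⟩
  rw [LG_iff ha' ht0] at h
  rw [LG_iff hs' ht0]
  refine h.trans (gcap_anti ht ⟨?_, ?_⟩ ⟨?_, ?_⟩ (cc_anti ha.le has))
  · have hc0 := cc_nonneg s
    have hc2 : cc s ^ 2 = 1 - s ^ 2 := cc_sq ⟨by linarith [hs'.1], hs'.2.le⟩
    nlinarith
  · have hc0 := cc_nonneg s
    have hc2 : cc s ^ 2 = 1 - s ^ 2 := cc_sq ⟨by linarith [hs'.1], hs'.2.le⟩
    nlinarith [hs'.1]
  · have hc0 := cc_nonneg a
    have hc2 : cc a ^ 2 = 1 - a ^ 2 := cc_sq ⟨by linarith [ha'.1], ha'.2.le⟩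
    nlinarith
  · have hc0 := cc_nonneg a
    have hc2 : cc a ^ 2 = 1 - a ^ 2 := cc_sq ⟨by linarith [ha'.1], ha'.2.le⟩
    nlinarith [ha'.1]

end Crest.Agent.R230
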