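import Crest.Agent.R230.LegalA

/-!
# Row 230: legality of the XLOG lines (helper446), part B: the region `F₀ ≤ 89/100` and the grid step
-/

set_option autoImplicit false

open MeasureTheory Set Filter Topology
open scoped Pointwise ENNReal

namespace Crest.Agent.R230

open WR

lemma lB_mono (n : ℕ) {a b : ℝ} (hab : a ≤ b) : lB n a ≤ lB n b := by
  have h : lB n a + ∫ x in a..b, Real.sqrt (1 - x ^ 2) ^ n = lB n b :=
    intervalIntegral.integral_add_adjacent_intervals (intervalIntegrable_cpow n _ _)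
      (intervalIntegrable_cpow n _ _)
  have h2 : 0 ≤ ∫ x in a..b, Real.sqrt (1 - x ^ 2) ^ n :=
    intervalIntegral.integral_nonneg hab fun x _ => by positivity
  linarith

lemma lB_le_quintic {n : ℕ} (hn : 4 ≤ n) {s : ℝ} (hs : s ∈ Icc (0 : ℝ) 1) :
    lB n s ≤ s - 2 * s ^ 3 / 3 + s ^ 5 / 5 := by
  have h : lB n s ≤ ∫ x in (0 : ℝ)..s, (1 - x ^ 2) ^ 2 := by
    refine intervalIntegral.integral_mono_on hs.1 (intervalIntegrable_cpow n _ _)
      (Continuous.intervalIntegrable (by fun_prop) _ _) fun x hx => ?_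
    have hx1 : Real.sqrt (1 - x ^ 2) ≤ 1 := by
      rw [Real.sqrt_le_left (by norm_num)]
      nlinarith [sq_nonneg x]
    have hx2 : Real.sqrt (1 - x ^ 2) ^ 2 = 1 - x ^ 2 := Real.sq_sqrt (by nlinarith [hx.1, hx.2, hs.2])
    calc Real.sqrt (1 - x ^ 2) ^ n ≤ Real.sqrt (1 - x ^ 2) ^ 4 :=
          pow_le_pow_of_le_one (Real.sqrt_nonneg _) hx1 hn
      _ = (Real.sqrt (1 - x ^ 2) ^ 2) ^ 2 := by ring
      _ = _ := by rw [hx2]
  refine h.trans (le_of_eq ?_)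
  have hd : ∀ u ∈ uIcc (0 : ℝ) s, HasDerivAt (fun u => u - 2 * u ^ 3 / 3 + u ^ 5 / 5) ((1 - u ^ 2) ^ 2) u := by
    intro u _
    have h3 := (((hasDerivAt_id u).fun_pow 3).const_mul 2).div_const 3
    have h5 := ((hasDerivAt_id u).fun_pow 5).div_const 5
    refine (((hasDerivAt_id u).sub h3).add h5).congr_deriv ?_
    simp
    ring
  rw [intervalIntegral.integral_eq_sub_of_hasDerivAt hd]
  · ring
  · exact Continuous.intervalIntegrable (by fun_prop) _ _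

section

variable {n : ℕ} {r : ℝ → ℝ}

/-- logarithmic form of the cylinder bound -/
lemma ll_le_of_cyl (hn : 5 ≤ n) (hr : Prof r) (hN : NleB n r) {s : ℝ} (hs : s ∈ Ioo (0 : ℝ) 1)
    (hp : lB n s ≤ 89 / 100 * hB n 0) : ll n r s ≤ 1 / 2 + Real.log (lB n s / s) := by
  have hT := tau_pos hr n (s := s) ⟨hs.1, hs.2.le⟩
  have hl := lB_pos n (s := s) ⟨hs.1, hs.2.le⟩
  have h1 := tau_le_of_NleB hr (by omega) hN hs hp
  have h2 := R_le n (by omega)
  have h3 : tau n r s ≤ Real.exp (1 / 2) * lB n s := h1.trans (mul_le_mul_of_nonneg_right h2 hl.le)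
  rw [ll_eq_log hs]
  have h4 : tau n r s / s ≤ Real.exp (1 / 2) * (lB n s / s) := by
    rw [← mul_div_assoc]
    exact div_le_div_of_nonneg_right h3 hs.1.le
  have hq : 0 < lB n s / s := div_pos hl hs.1
  calc Real.log (tau n r s / s) ≤ Real.log (Real.exp (1 / 2) * (lB n s / s)) :=
        Real.log_le_log (div_pos hT hs.1) h4
    _ = _ := by rw [Real.log_mul (Real.exp_pos _).ne' hq.ne', Real.log_exp]

/-- the region `F₀ ≤ 89/100`: `l (1+c) ≤ c²` -/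
theorem ll_le_regA (hn : 5 ≤ n) (hr : Prof r) (hN : NleB n r) {s : ℝ} (hs : s ∈ Ioo (0 : ℝ) 1)
    (hp : lB n s ≤ 89 / 100 * hB n 0) : ll n r s * (1 + cc s) ≤ cc s ^ 2 := by
  have h1 := ll_le_of_cyl hn hr hN hs hp
  have hl := lB_pos n (s := s) ⟨hs.1, hs.2.le⟩
  have h2 := lB_le_quintic (n := n) (by omega) (s := s) ⟨hs.1.le, hs.2.le⟩
  have hs0 := hs.1
  have hs1 := hs.2
  set y := s ^ 2 with hy
  have hy0 : 0 < y := by positivity
  have hy1 : y < 1 := by rw [hy]; nlinarith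
  set x := 2 / 3 * y - 1 / 5 * y ^ 2 with hx
  have hx0 : 0 < x := by rw [hx]; nlinarith
  have hx1 : x < 1 := by rw [hx]; nlinarith
  have h3 : lB n s / s ≤ 1 - x := by
    rw [div_le_iff₀ hs0]
    refine h2.trans (le_of_eq ?_)
    rw [hx, hy]
    ring
  have h4 : Real.log (lB n s / s) ≤ -(2 * x) / (2 - x) := by
    have h5 := Real.log_le_log (div_pos hl hs0) h3
    have h6 := log_pade (y := 1 - x) (by linarith) (by linarith)
    refine h5.trans (h6.trans (le_of_eq ?_))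
    congr 1 <;> ring
  have hc0 := cc_nonneg s
  have hc2 : cc s ^ 2 = 1 - y := cc_sq ⟨by linarith, hs1.le⟩
  set c := cc s with hcdef
  have h7 : 1 + c ≤ (4 - y) / 2 := by nlinarith [sq_nonneg (1 - c)]
  have h8 : 1 / 2 + -(2 * x) / (2 - x) ≤ 2 * (1 - y) / (4 - y) := by
    have h9 : 0 < 2 - x := by linarith
    have h10 : 0 < 4 - y := by linarith
    rw [div_add_div _ _ (by norm_num) h9.ne', div_le_div_iff₀ (by positivity) h10]
    have : 6 * y ≤ x * (16 - y) := by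
      have h11 : x * (16 - y) - 6 * y = y * ((2 / 3 - 1 / 5 * y) * (16 - y) - 6) := by rw [hx]; ring
      have h12 : 0 ≤ (2 / 3 - 1 / 5 * y) * (16 - y) - 6 := by nlinarith
      nlinarith [mul_nonneg hy0.le h12]
    nlinarith
  have h9 : ll n r s ≤ 2 * (1 - y) / (4 - y) := by linarith
  have h10 : 0 < 4 - y := by linarith
  calc ll n r s * (1 + c) ≤ 2 * (1 - y) / (4 - y) * (1 + c) :=
        mul_le_mul_of_nonneg_right h9 (by linarith)
    _ ≤ 2 * (1 - y) / (4 - y) * ((4 - y) / 2) :=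
        mul_le_mul_of_nonneg_left h7 (div_nonneg (by linarith) h10.le)
    _ = c ^ 2 := by rw [hc2]; field_simp

/-- the cone inequality beyond `F₀ = 89/100` -/
def ConeUB (n : ℕ) (r : ℝ → ℝ) (e : ℝ) : Prop :=
  ∀ s ∈ Icc (0 : ℝ) 1, 89 / 100 * hB n 0 ≤ lB n s →
    hB n s * (1 - e ^ (n + 1)) ≤ ((1 - (1 - e) * tau n r s) ^ (n + 1) - e ^ (n + 1)) * hB n 0

theorem coneUB_of (hn : 5 ≤ n) (hr : Prof r) (hN : NleB n r) {e T₁ : ℝ} (he0 : 0 ≤ e) (he : e < 1)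
    (hT₁ : 89 / 200 * w (n - 1) ^ n ≤ T₁ * w n ^ (n - 1)) (hT₁' : T₁ ≤ 1)
    (h8 : 11 / 100 * (1 - e ^ (n + 1)) ≤ (1 - (1 - e) * T₁) ^ (n + 1) - e ^ (n + 1)) : ConeUB n r e := by
  have hH := hB_zero_pos n
  -- the point with F₀ = 89/100
  obtain ⟨s₁, hs₁, hs₁e⟩ : ∃ s₁ ∈ Icc (0 : ℝ) 1, lB n s₁ = 89 / 100 * hB n 0 := by
    have hc : ContinuousOn (lB n) (Icc 0 1) := fun x _ => (hasDerivAt_lB n x).continuousAt.continuousWithinAt
    have h := intermediate_value_Icc (zero_le_one) hc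
    have h0 := lB_zero n
    have h1 := lB_add_hB n 1
    rw [hB_one, add_zero] at h1
    obtain ⟨x, hx, hxe⟩ := h (show 89 / 100 * hB n 0 ∈ Icc (lB n 0) (lB n 1) by
      rw [h0, h1]; constructor <;> linarith)
    exact ⟨x, hx, hxe⟩
  have hs₁0 : 0 < s₁ := by
    rcases hs₁.1.eq_or_lt with h | h
    · rw [← h, lB_zero] at hs₁e; linarith
    · exact h
  have hs₁1 : s₁ < 1 := by
    rcases hs₁.2.eq_or_lt with h | h
    · have h1 := lB_add_hB n 1
      rw [hB_one, add_zero] at h1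
      rw [h, h1] at hs₁e; linarith
    · exact h
  have hw := w_pos' n
  have hT : tau n r s₁ ≤ T₁ := by
    refine (tau_le_of_NleB hr (by omega) hN ⟨hs₁0, hs₁1⟩ hs₁e.le).trans ?_
    rw [hs₁e, div_pow, div_mul_eq_mul_div, div_le_iff₀ (pow_pos hw n)]
    have e1 : hB n 0 = w n / 2 := by have := w_eq_two_hB n; linarith
    have e2 : w n ^ n = w n ^ (n - 1) * w n := by rw [← pow_succ]; congr 1; omega
    rw [e1, e2]
    have := mul_le_mul_of_nonneg_right hT₁ hw.le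
    linarith
  have hhB : hB n s₁ = 11 / 100 * hB n 0 := by have := lB_add_hB n s₁; linarith
  intro s hs hsF
  have h12 : s₁ ≤ s := by
    by_contra hcon
    push Not at hcon
    have h1 : lB n s < lB n s₁ := by
      have h : lB n s + ∫ x in s..s₁, Real.sqrt (1 - x ^ 2) ^ n = lB n s₁ :=
        intervalIntegral.integral_add_adjacent_intervals (intervalIntegrable_cpow n _ _)
          (intervalIntegrable_cpow n _ _)
      have h2 : 0 < ∫ x in s..s₁, Real.sqrt (1 - x ^ 2) ^ n := by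
        refine intervalIntegral.intervalIntegral_pos_of_pos_on (intervalIntegrable_cpow n _ _) ?_ hcon
        intro x hx
        exact pow_pos (sqrt_pos_of_mem ⟨by linarith [hx.1, hs.1], by linarith [hx.2]⟩) n
      linarith
    linarith
  refine cone_tau hr (by omega) he0 he hs₁0 h12 hs.2 ?_
  rw [hhB]
  have h1 : (1 - (1 - e) * T₁) ^ (n + 1) ≤ (1 - (1 - e) * tau n r s₁) ^ (n + 1) := by
    refine pow_le_pow_left₀ (by nlinarith) ?_ _
    have := mul_le_mul_of_nonneg_left hT (show 0 ≤ 1 - e by linarith)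
    linarith
  have h2 : 11 / 100 * (1 - e ^ (n + 1)) ≤ (1 - (1 - e) * tau n r s₁) ^ (n + 1) - e ^ (n + 1) := by linarith
  have h3 := mul_le_mul_of_nonneg_right h2 hH.le
  linarith

/-- numerical check: upper bound of `tau` at `b` -/
theorem tau_le_of_chk (hr : Prof r) {e b t c H : ℝ} (hU : ConeUB n r e) (he0 : 0 ≤ e) (he : e < 1)
    (hb : b ∈ Ioo (0 : ℝ) 1) (hF : 89 / 100 * hB n 0 ≤ lB n b) (ht1 : t ≤ 1)
    (hH : hB n 0 ≤ H) (hc0 : 0 ≤ c) (hc : c ^ 2 ≤ 1 - b ^ 2)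
    (hchk : ((1 - (1 - e) * t) ^ (n + 1) - e ^ (n + 1)) * H * (1 + (n + 1) * b ^ 2) ≤
      (1 - e ^ (n + 1)) * (b * c ^ (n + 2))) : tau n r b ≤ t := by
  have hH0 := hB_zero_pos n
  have h1 := hU b ⟨hb.1.le, hb.2.le⟩ hF
  have hT := (tau_mem_Icc hr n (s := b) ⟨by linarith [hb.1], hb.2.le⟩).2
  have he1 : e ^ (n + 1) < 1 := pow_lt_one₀ he0 he (by omega)
  have hz := haz1 n (s := b) ⟨hb.1.le, hb.2.le⟩
  have hcs : c ≤ Real.sqrt (1 - b ^ 2) := Real.le_sqrt_of_sq_le hc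
  have hD : 0 < 1 + ((n : ℝ) + 1) * b ^ 2 := by positivity
  by_contra hcon
  push Not at hcon
  have h5 : (1 - (1 - e) * tau n r b) ^ (n + 1) < (1 - (1 - e) * t) ^ (n + 1) := by
    refine pow_lt_pow_left₀ ?_ (by nlinarith) (by omega)
    have := mul_lt_mul_of_pos_left hcon (show 0 < 1 - e by linarith)
    linarith
  have h6 : hB n b * (1 - e ^ (n + 1)) < ((1 - (1 - e) * t) ^ (n + 1) - e ^ (n + 1)) * hB n 0 :=
    lt_of_le_of_lt h1 (mul_lt_mul_of_pos_right (by linarith) hH0)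
  have h7 : 0 ≤ (1 - (1 - e) * t) ^ (n + 1) - e ^ (n + 1) := by
    have : e ^ (n + 1) ≤ (1 - (1 - e) * t) ^ (n + 1) := by
      refine pow_le_pow_left₀ he0 ?_ _
      nlinarith
    linarith
  have h8 : b * c ^ (n + 2) ≤ (1 + (n + 1) * b ^ 2) * hB n b := by
    refine le_trans (mul_le_mul_of_nonneg_left (pow_le_pow_left₀ hc0 hcs _) hb.1.le) hz
  have h9 : (1 - e ^ (n + 1)) * (b * c ^ (n + 2)) ≤
      (1 - e ^ (n + 1)) * ((1 + (n + 1) * b ^ 2) * hB n b) :=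
    mul_le_mul_of_nonneg_left h8 (by linarith)
  have h10 : ((1 - (1 - e) * t) ^ (n + 1) - e ^ (n + 1)) * hB n 0 * (1 + (n + 1) * b ^ 2) ≤
      ((1 - (1 - e) * t) ^ (n + 1) - e ^ (n + 1)) * H * (1 + (n + 1) * b ^ 2) := by
    gcongr
  have h11 : (1 + (n + 1) * b ^ 2) * (hB n b * (1 - e ^ (n + 1))) <
      (1 + (n + 1) * b ^ 2) * (((1 - (1 - e) * t) ^ (n + 1) - e ^ (n + 1)) * hB n 0) :=
    mul_lt_mul_of_pos_left h6 hD
  linarith

/-- start of the chain -/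
theorem legal_start (hn : 5 ≤ n) (hr : Prof r) (hN : NleB n r) {a c H : ℝ} (ha : a ∈ Ioo (0 : ℝ) 1)
    (hH : hB n 0 ≤ H) (hc0 : 0 ≤ c) (hc : c ^ 2 ≤ 1 - a ^ 2)
    (hchk : 11 * (H * (1 + (n + 1) * a ^ 2)) ≤ 100 * (a * c ^ (n + 2))) :
    ∀ s ∈ Ioc (0 : ℝ) a, Legal n r s := by
  intro s hs
  have hs' : s ∈ Ioo (0 : ℝ) 1 := ⟨hs.1, hs.2.trans_lt ha.2⟩
  have hcs : c ≤ Real.sqrt (1 - a ^ 2) := Real.le_sqrt_of_sq_le hc
  have hz := haz1 n (s := a) ⟨ha.1.le, ha.2.le⟩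
  have hD : 0 < 1 + ((n : ℝ) + 1) * a ^ 2 := by positivity
  have h8 : a * c ^ (n + 2) ≤ (1 + (n + 1) * a ^ 2) * hB n a := by
    refine le_trans (mul_le_mul_of_nonneg_left (pow_le_pow_left₀ hc0 hcs _) ha.1.le) hz
  have h9 : (1 + ((n : ℝ) + 1) * a ^ 2) * hB n 0 ≤ (1 + (n + 1) * a ^ 2) * (100 / 11 * hB n a) := by
    have := mul_le_mul_of_nonneg_right hH hD.le
    linarith
  have h10 := le_of_mul_le_mul_left h9 hD
  have h11 := lB_add_hB n a
  have h12 := lB_mono n hs.2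
  exact Legal.of_le hr hs' (ll_le_regA hn hr hN hs' (by linarith))

lemma legal_of_LG (hr : Prof r) {s t : ℝ} (hs : s ∈ Ioo (0 : ℝ) 1) (hT : tau n r s ≤ t) (h : LG s t) :
    Legal n r s := by
  have := LG_anti hs (tau_pos hr n ⟨hs.1, hs.2.le⟩) hT h
  unfold LG at this
  unfold Legal
  rw [ll_eq_log hs]
  exact this

/-- one step of the chain -/
theorem legal_step (hn : 5 ≤ n) (hr : Prof r) (hN : NleB n r) {e H : ℝ} (hU : ConeUB n r e)
    (he0 : 0 ≤ e) (he : e < 1) (hH : hB n 0 ≤ H) {a b t c : ℝ} (ha : 0 < a) (hb : b ≤ 7 / 10)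
    (hLG : LG a t) (ht : 1 / 2 ≤ t) (ht1 : t ≤ 1) (hc0 : 0 ≤ c) (hc : c ^ 2 ≤ 1 - b ^ 2)
    (hchk : ((1 - (1 - e) * t) ^ (n + 1) - e ^ (n + 1)) * H * (1 + (n + 1) * b ^ 2) ≤
      (1 - e ^ (n + 1)) * (b * c ^ (n + 2)))
    (hprev : ∀ s ∈ Ioc (0 : ℝ) a, Legal n r s) : ∀ s ∈ Ioc (0 : ℝ) b, Legal n r s := by
  intro s hs
  rcases le_total s a with h | h
  · exact hprev s ⟨hs.1, h⟩
  have hs' : s ∈ Ioo (0 : ℝ) 1 := ⟨hs.1, by linarith [hs.2]⟩
  rcases le_total (lB n s) (89 / 100 * hB n 0) with hF | hF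
  · exact Legal.of_le hr hs' (ll_le_regA hn hr hN hs' hF)
  · have hb' : b ∈ Ioo (0 : ℝ) 1 := ⟨by linarith [hs.1, hs.2], by linarith⟩
    have hFb : 89 / 100 * hB n 0 ≤ lB n b := hF.trans (lB_mono n hs.2)
    have h1 := tau_le_of_chk hr hU he0 he hb' hFb ht1 hH hc0 hc hchk
    have h2 : tau n r s ≤ tau n r b := (tau_strictMonoOn hr n).monotoneOn
      ⟨by linarith [hs.1], hs'.2.le⟩ ⟨by linarith [hb'.1], hb'.2.le⟩ hs.2
    exact legal_of_LG hr hs' (h2.trans h1) (LG_mono ha h (hs.2.trans hb) ht hLG)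

/-- end of the chain -/
theorem legal_end (hr : Prof r) (hprev : ∀ s ∈ Ioc (0 : ℝ) (7 / 10), Legal n r s) :
    ∀ s ∈ Ioo (0 : ℝ) 1, Legal n r s := by
  intro s hs
  rcases le_total s (7 / 10) with h | h
  · exact hprev s ⟨hs.1, h⟩
  · exact legal_of_LG hr hs (tau_mem_Icc hr n (s := s) ⟨by linarith [hs.1], hs.2.le⟩).2 (LG_one ⟨h, hs.2⟩)

end

end Crest.Agent.R230
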