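import Crest.Agent.R230.LegalC

/-!
# Row 230: explicit bounds for `l = log (tau/s)` (helper446), general chain
-/

set_option autoImplicit false

open MeasureTheory Set Filter Topology
open scoped Pointwise ENNReal Real

namespace Crest.Agent.R230

open WR

section

variable {n : ℕ} {r : ℝ → ℝ}

/-- start of a chain: `F₀ ≤ 89/100` on `(0,a]` -/
theorem regA_start {a c H : ℝ} (ha : a ∈ Ioo (0 : ℝ) 1)
    (hH : hB n 0 ≤ H) (hc0 : 0 ≤ c) (hc : c ^ 2 ≤ 1 - a ^ 2)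
    (hchk : 11 * (H * (1 + (n + 1) * a ^ 2)) ≤ 100 * (a * c ^ (n + 2))) :
    ∀ s ∈ Ioc (0 : ℝ) a, lB n s ≤ 89 / 100 * hB n 0 := by
  intro s hs
  have hcs : c ≤ Real.sqrt (1 - a ^ 2) := Real.le_sqrt_of_sq_le hc
  have hz := haz1 n (s := a) ⟨ha.1.le, ha.2.le⟩
  have hD : 0 < 1 + ((n : ℝ) + 1) * a ^ 2 := by positivity
  have h8 : a * c ^ (n + 2) ≤ (1 + (n + 1) * a ^ 2) * hB n a := by
    refine le_trans (mul_le_mul_of_nonneg_left (pow_le_pow_left₀ hc0 hcs _) ha.1.le) hz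
  have h9 : (1 + ((n : ℝ) + 1) * a ^ 2) * hB n 0 ≤ (1 + (n + 1) * a ^ 2) * (100 / 11 * hB n a) := by
    have := mul_le_mul_of_nonneg_right hH hD.le
    linarith
  have h10 := le_of_mul_le_mul_left h9 hD
  have h11 := lB_add_hB n a
  have h12 := lB_mono n hs.2
  linarith

/-- general step -/
theorem chain_step (hr : Prof r) {e H : ℝ} (hU : ConeUB n r e)
    (he0 : 0 ≤ e) (he : e < 1) (hH : hB n 0 ≤ H) {a b t c : ℝ} (hb : b < 1)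
    (ht1 : t ≤ 1) (hc0 : 0 ≤ c) (hc : c ^ 2 ≤ 1 - b ^ 2)
    (hchk : ((1 - (1 - e) * t) ^ (n + 1) - e ^ (n + 1)) * H * (1 + (n + 1) * b ^ 2) ≤
      (1 - e ^ (n + 1)) * (b * c ^ (n + 2)))
    (P : ℝ → Prop) (hA : ∀ s ∈ Ioo (0 : ℝ) 1, lB n s ≤ 89 / 100 * hB n 0 → P s)
    (hP : ∀ s ∈ Ioo (0 : ℝ) 1, a ≤ s → s ≤ b → tau n r s ≤ t → P s)
    (hprev : ∀ s ∈ Ioc (0 : ℝ) a, P s) : ∀ s ∈ Ioc (0 : ℝ) b, P s := by
  intro s hs
  rcases le_total s a with h | h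
  · exact hprev s ⟨hs.1, h⟩
  have hs' : s ∈ Ioo (0 : ℝ) 1 := ⟨hs.1, by linarith [hs.2]⟩
  rcases le_total (lB n s) (89 / 100 * hB n 0) with hF | hF
  · exact hA s hs' hF
  · have hb' : b ∈ Ioo (0 : ℝ) 1 := ⟨by linarith [hs.1, hs.2], by linarith⟩
    have hFb : 89 / 100 * hB n 0 ≤ lB n b := hF.trans (lB_mono n hs.2)
    have h1 := tau_le_of_chk hr hU he0 he hb' hFb ht1 hH hc0 hc hchk
    have h2 : tau n r s ≤ tau n r b := (tau_strictMonoOn hr n).monotoneOn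
      ⟨by linarith [hs.1], hs'.2.le⟩ ⟨by linarith [hb'.1], hb'.2.le⟩ hs.2
    exact hP s hs' h hs.2 (h2.trans h1)

lemma ll_le_of_tau (hr : Prof r) {a t L s : ℝ} (ha : 0 < a) (hs : s ∈ Ioo (0 : ℝ) 1) (has : a ≤ s)
    (hT : tau n r s ≤ t) (hL0 : 0 ≤ L) (hL : t ≤ a * (1 + L + L ^ 2 / 2 + L ^ 3 / 6 + L ^ 4 / 24)) :
    ll n r s ≤ L := by
  have hTp := tau_pos hr n (s := s) ⟨hs.1, hs.2.le⟩
  rw [ll_eq_log hs, Real.log_le_iff_le_exp (div_pos hTp hs.1), div_le_iff₀' hs.1]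
  have h1 := Real.sum_le_exp_of_nonneg hL0 5
  simp only [Finset.sum_range_succ, Finset.sum_range_zero, Nat.factorial] at h1
  norm_num at h1
  have h2 : 1 + L + L ^ 2 / 2 + L ^ 3 / 6 + L ^ 4 / 24 ≤ Real.exp L := by linarith
  calc tau n r s ≤ a * (1 + L + L ^ 2 / 2 + L ^ 3 / 6 + L ^ 4 / 24) := hT.trans hL
    _ ≤ a * Real.exp L := mul_le_mul_of_nonneg_left h2 ha.le
    _ ≤ s * Real.exp L := mul_le_mul_of_nonneg_right has (Real.exp_pos _).le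

/-- one step of the chain for `ll ≤ L` -/
theorem ll_step (hn : 5 ≤ n) (hr : Prof r) (hN : NleB n r) {e H : ℝ} (hU : ConeUB n r e)
    (he0 : 0 ≤ e) (he : e < 1) (hH : hB n 0 ≤ H) {a b t c : ℝ} (ha : 0 < a) (hb : b < 1)
    (ht : t ≤ a * (211 / 128)) (ht1 : t ≤ 1) (hc0 : 0 ≤ c) (hc : c ^ 2 ≤ 1 - b ^ 2)
    (hchk : ((1 - (1 - e) * t) ^ (n + 1) - e ^ (n + 1)) * H * (1 + (n + 1) * b ^ 2) ≤
      (1 - e ^ (n + 1)) * (b * c ^ (n + 2)))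
    (hprev : ∀ s ∈ Ioc (0 : ℝ) a, ll n r s ≤ 1 / 2) : ∀ s ∈ Ioc (0 : ℝ) b, ll n r s ≤ 1 / 2 := by
  refine chain_step hr hU he0 he hH hb ht1 hc0 hc hchk _ (fun s hs hF => ?_) (fun s hs h1 _ h3 => ?_) hprev
  · have h := ll_le_regA hn hr hN hs hF
    have hc0 := cc_nonneg s
    have hc1 := cc_le_one s
    nlinarith [mul_nonneg hc0 (sub_nonneg.2 hc1)]
  · refine ll_le_of_tau hr ha hs h1 h3 (by norm_num) (ht.trans (le_of_eq ?_))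
    norm_num

theorem ll_half_end (hr : Prof r) (hprev : ∀ s ∈ Ioc (0 : ℝ) (607 / 1000), ll n r s ≤ 1 / 2) :
    ∀ s ∈ Ioo (0 : ℝ) 1, ll n r s ≤ 1 / 2 := by
  intro s hs
  rcases le_total s (607 / 1000) with h | h
  · exact hprev s ⟨hs.1, h⟩
  · refine ll_le_of_tau hr (a := 607 / 1000) (t := 1) (by norm_num) hs h
      (tau_mem_Icc hr n (s := s) ⟨by linarith [hs.1], hs.2.le⟩).2 (by norm_num) (by norm_num)

theorem ll_half_start (hn : 5 ≤ n) (hr : Prof r) (hN : NleB n r) {a : ℝ} (ha : a < 1)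
    (h0 : ∀ s ∈ Ioc (0 : ℝ) a, lB n s ≤ 89 / 100 * hB n 0) :
    ∀ s ∈ Ioc (0 : ℝ) a, ll n r s ≤ 1 / 2 := by
  intro s hs
  have h := ll_le_regA hn hr hN (s := s) ⟨hs.1, hs.2.trans_lt ha⟩ (h0 s hs)
  have hc0 := cc_nonneg s
  have hc1 := cc_le_one s
  nlinarith [mul_nonneg hc0 (sub_nonneg.2 hc1)]

/-- one step of the chain for `ll (1+c) ≤ c²` -/
theorem simp_step (hn : 5 ≤ n) (hr : Prof r) (hN : NleB n r) {e H : ℝ} (hU : ConeUB n r e)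
    (he0 : 0 ≤ e) (he : e < 1) (hH : hB n 0 ≤ H) {a b t c L : ℝ} (ha : 0 < a) (hb : b < 1)
    (hL0 : 0 ≤ L) (ht : t ≤ a * (1 + L + L ^ 2 / 2 + L ^ 3 / 6 + L ^ 4 / 24)) (ht1 : t ≤ 1)
    (hc0 : 0 ≤ c) (hc : c ^ 2 ≤ 1 - b ^ 2) (hLc : L * (1 + c) ≤ c ^ 2) (hLc' : L ≤ c)
    (hchk : ((1 - (1 - e) * t) ^ (n + 1) - e ^ (n + 1)) * H * (1 + (n + 1) * b ^ 2) ≤
      (1 - e ^ (n + 1)) * (b * c ^ (n + 2)))
    (hprev : ∀ s ∈ Ioc (0 : ℝ) a, ll n r s * (1 + cc s) ≤ cc s ^ 2) :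
    ∀ s ∈ Ioc (0 : ℝ) b, ll n r s * (1 + cc s) ≤ cc s ^ 2 := by
  refine chain_step hr hU he0 he hH hb ht1 hc0 hc hchk _ (fun s hs hF => ll_le_regA hn hr hN hs hF)
    (fun s hs h1 h2 h3 => ?_) hprev
  have h := ll_le_of_tau hr ha hs h1 h3 hL0 ht
  have hcs : c ≤ cc s := by
    refine Real.le_sqrt_of_sq_le ?_
    nlinarith [hs.1]
  have h4 : ll n r s * (1 + cc s) ≤ L * (1 + cc s) :=
    mul_le_mul_of_nonneg_right h (by linarith [cc_nonneg s])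
  nlinarith [mul_nonneg (sub_nonneg.2 hcs) (by linarith : 0 ≤ cc s + c - L)]

theorem simp_end (hr : Prof r) (hprev : ∀ s ∈ Ioc (0 : ℝ) (4 / 5), ll n r s * (1 + cc s) ≤ cc s ^ 2) :
    ∀ s ∈ Ioo (0 : ℝ) 1, ll n r s * (1 + cc s) ≤ cc s ^ 2 := by
  intro s hs
  rcases le_total s (4 / 5) with h | h
  · exact hprev s ⟨hs.1, h⟩
  · have hTp := tau_pos hr n (s := s) ⟨hs.1, hs.2.le⟩
    have hT1 := (tau_mem_Icc hr n (s := s) ⟨by linarith [hs.1], hs.2.le⟩).2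
    have hs0 := hs.1
    have hc0 := cc_nonneg s
    have hc2 : cc s ^ 2 = 1 - s ^ 2 := cc_sq ⟨by linarith [hs.1], hs.2.le⟩
    have h1 : ll n r s ≤ Real.log (1 / s) := by
      rw [ll_eq_log hs]
      exact Real.log_le_log (by positivity) (div_le_div_of_nonneg_right hT1 hs0.le)
    have h2 : Real.log (1 / s) ≤ cc s ^ 2 / (2 * s) := by
      have h := log_le_half (x := 1 / s) (by rw [le_div_iff₀ hs0]; linarith [hs.2])
      have e : (1 / s - (1 / s)⁻¹) / 2 = cc s ^ 2 / (2 * s) := by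
        rw [hc2]; field_simp
      rwa [e] at h
    have h3 : cc s ≤ 3 / 5 := by nlinarith
    have h4 : 1 + cc s ≤ 2 * s := by linarith
    calc ll n r s * (1 + cc s) ≤ cc s ^ 2 / (2 * s) * (1 + cc s) :=
          mul_le_mul_of_nonneg_right (h1.trans h2) (by linarith)
      _ ≤ cc s ^ 2 / (2 * s) * (2 * s) := mul_le_mul_of_nonneg_left h4 (by positivity)
      _ = cc s ^ 2 := by field_simp

theorem simp_start (hn : 5 ≤ n) (hr : Prof r) (hN : NleB n r) {a : ℝ} (ha : a < 1)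
    (h0 : ∀ s ∈ Ioc (0 : ℝ) a, lB n s ≤ 89 / 100 * hB n 0) :
    ∀ s ∈ Ioc (0 : ℝ) a, ll n r s * (1 + cc s) ≤ cc s ^ 2 := fun s hs =>
  ll_le_regA hn hr hN (s := s) ⟨hs.1, hs.2.trans_lt ha⟩ (h0 s hs)

end

end Crest.Agent.R230
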