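import Crest.Agent.R230.WTailRed

/-!
# Row 230: reduction for the soft contact (B9, helper58's design)

`u = V (l - cap(τ))` on `[s₁,1)`, `0` on `(0,s₁)`; gauge `-(1/2) (e₀ + e₁ (n-1) Y) (e^{2u} - 1)`.
-/

set_option autoImplicit false

open MeasureTheory Set Filter Topology
open scoped Pointwise ENNReal

namespace Crest.Agent.R230.WR

variable {n : ℕ} {r : ℝ → ℝ}

/-- the data of the contact `φ = s e^u`, `u = V (l - cap τ)` on `[s₁,1)`. -/
theorem uV_pack (hr : Prof r) {V V' cap cap' : ℝ → ℝ} {x0 s1 : ℝ}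
    (hV : ∀ x, HasDerivAt V (V' x) x) (hVc : Continuous V') (hV0 : ∀ x ≤ x0, V x = 0)
    (hcap : ∀ t, HasDerivAt cap (cap' t) t) (hcapc : Continuous cap')
    (hs1 : s1 ∈ Ioo (0 : ℝ) 1) (hx1 : ll n r s1 - cap (tau n r s1) ≤ x0)
    (hcap1 : -cap 1 < x0) :
    (∀ x ≤ x0, V' x = 0) ∧
    ∃ u u' : ℝ → ℝ, ContinuousOn u (Icc 0 1) ∧
      (∀ s ∈ Ioo (0 : ℝ) 1, HasDerivWithinAt u (u' s) (Ioi s) s) ∧
      AEStronglyMeasurable u' (volume.restrict (Ioo 0 1)) ∧
      (∃ K, ∀ s ∈ Ioo (0 : ℝ) 1, |u' s| ≤ K) ∧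
      (∃ δ > 0, ∀ s ∈ Icc (0 : ℝ) δ, u s = 0) ∧
      (∃ δ < 1, ∀ s ∈ Icc δ (1 : ℝ), u s = 0) ∧
      (∀ s ∈ Ioo (0 : ℝ) 1, s < s1 → u s = 0 ∧ u' s = 0) ∧
      (∀ s ∈ Ioo (0 : ℝ) 1, s1 ≤ s → u s = V (ll n r s - cap (tau n r s)) ∧
        s * u' s = V' (ll n r s - cap (tau n r s)) *
          (kk n r s - cap' (tau n r s) * (tau n r s * (1 + kk n r s)))) := by
  classical
  have hl := continuousOn_ll hr n
  have hVcont : Continuous V := continuous_iff_continuousAt.2 fun x => (hV x).continuousAt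
  have hcapcont : Continuous cap := continuous_iff_continuousAt.2 fun x => (hcap x).continuousAt
  have hT := tau_continuous hr n
  have hV'0' : ∀ x ≤ x0, V' x = 0 := by
    have hV'0 : ∀ x < x0, V' x = 0 := by
      intro x hx
      have h2 : V =ᶠ[𝓝 x] fun _ => 0 := by
        filter_upwards [Iio_mem_nhds hx] with y hy
        exact hV0 y (le_of_lt hy)
      exact (hV x).unique ((hasDerivAt_const x (0 : ℝ)).congr_of_eventuallyEq h2)
    intro x hx
    rcases hx.eq_or_lt with h2 | h2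
    · subst h2
      have hcl : IsClosed {y : ℝ | V' y = 0} := isClosed_eq hVc continuous_const
      have hsub : closure (Iio x) ⊆ {y : ℝ | V' y = 0} :=
        hcl.closure_subset_iff.2 fun y hy => hV'0 y hy
      rw [closure_Iio] at hsub
      exact hsub (mem_Iic.2 le_rfl)
    · exact hV'0 x h2
  refine ⟨hV'0', ?_⟩
  set X : ℝ → ℝ := fun s => ll n r s - cap (tau n r s) with hX
  have hXc : ContinuousOn X (Icc 0 1) := hl.sub (hcapcont.comp hT).continuousOn
  set m : ℝ → ℝ := fun s => max s s1 with hm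
  have hmc : Continuous m := continuous_id.max continuous_const
  have hmaps : MapsTo m (Icc 0 1) (Icc 0 1) := fun s hs =>
    ⟨hs.1.trans (le_max_left _ _), max_le hs.2 hs1.2.le⟩
  have hm_lt : ∀ s, s < s1 → m s = s1 := fun s h => max_eq_right h.le
  have hm_ge : ∀ s, s1 ≤ s → m s = s := fun s h => max_eq_left h
  set h : ℝ → ℝ := fun s => V' (X s) * (kk n r s / s - cap' (tau n r s) * dtau n r s) with hh
  have hXd : ∀ s ∈ Ioo (0 : ℝ) 1, HasDerivAt X (kk n r s / s - cap' (tau n r s) * dtau n r s) s := by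
    intro s hs
    have h1 := (hcap (tau n r s)).comp s (hasDerivAt_tau hr n (s := s) ⟨by linarith [hs.1], hs.2⟩)
    exact (hasDerivAt_ll hr n hs).sub h1
  have hVX : ∀ s ∈ Ioo (0 : ℝ) 1, HasDerivAt (fun s => V (X s)) (h s) s := fun s hs =>
    (hV (X s)).comp s (hXd s hs)
  have hright : ∀ {f : ℝ → ℝ} {f' s : ℝ}, s1 ≤ s → HasDerivAt f f' s →
      HasDerivWithinAt (fun x => f (m x)) f' (Ioi s) s := by
    intro f f' s h1 hd
    refine hd.hasDerivWithinAt.congr (fun x hx => ?_) ?_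
    · rw [hm_ge x (h1.trans (le_of_lt hx))]
    · rw [hm_ge s h1]
  have hleft : ∀ {f : ℝ → ℝ} {s : ℝ}, s < s1 → HasDerivWithinAt (fun x => f (m x)) 0 (Ioi s) s := by
    intro f s h1
    have h2 : (fun x => f (m x)) =ᶠ[𝓝 s] fun _ => f s1 := by
      filter_upwards [Iio_mem_nhds h1] with x hx
      rw [hm_lt x hx]
    exact ((hasDerivAt_const s (f s1)).congr_of_eventuallyEq h2).hasDerivWithinAt
  have hnear1 : ∃ δ < 1, ∀ s ∈ Icc δ (1 : ℝ), X (m s) ≤ x0 := by
    have hc : ContinuousWithinAt (fun s => X (m s)) (Icc 0 1) 1 :=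
      (hXc.comp hmc.continuousOn hmaps) 1 ⟨zero_le_one, le_rfl⟩
    have hv : X (m 1) < x0 := by
      rw [hm_ge 1 hs1.2.le]
      simp only [hX]
      rw [ll_one hr n, tau_one hr n]
      linarith
    have h2 := hc.eventually_lt_const hv
    rw [eventually_nhdsWithin_iff] at h2
    obtain ⟨e, he, h3⟩ := Metric.eventually_nhds_iff.1 h2
    refine ⟨max (1 - e / 2) 0, max_lt (by linarith) one_pos, fun s hs => ?_⟩
    have hs0 : 0 ≤ s := (le_max_right _ _).trans hs.1
    have hs2 : 1 - e / 2 ≤ s := (le_max_left _ _).trans hs.1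
    refine (h3 ?_ ⟨hs0, hs.2⟩).le
    rw [Real.dist_eq, abs_of_nonpos (by linarith [hs.2])]
    linarith
  obtain ⟨δ, hδ, hδ1⟩ := hnear1
  have hhc : ContinuousOn h (Ioo 0 1) := by
    refine (hVc.comp_continuousOn (hXc.mono Ioo_subset_Icc_self)).mul ?_
    refine ContinuousOn.sub ?_ ?_
    · exact (continuousOn_kk hr n).div continuousOn_id fun s hs => hs.1.ne'
    · exact (hcapc.comp hT).continuousOn.mul
        ((continuousOn_dtau hr n).mono (Ioo_subset_Ioo_left (by norm_num)))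
  refine ⟨fun s => V (X (m s)), fun s => if s < s1 then 0 else h s, ?_, ?_, ?_, ?_, ?_, ?_, ?_, ?_⟩
  · exact hVcont.comp_continuousOn (hXc.comp hmc.continuousOn hmaps)
  · intro s hs
    simp only
    split_ifs with h1
    · exact hleft (f := fun s => V (X s)) h1
    · exact hright (f := fun s => V (X s)) (not_lt.1 h1) (hVX s hs)
  · have h1 : AEStronglyMeasurable h (volume.restrict (Ioo 0 1)) :=
      hhc.aestronglyMeasurable measurableSet_Ioo
    have h2 := h1.indicator (measurableSet_Ici (a := s1))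
    refine h2.congr (Eventually.of_forall fun s => ?_)
    by_cases h3 : s < s1
    · simp [h3]
    · simp [h3, not_lt.1 h3]
  · have hsub : Icc s1 (max δ s1) ⊆ Ioo 0 1 := fun s hs =>
      ⟨hs1.1.trans_le hs.1, hs.2.trans_lt (max_lt hδ hs1.2)⟩
    obtain ⟨K, hK⟩ := (isCompact_Icc (a := s1) (b := max δ s1)).exists_bound_of_continuousOn
      (hhc.mono hsub)
    refine ⟨max K 0, fun s hs => ?_⟩
    simp only
    split_ifs with h1
    · simp
    · push Not at h1
      by_cases h2 : s ≤ max δ s1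
      · exact (hK s ⟨h1, h2⟩).trans (le_max_left _ _)
      · push Not at h2
        have h3 := hδ1 s ⟨(le_max_left _ _).trans h2.le, hs.2.le⟩
        rw [hm_ge s h1] at h3
        simp only [hh]
        rw [hV'0' _ h3, zero_mul, abs_zero]
        exact le_max_right _ _
  · refine ⟨s1, hs1.1, fun s hs => ?_⟩
    simp only
    rw [show m s = s1 from max_eq_right hs.2]
    exact hV0 _ hx1
  · exact ⟨δ, hδ, fun s hs => hV0 _ (hδ1 s hs)⟩
  · intro s hs h1
    simp only
    rw [if_pos h1, hm_lt s h1]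
    exact ⟨hV0 _ hx1, rfl⟩
  · intro s hs h1
    simp only
    rw [if_neg (not_lt.2 h1), hm_ge s h1]
    refine ⟨rfl, ?_⟩
    have h3 := hs.1.ne'
    have h2 := (tau_mem_half hr n hs).1.ne'
    have h4 : X s = ll n r s - cap (tau n r s) := rfl
    simp only [hh]
    rw [one_add_kk, ← h4]
    field_simp

/-- density of the gauge `-(1/2) (e₀ + e₁ (n-1) Y) (e^{2u} - 1)`, `su = s u'` -/
noncomputable def softG (n : ℕ) (e0 e1 s u su : ℝ) : ℝ :=
  1 / 2 * (((((n : ℝ) - 1) * Y s - 1) * (e0 + e1 * (((n : ℝ) - 1) * Y s)) -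
      2 * e1 * (((n : ℝ) - 1) * Y s) * (1 + Y s)) * (Real.exp (2 * u) - 1) -
    2 * (e0 + e1 * (((n : ℝ) - 1) * Y s)) * Real.exp (2 * u) * su)

lemma softG_zero (n : ℕ) (e0 e1 s : ℝ) : softG n e0 e1 s 0 0 = 0 := by
  unfold softG
  simp

lemma null_softG (hn : 5 ≤ n) {e0 e1 : ℝ} {u u' : ℝ → ℝ} (hu : ContinuousOn u (Icc 0 1))
    (hu' : ∀ s ∈ Ioo (0 : ℝ) 1, HasDerivWithinAt u (u' s) (Ioi s) s)
    (hum : AEStronglyMeasurable u' (volume.restrict (Ioo 0 1)))
    (hub : ∃ K, ∀ s ∈ Ioo (0 : ℝ) 1, |u' s| ≤ K) :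
    NI n (fun s => softG n e0 e1 s (u s) (s * u' s)) ∧
      JJ n (fun s => softG n e0 e1 s (u s) (s * u' s)) = 0 := by
  set G : ℝ → ℝ := fun s => -(1 / 2) * (Real.exp (2 * u s) - 1) with hG
  set G' : ℝ → ℝ := fun s => -(1 / 2) * (Real.exp (2 * u s) * (2 * u' s)) with hG'
  have hGc : ContinuousOn G (Icc 0 1) :=
    continuousOn_const.mul (((continuousOn_const.mul hu).rexp).sub continuousOn_const)
  have hGd : ∀ s ∈ Ioo (0 : ℝ) 1, HasDerivWithinAt G (G' s) (Ioi s) s := fun s hs =>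
    (((hu' s hs).const_mul 2).exp.sub_const 1).const_mul _
  obtain ⟨K, hK⟩ := hub
  have hexp : ContinuousOn (fun s => -(1 / 2) * (Real.exp (2 * u s) * 2)) (Icc 0 1) :=
    continuousOn_const.mul (((continuousOn_const.mul hu).rexp).mul continuousOn_const)
  have nG1 : NI n (fun s => s * G' s) := by
    have := NI.bdd_mul (n := n) (f := u')
      (NI_cont (n := n) (g := fun s => s * (-(1 / 2) * (Real.exp (2 * u s) * 2)))
        (continuousOn_id.mul hexp)) hum hK
    exact this.congr fun s _ => by simp only [hG']; ring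
  have nG2 : NI n (fun s => Y s * (s * G' s)) := by
    have := NI.bdd_mul (n := n) (f := u')
      (NI_Y (n := n) (by omega) (g := fun s => s * (-(1 / 2) * (Real.exp (2 * u s) * 2)))
        (continuousOn_id.mul hexp)) hum hK
    exact this.congr fun s _ => by simp only [hG']; ring
  have h1 := null_GR (n := n) (by omega) hGc hGd nG1
  have h2 := null_YR (n := n) hn hGc hGd nG2
  have n1 : NI n (fun s => G s + s * G' s - ((n : ℝ) - 1) * (Y s * G s)) :=
    ((NI_cont hGc).add nG1).sub ((NI_Y (by omega) hGc).smul _)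
  have n2 : NI n (fun s => 3 * (Y s * G s) - ((n : ℝ) - 3) * (Y s ^ 2 * G s) + Y s * (s * G' s)) :=
    (((NI_Y (by omega) hGc).smul 3).sub ((NI_Y2 hn hGc).smul _)).add nG2
  have e : ∀ s ∈ Ioo (0 : ℝ) 1, e0 * (G s + s * G' s - ((n : ℝ) - 1) * (Y s * G s)) +
      (e1 * ((n : ℝ) - 1)) * (3 * (Y s * G s) - ((n : ℝ) - 3) * (Y s ^ 2 * G s) + Y s * (s * G' s)) =
      softG n e0 e1 s (u s) (s * u' s) := by
    intro s _
    unfold softG
    simp only [hG, hG']
    ring
  refine ⟨((n1.smul e0).add (n2.smul _)).congr e, ?_⟩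
  rw [← JJ_congr e, JJ_add (n1.smul e0) (n2.smul _), JJ_smul, JJ_smul, h1, h2]
  ring

/-- **Conclusion for the soft contact.** `P` is any certificate density of the path (`PQ`, `PP`, ...). -/
theorem soft_concl (hn : 5 ≤ n) (hr : Prof r) {P : ℝ → ℝ} (nP : NI n P)
    (hPle : JJ n P ≤ JJ n (fun s => clo n s (ll n r s) (kk n r s)))
    {V V' cap cap' : ℝ → ℝ} {e0 e1 s1 : ℝ}
    (hV : ∀ x, HasDerivAt V (V' x) x) (hVc : Continuous V') (hV0 : ∀ x ≤ 0, V x = 0)
    (hcap : ∀ t, HasDerivAt cap (cap' t) t) (hcapc : Continuous cap')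
    (hs1 : s1 ∈ Ioo (0 : ℝ) 1) (hx1 : ll n r s1 ≤ cap (tau n r s1)) (hcap1 : 0 < cap 1)
    (hnear : ∀ s ∈ Ioo (0 : ℝ) 1, (s < s1 ∨ ll n r s ≤ cap (tau n r s)) →
      Legal n r s ∧ 0 ≤ P s ∧ (P s = 0 → ll n r s = 0))
    (hfar : ∀ s ∈ Ico s1 (1 : ℝ), cap (tau n r s) < ll n r s →
      s * Real.exp (V (ll n r s - cap (tau n r s))) < 1 ∧
      xA (1 / cc (s * Real.exp (V (ll n r s - cap (tau n r s)))))
        (ll n r s - V (ll n r s - cap (tau n r s))) ≤
      xB (tau n r s) (1 / cc (s * Real.exp (V (ll n r s - cap (tau n r s)))))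
        (ll n r s - V (ll n r s - cap (tau n r s))) ∧
      0 < P s + (lineC n s (ll n r s) (kk n r s) (V (ll n r s - cap (tau n r s)))
          (V' (ll n r s - cap (tau n r s)) *
            (kk n r s - cap' (tau n r s) * (tau n r s * (1 + kk n r s)))) +
        softG n e0 e1 s (V (ll n r s - cap (tau n r s)))
          (V' (ll n r s - cap (tau n r s)) *
            (kk n r s - cap' (tau n r s) * (tau n r s * (1 + kk n r s)))))) : Concl n r := by
  obtain ⟨hV'0, u, u', hu, hu', hum, hub, hn0, hn1, hlow, hhigh⟩ :=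
    uV_pack (n := n) hr hV hVc hV0 hcap hcapc hs1 (by linarith) (x0 := 0) (by linarith)
  -- on the near part u = 0 and s u' = 0
  have hz : ∀ s ∈ Ioo (0 : ℝ) 1, (s < s1 ∨ ll n r s ≤ cap (tau n r s)) → u s = 0 ∧ s * u' s = 0 := by
    intro s hs h
    by_cases h1 : s < s1
    · obtain ⟨a, b⟩ := hlow s hs h1
      exact ⟨a, by rw [b, mul_zero]⟩
    · have h2 := h.resolve_left h1
      obtain ⟨a, b⟩ := hhigh s hs (not_lt.1 h1)
      rw [a, b, hV0 _ (by linarith), hV'0 _ (by linarith), zero_mul]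
      exact ⟨rfl, rfl⟩
  have hcase : ∀ s ∈ Ioo (0 : ℝ) 1, (s < s1 ∨ ll n r s ≤ cap (tau n r s)) ∨
      (s ∈ Ico s1 (1 : ℝ) ∧ cap (tau n r s) < ll n r s) := by
    intro s hs
    by_cases h1 : s < s1
    · exact Or.inl (Or.inl h1)
    · by_cases h2 : ll n r s ≤ cap (tau n r s)
      · exact Or.inl (Or.inr h2)
      · exact Or.inr ⟨⟨not_lt.1 h1, hs.2⟩, not_le.1 h2⟩
  obtain ⟨n1, hU⟩ := tail_hU (n := n) (by omega) hr hu hu' hum hub (fun s hs => by
      rcases hcase s hs with h | ⟨h1, h2⟩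
      · rw [(hz s hs h).1, Real.exp_zero, mul_one]; exact hs.2
      · rw [(hhigh s hs h1.1).1]; exact (hfar s h1 h2).1) hn0 hn1 (fun s hs => by
      rcases hcase s hs with h | ⟨h1, h2⟩
      · rw [(hz s hs h).1, Real.exp_zero, mul_one, sub_zero, ll_eq_log hs]
        exact (hnear s hs h).1.adm hs
      · rw [(hhigh s hs h1.1).1]; exact (hfar s h1 h2).2.1)
  obtain ⟨n2, j2⟩ := null_softG (n := n) (e0 := e0) (e1 := e1) hn hu hu' hum hub
  rw [int_raw_eq hr (by omega)] at hU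
  refine conclude hr (by omega) (nP.add (n1.add n2)) ?_ ?_ ?_
  · rw [JJ_add nP (n1.add n2), JJ_add n1 n2, j2, add_zero]
    linarith
  · intro s hs
    rcases hcase s hs with h | ⟨h1, h2⟩
    · rw [(hz s hs h).1, (hz s hs h).2, lineC_zero, softG_zero, add_zero, add_zero]
      exact (hnear s hs h).2.1
    · rw [(hhigh s hs h1.1).1, (hhigh s hs h1.1).2]
      exact (hfar s h1 h2).2.2.le
  · intro s hs h0
    rcases hcase s hs with h | ⟨h1, h2⟩
    · rw [(hz s hs h).1, (hz s hs h).2, lineC_zero, softG_zero, add_zero, add_zero] at h0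
      exact (hnear s hs h).2.2 h0
    · rw [(hhigh s hs h1.1).1, (hhigh s hs h1.1).2] at h0
      exact absurd h0 (hfar s h1 h2).2.2.ne'

/-- the soft cap function -/
noncomputable def Vs (b x : ℝ) : ℝ := if x ≤ 0 then 0 else if x ≤ 2 * b then x ^ 2 / (4 * b) else x - b

/-- its derivative -/
noncomputable def Vs' (b x : ℝ) : ℝ := max 0 (min 1 (x / (2 * b)))

lemma continuous_Vs' {b : ℝ} : Continuous (Vs' b) := by
  unfold Vs'
  fun_prop

lemma Vs_of_nonpos {b x : ℝ} (hx : x ≤ 0) : Vs b x = 0 := by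
  unfold Vs; rw [if_pos hx]

lemma Vs_of_mem {b x : ℝ} (h0 : 0 ≤ x) (h1 : x ≤ 2 * b) : Vs b x = x ^ 2 / (4 * b) := by
  unfold Vs
  by_cases h : x ≤ 0
  · have : x = 0 := le_antisymm h h0
    rw [if_pos h, this]; simp
  · rw [if_neg h, if_pos h1]

lemma Vs_of_ge {b x : ℝ} (hb : 0 < b) (h1 : 2 * b ≤ x) : Vs b x = x - b := by
  unfold Vs
  rw [if_neg (by linarith)]
  by_cases h : x ≤ 2 * b
  · have : x = 2 * b := le_antisymm h h1
    rw [if_pos h, this]
    field_simp
    ring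
  · rw [if_neg h]

lemma Vs'_of_nonpos {b x : ℝ} (hb : 0 < b) (hx : x ≤ 0) : Vs' b x = 0 := by
  unfold Vs'
  have : x / (2 * b) ≤ 0 := div_nonpos_of_nonpos_of_nonneg hx (by positivity)
  rw [max_eq_left]
  exact (min_le_right _ _).trans this

lemma Vs'_of_mem {b x : ℝ} (hb : 0 < b) (h0 : 0 ≤ x) (h1 : x ≤ 2 * b) : Vs' b x = x / (2 * b) := by
  unfold Vs'
  have h2 : x / (2 * b) ≤ 1 := (div_le_one (by positivity)).2 h1
  rw [min_eq_right h2, max_eq_right (by positivity)]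

lemma Vs'_of_ge {b x : ℝ} (hb : 0 < b) (h1 : 2 * b ≤ x) : Vs' b x = 1 := by
  unfold Vs'
  have h2 : 1 ≤ x / (2 * b) := (one_le_div (by positivity)).2 h1
  rw [min_eq_left h2, max_eq_right zero_le_one]

lemma hasDerivAt_Vs {b : ℝ} (hb : 0 < b) (x : ℝ) : HasDerivAt (Vs b) (Vs' b x) x := by
  have hl : ∀ y ≤ 0, Vs b y = 0 := fun y hy => Vs_of_nonpos hy
  have d1 : ∀ y : ℝ, HasDerivAt (fun z : ℝ => z ^ 2 / (4 * b)) (y / (2 * b)) y := by
    intro y
    have := (hasDerivAt_pow 2 y).div_const (4 * b)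
    refine this.congr_deriv ?_
    field_simp
    norm_num
    ring
  have d2 : ∀ y : ℝ, HasDerivAt (fun z : ℝ => z - b) 1 y := fun y => (hasDerivAt_id y).sub_const b
  rcases lt_trichotomy x 0 with h | h | h
  · rw [Vs'_of_nonpos hb h.le]
    refine (hasDerivAt_const x (0 : ℝ)).congr_of_eventuallyEq ?_
    filter_upwards [Iio_mem_nhds h] with y hy
    exact hl y (le_of_lt hy)
  · subst h
    rw [Vs'_of_nonpos hb le_rfl]
    have hL : HasDerivWithinAt (Vs b) 0 (Iic 0) 0 := by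
      refine (hasDerivWithinAt_const (0 : ℝ) (Iic 0) (0 : ℝ)).congr (fun y hy => hl y hy) (hl 0 le_rfl)
    have hR : HasDerivWithinAt (Vs b) 0 (Ici 0) 0 := by
      have h1 := (d1 0).hasDerivWithinAt (s := Ici 0)
      rw [zero_div] at h1
      refine h1.congr_of_eventuallyEq ?_ (Vs_of_mem le_rfl (by positivity))
      filter_upwards [self_mem_nhdsWithin, mem_nhdsWithin_of_mem_nhds
        (Iio_mem_nhds (show (0 : ℝ) < 2 * b by positivity))] with y hy hy2
      exact Vs_of_mem hy (le_of_lt hy2)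
    have := hL.union hR
    rwa [Iic_union_Ici, hasDerivWithinAt_univ] at this
  · rcases lt_trichotomy x (2 * b) with h2 | h2 | h2
    · rw [Vs'_of_mem hb h.le h2.le]
      refine (d1 x).congr_of_eventuallyEq ?_
      filter_upwards [Ioo_mem_nhds h h2] with y hy
      exact Vs_of_mem hy.1.le hy.2.le
    · rw [Vs'_of_ge hb h2.ge]
      have hL : HasDerivWithinAt (Vs b) 1 (Iic x) x := by
        have h1 := (d1 x).hasDerivWithinAt (s := Iic x)
        have e : x / (2 * b) = 1 := by rw [h2]; field_simp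
        rw [e] at h1
        refine h1.congr_of_eventuallyEq ?_ (Vs_of_mem h.le h2.le)
        filter_upwards [self_mem_nhdsWithin, mem_nhdsWithin_of_mem_nhds (Ioi_mem_nhds h)] with y hy hy2
        exact Vs_of_mem (le_of_lt hy2) ((mem_Iic.1 hy).trans h2.le)
      have hR : HasDerivWithinAt (Vs b) 1 (Ici x) x := by
        refine (d2 x).hasDerivWithinAt.congr (fun y hy => Vs_of_ge hb (h2.ge.trans hy)) (Vs_of_ge hb h2.ge)
      have := hL.union hR
      rwa [Iic_union_Ici, hasDerivWithinAt_univ] at this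
    · rw [Vs'_of_ge hb h2.le]
      refine (d2 x).congr_of_eventuallyEq ?_
      filter_upwards [Ioi_mem_nhds h2] with y hy
      exact Vs_of_ge hb (le_of_lt hy)

end Crest.Agent.R230.WR
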