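import Crest.Agent.R230.LegalB
import Crest.Agent.R230.Cyl90
import Crest.Agent.R230.WSoft

/-!
# Row 230: legality of the soft contact (helper640), block F3 of the large-`N` plan

For `x ∈ (0,1)`, `0 < T ≤ 1` and `log (T/x) ≤ 471/1000 - 17/200 T²` the XLOG line with contact
parameter `x` is admissible: `xA ≤ xB` (`soft_LG`, `soft_adm`, `soft_adm_path`).
-/

set_option autoImplicit false

open MeasureTheory Set Filter Topology
open scoped Pointwise ENNReal

namespace Crest.Agent.R230

lemma soft_step {a t t' c L x T : ℝ} (ha : 0 < a) (ha1 : a < 1) (ht : 1 / 2 ≤ t) (ht1 : t ≤ 1)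
    (ht' : 0 ≤ t') (ht'1 : t' ≤ 1) (hc0 : 0 ≤ c) (hc : 1 - a ^ 2 ≤ c ^ 2) (hL0 : 0 ≤ L)
    (hLt : t ≤ a * (1 + L + L ^ 2 / 2 + L ^ 3 / 6 + L ^ 4 / 24 + L ^ 5 / 120 + L ^ 6 / 720 + L ^ 7 / 5040))
    (h : L * (3 * a ^ 2 - 2 + 2 * (1 - a ^ 2) * c + t) * (1 + c) ≤ (1 - a ^ 2) * (a ^ 2 + t))
    (hK : (1 + (471 / 1000 - 17 / 200 * t' ^ 2) + (471 / 1000 - 17 / 200 * t' ^ 2) ^ 2 / 2 +
      (471 / 1000 - 17 / 200 * t' ^ 2) ^ 3 / 6 + (471 / 1000 - 17 / 200 * t' ^ 2) ^ 4 / 24 +
      (471 / 1000 - 17 / 200 * t' ^ 2) ^ 5 / 120 + (471 / 1000 - 17 / 200 * t' ^ 2) ^ 6 / 720 +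
      (471 / 1000 - 17 / 200 * t' ^ 2) ^ 7 / 5040 + (471 / 1000 - 17 / 200 * t' ^ 2) ^ 8 * 9 / 322560) * a ≤ t')
    (hx : x ∈ Ioo (0 : ℝ) 1) (hT' : t' ≤ T) (hT : T ≤ t)
    (hl : Real.log (T / x) ≤ 471 / 1000 - 17 / 200 * T ^ 2) : LG x T := by
  have ha2 : 0 < 1 - a ^ 2 := by nlinarith
  -- the numeric inequality gives `LG a t`
  have hLG : LG a t := by
    have hcc0 := cc_nonneg a
    have hcc2 : cc a ^ 2 = 1 - a ^ 2 := cc_sq ⟨by linarith, ha1.le⟩
    have hcc : cc a ≤ c := abs_le_of_sq_le_sq' (by linarith) hc0 |>.2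
    unfold LG
    have hA : (1 - cc a) ^ 2 * (1 + 2 * cc a) = 3 * a ^ 2 - 2 + 2 * (1 - a ^ 2) * cc a := by
      have e : (1 - cc a) ^ 2 * (1 + 2 * cc a) = 1 - 3 * cc a ^ 2 + 2 * cc a ^ 2 * cc a := by ring
      rw [e, hcc2]
      ring
    have hlog : Real.log (t / a) ≤ L := by
      rw [Real.log_le_iff_le_exp (by positivity), div_le_iff₀' ha]
      refine hLt.trans (mul_le_mul_of_nonneg_left ?_ ha.le)
      have := Real.sum_le_exp_of_nonneg hL0 8
      simp only [Finset.sum_range_succ, Finset.sum_range_zero, Nat.factorial] at this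
      norm_num at this
      linarith
    have hA0 := A_nonneg' a
    have h1 : (1 - cc a) ^ 2 * (1 + 2 * cc a) + t ≤ 3 * a ^ 2 - 2 + 2 * (1 - a ^ 2) * c + t := by
      rw [hA]
      have := mul_le_mul_of_nonneg_left hcc ha2.le
      linarith
    calc Real.log (t / a) * ((1 - cc a) ^ 2 * (1 + 2 * cc a) + t) * (1 + cc a) ≤
        L * ((1 - cc a) ^ 2 * (1 + 2 * cc a) + t) * (1 + cc a) := by
          gcongr
      _ ≤ L * (3 * a ^ 2 - 2 + 2 * (1 - a ^ 2) * c + t) * (1 + c) := by
          have h3 : 0 ≤ L * (3 * a ^ 2 - 2 + 2 * (1 - a ^ 2) * c + t) := mul_nonneg hL0 (by linarith)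
          gcongr
      _ ≤ (1 - a ^ 2) * (a ^ 2 + t) := h
      _ = _ := by rw [hcc2]
  have hx0 := hx.1
  have hT0 : 0 < T := by
    rcases ht'.eq_or_lt with h0 | h0
    · rw [← h0] at hK
      norm_num at hK
      nlinarith
    · linarith
  -- `a ≤ x`
  have hax : a ≤ x := by
    by_contra hlt
    push Not at hlt
    have h1 : Real.log (T / x) ≤ 471 / 1000 - 17 / 200 * t' ^ 2 := by
      have : t' ^ 2 ≤ T ^ 2 := by gcongr
      linarith
    rw [Real.log_le_iff_le_exp (by positivity), div_le_iff₀ hx0] at h1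
    set K := 471 / 1000 - 17 / 200 * t' ^ 2 with hKdef
    have hK0 : 0 ≤ K := by rw [hKdef]; nlinarith
    have hK1 : K ≤ 1 := by rw [hKdef]; nlinarith
    have h2 := Real.exp_bound' hK0 hK1 (n := 8) (by norm_num)
    simp only [Finset.sum_range_succ, Finset.sum_range_zero, Nat.factorial] at h2
    norm_num at h2
    have h3 : Real.exp K * a ≤ t' := by
      refine le_trans (mul_le_mul_of_nonneg_right ?_ ha.le) hK
      refine h2.trans (le_of_eq ?_)
      ring
    have h4 : Real.exp K * x < Real.exp K * a := mul_lt_mul_of_pos_left hlt (Real.exp_pos _)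
    linarith
  refine LG_anti hx hT0 hT ?_
  rcases le_total x (7 / 10) with h7 | h7
  · exact LG_mono ha hax h7 ht hLG
  · exact LG_anti hx (by linarith) ht1 (LG_one ⟨h7, hx.2⟩)

/-- `T ≤ 1/2` -/
lemma soft_LG_small {x T : ℝ} (hx : x ∈ Ioo (0 : ℝ) 1) (hT0 : 0 < T) (hT1 : T ≤ 1 / 2)
    (hl : Real.log (T / x) ≤ 471 / 1000) : LG x T := by
  have hx0 := hx.1
  have hc0 := cc_nonneg x
  have hc1 := cc_le_one x
  have hc2 : cc x ^ 2 = 1 - x ^ 2 := cc_sq ⟨by linarith [hx.1], hx.2.le⟩
  have hA0 := A_nonneg' x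
  unfold LG
  by_cases hl0 : Real.log (T / x) ≤ 0
  · have h1 : Real.log (T / x) * ((1 - cc x) ^ 2 * (1 + 2 * cc x) + T) * (1 + cc x) ≤ 0 := by
      have : Real.log (T / x) * ((1 - cc x) ^ 2 * (1 + 2 * cc x) + T) ≤ 0 :=
        mul_nonpos_of_nonpos_of_nonneg hl0 (by linarith)
      exact mul_nonpos_of_nonpos_of_nonneg this (by linarith)
    have h2 : 0 ≤ cc x ^ 2 * (x ^ 2 + T) := by positivity
    linarith
  · push Not at hl0
    have hxT : x < T := by
      by_contra h
      push Not at h
      have : Real.log (T / x) ≤ 0 := Real.log_nonpos (by positivity) (by rwa [div_le_one hx0])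
      linarith
    set c := cc x with hc
    have e : ((1 - c) ^ 2 * (1 + 2 * c) + T) * (1 + c) =
        (T - x ^ 2 + 2 * (x ^ 2) ^ 2) + c * (T + x ^ 2) := by
      have : x ^ 2 = 1 - c ^ 2 := by linarith
      rw [this]
      ring
    rw [mul_assoc, e, hc2]
    have hcy : c ≤ 1 - x ^ 2 / 2 := by nlinarith [sq_nonneg (1 - c)]
    have hy0 : 0 < x ^ 2 := by positivity
    have hy1 : x ^ 2 ≤ 1 / 4 := by nlinarith
    set y := x ^ 2 with hy
    have h1 : 0 ≤ T - y + 2 * y ^ 2 + c * (T + y) := by
      rw [← e]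
      exact mul_nonneg (by linarith) (by linarith)
    have h2 : T - y + 2 * y ^ 2 + c * (T + y) ≤ T - y + 2 * y ^ 2 + (1 - y / 2) * (T + y) := by
      have := mul_le_mul_of_nonneg_right hcy (by linarith : 0 ≤ T + y)
      linarith
    calc Real.log (T / x) * (T - y + 2 * y ^ 2 + c * (T + y)) ≤
        471 / 1000 * (T - y + 2 * y ^ 2 + c * (T + y)) := mul_le_mul_of_nonneg_right hl h1
      _ ≤ 471 / 1000 * (T - y + 2 * y ^ 2 + (1 - y / 2) * (T + y)) := by linarith
      _ ≤ (1 - y) * (y + T) := by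
        have h3 : 0 ≤ y * (1 / 4 - y) := mul_nonneg hy0.le (by linarith)
        have h4 : 0 ≤ y * (1 / 2 - T) := mul_nonneg hy0.le (by linarith)
        nlinarith

/-- `T ≥ 1/2` -/
lemma soft_LG_large {x T : ℝ} (hx : x ∈ Ioo (0 : ℝ) 1) (hT0 : 1 / 2 ≤ T) (hT1 : T ≤ 1)
    (hL : Real.log (T / x) ≤ 471 / 1000 - 17 / 200 * T ^ 2) : LG x T := by
  rcases le_total (49997 / 50000) T with h | h
  · exact soft_step (a := (339861 / 500000)) (t := 1) (t' := (49997 / 50000)) (c := (73347 / 100000))
      (L := (48259 / 125000)) (by norm_num) (by norm_num) (by norm_num) (by norm_num) (by norm_num)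
      (by norm_num) (by norm_num) (by norm_num) (by norm_num) (by norm_num) (by norm_num) (by norm_num) hx h hT1 hL
  have hp := h
  clear h
  rcases le_total (49991 / 50000) T with h | h
  · exact soft_step (a := (679627 / 1000000)) (t := (49997 / 50000)) (t' := (49991 / 50000)) (c := (366779 / 500000))
      (L := (48269 / 125000)) (by norm_num) (by norm_num) (by norm_num) (by norm_num) (by norm_num)
      (by norm_num) (by norm_num) (by norm_num) (by norm_num) (by norm_num) (by norm_num) (by norm_num) hx h hp hL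
  have hp := h
  clear h
  rcases le_total (2499 / 2500) T with h | h
  · exact soft_step (a := (169863 / 250000)) (t := (49991 / 50000)) (t' := (2499 / 2500)) (c := (18343 / 25000))
      (L := (386289 / 1000000)) (by norm_num) (by norm_num) (by norm_num) (by norm_num) (by norm_num)
      (by norm_num) (by norm_num) (by norm_num) (by norm_num) (by norm_num) (by norm_num) (by norm_num) hx h hp hL
  have hp := h
  clear h
  rcases le_total (49959 / 50000) T with h | h
  · exact soft_step (a := (339559 / 500000)) (t := (2499 / 2500)) (t' := (49959 / 50000)) (c := (73403 / 100000))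
      (L := (386561 / 1000000)) (by norm_num) (by norm_num) (by norm_num) (by norm_num) (by norm_num)
      (by norm_num) (by norm_num) (by norm_num) (by norm_num) (by norm_num) (by norm_num) (by norm_num) hx h hp hL
  have hp := h
  clear h
  rcases le_total (99839 / 100000) T with h | h
  · exact soft_step (a := (67849 / 100000)) (t := (49959 / 50000)) (t' := (99839 / 100000)) (c := (73461 / 100000))
      (L := (193533 / 500000)) (by norm_num) (by norm_num) (by norm_num) (by norm_num) (by norm_num)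
      (by norm_num) (by norm_num) (by norm_num) (by norm_num) (by norm_num) (by norm_num) (by norm_num) hx h hp hL
  have hp := h
  clear h
  rcases le_total (9969 / 10000) T with h | h
  · exact soft_step (a := (338653 / 500000)) (t := (99839 / 100000)) (t' := (9969 / 10000)) (c := (367851 / 500000))
      (L := (388021 / 1000000)) (by norm_num) (by norm_num) (by norm_num) (by norm_num) (by norm_num)
      (by norm_num) (by norm_num) (by norm_num) (by norm_num) (by norm_num) (by norm_num) (by norm_num) hx h hp hL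
  have hp := h
  clear h
  rcases le_total (24853 / 25000) T with h | h
  · exact soft_step (a := (6751 / 10000)) (t := (9969 / 10000)) (t' := (24853 / 25000)) (c := (737727 / 1000000))
      (L := (38979 / 100000)) (by norm_num) (by norm_num) (by norm_num) (by norm_num) (by norm_num)
      (by norm_num) (by norm_num) (by norm_num) (by norm_num) (by norm_num) (by norm_num) (by norm_num) hx h hp hL
  have hp := h
  clear h
  rcases le_total (49451 / 50000) T with h | h
  · exact soft_step (a := (671059 / 1000000)) (t := (24853 / 25000)) (t' := (49451 / 50000)) (c := (185351 / 250000))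
      (L := (393001 / 1000000)) (by norm_num) (by norm_num) (by norm_num) (by norm_num) (by norm_num)
      (by norm_num) (by norm_num) (by norm_num) (by norm_num) (by norm_num) (by norm_num) (by norm_num) hx h hp hL
  have hp := h
  clear h
  rcases le_total (48997 / 50000) T with h | h
  · exact soft_step (a := (663889 / 1000000)) (t := (49451 / 50000)) (t' := (48997 / 50000)) (c := (93479 / 125000))
      (L := (1993 / 5000)) (by norm_num) (by norm_num) (by norm_num) (by norm_num) (by norm_num)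
      (by norm_num) (by norm_num) (by norm_num) (by norm_num) (by norm_num) (by norm_num) (by norm_num) hx h hp hL
  have hp := h
  clear h
  rcases le_total (96453 / 100000) T with h | h
  · exact soft_step (a := (651787 / 1000000)) (t := (48997 / 50000)) (t' := (96453 / 100000)) (c := (758403 / 1000000))
      (L := (203887 / 500000)) (by norm_num) (by norm_num) (by norm_num) (by norm_num) (by norm_num)
      (by norm_num) (by norm_num) (by norm_num) (by norm_num) (by norm_num) (by norm_num) (by norm_num) hx h hp hL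
  have hp := h
  clear h
  rcases le_total (2938 / 3125) T with h | h
  · exact soft_step (a := (632817 / 1000000)) (t := (96453 / 100000)) (t' := (2938 / 3125)) (c := (387151 / 500000))
      (L := (21073 / 50000)) (by norm_num) (by norm_num) (by norm_num) (by norm_num) (by norm_num)
      (by norm_num) (by norm_num) (by norm_num) (by norm_num) (by norm_num) (by norm_num) (by norm_num) hx h hp hL
  have hp := h
  clear h
  rcases le_total (2828 / 3125) T with h | h
  · exact soft_step (a := (60577 / 100000)) (t := (2938 / 3125)) (t' := (2828 / 3125)) (c := (19891 / 25000))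
      (L := (8791 / 20000)) (by norm_num) (by norm_num) (by norm_num) (by norm_num) (by norm_num)
      (by norm_num) (by norm_num) (by norm_num) (by norm_num) (by norm_num) (by norm_num) (by norm_num) hx h hp hL
  have hp := h
  clear h
  rcases le_total (42953 / 50000) T with h | h
  · exact soft_step (a := (571101 / 1000000)) (t := (2828 / 3125)) (t' := (42953 / 50000)) (c := (10261 / 12500))
      (L := (18413 / 40000)) (by norm_num) (by norm_num) (by norm_num) (by norm_num) (by norm_num)
      (by norm_num) (by norm_num) (by norm_num) (by norm_num) (by norm_num) (by norm_num) (by norm_num) hx h hp hL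
  have hp := h
  clear h
  rcases le_total (80487 / 100000) T with h | h
  · exact soft_step (a := (530991 / 1000000)) (t := (42953 / 50000)) (t' := (80487 / 100000)) (c := (423689 / 500000))
      (L := (240547 / 500000)) (by norm_num) (by norm_num) (by norm_num) (by norm_num) (by norm_num)
      (by norm_num) (by norm_num) (by norm_num) (by norm_num) (by norm_num) (by norm_num) (by norm_num) hx h hp hL
  have hp := h
  clear h
  rcases le_total (74611 / 100000) T with h | h
  · exact soft_step (a := (488427 / 1000000)) (t := (80487 / 100000)) (t' := (74611 / 100000)) (c := (174521 / 200000))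
      (L := (499491 / 1000000)) (by norm_num) (by norm_num) (by norm_num) (by norm_num) (by norm_num)
      (by norm_num) (by norm_num) (by norm_num) (by norm_num) (by norm_num) (by norm_num) (by norm_num) hx h hp hL
  have hp := h
  clear h
  rcases le_total (1373 / 2000) T with h | h
  · exact soft_step (a := (223077 / 500000)) (t := (74611 / 100000)) (t' := (1373 / 2000)) (c := (894957 / 1000000))
      (L := (514209 / 1000000)) (by norm_num) (by norm_num) (by norm_num) (by norm_num) (by norm_num)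
      (by norm_num) (by norm_num) (by norm_num) (by norm_num) (by norm_num) (by norm_num) (by norm_num) hx h hp hL
  have hp := h
  clear h
  rcases le_total (12577 / 20000) T with h | h
  · exact soft_step (a := (203031 / 500000)) (t := (1373 / 2000)) (t' := (12577 / 20000)) (c := (456923 / 500000))
      (L := (525101 / 1000000)) (by norm_num) (by norm_num) (by norm_num) (by norm_num) (by norm_num)
      (by norm_num) (by norm_num) (by norm_num) (by norm_num) (by norm_num) (by norm_num) (by norm_num) hx h hp hL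
  have hp := h
  clear h
  rcases le_total (5749 / 10000) T with h | h
  · exact soft_step (a := (369181 / 1000000)) (t := (12577 / 20000)) (t' := (5749 / 10000)) (c := (464679 / 500000))
      (L := (266303 / 500000)) (by norm_num) (by norm_num) (by norm_num) (by norm_num) (by norm_num)
      (by norm_num) (by norm_num) (by norm_num) (by norm_num) (by norm_num) (by norm_num) (by norm_num) hx h hp hL
  have hp := h
  clear h
  rcases le_total (13137 / 25000) T with h | h
  · exact soft_step (a := (335889 / 1000000)) (t := (5749 / 10000)) (t' := (13137 / 25000)) (c := (470951 / 500000))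
      (L := (67177 / 125000)) (by norm_num) (by norm_num) (by norm_num) (by norm_num) (by norm_num)
      (by norm_num) (by norm_num) (by norm_num) (by norm_num) (by norm_num) (by norm_num) (by norm_num) hx h hp hL
  have hp := h
  clear h
  exact soft_step (a := (318893 / 1000000)) (t := (13137 / 25000)) (t' := (1 / 2)) (c := (947791 / 1000000))
      (L := (499457 / 1000000)) (by norm_num) (by norm_num) (by norm_num) (by norm_num) (by norm_num)
      (by norm_num) (by norm_num) (by norm_num) (by norm_num) (by norm_num) (by norm_num) (by norm_num) hx hT0 hp hL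


/-- **legality of the soft contact** -/
theorem soft_LG {x T : ℝ} (hx : x ∈ Ioo (0 : ℝ) 1) (hT : T ∈ Ioc (0 : ℝ) 1)
    (hL : Real.log (T / x) ≤ 471 / 1000 - 17 / 200 * T ^ 2) : LG x T := by
  rcases le_total T (1 / 2) with h | h
  · exact soft_LG_small hx hT.1 h (by nlinarith [sq_nonneg T])
  · exact soft_LG_large hx h hT.2 hL

/-- admissibility of the soft contact, real variables -/
theorem soft_adm {x T : ℝ} (hx : x ∈ Ioo (0 : ℝ) 1) (hT : T ∈ Ioc (0 : ℝ) 1)
    (hL : Real.log (T / x) ≤ 471 / 1000 - 17 / 200 * T ^ 2) :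
    xA (1 / cc x) (Real.log (T / x)) ≤ xB T (1 / cc x) (Real.log (T / x)) := by
  rw [xA_le_xB_iff hx]
  exact soft_LG hx hT hL

/-- the constant cap `193/500 = .386` -/
theorem soft_adm_const {x T : ℝ} (hx : x ∈ Ioo (0 : ℝ) 1) (hT : T ∈ Ioc (0 : ℝ) 1)
    (hL : Real.log (T / x) ≤ 193 / 500) :
    xA (1 / cc x) (Real.log (T / x)) ≤ xB T (1 / cc x) (Real.log (T / x)) := by
  refine soft_adm hx hT (hL.trans ?_)
  nlinarith [hT.1, hT.2]

namespace WR

variable {n : ℕ} {r : ℝ → ℝ}

/-- `log (τ/(s e^u)) = l - u` -/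
lemma log_tau_div (hr : Prof r) {s u : ℝ} (hs : s ∈ Ioo (0 : ℝ) 1) :
    Real.log (tau n r s / (s * Real.exp u)) = ll n r s - u := by
  have hT := (tau_mem_half hr n hs).1
  rw [ll_of_ne n hs.1.ne', Real.log_div hT.ne' (mul_pos hs.1 (Real.exp_pos _)).ne',
    Real.log_div hT.ne' hs.1.ne', Real.log_mul hs.1.ne' (Real.exp_pos _).ne', Real.log_exp]
  ring

/-- admissibility along the path -/
theorem soft_adm_path (hr : Prof r) {s u : ℝ} (hs : s ∈ Ioo (0 : ℝ) 1) (hu : s * Real.exp u < 1)
    (h : ll n r s - u ≤ 471 / 1000 - 17 / 200 * tau n r s ^ 2) :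
    xA (1 / cc (s * Real.exp u)) (ll n r s - u) ≤ xB (tau n r s) (1 / cc (s * Real.exp u)) (ll n r s - u) := by
  have hT := tau_mem_half hr n hs
  have := soft_adm (x := s * Real.exp u) (T := tau n r s) ⟨mul_pos hs.1 (Real.exp_pos _), hu⟩
    ⟨hT.1, hT.2.le⟩ (by rw [log_tau_div hr hs]; exact h)
  rwa [log_tau_div hr hs] at this

/-- the uncapped line is legal below the soft cap -/
theorem legal_of_soft (hr : Prof r) {s : ℝ} (hs : s ∈ Ioo (0 : ℝ) 1)
    (h : ll n r s ≤ 471 / 1000 - 17 / 200 * tau n r s ^ 2) : Legal n r s := by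
  have h1 := soft_adm_path (n := n) hr hs (u := 0) (by rw [Real.exp_zero, mul_one]; exact hs.2)
    (by rw [sub_zero]; exact h)
  rw [Real.exp_zero, mul_one, sub_zero, xA_le_xB_iff hs] at h1
  exact h1

lemma Vs_nonneg {b x : ℝ} (hb : 0 < b) : 0 ≤ Vs b x := by
  rcases le_total x 0 with h | h
  · rw [Vs_of_nonpos h]
  · rcases le_total x (2 * b) with h2 | h2
    · rw [Vs_of_mem h h2]; positivity
    · rw [Vs_of_ge hb h2]; linarith

lemma sub_le_Vs {b x : ℝ} (hb : 0 < b) : x - b ≤ Vs b x := by
  rcases le_total x 0 with h | h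
  · rw [Vs_of_nonpos h]; linarith
  · rcases le_total x (2 * b) with h2 | h2
    · rw [Vs_of_mem h h2, le_div_iff₀ (by positivity)]
      nlinarith [sq_nonneg (x - 2 * b)]
    · rw [Vs_of_ge hb h2]

lemma Vs_le {b x : ℝ} (hb : 0 < b) (hx : 0 ≤ x) : Vs b x ≤ x := by
  rcases le_total x (2 * b) with h2 | h2
  · rw [Vs_of_mem hx h2, div_le_iff₀ (by positivity)]
    nlinarith
  · rw [Vs_of_ge hb h2]; linarith

lemma Vs_le_half {b x : ℝ} (hb : 0 < b) (hx : 0 ≤ x) (h2 : x ≤ 2 * b) : Vs b x ≤ x / 2 := by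
  rw [Vs_of_mem hx h2, div_le_div_iff₀ (by positivity) two_pos]
  nlinarith

/-- **the legality part of `hfar` of `soft_concl`**, `cap T = l₀ - 17/200 T²`, `l₀ + b ≤ .471` -/
theorem soft_far (hr : Prof r) {s b l0 : ℝ} (hs : s ∈ Ioo (0 : ℝ) 1) (hb : 0 < b) (hl0 : 17 / 200 ≤ l0)
    (hbl : l0 + b ≤ 471 / 1000) (h : l0 - 17 / 200 * tau n r s ^ 2 < ll n r s) :
    s * Real.exp (Vs b (ll n r s - (l0 - 17 / 200 * tau n r s ^ 2))) < 1 ∧
    xA (1 / cc (s * Real.exp (Vs b (ll n r s - (l0 - 17 / 200 * tau n r s ^ 2)))))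
      (ll n r s - Vs b (ll n r s - (l0 - 17 / 200 * tau n r s ^ 2))) ≤
    xB (tau n r s) (1 / cc (s * Real.exp (Vs b (ll n r s - (l0 - 17 / 200 * tau n r s ^ 2)))))
      (ll n r s - Vs b (ll n r s - (l0 - 17 / 200 * tau n r s ^ 2))) := by
  set x := ll n r s - (l0 - 17 / 200 * tau n r s ^ 2) with hx
  have hT := tau_mem_half hr n hs
  have h1 := Vs_le hb (x := x) (by linarith)
  have h2 := sub_le_Vs hb (x := x)
  have h3 : s * Real.exp (Vs b x) < 1 := by
    have h4 : tau n r s = s * Real.exp (ll n r s) := by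
      have := Real.exp_log (div_pos hT.1 hs.1)
      rw [ll_eq_log hs, this]
      have := hs.1.ne'
      field_simp
    have h5 : Vs b x ≤ ll n r s := by nlinarith [hT.1, hT.2]
    calc s * Real.exp (Vs b x) ≤ s * Real.exp (ll n r s) :=
          mul_le_mul_of_nonneg_left (Real.exp_le_exp.2 h5) hs.1.le
      _ = tau n r s := h4.symm
      _ < 1 := hT.2
  exact ⟨h3, soft_adm_path hr hs h3 (by linarith)⟩

end WR

section

open WR

variable {n : ℕ} {r : ℝ → ℝ}

/-- logarithmic form of the cylinder bound, `F₀ ≤ 9/10` -/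
lemma ll_le_of_cyl90 (hn : 2 ≤ n) (hr : Prof r) (hN : NleB n r) {s : ℝ} (hs : s ∈ Ioo (0 : ℝ) 1)
    (hp : lB n s ≤ 9 / 10 * hB n 0) : ll n r s ≤ 1 / 2 + Real.log (lB n s / s) := by
  have hT := tau_pos hr n (s := s) ⟨hs.1, hs.2.le⟩
  have hl := lB_pos n (s := s) ⟨hs.1, hs.2.le⟩
  have h1 := tau_le_of_NleB90 hr hn hN hs hp
  have h2 := R_le n hn
  have h3 : tau n r s ≤ Real.exp (1 / 2) * lB n s := h1.trans (mul_le_mul_of_nonneg_right h2 hl.le)
  rw [ll_eq_log hs]
  have h4 : tau n r s / s ≤ Real.exp (1 / 2) * (lB n s / s) := by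
    rw [← mul_div_assoc]
    exact div_le_div_of_nonneg_right h3 hs.1.le
  have hq : 0 < lB n s / s := div_pos hl hs.1
  calc Real.log (tau n r s / s) ≤ Real.log (Real.exp (1 / 2) * (lB n s / s)) :=
        Real.log_le_log (div_pos hT hs.1) h4
    _ = _ := by rw [Real.log_mul (Real.exp_pos _).ne' hq.ne', Real.log_exp]

/-- the region `F₀ ≤ 9/10`: `l (1+c) ≤ c²` -/
theorem ll_le_reg90 (hn : 4 ≤ n) (hr : Prof r) (hN : NleB n r) {s : ℝ} (hs : s ∈ Ioo (0 : ℝ) 1)
    (hp : lB n s ≤ 9 / 10 * hB n 0) : ll n r s * (1 + cc s) ≤ cc s ^ 2 := by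
  have h1 := ll_le_of_cyl90 (by omega) hr hN hs hp
  have hl := lB_pos n (s := s) ⟨hs.1, hs.2.le⟩
  have h2 := lB_le_quintic (n := n) hn (s := s) ⟨hs.1.le, hs.2.le⟩
  have hs0 := hs.1
  have hs1 := hs.2
  set y := s ^ 2 with hy
  have hy0 : 0 < y := by positivity
  have hy1 : y < 1 := by rw [hy]; nlinarith
  set x := 2 / 3 * y - 1 / 5 * y ^ 2 with hx
  have hx0 : 0 < x := by rw [hx]; nlinarith
  have hx1 : x < 1 := by rw [hx]; nlinarith
  have h3 : lB n s / s ≤ 1 - x := by
    rw [div_le_iff₀ hs0]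
    refine h2.trans (le_of_eq ?_)
    rw [hx, hy]
    ring
  have h4 : Real.log (lB n s / s) ≤ -(2 * x) / (2 - x) := by
    have h5 := Real.log_le_log (div_pos hl hs0) h3
    have h6 := log_pade (y := 1 - x) (by linarith) (by linarith)
    refine h5.trans (h6.trans (le_of_eq ?_))
    congr 1 <;> ring
  have hc0 := cc_nonneg s
  have hc2 : cc s ^ 2 = 1 - y := cc_sq ⟨by linarith, hs1.le⟩
  set c := cc s with hcdef
  have h7 : 1 + c ≤ (4 - y) / 2 := by nlinarith [sq_nonneg (1 - c)]
  have h8 : 1 / 2 + -(2 * x) / (2 - x) ≤ 2 * (1 - y) / (4 - y) := by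
    have h9 : 0 < 2 - x := by linarith
    have h10 : 0 < 4 - y := by linarith
    rw [div_add_div _ _ (by norm_num) h9.ne', div_le_div_iff₀ (by positivity) h10]
    have : 6 * y ≤ x * (16 - y) := by
      have h11 : x * (16 - y) - 6 * y = y * ((2 / 3 - 1 / 5 * y) * (16 - y) - 6) := by rw [hx]; ring
      have h12 : 0 ≤ (2 / 3 - 1 / 5 * y) * (16 - y) - 6 := by nlinarith
      nlinarith [mul_nonneg hy0.le h12]
    nlinarith
  have h9 : ll n r s ≤ 2 * (1 - y) / (4 - y) := by linarith
  have h10 : 0 < 4 - y := by linarith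
  calc ll n r s * (1 + c) ≤ 2 * (1 - y) / (4 - y) * (1 + c) :=
        mul_le_mul_of_nonneg_right h9 (by linarith)
    _ ≤ 2 * (1 - y) / (4 - y) * ((4 - y) / 2) :=
        mul_le_mul_of_nonneg_left h7 (div_nonneg (by linarith) h10.le)
    _ = c ^ 2 := by rw [hc2]; field_simp

/-- legality on `F₀ ≤ 9/10` -/
theorem legal_cyl90 (hn : 4 ≤ n) (hr : Prof r) (hN : NleB n r) {s : ℝ} (hs : s ∈ Ioo (0 : ℝ) 1)
    (hp : lB n s ≤ 9 / 10 * hB n 0) : Legal n r s :=
  Legal.of_le hr hs (ll_le_reg90 hn hr hN hs hp)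

end

end Crest.Agent.R230
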