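import Crest.Agent.R230.WMain2

/-!
# Row 230: master theorem, general Poincaré weight and general null Lagrangians
-/

set_option autoImplicit false

open MeasureTheory Set Filter Topology
open scoped Pointwise ENNReal

namespace Crest.Agent.R230.WR

/-- general null Lagrangian: `F` continuous on `[0,1]`, vanishing at `0` and `1`, right derivative
`c^{n-1} F'` -/
lemma null_F {n : ℕ} {F F' : ℝ → ℝ} (hF : ContinuousOn F (Icc 0 1)) (h0 : F 0 = 0) (h1 : F 1 = 0)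
    (hF' : ∀ s ∈ Ioo (0 : ℝ) 1, HasDerivWithinAt F (cc s ^ (n - 1) * F' s) (Ioi s) s)
    (hi : NI n F') : JJ n F' = 0 := by
  have h := intervalIntegral.integral_eq_sub_of_hasDeriv_right_of_le (a := (0 : ℝ)) (b := 1)
    zero_le_one hF hF' hi
  unfold JJ
  rw [h, h0, h1, sub_zero]

/-- the same with a sign at `0` and `1` -/
lemma null_F_le {n : ℕ} {F F' : ℝ → ℝ} (hF : ContinuousOn F (Icc 0 1)) (h01 : F 1 ≤ F 0)
    (hF' : ∀ s ∈ Ioo (0 : ℝ) 1, HasDerivWithinAt F (cc s ^ (n - 1) * F' s) (Ioi s) s)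
    (hi : NI n F') : JJ n F' ≤ 0 := by
  have h := intervalIntegral.integral_eq_sub_of_hasDeriv_right_of_le (a := (0 : ℝ)) (b := 1)
    zero_le_one hF hF' hi
  unfold JJ
  rw [h]
  linarith

/-- null Lagrangian `s c^{n-1} G` with a right derivative -/
lemma null_GR {n : ℕ} (hn : 3 ≤ n) {G G' : ℝ → ℝ} (hG : ContinuousOn G (Icc 0 1))
    (hG' : ∀ s ∈ Ioo (0 : ℝ) 1, HasDerivWithinAt G (G' s) (Ioi s) s) (hi : NI n (fun s => s * G' s)) :
    JJ n (fun s => G s + s * G' s - ((n : ℝ) - 1) * (Y s * G s)) = 0 := by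
  obtain ⟨k, rfl⟩ : ∃ k, n = k + 3 := ⟨n - 3, by omega⟩
  have e1 : k + 3 - 1 = k + 2 := rfl
  have e2 : k + 3 - 3 = k := rfl
  refine null_F (F := fun s => s * cc s ^ (k + 2) * G s) ?_ (by simp) ?_ ?_
    (((NI_cont hG).add hi).sub ((NI_Y hn hG).smul _))
  · exact (continuousOn_id.mul (cc_continuous.pow _).continuousOn).mul hG
  · have : cc 1 = 0 := by unfold cc; simp
    simp [this]
  · intro s hs
    have d : HasDerivAt (fun s => s * cc s ^ (k + 2)) (1 * cc s ^ (k + 2) +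
        s * (-((k : ℝ) + 2) * s * cc s ^ k)) s :=
      (hasDerivAt_id s).fun_mul (Poinc.hasDerivAt_cpow k hs.1.le hs.2)
    have d2 := d.hasDerivWithinAt (s := Ioi s) |>.fun_mul (hG' s hs)
    refine d2.congr_deriv ?_
    have h1 := pow_mul_Y (n := k + 3) hn hs
    rw [e1, e2] at h1
    rw [e1]
    push_cast
    calc (1 * cc s ^ (k + 2) + s * (-((k : ℝ) + 2) * s * cc s ^ k)) * G s + s * cc s ^ (k + 2) * G' s
        = cc s ^ (k + 2) * (G s + s * G' s) - ((k : ℝ) + 2) * ((s ^ 2 * cc s ^ k) * G s) := by ring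
      _ = _ := by rw [← h1]; ring

/-- null Lagrangian `s³ c^{n-3} G` with a right derivative -/
lemma null_YR {n : ℕ} (hn : 5 ≤ n) {G G' : ℝ → ℝ} (hG : ContinuousOn G (Icc 0 1))
    (hG' : ∀ s ∈ Ioo (0 : ℝ) 1, HasDerivWithinAt G (G' s) (Ioi s) s)
    (hi : NI n (fun s => Y s * (s * G' s))) :
    JJ n (fun s => 3 * (Y s * G s) - ((n : ℝ) - 3) * (Y s ^ 2 * G s) + Y s * (s * G' s)) = 0 := by
  obtain ⟨k, rfl⟩ : ∃ k, n = k + 5 := ⟨n - 5, by omega⟩
  refine null_F (F := fun s => s ^ 3 * cc s ^ (k + 2) * G s) ?_ (by simp) ?_ ?_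
    ((((NI_Y (by omega) hG).smul 3).sub ((NI_Y2 hn hG).smul _)).add hi)
  · exact ((continuous_pow 3).continuousOn.mul (cc_continuous.pow _).continuousOn).mul hG
  · have : cc 1 = 0 := by unfold cc; simp
    simp [this]
  · intro s hs
    have d1 := hasDerivAt_pow 3 s
    have d2 : HasDerivAt (fun s => cc s ^ (k + 2)) (-((k : ℝ) + 2) * s * cc s ^ k) s :=
      Poinc.hasDerivAt_cpow k hs.1.le hs.2
    have d := (d1.fun_mul d2).hasDerivWithinAt (s := Ioi s) |>.fun_mul (hG' s hs)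
    refine d.congr_deriv ?_
    have h1 := pow_mul_Y (n := k + 5) (by omega) hs
    have h2 := pow_mul_Y2 (n := k + 5) hn hs
    have e1 : k + 5 - 3 = k + 2 := by omega
    have e2 : k + 5 - 5 = k := by omega
    rw [e1] at h1
    rw [e2] at h2
    have e3 : k + 5 - 1 = k + 4 := by omega
    rw [e3] at h1 h2 ⊢
    calc (↑3 * s ^ (3 - 1) * cc s ^ (k + 2) + s ^ 3 * (-((k : ℝ) + 2) * s * cc s ^ k)) * G s +
          s ^ 3 * cc s ^ (k + 2) * G' s
        = 3 * (s ^ 2 * cc s ^ (k + 2)) * G s - ((k : ℝ) + 2) * (s ^ 4 * cc s ^ k) * G s +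
        (s ^ 2 * cc s ^ (k + 2)) * (s * G' s) := by
          norm_num
          ring
      _ = _ := by
          rw [← h1, ← h2]
          push_cast
          ring

/-- certificate density, Poincaré coefficient `B` (a number, `B = B(s)`), potential `σ Y l²`, no gauge -/
noncomputable def PB (n : ℕ) (μ σ B ξ lm s l k : ℝ) : ℝ :=
  μ * (((n : ℝ) - 1) * Y s * Gm n l - Real.exp (l / n) * hm n k) + (aq s - 3 * Y s * l) * KK k +
    3 * (Y s * l * k) + cR s l + σ * (Y s * l ^ 2) - B * k ^ 2 + ξ * (Y s * (l - lm))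

lemma PP_eq_PB (n : ℕ) (μ σ θ ξ lm s l k : ℝ) :
    PP n μ σ θ ξ lm s l k = PB n μ σ (σ / (2 * ((n : ℝ) + 2))) ξ lm s l k -
      (3 * (Y s * (θ * l ^ 2)) - ((n : ℝ) - 3) * (Y s ^ 2 * (θ * l ^ 2)) + Y s * (θ * (2 * l) * k)) := by
  unfold PP PB
  ring

section path

variable {r : ℝ → ℝ} (hr : Prof r) {n : ℕ}
include hr

lemma NI_Bkk_sq (hn : 5 ≤ n) {B : ℝ → ℝ} (hB : ContinuousOn B (Icc 0 1)) :
    NI n (fun s => B s * kk n r s ^ 2) := by
  have := intervalIntegrable_kk_sq hr n hn hB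
  exact NI_of this fun s _ => by ring

/-- **the certificate inequality, general Poincaré weight** -/
theorem JJ_PB_le (hn : 5 ≤ n) (hN : NleB n r) {μ σ ξ : ℝ} {B : ℝ → ℝ} (hB : ContinuousOn B (Icc 0 1))
    (hμ0 : 0 ≤ μ)
    (hW : 0 ≤ JJ n (fun s => B s * kk n r s ^ 2 - σ * (Y s * (ll n r s - lam n r) ^ 2)))
    (hμ : 0 ≤ (μ * ((n : ℝ) - 1) - ((n : ℝ) + 1) - σ * lam n r) * lam n r) :
    NI n (fun s => PB n μ σ (B s) ξ (lam n r) s (ll n r s) (kk n r s)) ∧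
    JJ n (fun s => PB n μ σ (B s) ξ (lam n r) s (ll n r s) (kk n r s)) ≤
      JJ n (fun s => clo n s (ll n r s) (kk n r s)) := by
  have hl := continuousOn_ll hr n
  set lm := lam n r with hlm
  have hG : ContinuousOn (fun s => Gm n (ll n r s)) (Icc 0 1) := by
    unfold Gm
    exact (continuousOn_const.mul (((hl.div_const _).rexp).sub continuousOn_const)).sub hl
  have hS := strong hr (n := n) (by omega) hN
  have hL := JJ_lam hr (n := n) (by omega)
  rw [← hlm] at hL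
  have nP0 := NI_PP hr hn μ σ 0 ξ lm
  have nB := NI_Bkk_sq hr hn hB
  have nPB : NI n (fun s => PB n μ σ (B s) ξ lm s (ll n r s) (kk n r s)) := by
    refine ((nP0.add ((NI_kk_sq hr hn).smul (σ / (2 * ((n : ℝ) + 2))))).sub nB).congr fun s _ => ?_
    unfold PP PB
    ring
  have nS : NI n (fun s => Real.exp (ll n r s / n) * hm n (kk n r s) -
      ((n : ℝ) - 1) * (Y s * (ll n r s + Gm n (ll n r s)))) :=
    (NI_ehm hr (by omega)).sub ((NI_Y (by omega) (hl.add hG)).smul _)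
  have nW : NI n (fun s => B s * kk n r s ^ 2 - σ * (Y s * (ll n r s - lm) ^ 2)) :=
    nB.sub ((NI_Y (by omega) ((hl.sub continuousOn_const).pow 2)).smul _)
  have nL : NI n (fun s => Y s * (ll n r s - lm)) := NI_Y (by omega) (hl.sub continuousOn_const)
  have nY : NI n (fun s => Y s * (1 : ℝ)) := NI_Y (by omega) continuousOn_const
  have hYp := JJ_Y_pos (n := n) (by omega)
  refine ⟨nPB, ?_⟩
  have key : JJ n (fun s => clo n s (ll n r s) (kk n r s)) =
      JJ n (fun s => PB n μ σ (B s) ξ lm s (ll n r s) (kk n r s)) +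
      μ * JJ n (fun s => Real.exp (ll n r s / n) * hm n (kk n r s) -
        ((n : ℝ) - 1) * (Y s * (ll n r s + Gm n (ll n r s)))) +
      JJ n (fun s => B s * kk n r s ^ 2 - σ * (Y s * (ll n r s - lm) ^ 2)) +
      (μ * ((n : ℝ) - 1) - ((n : ℝ) + 1) - 2 * σ * lm - ξ) *
        JJ n (fun s => Y s * (ll n r s - lm)) +
      ((μ * ((n : ℝ) - 1) - ((n : ℝ) + 1) - σ * lm) * lm) * JJ n (fun s => Y s * (1 : ℝ)) := by
    rw [← JJ_smul, ← JJ_smul (f := fun s => Y s * (ll n r s - lm)),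
      ← JJ_smul (f := fun s => Y s * (1 : ℝ)), ← JJ_add nPB (nS.smul _),
      ← JJ_add (nPB.add (nS.smul _)) nW,
      ← JJ_add ((nPB.add (nS.smul _)).add nW) (nL.smul _),
      ← JJ_add (((nPB.add (nS.smul _)).add nW).add (nL.smul _)) (nY.smul _)]
    refine JJ_congr fun s hs => ?_
    unfold clo PB
    ring
  rw [key, hL]
  have h1 := mul_nonneg hμ0 hS
  have h3 := mul_nonneg hμ hYp.le
  linarith

/-- **Master theorem, general Poincaré weight `B`, extra density `Z`** (all gauges and all corrections of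
the lines go into `Z`; null Lagrangians have `JJ n = 0` by `null_F`, `null_GR`, `null_YR`, `null_Y`). -/
theorem master3 (hn : 5 ≤ n) (hN : NleB n r) {μ σ ξ : ℝ} {B : ℝ → ℝ} (hB : ContinuousOn B (Icc 0 1))
    (hμ0 : 0 ≤ μ)
    (hW : 0 ≤ JJ n (fun s => B s * kk n r s ^ 2 - σ * (Y s * (ll n r s - lam n r) ^ 2)))
    (hμ : 0 ≤ (μ * ((n : ℝ) - 1) - ((n : ℝ) + 1) - σ * lam n r) * lam n r)
    {Z : ℝ → ℝ} (hZ : NI n Z) {U : ℝ}
    (hU : 2 * ((∫ s in (0 : ℝ)..1, cc s ^ n *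
      (rawL n s (ll n r s) (kk n r s) + (Phi (tau n r s) - Phi s))) + JJ n Z) ≤ w n * U)
    (hP : ∀ s ∈ Ioo (0 : ℝ) 1, 0 ≤ PB n μ σ (B s) ξ (lam n r) s (ll n r s) (kk n r s) + Z s)
    (hP0 : ∀ s ∈ Ioo (0 : ℝ) 1, PB n μ σ (B s) ξ (lam n r) s (ll n r s) (kk n r s) + Z s = 0 →
      ll n r s = 0) :
    0 ≤ U ∧ (U = 0 → ∃ a : ℝ, ∀ s ∈ Icc (-1 : ℝ) 1, r s = a * Real.sqrt (1 - s ^ 2)) := by
  rw [int_raw_eq hr (by omega)] at hU
  obtain ⟨nPB, h1⟩ := JJ_PB_le hr hn hN (ξ := ξ) hB hμ0 hW hμ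
  refine conclude hr (by omega) (nPB.add hZ) ?_ hP hP0
  rw [JJ_add nPB hZ]
  linarith

end path

end Crest.Agent.R230.WR
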