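import Crest.Agent.R230.ContactMax
import Crest.Agent.R230.WMain3

/-!
# Row 230: master theorem for the capped range

Contact `φ(s) = max (s, ψ(τ s))`, gauge `-(θ₀ Y + θ₁ s²) l²`, kink gauge
`G = v h`, `v = l - l_b(s)`, `h = a + η - (3/2) Y (l + l_b)` in the capped region.
-/

set_option autoImplicit false

open MeasureTheory Set Filter Topology
open scoped Pointwise ENNReal

namespace Crest.Agent.R230

/-! ### the contact curve and its inverse -/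

/-- a contact curve: `C¹`, strictly increasing, `ψ 0 = 0`, `ψ 1 < 1 = ψ t₂` -/
structure Crv (ψ ψ' : ℝ → ℝ) (t₂ : ℝ) : Prop where
  one_lt : 1 < t₂
  zero : ψ 0 = 0
  top : ψ t₂ = 1
  cont : ContinuousOn ψ (Icc 0 t₂)
  deriv : ∀ t ∈ Ioo (0 : ℝ) t₂, HasDerivAt ψ (ψ' t) t
  cont' : ContinuousOn ψ' (Ioo 0 t₂)
  pos' : ∀ t ∈ Ioo (0 : ℝ) t₂, 0 < ψ' t

namespace Crv

variable {ψ ψ' : ℝ → ℝ} {t₂ : ℝ} (h : Crv ψ ψ' t₂)
include h

lemma mono : StrictMonoOn ψ (Icc 0 t₂) := by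
  refine strictMonoOn_of_deriv_pos (convex_Icc _ _) h.cont fun t ht => ?_
  rw [interior_Icc] at ht
  rw [(h.deriv t ht).deriv]
  exact h.pos' t ht

omit h in
/-- the inverse curve -/
noncomputable def inv (ψ : ℝ → ℝ) (t₂ : ℝ) : ℝ → ℝ := Function.invFunOn ψ (Icc 0 t₂)

lemma surj {s : ℝ} (hs : s ∈ Icc (0 : ℝ) 1) : s ∈ ψ '' Icc 0 t₂ := by
  have h1 := intermediate_value_Icc (by linarith [h.one_lt] : (0 : ℝ) ≤ t₂) h.cont
  rw [h.zero, h.top] at h1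
  exact h1 hs

lemma inv_mem {s : ℝ} (hs : s ∈ Icc (0 : ℝ) 1) : inv ψ t₂ s ∈ Icc 0 t₂ :=
  Function.invFunOn_mem (h.surj hs)

lemma ψ_inv {s : ℝ} (hs : s ∈ Icc (0 : ℝ) 1) : ψ (inv ψ t₂ s) = s :=
  Function.invFunOn_eq (h.surj hs)

lemma inv_ψ {t : ℝ} (ht : t ∈ Icc 0 t₂) : inv ψ t₂ (ψ t) = t := by
  have h1 : ψ t ∈ Icc (0 : ℝ) 1 := by
    rw [← h.zero, ← h.top]
    exact ⟨h.mono.monotoneOn (left_mem_Icc.2 (by linarith [h.one_lt])) ht ht.1,
      h.mono.monotoneOn ht (right_mem_Icc.2 (by linarith [h.one_lt])) ht.2⟩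
  exact h.mono.injOn (h.inv_mem h1) ht (h.ψ_inv h1)

lemma lt_iff {t s : ℝ} (ht : t ∈ Icc 0 t₂) (hs : s ∈ Icc (0 : ℝ) 1) : ψ t < s ↔ t < inv ψ t₂ s := by
  conv_lhs => rw [← h.ψ_inv hs]
  exact h.mono.lt_iff_lt ht (h.inv_mem hs)

lemma le_iff {t s : ℝ} (ht : t ∈ Icc 0 t₂) (hs : s ∈ Icc (0 : ℝ) 1) : ψ t ≤ s ↔ t ≤ inv ψ t₂ s := by
  conv_lhs => rw [← h.ψ_inv hs]
  exact h.mono.le_iff_le ht (h.inv_mem hs)

lemma inv_mono : StrictMonoOn (inv ψ t₂) (Icc 0 1) := by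
  intro a ha b hb hab
  rw [← h.lt_iff (h.inv_mem ha) hb, h.ψ_inv ha]
  exact hab

lemma inv_mem' {s : ℝ} (hs : s ∈ Ioo (0 : ℝ) 1) : inv ψ t₂ s ∈ Ioo 0 t₂ := by
  have h0 : inv ψ t₂ 0 = 0 := by
    have := h.inv_ψ (t := 0) (left_mem_Icc.2 (by linarith [h.one_lt]))
    rwa [h.zero] at this
  have h1 : inv ψ t₂ 1 = t₂ := by
    have := h.inv_ψ (t := t₂) (right_mem_Icc.2 (by linarith [h.one_lt]))
    rwa [h.top] at this
  constructor
  · calc (0 : ℝ) = inv ψ t₂ 0 := h0.symm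
      _ < _ := h.inv_mono (by norm_num) ⟨hs.1.le, hs.2.le⟩ hs.1
  · calc inv ψ t₂ s < inv ψ t₂ 1 := h.inv_mono ⟨hs.1.le, hs.2.le⟩ (by norm_num) hs.2
      _ = t₂ := h1

lemma ψ_mem {t : ℝ} (ht : t ∈ Ioo 0 t₂) : ψ t ∈ Ioo (0 : ℝ) 1 := by
  rw [← h.zero, ← h.top]
  exact ⟨h.mono (left_mem_Icc.2 (by linarith [h.one_lt])) ⟨ht.1.le, ht.2.le⟩ ht.1,
    h.mono ⟨ht.1.le, ht.2.le⟩ (right_mem_Icc.2 (by linarith [h.one_lt])) ht.2⟩

lemma inv_image : inv ψ t₂ '' Ioo 0 1 = Ioo 0 t₂ := by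
  ext y
  constructor
  · rintro ⟨s, hs, rfl⟩
    exact h.inv_mem' hs
  · intro hy
    exact ⟨ψ y, h.ψ_mem hy, h.inv_ψ ⟨hy.1.le, hy.2.le⟩⟩

lemma inv_continuousAt {s : ℝ} (hs : s ∈ Ioo (0 : ℝ) 1) : ContinuousAt (inv ψ t₂) s := by
  refine (h.inv_mono.mono Ioo_subset_Icc_self).continuousAt_of_image_mem_nhds
    (Ioo_mem_nhds hs.1 hs.2) ?_
  rw [h.inv_image]
  have := h.inv_mem' hs
  exact Ioo_mem_nhds this.1 this.2

lemma hasDerivAt_inv {s : ℝ} (hs : s ∈ Ioo (0 : ℝ) 1) :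
    HasDerivAt (inv ψ t₂) (ψ' (inv ψ t₂ s))⁻¹ s := by
  have hm := h.inv_mem' hs
  refine HasDerivAt.of_local_left_inverse (h.inv_continuousAt hs) (h.deriv _ hm)
    (h.pos' _ hm).ne' ?_
  filter_upwards [Ioo_mem_nhds hs.1 hs.2] with y hy
  exact h.ψ_inv ⟨hy.1.le, hy.2.le⟩

end Crv

namespace WR

/-! ### path functions -/

/-- the cap `l_b(s) = log (ψ⁻¹(s)/s)` -/
noncomputable def lbf (ψ : ℝ → ℝ) (t₂ s : ℝ) : ℝ := Real.log (Crv.inv ψ t₂ s / s)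

/-- `κ_b = s l_b'(s)` -/
noncomputable def kbf (ψ ψ' : ℝ → ℝ) (t₂ s : ℝ) : ℝ :=
  s / (ψ' (Crv.inv ψ t₂ s) * Crv.inv ψ t₂ s) - 1

/-- `h = a + η - (3/2) Y (l + l_b)` -/
noncomputable def hK (η s l lb : ℝ) : ℝ := aq s + η - 3 / 2 * (Y s * (l + lb))

/-- `s ∂(h)/∂s` along the path -/
noncomputable def dhK (s l lb kb k : ℝ) : ℝ :=
  2 * s ^ 2 * (cc s + 2) / (1 + cc s) ^ 2 - 3 * (Y s * (1 + Y s) * (l + lb)) - 3 / 2 * (Y s * (k + kb))

/-- the null Lagrangian density of the kink gauge `G = v h`, `v = l - l_b` -/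
noncomputable def kinkN (n : ℕ) (η s l lb kb k : ℝ) : ℝ :=
  (l - lb) * hK η s l lb + ((k - kb) * hK η s l lb + (l - lb) * dhK s l lb kb k) -
    ((n : ℝ) - 1) * (Y s * ((l - lb) * hK η s l lb))

lemma hasDerivAt_aq {s : ℝ} (hs : s ∈ Ioo (0 : ℝ) 1) :
    HasDerivAt aq (2 * s * (cc s + 2) / (1 + cc s) ^ 2) s := by
  have h := (hasDerivAt_cq hs).const_mul 2 |>.const_sub 2
  have e : (fun x => 2 - 2 * (cc x ^ 2 / (1 + cc x))) = aq := by
    funext x; unfold aq; ring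
  rw [e] at h
  refine h.congr_deriv ?_
  ring

lemma hasDerivAt_Y {s : ℝ} (hs : s ∈ Ioo (0 : ℝ) 1) : HasDerivAt Y (2 * Y s * (1 + Y s) / s) s := by
  have h1 : HasDerivAt (fun s : ℝ => s ^ 2) (2 * s) s := by simpa using hasDerivAt_pow 2 s
  have h2 : HasDerivAt (fun s : ℝ => 1 - s ^ 2) (-(2 * s)) s := h1.const_sub 1
  have hp := one_sub_sq_pos hs
  have h3 := h1.fun_div h2 hp.ne'
  refine h3.congr_deriv ?_
  unfold Y
  have := hs.1.ne'
  field_simp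
  ring

lemma Y_continuousOn : ContinuousOn Y (Ioo 0 1) :=
  fun _ hs => (hasDerivAt_Y hs).continuousAt.continuousWithinAt

section

variable {n : ℕ} {r ψ ψ' : ℝ → ℝ} {t₂ : ℝ}

/-- `v = log (τ/ψ⁻¹(s))` -/
noncomputable def vK (n : ℕ) (r ψ : ℝ → ℝ) (t₂ s : ℝ) : ℝ := Real.log (tau n r s / Crv.inv ψ t₂ s)

lemma vK_eq (hr : Prof r) (h : Crv ψ ψ' t₂) {s : ℝ} (hs : s ∈ Ioo (0 : ℝ) 1) :
    vK n r ψ t₂ s = ll n r s - lbf ψ t₂ s := by
  have hT := (tau_mem_half hr n hs).1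
  have hx := (h.inv_mem' hs).1
  have hs0 := hs.1
  unfold vK lbf
  rw [ll_eq_log hs, ← Real.log_div (by positivity) (by positivity)]
  congr 1
  field_simp

lemma tau_mem_crv (hr : Prof r) (h : Crv ψ ψ' t₂) {s : ℝ} (hs : s ∈ Icc (0 : ℝ) 1) :
    tau n r s ∈ Icc 0 t₂ := by
  have := tau_mem_half' hr n hs
  exact ⟨this.1, by linarith [this.2, h.one_lt]⟩

lemma vK_nonpos_iff (hr : Prof r) (h : Crv ψ ψ' t₂) {s : ℝ} (hs : s ∈ Ioo (0 : ℝ) 1) :
    vK n r ψ t₂ s ≤ 0 ↔ ψ (tau n r s) ≤ s := by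
  have hT := (tau_mem_half hr n hs).1
  have hx := (h.inv_mem' hs).1
  rw [h.le_iff (tau_mem_crv hr h ⟨hs.1.le, hs.2.le⟩) ⟨hs.1.le, hs.2.le⟩]
  unfold vK
  rw [Real.log_nonpos_iff (div_nonneg hT.le hx.le), div_le_one hx]

lemma vK_neg_iff (hr : Prof r) (h : Crv ψ ψ' t₂) {s : ℝ} (hs : s ∈ Ioo (0 : ℝ) 1) :
    vK n r ψ t₂ s < 0 ↔ ψ (tau n r s) < s := by
  have hT := (tau_mem_half hr n hs).1
  have hx := (h.inv_mem' hs).1
  rw [h.lt_iff (tau_mem_crv hr h ⟨hs.1.le, hs.2.le⟩) ⟨hs.1.le, hs.2.le⟩]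
  unfold vK
  rw [Real.log_neg_iff (div_pos hT hx), div_lt_one hx]

lemma hasDerivAt_lbf (h : Crv ψ ψ' t₂) {s : ℝ} (hs : s ∈ Ioo (0 : ℝ) 1) :
    HasDerivAt (lbf ψ t₂) (kbf ψ ψ' t₂ s / s) s := by
  have hx := h.inv_mem' hs
  have hp := h.pos' _ hx
  have hs0 := hs.1
  have hx0 := hx.1
  have d := ((h.hasDerivAt_inv hs).fun_div (hasDerivAt_id s) hs.1.ne').log (div_pos hx.1 hs.1).ne'
  refine d.congr_deriv ?_
  unfold kbf
  simp only [id]
  field_simp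

lemma hasDerivAt_vK (hr : Prof r) (h : Crv ψ ψ' t₂) {s : ℝ} (hs : s ∈ Ioo (0 : ℝ) 1) :
    HasDerivAt (vK n r ψ t₂) ((kk n r s - kbf ψ ψ' t₂ s) / s) s := by
  have d := (hasDerivAt_ll hr n hs).sub (hasDerivAt_lbf h hs)
  have e : vK n r ψ t₂ =ᶠ[𝓝 s] (ll n r - lbf ψ t₂) := by
    filter_upwards [Ioo_mem_nhds hs.1 hs.2] with y hy
    rw [vK_eq hr h hy]; rfl
  refine (d.congr_of_eventuallyEq e).congr_deriv ?_
  ring

/-- `h` along the path -/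
noncomputable def hP (n : ℕ) (r ψ : ℝ → ℝ) (t₂ η s : ℝ) : ℝ := hK η s (ll n r s) (lbf ψ t₂ s)

lemma hasDerivAt_hP (hr : Prof r) (h : Crv ψ ψ' t₂) (η : ℝ) {s : ℝ} (hs : s ∈ Ioo (0 : ℝ) 1) :
    HasDerivAt (hP n r ψ t₂ η) (dhK s (ll n r s) (lbf ψ t₂ s) (kbf ψ ψ' t₂ s) (kk n r s) / s) s := by
  have d1 := hasDerivAt_aq hs
  have d2 := hasDerivAt_Y hs
  have d3 := (hasDerivAt_ll hr n hs).fun_add (hasDerivAt_lbf h hs)
  have d := (d1.add_const η).fun_sub ((d2.fun_mul d3).const_mul (3 / 2))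
  refine d.congr_deriv ?_
  have := hs.1.ne'
  unfold dhK
  field_simp
  ring

/-- the kink gauge along the path -/
noncomputable def GK (n : ℕ) (r ψ : ℝ → ℝ) (t₂ η s : ℝ) : ℝ :=
  max (vK n r ψ t₂ s) 0 * hP n r ψ t₂ η s

/-- its right derivative -/
noncomputable def dGK (n : ℕ) (r ψ : ℝ → ℝ) (t₂ η s : ℝ) : ℝ :=
  derivWithin (GK n r ψ t₂ η) (Ioi s) s

/-- the derivative in the capped region -/
noncomputable def gB (n : ℕ) (r ψ ψ' : ℝ → ℝ) (t₂ η s : ℝ) : ℝ :=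
  (kk n r s - kbf ψ ψ' t₂ s) / s * hP n r ψ t₂ η s +
    vK n r ψ t₂ s * (dhK s (ll n r s) (lbf ψ t₂ s) (kbf ψ ψ' t₂ s) (kk n r s) / s)

/-- the two cases, simultaneously for the contact and for the gauge -/
lemma cases_K (hr : Prof r) (h : Crv ψ ψ' t₂) (η : ℝ) {s : ℝ} (hs : s ∈ Ioo (0 : ℝ) 1) :
    (ψ (tau n r s) ≤ s ∧ dphM n r ψ s = 1 ∧ vK n r ψ t₂ s ≤ 0 ∧
      HasDerivWithinAt (GK n r ψ t₂ η) 0 (Ioi s) s) ∨
    (s ≤ ψ (tau n r s) ∧ dphM n r ψ s = ψ' (tau n r s) * dtau n r s ∧ 0 ≤ vK n r ψ t₂ s ∧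
      HasDerivWithinAt (GK n r ψ t₂ η) (gB n r ψ ψ' t₂ η s) (Ioi s) s) := by
  have hT := tau_mem_half hr n hs
  have hTt : tau n r s ∈ Ioo 0 t₂ := ⟨hT.1, by linarith [hT.2, h.one_lt]⟩
  have hx := h.inv_mem' hs
  have hu := uniqueDiffWithinAt_Ioi s
  have hψp := h.pos' _ hTt
  have d1 := hasDerivAt_id s
  have d2 : HasDerivAt (fun s => ψ (tau n r s)) (ψ' (tau n r s) * dtau n r s) s :=
    (h.deriv _ hTt).comp s (hasDerivAt_tau hr n ⟨by linarith [hs.1], hs.2⟩)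
  have dv := hasDerivAt_vK (n := n) hr h hs
  have dh := hasDerivAt_hP (n := n) hr h η hs
  rcases lt_trichotomy (ψ (tau n r s)) s with hc | hc | hc
  · left
    have hv := (vK_neg_iff (n := n) hr h hs).2 hc
    refine ⟨hc.le, ?_, hv.le, ?_⟩
    · have e : HasDerivWithinAt (phM n r ψ) 1 (Ioi s) s := by
        refine (d1.congr_of_eventuallyEq ?_).hasDerivWithinAt
        have := d2.continuousAt.eventually_lt continuousAt_id hc
        filter_upwards [this] with y hy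
        exact max_eq_left (le_of_lt hy)
      exact e.derivWithin hu
    · have : GK n r ψ t₂ η =ᶠ[𝓝 s] fun _ => 0 := by
        have h1 := dv.continuousAt.eventually_lt (continuousAt_const (y := (0 : ℝ))) hv
        filter_upwards [h1] with y hy
        unfold GK
        rw [max_eq_right (le_of_lt hy), zero_mul]
      exact ((hasDerivAt_const s (0 : ℝ)).congr_of_eventuallyEq this).hasDerivWithinAt
  · -- equality
    have hv : vK n r ψ t₂ s = 0 := by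
      have h1 := (vK_nonpos_iff (n := n) hr h hs).2 hc.le
      have h2 := not_lt.1 (fun h3 => (ne_of_lt ((vK_neg_iff (n := n) hr h hs).1 h3)) hc)
      exact le_antisymm h1 h2
    have hxT : Crv.inv ψ t₂ s = tau n r s := by
      have := h.inv_ψ (t := tau n r s) ⟨hTt.1.le, hTt.2.le⟩
      rwa [hc] at this
    have dφ := hasDerivWithinAt_max_right (d1.hasDerivWithinAt (s := Ioi s))
      (d2.hasDerivWithinAt (s := Ioi s)) hc.symm
    have dm := hasDerivWithinAt_max_right (dv.hasDerivWithinAt (s := Ioi s))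
      (hasDerivWithinAt_const s (Ioi s) (0 : ℝ)) hv
    have dG := dm.fun_mul (dh.hasDerivWithinAt (s := Ioi s))
    rw [hv, max_self, zero_mul, add_zero] at dG
    have hsign : (kk n r s - kbf ψ ψ' t₂ s) / s =
        (ψ' (tau n r s) * dtau n r s - 1) / (ψ' (tau n r s) * tau n r s) := by
      unfold kk kbf
      rw [hxT]
      have := hs.1.ne'
      have := hT.1.ne'
      have := hψp.ne'
      field_simp
      ring
    rcases le_total (ψ' (tau n r s) * dtau n r s) 1 with h1 | h1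
    · left
      refine ⟨hc.le, ?_, hv.le, ?_⟩
      · rw [max_eq_left h1] at dφ
        exact dφ.derivWithin hu
      · have h2 : (kk n r s - kbf ψ ψ' t₂ s) / s ≤ 0 := by
          rw [hsign]
          exact div_nonpos_of_nonpos_of_nonneg (by linarith) (mul_pos hψp hT.1).le
        rw [max_eq_right h2, zero_mul] at dG
        exact dG
    · right
      refine ⟨hc.ge, ?_, hv.ge, ?_⟩
      · rw [max_eq_right h1] at dφ
        exact dφ.derivWithin hu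
      · have h2 : 0 ≤ (kk n r s - kbf ψ ψ' t₂ s) / s := by
          rw [hsign]
          exact div_nonneg (by linarith) (mul_pos hψp hT.1).le
        rw [max_eq_left h2] at dG
        unfold gB
        rw [hv, zero_mul, add_zero]
        exact dG
  · right
    have hv : 0 < vK n r ψ t₂ s := by
      by_contra h3
      exact absurd ((vK_nonpos_iff (n := n) hr h hs).1 (not_lt.1 h3)) (not_le.2 hc)
    refine ⟨hc.le, ?_, hv.le, ?_⟩
    · have e : HasDerivWithinAt (phM n r ψ) (ψ' (tau n r s) * dtau n r s) (Ioi s) s := by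
        refine (d2.congr_of_eventuallyEq ?_).hasDerivWithinAt
        have := continuousAt_id.eventually_lt d2.continuousAt hc
        filter_upwards [this] with y hy
        exact max_eq_right (le_of_lt hy)
      exact e.derivWithin hu
    · have : GK n r ψ t₂ η =ᶠ[𝓝 s] fun y => vK n r ψ t₂ y * hP n r ψ t₂ η y := by
        have h1 := (continuousAt_const (y := (0 : ℝ))).eventually_lt dv.continuousAt hv
        filter_upwards [h1] with y hy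
        unfold GK
        rw [max_eq_left (le_of_lt hy)]
      exact ((dv.fun_mul dh).congr_of_eventuallyEq this).hasDerivWithinAt

/-- the derivative of the gauge, two cases -/
lemma dGK_cases (hr : Prof r) (h : Crv ψ ψ' t₂) (η : ℝ) {s : ℝ} (hs : s ∈ Ioo (0 : ℝ) 1) :
    (ψ (tau n r s) ≤ s ∧ dphM n r ψ s = 1 ∧ vK n r ψ t₂ s ≤ 0 ∧ dGK n r ψ t₂ η s = 0) ∨
    (s ≤ ψ (tau n r s) ∧ dphM n r ψ s = ψ' (tau n r s) * dtau n r s ∧ 0 ≤ vK n r ψ t₂ s ∧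
      dGK n r ψ t₂ η s = gB n r ψ ψ' t₂ η s) := by
  have hu := uniqueDiffWithinAt_Ioi s
  rcases cases_K (n := n) hr h η hs with ⟨a, b, c, d⟩ | ⟨a, b, c, d⟩
  · exact Or.inl ⟨a, b, c, d.derivWithin hu⟩
  · exact Or.inr ⟨a, b, c, d.derivWithin hu⟩

lemma hasDeriv_GK (hr : Prof r) (h : Crv ψ ψ' t₂) (η : ℝ) {s : ℝ} (hs : s ∈ Ioo (0 : ℝ) 1) :
    HasDerivWithinAt (GK n r ψ t₂ η) (dGK n r ψ t₂ η s) (Ioi s) s := by
  rcases cases_K (n := n) hr h η hs with ⟨a, b, c, d⟩ | ⟨a, b, c, d⟩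
  · exact d.differentiableWithinAt.hasDerivWithinAt
  · exact d.differentiableWithinAt.hasDerivWithinAt

lemma near_ends (hr : Prof r) (h : Crv ψ ψ' t₂)
    (h0 : ∃ δ > 0, ∀ s ∈ Icc (0 : ℝ) δ, ψ (tau n r s) ≤ s) :
    ∃ δ > 0, δ ≤ 1 / 2 ∧ (∀ s ∈ Icc (0 : ℝ) δ, ψ (tau n r s) ≤ s) ∧
      (∀ s ∈ Icc (1 - δ) 1, ψ (tau n r s) ≤ s) := by
  obtain ⟨a, ha, h0⟩ := h0
  have h1 : ψ 1 < 1 := by
    have := h.mono (a := 1) (b := t₂) ⟨by norm_num, h.one_lt.le⟩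
      (right_mem_Icc.2 (by linarith [h.one_lt])) h.one_lt
    rwa [h.top] at this
  have hm : 0 < min (min a (1 - ψ 1)) (1 / 2) := lt_min (lt_min ha (by linarith)) (by norm_num)
  refine ⟨min (min a (1 - ψ 1)) (1 / 2), hm, min_le_right _ _, fun s hs => ?_, fun s hs => ?_⟩
  · exact h0 s ⟨hs.1, hs.2.trans ((min_le_left _ _).trans (min_le_left _ _))⟩
  · have h2 : min (min a (1 - ψ 1)) (1 / 2) ≤ 1 - ψ 1 := (min_le_left _ _).trans (min_le_right _ _)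
    have h3 : min (min a (1 - ψ 1)) (1 / 2) ≤ 1 / 2 := min_le_right _ _
    have hs' : s ∈ Icc (0 : ℝ) 1 := ⟨by linarith [hs.1], hs.2⟩
    have hT := tau_mem_half' hr n hs'
    have h4 := h.mono.monotoneOn (tau_mem_crv hr h hs') ⟨by norm_num, h.one_lt.le⟩ hT.2
    linarith [hs.1]

lemma GK_eq_zero (hr : Prof r) (h : Crv ψ ψ' t₂) (η : ℝ) {s : ℝ} (hs : s ∈ Icc (0 : ℝ) 1)
    (hc : ψ (tau n r s) ≤ s) : GK n r ψ t₂ η s = 0 := by
  have hT := tau_mem_half' hr n hs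
  have hle := (h.le_iff (tau_mem_crv hr h hs) hs).1 hc
  have hv : vK n r ψ t₂ s ≤ 0 := by
    unfold vK
    rcases (h.inv_mem hs).1.eq_or_lt with h1 | h1
    · rw [← h1, div_zero, Real.log_zero]
    · exact Real.log_nonpos (div_nonneg hT.1 h1.le) ((div_le_one h1).2 hle)
  unfold GK
  rw [max_eq_right hv, zero_mul]

lemma GK_continuousOn (hr : Prof r) (h : Crv ψ ψ' t₂) (η : ℝ)
    (h0 : ∃ δ > 0, ∀ s ∈ Icc (0 : ℝ) δ, ψ (tau n r s) ≤ s) :
    ContinuousOn (GK n r ψ t₂ η) (Icc 0 1) := by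
  obtain ⟨δ, hδ, hδ2, ha, hb⟩ := near_ends (n := n) hr h h0
  intro x hx
  rcases lt_or_ge x δ with h1 | h1
  · have : GK n r ψ t₂ η =ᶠ[𝓝[Icc 0 1] x] fun _ => 0 := by
      filter_upwards [self_mem_nhdsWithin, mem_nhdsWithin_of_mem_nhds (Iio_mem_nhds h1)] with y hy hy1
      exact GK_eq_zero hr h η hy (ha y ⟨hy.1, le_of_lt hy1⟩)
    exact continuousWithinAt_const.congr_of_eventuallyEq this
      (GK_eq_zero hr h η hx (ha x ⟨hx.1, h1.le⟩))
  rcases lt_or_ge (1 - δ) x with h2 | h2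
  · have : GK n r ψ t₂ η =ᶠ[𝓝[Icc 0 1] x] fun _ => 0 := by
      filter_upwards [self_mem_nhdsWithin, mem_nhdsWithin_of_mem_nhds (Ioi_mem_nhds h2)] with y hy hy1
      exact GK_eq_zero hr h η hy (hb y ⟨le_of_lt hy1, hy.2⟩)
    exact continuousWithinAt_const.congr_of_eventuallyEq this
      (GK_eq_zero hr h η hx (hb x ⟨h2.le, hx.2⟩))
  · have hx' : x ∈ Ioo (0 : ℝ) 1 := ⟨by linarith, by linarith⟩
    have hv := (hasDerivAt_vK (n := n) hr h hx').continuousAt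
    have hh := (hasDerivAt_hP (n := n) hr h η hx').continuousAt
    have hm : ContinuousAt (fun s => max (vK n r ψ t₂ s) 0 * hP n r ψ t₂ η s) x :=
      (hv.max continuousAt_const).mul hh
    exact hm.continuousWithinAt

lemma kk_continuousOn (hr : Prof r) : ContinuousOn (kk n r) (Ioo 0 1) := by
  unfold kk
  refine ((continuousOn_id.mul ((continuousOn_dtau hr n).mono fun s hs => ?_)).div
    (tau_continuous hr n).continuousOn fun s hs => (tau_mem_half hr n hs).1.ne').sub continuousOn_const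
  exact ⟨by linarith [hs.1], hs.2⟩

lemma kbf_continuousOn (h : Crv ψ ψ' t₂) : ContinuousOn (kbf ψ ψ' t₂) (Ioo 0 1) := by
  have h1 : ContinuousOn (Crv.inv ψ t₂) (Ioo 0 1) := fun s hs => (h.inv_continuousAt hs).continuousWithinAt
  unfold kbf
  refine (continuousOn_id.div ((h.cont'.comp h1 fun s hs => h.inv_mem' hs).mul h1) fun s hs => ?_).sub
    continuousOn_const
  exact mul_ne_zero (h.pos' _ (h.inv_mem' hs)).ne' (h.inv_mem' hs).1.ne'

lemma gB_continuousOn (hr : Prof r) (h : Crv ψ ψ' t₂) (η : ℝ) :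
    ContinuousOn (gB n r ψ ψ' t₂ η) (Ioo 0 1) := by
  have hk := kk_continuousOn (n := n) hr
  have hkb := kbf_continuousOn h
  have hY := Y_continuousOn
  have hv : ContinuousOn (vK n r ψ t₂) (Ioo 0 1) := fun s hs =>
    (hasDerivAt_vK (n := n) hr h hs).continuousAt.continuousWithinAt
  have hh : ContinuousOn (hP n r ψ t₂ η) (Ioo 0 1) := fun s hs =>
    (hasDerivAt_hP (n := n) hr h η hs).continuousAt.continuousWithinAt
  have hl : ContinuousOn (ll n r) (Ioo 0 1) := fun s hs =>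
    (hasDerivAt_ll hr n hs).continuousAt.continuousWithinAt
  have hlb : ContinuousOn (lbf ψ t₂) (Ioo 0 1) := fun s hs =>
    (hasDerivAt_lbf h hs).continuousAt.continuousWithinAt
  have hc := cc_continuous
  unfold gB dhK
  refine ContinuousOn.add (((hk.sub hkb).div continuousOn_id fun s hs => hs.1.ne').mul hh)
    (hv.mul (ContinuousOn.div (((ContinuousOn.div ?_ ?_ ?_).sub (continuousOn_const.mul
      ((hY.mul (continuousOn_const.add hY)).mul (hl.add hlb)))).sub (continuousOn_const.mul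
        (hY.mul (hk.add hkb)))) continuousOn_id fun s hs => hs.1.ne'))
  · fun_prop
  · fun_prop
  · intro s _
    exact pow_ne_zero 2 (one_add_cc_pos s).ne'

lemma NI_dGK (hr : Prof r) (h : Crv ψ ψ' t₂) (η : ℝ)
    (h0 : ∃ δ > 0, ∀ s ∈ Icc (0 : ℝ) δ, ψ (tau n r s) ≤ s) :
    NI n (fun s => s * dGK n r ψ t₂ η s) := by
  obtain ⟨δ, hδ, hδ2, ha, hb⟩ := near_ends (n := n) hr h h0
  obtain ⟨K, hK⟩ := isCompact_Icc.exists_bound_of_continuousOn
    ((gB_continuousOn (n := n) hr h η).mono (Icc_subset_Ioo hδ (by linarith : 1 - δ < 1)))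
  have hzero : ∀ c d : ℝ, ∀ s ∈ Ico c d, 0 ≤ c → d ≤ 1 → (∀ x ∈ Icc c d, ψ (tau n r x) ≤ x) →
      dGK n r ψ t₂ η s = 0 := by
    intro c d s hcd hc0 hd1 hh
    have hu := uniqueDiffWithinAt_Ioi s
    have : HasDerivWithinAt (GK n r ψ t₂ η) 0 (Ioi s) s := by
      refine (hasDerivWithinAt_const s (Ioi s) (0 : ℝ)).congr_of_eventuallyEq ?_
        (GK_eq_zero hr h η ⟨by linarith [hcd.1], by linarith [hcd.2]⟩ (hh s ⟨hcd.1, hcd.2.le⟩))
      filter_upwards [Ioo_mem_nhdsGT hcd.2] with y hy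
      exact GK_eq_zero hr h η ⟨by linarith [hcd.1, hy.1], by linarith [hy.2]⟩
        (hh y ⟨by linarith [hy.1, hcd.1], hy.2.le⟩)
    exact this.derivWithin hu
  have hbd : ∀ s ∈ Ioo (0 : ℝ) 1, |dGK n r ψ t₂ η s| ≤ max 0 K := by
    intro s hs
    rcases lt_or_ge s δ with h1 | h1
    · rw [hzero 0 δ s ⟨hs.1.le, h1⟩ le_rfl (by linarith) ha, abs_zero]
      exact le_max_left _ _
    rcases le_or_gt s (1 - δ) with h' | h'
    · rcases dGK_cases (n := n) hr h η hs with ⟨_, _, _, e⟩ | ⟨_, _, _, e⟩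
      · rw [e, abs_zero]; exact le_max_left _ _
      · rw [e]; exact (hK s ⟨h1, h'⟩).trans (le_max_right _ _)
    · rw [hzero (1 - δ) 1 s ⟨h'.le, hs.2⟩ (by linarith) le_rfl hb, abs_zero]
      exact le_max_left _ _
  unfold NI
  rw [intervalIntegrable_iff_integrableOn_Ioo_of_le (by norm_num)]
  refine Integrable.mono' (g := fun _ => max 0 K) (by simp) ?_ ?_
  · refine AEStronglyMeasurable.mul (cc_continuous.pow _).aestronglyMeasurable
      (continuous_id.aestronglyMeasurable.mul ?_)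
    exact aestronglyMeasurable_derivWithin_Ioi _ _
  · rw [ae_restrict_iff' measurableSet_Ioo]
    refine Eventually.of_forall fun s hs => ?_
    rw [Real.norm_eq_abs, abs_mul, abs_mul, abs_of_nonneg (pow_nonneg (cc_nonneg s) _),
      abs_of_nonneg hs.1.le]
    have h1 : cc s ^ (n - 1) ≤ 1 := pow_le_one₀ (cc_nonneg s) (cc_le_one s)
    have h2 := hbd s hs
    have h3 : 0 ≤ cc s ^ (n - 1) := pow_nonneg (cc_nonneg s) _
    calc cc s ^ (n - 1) * (s * |dGK n r ψ t₂ η s|) ≤ 1 * (1 * max 0 K) := by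
          refine mul_le_mul h1 (mul_le_mul hs.2.le h2 (abs_nonneg _) zero_le_one)
            (mul_nonneg hs.1.le (abs_nonneg _)) zero_le_one
      _ = _ := by ring

/-- certificate density: gauge `-(θ₀ Y + θ₁ s²) l²` -/
noncomputable def PA (n : ℕ) (μ σ B θ₀ θ₁ ξ lm s l k : ℝ) : ℝ :=
  PB n μ σ B ξ lm s l k -
    θ₀ * (3 * (Y s * l ^ 2) - ((n : ℝ) - 3) * (Y s ^ 2 * l ^ 2) + Y s * (2 * l * k)) -
    θ₁ * (3 * (s ^ 2 * l ^ 2) - ((n : ℝ) - 1) * (Y s * (s ^ 2 * l ^ 2)) + 2 * (s ^ 2 * (l * k)))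

lemma null_s2l (hr : Prof r) (hn : 3 ≤ n) :
    NI n (fun s => 3 * (s ^ 2 * ll n r s ^ 2) - ((n : ℝ) - 1) * (Y s * (s ^ 2 * ll n r s ^ 2)) +
      2 * (s ^ 2 * (ll n r s * kk n r s))) ∧
    JJ n (fun s => 3 * (s ^ 2 * ll n r s ^ 2) - ((n : ℝ) - 1) * (Y s * (s ^ 2 * ll n r s ^ 2)) +
      2 * (s ^ 2 * (ll n r s * kk n r s))) = 0 := by
  have hl := continuousOn_ll hr n
  have hG : ContinuousOn (fun s => s ^ 2 * ll n r s ^ 2) (Icc 0 1) :=
    (continuous_pow 2).continuousOn.mul (hl.pow 2)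
  have hG' : ∀ s ∈ Ioo (0 : ℝ) 1, HasDerivAt (fun s => s ^ 2 * ll n r s ^ 2)
      (2 * s * ll n r s ^ 2 + s ^ 2 * (2 * ll n r s * (kk n r s / s))) s := by
    intro s hs
    have h1 : HasDerivAt (fun s : ℝ => s ^ 2) (2 * s) s := by simpa using hasDerivAt_pow 2 s
    have h2 : HasDerivAt (fun s => ll n r s ^ 2) (2 * ll n r s * (kk n r s / s)) s := by
      simpa using (hasDerivAt_ll hr n hs).fun_pow 2
    exact h1.fun_mul h2
  have n1 : NI n (fun s => 2 * (s ^ 2 * ll n r s ^ 2)) := NI_cont (continuousOn_const.mul hG)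
  have n2 : NI n (fun s => 2 * s ^ 2 * ll n r s * kk n r s) :=
    NI_kk hr (((continuousOn_const.mul (continuous_pow 2).continuousOn)).mul hl)
  have hi : NI n (fun s => s * (2 * s * ll n r s ^ 2 + s ^ 2 * (2 * ll n r s * (kk n r s / s)))) := by
    refine (n1.add n2).congr fun s hs => ?_
    have := hs.1.ne'
    field_simp
  have h0 := null_GL hn hG hG' hi
  have e : ∀ s ∈ Ioo (0 : ℝ) 1, s ^ 2 * ll n r s ^ 2 +
      s * (2 * s * ll n r s ^ 2 + s ^ 2 * (2 * ll n r s * (kk n r s / s))) -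
      ((n : ℝ) - 1) * (Y s * (s ^ 2 * ll n r s ^ 2)) =
      3 * (s ^ 2 * ll n r s ^ 2) - ((n : ℝ) - 1) * (Y s * (s ^ 2 * ll n r s ^ 2)) +
      2 * (s ^ 2 * (ll n r s * kk n r s)) := by
    intro s hs
    have := hs.1.ne'
    field_simp
    ring
  refine ⟨?_, ?_⟩
  · exact (((NI_cont hG).add hi).sub ((NI_Y hn hG).smul _)).congr e
  · rw [← h0]
    exact (JJ_congr e).symm

/-- **General master theorem**: any admissible contact `φ`, gauge `-(θ₀ Y + θ₁ s²) l²` and any further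
null Lagrangian given by a path function `G` (continuous, with right derivative). -/
theorem master_gen (hr : Prof r) (hn : 5 ≤ n) (hN : NleB n r) {φ φ' : ℝ → ℝ} (hCX : CX φ φ')
    (hadm : ∀ s ∈ Ioo (0 : ℝ) 1, xA (QX φ s) (LX n r φ s) ≤ xB (tau n r s) (QX φ s) (LX n r φ s))
    {μ σ ξ θ₀ θ₁ : ℝ} {B : ℝ → ℝ} (hB : ContinuousOn B (Icc 0 1)) (hμ0 : 0 ≤ μ)
    (hW : 0 ≤ JJ n (fun s => B s * kk n r s ^ 2 - σ * (Y s * (ll n r s - lam n r) ^ 2)))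
    (hμ : 0 ≤ (μ * ((n : ℝ) - 1) - ((n : ℝ) + 1) - σ * lam n r) * lam n r)
    {G G' : ℝ → ℝ} (hGc : ContinuousOn G (Icc 0 1))
    (hG' : ∀ s ∈ Ioo (0 : ℝ) 1, HasDerivWithinAt G (G' s) (Ioi s) s) (nG' : NI n (fun s => s * G' s))
    (hP : ∀ s ∈ Ioo (0 : ℝ) 1,
      0 ≤ PA n μ σ (B s) θ₀ θ₁ ξ (lam n r) s (ll n r s) (kk n r s) + ZG n r φ φ' s -
        (G s + s * G' s - ((n : ℝ) - 1) * (Y s * G s)) ∧
      (PA n μ σ (B s) θ₀ θ₁ ξ (lam n r) s (ll n r s) (kk n r s) + ZG n r φ φ' s -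
        (G s + s * G' s - ((n : ℝ) - 1) * (Y s * G s)) = 0 → ll n r s = 0)) :
    0 ≤ UX n r ∧ (UX n r = 0 → ∃ a : ℝ, ∀ s ∈ Icc (-1 : ℝ) 1, r s = a * Real.sqrt (1 - s ^ 2)) := by
  have hn3 : 3 ≤ n := by omega
  have hl := continuousOn_ll hr n
  have hU := hU_of_contact hn3 hr hCX hadm
  have nZ := NI_ZG hn3 hr hCX
  rw [int_raw_eq hr hn3] at hU
  obtain ⟨nPB, h1⟩ := JJ_PB_le hr hn hN (ξ := ξ) hB hμ0 hW hμ
  have hT := null_Y hr hn (g := fun x => θ₀ * x ^ 2) (g' := fun x => θ₀ * (2 * x))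
    (fun x => by simpa using (hasDerivAt_pow 2 x).const_mul θ₀) (by fun_prop)
  have nT : NI n (fun s => 3 * (Y s * (θ₀ * ll n r s ^ 2)) - ((n : ℝ) - 3) * (Y s ^ 2 * (θ₀ * ll n r s ^ 2)) +
      Y s * (θ₀ * (2 * ll n r s) * kk n r s)) :=
    (((NI_Y (by omega) (continuousOn_const.mul (hl.pow 2))).smul 3).sub
      ((NI_Y2 hn (continuousOn_const.mul (hl.pow 2))).smul _)).add
      (NI_Ykk hr (by omega) (continuousOn_const.mul (continuousOn_const.mul hl)))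
  obtain ⟨nS, hS⟩ := null_s2l (n := n) hr hn3
  have hG0 := null_GR hn3 hGc hG' nG'
  have nG : NI n (fun s => G s + s * G' s - ((n : ℝ) - 1) * (Y s * G s)) :=
    ((NI_cont hGc).add nG').sub ((NI_Y hn3 hGc).smul _)
  set f : ℝ → ℝ := fun s => PA n μ σ (B s) θ₀ θ₁ ξ (lam n r) s (ll n r s) (kk n r s) +
    ZG n r φ φ' s - (G s + s * G' s - ((n : ℝ) - 1) * (Y s * G s)) with hf
  have nf' := (((nPB.sub nT).sub (nS.smul θ₁)).add nZ).sub nG
  have ef : ∀ s, ((PB n μ σ (B s) ξ (lam n r) s (ll n r s) (kk n r s) -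
      (3 * (Y s * (θ₀ * ll n r s ^ 2)) - ((n : ℝ) - 3) * (Y s ^ 2 * (θ₀ * ll n r s ^ 2)) +
      Y s * (θ₀ * (2 * ll n r s) * kk n r s))) -
      θ₁ * (3 * (s ^ 2 * ll n r s ^ 2) - ((n : ℝ) - 1) * (Y s * (s ^ 2 * ll n r s ^ 2)) +
      2 * (s ^ 2 * (ll n r s * kk n r s)))) + ZG n r φ φ' s -
      (G s + s * G' s - ((n : ℝ) - 1) * (Y s * G s)) = f s := by
    intro s
    rw [hf]
    unfold PA
    ring
  have nf : NI n f := nf'.congr fun s _ => ef s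
  have hJ : JJ n f = JJ n (fun s => PB n μ σ (B s) ξ (lam n r) s (ll n r s) (kk n r s)) +
      JJ n (ZG n r φ φ') := by
    rw [← JJ_congr (f := fun s => ((PB n μ σ (B s) ξ (lam n r) s (ll n r s) (kk n r s) -
      (3 * (Y s * (θ₀ * ll n r s ^ 2)) - ((n : ℝ) - 3) * (Y s ^ 2 * (θ₀ * ll n r s ^ 2)) +
      Y s * (θ₀ * (2 * ll n r s) * kk n r s))) -
      θ₁ * (3 * (s ^ 2 * ll n r s ^ 2) - ((n : ℝ) - 1) * (Y s * (s ^ 2 * ll n r s ^ 2)) +
      2 * (s ^ 2 * (ll n r s * kk n r s)))) + ZG n r φ φ' s -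
      (G s + s * G' s - ((n : ℝ) - 1) * (Y s * G s)))
      (fun s _ => ef s)]
    rw [JJ_sub (((nPB.sub nT).sub (nS.smul θ₁)).add nZ) nG, JJ_add ((nPB.sub nT).sub (nS.smul θ₁)) nZ,
      JJ_sub (nPB.sub nT) (nS.smul θ₁), JJ_sub nPB nT, JJ_smul, hT, hS, hG0]
    ring
  refine conclude hr (by omega) nf ?_ (fun s hs => (hP s hs).1) (fun s hs hfs => (hP s hs).2 hfs)
  rw [hJ]
  linarith

/-- **Master theorem for the capped range.** -/
theorem master_cap (hr : Prof r) (hn : 5 ≤ n) (hN : NleB n r) (h : Crv ψ ψ' t₂)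
    (h0 : ∃ δ > 0, ∀ s ∈ Icc (0 : ℝ) δ, ψ (tau n r s) ≤ s)
    (hadm : ∀ s ∈ Ioo (0 : ℝ) 1, ψ (tau n r s) ≤ s → Legal n r s)
    (hadmψ : ∀ s ∈ Ioo (0 : ℝ) 1, s ≤ ψ (tau n r s) →
      xA (1 / cc (ψ (tau n r s))) (Real.log (tau n r s / ψ (tau n r s))) ≤
        xB (tau n r s) (1 / cc (ψ (tau n r s))) (Real.log (tau n r s / ψ (tau n r s))))
    {μ σ ξ θ₀ θ₁ η : ℝ} {B : ℝ → ℝ} (hB : ContinuousOn B (Icc 0 1)) (hμ0 : 0 ≤ μ)
    (hW : 0 ≤ JJ n (fun s => B s * kk n r s ^ 2 - σ * (Y s * (ll n r s - lam n r) ^ 2)))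
    (hμ : 0 ≤ (μ * ((n : ℝ) - 1) - ((n : ℝ) + 1) - σ * lam n r) * lam n r)
    (hPA : ∀ s ∈ Ioo (0 : ℝ) 1, ψ (tau n r s) ≤ s →
      0 ≤ PA n μ σ (B s) θ₀ θ₁ ξ (lam n r) s (ll n r s) (kk n r s) ∧
      (PA n μ σ (B s) θ₀ θ₁ ξ (lam n r) s (ll n r s) (kk n r s) = 0 → ll n r s = 0))
    (hPB : ∀ s ∈ Ioo (0 : ℝ) 1, ∀ x ∈ Ioc (0 : ℝ) (tau n r s), ψ x = s →
      0 < PA n μ σ (B s) θ₀ θ₁ ξ (lam n r) s (ll n r s) (kk n r s) +
        cc s * (flatG n ψ ψ' (tau n r s) - rawL n s (ll n r s) (kk n r s)) -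
        kinkN n η s (ll n r s) (Real.log (x / s)) (s / (ψ' x * x) - 1) (kk n r s)) :
    0 ≤ UX n r ∧ (UX n r = 0 → ∃ a : ℝ, ∀ s ∈ Icc (-1 : ℝ) 1, r s = a * Real.sqrt (1 - s ^ 2)) := by
  have hψ1 : ∀ t ∈ Ioo (0 : ℝ) 1, ψ t < 1 := fun t ht =>
    (h.ψ_mem ⟨ht.1, by linarith [ht.2, h.one_lt]⟩).2
  obtain ⟨δ, hδ, hδ2, ha, hb⟩ := near_ends (n := n) hr h h0
  have hCX : CX (phM n r ψ) (dphM n r ψ) := by
    refine CX_max (ψ' := ψ') hr (h.cont.mono (Icc_subset_Icc_right h.one_lt.le))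
      (fun t ht => h.deriv t ⟨ht.1, by linarith [ht.2, h.one_lt]⟩)
      (h.cont'.mono (Ioo_subset_Ioo_right h.one_lt.le)) hψ1 h0 ⟨1 - δ, by linarith, hb⟩
  have hadm' : ∀ s ∈ Ioo (0 : ℝ) 1, xA (QX (phM n r ψ) s) (LX n r (phM n r ψ) s) ≤
      xB (tau n r s) (QX (phM n r ψ) s) (LX n r (phM n r ψ) s) := by
    intro s hs
    unfold QX LX
    rcases le_total (ψ (tau n r s)) s with hc | hc
    · rw [show phM n r ψ s = s from max_eq_left hc]
      exact (hadm s hs hc).adm hs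
    · rw [show phM n r ψ s = ψ (tau n r s) from max_eq_right hc]
      exact hadmψ s hs hc
  refine master_gen hr hn hN hCX hadm' (θ₀ := θ₀) (θ₁ := θ₁) (ξ := ξ) hB hμ0 hW hμ
    (GK_continuousOn (n := n) hr h η h0) (fun s hs => hasDeriv_GK hr h η hs) (NI_dGK (n := n) hr h η h0)
    fun s hs => ?_
  rcases dGK_cases (n := n) hr h η hs with ⟨hc, e1, hv, e2⟩ | ⟨hc, e1, hv, e2⟩
  · have e3 : GK n r ψ t₂ η s = 0 := GK_eq_zero hr h η ⟨hs.1.le, hs.2.le⟩ hc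
    have e4 : ZG n r (phM n r ψ) (dphM n r ψ) s = 0 := by
      have e5 : phM n r ψ s = s := max_eq_left hc
      unfold ZG
      rw [WR.rawL_eq hr hs]
      unfold RawG RawX QX LX
      rw [e5, e1, mul_comm s (dtau n r s), div_mul_div_comm, one_mul, sub_self, mul_zero]
    rw [e2, e3, e4]
    simp only [mul_zero, add_zero, sub_zero]
    exact hPA s hs hc
  · have hT := tau_mem_half hr n hs
    have hTt : tau n r s ∈ Icc 0 t₂ := ⟨hT.1.le, by linarith [hT.2, h.one_lt]⟩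
    have hs' : s ∈ Icc (0 : ℝ) 1 := ⟨hs.1.le, hs.2.le⟩
    have hxle : Crv.inv ψ t₂ s ≤ tau n r s := by
      by_contra h3
      exact absurd ((h.lt_iff hTt hs').2 (not_le.1 h3)) (not_lt.2 hc)
    have hp := hPB s hs (Crv.inv ψ t₂ s) ⟨(h.inv_mem' hs).1, hxle⟩ (h.ψ_inv hs')
    have hd := (dtau_pos hr n (s := s) ⟨by linarith [hs.1], hs.2⟩)
    have e3 : GK n r ψ t₂ η s = vK n r ψ t₂ s * hP n r ψ t₂ η s := by
      unfold GK; rw [max_eq_left hv]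
    have e4 : ZG n r (phM n r ψ) (dphM n r ψ) s =
        cc s * (flatG n ψ ψ' (tau n r s) - rawL n s (ll n r s) (kk n r s)) := by
      have e5 : phM n r ψ s = ψ (tau n r s) := max_eq_right hc
      unfold ZG
      congr 2
      unfold RawG flatG QX LX
      rw [e5, e1, mul_div_assoc, div_self hd.ne', mul_one]
    have e6 : GK n r ψ t₂ η s + s * dGK n r ψ t₂ η s - ((n : ℝ) - 1) * (Y s * GK n r ψ t₂ η s) =
        kinkN n η s (ll n r s) (Real.log (Crv.inv ψ t₂ s / s))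
          (s / (ψ' (Crv.inv ψ t₂ s) * Crv.inv ψ t₂ s) - 1) (kk n r s) := by
      rw [e2, e3]
      have hs0 := hs.1.ne'
      unfold gB kinkN
      rw [vK_eq hr h hs]
      change _ = (ll n r s - lbf ψ t₂ s) * hK η s (ll n r s) (lbf ψ t₂ s) +
        ((kk n r s - kbf ψ ψ' t₂ s) * hK η s (ll n r s) (lbf ψ t₂ s) +
        (ll n r s - lbf ψ t₂ s) * dhK s (ll n r s) (lbf ψ t₂ s) (kbf ψ ψ' t₂ s) (kk n r s)) -
        ((n : ℝ) - 1) * (Y s * ((ll n r s - lbf ψ t₂ s) * hK η s (ll n r s) (lbf ψ t₂ s)))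
      change _ + _ - ((n : ℝ) - 1) * (Y s * ((ll n r s - lbf ψ t₂ s) *
        hK η s (ll n r s) (lbf ψ t₂ s))) = _
      unfold hP
      field_simp
    rw [e6, e4]
    exact ⟨hp.le, fun h0' => absurd h0' hp.ne'⟩

end

end WR

end Crest.Agent.R230
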