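/-
Row 230 (Petty), block B4 (case II, `l ≤ 0`): polynomial certificates.
-/
import Mathlib

namespace Crest.Agent.R230
namespace WR
namespace NegL

/-- `12m² + 6m(2m-1)k + (m-1)(2m-1)k²` -/
noncomputable def Dn (m k : ℝ) : ℝ := 12 * m ^ 2 + 6 * m * (2 * m - 1) * k + (m - 1) * (2 * m - 1) * k ^ 2

/-- numerator of `(2-2/S)/(1+k) - 3/(2(m+2)) - (4m+7)(6m+(2m-1)k)/(4 Dn)` -/
noncomputable def Ep (m k S : ℝ) : ℝ :=
  8 * (S - 1) * (m + 2) * Dn m k - 6 * S * (1 + k) * Dn m k -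
    S * (1 + k) * ((4 * m + 7) * (6 * m + (2 * m - 1) * k) * (m + 2))

lemma Dn_pos {m k : ℝ} (hm : 1 ≤ m) (hk : 0 ≤ k) : 0 < Dn m k := by
  unfold Dn
  have h1 : 0 ≤ (m - 1) * (2 * m - 1) * k ^ 2 := by
    apply mul_nonneg (mul_nonneg _ _) (sq_nonneg k) <;> linarith
  have h2 : 0 ≤ 6 * m * (2 * m - 1) * k := by
    apply mul_nonneg (mul_nonneg _ _) hk <;> linarith
  have h3 : 0 < 12 * m ^ 2 := by positivity
  linarith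

/-- `n ≥ 10`, `k ≤ 1` -/
lemma c1 {v : ℝ} (hv : 0 ≤ v) {k : ℝ} (h0 : 0 ≤ k) (h1 : k ≤ 1) :
    0 < Ep (v + 10) k 2 := by
  obtain ⟨x, hx⟩ : ∃ x : ℝ, x = k - 0 := ⟨_, rfl⟩
  obtain ⟨z, hz⟩ : ∃ z : ℝ, z = 1 - k := ⟨_, rfl⟩
  have hx0 : 0 ≤ x := by rw [hx]; linarith
  have hz0 : 0 ≤ z := by rw [hz]; linarith
  have key : 1 * (Ep (v + 10) k 2 - 40) =
      80*v^3*x^3 + 208*v^3*x^2*z + 176*v^3*x*z^2 + 48*v^3*z^3 + 1656*v^2*x^3 + 4880*v^2*x^2*z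
       + 4508*v^2*x*z^2 + 1308*v^2*z^3 + 8812*v*x^3 + 34302*v*x^2*z + 36638*v*x*z^2
       + 11592*v*z^3 + 2528*x^3 + 62988*x^2*z + 91488*x*z^2 + 33080*z^3 := by
    rw [hx, hz]; unfold Ep Dn; ring
  have h : 0 ≤
      80*v^3*x^3 + 208*v^3*x^2*z + 176*v^3*x*z^2 + 48*v^3*z^3 + 1656*v^2*x^3 + 4880*v^2*x^2*z
       + 4508*v^2*x*z^2 + 1308*v^2*z^3 + 8812*v*x^3 + 34302*v*x^2*z + 36638*v*x*z^2
       + 11592*v*z^3 + 2528*x^3 + 62988*x^2*z + 91488*x*z^2 + 33080*z^3 := by positivity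
  linarith

/-- `n ≥ 10`, `1 ≤ k ≤ 5` -/
lemma c2 {v : ℝ} (hv : 0 ≤ v) {k : ℝ} (h0 : 1 ≤ k) (h1 : k ≤ 5) :
    0 < Ep (v + 10) k (k ^ 2 + k) := by
  obtain ⟨x, hx⟩ : ∃ x : ℝ, x = k - 1 := ⟨_, rfl⟩
  obtain ⟨z, hz⟩ : ∃ z : ℝ, z = 5 - k := ⟨_, rfl⟩
  have hx0 : 0 ≤ x := by rw [hx]; linarith
  have hz0 : 0 ≤ z := by rw [hz]; linarith
  have key : 512 * (Ep (v + 10) k (k ^ 2 + k) - 70) =
      8392*v^3*x^5 + 20808*v^3*x^4*z + 18512*v^3*x^3*z^2 + 7184*v^3*x^2*z^3 + 1128*v^3*x*z^4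
       + 40*v^3*z^5 + 182204*v^2*x^5 + 500268*v^2*x^4*z + 471320*v^2*x^3*z^2
       + 187608*v^2*x^2*z^3 + 29036*v^2*x*z^4 + 828*v^2*z^5 + 1148310*v*x^5 + 3768006*v*x^4*z
       + 3857156*v*x^3*z^2 + 1586884*v*x^2*z^3 + 240166*v*x*z^4 + 4406*v*z^5 + 1653265*x^5
       + 8467925*x^4*z + 9958714*x^3*z^2 + 4294426*x^2*z^3 + 626309*x*z^4 + 1249*z^5 := by
    rw [hx, hz]; unfold Ep Dn; ring
  have h : 0 ≤
      8392*v^3*x^5 + 20808*v^3*x^4*z + 18512*v^3*x^3*z^2 + 7184*v^3*x^2*z^3 + 1128*v^3*x*z^4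
       + 40*v^3*z^5 + 182204*v^2*x^5 + 500268*v^2*x^4*z + 471320*v^2*x^3*z^2
       + 187608*v^2*x^2*z^3 + 29036*v^2*x*z^4 + 828*v^2*z^5 + 1148310*v*x^5 + 3768006*v*x^4*z
       + 3857156*v*x^3*z^2 + 1586884*v*x^2*z^3 + 240166*v*x*z^4 + 4406*v*z^5 + 1653265*x^5
       + 8467925*x^4*z + 9958714*x^3*z^2 + 4294426*x^2*z^3 + 626309*x*z^4 + 1249*z^5 := by positivity
  linarith

/-- `k ≥ 5`, `n ≥ 2k` -/
lemma c3 {v : ℝ} (hv : 0 ≤ v) {x : ℝ} (hx : 0 ≤ x) :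
    0 < Ep (2 * (x + 5) + v) (x + 5) ((x + 5) ^ 2 + (x + 5)) := by
  have key : 1 * (Ep (2 * (x + 5) + v) (x + 5) ((x + 5) ^ 2 + (x + 5))) =
      8*v^3*x^4 + 232*v^3*x^3 + 2400*v^3*x^2 + 10576*v^3*x + 16784*v^3 + 36*v^2*x^5
       + 1218*v^2*x^4 + 15862*v^2*x^3 + 99992*v^2*x^2 + 306080*v^2*x + 364408*v^2 + 48*v*x^6
       + 1866*v*x^5 + 29237*v*x^4 + 237420*v*x^3 + 1056441*v*x^2 + 2444404*v*x + 2296620*v
       + 16*x^7 + 716*x^6 + 13200*x^5 + 130638*x^4 + 751172*x^3 + 2508634*x^2 + 4492440*x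
       + 3306600 := by
    unfold Ep Dn; ring
  have h : 0 <
      8*v^3*x^4 + 232*v^3*x^3 + 2400*v^3*x^2 + 10576*v^3*x + 16784*v^3 + 36*v^2*x^5
       + 1218*v^2*x^4 + 15862*v^2*x^3 + 99992*v^2*x^2 + 306080*v^2*x + 364408*v^2 + 48*v*x^6
       + 1866*v*x^5 + 29237*v*x^4 + 237420*v*x^3 + 1056441*v*x^2 + 2444404*v*x + 2296620*v
       + 16*x^7 + 716*x^6 + 13200*x^5 + 130638*x^4 + 751172*x^3 + 2508634*x^2 + 4492440*x
       + 3306600 := by positivity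
  linarith

/-- `n = 5` -/
lemma c45a {k : ℝ} (h0 : 0 ≤ k) (h1 : k ≤ (7/4)) :
    0 < Ep 5 k (1 + k ^ 2 + (12 + 5 * k) / 13) := by
  obtain ⟨x, hx⟩ : ∃ x : ℝ, x = k - 0 := ⟨_, rfl⟩
  obtain ⟨z, hz⟩ : ∃ z : ℝ, z = (7/4) - k := ⟨_, rfl⟩
  have hx0 : 0 ≤ x := by rw [hx]; linarith
  have hz0 : 0 ≤ z := by rw [hz]; linarith
  have key : 218491 * (Ep 5 k (1 + k ^ 2 + (12 + 5 * k) / 13) - 10) =
      177193700*x^5 + 791677996*x^4*z + 680440832*x^3*z^2 + 98744192*x^2*z^3 + 666880*x*z^4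
       + 15073280*z^5 := by
    rw [hx, hz]; unfold Ep Dn; ring
  have h : 0 ≤
      177193700*x^5 + 791677996*x^4*z + 680440832*x^3*z^2 + 98744192*x^2*z^3 + 666880*x*z^4
       + 15073280*z^5 := by positivity
  linarith

/-- `n = 5` -/
lemma c45b {k : ℝ} (h0 : (7/4) ≤ k) (h1 : k ≤ (5/2)) :
    0 < Ep 5 k (1 + k ^ 2 + (4 + 3 * k) / 5) := by
  obtain ⟨x, hx⟩ : ∃ x : ℝ, x = k - (7/4) := ⟨_, rfl⟩
  obtain ⟨z, hz⟩ : ∃ z : ℝ, z = (5/2) - k := ⟨_, rfl⟩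
  have hx0 : 0 ≤ x := by rw [hx]; linarith
  have hz0 : 0 ≤ z := by rw [hz]; linarith
  have key : 1215 * (Ep 5 k (1 + k ^ 2 + (4 + 3 * k) / 5) - (17923/16)) =
      5735680*x^5 + 237744512*x^4*z + 704212576*x^3*z^2 + 801800800*x^2*z^3 + 406215548*x*z^4
       + 76880932*z^5 := by
    rw [hx, hz]; unfold Ep Dn; ring
  have h : 0 ≤
      5735680*x^5 + 237744512*x^4*z + 704212576*x^3*z^2 + 801800800*x^2*z^3 + 406215548*x*z^4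
       + 76880932*z^5 := by positivity
  linarith

/-- `n = 6` -/
lemma c46 {k : ℝ} (h0 : 0 ≤ k) (h1 : k ≤ 3) :
    0 < Ep 6 k (1 + (k / (31/30)) ^ 2 + (12 + 5 * (k / (31/30))) / 13) := by
  obtain ⟨x, hx⟩ : ∃ x : ℝ, x = k - 0 := ⟨_, rfl⟩
  obtain ⟨z, hz⟩ : ∃ z : ℝ, z = 3 - k := ⟨_, rfl⟩
  have hx0 : 0 ≤ x := by rw [hx]; linarith
  have hz0 : 0 ≤ z := by rw [hz]; linarith
  have key : 24286392 * (Ep 6 k (1 + (k / (31/30)) ^ 2 + (12 + 5 * (k / (31/30))) / 13) - (7297/8)) =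
      4893841139*x^5 + 49527363343*x^4*z + 46315372862*x^3*z^2 + 9398083118*x^2*z^3
       + 455836927*x*z^4 + 245388467*z^5 := by
    rw [hx, hz]; unfold Ep Dn; ring
  have h : 0 ≤
      4893841139*x^5 + 49527363343*x^4*z + 46315372862*x^3*z^2 + 9398083118*x^2*z^3
       + 455836927*x*z^4 + 245388467*z^5 := by positivity
  linarith

/-- `n = 7` -/
lemma c47 {k : ℝ} (h0 : 0 ≤ k) (h1 : k ≤ (7/2)) :
    0 < Ep 7 k (1 + (k / (9/8)) ^ 2 + (1 + 0 * (k / (9/8))) / 1) := by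
  obtain ⟨x, hx⟩ : ∃ x : ℝ, x = k - 0 := ⟨_, rfl⟩
  obtain ⟨z, hz⟩ : ∃ z : ℝ, z = (7/2) - k := ⟨_, rfl⟩
  have hx0 : 0 ≤ x := by rw [hx]; linarith
  have hz0 : 0 ≤ z := by rw [hz]; linarith
  have key : 151263 * (Ep 7 k (1 + (k / (9/8)) ^ 2 + (1 + 0 * (k / (9/8))) / 1) - (10231/8)) =
      33686292*x^5 + 279431748*x^4*z + 211591480*x^3*z^2 + 21449528*x^2*z^3 + 1841652*x*z^4
       + 2171844*z^5 := by
    rw [hx, hz]; unfold Ep Dn; ring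
  have h : 0 ≤
      33686292*x^5 + 279431748*x^4*z + 211591480*x^3*z^2 + 21449528*x^2*z^3 + 1841652*x*z^4
       + 2171844*z^5 := by positivity
  linarith

/-- `n = 8` -/
lemma c48 {k : ℝ} (h0 : 0 ≤ k) (h1 : k ≤ 4) :
    0 < Ep 8 k (1 + (k / (121/100)) ^ 2 + (1 + 0 * (k / (121/100))) / 1) := by
  obtain ⟨x, hx⟩ : ∃ x : ℝ, x = k - 0 := ⟨_, rfl⟩
  obtain ⟨z, hz⟩ : ∃ z : ℝ, z = 4 - k := ⟨_, rfl⟩
  have hx0 : 0 ≤ x := by rw [hx]; linarith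
  have hz0 : 0 ≤ z := by rw [hz]; linarith
  have key : 239878144 * (Ep 8 k (1 + (k / (121/100)) ^ 2 + (1 + 0 * (k / (121/100))) / 1) - (58137/16)) =
      68290508343*x^5 + 479642885139*x^4*z + 345484538406*x^3*z^2 + 38995311654*x^2*z^3
       + 4256006931*x*z^4 + 2612056887*z^5 := by
    rw [hx, hz]; unfold Ep Dn; ring
  have h : 0 ≤
      68290508343*x^5 + 479642885139*x^4*z + 345484538406*x^3*z^2 + 38995311654*x^2*z^3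
       + 4256006931*x*z^4 + 2612056887*z^5 := by positivity
  linarith

/-- `n = 9` -/
lemma c49 {k : ℝ} (h0 : 0 ≤ k) (h1 : k ≤ (9/2)) :
    0 < Ep 9 k (1 + (k / (9/7)) ^ 2 + (1 + 0 * (k / (9/7))) / 1) := by
  obtain ⟨x, hx⟩ : ∃ x : ℝ, x = k - 0 := ⟨_, rfl⟩
  obtain ⟨z, hz⟩ : ∃ z : ℝ, z = (9/2) - k := ⟨_, rfl⟩
  have hx0 : 0 ≤ x := by rw [hx]; linarith
  have hz0 : 0 ≤ z := by rw [hz]; linarith
  have key : 19683 * (Ep 9 k (1 + (k / (9/7)) ^ 2 + (1 + 0 * (k / (9/7))) / 1) - (117057/16)) =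
      6628024*x^5 + 42112460*x^4*z + 28910176*x^3*z^2 + 3367012*x^2*z^3 + 390194*x*z^4
       + 165034*z^5 := by
    rw [hx, hz]; unfold Ep Dn; ring
  have h : 0 ≤
      6628024*x^5 + 42112460*x^4*z + 28910176*x^3*z^2 + 3367012*x^2*z^3 + 390194*x*z^4
       + 165034*z^5 := by positivity
  linarith

/-- `n ≥ 7`, `k ≤ 1/2` -/
lemma c5 {v : ℝ} (hv : 0 ≤ v) {k : ℝ} (h0 : 0 ≤ k) (h1 : k ≤ (1/2)) :
    0 < 4 * ((v + 7) - 3) * (Ep (v + 7) k 2 / 2) * (1 + k) - (1 - 2 * k) ^ 2 * (4 * ((v + 7) + 2) * Dn (v + 7) k) := by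
  obtain ⟨x, hx⟩ : ∃ x : ℝ, x = k - 0 := ⟨_, rfl⟩
  obtain ⟨z, hz⟩ : ∃ z : ℝ, z = (1/2) - k := ⟨_, rfl⟩
  have hx0 : 0 ≤ x := by rw [hx]; linarith
  have hz0 : 0 ≤ z := by rw [hz]; linarith
  have key : 1 * (4 * ((v + 7) - 3) * (Ep (v + 7) k 2 / 2) * (1 + k) - (1 - 2 * k) ^ 2 * (4 * ((v + 7) + 2) * Dn (v + 7) k) - 50) =
      3072*v^4*x^4 + 10496*v^4*x^3*z + 13312*v^4*x^2*z^2 + 7424*v^4*x*z^3 + 1536*v^4*z^4
       + 58752*v^3*x^4 + 210768*v^3*x^3*z + 277184*v^3*x^2*z^2 + 158656*v^3*x*z^3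
       + 33408*v^3*z^4 + 372192*v^2*x^4 + 1452664*v^2*x^3*z + 2016112*v^2*x^2*z^2
       + 1192864*v^2*x*z^3 + 255744*v^2*z^4 + 827640*v*x^4 + 3884904*v*x^3*z + 5902448*v*x^2*z^2
       + 3647264*v*x*z^3 + 792960*v*z^4 + 328384*x^4 + 3095968*x^3*z + 5629344*x^2*z^2
       + 3669952*x*z^3 + 789472*z^4 := by
    rw [hx, hz]; unfold Ep Dn; ring
  have h : 0 ≤
      3072*v^4*x^4 + 10496*v^4*x^3*z + 13312*v^4*x^2*z^2 + 7424*v^4*x*z^3 + 1536*v^4*z^4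
       + 58752*v^3*x^4 + 210768*v^3*x^3*z + 277184*v^3*x^2*z^2 + 158656*v^3*x*z^3
       + 33408*v^3*z^4 + 372192*v^2*x^4 + 1452664*v^2*x^3*z + 2016112*v^2*x^2*z^2
       + 1192864*v^2*x*z^3 + 255744*v^2*z^4 + 827640*v*x^4 + 3884904*v*x^3*z + 5902448*v*x^2*z^2
       + 3647264*v*x*z^3 + 792960*v*z^4 + 328384*x^4 + 3095968*x^3*z + 5629344*x^2*z^2
       + 3669952*x*z^3 + 789472*z^4 := by positivity
  linarith

/-- `n = 5`, `k ≤ 1/2` -/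
lemma c65 {w : ℝ} (hw : 0 ≤ w) {k : ℝ} (h0 : 0 ≤ k) (h1 : k ≤ (1/2)) :
    0 < 4 * ((1 + (k ^ 2 + w)) * (Ep 5 k 2 / 2) + 3 * (5 + 2) * Dn 5 k * (k ^ 2 + w)) * ((5 - 3) * (k ^ 2 + w) + 5 / 4 / (2 * 5 + 1)) * (1 + k) - (1 - 2 * k) ^ 2 * (4 * (5 + 2) * Dn 5 k) * ((k ^ 2 + w) * (1 + (k ^ 2 + w))) := by
  obtain ⟨x, hx⟩ : ∃ x : ℝ, x = k - 0 := ⟨_, rfl⟩
  obtain ⟨z, hz⟩ : ∃ z : ℝ, z = (1/2) - k := ⟨_, rfl⟩
  have hx0 : 0 ≤ x := by rw [hx]; linarith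
  have hz0 : 0 ≤ z := by rw [hz]; linarith
  have key : 11 * (4 * ((1 + (k ^ 2 + w)) * (Ep 5 k 2 / 2) + 3 * (5 + 2) * Dn 5 k * (k ^ 2 + w)) * ((5 - 3) * (k ^ 2 + w) + 5 / 4 / (2 * 5 + 1)) * (1 + k) - (1 - 2 * k) ^ 2 * (4 * (5 + 2) * Dn 5 k) * ((k ^ 2 + w) * (1 + (k ^ 2 + w))) - 100) =
      269634816*x^8*w^2 + 104695776*x^8*w + 6458248*x^8 + 2058684672*x^7*z*w^2
       + 628349280*x^7*z*w + 27117944*x^7*z + 6811132416*x^6*z^2*w^2 + 1581923136*x^6*z^2*w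
       + 42658888*x^6*z^2 + 12752847360*x^5*z^3*w^2 + 2190694080*x^5*z^3*w + 37399160*x^5*z^3
       + 14775763200*x^4*z^4*w^2 + 1842781920*x^4*z^4*w + 27822112*x^4*z^4
       + 10842813696*x^3*z^5*w^2 + 983842656*x^3*z^5*w + 22529024*x^3*z^5
       + 4917952512*x^2*z^6*w^2 + 336276480*x^2*z^6*w + 14932480*x^2*z^6 + 1259360256*x*z^7*w^2
       + 69342336*x*z^7*w + 5797760*x*z^7 + 139223040*z^8*w^2 + 6551040*z^8*w + 908800*z^8 := by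
    rw [hx, hz]; unfold Ep Dn; ring
  have h : 0 ≤
      269634816*x^8*w^2 + 104695776*x^8*w + 6458248*x^8 + 2058684672*x^7*z*w^2
       + 628349280*x^7*z*w + 27117944*x^7*z + 6811132416*x^6*z^2*w^2 + 1581923136*x^6*z^2*w
       + 42658888*x^6*z^2 + 12752847360*x^5*z^3*w^2 + 2190694080*x^5*z^3*w + 37399160*x^5*z^3
       + 14775763200*x^4*z^4*w^2 + 1842781920*x^4*z^4*w + 27822112*x^4*z^4
       + 10842813696*x^3*z^5*w^2 + 983842656*x^3*z^5*w + 22529024*x^3*z^5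
       + 4917952512*x^2*z^6*w^2 + 336276480*x^2*z^6*w + 14932480*x^2*z^6 + 1259360256*x*z^7*w^2
       + 69342336*x*z^7*w + 5797760*x*z^7 + 139223040*z^8*w^2 + 6551040*z^8*w + 908800*z^8 := by positivity
  linarith

/-- `n = 6`, `k ≤ 1/2` -/
lemma c66 {w : ℝ} (hw : 0 ≤ w) {k : ℝ} (h0 : 0 ≤ k) (h1 : k ≤ (1/2)) :
    0 < 4 * ((1 + (k ^ 2 / (31/30) ^ 2 + w)) * (Ep 6 k 2 / 2) + 3 * (6 + 2) * Dn 6 k * (k ^ 2 / (31/30) ^ 2 + w)) * ((6 - 3) * (k ^ 2 / (31/30) ^ 2 + w) + 5 / 4 / (2 * 6 + 1)) * (1 + k) - (1 - 2 * k) ^ 2 * (4 * (6 + 2) * Dn 6 k) * ((k ^ 2 / (31/30) ^ 2 + w) * (1 + (k ^ 2 / (31/30) ^ 2 + w))) := by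
  obtain ⟨x, hx⟩ : ∃ x : ℝ, x = k - 0 := ⟨_, rfl⟩
  obtain ⟨z, hz⟩ : ∃ z : ℝ, z = (1/2) - k := ⟨_, rfl⟩
  have hx0 : 0 ≤ x := by rw [hx]; linarith
  have hz0 : 0 ≤ z := by rw [hz]; linarith
  have key : 12005773 * (4 * ((1 + (k ^ 2 / (31/30) ^ 2 + w)) * (Ep 6 k 2 / 2) + 3 * (6 + 2) * Dn 6 k * (k ^ 2 / (31/30) ^ 2 + w)) * ((6 - 3) * (k ^ 2 / (31/30) ^ 2 + w) + 5 / 4 / (2 * 6 + 1)) * (1 + k) - (1 - 2 * k) ^ 2 * (4 * (6 + 2) * Dn 6 k) * ((k ^ 2 / (31/30) ^ 2 + w) * (1 + (k ^ 2 / (31/30) ^ 2 + w))) - 100) =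
      819784146849408*x^8*w^2 + 375199029246048*x^8*w + 41479806971840*x^8
       + 6203397123935232*x^7*z*w^2 + 2285736322758400*x^7*z*w + 195103713627200*x^7*z
       + 20394311477532928*x^6*z^2*w^2 + 5981484249944768*x^6*z^2*w + 393865020846240*x^6*z^2
       + 38040036267650560*x^5*z^3*w^2 + 8865911009342592*x^5*z^3*w + 463938777957120*x^5*z^3
       + 44017405217485440*x^4*z^4*w^2 + 8270435724470880*x^4*z^4*w + 359695975752800*x^4*z^4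
       + 32344500629928448*x^3*z^5*w^2 + 5082275251902848*x^3*z^5*w + 192211784781440*x^3*z^5
       + 14732144589240832*x^2*z^6*w^2 + 2054958266574720*x^2*z^6*w + 72037171964800*x^2*z^6
       + 3800588992831488*x*z^7*w^2 + 505622102939648*x*z^7*w + 18355755632640*x*z^7
       + 424877583237120*z^8*w^2 + 57467416707072*z^8*w + 2416226462720*z^8 := by
    rw [hx, hz]; unfold Ep Dn; ring
  have h : 0 ≤
      819784146849408*x^8*w^2 + 375199029246048*x^8*w + 41479806971840*x^8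
       + 6203397123935232*x^7*z*w^2 + 2285736322758400*x^7*z*w + 195103713627200*x^7*z
       + 20394311477532928*x^6*z^2*w^2 + 5981484249944768*x^6*z^2*w + 393865020846240*x^6*z^2
       + 38040036267650560*x^5*z^3*w^2 + 8865911009342592*x^5*z^3*w + 463938777957120*x^5*z^3
       + 44017405217485440*x^4*z^4*w^2 + 8270435724470880*x^4*z^4*w + 359695975752800*x^4*z^4
       + 32344500629928448*x^3*z^5*w^2 + 5082275251902848*x^3*z^5*w + 192211784781440*x^3*z^5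
       + 14732144589240832*x^2*z^6*w^2 + 2054958266574720*x^2*z^6*w + 72037171964800*x^2*z^6
       + 3800588992831488*x*z^7*w^2 + 505622102939648*x*z^7*w + 18355755632640*x*z^7
       + 424877583237120*z^8*w^2 + 57467416707072*z^8*w + 2416226462720*z^8 := by positivity
  linarith

/-- numerator of the large `k` inequality, `n ≥ 6` -/
noncomputable def E2 (m k x : ℝ) : ℝ :=
  2 * k * (k ^ 2 + k - 1) * 4 * (m + 2) * (m + 3) ^ 2 * Dn m k -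
    3 * k ^ 2 * 2 * (1 + k) ^ 2 * (m + 3) ^ 2 * Dn m k -
    k ^ 2 * (4 * m + 7) * (6 * m + (2 * m - 1) * k) * (1 + k) ^ 2 * (m + 2) * (m + 3) ^ 2 +
    x * k * (2 * k - 1) * 4 * (1 + k) * (m + 2) * (m + 3) * Dn m k +
    (m - 3) * x ^ 2 * 4 * (1 + k) ^ 2 * (m + 2) * Dn m k

/-- `n ≥ 6`, `k ≥ n/2` -/
lemma c7 {v : ℝ} (hv : 0 ≤ v) {x : ℝ} (hx : 0 ≤ x) :
    0 < E2 (v + 6) ((v + 6) / 2 + x) x := by
  have key : 32 * (E2 (v + 6) ((v + 6) / 2 + x) x) =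
      2*v^10 + 24*v^9*x + 171*v^9 + 136*v^8*x^2 + 1728*v^8*x + 6306*v^8 + 448*v^7*x^3
       + 8164*v^7*x^2 + 53626*v^7*x + 132761*v^7 + 864*v^6*x^4 + 22272*v^6*x^3 + 209100*v^6*x^2
       + 942164*v^6*x + 1770010*v^6 + 896*v^5*x^5 + 34896*v^5*x^4 + 462352*v^5*x^3
       + 2978476*v^5*x^2 + 10314170*v^5*x + 15596110*v^5 + 384*v^4*x^6 + 28160*v^4*x^5
       + 569472*v^4*x^4 + 5171616*v^4*x^3 + 25706780*v^4*x^2 + 72696880*v^4*x + 91570428*v^4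
       + 8640*v^3*x^6 + 341536*v^3*x^5 + 4769520*v^3*x^4 + 33407152*v^3*x^3 + 136731376*v^3*x^2
       + 327569688*v^3*x + 350471448*v^3 + 70848*v^2*x^6 + 1979968*v^2*x^5 + 21340224*v^2*x^4
       + 122984832*v^2*x^3 + 432473136*v^2*x^2 + 897987168*v^2*x + 821381040*v^2 + 251712*v*x^6
       + 5402016*v*x^5 + 47166048*v*x^4 + 232860960*v*x^3 + 726867936*v*x^2 + 1323421632*v*x
       + 1021455360*v + 327360*x^6 + 5381376*x^5 + 37978752*x^4 + 164779776*x^3 + 471994560*x^2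
       + 749606400*x + 454616064 := by
    unfold E2 Dn; ring
  have h : 0 <
      2*v^10 + 24*v^9*x + 171*v^9 + 136*v^8*x^2 + 1728*v^8*x + 6306*v^8 + 448*v^7*x^3
       + 8164*v^7*x^2 + 53626*v^7*x + 132761*v^7 + 864*v^6*x^4 + 22272*v^6*x^3 + 209100*v^6*x^2
       + 942164*v^6*x + 1770010*v^6 + 896*v^5*x^5 + 34896*v^5*x^4 + 462352*v^5*x^3
       + 2978476*v^5*x^2 + 10314170*v^5*x + 15596110*v^5 + 384*v^4*x^6 + 28160*v^4*x^5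
       + 569472*v^4*x^4 + 5171616*v^4*x^3 + 25706780*v^4*x^2 + 72696880*v^4*x + 91570428*v^4
       + 8640*v^3*x^6 + 341536*v^3*x^5 + 4769520*v^3*x^4 + 33407152*v^3*x^3 + 136731376*v^3*x^2
       + 327569688*v^3*x + 350471448*v^3 + 70848*v^2*x^6 + 1979968*v^2*x^5 + 21340224*v^2*x^4
       + 122984832*v^2*x^3 + 432473136*v^2*x^2 + 897987168*v^2*x + 821381040*v^2 + 251712*v*x^6
       + 5402016*v*x^5 + 47166048*v*x^4 + 232860960*v*x^3 + 726867936*v*x^2 + 1323421632*v*x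
       + 1021455360*v + 327360*x^6 + 5381376*x^5 + 37978752*x^4 + 164779776*x^3 + 471994560*x^2
       + 749606400*x + 454616064 := by positivity
  linarith

/-- numerator of the large `k` inequality, `n = 5` -/
noncomputable def E3 (m k x : ℝ) : ℝ :=
  2 * k ^ 3 * 4 * (1 + k) * (m + 2) * (m + 3) ^ 2 * Dn m k -
    3 * k ^ 2 * 2 * (1 + k) * (m + 3) ^ 2 * Dn m k * (k ^ 2 + k + 1) -
    k ^ 2 * (4 * m + 7) * (6 * m + (2 * m - 1) * k) * (1 + k) * (m + 2) * (m + 3) ^ 2 *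
      (k ^ 2 + k + 1) +
    x * k * (2 * k - 1) * 4 * (m + 2) * (m + 3) * Dn m k * (k ^ 2 + k + 1) +
    (m - 3) * x ^ 2 * 4 * (1 + k) * (m + 2) * Dn m k * (k ^ 2 + k + 1)

/-- `n = 5`, `k ≥ 5/2` -/
lemma c75 {x : ℝ} (hx : 0 ≤ x) :
    0 < E3 5 (5 / 2 + x) x := by
  have key : 1 * (E3 5 (5 / 2 + x) x) =
      4320*x^7 + 62208*x^6 + 380304*x^5 + 1474560*x^4 + 4163166*x^3 + 7382340*x^2 + 6189900*x
       + 1477875 := by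
    unfold E3 Dn; ring
  have h : 0 <
      4320*x^7 + 62208*x^6 + 380304*x^5 + 1474560*x^4 + 4163166*x^3 + 7382340*x^2 + 6189900*x
       + 1477875 := by positivity
  linarith

end NegL
end WR
end Crest.Agent.R230
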