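/-
Row 230 (Petty projection), block B4: case II (`0 ≤ λ ≤ 1/4`), `l ≤ 0`, all `n ≥ 5`
(`n = N - 1`), parameters `σ = 3`, `θ = 1`, `Λ = 1/4`.
-/
import Crest.Agent.R230.HmBound
import Crest.Agent.R230.NegLCert

open Real Set

namespace Crest.Agent.R230
namespace WR
namespace NegL

/-- the coefficient of `k²` at `l = 0` -/
noncomputable def DD (m k A : ℝ) : ℝ :=
  A / (1 + k) - 3 / (2 * (m + 2)) - (4 * m + 7) * (6 * m + (2 * m - 1) * k) / (4 * Dn m k)

lemma DD_mono {m k A A' : ℝ} (hk : 0 ≤ k) (h : A ≤ A') : DD m k A ≤ DD m k A' := by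
  unfold DD
  have : A / (1 + k) ≤ A' / (1 + k) := div_le_div_of_nonneg_right h (by linarith)
  linarith

lemma DD_eq {m k S : ℝ} (hm : 1 ≤ m) (hk : 0 ≤ k) (hS : 0 < S) :
    DD m k (2 - 2 / S) = Ep m k S / (4 * S * (1 + k) * (m + 2) * Dn m k) := by
  have h1 := (Dn_pos hm hk).ne'
  have h2 : 1 + k ≠ 0 := by positivity
  have h3 : m + 2 ≠ 0 := by positivity
  unfold DD Ep
  field_simp
  ring

lemma DD_pos_of {m k S A : ℝ} (hm : 1 ≤ m) (hk : 0 ≤ k) (hS : 0 < S) (hA : 2 - 2 / S ≤ A)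
    (hE : 0 < Ep m k S) : 0 < DD m k A := by
  refine lt_of_lt_of_le ?_ (DD_mono hk hA)
  rw [DD_eq hm hk hS]
  have h1 := Dn_pos hm hk
  positivity

/-- lower bounds for `a(s)` -/
lemma aq_ge {s S : ℝ} (hS : 0 < S) (h : S * cc s ^ 2 ≤ 1 + cc s) : 2 - 2 / S ≤ aq s := by
  have h1 : 0 < 1 + cc s := one_add_cc_pos s
  unfold aq
  have : cc s ^ 2 / (1 + cc s) ≤ 1 / S := by
    rw [div_le_div_iff₀ h1 hS]; linarith
  have e1 : 2 * cc s ^ 2 / (1 + cc s) = 2 * (cc s ^ 2 / (1 + cc s)) := by ring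
  have e2 : 2 / S = 2 * (1 / S) := by ring
  rw [e1, e2]; linarith

lemma sq_bound {al k c s : ℝ} (hal : 0 < al) (hk : 0 ≤ k) (hc : 0 < c)
    (hcs : c ^ 2 = 1 - s ^ 2) (h : k * c ≤ al * s) : (k / al * c) ^ 2 + c ^ 2 ≤ 1 := by
  have h1 : k / al * c ≤ s := by
    rw [div_mul_eq_mul_div, div_le_iff₀ hal]; linarith
  have h2 : 0 ≤ k / al * c := by positivity
  have h3 : (k / al * c) ^ 2 ≤ s ^ 2 := pow_le_pow_left₀ h2 h1 2
  linarith

/-- tangent lower bounds for `a` -/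
lemma aq_ge_tan {a b h κ s : ℝ} (ha : 0 ≤ a) (hb : 0 ≤ b) (hh : 0 < h) (hab : a ^ 2 + b ^ 2 = h ^ 2)
    (hκ : 0 ≤ κ) (hc : 0 < cc s) (hw : (κ * cc s) ^ 2 + cc s ^ 2 ≤ 1) :
    2 - 2 / (1 + κ ^ 2 + (a + b * κ) / h) ≤ aq s := by
  refine aq_ge (by positivity) ?_
  have h1 : (a + b * κ) * cc s ≤ h := by
    refine abs_le_of_sq_le_sq' ?_ hh.le |>.2
    nlinarith [sq_nonneg (b * cc s - a * (κ * cc s)), sq_nonneg h]
  have h2 : (a + b * κ) / h * cc s ≤ 1 := by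
    rw [div_mul_eq_mul_div, div_le_one hh]; exact h1
  have h3 : (a + b * κ) / h * cc s ^ 2 ≤ cc s := by nlinarith
  nlinarith

/-- `DD > 0` for `k ≤ n/2` -/
theorem DD_pos {n : ℕ} (hn : 5 ≤ n) {s k : ℝ} (hs : s ∈ Ioo (0 : ℝ) 1) (hk : 0 ≤ k)
    (hkm : k ≤ (n : ℝ) / 2) (h1 : k * cc s ≤ 1)
    (h2 : ∀ al : ℝ, 1 ≤ al → (n : ℝ) ^ 2 ≤ al ^ 2 * (5 * n + 4) → k * cc s ≤ al * s) :
    0 < DD n k (aq s) := by
  have hc := cc_pos' hs
  have hc1 := cc_le_one s
  have hcs := cc_sq' hs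
  rcases le_or_gt 10 n with h10 | h10
  · have hm : (10 : ℝ) ≤ n := by exact_mod_cast h10
    obtain ⟨v, hv⟩ : ∃ v : ℝ, v = (n : ℝ) - 10 := ⟨_, rfl⟩
    have hv0 : 0 ≤ v := by rw [hv]; linarith
    have hvn : (n : ℝ) = v + 10 := by rw [hv]; ring
    rcases le_or_gt k 1 with hk1 | hk1
    · refine DD_pos_of (by linarith) hk (S := 2) (by norm_num) (aq_ge (by norm_num) ?_) ?_
      · nlinarith
      · rw [hvn]; exact c1 hv0 hk hk1
    · have hA : 2 - 2 / (k ^ 2 + k) ≤ aq s := by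
        refine aq_ge (by positivity) ?_
        have e : (k ^ 2 + k) * cc s ^ 2 = (k * cc s) ^ 2 + (k * cc s) * cc s := by ring
        have h3 : 0 ≤ k * cc s := by positivity
        have h4 : (k * cc s) ^ 2 ≤ 1 := pow_le_one₀ h3 h1
        have h5 : (k * cc s) * cc s ≤ 1 * cc s := mul_le_mul_of_nonneg_right h1 hc.le
        rw [e]; linarith
      rcases le_or_gt k 5 with hk5 | hk5
      · refine DD_pos_of (by linarith) hk (S := k ^ 2 + k) (by positivity) hA ?_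
        rw [hvn]; exact c2 hv0 hk1.le hk5
      · refine DD_pos_of (by linarith) hk (S := k ^ 2 + k) (by positivity) hA ?_
        have := c3 (v := (n : ℝ) - 2 * k) (by linarith) (x := k - 5) (by linarith)
        have e1 : 2 * (k - 5 + 5) + ((n : ℝ) - 2 * k) = n := by ring
        have e2 : k - 5 + 5 = k := by ring
        rw [e1, e2] at this
        exact this
  · have h59 : n = 5 ∨ n = 6 ∨ n = 7 ∨ n = 8 ∨ n = 9 := by omega
    rcases h59 with rfl | rfl | rfl | rfl | rfl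
    · have hw := sq_bound (al := 1) (by norm_num) hk hc hcs (h2 1 le_rfl (by norm_num))
      rw [div_one] at hw
      push_cast at hkm
      rcases le_or_gt k (7 / 4) with hk1 | hk1
      · have hA := aq_ge_tan (a := 12) (b := 5) (h := 13) (by norm_num) (by norm_num) (by norm_num)
          (by norm_num) hk hc hw
        exact_mod_cast DD_pos_of (m := 5) (by norm_num) hk (by positivity) hA (c45a hk hk1)
      · have hA := aq_ge_tan (a := 4) (b := 3) (h := 5) (by norm_num) (by norm_num) (by norm_num)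
          (by norm_num) hk hc hw
        exact_mod_cast DD_pos_of (m := 5) (by norm_num) hk (by positivity) hA (c45b hk1.le hkm)
    · have hw := sq_bound (al := 31 / 30) (by norm_num) hk hc hcs
        (h2 (31 / 30) (by norm_num) (by norm_num))
      push_cast at hkm
      have hA := aq_ge_tan (a := 12) (b := 5) (h := 13) (by norm_num) (by norm_num) (by norm_num)
          (by norm_num) (κ := k / (31 / 30)) (by positivity) hc hw
      exact_mod_cast DD_pos_of (m := 6) (by norm_num) hk (by positivity) hA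
        (c46 hk (by linarith))
    · have hw := sq_bound (al := 9 / 8) (by norm_num) hk hc hcs
        (h2 (9 / 8) (by norm_num) (by norm_num))
      push_cast at hkm
      have hA := aq_ge_tan (a := 1) (b := 0) (h := 1) (by norm_num) (by norm_num) (by norm_num)
          (by norm_num) (κ := k / (9 / 8)) (by positivity) hc hw
      exact_mod_cast DD_pos_of (m := 7) (by norm_num) hk (by positivity) hA
        (c47 hk (by linarith))
    · have hw := sq_bound (al := 121 / 100) (by norm_num) hk hc hcs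
        (h2 (121 / 100) (by norm_num) (by norm_num))
      push_cast at hkm
      have hA := aq_ge_tan (a := 1) (b := 0) (h := 1) (by norm_num) (by norm_num) (by norm_num)
          (by norm_num) (κ := k / (121 / 100)) (by positivity) hc hw
      exact_mod_cast DD_pos_of (m := 8) (by norm_num) hk (by positivity) hA
        (c48 hk (by linarith))
    · have hw := sq_bound (al := 9 / 7) (by norm_num) hk hc hcs
        (h2 (9 / 7) (by norm_num) (by norm_num))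
      push_cast at hkm
      have hA := aq_ge_tan (a := 1) (b := 0) (h := 1) (by norm_num) (by norm_num) (by norm_num)
          (by norm_num) (κ := k / (9 / 7)) (by positivity) hc hw
      exact_mod_cast DD_pos_of (m := 9) (by norm_num) hk (by positivity) hA
        (c49 hk (by linarith))

lemma Q_small {n : ℕ} (hn : 1 ≤ n) {s l : ℝ} (hs : s ∈ Ioo (0 : ℝ) 1) (hl : l ≤ 0) (hl1 : -1 ≤ l) :
    5 / 4 / (2 * (n : ℝ) + 1) * (Y s * l ^ 2) ≤ ((n : ℝ) + 7 / 4) * (Y s * Gm n l) + cR s l := by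
  have hY := Y_nonneg hs
  have hn0 : (1 : ℝ) ≤ n := by exact_mod_cast hn
  have h1 : l ^ 2 / (2 * n + 1) ≤ Gm n l := by
    refine le_trans ?_ (Gm_ge hn hl)
    exact div_le_div_of_nonneg_left (sq_nonneg _) (by linarith) (by linarith)
  have h2 := cR_ge₂ hs hl
  have h3 : ((n : ℝ) + 7 / 4) * (Y s * (l ^ 2 / (2 * n + 1))) ≤ ((n : ℝ) + 7 / 4) * (Y s * Gm n l) :=
    mul_le_mul_of_nonneg_left (mul_le_mul_of_nonneg_left h1 hY) (by linarith)
  have h4 : ((n : ℝ) + 7 / 4) * (Y s * (l ^ 2 / (2 * n + 1))) + -(Y s / 2) * l ^ 2 =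
      5 / 4 / (2 * (n : ℝ) + 1) * (Y s * l ^ 2) := by
    field_simp
    ring
  linarith

lemma Q_large {n : ℕ} (hn : 1 ≤ n) {s l : ℝ} (hs : s ∈ Ioo (0 : ℝ) 1) (hl1 : l ≤ -1) :
    Y s * (-l) / 4 ≤ ((n : ℝ) + 7 / 4) * (Y s * Gm n l) + cR s l := by
  have hY := Y_nonneg hs
  have hc := cc_pos' hs
  have hc1 := cc_le_one s
  have hn0 : (1 : ℝ) ≤ n := by exact_mod_cast hn
  have h1 : -l / (2 * n + 1) ≤ Gm n l := by
    refine le_trans ?_ (Gm_ge hn (by linarith))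
    rw [div_le_div_iff₀ (by linarith) (by linarith)]
    have : 0 ≤ (-l) * ((n : ℝ) * (-l - 1)) :=
      mul_nonneg (by linarith) (mul_nonneg (by linarith) (by linarith))
    nlinarith
  have h2 := cR_ge₁ hs (show l ≤ 0 by linarith)
  have h3 : (1 - cc s) / (1 + cc s) ≤ Y s / 4 := by
    rw [Y_eq hs, div_div, div_le_div_iff₀ (one_add_cc_pos s) (by positivity)]
    have e : (1 - cc s ^ 2) * (1 + cc s) - (1 - cc s) * (cc s ^ 2 * 4) =
      (1 - cc s) * (((1 - cc s) * (1 + 3 * cc s))) := by ring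
    have : 0 ≤ (1 - cc s) * (((1 - cc s) * (1 + 3 * cc s))) :=
      mul_nonneg (by linarith) (mul_nonneg (by linarith) (by linarith))
    linarith
  have h4 : -(Y s * (-l) / 4) ≤ l * ((1 - cc s) / (1 + cc s)) := by nlinarith
  have h5 : ((n : ℝ) + 7 / 4) * (Y s * (-l / (2 * n + 1))) ≤ ((n : ℝ) + 7 / 4) * (Y s * Gm n l) :=
    mul_le_mul_of_nonneg_left (mul_le_mul_of_nonneg_left h1 hY) (by linarith)
  have h6 : Y s * (-l) / 2 ≤ ((n : ℝ) + 7 / 4) * (Y s * (-l / (2 * n + 1))) := by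
    have e : ((n : ℝ) + 7 / 4) * (Y s * (-l / (2 * n + 1))) - Y s * (-l) / 2 =
      5 / 4 / (2 * (n : ℝ) + 1) * (Y s * (-l)) := by
      field_simp
      ring
    have : 0 ≤ 5 / 4 / (2 * (n : ℝ) + 1) * (Y s * (-l)) :=
      mul_nonneg (by positivity) (mul_nonneg hY (by linarith))
    linarith
  linarith

/-- the `PP` of the block -/
noncomputable abbrev mu (n : ℕ) : ℝ := ((n : ℝ) + 1 + 3 * (1 / 4)) / ((n : ℝ) - 1)

lemma mu_mul {n : ℕ} (hn : 2 ≤ n) : mu n * ((n : ℝ) - 1) = (n : ℝ) + 7 / 4 := by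
  have : (2 : ℝ) ≤ n := by exact_mod_cast hn
  unfold mu
  rw [div_mul_cancel₀ _ (by linarith)]
  ring

/-- lower bound for `k ≥ 0` -/
lemma PP_ge {n : ℕ} (hn : 2 ≤ n) {s l k : ℝ} (hs : s ∈ Ioo (0 : ℝ) 1) (hl : l ≤ 0) (hk : 0 ≤ k) :
    DD n k (aq s) * k ^ 2 + Y s * (-l) * (k * (2 * k - 1) / (1 + k)) +
      ((n : ℝ) - 3) * (Y s * (-l)) ^ 2 + (((n : ℝ) + 7 / 4) * (Y s * Gm n l) + cR s l) ≤
    PP n (mu n) 3 1 0 0 s l k := by
  have hn2 : (2 : ℝ) ≤ n := by exact_mod_cast hn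
  have hk1 : (0 : ℝ) < 1 + k := by linarith
  have hD : 0 < Dn n k := Dn_pos (by linarith) hk
  have hmu : 0 < mu n := by unfold mu; apply div_pos <;> linarith
  obtain ⟨H, hH⟩ : ∃ H : ℝ, H = ((n : ℝ) - 1) * (6 * n + (2 * n - 1) * k) / Dn n k * k ^ 2 :=
    ⟨_, rfl⟩
  have h1 : hm n k ≤ H := by
    rw [hH]; exact hm_le (by omega) hk
  have hH0 : 0 ≤ H := by
    rw [hH]
    have : 0 ≤ ((n : ℝ) - 1) * (6 * n + (2 * n - 1) * k) :=
      mul_nonneg (by linarith) (by nlinarith)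
    positivity
  have h2 : Real.exp (l / n) * hm n k ≤ H := by
    have e1 : Real.exp (l / n) ≤ 1 :=
      Real.exp_le_one_iff.2 (div_nonpos_of_nonpos_of_nonneg hl (by linarith))
    calc Real.exp (l / n) * hm n k ≤ Real.exp (l / n) * H :=
          mul_le_mul_of_nonneg_left h1 (Real.exp_pos _).le
      _ ≤ 1 * H := mul_le_mul_of_nonneg_right e1 hH0
      _ = H := one_mul _
  have h3 : mu n * (Real.exp (l / n) * hm n k) ≤ mu n * H := mul_le_mul_of_nonneg_left h2 hmu.le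
  have h4 : mu n * H = (4 * (n : ℝ) + 7) * (6 * n + (2 * n - 1) * k) / (4 * Dn n k) * k ^ 2 := by
    have : mu n * H = mu n * ((n : ℝ) - 1) * ((6 * n + (2 * n - 1) * k) / Dn n k * k ^ 2) := by
      rw [hH]; ring
    rw [this, mu_mul hn]
    have := hD.ne'
    field_simp
  have h5 : mu n * (((n : ℝ) - 1) * Y s * Gm n l) = ((n : ℝ) + 7 / 4) * (Y s * Gm n l) := by
    rw [← mu_mul hn]; ring
  have h6 : PP n (mu n) 3 1 0 0 s l k = mu n * (((n : ℝ) - 1) * Y s * Gm n l) -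
      mu n * (Real.exp (l / n) * hm n k) + (aq s - 3 * Y s * l) * KK k +
      Y s * l * k + ((n : ℝ) - 3) * Y s ^ 2 * l ^ 2 + cR s l -
      3 / (2 * ((n : ℝ) + 2)) * k ^ 2 := by
    unfold PP; ring
  have h7 : DD n k (aq s) * k ^ 2 = aq s * KK k - 3 / (2 * ((n : ℝ) + 2)) * k ^ 2 -
      (4 * (n : ℝ) + 7) * (6 * n + (2 * n - 1) * k) / (4 * Dn n k) * k ^ 2 := by
    unfold DD KK; ring
  have h8 : Y s * (-l) * (k * (2 * k - 1) / (1 + k)) = - 3 * Y s * l * KK k + Y s * l * k := by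
    unfold KK; field_simp; ring
  rw [h6, h7, h8, h5]
  nlinarith

lemma gap_bound {k : ℝ} (hk : 0 ≤ k) : -(1 / 8) ≤ k * (2 * k - 1) / (1 + k) := by
  rw [le_div_iff₀ (by linarith)]
  nlinarith [sq_nonneg (4 * k - 1)]

lemma quad {D B G x y : ℝ} (hD : 0 < D) (hx : 0 < x) (h : B ^ 2 < 4 * D * G) :
    0 < D * x ^ 2 - B * x * y + G * y ^ 2 := by
  by_contra hc
  push Not at hc
  rcases eq_or_ne y 0 with rfl | hy
  · have : 0 < D * x ^ 2 := by positivity
    nlinarith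
  · have h1 : 0 < (4 * D * G - B ^ 2) * y ^ 2 := mul_pos (by linarith) (by positivity)
    have h2 := mul_le_mul_of_nonneg_left hc (show 0 ≤ 4 * D by linarith)
    nlinarith [sq_nonneg (2 * D * x - B * y)]

lemma disc_big {n : ℕ} (hn : 7 ≤ n) {k : ℝ} (hk : 0 ≤ k) (hk2 : k ≤ 1 / 2) :
    ((1 - 2 * k) / (1 + k)) ^ 2 < 4 * DD n k 1 * ((n : ℝ) - 3) := by
  have hn7 : (7 : ℝ) ≤ n := by exact_mod_cast hn
  have hD : 0 < Dn n k := Dn_pos (by linarith) hk
  have h := c5 (v := (n : ℝ) - 7) (by linarith) hk hk2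
  have e1 : (n : ℝ) - 7 + 7 = n := by ring
  rw [e1] at h
  have e2 : DD n k 1 = Ep n k 2 / (4 * 2 * (1 + k) * ((n : ℝ) + 2) * Dn n k) := by
    rw [← DD_eq (by linarith) hk (by norm_num : (0 : ℝ) < 2)]; norm_num
  rw [e2, div_pow, mul_div_assoc', div_mul_eq_mul_div, div_lt_div_iff₀ (by positivity)
    (by positivity)]
  have h3 := mul_lt_mul_of_pos_right (sub_pos.1 h) (show 0 < 2 * (1 + k) by positivity)
  nlinarith

lemma disc_small {m k Yv g : ℝ} (hm : 1 ≤ m) (hk : 0 ≤ k) (hY : 0 < Yv)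
    (h : 0 < 4 * ((1 + Yv) * (Ep m k 2 / 2) + 3 * (m + 2) * Dn m k * Yv) * ((m - 3) * Yv + g) *
      (1 + k) - (1 - 2 * k) ^ 2 * (4 * (m + 2) * Dn m k) * (Yv * (1 + Yv))) :
    ((1 - 2 * k) / (1 + k)) ^ 2 * Yv <
      4 * DD m k (1 + 3 / 4 * (Yv / (1 + Yv))) * ((m - 3) * Yv + g) := by
  have hD : 0 < Dn m k := Dn_pos hm hk
  have e2 : DD m k (1 + 3 / 4 * (Yv / (1 + Yv))) =
      ((1 + Yv) * (Ep m k 2 / 2) + 3 * (m + 2) * Dn m k * Yv) /
        (4 * (1 + Yv) * (1 + k) * (m + 2) * Dn m k) := by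
    have e3 : DD m k 1 = Ep m k 2 / (4 * 2 * (1 + k) * (m + 2) * Dn m k) := by
      rw [← DD_eq hm hk (by norm_num : (0 : ℝ) < 2)]; norm_num
    have e4 : DD m k (1 + 3 / 4 * (Yv / (1 + Yv))) = DD m k 1 + 3 / 4 * (Yv / (1 + Yv)) / (1 + k) := by
      unfold DD; ring
    rw [e4, e3]
    have h1 : 1 + Yv ≠ 0 := by positivity
    have h2 : 1 + k ≠ 0 := by positivity
    have h3 : m + 2 ≠ 0 := by positivity
    have h4 := hD.ne'
    field_simp
  rw [e2, div_pow, mul_div_assoc', div_mul_eq_mul_div, div_mul_eq_mul_div,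
    div_lt_div_iff₀ (by positivity) (by positivity)]
  have h3 := mul_lt_mul_of_pos_right (sub_pos.1 h) (show 0 < (1 + k) by positivity)
  nlinarith

lemma aq_ge_Y {s : ℝ} (hs : s ∈ Ioo (0 : ℝ) 1) : 1 + 3 / 4 * (Y s / (1 + Y s)) ≤ aq s := by
  have hc := cc_pos' hs
  have hc1 := cc_le_one s
  have e1 : Y s / (1 + Y s) = 1 - cc s ^ 2 := by
    rw [Y_eq hs]; field_simp; ring
  have e2 : aq s - (1 + 3 / 4 * (1 - cc s ^ 2)) =
      (1 - cc s) ^ 2 * (1 + 3 * cc s) / (4 * (1 + cc s)) := by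
    have := (one_add_cc_pos s).ne'
    unfold aq; field_simp; ring
  have : 0 ≤ (1 - cc s) ^ 2 * (1 + 3 * cc s) / (4 * (1 + cc s)) := by positivity
  rw [e1]; linarith

/-- `0 ≤ k ≤ n/2` -/
theorem caseA {n : ℕ} (hn : 5 ≤ n) {s l k : ℝ} (hs : s ∈ Ioo (0 : ℝ) 1) (hl : l ≤ 0) (hk : 0 < k)
    (hkm : k ≤ (n : ℝ) / 2) (h1 : k * cc s ≤ 1)
    (h2 : ∀ al : ℝ, 1 ≤ al → (n : ℝ) ^ 2 ≤ al ^ 2 * (5 * n + 4) → k * cc s ≤ al * s) :
    0 < PP n (mu n) 3 1 0 0 s l k := by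
  have hn5 : (5 : ℝ) ≤ n := by exact_mod_cast hn
  have hc := cc_pos' hs
  have hc1 := cc_le_one s
  have hcs := cc_sq' hs
  have hY := Y_nonneg hs
  have hDD := DD_pos hn hs hk.le hkm h1 h2
  have hPP := PP_ge (n := n) (by omega) hs hl hk.le
  obtain ⟨z, hz⟩ : ∃ z : ℝ, z = Y s * (-l) := ⟨_, rfl⟩
  have hz0 : 0 ≤ z := by rw [hz]; exact mul_nonneg hY (by linarith)
  rw [← hz] at hPP
  have hk2 : 0 < DD n k (aq s) * k ^ 2 := by positivity
  have hzz : 0 ≤ ((n : ℝ) - 3) * z ^ 2 := mul_nonneg (by linarith) (sq_nonneg _)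
  have hQ : 0 ≤ ((n : ℝ) + 7 / 4) * (Y s * Gm n l) + cR s l := by
    rcases le_or_gt (-1) l with hl1 | hl1
    · refine le_trans ?_ (Q_small (by omega) hs hl hl1)
      positivity
    · refine le_trans ?_ (Q_large (by omega) hs hl1.le)
      rw [← hz]; positivity
  rcases le_or_gt (1 / 2) k with hk' | hk'
  · have : 0 ≤ z * (k * (2 * k - 1) / (1 + k)) :=
      mul_nonneg hz0 (div_nonneg (mul_nonneg hk.le (by linarith)) (by linarith))
    linarith
  rcases le_or_gt l (-1) with hl1 | hl1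
  · have hQ := Q_large (n := n) (by omega) hs hl1
    rw [← hz] at hQ
    have : -(z * (1 / 8)) ≤ z * (k * (2 * k - 1) / (1 + k)) := by
      have := mul_le_mul_of_nonneg_left (gap_bound hk.le) hz0
      linarith
    linarith
  · -- the discriminant
    have hQ := Q_small (n := n) (by omega) hs hl hl1.le
    have hY0 : 0 < Y s := by
      rw [Y_eq hs, hcs]; have := hs.1; have := one_sub_sq_pos hs; 
      apply div_pos _ (by linarith)
      nlinarith
    have hg0 : 0 < 5 / 4 / (2 * (n : ℝ) + 1) := by positivity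
    have key : ((1 - 2 * k) / (1 + k)) ^ 2 * Y s <
        4 * DD n k (aq s) * (((n : ℝ) - 3) * Y s + 5 / 4 / (2 * (n : ℝ) + 1)) := by
      rcases le_or_gt 7 n with h7 | h7
      · have h3 := disc_big h7 hk.le hk'.le
        have h4 : 1 ≤ aq s := by
          have := aq_ge (s := s) (S := 2) (by norm_num) (by nlinarith)
          norm_num at this; exact this
        have h5 := DD_mono (m := n) hk.le h4
        have h6 : 4 * DD n k 1 * ((n : ℝ) - 3) ≤ 4 * DD n k (aq s) * ((n : ℝ) - 3) :=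
          mul_le_mul_of_nonneg_right (by linarith) (by linarith)
        have h8 := mul_lt_mul_of_pos_right (lt_of_lt_of_le h3 h6) hY0
        have h9 : 0 < 4 * DD n k (aq s) * (5 / 4 / (2 * (n : ℝ) + 1)) := by positivity
        nlinarith
      · have h4 := DD_mono (m := n) hk.le (aq_ge_Y hs)
        have h5 : 0 ≤ ((n : ℝ) - 3) * Y s + 5 / 4 / (2 * (n : ℝ) + 1) := by
          have := mul_nonneg (show (0 : ℝ) ≤ (n : ℝ) - 3 by linarith) hY0.le
          linarith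
        refine lt_of_lt_of_le ?_ (mul_le_mul_of_nonneg_right
          (mul_le_mul_of_nonneg_left h4 (by norm_num)) h5)
        refine disc_small (by linarith) hk.le hY0 ?_
        have hYc : Y s * cc s ^ 2 = 1 - cc s ^ 2 := by
          rw [Y_eq hs]; field_simp
        have h56 : n = 5 ∨ n = 6 := by omega
        rcases h56 with rfl | rfl
        · have hw := sq_bound (al := 1) (by norm_num) hk.le hc hcs (h2 1 le_rfl (by norm_num))
          rw [div_one] at hw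
          have hk2 : k ^ 2 ≤ Y s := by
            rw [← mul_le_mul_iff_left₀ (show 0 < cc s ^ 2 by positivity), hYc]
            nlinarith
          have := c65 (w := Y s - k ^ 2) (by linarith) hk.le hk'.le
          have e : k ^ 2 + (Y s - k ^ 2) = Y s := by ring
          rw [e] at this
          exact_mod_cast this
        · have hw := sq_bound (al := 31 / 30) (by norm_num) hk.le hc hcs
            (h2 (31 / 30) (by norm_num) (by norm_num))
          have hk2 : k ^ 2 / (31 / 30) ^ 2 ≤ Y s := by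
            rw [← mul_le_mul_iff_left₀ (show 0 < cc s ^ 2 by positivity), hYc]
            have e : (k / (31 / 30) * cc s) ^ 2 = k ^ 2 / (31 / 30) ^ 2 * cc s ^ 2 := by ring
            linarith
          have := c66 (w := Y s - k ^ 2 / (31 / 30) ^ 2) (by linarith) hk.le hk'.le
          have e : k ^ 2 / (31 / 30) ^ 2 + (Y s - k ^ 2 / (31 / 30) ^ 2) = Y s := by ring
          rw [e] at this
          exact_mod_cast this
    have hq := quad (D := DD n k (aq s)) (B := (1 - 2 * k) / (1 + k) * Y s)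
      (G := Y s * (((n : ℝ) - 3) * Y s + 5 / 4 / (2 * (n : ℝ) + 1))) (x := k) (y := -l) hDD hk
      (by
        have := mul_lt_mul_of_pos_right key hY0
        calc ((1 - 2 * k) / (1 + k) * Y s) ^ 2 = ((1 - 2 * k) / (1 + k)) ^ 2 * Y s * Y s := by ring
          _ < _ := this
          _ = _ := by ring)
    have e : z * (k * (2 * k - 1) / (1 + k)) = -((1 - 2 * k) / (1 + k) * Y s * k * (-l)) := by
      rw [hz]; ring
    have e2 : ((n : ℝ) - 3) * z ^ 2 + 5 / 4 / (2 * (n : ℝ) + 1) * (Y s * l ^ 2) =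
      Y s * (((n : ℝ) - 3) * Y s + 5 / 4 / (2 * (n : ℝ) + 1)) * (-l) ^ 2 := by
      rw [hz]; ring
    linarith

lemma Q_nonneg {n : ℕ} (hn : 1 ≤ n) {s l : ℝ} (hs : s ∈ Ioo (0 : ℝ) 1) (hl : l ≤ 0) :
    0 ≤ ((n : ℝ) + 7 / 4) * (Y s * Gm n l) + cR s l := by
  have hY := Y_nonneg hs
  rcases le_or_gt (-1) l with hl1 | hl1
  · refine le_trans ?_ (Q_small hn hs hl hl1)
    positivity
  · refine le_trans ?_ (Q_large hn hs hl1.le)
    exact div_nonneg (mul_nonneg hY (by linarith)) (by norm_num)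

set_option maxHeartbeats 1000000 in
lemma z_bound {n : ℕ} (hn : 5 ≤ n) {s l k : ℝ} (hs : s ∈ Ioo (0 : ℝ) 1) (hl : l ≤ 0)
    (hkm : (n : ℝ) / 2 ≤ k) (h1 : k * cc s ≤ 1)
    (h3 : (1 + k) * (s * cc s ^ 2) ≤ (1 + ((n : ℝ) + 1) * s ^ 2) * (Real.exp (-l) - s)) :
    (k - (n : ℝ) / 2) / ((n : ℝ) + 3) ≤ Y s * (-l) := by
  have hn5 : (5 : ℝ) ≤ n := by exact_mod_cast hn
  obtain ⟨hs0, hs1⟩ := hs
  have hc := cc_pos' ⟨hs0, hs1⟩
  have hcs := cc_sq' ⟨hs0, hs1⟩
  obtain ⟨x, hx⟩ : ∃ x : ℝ, x = k - (n : ℝ) / 2 := ⟨_, rfl⟩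
  have hx0 : 0 ≤ x := by rw [hx]; linarith
  have hkx : k = x + n / 2 := by rw [hx]; ring
  obtain ⟨L, hL⟩ : ∃ L : ℝ, L = -l := ⟨_, rfl⟩
  have hL0 : 0 ≤ L := by rw [hL]; linarith
  obtain ⟨W, hW⟩ : ∃ W : ℝ, W = 1 + ((n : ℝ) + 1) * s ^ 2 := ⟨_, rfl⟩
  have hW0 : 0 < W := by rw [hW]; positivity
  obtain ⟨c, hcc⟩ : ∃ c : ℝ, c = cc s := ⟨_, rfl⟩
  rw [← hx, ← hL]
  rw [← hL, ← hW, ← hcc] at h3
  rw [← hcc] at h1 hcs hc
  -- `s ≥ 2/n`
  have hk52 : (5 / 2 : ℝ) ≤ k := by linarith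
  have hc2 : c ≤ 2 / 5 := by nlinarith
  have hs2 : 0 ≤ (n : ℝ) * s - 2 := by
    have : (2 / 5 : ℝ) ≤ s := by nlinarith
    nlinarith
  have h4 : W * (1 - s) ≤ ((n : ℝ) + 2) / 2 * (s * c ^ 2) := by
    have e : ((n : ℝ) + 2) / 2 * (s * c ^ 2) - W * (1 - s) =
        (1 - s) * ((1 - s) * ((n : ℝ) * s - 2)) / 2 := by rw [hW, hcs]; ring
    have : 0 ≤ (1 - s) * ((1 - s) * ((n : ℝ) * s - 2)) / 2 := by
      have h1s : 0 ≤ 1 - s := by linarith
      positivity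
    linarith
  obtain ⟨u, hu⟩ : ∃ u : ℝ, u = x * (s * c ^ 2) := ⟨_, rfl⟩
  have hu0 : 0 ≤ u := by rw [hu]; positivity
  have h5 : u ≤ W * (Real.exp L - 1) := by
    rw [hu]; rw [hkx] at h3; nlinarith
  have h6 : 2 * u ≤ L * (2 * W + u) := by
    rcases le_or_gt L 2 with hL2 | hL2
    · have h7 := exp_neg_ge hL0
      have h8 : (2 - L) * Real.exp L ≤ 2 + L := by
        have := mul_le_mul_of_nonneg_right h7 (Real.exp_pos L).le
        rw [mul_assoc (2 + L), ← Real.exp_add, neg_add_cancel, Real.exp_zero] at this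
        linarith
      have h9 := mul_le_mul_of_nonneg_left h5 (show 0 ≤ 2 - L by linarith)
      have h10 := mul_le_mul_of_nonneg_left h8 hW0.le
      nlinarith
    · have h7 : 2 * u ≤ L * u := mul_le_mul_of_nonneg_right hL2.le hu0
      have h8 : 0 ≤ L * (2 * W) := by positivity
      linarith
  have h7 : 2 * s ^ 3 * ((n : ℝ) + 3) ≥ 2 * W + u := by
    have e1 : 0 ≤ (1 - s) ^ 2 * (1 + 2 * s) := by positivity
    have e2 : 0 ≤ ((n : ℝ) + 3) * ((1 - s) ^ 2 * (1 + 2 * s)) := mul_nonneg (by linarith) e1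
    have hkc : c ^ 2 * k ^ 2 ≤ 1 := by
      have : (k * c) ^ 2 ≤ 1 := pow_le_one₀ (by positivity) h1
      nlinarith
    have e3 : c ^ 2 * ((n : ℝ) + 7 + x) ≤ 2 := by
      have : (n : ℝ) + 7 + x ≤ 2 * k ^ 2 := by rw [hkx]; nlinarith
      have := mul_le_mul_of_nonneg_left this (sq_nonneg c)
      linarith
    have e4 : u ≤ x * c ^ 2 := by
      rw [hu]
      have : s * c ^ 2 ≤ 1 * c ^ 2 := mul_le_mul_of_nonneg_right hs1.le (sq_nonneg c)
      have := mul_le_mul_of_nonneg_left this hx0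
      linarith
    rw [hW]
    nlinarith
  have hYz : Y s * c ^ 2 = s ^ 2 := by
    rw [Y_eq ⟨hs0, hs1⟩, ← hcc]; field_simp; linarith
  rw [div_le_iff₀ (by linarith)]
  have hWu : 0 < 2 * W + u := by linarith
  -- multiply by `c² (2W + u)`
  have h8 : 2 * s ^ 3 * x * c ^ 2 ≤ Y s * L * (2 * W + u) * c ^ 2 := by
    have : Y s * L * (2 * W + u) * c ^ 2 = s ^ 2 * (L * (2 * W + u)) := by rw [← hYz]; ring
    rw [this]
    calc 2 * s ^ 3 * x * c ^ 2 = s ^ 2 * (2 * u) := by rw [hu]; ring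
      _ ≤ _ := mul_le_mul_of_nonneg_left h6 (sq_nonneg s)
  have h9 : 2 * s ^ 3 * x ≤ Y s * L * (2 * W + u) := le_of_mul_le_mul_right h8 (by positivity)
  have h10 : x * (2 * W + u) ≤ (2 * s ^ 3 * ((n : ℝ) + 3)) * x := by
    rw [mul_comm x]; exact mul_le_mul_of_nonneg_right h7 hx0
  have h11 : x * (2 * W + u) ≤ Y s * L * ((n : ℝ) + 3) * (2 * W + u) := by
    have h12 := mul_le_mul_of_nonneg_left h9 (show 0 ≤ (n : ℝ) + 3 by linarith)
    calc x * (2 * W + u) ≤ (2 * s ^ 3 * ((n : ℝ) + 3)) * x := h10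
      _ = ((n : ℝ) + 3) * (2 * s ^ 3 * x) := by ring
      _ ≤ ((n : ℝ) + 3) * (Y s * L * (2 * W + u)) := h12
      _ = _ := by ring
  exact le_of_mul_le_mul_right h11 hWu

/-- `n/2 ≤ k` -/
theorem caseB {n : ℕ} (hn : 5 ≤ n) {s l k : ℝ} (hs : s ∈ Ioo (0 : ℝ) 1) (hl : l ≤ 0)
    (hkm : (n : ℝ) / 2 ≤ k) (h1 : k * cc s ≤ 1)
    (h2 : ∀ al : ℝ, 1 ≤ al → (n : ℝ) ^ 2 ≤ al ^ 2 * (5 * n + 4) → k * cc s ≤ al * s)
    (h3 : (1 + k) * (s * cc s ^ 2) ≤ (1 + ((n : ℝ) + 1) * s ^ 2) * (Real.exp (-l) - s)) :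
    0 < PP n (mu n) 3 1 0 0 s l k := by
  have hn5 : (5 : ℝ) ≤ n := by exact_mod_cast hn
  have hc := cc_pos' hs
  have hcs := cc_sq' hs
  have hk : 0 < k := by linarith
  have hPP := PP_ge (n := n) (by omega) hs hl hk.le
  have hQ := Q_nonneg (n := n) (by omega) hs hl
  have hz := z_bound hn hs hl hkm h1 h3
  obtain ⟨z, hz'⟩ : ∃ z : ℝ, z = Y s * (-l) := ⟨_, rfl⟩
  rw [← hz'] at hPP hz
  obtain ⟨x, hx⟩ : ∃ x : ℝ, x = k - (n : ℝ) / 2 := ⟨_, rfl⟩
  have hx0 : 0 ≤ x := by rw [hx]; linarith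
  rw [← hx] at hz
  have hy0 : 0 ≤ x / ((n : ℝ) + 3) := by positivity
  have hpsi : 0 ≤ k * (2 * k - 1) / (1 + k) :=
    div_nonneg (mul_nonneg hk.le (by linarith)) (by linarith)
  have h4 : x / ((n : ℝ) + 3) * (k * (2 * k - 1) / (1 + k)) ≤ z * (k * (2 * k - 1) / (1 + k)) :=
    mul_le_mul_of_nonneg_right hz hpsi
  have h5 : ((n : ℝ) - 3) * (x / ((n : ℝ) + 3)) ^ 2 ≤ ((n : ℝ) - 3) * z ^ 2 :=
    mul_le_mul_of_nonneg_left (pow_le_pow_left₀ hy0 hz 2) (by linarith)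
  have hD : 0 < Dn n k := Dn_pos (by linarith) hk.le
  suffices h : 0 < DD n k (aq s) * k ^ 2 + x / ((n : ℝ) + 3) * (k * (2 * k - 1) / (1 + k)) +
      ((n : ℝ) - 3) * (x / ((n : ℝ) + 3)) ^ 2 by linarith
  rcases Nat.lt_or_ge 5 n with h6 | h6
  · have hn6 : (6 : ℝ) ≤ n := by exact_mod_cast h6
    have hA : 2 - 2 / (k ^ 2 + k) ≤ aq s := by
      refine aq_ge (by positivity) ?_
      have e : (k ^ 2 + k) * cc s ^ 2 = (k * cc s) ^ 2 + (k * cc s) * cc s := by ring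
      have h3 : 0 ≤ k * cc s := by positivity
      have h4 : (k * cc s) ^ 2 ≤ 1 := pow_le_one₀ h3 h1
      have h5 : (k * cc s) * cc s ≤ 1 * cc s := mul_le_mul_of_nonneg_right h1 hc.le
      rw [e]; linarith
    have h7 := mul_le_mul_of_nonneg_right (DD_mono (m := n) hk.le hA) (sq_nonneg k)
    have h8 := c7 (v := (n : ℝ) - 6) (by linarith) (x := x) hx0
    have e1 : (n : ℝ) - 6 + 6 = n := by ring
    have e2 : (n : ℝ) / 2 + x = k := by rw [hx]; ring
    rw [e1, e2] at h8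
    have h9 : DD n k (2 - 2 / (k ^ 2 + k)) * k ^ 2 +
        x / ((n : ℝ) + 3) * (k * (2 * k - 1) / (1 + k)) +
        ((n : ℝ) - 3) * (x / ((n : ℝ) + 3)) ^ 2 =
        E2 n k x / (4 * (1 + k) ^ 2 * ((n : ℝ) + 2) * ((n : ℝ) + 3) ^ 2 * Dn n k) := by
      unfold DD E2
      have q1 : k ≠ 0 := hk.ne'
      have q2 : 1 + k ≠ 0 := by positivity
      have q3 : k ^ 2 + k ≠ 0 := by positivity
      have q4 := hD.ne'
      have q5 : (n : ℝ) + 2 ≠ 0 := by positivity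
      have q6 : (n : ℝ) + 3 ≠ 0 := by positivity
      have q7 : k + 1 ≠ 0 := by positivity
      have e3 : k ^ 2 + k = k * (1 + k) := by ring
      rw [e3]
      field_simp
      ring
    have h10 : 0 < E2 n k x / (4 * (1 + k) ^ 2 * ((n : ℝ) + 2) * ((n : ℝ) + 3) ^ 2 * Dn n k) := by
      positivity
    linarith
  · obtain rfl : n = 5 := by omega
    have hw := sq_bound (al := 1) (by norm_num) hk.le hc hcs (h2 1 le_rfl (by norm_num))
    rw [div_one] at hw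
    have hA : 2 - 2 / (k ^ 2 + k + 1) ≤ aq s := by
      refine aq_ge (by positivity) ?_
      have e : (k ^ 2 + k + 1) * cc s ^ 2 = (k * cc s) ^ 2 + cc s ^ 2 + (k * cc s) * cc s := by ring
      have h5 : (k * cc s) * cc s ≤ 1 * cc s := mul_le_mul_of_nonneg_right h1 hc.le
      rw [e]; linarith
    push_cast at *
    have h7 := mul_le_mul_of_nonneg_right (DD_mono (m := 5) hk.le hA) (sq_nonneg k)
    have h8 := c75 (x := x) hx0
    have e2 : (5 : ℝ) / 2 + x = k := by rw [hx]; ring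
    rw [e2] at h8
    have h9 : DD 5 k (2 - 2 / (k ^ 2 + k + 1)) * k ^ 2 +
        x / ((5 : ℝ) + 3) * (k * (2 * k - 1) / (1 + k)) +
        ((5 : ℝ) - 3) * (x / ((5 : ℝ) + 3)) ^ 2 =
        E3 5 k x / (4 * (1 + k) * ((5 : ℝ) + 2) * ((5 : ℝ) + 3) ^ 2 * Dn 5 k * (k ^ 2 + k + 1)) := by
      unfold DD E3
      have q1 : k ≠ 0 := hk.ne'
      have q2 : 1 + k ≠ 0 := by positivity
      have q3 : k ^ 2 + k + 1 ≠ 0 := by positivity
      have q4 := hD.ne'
      field_simp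
      ring
    have h10 : 0 < E3 5 k x / (4 * (1 + k) * ((5 : ℝ) + 2) * ((5 : ℝ) + 3) ^ 2 * Dn 5 k *
        (k ^ 2 + k + 1)) := by
      positivity
    linarith

/-- `k ≤ 0` -/
theorem caseC {n : ℕ} (hn : 5 ≤ n) {s l k : ℝ} (hs : s ∈ Ioo (0 : ℝ) 1) (hl : l ≤ 0)
    (hk : 0 < 1 + k) (hk0 : k ≤ 0) :
    ((n : ℝ) - 3) * (Y s * l) ^ 2 ≤ PP n (mu n) 3 1 0 0 s l k := by
  have hn5 : (5 : ℝ) ≤ n := by exact_mod_cast hn
  have hc := cc_pos' hs
  have hc1 := cc_le_one s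
  have hY := Y_nonneg hs
  have hQ := Q_nonneg (n := n) (by omega) hs hl
  have hmu : 0 < mu n := by unfold mu; apply div_pos <;> linarith
  have hK : 0 ≤ KK k := by unfold KK; positivity
  have h1 := hm_le_neg (n := n) (by omega) hk hk0
  have h2 : Real.exp (l / n) * hm n k ≤ ((n : ℝ) - 1) / (2 * n) * KK k := by
    have e1 : Real.exp (l / n) ≤ 1 :=
      Real.exp_le_one_iff.2 (div_nonpos_of_nonpos_of_nonneg hl (by linarith))
    have e2 : 0 ≤ ((n : ℝ) - 1) / (2 * n) * KK k :=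
      mul_nonneg (div_nonneg (by linarith) (by linarith)) hK
    calc Real.exp (l / n) * hm n k ≤ Real.exp (l / n) * (((n : ℝ) - 1) / (2 * n) * KK k) :=
          mul_le_mul_of_nonneg_left h1 (Real.exp_pos _).le
      _ ≤ 1 * (((n : ℝ) - 1) / (2 * n) * KK k) := mul_le_mul_of_nonneg_right e1 e2
      _ = _ := one_mul _
  have h3 : mu n * (Real.exp (l / n) * hm n k) ≤ mu n * (((n : ℝ) - 1) / (2 * n) * KK k) :=
    mul_le_mul_of_nonneg_left h2 hmu.le
  have h4 : mu n * (((n : ℝ) - 1) / (2 * n) * KK k) = ((n : ℝ) + 7 / 4) / (2 * n) * KK k := by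
    rw [← mu_mul (show 2 ≤ n by omega)]; ring
  have h5 : mu n * (((n : ℝ) - 1) * Y s * Gm n l) = ((n : ℝ) + 7 / 4) * (Y s * Gm n l) := by
    rw [← mu_mul (show 2 ≤ n by omega)]; ring
  have h6 : PP n (mu n) 3 1 0 0 s l k = mu n * (((n : ℝ) - 1) * Y s * Gm n l) -
      mu n * (Real.exp (l / n) * hm n k) + (aq s - 3 * Y s * l) * KK k +
      Y s * l * k + ((n : ℝ) - 3) * Y s ^ 2 * l ^ 2 + cR s l -
      3 / (2 * ((n : ℝ) + 2)) * k ^ 2 := by
    unfold PP; ring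
  have h7 : k ^ 2 ≤ KK k := by
    unfold KK; rw [le_div_iff₀ hk]; nlinarith [sq_nonneg k]
  have h8 : 1 ≤ aq s := by
    have := aq_ge (s := s) (S := 2) (by norm_num) (by nlinarith)
    norm_num at this; exact this
  have h9 : 0 ≤ - 3 * Y s * l * KK k := by
    have := mul_nonneg (mul_nonneg hY (show 0 ≤ -l by linarith)) hK
    nlinarith
  have h10 : 0 ≤ Y s * l * k := by
    have := mul_nonneg hY (mul_nonneg (show 0 ≤ -l by linarith) (show 0 ≤ -k by linarith))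
    nlinarith
  have h11 : 3 / (2 * ((n : ℝ) + 2)) * k ^ 2 ≤ 3 / 14 * KK k := by
    have e1 : 3 / (2 * ((n : ℝ) + 2)) ≤ 3 / 14 :=
      div_le_div_of_nonneg_left (by norm_num) (by norm_num) (by linarith)
    calc 3 / (2 * ((n : ℝ) + 2)) * k ^ 2 ≤ 3 / (2 * ((n : ℝ) + 2)) * KK k :=
          mul_le_mul_of_nonneg_left h7 (by positivity)
      _ ≤ _ := mul_le_mul_of_nonneg_right e1 hK
  have h12 : ((n : ℝ) + 7 / 4) / (2 * n) * KK k ≤ 27 / 40 * KK k := by
    refine mul_le_mul_of_nonneg_right ?_ hK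
    rw [div_le_div_iff₀ (by linarith) (by norm_num)]
    linarith
  have h13 : KK k ≤ aq s * KK k := by nlinarith
  rw [h6, h5]
  nlinarith

end NegL

/-- **Block B4** : case II, `l ≤ 0`, all `n ≥ 5` (`n = N-1`), with `σ = 3`, `θ = 1`, `Λ = 1/4`. -/
theorem caseII_neg {n : ℕ} (hn : 5 ≤ n) {s l k : ℝ} (hs : s ∈ Ioo (0 : ℝ) 1) (hl : l ≤ 0)
    (hk : 0 < 1 + k) (h1 : (1 + k) * cc s ≤ 1 + cc s)
    (h2 : ∀ al : ℝ, 1 ≤ al → (n : ℝ) ^ 2 ≤ al ^ 2 * (5 * n + 4) → (1 + k) * cc s ≤ cc s + al * s)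
    (h3 : (1 + k) * (s * cc s ^ 2) ≤ (1 + ((n : ℝ) + 1) * s ^ 2) * (Real.exp (-l) - s)) :
    0 ≤ PP n (((n : ℝ) + 1 + 3 * (1 / 4)) / ((n : ℝ) - 1)) 3 1 0 0 s l k ∧
      (PP n (((n : ℝ) + 1 + 3 * (1 / 4)) / ((n : ℝ) - 1)) 3 1 0 0 s l k = 0 → l = 0) := by
  have hn5 : (5 : ℝ) ≤ n := by exact_mod_cast hn
  rcases le_or_gt k 0 with hk0 | hk0
  · have h := NegL.caseC hn hs hl hk hk0
    have h4 : 0 ≤ ((n : ℝ) - 3) * (Y s * l) ^ 2 := mul_nonneg (by linarith) (sq_nonneg _)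
    refine ⟨h4.trans h, fun h5 => ?_⟩
    have h5 : ((n : ℝ) - 3) * (Y s * l) ^ 2 ≤ 0 := h.trans h5.le
    have hY0 : 0 < Y s := by
      rw [Y_eq hs, cc_sq' hs]
      have := hs.1
      have := one_sub_sq_pos hs
      apply div_pos _ (by linarith)
      nlinarith
    by_contra hl0
    have h6 : 0 < (Y s * l) ^ 2 := by
      have : Y s * l ≠ 0 := mul_ne_zero hY0.ne' hl0
      positivity
    have h7 : 0 < ((n : ℝ) - 3) * (Y s * l) ^ 2 := mul_pos (by linarith) h6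
    linarith
  · have h1' : k * cc s ≤ 1 := by linarith
    have h2' : ∀ al : ℝ, 1 ≤ al → (n : ℝ) ^ 2 ≤ al ^ 2 * (5 * n + 4) → k * cc s ≤ al * s :=
      fun al h4 h5 => by have := h2 al h4 h5; linarith
    have h : 0 < PP n (((n : ℝ) + 1 + 3 * (1 / 4)) / ((n : ℝ) - 1)) 3 1 0 0 s l k := by
      rcases le_or_gt k ((n : ℝ) / 2) with hk1 | hk1
      · exact NegL.caseA hn hs hl hk0 hk1 h1' h2'
      · exact NegL.caseB hn hs hl hk1.le h1' h2' h3
    exact ⟨h.le, fun h5 => absurd h5 h.ne'⟩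

end WR
end Crest.Agent.R230
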