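import Crest.Agent.R230.XlogWR
import Crest.Agent.R230.OneDAll

/-!
# Row 230: `RawBound n` from legality
-/

set_option autoImplicit false

open MeasureTheory Set Filter Topology

namespace Crest.Agent.R230

/-- `RawBound n` from the legality inequality in closed form -/
theorem rawBound_of_legal {n : ℕ} (hn : 3 ≤ n)
    (h : ∀ r : ℝ → ℝ, Prof r → NleB n r → ∀ s ∈ Ioo (0 : ℝ) 1, WR.Legal n r s) : RawBound n := by
  intro r hr hN
  rw [WR.int_rawL_eq hr]
  exact UX_ge_half_id hn hr fun s hs => (h r hr hN s hs).adm hs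

/-- `RawBound n` from `xA ≤ xB` -/
theorem rawBound_of_adm {n : ℕ} (hn : 3 ≤ n)
    (h : ∀ r : ℝ → ℝ, Prof r → NleB n r → ∀ s ∈ Ioo (0 : ℝ) 1,
      xA (1 / cc s) (Real.log (tau n r s / s)) ≤ xB (tau n r s) (1 / cc s) (Real.log (tau n r s / s))) :
    RawBound n := by
  intro r hr hN
  rw [WR.int_rawL_eq hr]
  exact UX_ge_half_id hn hr (h r hr hN)

end Crest.Agent.R230
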