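import Crest.Agent.R230.CaseIProf
import Crest.Agent.R230.NegL
import Crest.Agent.R230.LamBound
import Crest.Agent.R230.LegalF
import Crest.Agent.R230.LegalD
import Crest.Agent.R230.Apriori3
import Crest.Agent.R230.XlogRB

/-!
# Row 230: assembly of `OneD n` for `5 ≤ n ≤ 22` (all XLOG lines legal)
-/

set_option autoImplicit false

open MeasureTheory Set Filter Topology
open scoped Pointwise ENNReal

namespace Crest.Agent.R230

open WR

variable {n : ℕ} {r : ℝ → ℝ}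

/-- `κ c ≤ c + α s` -/
theorem kk_le_cone' (hr : Prof r) {α : ℝ} (hα : 1 ≤ α) (hαn : (n : ℝ) ^ 2 ≤ α ^ 2 * (5 * n + 4))
    {s : ℝ} (hs : s ∈ Ioo (0 : ℝ) 1) : (1 + kk n r s) * cc s ≤ cc s + α * s := by
  have hT := tau_pos hr n (s := s) ⟨hs.1, hs.2.le⟩
  have h := kappa_le' hr n hα hαn hs
  have hcc : Real.sqrt (1 - s ^ 2) = cc s := rfl
  rw [hcc] at h
  have e : (1 + kk n r s) * cc s = s * dtau n r s * cc s / tau n r s := by
    unfold kk
    field_simp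
    ring
  rw [e, div_le_iff₀ hT]
  exact h

/-- case II, `l ≤ 0`, for a profile -/
theorem caseII_neg_prof (hn : 5 ≤ n) (hr : Prof r) {s : ℝ} (hs : s ∈ Ioo (0 : ℝ) 1)
    (hl : ll n r s ≤ 0) :
    0 ≤ PP n (((n : ℝ) + 1 + 3 * (1 / 4)) / ((n : ℝ) - 1)) 3 1 0 0 s (ll n r s) (kk n r s) ∧
      (PP n (((n : ℝ) + 1 + 3 * (1 / 4)) / ((n : ℝ) - 1)) 3 1 0 0 s (ll n r s) (kk n r s) = 0 →
        ll n r s = 0) :=
  caseII_neg hn hs hl (kk_pos hr hs) (kk_le_cone hr hs)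
    (fun _ h1 h2 => kk_le_cone' hr h1 h2 hs) (kk_hazard hr hs)

/-- the missing block: case II at `l > 0` -/
def PosBlock (n : ℕ) : Prop := ∀ r : ℝ → ℝ, Prof r → NleB n r → ∀ s ∈ Ioo (0 : ℝ) 1, 0 < ll n r s →
  0 < PP n (((n : ℝ) + 1 + 3 * (1 / 4)) / ((n : ℝ) - 1)) 3 1 0 0 s (ll n r s) (kk n r s)

/-- case I for `5 ≤ n ≤ 22` -/
theorem concl_neg_small (h5 : 5 ≤ n) (h22 : n ≤ 22) (hr : Prof r) (hN : NleB n r)
    (hlam : lam n r ≤ 0) : Concl n r := by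
  refine concl_caseI_legal h5 hr hN (legal_all h5 h22 hr hN) ?_ hlam
  have h := LamB.lam_ge hr h5
  have e : -((n : ℝ) + 1) / (9 / 2) = -(2 * ((n : ℝ) + 1) / 9) := by ring
  rw [e]
  exact h

theorem rawBound_small (h5 : 5 ≤ n) (h22 : n ≤ 22) : RawBound n :=
  rawBound_of_legal (by omega) fun _ hr hN => legal_all h5 h22 hr hN

/-- `OneD n`, `5 ≤ n ≤ 22`, from the block `PosBlock n` -/
theorem oneD_small (h5 : 5 ≤ n) (h22 : n ≤ 22) (hB : PosBlock n) : OneD n := by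
  refine oneD_of_concl (by omega) fun r hr hN => ?_
  rcases le_total (lam n r) 0 with hlam | hlam
  · exact concl_neg_small h5 h22 hr hN hlam
  · refine concl_caseII h5 (rawBound_small h5 h22) hr hN (σ := 3) (θ := 1) (Λ := 1 / 4)
      (by norm_num) (by norm_num) (LamB.lam_le_quarter hr h5 hN) hlam fun s hs => ?_
    rcases le_or_gt (ll n r s) 0 with hl | hl
    · exact caseII_neg_prof h5 hr hs hl
    · have h := hB r hr hN s hs hl
      exact ⟨h.le, fun h0 => absurd h0 h.ne'⟩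

/-- `OneD n`, `5 ≤ n ≤ 22`, from the weighted certificate `PQ n μ 0 β θ` -/
theorem oneD_small_w (h5 : 5 ≤ n) (h22 : n ≤ 22) {β θ μ : ℝ} (hβ : 0 ≤ β) (hμ0 : 0 ≤ μ)
    (hμ : (n : ℝ) + 1 + 2 * ((n : ℝ) - 3) * β * (1 / 4) ≤ μ * ((n : ℝ) - 1))
    (hII : ∀ r : ℝ → ℝ, Prof r → NleB n r → ∀ s ∈ Ioo (0 : ℝ) 1,
      0 ≤ PQ n μ 0 β θ 0 0 s (ll n r s) (kk n r s) ∧
      (PQ n μ 0 β θ 0 0 s (ll n r s) (kk n r s) = 0 → ll n r s = 0)) : OneD n := by
  refine oneD_of_concl (by omega) fun r hr hN => ?_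
  rcases le_total (lam n r) 0 with hlam | hlam
  · exact concl_neg_small h5 h22 hr hN hlam
  · exact concl_caseII_w h5 (rawBound_small h5 h22) hr hN hβ (LamB.lam_le_quarter hr h5 hN) hlam hμ0 hμ
      fun s hs => hII r hr hN s hs

end Crest.Agent.R230
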