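import Crest.Agent.R230.OneDAll

/-!
# Row 230: case lemmas with an additional gauge `g(l)` (`C¹`)

The extra density is `gz n g g' s l k = -(3 Y g(l) - (n-3) Y² g(l) + Y g'(l) k)` (null Lagrangian).
-/

set_option autoImplicit false

open MeasureTheory Set Filter Topology
open scoped Pointwise ENNReal

namespace Crest.Agent.R230

open WR

/-- additional gauge density -/
noncomputable def WR.gz (n : ℕ) (g g' : ℝ → ℝ) (s l k : ℝ) : ℝ :=
  -(3 * (Y s * g l) - ((n : ℝ) - 3) * (Y s ^ 2 * g l) + Y s * (g' l * k))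

variable {n : ℕ} {r : ℝ → ℝ}

lemma WR.NI_gz (hn : 5 ≤ n) (hr : Prof r) {g g' : ℝ → ℝ} (hg' : ∀ x, HasDerivAt g (g' x) x)
    (hgc : Continuous g') : NI n (fun s => gz n g g' s (ll n r s) (kk n r s)) ∧
      JJ n (fun s => gz n g g' s (ll n r s) (kk n r s)) = 0 := by
  have hl := continuousOn_ll hr n
  have hgcont : Continuous g := continuous_iff_continuousAt.2 fun x => (hg' x).continuousAt
  have hgl : ContinuousOn (fun s => g (ll n r s)) (Icc 0 1) := hgcont.comp_continuousOn hl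
  have hgl' : ContinuousOn (fun s => g' (ll n r s)) (Icc 0 1) := hgc.comp_continuousOn hl
  have nT : NI n (fun s => 3 * (Y s * g (ll n r s)) - ((n : ℝ) - 3) * (Y s ^ 2 * g (ll n r s)) +
      Y s * (g' (ll n r s) * kk n r s)) :=
    (((NI_Y (by omega) hgl).smul 3).sub ((NI_Y2 hn hgl).smul _)).add (NI_Ykk hr (by omega) hgl')
  have hT := null_Y hr hn hg' hgc
  have e : (fun s => gz n g g' s (ll n r s) (kk n r s)) = fun s => (-1 : ℝ) *
      (3 * (Y s * g (ll n r s)) - ((n : ℝ) - 3) * (Y s ^ 2 * g (ll n r s)) +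
      Y s * (g' (ll n r s) * kk n r s)) := by
    funext s; unfold gz; ring
  rw [e]
  exact ⟨nT.smul _, by rw [JJ_smul, hT, mul_zero]⟩

/-- case I with a gauge -/
theorem concl_caseI_g (hn : 5 ≤ n) (hU : RawBound n) (hr : Prof r) (hN : NleB n r) {σ θ : ℝ} (hσ : 0 < σ)
    (hlamL : -((n : ℝ) + 1) / σ ≤ lam n r) (hlam : lam n r ≤ 0)
    {g g' : ℝ → ℝ} (hg' : ∀ x, HasDerivAt g (g' x) x) (hgc : Continuous g')
    (hI : ∀ s ∈ Ioo (0 : ℝ) 1,
      0 ≤ PP n 0 σ θ 0 0 s (ll n r s) (kk n r s) + gz n g g' s (ll n r s) (kk n r s) ∧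
      (PP n 0 σ θ 0 0 s (ll n r s) (kk n r s) + gz n g g' s (ll n r s) (kk n r s) = 0 →
        ll n r s = 0)) : Concl n r := by
  have hU1 := hU r hr hN
  obtain ⟨n0, j0⟩ := NI_gz hn hr hg' hgc
  rw [div_le_iff₀ hσ] at hlamL
  refine master hr hn hN (μ := 0) (σ := σ) (θ := θ) (ξ := 0) le_rfl hσ.le ?_ n0
    (U := UX n r) (by rw [j0, add_zero]; exact hU1) ?_ ?_
  · have : 0 ≤ (-(lam n r)) * (((n : ℝ) + 1) + σ * lam n r) :=
      mul_nonneg (by linarith) (by linarith)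
    linarith
  · intro s hs
    rw [PP_lm]
    exact (hI s hs).1
  · intro s hs h
    rw [PP_lm] at h
    exact (hI s hs).2 h

/-- case II with a gauge -/
theorem concl_caseII_g (hn : 5 ≤ n) (hU : RawBound n) (hr : Prof r) (hN : NleB n r) {σ θ Λ : ℝ}
    (hσ : 0 ≤ σ) (hΛ : 0 ≤ Λ) (hlamU : lam n r ≤ Λ) (hlam : 0 ≤ lam n r)
    {g g' : ℝ → ℝ} (hg' : ∀ x, HasDerivAt g (g' x) x) (hgc : Continuous g')
    (hII : ∀ s ∈ Ioo (0 : ℝ) 1,
      0 ≤ PP n (((n : ℝ) + 1 + σ * Λ) / ((n : ℝ) - 1)) σ θ 0 0 s (ll n r s) (kk n r s) +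
        gz n g g' s (ll n r s) (kk n r s) ∧
      (PP n (((n : ℝ) + 1 + σ * Λ) / ((n : ℝ) - 1)) σ θ 0 0 s (ll n r s) (kk n r s) +
        gz n g g' s (ll n r s) (kk n r s) = 0 → ll n r s = 0)) : Concl n r := by
  have hn1 : (0 : ℝ) < (n : ℝ) - 1 := by
    have : (5 : ℝ) ≤ n := by exact_mod_cast hn
    linarith
  have hU1 := hU r hr hN
  obtain ⟨n0, j0⟩ := NI_gz hn hr hg' hgc
  have hμ : (((n : ℝ) + 1 + σ * Λ) / ((n : ℝ) - 1)) * ((n : ℝ) - 1) = (n : ℝ) + 1 + σ * Λ :=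
    div_mul_cancel₀ _ hn1.ne'
  refine master hr hn hN (μ := ((n : ℝ) + 1 + σ * Λ) / ((n : ℝ) - 1)) (σ := σ) (θ := θ) (ξ := 0)
    (div_nonneg (by positivity) hn1.le) hσ ?_ n0
    (U := UX n r) (by rw [j0, add_zero]; exact hU1) ?_ ?_
  · rw [hμ]
    have : 0 ≤ σ * (Λ - lam n r) * lam n r :=
      mul_nonneg (mul_nonneg hσ (by linarith)) hlam
    linarith
  · intro s hs
    rw [PP_lm]
    exact (hII s hs).1
  · intro s hs h
    rw [PP_lm] at h
    exact (hII s hs).2 h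

/-- the one-sided cubic gauge `γ (l⁺)³` -/
noncomputable def WR.cub (γ x : ℝ) : ℝ := γ * max x 0 ^ 3

noncomputable def WR.cub' (γ x : ℝ) : ℝ := γ * (3 * max x 0 ^ 2)

lemma WR.hasDerivAt_cub (γ x : ℝ) : HasDerivAt (cub γ) (cub' γ x) x := by
  unfold cub cub'
  refine HasDerivAt.const_mul γ ?_
  rcases lt_trichotomy x 0 with h | h | h
  · have h1 : (fun y : ℝ => max y 0 ^ 3) =ᶠ[𝓝 x] fun _ => 0 := by
      filter_upwards [Iio_mem_nhds h] with y hy
      rw [max_eq_right (le_of_lt hy)]; norm_num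
    rw [max_eq_right h.le]
    simpa using (hasDerivAt_const x (0 : ℝ)).congr_of_eventuallyEq h1
  · subst h
    rw [max_self]
    have h1 : HasDerivAt (fun y : ℝ => max y 0 ^ 3) 0 0 := by
      rw [hasDerivAt_iff_isLittleO_nhds_zero]
      simp only [zero_add, max_self, smul_zero, sub_zero]
      norm_num
      rw [Asymptotics.isLittleO_iff]
      intro c hc
      filter_upwards [Metric.ball_mem_nhds (0 : ℝ) (lt_min hc one_pos)] with y hy
      rw [Metric.mem_ball, dist_zero_right, Real.norm_eq_abs, lt_min_iff] at hy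
      have h2 : 0 ≤ max y 0 := le_max_right _ _
      have h3 : max y 0 ≤ |y| := max_le (le_abs_self y) (abs_nonneg y)
      rw [Real.norm_eq_abs, Real.norm_eq_abs, abs_of_nonneg (by positivity)]
      have h4 : max y 0 ^ 3 ≤ |y| ^ 3 := pow_le_pow_left₀ h2 h3 3
      have h5 : |y| ^ 2 ≤ c := by nlinarith [abs_nonneg y, hy.1, hy.2]
      calc max y 0 ^ 3 ≤ |y| ^ 2 * |y| := by rw [← pow_succ]; exact h4
        _ ≤ c * |y| := mul_le_mul_of_nonneg_right h5 (abs_nonneg _)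
    simpa using h1
  · have h1 : (fun y : ℝ => max y 0 ^ 3) =ᶠ[𝓝 x] fun y => y ^ 3 := by
      filter_upwards [Ioi_mem_nhds h] with y hy
      rw [max_eq_left (le_of_lt hy)]
    rw [max_eq_left h.le]
    have h2 := (hasDerivAt_pow 3 x).congr_of_eventuallyEq h1
    simpa using h2

lemma WR.continuous_cub' (γ : ℝ) : Continuous (cub' γ) := by
  unfold cub'
  fun_prop

end Crest.Agent.R230
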