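import Crest.Agent.R230.Poincare1

/-!
# Row 230: weighted Poincare inequalities for `π₁ ∼ s² c^k` on `[0,1]` (`k = N-4`, `c = √(1-s²)`)

For `0 < j`, `5 j < 2 (k+5)`, `θ = k+5-j`, `b_j(s) = c² / (j (θ s² - 3) + 2 θ c²)`:
`∫ s² c^k (l-λ)² ≤ ∫ s² c^{k+2} b_j l'²`  (`poincare_w_mean`), in particular
* `j = 2`: `2 k ∫ s² c^k (l-λ)² ≤ ∫ s² c^{k+4} l'²` (`poincare_two`),
* `j = 1`: `∫ s² c^k (l-λ)² ≤ ∫ s² c^{k+4} / (k+1+(k+4)c²) l'²` (`poincare_one`).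
-/

set_option autoImplicit false

open MeasureTheory Set Filter Topology

namespace Crest.Agent.R230.Poinc

/-- the weight -/
noncomputable def bw (k : ℕ) (j s : ℝ) : ℝ :=
  (1 - s ^ 2) / (j * (((k : ℝ) + 5 - j) * s ^ 2 - 3) + 2 * ((k : ℝ) + 5 - j) * (1 - s ^ 2))

lemma bw_den_pos {k : ℕ} {j s : ℝ} (hj : 0 < j) (hj2 : 5 * j < 2 * ((k : ℝ) + 5)) (h3 : 3 < (k : ℝ) + 5 - j)
    (hs : s ∈ Icc (0 : ℝ) 1) :
    0 < j * (((k : ℝ) + 5 - j) * s ^ 2 - 3) + 2 * ((k : ℝ) + 5 - j) * (1 - s ^ 2) := by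
  have h0 : 0 ≤ s ^ 2 := sq_nonneg s
  have h1 : s ^ 2 ≤ 1 := by nlinarith [hs.1, hs.2]
  have e : j * (((k : ℝ) + 5 - j) * s ^ 2 - 3) + 2 * ((k : ℝ) + 5 - j) * (1 - s ^ 2) =
      (1 - s ^ 2) * (2 * ((k : ℝ) + 5) - 5 * j) + s ^ 2 * (j * ((k : ℝ) + 5 - j - 3)) := by ring
  rw [e]
  have a1 : 0 < 2 * ((k : ℝ) + 5) - 5 * j := by linarith
  have a2 : 0 < j * ((k : ℝ) + 5 - j - 3) := mul_pos hj (by linarith)
  rcases h1.lt_or_eq with h | h
  · have := mul_pos (sub_pos.2 h) a1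
    have := mul_nonneg h0 a2.le
    linarith
  · rw [h]; simpa using a2

lemma bw_nonneg {k : ℕ} {j s : ℝ} (hj : 0 < j) (hj2 : 5 * j < 2 * ((k : ℝ) + 5)) (h3 : 3 < (k : ℝ) + 5 - j)
    (hs : s ∈ Icc (0 : ℝ) 1) : 0 ≤ bw k j s := by
  unfold bw
  have := bw_den_pos hj hj2 h3 hs
  have h1 : s ^ 2 ≤ 1 := by nlinarith [hs.1, hs.2]
  exact div_nonneg (by linarith) this.le

lemma bw_continuousOn {k : ℕ} {j : ℝ} (hj : 0 < j) (hj2 : 5 * j < 2 * ((k : ℝ) + 5))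
    (h3 : 3 < (k : ℝ) + 5 - j) : ContinuousOn (bw k j) (Icc 0 1) := by
  unfold bw
  refine ContinuousOn.div (by fun_prop) (by fun_prop) fun s hs => (bw_den_pos hj hj2 h3 hs).ne'

/-- main piece: on `[a,b] ⊆ [0,1]` with `θ s² ≠ 3` inside -/
lemma piece_w (k : ℕ) {j : ℝ} {l l' : ℝ → ℝ} {lst a b : ℝ} (hj : 0 < j)
    (hj2 : 5 * j < 2 * ((k : ℝ) + 5)) (h3 : 3 < (k : ℝ) + 5 - j)
    (ha : 0 ≤ a) (hab : a ≤ b) (hb : b ≤ 1)
    (hl' : ∀ s ∈ Ioo a b, HasDerivAt l (l' s) s)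
    (hq : ∀ s ∈ Ioo a b, ((k : ℝ) + 5 - j) * s ^ 2 - 3 ≠ 0)
    (hF : ContinuousOn (fun s => s ^ 3 * Real.sqrt (1 - s ^ 2) ^ (k + 2) * (l s - lst) ^ 2 /
      (((k : ℝ) + 5 - j) * s ^ 2 - 3)) (Icc a b))
    (hi : IntegrableOn (fun s => s ^ 2 * Real.sqrt (1 - s ^ 2) ^ (k + 2) * bw k j s * l' s ^ 2) (Icc a b))
    (hi2 : IntegrableOn (fun s => s ^ 2 * Real.sqrt (1 - s ^ 2) ^ k * (l s - lst) ^ 2) (Icc a b)) :
    (b ^ 3 * Real.sqrt (1 - b ^ 2) ^ (k + 2) * (l b - lst) ^ 2 / (((k : ℝ) + 5 - j) * b ^ 2 - 3)) -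
      (a ^ 3 * Real.sqrt (1 - a ^ 2) ^ (k + 2) * (l a - lst) ^ 2 / (((k : ℝ) + 5 - j) * a ^ 2 - 3)) ≤
      ∫ s in a..b, (s ^ 2 * Real.sqrt (1 - s ^ 2) ^ (k + 2) * bw k j s * l' s ^ 2 -
        (s ^ 2 * Real.sqrt (1 - s ^ 2) ^ k * (l s - lst) ^ 2)) := by
  set θ : ℝ := (k : ℝ) + 5 - j with hθ
  refine intervalIntegral.sub_le_integral_of_hasDeriv_right_of_le hab hF
    (g' := fun s => ((3 * s ^ 2 * Real.sqrt (1 - s ^ 2) ^ (k + 2) +
        s ^ 3 * (-((k : ℝ) + 2) * s * Real.sqrt (1 - s ^ 2) ^ k)) * (l s - lst) ^ 2 +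
        s ^ 3 * Real.sqrt (1 - s ^ 2) ^ (k + 2) * (2 * (l s - lst) * l' s)) / (θ * s ^ 2 - 3) -
      s ^ 3 * Real.sqrt (1 - s ^ 2) ^ (k + 2) * (l s - lst) ^ 2 * (2 * θ * s) / (θ * s ^ 2 - 3) ^ 2)
    ?_ ?_ ?_
  · intro s hs
    have h0 : 0 ≤ s := ha.trans hs.1.le
    have h1 : s < 1 := hs.2.trans_le hb
    have hq' := hq s hs
    have d1 : HasDerivAt (fun s : ℝ => s ^ 3) (3 * s ^ 2) s := by
      have := (hasDerivAt_pow 3 s)
      refine this.congr_deriv ?_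
      norm_num
    have d2 := hasDerivAt_cpow k h0 h1
    have d3 : HasDerivAt (fun s => (l s - lst) ^ 2) (2 * (l s - lst) * l' s) s := by
      have := ((hl' s hs).sub_const lst).fun_pow 2
      refine this.congr_deriv ?_
      norm_num
    have d4 : HasDerivAt (fun s : ℝ => θ * s ^ 2 - 3) (2 * θ * s) s := by
      have := ((hasDerivAt_pow 2 s).const_mul θ).sub_const 3
      refine this.congr_deriv ?_
      norm_num; ring
    have d := ((d1.fun_mul d2).fun_mul d3).fun_div d4 hq'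
    refine (d.congr_deriv ?_).hasDerivWithinAt
    field_simp
  · exact hi.sub hi2
  · intro s hs
    have h0 : 0 < s := ha.trans_lt hs.1
    have h1 : s < 1 := hs.2.trans_le hb
    have hq' := hq s hs
    have hden := bw_den_pos (k := k) hj hj2 h3 (s := s) ⟨h0.le, h1.le⟩
    rw [← hθ] at hden
    have hc := cpos h0.le h1
    have hc2 := csq h0.le h1.le
    have hcp : 0 ≤ Real.sqrt (1 - s ^ 2) ^ k := pow_nonneg (Real.sqrt_nonneg _) _
    have hC : 0 < 1 - s ^ 2 := by nlinarith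
    have hpow : Real.sqrt (1 - s ^ 2) ^ (k + 2) = Real.sqrt (1 - s ^ 2) ^ k * (1 - s ^ 2) := by
      rw [pow_add, hc2]
    have hb0 : 0 < bw k j s := by
      unfold bw
      rw [← hθ]
      exact div_pos hC hden
    have hbe : bw k j s * (j * (θ * s ^ 2 - 3) + 2 * θ * (1 - s ^ 2)) = 1 - s ^ 2 := by
      unfold bw
      rw [← hθ]
      exact div_mul_cancel₀ _ hden.ne'
    set B := bw k j s with hB
    set D := θ * s ^ 2 - 3 with hD
    have hkθ : (k : ℝ) = θ + j - 5 := by rw [hθ]; ring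
    have key : 0 ≤ s ^ 2 * Real.sqrt (1 - s ^ 2) ^ k * (1 - s ^ 2) * B *
        (l' s - s * (l s - lst) / (B * D)) ^ 2 := by positivity
    have e : s ^ 2 * Real.sqrt (1 - s ^ 2) ^ k * (1 - s ^ 2) * B *
        (l' s - s * (l s - lst) / (B * D)) ^ 2 =
        s ^ 2 * (Real.sqrt (1 - s ^ 2) ^ k * (1 - s ^ 2)) * B * l' s ^ 2 -
          s ^ 2 * Real.sqrt (1 - s ^ 2) ^ k * (l s - lst) ^ 2 -
        (((3 * s ^ 2 * (Real.sqrt (1 - s ^ 2) ^ k * (1 - s ^ 2)) +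
        s ^ 3 * (-((k : ℝ) + 2) * s * Real.sqrt (1 - s ^ 2) ^ k)) * (l s - lst) ^ 2 +
        s ^ 3 * (Real.sqrt (1 - s ^ 2) ^ k * (1 - s ^ 2)) * (2 * (l s - lst) * l' s)) / D -
      s ^ 3 * (Real.sqrt (1 - s ^ 2) ^ k * (1 - s ^ 2)) * (l s - lst) ^ 2 * (2 * θ * s) / D ^ 2) := by
      have hB' : B ≠ 0 := hb0.ne'
      have hX : (1 - s ^ 2) / B = j * D + 2 * θ * (1 - s ^ 2) := by
        rw [div_eq_iff hB', mul_comm]
        exact hbe.symm
      have e1 : s ^ 2 * Real.sqrt (1 - s ^ 2) ^ k * (1 - s ^ 2) * B *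
          (l' s - s * (l s - lst) / (B * D)) ^ 2 =
          s ^ 2 * (Real.sqrt (1 - s ^ 2) ^ k * (1 - s ^ 2)) * B * l' s ^ 2 -
          s ^ 3 * (Real.sqrt (1 - s ^ 2) ^ k * (1 - s ^ 2)) * (2 * (l s - lst) * l' s) / D +
          s ^ 4 * Real.sqrt (1 - s ^ 2) ^ k * (l s - lst) ^ 2 / D ^ 2 * ((1 - s ^ 2) / B) := by
        field_simp
        ring
      rw [e1, hX, hkθ]
      have hs2 : θ * s ^ 2 = D + 3 := by rw [hD]; ring
      field_simp
      have : D = θ * s ^ 2 - 3 := hD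
      rw [this]
      ring
    rw [e] at key
    simp only [hpow]
    linarith

/-- **weighted Poincare inequality for `π₁`**, centred at the value at `s⋆ = √(3/θ)`. -/
theorem poincare_w (k : ℕ) {j : ℝ} {l l' : ℝ → ℝ} (hj : 0 < j) (hj2 : 5 * j < 2 * ((k : ℝ) + 5))
    (h3 : 3 < (k : ℝ) + 5 - j) (hl : ContinuousOn l (Icc 0 1))
    (hl' : ∀ s ∈ Ioo (0 : ℝ) 1, HasDerivAt l (l' s) s)
    (hi0 : IntervalIntegrable (fun s => s ^ 2 * Real.sqrt (1 - s ^ 2) ^ (k + 2) * l' s ^ 2)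
      volume 0 1) :
    ∫ s in (0 : ℝ)..1, s ^ 2 * Real.sqrt (1 - s ^ 2) ^ k *
        (l s - l (Real.sqrt (3 / ((k : ℝ) + 5 - j)))) ^ 2 ≤
      ∫ s in (0 : ℝ)..1, s ^ 2 * Real.sqrt (1 - s ^ 2) ^ (k + 2) * bw k j s * l' s ^ 2 := by
  have hi : IntervalIntegrable (fun s => s ^ 2 * Real.sqrt (1 - s ^ 2) ^ (k + 2) * bw k j s * l' s ^ 2)
      volume 0 1 := by
    have hb : ContinuousOn (bw k j) (uIcc 0 1) := by
      rw [uIcc_of_le zero_le_one]; exact bw_continuousOn hj hj2 h3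
    refine (hi0.mul_continuousOn hb).congr (fun s _ => ?_)
    ring
  set θ : ℝ := (k : ℝ) + 5 - j with hθ
  set q : ℝ := 3 / θ with hqd
  have hk : (0 : ℝ) < θ := by linarith
  have hq0 : 0 < q := by positivity
  have hq1 : q < 1 := by
    rw [hqd, div_lt_one hk]
    linarith
  set st : ℝ := Real.sqrt q with hst
  have hst0 : 0 < st := Real.sqrt_pos.2 hq0
  have hst2 : st ^ 2 = q := Real.sq_sqrt hq0.le
  have hst1 : st < 1 := by nlinarith
  have hstm : st ∈ Ioo (0 : ℝ) 1 := ⟨hst0, hst1⟩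
  have hθq : θ * q = 3 := by rw [hqd]; field_simp
  have hfac : ∀ s : ℝ, θ * s ^ 2 - 3 = θ * ((s - st) * (s + st)) := by
    intro s
    have : (s - st) * (s + st) = s ^ 2 - q := by rw [← hst2]; ring
    rw [this, mul_sub, hθq]
  have hne : ∀ s : ℝ, 0 ≤ s → s ≠ st → θ * s ^ 2 - 3 ≠ 0 := by
    intro s hs hne h
    rw [hfac] at h
    rcases mul_eq_zero.1 h with h | h
    · exact hk.ne' h
    · rcases mul_eq_zero.1 h with h | h
      · exact hne (by linarith)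
      · linarith
  -- continuity of F
  have hF : ContinuousOn (fun s => s ^ 3 * Real.sqrt (1 - s ^ 2) ^ (k + 2) * (l s - l st) ^ 2 /
      (θ * s ^ 2 - 3)) (Icc 0 1) := by
    intro s hs
    by_cases h : s = st
    · -- at the singular point
      subst h
      have hd := hl' st hstm
      have hval : st ^ 3 * Real.sqrt (1 - st ^ 2) ^ (k + 2) * (l st - l st) ^ 2 /
          (θ * st ^ 2 - 3) = 0 := by simp
      refine ContinuousAt.continuousWithinAt ?_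
      rw [continuousAt_iff_punctured_nhds]
      rw [hval]
      have hslope : Tendsto (slope l st) (𝓝[≠] st) (𝓝 (l' st)) := hasDerivAt_iff_tendsto_slope.1 hd
      have hlc : Tendsto (fun s => l s - l st) (𝓝[≠] st) (𝓝 0) := by
        have h1 : Tendsto l (𝓝[≠] st) (𝓝 (l st)) := hd.continuousAt.tendsto.mono_left nhdsWithin_le_nhds
        simpa using h1.sub_const (l st)
      have hrest : Tendsto (fun s => s ^ 3 * Real.sqrt (1 - s ^ 2) ^ (k + 2) / (θ * (s + st))) (𝓝[≠] st)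
          (𝓝 (st ^ 3 * Real.sqrt (1 - st ^ 2) ^ (k + 2) / (θ * (st + st)))) := by
        have hc : ContinuousAt (fun s => s ^ 3 * Real.sqrt (1 - s ^ 2) ^ (k + 2) / (θ * (s + st))) st := by
          refine ContinuousAt.div (by fun_prop) (by fun_prop) (by positivity)
        exact hc.tendsto.mono_left nhdsWithin_le_nhds
      have hprod := (hrest.mul hslope).mul hlc
      rw [mul_zero] at hprod
      refine hprod.congr' ?_
      filter_upwards [self_mem_nhdsWithin, mem_nhdsWithin_of_mem_nhds (Ioi_mem_nhds hst0)] with s hs1 hs2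
      have hs1' : s ≠ st := hs1
      have hs2' : 0 < s := hs2
      have h1 : s - st ≠ 0 := sub_ne_zero.2 hs1'
      have h2 : s + st ≠ 0 := by positivity
      rw [hfac, slope_def_field]
      field_simp
    · have hl1 := hl s hs
      refine ContinuousWithinAt.div ?_ (by fun_prop) (hne s hs.1 h)
      refine ContinuousWithinAt.mul (by fun_prop) ?_
      exact (hl1.sub continuousWithinAt_const).pow 2
  have hiw : IntervalIntegrable (fun s => s ^ 2 * Real.sqrt (1 - s ^ 2) ^ k * (l s - l st) ^ 2)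
      volume 0 1 := by
    refine ContinuousOn.intervalIntegrable ?_
    rw [uIcc_of_le zero_le_one]
    refine ContinuousOn.mul (by fun_prop) ((hl.sub continuousOn_const).pow 2)
  have hI1 : IntegrableOn (fun s => s ^ 2 * Real.sqrt (1 - s ^ 2) ^ (k + 2) * bw k j s * l' s ^ 2)
      (Icc 0 1) := by
    rw [integrableOn_Icc_iff_integrableOn_Ioc]
    exact (intervalIntegrable_iff_integrableOn_Ioc_of_le zero_le_one).1 hi
  have hI2 : IntegrableOn (fun s => s ^ 2 * Real.sqrt (1 - s ^ 2) ^ k * (l s - l st) ^ 2) (Icc 0 1) := by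
    rw [integrableOn_Icc_iff_integrableOn_Ioc]
    exact (intervalIntegrable_iff_integrableOn_Ioc_of_le zero_le_one).1 hiw
  have p1 := piece_w k (j := j) (l := l) (l' := l') (lst := l st) hj hj2 h3 le_rfl hst0.le hst1.le
    (fun s hs => hl' s ⟨hs.1, hs.2.trans hst1⟩)
    (fun s hs => hne s hs.1.le hs.2.ne)
    (hF.mono (Icc_subset_Icc_right hst1.le)) (hI1.mono_set (Icc_subset_Icc_right hst1.le))
    (hI2.mono_set (Icc_subset_Icc_right hst1.le))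
  have p2 := piece_w k (j := j) (l := l) (l' := l') (lst := l st) hj hj2 h3 hst0.le hst1.le le_rfl
    (fun s hs => hl' s ⟨hst0.trans hs.1, hs.2⟩)
    (fun s hs => hne s (hst0.trans hs.1).le hs.1.ne')
    (hF.mono (Icc_subset_Icc_left hst0.le)) (hI1.mono_set (Icc_subset_Icc_left hst0.le))
    (hI2.mono_set (Icc_subset_Icc_left hst0.le))
  have hint : IntervalIntegrable (fun s => s ^ 2 * Real.sqrt (1 - s ^ 2) ^ (k + 2) * bw k j s * l' s ^ 2 -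
        (s ^ 2 * Real.sqrt (1 - s ^ 2) ^ k * (l s - l st) ^ 2)) volume 0 1 :=
    hi.sub hiw
  have hsum := intervalIntegral.integral_sub hi hiw
  have hadd := intervalIntegral.integral_add_adjacent_intervals
    (hint.mono_set (by
      rw [uIcc_of_le hst0.le, uIcc_of_le zero_le_one]; exact Icc_subset_Icc_right hst1.le))
    (hint.mono_set (by
      rw [uIcc_of_le hst1.le, uIcc_of_le zero_le_one]; exact Icc_subset_Icc_left hst0.le))
    (a := 0) (b := st) (c := 1)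
  have z1 : ((1 : ℝ) ^ 3 * Real.sqrt (1 - 1 ^ 2) ^ (k + 2) * (l 1 - l st) ^ 2 / (θ * 1 ^ 2 - 3)) = 0 := by
    simp
  have z2 : (st ^ 3 * Real.sqrt (1 - st ^ 2) ^ (k + 2) * (l st - l st) ^ 2 / (θ * st ^ 2 - 3)) = 0 := by
    simp
  have z3 : ((0 : ℝ) ^ 3 * Real.sqrt (1 - 0 ^ 2) ^ (k + 2) * (l 0 - l st) ^ 2 / (θ * 0 ^ 2 - 3)) = 0 := by
    simp
  rw [← hθ] at p1 p2
  rw [z1, z2] at p2
  rw [z2, z3] at p1
  have : 0 ≤ (∫ s in (0 : ℝ)..1, (s ^ 2 * Real.sqrt (1 - s ^ 2) ^ (k + 2) * bw k j s * l' s ^ 2 -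
        (s ^ 2 * Real.sqrt (1 - s ^ 2) ^ k * (l s - l st) ^ 2))) := by
    rw [← hadd]; linarith
  rw [hsum] at this
  linarith

/-- **weighted Poincare inequality for `π₁`** with the mean. -/
theorem poincare_w_mean (k : ℕ) {j : ℝ} {l l' : ℝ → ℝ} {lam : ℝ} (hj : 0 < j)
    (hj2 : 5 * j < 2 * ((k : ℝ) + 5)) (h3 : 3 < (k : ℝ) + 5 - j) (hl : ContinuousOn l (Icc 0 1))
    (hl' : ∀ s ∈ Ioo (0 : ℝ) 1, HasDerivAt l (l' s) s)
    (hi : IntervalIntegrable (fun s => s ^ 2 * Real.sqrt (1 - s ^ 2) ^ (k + 2) * l' s ^ 2)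
      volume 0 1)
    (hlam : ∫ s in (0 : ℝ)..1, s ^ 2 * Real.sqrt (1 - s ^ 2) ^ k * (l s - lam) = 0) :
    ∫ s in (0 : ℝ)..1, s ^ 2 * Real.sqrt (1 - s ^ 2) ^ k * (l s - lam) ^ 2 ≤
      ∫ s in (0 : ℝ)..1, s ^ 2 * Real.sqrt (1 - s ^ 2) ^ (k + 2) * bw k j s * l' s ^ 2 := by
  refine le_trans ?_ (poincare_w k hj hj2 h3 hl hl' hi)
  set a : ℝ := l (Real.sqrt (3 / ((k : ℝ) + 5 - j))) with ha
  have hw : ContinuousOn (fun s : ℝ => s ^ 2 * Real.sqrt (1 - s ^ 2) ^ k) (Icc 0 1) := by fun_prop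
  have i1 : ∀ b : ℝ, IntervalIntegrable (fun s => s ^ 2 * Real.sqrt (1 - s ^ 2) ^ k * (l s - b) ^ 2)
      volume 0 1 := fun b => by
    refine ContinuousOn.intervalIntegrable ?_
    rw [uIcc_of_le zero_le_one]
    exact hw.mul ((hl.sub continuousOn_const).pow 2)
  have i2 : IntervalIntegrable (fun s => s ^ 2 * Real.sqrt (1 - s ^ 2) ^ k * (l s - lam))
      volume 0 1 := by
    refine ContinuousOn.intervalIntegrable ?_
    rw [uIcc_of_le zero_le_one]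
    exact hw.mul (hl.sub continuousOn_const)
  have i3 : IntervalIntegrable (fun s : ℝ => s ^ 2 * Real.sqrt (1 - s ^ 2) ^ k) volume 0 1 := by
    refine ContinuousOn.intervalIntegrable ?_
    rw [uIcc_of_le zero_le_one]
    exact hw
  have e : (∫ s in (0 : ℝ)..1, s ^ 2 * Real.sqrt (1 - s ^ 2) ^ k * (l s - a) ^ 2) =
      (∫ s in (0 : ℝ)..1, s ^ 2 * Real.sqrt (1 - s ^ 2) ^ k * (l s - lam) ^ 2) +
        2 * (lam - a) * (∫ s in (0 : ℝ)..1, s ^ 2 * Real.sqrt (1 - s ^ 2) ^ k * (l s - lam)) +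
        (lam - a) ^ 2 * ∫ s in (0 : ℝ)..1, s ^ 2 * Real.sqrt (1 - s ^ 2) ^ k := by
    rw [← intervalIntegral.integral_const_mul, ← intervalIntegral.integral_const_mul,
      ← intervalIntegral.integral_add (i1 lam) (i2.const_mul _),
      ← intervalIntegral.integral_add ((i1 lam).add (i2.const_mul _)) (i3.const_mul _)]
    congr 1
    ext s
    ring
  rw [e, hlam]
  have hpos : 0 ≤ ∫ s in (0 : ℝ)..1, s ^ 2 * Real.sqrt (1 - s ^ 2) ^ k := by
    refine intervalIntegral.integral_nonneg zero_le_one fun s _ => ?_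
    positivity
  have := mul_nonneg (sq_nonneg (lam - a)) hpos
  linarith

/-- `j = 2`: `2(N-4) E[Y(l-λ)²] ≤ E_ν[c² (s l')²]` (unnormalised, `k = N-4 ≥ 1`). -/
theorem poincare_two (k : ℕ) (hk : 1 ≤ k) {l l' : ℝ → ℝ} {lam : ℝ} (hl : ContinuousOn l (Icc 0 1))
    (hl' : ∀ s ∈ Ioo (0 : ℝ) 1, HasDerivAt l (l' s) s)
    (hi : IntervalIntegrable (fun s => s ^ 2 * Real.sqrt (1 - s ^ 2) ^ (k + 2) * l' s ^ 2)
      volume 0 1)
    (hlam : ∫ s in (0 : ℝ)..1, s ^ 2 * Real.sqrt (1 - s ^ 2) ^ k * (l s - lam) = 0) :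
    2 * (k : ℝ) * ∫ s in (0 : ℝ)..1, s ^ 2 * Real.sqrt (1 - s ^ 2) ^ k * (l s - lam) ^ 2 ≤
      ∫ s in (0 : ℝ)..1, s ^ 2 * Real.sqrt (1 - s ^ 2) ^ (k + 4) * l' s ^ 2 := by
  have hk1 : (1 : ℝ) ≤ k := by exact_mod_cast hk
  have h := poincare_w_mean k (j := 2) (by norm_num) (by linarith) (by linarith) hl hl' hi hlam
  have e : (∫ s in (0 : ℝ)..1, s ^ 2 * Real.sqrt (1 - s ^ 2) ^ (k + 2) * bw k 2 s * l' s ^ 2) =
      (2 * (k : ℝ))⁻¹ * ∫ s in (0 : ℝ)..1, s ^ 2 * Real.sqrt (1 - s ^ 2) ^ (k + 4) * l' s ^ 2 := by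
    rw [← intervalIntegral.integral_const_mul]
    refine intervalIntegral.integral_congr fun s hs => ?_
    rw [uIcc_of_le zero_le_one] at hs
    have hb : bw k 2 s = (2 * (k : ℝ))⁻¹ * (1 - s ^ 2) := by
      unfold bw
      have : (2 : ℝ) * (((k : ℝ) + 5 - 2) * s ^ 2 - 3) + 2 * ((k : ℝ) + 5 - 2) * (1 - s ^ 2) = 2 * k := by
        ring
      rw [this, div_eq_inv_mul]
    have hp : Real.sqrt (1 - s ^ 2) ^ (k + 4) = Real.sqrt (1 - s ^ 2) ^ (k + 2) * (1 - s ^ 2) := by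
      rw [show k + 4 = k + 2 + 2 from rfl, pow_add _ (k + 2), csq hs.1 hs.2]
    rw [hb, hp]
    ring
  rw [e] at h
  have h2 : (0 : ℝ) < 2 * k := by linarith
  have := mul_le_mul_of_nonneg_left h h2.le
  rwa [← mul_assoc (2 * (k : ℝ)) (2 * (k : ℝ))⁻¹, mul_inv_cancel₀ h2.ne', one_mul] at this

/-- `j = 1`. -/
theorem poincare_one (k : ℕ) {l l' : ℝ → ℝ} {lam : ℝ} (hl : ContinuousOn l (Icc 0 1))
    (hl' : ∀ s ∈ Ioo (0 : ℝ) 1, HasDerivAt l (l' s) s)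
    (hi : IntervalIntegrable (fun s => s ^ 2 * Real.sqrt (1 - s ^ 2) ^ (k + 2) * l' s ^ 2)
      volume 0 1)
    (hlam : ∫ s in (0 : ℝ)..1, s ^ 2 * Real.sqrt (1 - s ^ 2) ^ k * (l s - lam) = 0) :
    ∫ s in (0 : ℝ)..1, s ^ 2 * Real.sqrt (1 - s ^ 2) ^ k * (l s - lam) ^ 2 ≤
      ∫ s in (0 : ℝ)..1, s ^ 2 * Real.sqrt (1 - s ^ 2) ^ (k + 2) *
        ((1 - s ^ 2) / (((k : ℝ) + 1) + ((k : ℝ) + 4) * (1 - s ^ 2))) * l' s ^ 2 := by
  have hk1 : (0 : ℝ) ≤ k := Nat.cast_nonneg k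
  have h := poincare_w_mean k (j := 1) (by norm_num) (by linarith) (by linarith) hl hl' hi hlam
  refine h.trans (le_of_eq ?_)
  refine intervalIntegral.integral_congr fun s hs => ?_
  have hb : bw k 1 s = (1 - s ^ 2) / (((k : ℝ) + 1) + ((k : ℝ) + 4) * (1 - s ^ 2)) := by
    unfold bw
    congr 1
    ring
  rw [hb]

end Crest.Agent.R230.Poinc
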