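import Crest.Agent.R230.OneDAsm
import Crest.Agent.R230.B6large
import Crest.Agent.R230.BSixProf
import Crest.Agent.R230.BFive6Prof

/-!
# Row 230: `PosBlock n` from the two sign cases of `k`; the case `k < 0` for `n = 5` and `n ≥ 8`
-/

set_option autoImplicit false

open MeasureTheory Set Filter Topology
open scoped Pointwise ENNReal

namespace Crest.Agent.R230

open WR

variable {n : ℕ} {r : ℝ → ℝ}

/-- block B6: `l > 0`, `k < 0` -/
def PosNeg (n : ℕ) : Prop := ∀ r : ℝ → ℝ, Prof r → NleB n r → ∀ s ∈ Ioo (0 : ℝ) 1, 0 < ll n r s →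
  kk n r s < 0 →
  0 < PP n (((n : ℝ) + 1 + 3 * (1 / 4)) / ((n : ℝ) - 1)) 3 1 0 0 s (ll n r s) (kk n r s)

/-- block B5: `l > 0`, `k ≥ 0` -/
def PosPos (n : ℕ) : Prop := ∀ r : ℝ → ℝ, Prof r → NleB n r → ∀ s ∈ Ioo (0 : ℝ) 1, 0 < ll n r s →
  0 ≤ kk n r s →
  0 < PP n (((n : ℝ) + 1 + 3 * (1 / 4)) / ((n : ℝ) - 1)) 3 1 0 0 s (ll n r s) (kk n r s)

theorem posBlock_of (h1 : PosPos n) (h2 : PosNeg n) : PosBlock n := by
  intro r hr hN s hs hl
  rcases le_or_gt 0 (kk n r s) with h | h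
  · exact h1 r hr hN s hs hl h
  · exact h2 r hr hN s hs hl h

theorem tau_le_one' (hr : Prof r) {s : ℝ} (hs : s ∈ Ioo (0 : ℝ) 1) : s * Real.exp (ll n r s) ≤ 1 := by
  rw [mul_exp_ll hr hs]
  exact (tau_lt_one hr n ⟨hs.1.le, hs.2⟩).le

theorem posNeg_nine (h9 : 9 ≤ n) (h22 : n ≤ 22) : PosNeg n := by
  intro r hr hN s hs hl hk
  obtain ⟨h1, h2⟩ := ll_le_of_legal hr hs (legal_all (by omega) h22 hr hN s hs)
  exact B6_nine h9 hs hl (tau_le_one' hr hs) h1 h2 (kk_pos hr hs) hk.le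

theorem posNeg_eight : PosNeg 8 := by
  intro r hr hN s hs hl hk
  exact B6_eight (n := 8) le_rfl hs hl (tau_le_one' hr hs)
    (ll_simple_all (by norm_num) (by norm_num) hr hN s hs) (kk_pos hr hs) hk.le

theorem posNeg_five : PosNeg 5 := by
  intro r hr hN s hs hl hk
  have h := B6six_prof hr hN (lm := 0) hs hl hk
  have e : ((((5 : ℕ) : ℝ) + 1 + 3 * (1 / 4)) / (((5 : ℕ) : ℝ) - 1)) = 27 / 16 := by norm_num
  rw [e]
  exact h

theorem posBlock_five : PosBlock 5 := by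
  intro r hr hN s hs hl
  have h := caseII_pos_six hr hN (lm := 0) hs hl
  have e : ((((5 : ℕ) : ℝ) + 1 + 3 * (1 / 4)) / (((5 : ℕ) : ℝ) - 1)) = 27 / 16 := by norm_num
  rw [e]
  exact h

/-- dimension 6 -/
theorem oneD_five : OneD 5 := oneD_small le_rfl (by norm_num) posBlock_five

/-- `OneD n` for `n ≤ 22` from the two blocks -/
theorem oneD_of_pos (h5 : 5 ≤ n) (h22 : n ≤ 22) (h1 : PosPos n) (h2 : PosNeg n) : OneD n :=
  oneD_small h5 h22 (posBlock_of h1 h2)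

end Crest.Agent.R230
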