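import Crest.Agent.R230.PosAsm
import Crest.Agent.R230.CaseIIpp
import Crest.Agent.R230.LegalF

/-!
# Row 230: `PosPos n` for `5 ≤ n ≤ 19` (block B5)
-/

set_option autoImplicit false

open MeasureTheory Set Filter Topology
open scoped Pointwise ENNReal

namespace Crest.Agent.R230

open WR

/-- **block B5** in the form used by `oneD_of_pos` -/
theorem posPos_all {n : ℕ} (h5 : 5 ≤ n) (h19 : n ≤ 19) : PosPos n := by
  intro r hr hN s hs hl hk
  have hl2 : ll n r s ≤ 1 / 2 := ll_half_all h5 (by omega) hr hN s hs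
  obtain ⟨h1, h2⟩ := caseII_pp h5 h19 hr hs hl.le hl2 hk
  exact lt_of_le_of_ne h1 fun h => hl.ne' (h2 h.symm)

end Crest.Agent.R230
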