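import Mathlib

/-! Row 230: the body `{x | max(0,x) + max(0,-x) ≤ r}` in `Fin n → ℝ` has volume `(n+1) r^n`. -/

set_option autoImplicit false
open MeasureTheory Set
open scoped ENNReal Pointwise

namespace Crest.Agent.R230.Simp

/-- `max (0, x_1, …, x_n)`. -/
noncomputable def mx {n : ℕ} (x : Fin n → ℝ) : ℝ :=
  (Finset.univ : Finset (Option (Fin n))).sup' Finset.univ_nonempty (fun o => o.elim 0 x)

theorem mx_le_iff {n : ℕ} {x : Fin n → ℝ} {c : ℝ} : mx x ≤ c ↔ 0 ≤ c ∧ ∀ i, x i ≤ c := by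
  unfold mx
  rw [Finset.sup'_le_iff]
  constructor
  · intro h
    exact ⟨h none (Finset.mem_univ _), fun i => h (some i) (Finset.mem_univ _)⟩
  · rintro ⟨h0, h1⟩ o _
    cases o with
    | none => exact h0
    | some i => exact h1 i

theorem mx_nonneg {n : ℕ} (x : Fin n → ℝ) : 0 ≤ mx x := (mx_le_iff.1 le_rfl).1

theorem le_mx {n : ℕ} (x : Fin n → ℝ) (i : Fin n) : x i ≤ mx x := (mx_le_iff.1 le_rfl).2 i

theorem mx_smul {n : ℕ} {r : ℝ} (hr : 0 < r) (x : Fin n → ℝ) : mx (r • x) = r * mx x := by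
  apply le_antisymm
  · rw [mx_le_iff]
    refine ⟨mul_nonneg hr.le (mx_nonneg x), fun i => ?_⟩
    simp only [Pi.smul_apply, smul_eq_mul]
    exact mul_le_mul_of_nonneg_left (le_mx x i) hr.le
  · rw [← le_div_iff₀' hr, mx_le_iff]
    refine ⟨div_nonneg (mx_nonneg _) hr.le, fun i => ?_⟩
    rw [le_div_iff₀' hr]
    exact le_mx (r • x) i

theorem continuous_mx {n : ℕ} : Continuous (fun x : Fin n → ℝ => mx x) := by
  unfold mx
  apply Continuous.finset_sup'_apply
  intro o _
  cases o with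
  | none => exact continuous_const
  | some i => exact continuous_apply i

/-- The range body of size `r`. -/
def rng (n : ℕ) (r : ℝ) : Set (Fin n → ℝ) := {x | mx x + mx (-x) ≤ r}

theorem isClosed_rng (n : ℕ) (r : ℝ) : IsClosed (rng n r) :=
  isClosed_le (continuous_mx.add (continuous_mx.comp continuous_neg)) continuous_const

theorem rng_of_neg {n : ℕ} {r : ℝ} (hr : r < 0) : rng n r = ∅ := by
  ext x
  simp only [rng, mem_ofPred_eq, mem_empty_iff_false, iff_false, not_le]
  linarith [mx_nonneg x, mx_nonneg (-x)]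

theorem rng_smul {n : ℕ} {r c : ℝ} (hr : 0 < r) : rng n (r * c) = r • rng n c := by
  ext x
  rw [Set.mem_smul_set_iff_inv_smul_mem₀ hr.ne']
  simp only [rng, mem_ofPred_eq]
  rw [← smul_neg, mx_smul (inv_pos.2 hr), mx_smul (inv_pos.2 hr), ← mul_add, inv_mul_le_iff₀ hr]

theorem volume_rng_smul {n : ℕ} {r c : ℝ} (hr : 0 < r) :
    volume (rng n (r * c)) = ENNReal.ofReal (r ^ n) * volume (rng n c) := by
  rw [rng_smul hr, Measure.addHaar_smul]
  simp [abs_of_pos hr]

theorem volume_rng_one (n : ℕ) : volume (rng n 1) = (n + 1 : ℕ) := by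
  -- the auxiliary set
  have hA : MeasurableSet {p : ℝ × (Fin n → ℝ) | mx (-p.2) ≤ p.1 ∧ mx p.2 ≤ 1 - p.1} := by
    apply IsClosed.measurableSet
    exact (isClosed_le ((continuous_mx.comp continuous_neg).comp continuous_snd)
      continuous_fst).inter (isClosed_le (continuous_mx.comp continuous_snd)
        (continuous_const.sub continuous_fst))
  have hB : MeasurableSet {p : ℝ × (Fin n → ℝ) | p.1 ≤ 1 ∧ p.2 ∈ rng n p.1} := by
    apply IsClosed.measurableSet
    exact (isClosed_le continuous_fst continuous_const).inter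
      (isClosed_le ((continuous_mx.comp continuous_snd).add
        ((continuous_mx.comp continuous_neg).comp continuous_snd)) continuous_fst)
  have e1 : (volume.prod volume : Measure (ℝ × (Fin n → ℝ)))
      {p : ℝ × (Fin n → ℝ) | mx (-p.2) ≤ p.1 ∧ mx p.2 ≤ 1 - p.1} = 1 := by
    rw [Measure.prod_apply hA]
    have : ∀ s : ℝ, volume (Prod.mk s ⁻¹' {p : ℝ × (Fin n → ℝ) | mx (-p.2) ≤ p.1 ∧
        mx p.2 ≤ 1 - p.1}) = (Set.Icc (0 : ℝ) 1).indicator (fun _ => 1) s := by
      intro s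
      by_cases hs : s ∈ Set.Icc (0 : ℝ) 1
      · rw [Set.indicator_of_mem hs]
        have : (Prod.mk s ⁻¹' {p : ℝ × (Fin n → ℝ) | mx (-p.2) ≤ p.1 ∧ mx p.2 ≤ 1 - p.1}) =
            Set.Icc (fun _ => -s) (fun _ => 1 - s) := by
          ext x
          simp only [mem_preimage, mem_ofPred_eq, mx_le_iff, Set.mem_Icc, Pi.le_def, Pi.neg_apply]
          constructor
          · rintro ⟨⟨_, h1⟩, _, h2⟩
            exact ⟨fun i => by linarith [h1 i], h2⟩
          · rintro ⟨h1, h2⟩
            exact ⟨⟨hs.1, fun i => by linarith [h1 i]⟩, by linarith [hs.2], h2⟩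
        rw [this, Real.volume_Icc_pi]
        simp
      · rw [Set.indicator_of_notMem hs]
        have : (Prod.mk s ⁻¹' {p : ℝ × (Fin n → ℝ) | mx (-p.2) ≤ p.1 ∧ mx p.2 ≤ 1 - p.1}) = ∅ := by
          ext x
          simp only [mem_preimage, mem_ofPred_eq, mem_empty_iff_false, iff_false, not_and]
          intro h1 h2
          exact hs ⟨(mx_nonneg _).trans h1, by linarith [mx_nonneg x]⟩
        rw [this, measure_empty]
    simp_rw [this]
    rw [lintegral_indicator measurableSet_Icc]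
    simp
  have e2 : (volume.prod volume : Measure (ℝ × (Fin n → ℝ)))
      {p : ℝ × (Fin n → ℝ) | mx (-p.2) ≤ p.1 ∧ mx p.2 ≤ 1 - p.1} =
      (volume.prod volume : Measure (ℝ × (Fin n → ℝ)))
        {p : ℝ × (Fin n → ℝ) | p.1 ≤ 1 ∧ p.2 ∈ rng n p.1} := by
    rw [Measure.prod_apply_symm hA, Measure.prod_apply_symm hB]
    congr 1
    ext x
    have h1 : ((fun s : ℝ => (s, x)) ⁻¹' {p : ℝ × (Fin n → ℝ) | mx (-p.2) ≤ p.1 ∧
        mx p.2 ≤ 1 - p.1}) = Set.Icc (mx (-x)) (1 - mx x) := by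
      ext s
      simp only [mem_preimage, mem_ofPred_eq, Set.mem_Icc]
      constructor
      · rintro ⟨h1, h2⟩; exact ⟨h1, by linarith⟩
      · rintro ⟨h1, h2⟩; exact ⟨h1, by linarith⟩
    have h2 : ((fun s : ℝ => (s, x)) ⁻¹' {p : ℝ × (Fin n → ℝ) | p.1 ≤ 1 ∧ p.2 ∈ rng n p.1}) =
        Set.Icc (mx x + mx (-x)) 1 := by
      ext s
      simp only [mem_preimage, mem_ofPred_eq, Set.mem_Icc, rng]
      tauto
    rw [h1, h2, Real.volume_Icc, Real.volume_Icc]
    congr 1
    ring
  have e3 : (volume.prod volume : Measure (ℝ × (Fin n → ℝ)))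
        {p : ℝ × (Fin n → ℝ) | p.1 ≤ 1 ∧ p.2 ∈ rng n p.1} =
      ENNReal.ofReal (1 / (n + 1)) * volume (rng n 1) := by
    rw [Measure.prod_apply hB]
    have hae : (fun r : ℝ => volume (Prod.mk r ⁻¹' {p : ℝ × (Fin n → ℝ) | p.1 ≤ 1 ∧
        p.2 ∈ rng n p.1})) =ᵐ[volume]
        (Set.Ioc (0 : ℝ) 1).indicator (fun r => ENNReal.ofReal (r ^ n) * volume (rng n 1)) := by
      have : ∀ᵐ t : ℝ, t ≠ 0 := by
        simp [ae_iff, measure_singleton]
      filter_upwards [this] with r hr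
      by_cases h1 : r ≤ 1
      · have hs : (Prod.mk r ⁻¹' {p : ℝ × (Fin n → ℝ) | p.1 ≤ 1 ∧ p.2 ∈ rng n p.1}) = rng n r := by
          ext y; simp [h1]
        rw [hs]
        rcases lt_or_gt_of_ne hr with h0 | h0
        · rw [rng_of_neg h0, Set.indicator_of_notMem (by simp [h0.le]), measure_empty]
        · have := volume_rng_smul (n := n) (c := 1) (r := r) h0
          rw [mul_one] at this
          rw [this, Set.indicator_of_mem (show r ∈ Set.Ioc (0:ℝ) 1 from ⟨h0, h1⟩)]
      · have hs : (Prod.mk r ⁻¹' {p : ℝ × (Fin n → ℝ) | p.1 ≤ 1 ∧ p.2 ∈ rng n p.1}) = ∅ := by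
          ext y; simp [h1]
        rw [hs, Set.indicator_of_notMem (by simp [h1]), measure_empty]
    rw [lintegral_congr_ae hae, lintegral_indicator measurableSet_Ioc,
      lintegral_mul_const'' _ (by fun_prop)]
    congr 1
    rw [← ofReal_integral_eq_lintegral_ofReal]
    · congr 1
      rw [← intervalIntegral.integral_of_le zero_le_one]
      simp
    · apply IntegrableOn.mono_set (t := Set.Icc (0:ℝ) 1) _ Ioc_subset_Icc_self
      exact ContinuousOn.integrableOn_compact isCompact_Icc (by fun_prop)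
    · filter_upwards [self_mem_ae_restrict (measurableSet_Ioc (a := (0:ℝ)) (b := 1))] with x hx
      exact pow_nonneg hx.1.le _
  rw [e1, e3] at e2
  have hpos : (0 : ℝ) < n + 1 := by positivity
  have h3 : (ENNReal.ofReal (n + 1)) * 1 = ENNReal.ofReal (n + 1) *
      (ENNReal.ofReal (1 / (n + 1)) * volume (rng n 1)) := by rw [e2]
  rw [← mul_assoc, ← ENNReal.ofReal_mul hpos.le, mul_one_div_cancel hpos.ne', ENNReal.ofReal_one,
    one_mul, mul_one] at h3
  rw [← h3]
  rw [show ((n : ℝ) + 1) = ((n + 1 : ℕ) : ℝ) by push_cast; ring, ENNReal.ofReal_natCast]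

end Crest.Agent.R230.Simp
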