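import Mathlib

/-! Row 230: volumes of the standard simplex `1/n!` and of the body
`{x | x_i ≤ 1, -x_i ≤ 1, x_i - x_j ≤ 1}` (`n+1`). -/

set_option autoImplicit false
open MeasureTheory Set
open scoped ENNReal Pointwise

namespace Crest.Agent.R230.Simp

/-- Corner simplex of size `c`. -/
def corner (n : ℕ) (c : ℝ) : Set (Fin n → ℝ) := {x | (∀ i, 0 ≤ x i) ∧ ∑ i, x i ≤ c}

theorem isClosed_corner (n : ℕ) (c : ℝ) : IsClosed (corner n c) := by
  have h1 : IsClosed {x : Fin n → ℝ | ∀ i, 0 ≤ x i} := by
    rw [Set.ofPred_forall]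
    exact isClosed_iInter fun i => isClosed_le continuous_const (continuous_apply i)
  have h2 : IsClosed {x : Fin n → ℝ | ∑ i, x i ≤ c} :=
    isClosed_le (continuous_finsetSum _ fun i _ => continuous_apply i) continuous_const
  exact h1.inter h2

theorem corner_of_neg {n : ℕ} {c : ℝ} (hc : c < 0) : corner n c = ∅ := by
  ext x
  simp only [corner, mem_ofPred_eq, mem_empty_iff_false, iff_false, not_and, not_le]
  intro h
  exact lt_of_lt_of_le hc (Finset.sum_nonneg fun i _ => h i)

theorem corner_subset_Icc (n : ℕ) (c : ℝ) : corner n c ⊆ Set.Icc 0 (fun _ => c) := by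
  intro x hx
  refine ⟨fun i => hx.1 i, fun i => ?_⟩
  exact (Finset.single_le_sum (f := x) (fun j _ => hx.1 j) (Finset.mem_univ i)).trans hx.2

theorem corner_smul {n : ℕ} {c r : ℝ} (hr : 0 < r) : corner n (r * c) = r • corner n c := by
  ext x
  rw [Set.mem_smul_set_iff_inv_smul_mem₀ hr.ne']
  simp only [corner, mem_ofPred_eq, Pi.smul_apply, smul_eq_mul, ← Finset.mul_sum]
  constructor
  · rintro ⟨h1, h2⟩
    refine ⟨fun i => mul_nonneg (inv_nonneg.2 hr.le) (h1 i), ?_⟩
    rw [inv_mul_le_iff₀ hr]; exact h2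
  · rintro ⟨h1, h2⟩
    refine ⟨fun i => ?_, ?_⟩
    · have := mul_nonneg hr.le (h1 i)
      rwa [mul_inv_cancel_left₀ hr.ne'] at this
    · rwa [inv_mul_le_iff₀ hr] at h2

theorem volume_corner_smul {n : ℕ} {c r : ℝ} (hr : 0 < r) :
    volume (corner n (r * c)) = ENNReal.ofReal (r ^ n) * volume (corner n c) := by
  rw [corner_smul hr, Measure.addHaar_smul]
  simp [abs_of_pos hr]

theorem volume_corner_one (n : ℕ) :
    volume (corner n 1) = ENNReal.ofReal (1 / n.factorial) := by
  induction n with
  | zero =>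
    have : corner 0 1 = Set.univ := by
      ext x; simp [corner]
    rw [this]
    simp [Measure.volume_pi_eq_dirac (fun i : Fin 0 => (0 : ℝ))]
  | succ n ih =>
    have hmp := volume_preserving_piFinSuccAbove (fun _ : Fin (n + 1) => ℝ) 0
    have hpre : corner (n + 1) 1 = (MeasurableEquiv.piFinSuccAbove (fun _ : Fin (n + 1) => ℝ) 0) ⁻¹'
        {p : ℝ × (Fin n → ℝ) | 0 ≤ p.1 ∧ p.2 ∈ corner n (1 - p.1)} := by
      ext x
      simp only [corner, mem_ofPred_eq, mem_preimage, MeasurableEquiv.piFinSuccAbove_apply,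
        Fin.insertNthEquiv_zero, Fin.forall_fin_succ, Fin.sum_univ_succ]
      constructor
      · rintro ⟨⟨h1, h2⟩, h3⟩
        refine ⟨h1, fun i => h2 i, ?_⟩
        have : ∑ i : Fin n, x i.succ ≤ 1 - x 0 := by linarith
        simpa [Fin.removeNth, Fin.tail] using this
      · rintro ⟨h1, h2, h3⟩
        refine ⟨⟨h1, fun i => h2 i⟩, ?_⟩
        have : ∑ i : Fin n, x i.succ ≤ 1 - x 0 := by simpa [Fin.removeNth, Fin.tail] using h3
        linarith
    have hmeas : MeasurableSet {p : ℝ × (Fin n → ℝ) | 0 ≤ p.1 ∧ p.2 ∈ corner n (1 - p.1)} := by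
      apply IsClosed.measurableSet
      have h1 : IsClosed {p : ℝ × (Fin n → ℝ) | 0 ≤ p.1} :=
        isClosed_le continuous_const continuous_fst
      have h2 : IsClosed {p : ℝ × (Fin n → ℝ) | ∀ i, 0 ≤ p.2 i} := by
        rw [Set.ofPred_forall]
        exact isClosed_iInter fun i =>
          isClosed_le continuous_const ((continuous_apply i).comp continuous_snd)
      have h3 : IsClosed {p : ℝ × (Fin n → ℝ) | ∑ i, p.2 i ≤ 1 - p.1} :=
        isClosed_le (continuous_finsetSum _ fun i _ => (continuous_apply i).comp continuous_snd)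
          (continuous_const.sub continuous_fst)
      exact h1.inter (h2.inter h3)
    rw [hpre, hmp.measure_preimage hmeas.nullMeasurableSet, Measure.volume_eq_prod,
      Measure.prod_apply hmeas]
    have hsec : ∀ t : ℝ, volume (Prod.mk t ⁻¹' {p : ℝ × (Fin n → ℝ) | 0 ≤ p.1 ∧
        p.2 ∈ corner n (1 - p.1)}) =
        (Set.Ico (0 : ℝ) 1).indicator (fun t => ENNReal.ofReal ((1 - t) ^ n) *
          ENNReal.ofReal (1 / n.factorial)) t + (if t = 1 then volume (corner n 0) else 0) := by
      intro t
      by_cases h0 : 0 ≤ t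
      · have hs : (Prod.mk t ⁻¹' {p : ℝ × (Fin n → ℝ) | 0 ≤ p.1 ∧ p.2 ∈ corner n (1 - p.1)}) =
            corner n (1 - t) := by
          ext y; simp [h0]
        rw [hs]
        rcases lt_trichotomy t 1 with h1 | h1 | h1
        · have := volume_corner_smul (n := n) (c := 1) (r := 1 - t) (by linarith)
          rw [mul_one] at this
          rw [this, Set.indicator_of_mem (by exact ⟨h0, h1⟩), if_neg h1.ne, add_zero, ih]
        · subst h1
          simp
        · rw [corner_of_neg (by linarith), Set.indicator_of_notMem (by simp [h1.le]),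
            if_neg h1.ne']
          simp
      · have hs : (Prod.mk t ⁻¹' {p : ℝ × (Fin n → ℝ) | 0 ≤ p.1 ∧ p.2 ∈ corner n (1 - p.1)}) =
            ∅ := by
          ext y; simp [h0]
        rw [hs, Set.indicator_of_notMem (by simp [h0]), if_neg (by rintro rfl; norm_num at h0)]
        simp
    have hae : (fun t : ℝ => volume (Prod.mk t ⁻¹' {p : ℝ × (Fin n → ℝ) | 0 ≤ p.1 ∧
        p.2 ∈ corner n (1 - p.1)})) =ᵐ[volume]
        (Set.Ico (0 : ℝ) 1).indicator (fun t => ENNReal.ofReal ((1 - t) ^ n) *
          ENNReal.ofReal (1 / n.factorial)) := by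
      have : ∀ᵐ t : ℝ, t ≠ 1 := by
        simp [ae_iff, measure_singleton]
      filter_upwards [this] with t ht
      rw [hsec t, if_neg ht, add_zero]
    rw [lintegral_congr_ae hae, lintegral_indicator measurableSet_Ico,
      lintegral_mul_const' _ _ ENNReal.ofReal_ne_top]
    rw [← ofReal_integral_eq_lintegral_ofReal]
    · rw [← ENNReal.ofReal_mul]
      · congr 1
        rw [integral_Ico_eq_integral_Ioc, ← intervalIntegral.integral_of_le zero_le_one]
        have : ∫ x in (0:ℝ)..1, (1 - x) ^ n = 1 / (n + 1) := by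
          rw [intervalIntegral.integral_comp_sub_left (fun x => x ^ n) 1]
          simp
        rw [this]
        rw [Nat.factorial_succ]
        push_cast
        field_simp
      · apply setIntegral_nonneg measurableSet_Ico
        intro x hx
        exact pow_nonneg (by linarith [hx.2]) _
    · apply IntegrableOn.mono_set (t := Set.Icc (0:ℝ) 1) _ Ico_subset_Icc_self
      exact ContinuousOn.integrableOn_compact isCompact_Icc (by fun_prop)
    · filter_upwards [self_mem_ae_restrict (measurableSet_Ico (a := (0:ℝ)) (b := 1))] with x hx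
      exact pow_nonneg (by linarith [hx.2]) _

end Crest.Agent.R230.Simp
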