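import Crest.Agent.R230.Shadow
import Crest.Agent.R230.SimplexVol
import Crest.Agent.R230.RangeVol

/-! Row 230: shadows and projection bodies in coordinates `Fin n → ℝ`; simplices and products. -/

set_option autoImplicit false
open MeasureTheory Set Filter Topology
open scoped ENNReal Pointwise

namespace Crest.Agent.R230.Simp

/-- `K ∩ (K + t u)` in coordinates. -/
def plap {n : ℕ} (K : Set (Fin n → ℝ)) (u : Fin n → ℝ) (t : ℝ) : Set (Fin n → ℝ) :=
  K ∩ {x | x - t • u ∈ K}

/-- `h` is the (one-homogeneous) shadow function of `K`. -/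
def IsSh {n : ℕ} (K : Set (Fin n → ℝ)) (h : (Fin n → ℝ) → ℝ) : Prop :=
  ∀ u, Tendsto (fun t : ℝ => ((volume K).toReal - (volume (plap K u t)).toReal) / t) (𝓝[>] 0)
    (𝓝 (h u))

/-- The body with support bound `h`. -/
def PB {n : ℕ} (h : (Fin n → ℝ) → ℝ) : Set (Fin n → ℝ) := {x | ∀ u, ∑ i, x i * u i ≤ h u}

theorem IsSh.zero {n : ℕ} {K : Set (Fin n → ℝ)} {h : (Fin n → ℝ) → ℝ} (hs : IsSh K h) :
    h 0 = 0 := by
  have h1 := hs 0
  have h2 : (fun t : ℝ => ((volume K).toReal - (volume (plap K 0 t)).toReal) / t) = fun _ => 0 := by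
    funext t
    simp [plap]
  rw [h2] at h1
  exact tendsto_nhds_unique h1 tendsto_const_nhds

theorem IsSh.smul {n : ℕ} {K : Set (Fin n → ℝ)} {h : (Fin n → ℝ) → ℝ} (hs : IsSh K h) {c : ℝ}
    (hc : 0 < c) (u : Fin n → ℝ) : h (c • u) = c * h u := by
  have h1 := hs (c • u)
  have h2 : Tendsto (fun t : ℝ => c * t) (𝓝[>] 0) (𝓝[>] 0) := by
    apply tendsto_nhdsWithin_of_tendsto_nhds_of_eventually_within
    · have : Tendsto (fun t : ℝ => c * t) (𝓝 0) (𝓝 (c * 0)) := Continuous.tendsto (by fun_prop) _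
      rw [mul_zero] at this
      exact this.mono_left nhdsWithin_le_nhds
    · filter_upwards [self_mem_nhdsWithin] with t ht
      exact mul_pos hc ht
  have h3 := ((hs u).comp h2).const_mul c
  refine tendsto_nhds_unique h1 (h3.congr' ?_)
  filter_upwards [self_mem_nhdsWithin] with t ht
  have ht0 : (0 : ℝ) < t := ht
  have : plap K (c • u) t = plap K u (c * t) := by
    ext x
    simp [plap, smul_smul, mul_comm]
  rw [this]
  simp only [Function.comp_apply]
  field_simp

/-- Coordinates splitting. -/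
def splt (a b : ℕ) (x : Fin (a + b) → ℝ) : (Fin a → ℝ) × (Fin b → ℝ) :=
  (fun i => x (Fin.castAdd b i), fun j => x (Fin.natAdd a j))

theorem measurePreserving_splt (a b : ℕ) :
    MeasurePreserving (splt a b) volume (volume.prod volume) := by
  have h1 := (volume_measurePreserving_piCongrLeft (fun _ : Fin (a + b) => ℝ)
    (finSumFinEquiv (m := a) (n := b))).symm
  have h2 := volume_measurePreserving_sumPiEquivProdPi (fun _ : Fin a ⊕ Fin b => ℝ)
  have h3 := h2.comp h1
  have h4 : splt a b = ⇑(MeasurableEquiv.sumPiEquivProdPi (fun _ : Fin a ⊕ Fin b => ℝ)) ∘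
      ⇑(MeasurableEquiv.piCongrLeft (fun _ : Fin (a + b) => ℝ)
        (finSumFinEquiv (m := a) (n := b))).symm := by
    funext x
    rfl
  rw [h4]
  exact h3

theorem sum_splt {a b : ℕ} (x u : Fin (a + b) → ℝ) :
    ∑ i, x i * u i = ∑ i, (splt a b x).1 i * (splt a b u).1 i +
      ∑ i, (splt a b x).2 i * (splt a b u).2 i := by
  rw [Fin.sum_univ_add]; rfl

/-! ### The standard simplex -/

/-- `∑ u_i⁺ + (∑ u_i)⁻`. -/
noncomputable def ms {n : ℕ} (u : Fin n → ℝ) : ℝ := ∑ i, max (u i) 0 + max (-∑ i, u i) 0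

theorem ms_nonneg {n : ℕ} (u : Fin n → ℝ) : 0 ≤ ms u :=
  add_nonneg (Finset.sum_nonneg fun _ _ => le_max_right _ _) (le_max_right _ _)

theorem plap_corner {n : ℕ} (u : Fin n → ℝ) {t : ℝ} (ht : 0 < t) :
    plap (corner n 1) u t = (fun x => (t • fun i => max (u i) 0) + x) '' corner n (1 - t * ms u) := by
  rw [Set.image_add_left]
  ext x
  simp only [plap, corner, mem_inter_iff, mem_ofPred_eq, mem_preimage, Pi.add_apply, Pi.neg_apply,
    Pi.smul_apply, smul_eq_mul, Pi.sub_apply, Finset.sum_add_distrib, Finset.sum_neg_distrib,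
    Finset.sum_sub_distrib, ← Finset.mul_sum, ms]
  have key : t * max (-∑ i, u i) 0 = max (-(t * ∑ i, u i)) 0 := by
    rw [mul_max_of_nonneg _ _ ht.le, mul_zero, mul_neg]
  constructor
  · rintro ⟨⟨h1, h2⟩, h3, h4⟩
    refine ⟨fun i => ?_, ?_⟩
    · have : t * max (u i) 0 ≤ x i := by
        rw [mul_max_of_nonneg _ _ ht.le, mul_zero]
        exact max_le (by linarith [h3 i]) (h1 i)
      linarith
    · have : t * max (-∑ i, u i) 0 ≤ 1 - ∑ i, x i := by
        rw [key]
        exact max_le (by linarith) (by linarith)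
      linarith
  · rintro ⟨h1, h2⟩
    have h5 : t * max (-∑ i, u i) 0 ≤ 1 - ∑ i, x i := by linarith
    rw [key, max_le_iff] at h5
    have h6 : ∀ i, t * u i ≤ x i ∧ 0 ≤ x i := by
      intro i
      have : t * max (u i) 0 ≤ x i := by linarith [h1 i]
      rw [mul_max_of_nonneg _ _ ht.le, mul_zero] at this
      exact max_le_iff.1 this
    exact ⟨⟨fun i => (h6 i).2, by linarith⟩, fun i => by linarith [(h6 i).1], by linarith⟩

theorem isSh_corner (n : ℕ) : IsSh (corner n 1) (fun u => n / n.factorial * ms u) := by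
  intro u
  have hv : ∀ᶠ t : ℝ in 𝓝[>] 0, (volume (plap (corner n 1) u t)).toReal =
      (1 - t * ms u) ^ n / n.factorial := by
    have h1 : ∀ᶠ t : ℝ in 𝓝[>] 0, 0 < 1 - t * ms u := by
      have : Tendsto (fun t : ℝ => 1 - t * ms u) (𝓝 0) (𝓝 (1 - 0 * ms u)) :=
        Continuous.tendsto (by fun_prop) _
      rw [zero_mul, sub_zero] at this
      exact (this.eventually (eventually_gt_nhds one_pos)).filter_mono nhdsWithin_le_nhds
    filter_upwards [self_mem_nhdsWithin, h1] with t ht ht1
    have ht0 : (0 : ℝ) < t := ht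
    rw [plap_corner u ht0, Set.image_add_left, measure_preimage_add]
    have := volume_corner_smul (n := n) (c := 1) (r := 1 - t * ms u) ht1
    rw [mul_one] at this
    rw [this, volume_corner_one, ENNReal.toReal_mul, ENNReal.toReal_ofReal (by positivity),
      ENNReal.toReal_ofReal (by positivity)]
    ring
  have hd : HasDerivAt (fun t : ℝ => (1 - t * ms u) ^ n / n.factorial)
      (n * (1 - 0 * ms u) ^ (n - 1) * (-(1 * ms u)) / n.factorial) 0 := by
    have h1 : HasDerivAt (fun t : ℝ => 1 - t * ms u) (-(1 * ms u)) 0 :=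
      ((hasDerivAt_id (0 : ℝ)).mul_const (ms u)).const_sub 1
    exact (h1.pow n).div_const _
  have hsl := hd.tendsto_slope_zero_right
  simp only [zero_add, zero_mul, sub_zero, one_pow, mul_one, one_mul] at hsl
  have hsl2 := hsl.neg
  have e1 : -((n : ℝ) * -ms u / n.factorial) = n / n.factorial * ms u := by ring
  rw [e1] at hsl2
  refine hsl2.congr' ?_
  filter_upwards [hv, self_mem_nhdsWithin] with t ht ht2
  have ht0 : (0 : ℝ) < t := ht2
  rw [ht, volume_corner_one, ENNReal.toReal_ofReal (by positivity), smul_eq_mul]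
  field_simp
  ring

theorem PB_smul {n : ℕ} {h : (Fin n → ℝ) → ℝ} {c : ℝ} (hc : 0 < c) :
    PB (fun u => c * h u) = c • PB h := by
  ext x
  rw [Set.mem_smul_set_iff_inv_smul_mem₀ hc.ne']
  simp only [PB, mem_ofPred_eq, Pi.smul_apply, smul_eq_mul, mul_assoc, ← Finset.mul_sum]
  constructor
  · intro hx u
    rw [inv_mul_le_iff₀ hc]; exact hx u
  · intro hx u
    have := hx u
    rwa [inv_mul_le_iff₀ hc] at this

theorem volume_PB_smul {n : ℕ} {h : (Fin n → ℝ) → ℝ} {c : ℝ} (hc : 0 < c) :
    volume (PB (fun u => c * h u)) = ENNReal.ofReal (c ^ n) * volume (PB h) := by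
  rw [PB_smul hc, Measure.addHaar_smul]
  simp [abs_of_pos hc]

theorem sum_pos_neg {n : ℕ} (u : Fin n → ℝ) :
    ∑ i, max (-u i) 0 = ∑ i, max (u i) 0 - ∑ i, u i := by
  rw [← Finset.sum_sub_distrib]
  apply Finset.sum_congr rfl
  intro i _
  rcases le_total (u i) 0 with h | h
  · rw [max_eq_left (by linarith), max_eq_right h]; ring
  · rw [max_eq_right (by linarith), max_eq_left h]; ring

theorem PB_ms {n : ℕ} : PB (ms : (Fin n → ℝ) → ℝ) = rng n 1 := by
  ext x
  simp only [PB, rng, mem_ofPred_eq]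
  constructor
  · intro hx
    have h1 : ∀ i, x i ≤ 1 := by
      intro i
      have := hx (Pi.single i 1)
      simp only [ms, Pi.single_apply, mul_ite, mul_one, mul_zero, Finset.sum_ite_eq',
        Finset.mem_univ, if_true] at this
      have e : ∑ j, max (if j = i then (1:ℝ) else 0) 0 = 1 := by
        rw [Finset.sum_eq_single i] <;> simp +contextual
      rw [e] at this
      norm_num at this
      exact this
    have h2 : ∀ i, -x i ≤ 1 := by
      intro i
      have := hx (Pi.single i (-1))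
      simp only [ms, Pi.single_apply, mul_ite, mul_neg, mul_one, mul_zero, Finset.sum_ite_eq',
        Finset.mem_univ, if_true] at this
      have e : ∑ j, max (if j = i then (-1:ℝ) else 0) 0 = 0 := by
        apply Finset.sum_eq_zero
        intro j _
        split_ifs <;> norm_num
      rw [e] at this
      norm_num at this
      linarith
    have h3 : ∀ i j, x i - x j ≤ 1 := by
      intro i j
      by_cases hij : i = j
      · subst hij; norm_num
      have := hx (Pi.single i 1 + Pi.single j (-1))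
      have e0 : ∑ k, x k * ((Pi.single i 1 + Pi.single j (-1) : Fin n → ℝ) k) = x i - x j := by
        simp only [Pi.add_apply, mul_add, Finset.sum_add_distrib, Pi.single_apply, mul_ite,
          mul_neg, mul_one, mul_zero, Finset.sum_ite_eq', Finset.mem_univ, if_true]
        ring
      have e1 : ∑ k, max ((Pi.single i 1 + Pi.single j (-1) : Fin n → ℝ) k) 0 = 1 := by
        rw [Finset.sum_eq_single i]
        · simp [hij]
        · intro k _ hk
          by_cases hkj : k = j
          · subst hkj; simp [hk]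
          · simp [hk, hkj]
        · simp
      have e2 : ∑ k, ((Pi.single i 1 + Pi.single j (-1) : Fin n → ℝ) k) = 0 := by
        simp [Finset.sum_add_distrib]
      rw [e0, ms, e1, e2] at this
      simpa using this
    have h4 : mx x ≤ 1 - mx (-x) := by
      have h5 : ∀ i, mx (-x) ≤ 1 - x i := by
        intro i
        rw [mx_le_iff]
        exact ⟨by linarith [h1 i], fun j => by simp only [Pi.neg_apply]; linarith [h3 i j]⟩
      have h6 : mx (-x) ≤ 1 := by
        rw [mx_le_iff]
        exact ⟨zero_le_one, fun j => by simpa using h2 j⟩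
      rw [mx_le_iff]
      exact ⟨by linarith, fun i => by linarith [h5 i]⟩
    linarith
  · intro hx u
    have hM := mx_nonneg x
    have hM' := mx_nonneg (-x)
    have hP : 0 ≤ ∑ i, max (u i) 0 := Finset.sum_nonneg fun _ _ => le_max_right _ _
    have hQ : 0 ≤ ∑ i, max (-u i) 0 := Finset.sum_nonneg fun _ _ => le_max_right _ _
    have h1 : ∑ i, x i * u i ≤ mx x * ∑ i, max (u i) 0 + mx (-x) * ∑ i, max (-u i) 0 := by
      rw [Finset.mul_sum, Finset.mul_sum, ← Finset.sum_add_distrib]
      apply Finset.sum_le_sum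
      intro i _
      have ha := le_mx x i
      have hb := le_mx (-x) i
      simp only [Pi.neg_apply] at hb
      rcases le_total (u i) 0 with h | h
      · rw [max_eq_right h, max_eq_left (by linarith : (0:ℝ) ≤ -u i)]
        nlinarith
      · rw [max_eq_left h, max_eq_right (by linarith : -u i ≤ (0:ℝ))]
        nlinarith
    have h2 := sum_pos_neg u
    have h3 : ∑ i, max (u i) 0 ≤ ms u := by unfold ms; linarith [le_max_right (-∑ i, u i) 0]
    have h4 : ∑ i, max (-u i) 0 ≤ ms u := by unfold ms; linarith [le_max_left (-∑ i, u i) 0]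
    calc ∑ i, x i * u i ≤ mx x * ∑ i, max (u i) 0 + mx (-x) * ∑ i, max (-u i) 0 := h1
      _ ≤ mx x * ms u + mx (-x) * ms u := by gcongr
      _ = (mx x + mx (-x)) * ms u := by ring
      _ ≤ 1 * ms u := by gcongr; exact ms_nonneg u
      _ = ms u := one_mul _

theorem volume_PB_corner {n : ℕ} (hn : 0 < n) :
    (volume (PB (fun u : Fin n → ℝ => (n : ℝ) / n.factorial * ms u))).toReal =
      ((n : ℝ) / n.factorial) ^ n * (n + 1) := by
  rw [volume_PB_smul (by positivity), PB_ms, volume_rng_one, ENNReal.toReal_mul,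
    ENNReal.toReal_ofReal (by positivity), ENNReal.toReal_natCast]
  push_cast
  ring

/-! ### Products -/

theorem splt_surj {a b : ℕ} (p : (Fin a → ℝ) × (Fin b → ℝ)) : splt a b (Fin.append p.1 p.2) = p := by
  apply Prod.ext
  · funext i; simp [splt]
  · funext i; simp [splt]

theorem volume_splt {a b : ℕ} {K1 : Set (Fin a → ℝ)} {K2 : Set (Fin b → ℝ)}
    (h1 : MeasurableSet K1) (h2 : MeasurableSet K2) :
    volume (splt a b ⁻¹' (K1 ×ˢ K2)) = volume K1 * volume K2 := by
  rw [(measurePreserving_splt a b).measure_preimage (h1.prod h2).nullMeasurableSet,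
    Measure.prod_prod]

theorem plap_splt {a b : ℕ} (K1 : Set (Fin a → ℝ)) (K2 : Set (Fin b → ℝ))
    (u : Fin (a + b) → ℝ) (t : ℝ) :
    plap (splt a b ⁻¹' (K1 ×ˢ K2)) u t =
      splt a b ⁻¹' (plap K1 (splt a b u).1 t ×ˢ plap K2 (splt a b u).2 t) := by
  ext x
  simp only [plap, mem_inter_iff, mem_preimage, mem_prod, mem_ofPred_eq]
  have e1 : (splt a b (x - t • u)).1 = (splt a b x).1 - t • (splt a b u).1 := rfl
  have e2 : (splt a b (x - t • u)).2 = (splt a b x).2 - t • (splt a b u).2 := rfl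
  rw [e1, e2]
  tauto

theorem isCompact_plap {n : ℕ} {K : Set (Fin n → ℝ)} (hK : IsCompact K) (u : Fin n → ℝ) (t : ℝ) :
    IsCompact (plap K u t) :=
  hK.inter_right (hK.isClosed.preimage (continuous_id.sub continuous_const))

theorem IsSh.prod {a b : ℕ} {K1 : Set (Fin a → ℝ)} {K2 : Set (Fin b → ℝ)}
    {h1 : (Fin a → ℝ) → ℝ} {h2 : (Fin b → ℝ) → ℝ} (hc1 : IsCompact K1) (hc2 : IsCompact K2)
    (hs1 : IsSh K1 h1) (hs2 : IsSh K2 h2) :
    IsSh (splt a b ⁻¹' (K1 ×ˢ K2)) (fun u => (volume K2).toReal * h1 (splt a b u).1 +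
      (volume K1).toReal * h2 (splt a b u).2) := by
  intro u
  have t1 := hs1 (splt a b u).1
  have t2 := hs2 (splt a b u).2
  have tid : Tendsto (fun t : ℝ => t) (𝓝[>] 0) (𝓝 0) := tendsto_id.mono_left nhdsWithin_le_nhds
  have tA : Tendsto (fun t : ℝ => (volume (plap K1 (splt a b u).1 t)).toReal) (𝓝[>] 0)
      (𝓝 (volume K1).toReal) := by
    have h3 := (t1.mul tid).const_sub (volume K1).toReal
    rw [mul_zero, sub_zero] at h3
    refine h3.congr' ?_
    filter_upwards [self_mem_nhdsWithin] with t ht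
    have ht0 : (0 : ℝ) < t := ht
    field_simp
    ring
  have t3 := (t1.const_mul (volume K2).toReal).add (tA.mul t2)
  refine t3.congr' ?_
  filter_upwards [self_mem_nhdsWithin] with t ht
  have ht0 : (0 : ℝ) < t := ht
  rw [plap_splt, volume_splt hc1.measurableSet hc2.measurableSet,
    volume_splt (isCompact_plap hc1 _ _).measurableSet (isCompact_plap hc2 _ _).measurableSet,
    ENNReal.toReal_mul, ENNReal.toReal_mul]
  field_simp
  ring

theorem PB_prod {a b : ℕ} {h1 : (Fin a → ℝ) → ℝ} {h2 : (Fin b → ℝ) → ℝ} (z1 : h1 0 = 0)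
    (z2 : h2 0 = 0) :
    PB (fun u => h1 (splt a b u).1 + h2 (splt a b u).2) = splt a b ⁻¹' (PB h1 ×ˢ PB h2) := by
  ext x
  simp only [PB, mem_ofPred_eq, mem_preimage, mem_prod, sum_splt]
  constructor
  · intro hx
    constructor
    · intro u
      have := hx (Fin.append u 0)
      rw [splt_surj (u, 0)] at this
      simpa [z2] using this
    · intro u
      have := hx (Fin.append 0 u)
      rw [splt_surj (0, u)] at this
      simpa [z1] using this
  · rintro ⟨hx1, hx2⟩ u
    exact add_le_add (hx1 _) (hx2 _)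

theorem isClosed_PB {n : ℕ} (h : (Fin n → ℝ) → ℝ) : IsClosed (PB h) := by
  unfold PB
  rw [Set.ofPred_forall]
  refine isClosed_iInter fun u => isClosed_le ?_ continuous_const
  fun_prop

/-- All the data of a polytope we need. -/
structure Good (n : ℕ) (v p : ℝ) : Prop where
  ex : ∃ (S : Finset (Fin n → ℝ)) (h : (Fin n → ℝ) → ℝ),
    (interior (convexHull ℝ (S : Set (Fin n → ℝ)))).Nonempty ∧
    IsSh (convexHull ℝ (S : Set (Fin n → ℝ))) h ∧
    (volume (convexHull ℝ (S : Set (Fin n → ℝ)))).toReal = v ∧ 0 < v ∧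
    (volume (PB h)).toReal = p

/-- Linear coordinates splitting. -/
def spltL (a b : ℕ) : (Fin (a + b) → ℝ) ≃L[ℝ] (Fin a → ℝ) × (Fin b → ℝ) :=
  { toFun := splt a b
    map_add' := fun _ _ => rfl
    map_smul' := fun _ _ => rfl
    invFun := fun p => Fin.append p.1 p.2
    left_inv := fun x => by
      funext i
      refine Fin.addCases (fun i => ?_) (fun i => ?_) i <;> simp [splt]
    right_inv := fun p => splt_surj p
    continuous_toFun := by unfold splt; fun_prop
    continuous_invFun := by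
      refine continuous_pi fun i => ?_
      refine Fin.addCases (fun i => ?_) (fun i => ?_) i
      · simp only [Fin.append_left]; fun_prop
      · simp only [Fin.append_right]; fun_prop }

theorem Good.mul {a b : ℕ} {v1 p1 v2 p2 : ℝ} (g1 : Good a v1 p1) (g2 : Good b v2 p2) :
    Good (a + b) (v1 * v2) (v2 ^ a * p1 * (v1 ^ b * p2)) := by
  obtain ⟨S1, h1, hi1, hs1, hv1, hp1, hq1⟩ := g1.ex
  obtain ⟨S2, h2, hi2, hs2, hv2, hp2, hq2⟩ := g2.ex
  classical
  have hc1 : IsCompact (convexHull ℝ (S1 : Set (Fin a → ℝ))) := S1.finite_toSet.isCompact_convexHull ℝ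
  have hc2 : IsCompact (convexHull ℝ (S2 : Set (Fin b → ℝ))) := S2.finite_toSet.isCompact_convexHull ℝ
  have hset : convexHull ℝ (((S1 ×ˢ S2).image (spltL a b).symm : Finset _) :
      Set (Fin (a + b) → ℝ)) = splt a b ⁻¹' (convexHull ℝ (S1 : Set (Fin a → ℝ)) ×ˢ
        convexHull ℝ (S2 : Set (Fin b → ℝ))) := by
    rw [Finset.coe_image, Finset.coe_product, ← convexHull_prod]
    have e := (spltL a b).symm.toLinearEquiv.toLinearMap.image_convexHull
      ((S1 : Set (Fin a → ℝ)) ×ˢ (S2 : Set (Fin b → ℝ)))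
    have e2 := (spltL a b).symm.image_eq_preimage_symm (convexHull ℝ
      ((S1 : Set (Fin a → ℝ)) ×ˢ (S2 : Set (Fin b → ℝ))))
    exact e.symm.trans e2
  refine ⟨⟨(S1 ×ˢ S2).image (spltL a b).symm, fun u =>
    (volume (convexHull ℝ (S2 : Set (Fin b → ℝ)))).toReal * h1 (splt a b u).1 +
      (volume (convexHull ℝ (S1 : Set (Fin a → ℝ)))).toReal * h2 (splt a b u).2,
      ?_, ?_, ?_, mul_pos hp1 hp2, ?_⟩⟩
  rotate_left
  · rw [hset]; exact hs1.prod hc1 hc2 hs2
  · rw [hset, volume_splt hc1.measurableSet hc2.measurableSet, ENNReal.toReal_mul, hv1, hv2]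
  · rw [hv1, hv2, PB_prod (h1 := fun u => v2 * h1 u) (h2 := fun u => v1 * h2 u)
      (by simp [hs1.zero]) (by simp [hs2.zero]),
      volume_splt (isClosed_PB _).measurableSet (isClosed_PB _).measurableSet,
      volume_PB_smul hp2, volume_PB_smul hp1]
    simp only [ENNReal.toReal_mul, hq1, hq2]
    rw [ENNReal.toReal_ofReal (by positivity), ENNReal.toReal_ofReal (by positivity)]
  · rw [hset]
    have : splt a b ⁻¹' (interior (convexHull ℝ (S1 : Set (Fin a → ℝ))) ×ˢ
        interior (convexHull ℝ (S2 : Set (Fin b → ℝ)))) ⊆ interior (splt a b ⁻¹'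
          (convexHull ℝ (S1 : Set (Fin a → ℝ)) ×ˢ convexHull ℝ (S2 : Set (Fin b → ℝ)))) := by
      apply interior_maximal
      · exact preimage_mono (Set.prod_mono interior_subset interior_subset)
      · exact (isOpen_interior.prod isOpen_interior).preimage (spltL a b).continuous
    refine Set.Nonempty.mono this ?_
    obtain ⟨x1, hx1⟩ := hi1
    obtain ⟨x2, hx2⟩ := hi2
    exact ⟨Fin.append x1 x2, by rw [mem_preimage, splt_surj (x1, x2)]; exact ⟨hx1, hx2⟩⟩

end Crest.Agent.R230.Simp
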