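import Crest.Agent.R230.CRbound
import Crest.Agent.R230.HmBound
import Crest.Agent.R230.MasterCap

/-!
# Row 230: positivity of `PA` for `k ≤ 0` in the uncapped region, large dimension (helper237)

`PA_k_nonpos` : `n ≥ 20`, `θ₀ = 3/2`, `0 ≤ θ₁`, `39/8 + 3 θ₁ ≤ σ`, `0 ≤ B ≤ b ≤ 6/25`, `0 ≤ μ ≤ 243/200`,
`θ₁ ≤ (1 - μ/2 - b)(n-1)`; region `0 < s < 1`, `l ≤ 11/20`, `s e^l ≤ 1`, `-1 < k ≤ 0`: no a-priori bound.
-/

set_option autoImplicit false

open MeasureTheory Set Filter Topology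
open scoped Pointwise ENNReal

namespace Crest.Agent.R230.WR

/-- `- log κ ≤ (1-κ)/√κ` for `0 < κ ≤ 1` -/
lemma neg_log_le {w : ℝ} (hw : 0 < w) (hw1 : w ≤ 1) : -Real.log (w ^ 2) ≤ (1 - w ^ 2) / w := by
  have h1 : 0 ≤ Real.log w⁻¹ := Real.log_nonneg ((one_le_inv₀ hw).2 hw1)
  have h2 := (Real.self_le_sinh_iff).2 h1
  rw [Real.sinh_log (inv_pos.2 hw), inv_inv] at h2
  rw [Real.log_inv] at h2
  rw [Real.log_pow]
  have e : (1 - w ^ 2) / w = w⁻¹ - w := by field_simp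
  rw [e]
  push_cast
  linarith

/-- `h_n(k) ≤ K w/(1+w)`, `w = √(1+k)`, for `-1 < k ≤ 0` -/
lemma hm_le_w {n : ℕ} (hn : 1 ≤ n) {k w : ℝ} (hw : 0 < w) (hw1 : w ≤ 1) (hkw : 1 + k = w ^ 2) :
    hm n k ≤ KK k * (w / (1 + w)) := by
  have hn0 : (0 : ℝ) < n := by exact_mod_cast hn
  have h1 : Real.log (1 + k) / n ≤ (1 + k) ^ ((1 : ℝ) / n) - 1 := by
    have hpos : 0 < 1 + k := by rw [hkw]; positivity
    rw [Real.rpow_def_of_pos hpos]
    have := Real.add_one_le_exp (Real.log (1 + k) * (1 / n))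
    have e : Real.log (1 + k) / n = Real.log (1 + k) * (1 / n) := by ring
    rw [e]
    linarith
  have h2 : Real.log (1 + k) ≤ n * ((1 + k) ^ ((1 : ℝ) / n) - 1) := by
    have := mul_le_mul_of_nonneg_left h1 hn0.le
    rwa [mul_div_cancel₀ _ hn0.ne'] at this
  have h3 := neg_log_le hw hw1
  rw [← hkw] at h3
  have hk : k = w ^ 2 - 1 := by linarith
  have e : KK k * (w / (1 + w)) = k + (1 - (1 + k)) / w := by
    unfold KK
    rw [hkw, hk]
    have : 1 + w ≠ 0 := by positivity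
    field_simp
    ring
  rw [e]
  unfold hm
  linarith

lemma Gm_nonneg {n : ℕ} (hn : 1 ≤ n) (l : ℝ) : 0 ≤ Gm n l := by
  have hn0 : (0 : ℝ) < n := by exact_mod_cast hn
  unfold Gm
  have h := Real.add_one_le_exp (l / n)
  have := mul_le_mul_of_nonneg_left (show l / n ≤ Real.exp (l / n) - 1 by linarith) hn0.le
  rw [mul_div_cancel₀ _ hn0.ne'] at this
  linarith

lemma hm_nonneg {n : ℕ} (hn : 1 ≤ n) {k : ℝ} (hk : 0 < 1 + k) : 0 ≤ hm n k := by
  have hn0 : (0 : ℝ) < n := by exact_mod_cast hn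
  have hn1 : (1 : ℝ) ≤ n := by exact_mod_cast hn
  unfold hm
  have h := rpow_one_add_le_one_add_mul_self (s := k) (by linarith) (p := 1 / n)
    (by positivity) (by rw [div_le_one hn0]; exact hn1)
  have := mul_le_mul_of_nonneg_left (show (1 + k) ^ ((1 : ℝ) / n) - 1 ≤ 1 / n * k by linarith) hn0.le
  have e : (n : ℝ) * (1 / n * k) = k := by field_simp
  linarith

lemma one_le_aq {s : ℝ} (hs : s ∈ Ioo (0 : ℝ) 1) : 1 ≤ aq s := by
  have hc := cc_pos' hs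
  have hc1 := cc_le_one s
  unfold aq
  have : 2 * cc s ^ 2 / (1 + cc s) ≤ 1 := by
    rw [div_le_one (by positivity)]
    nlinarith
  linarith

/-- `Y l ≤ s/2` if `0 ≤ l`, `s e^l ≤ 1` -/
lemma Yl_le {s l : ℝ} (hs : s ∈ Ioo (0 : ℝ) 1) (hl : 0 ≤ l) (hT : s * Real.exp l ≤ 1) :
    Y s * l ≤ s / 2 := by
  have hs0 := hs.1
  have h1 : l ≤ Real.log s⁻¹ := by
    rw [Real.le_log_iff_exp_le (inv_pos.2 hs0), le_inv_comm₀ (Real.exp_pos _) hs0, ← one_div,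
      le_div_iff₀ (Real.exp_pos _)]
    exact hT
  have h2 := (Real.self_le_sinh_iff).2 (hl.trans h1)
  rw [Real.sinh_log (inv_pos.2 hs0), inv_inv] at h2
  have h3 : l ≤ (s⁻¹ - s) / 2 := h1.trans h2
  have hY := Y_nonneg hs
  calc Y s * l ≤ Y s * ((s⁻¹ - s) / 2) := mul_le_mul_of_nonneg_left h3 hY
    _ = s / 2 := by
        unfold Y
        have := (one_sub_sq_pos hs).ne'
        field_simp

lemma aq_sub_ge {s : ℝ} (hs : s ∈ Ioo (0 : ℝ) 1) : 1 / 3 ≤ aq s - 3 / 2 * s := by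
  have hc := cc_pos' hs
  have hc1 := cc_le_one s
  have hc2 := cc_sq' hs
  have hs0 := hs.1
  unfold aq
  set c := cc s with hcd
  have h1 : 0 < 1 + c := by linarith
  -- s ≤ S, S = (10/9 (1+c) - 4/3 c²)/(1+c)
  have hpoly : (1 - c ^ 2) * (9 / 4 * (1 + c) ^ 2) ≤ (5 / 3 * (1 + c) - 2 * c ^ 2) ^ 2 := by
    nlinarith [sq_nonneg (c ^ 2 - 2 / 10 * c - 3 / 10), sq_nonneg (c ^ 2 - 13 / 20 * c), sq_nonneg (c - 13 / 20),
      mul_nonneg hc.le (sq_nonneg (c - 13 / 20)), mul_nonneg (mul_nonneg hc.le hc.le) (sq_nonneg (c - 13 / 20))]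
  have hR : 0 ≤ 5 / 3 * (1 + c) - 2 * c ^ 2 := by nlinarith
  have h2 : 3 / 2 * s * (1 + c) ≤ 5 / 3 * (1 + c) - 2 * c ^ 2 := by
    refine le_of_sq_le_sq ?_ hR
    have : (3 / 2 * s * (1 + c)) ^ 2 = (1 - c ^ 2) * (9 / 4 * (1 + c) ^ 2) := by
      rw [hc2]; ring
    rw [this]
    exact hpoly
  have h3 : 2 * c ^ 2 / (1 + c) ≤ 5 / 3 - 3 / 2 * s := by
    rw [div_le_iff₀ h1]
    nlinarith
  linarith

/-- the polynomial inequality -/
lemma poly_w {w z A : ℝ} (hw : 0 < w) (hw1 : w ≤ 1) (hz : 0 ≤ z) (hA : 1 - 3 * z ≤ A) (hA3 : 1 / 3 ≤ A) :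
    0 ≤ (1 - w ^ 2) ^ 2 * (A - (5 / 36 + 5 / 9 * w + 6 / 25 * w ^ 2)) + 20 * z ^ 2 * w ^ 2 := by
  set P : ℝ := 5 / 36 + 5 / 9 * w + 6 / 25 * w ^ 2 with hP
  have hx : 0 ≤ (1 - w ^ 2) ^ 2 := sq_nonneg _
  have hx1 : (1 - w ^ 2) ^ 2 ≤ 1 := by
    have : w ^ 2 ≤ 1 := by nlinarith
    nlinarith [sq_nonneg w]
  rcases le_or_gt P A with h | h
  · have := mul_nonneg hx (sub_nonneg.2 h)
    positivity
  · -- `P > A ≥ 1/3`
    have hw3 : 30 / 100 ≤ w := by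
      by_contra hcon
      push Not at hcon
      have : P ≤ 1 / 3 := by rw [hP]; nlinarith
      linarith
    rcases le_or_gt w (37 / 100) with h2 | h2
    · have hP2 : P ≤ 378 / 1000 := by rw [hP]; nlinarith
      have hz2 : 207 / 1000 ≤ z := by linarith
      have h3 : 20 * (207 / 1000) ^ 2 * (30 / 100) ^ 2 ≤ 20 * z ^ 2 * w ^ 2 := by gcongr
      have h4 : (1 - w ^ 2) ^ 2 * (A - P) ≥ -(45 / 1000) := by nlinarith
      norm_num at h3
      linarith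
    · -- discriminant
      have hdisc : 9 * (1 - w ^ 2) ^ 2 ≤ 80 * w ^ 2 * (1 - P) := by
        rw [hP]
        nlinarith [mul_nonneg (sub_nonneg.2 h2.le) (sub_nonneg.2 hw1),
          mul_nonneg (mul_nonneg (sub_nonneg.2 h2.le) (sub_nonneg.2 hw1)) hw.le,
          mul_nonneg (mul_nonneg (sub_nonneg.2 h2.le) (sub_nonneg.2 hw1)) (sq_nonneg w),
          mul_nonneg (mul_nonneg (sub_nonneg.2 h2.le) (sub_nonneg.2 hw1)) (sq_nonneg (w - 1)),
          mul_nonneg (sub_nonneg.2 h2.le) (sq_nonneg (w - 1 / 2))]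
      have h3 : (1 - w ^ 2) ^ 2 * (1 - 3 * z - P) ≤ (1 - w ^ 2) ^ 2 * (A - P) :=
        mul_le_mul_of_nonneg_left (by linarith) hx
      have h4 : 0 ≤ (1 - w ^ 2) ^ 2 * (1 - 3 * z - P) + 20 * z ^ 2 * w ^ 2 := by
        have hw2 : 0 < w ^ 2 := by positivity
        have h5 : 0 ≤ 80 * w ^ 2 * ((1 - w ^ 2) ^ 2 * (1 - 3 * z - P) + 20 * z ^ 2 * w ^ 2) := by
          have e : 80 * w ^ 2 * ((1 - w ^ 2) ^ 2 * (1 - 3 * z - P) + 20 * z ^ 2 * w ^ 2) =
              (40 * z * w ^ 2 - 3 * (1 - w ^ 2) ^ 2) ^ 2 +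
                (1 - w ^ 2) ^ 2 * (80 * w ^ 2 * (1 - P) - 9 * (1 - w ^ 2) ^ 2) := by ring
          rw [e]
          have := mul_nonneg hx (sub_nonneg.2 hdisc)
          positivity
        have h6 : 0 < 80 * w ^ 2 := by positivity
        exact nonneg_of_mul_nonneg_right h5 h6
      linarith

/-- **`k ≤ 0`, uncapped region, large dimension** -/
theorem PA_k_nonpos {n : ℕ} {μ σ B b θ₁ lm s l k : ℝ} (hn : 20 ≤ n) (hs : s ∈ Ioo (0 : ℝ) 1)
    (hk : 0 < 1 + k) (hk0 : k ≤ 0) (hl : l ≤ 11 / 20) (hT : s * Real.exp l ≤ 1)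
    (hμ0 : 0 ≤ μ) (hμ : μ ≤ 243 / 200) (hB : B ≤ b) (hb0 : 0 ≤ b) (hb : b ≤ 6 / 25)
    (hθ₁ : 0 ≤ θ₁) (hσ : 39 / 8 + 3 * θ₁ ≤ σ) (hθ : θ₁ ≤ (1 - μ / 2 - b) * ((n : ℝ) - 1)) :
    0 ≤ PA n μ σ B (3 / 2) θ₁ 0 lm s l k ∧ (PA n μ σ B (3 / 2) θ₁ 0 lm s l k = 0 → l = 0) := by
  have hnR : (20 : ℝ) ≤ n := by exact_mod_cast hn
  have hn1 : 1 ≤ n := by omega
  have hY := Y_nonneg hs
  have hYpos : 0 < Y s := by
    unfold Y
    have := one_sub_sq_pos hs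
    have := hs.1
    positivity
  have hsY : s ^ 2 ≤ Y s := by
    unfold Y
    rw [le_div_iff₀ (one_sub_sq_pos hs)]
    nlinarith [sq_nonneg (s ^ 2)]
  have ha := one_le_aq hs
  have hG := Gm_nonneg (n := n) hn1 l
  have hK0 : 0 ≤ KK k := div_nonneg (sq_nonneg _) hk.le
  have hk2K : k ^ 2 ≤ KK k := by
    unfold KK
    rw [le_div_iff₀ hk]
    nlinarith [sq_nonneg k]
  have hh0 := hm_nonneg (n := n) hn1 hk
  have hμG : 0 ≤ μ * (((n : ℝ) - 1) * Y s * Gm n l) :=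
    mul_nonneg hμ0 (mul_nonneg (mul_nonneg (by linarith) hY) hG)
  have hs2 : 0 ≤ s ^ 2 := sq_nonneg s
  rcases le_or_gt 0 l with h0 | h0
  · -- l ≥ 0
    set w : ℝ := Real.sqrt (1 + k) with hwd
    have hw : 0 < w := Real.sqrt_pos.2 hk
    have hw2 : w ^ 2 = 1 + k := Real.sq_sqrt hk.le
    have hw1 : w ≤ 1 := by
      rw [hwd]; exact Real.sqrt_le_one.2 (by linarith)
    have hh := hm_le_w (n := n) hn1 hw hw1 hw2.symm
    have hKw : KK k * w ^ 2 = k ^ 2 := by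
      unfold KK; rw [hw2, div_mul_cancel₀ _ hk.ne']
    have hexp : μ * Real.exp (l / n) ≤ 5 / 4 := by
      have h1 : l / n ≤ 11 / 400 := by
        rw [div_le_iff₀ (by linarith)]
        nlinarith
      have h2 : Real.exp (l / n) ≤ Real.exp (11 / 400) := Real.exp_le_exp.2 h1
      have h3 : Real.exp (11 / 400 : ℝ) ≤ 257 / 250 := by
        have := Real.exp_bound' (x := 11 / 400) (by norm_num) (by norm_num) (n := 3) (by norm_num)
        simp only [Finset.sum_range_succ, Finset.sum_range_zero, Nat.factorial] at this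
        norm_num at this
        norm_num
        linarith
      have h4 : 0 < Real.exp (l / n) := Real.exp_pos _
      calc μ * Real.exp (l / n) ≤ 243 / 200 * (257 / 250) := by gcongr; exact h2.trans h3
        _ ≤ 5 / 4 := by norm_num
    have hfrac : w / (1 + w) ≤ 1 / 9 + 4 / 9 * w := by
      rw [div_le_iff₀ (by positivity)]
      nlinarith [sq_nonneg (1 - 2 * w)]
    have hterm : μ * (Real.exp (l / n) * hm n k) ≤ KK k * (5 / 36 + 5 / 9 * w) := by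
      calc μ * (Real.exp (l / n) * hm n k) = μ * Real.exp (l / n) * hm n k := by ring
        _ ≤ 5 / 4 * hm n k := mul_le_mul_of_nonneg_right hexp hh0
        _ ≤ 5 / 4 * (KK k * (w / (1 + w))) := by gcongr
        _ ≤ 5 / 4 * (KK k * (1 / 9 + 4 / 9 * w)) := by gcongr
        _ = _ := by ring
    have hBk : B * k ^ 2 ≤ KK k * (6 / 25 * w ^ 2) := by
      calc B * k ^ 2 ≤ 6 / 25 * k ^ 2 := mul_le_mul_of_nonneg_right (hB.trans hb) (sq_nonneg k)
        _ = KK k * (6 / 25 * w ^ 2) := by rw [← hKw]; ring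
    have hcR := cR_ge_pos hs h0 hl hT
    set z : ℝ := Y s * l with hz
    have hz0 : 0 ≤ z := mul_nonneg hY h0
    have hzs := Yl_le hs h0 hT
    have haq := aq_sub_ge hs
    have hA3 : 1 / 3 ≤ aq s - 3 * z := by linarith
    have hA1 : 1 - 3 * z ≤ aq s - 3 * z := by linarith
    have hp := poly_w hw hw1 hz0 hA1 hA3
    -- divide by `w²`
    have hKe : KK k = (1 - w ^ 2) ^ 2 / w ^ 2 := by
      unfold KK
      rw [hw2]
      congr 1
      ring
    have hmain : 0 ≤ KK k * (aq s - 3 * z - (5 / 36 + 5 / 9 * w + 6 / 25 * w ^ 2)) + 20 * z ^ 2 := by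
      have hw2p : 0 < w ^ 2 := by positivity
      have : KK k * (aq s - 3 * z - (5 / 36 + 5 / 9 * w + 6 / 25 * w ^ 2)) + 20 * z ^ 2 =
          ((1 - w ^ 2) ^ 2 * (aq s - 3 * z - (5 / 36 + 5 / 9 * w + 6 / 25 * w ^ 2)) + 20 * z ^ 2 * w ^ 2) /
            w ^ 2 := by
        rw [hKe]; field_simp
      rw [this]
      exact div_nonneg hp hw2p.le
    have hθs : 0 ≤ θ₁ * (s ^ 2 * (l * -k)) :=
      mul_nonneg hθ₁ (mul_nonneg hs2 (mul_nonneg h0 (by linarith)))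
    have hθY : 0 ≤ θ₁ * (((n : ℝ) - 1) * (Y s * (s ^ 2 * l ^ 2))) := by
      have : (0 : ℝ) ≤ (n : ℝ) - 1 := by linarith
      positivity
    have hθ2 : θ₁ * (s ^ 2 * l ^ 2) ≤ θ₁ * (Y s * l ^ 2) := by gcongr
    have hσ2 : (39 / 8 + 3 * θ₁) * (Y s * l ^ 2) ≤ σ * (Y s * l ^ 2) :=
      mul_le_mul_of_nonneg_right hσ (mul_nonneg hY (sq_nonneg l))
    have hn3 : 17 * z ^ 2 ≤ ((n : ℝ) - 3) * z ^ 2 :=
      mul_le_mul_of_nonneg_right (by linarith) (sq_nonneg z)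
    have hfinal : 1 / 2 * z ^ 2 ≤ PA n μ σ B (3 / 2) θ₁ 0 lm s l k := by
      unfold PA PB
      have ez : Y s ^ 2 * l ^ 2 = z ^ 2 := by rw [hz]; ring
      have ez2 : Y s * l * k = z * k := by rw [hz]
      have ez3 : Y s * (2 * l * k) = 2 * (z * k) := by rw [hz]; ring
      have ez4 : 3 * Y s * l = 3 * z := by rw [hz]; ring
      rw [ez, ez2, ez3, ez4]
      have hcR' : -(3 / 8 * (Y s * l ^ 2) + 5 * z ^ 2) ≤ cR s l := by
        have : Y s * l ^ 2 * (3 / 8 + 5 * Y s) = 3 / 8 * (Y s * l ^ 2) + 5 * z ^ 2 := by rw [hz]; ring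
        rw [← this]; exact hcR
      nlinarith
    refine ⟨le_trans (by positivity) hfinal, fun he => ?_⟩
    rw [he] at hfinal
    have : z = 0 := by
      have := sq_nonneg z
      have : z ^ 2 = 0 := by linarith
      exact pow_eq_zero_iff (two_ne_zero) |>.1 this
    rw [hz] at this
    rcases mul_eq_zero.1 this with h | h
    · exact absurd h hYpos.ne'
    · exact h
  · -- l < 0
    have hcR := cR_ge_neg' hs h0.le
    have hh := hm_le_neg (n := n) hn1 hk hk0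
    have hh2 : hm n k ≤ 1 / 2 * KK k := by
      refine hh.trans (mul_le_mul_of_nonneg_right ?_ hK0)
      rw [div_le_iff₀ (by linarith)]
      linarith
    have hexp : Real.exp (l / n) ≤ 1 := by
      rw [Real.exp_le_one_iff]
      exact div_nonpos_of_nonpos_of_nonneg h0.le (by linarith)
    have hterm : μ * (Real.exp (l / n) * hm n k) ≤ μ * (1 / 2 * KK k) := by
      refine mul_le_mul_of_nonneg_left ?_ hμ0
      calc Real.exp (l / n) * hm n k ≤ 1 * hm n k := mul_le_mul_of_nonneg_right hexp hh0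
        _ ≤ _ := by linarith
    set C : ℝ := 1 - μ / 2 - b with hC
    have hC0 : 0 ≤ C := by
      by_contra hcon
      push Not at hcon
      have : C * ((n : ℝ) - 1) < 0 := mul_neg_of_neg_of_pos hcon (by linarith)
      linarith
    have hBk : B * k ^ 2 ≤ b * k ^ 2 := mul_le_mul_of_nonneg_right hB (sq_nonneg k)
    have hK1 : (1 - μ / 2) * k ^ 2 ≤ (1 - μ / 2) * KK k :=
      mul_le_mul_of_nonneg_left hk2K (by linarith)
    have haK : KK k ≤ aq s * KK k := by nlinarith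
    have hlK : 0 ≤ -(3 * Y s * l) * KK k := by
      have : 0 ≤ -(3 * Y s * l) := by nlinarith
      exact mul_nonneg this hK0
    have hquad : 0 ≤ C * k ^ 2 - 2 * θ₁ * s ^ 2 * (l * k) + θ₁ * ((n : ℝ) - 1) * s ^ 4 * l ^ 2 := by
      rcases hC0.eq_or_lt with h | h
      · have : θ₁ = 0 := by rw [← h, zero_mul] at hθ; linarith
        rw [this, ← h]; simp
      · have h1 : 0 ≤ C * (C * k ^ 2 - 2 * θ₁ * s ^ 2 * (l * k) + θ₁ * ((n : ℝ) - 1) * s ^ 4 * l ^ 2) := by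
          have e : C * (C * k ^ 2 - 2 * θ₁ * s ^ 2 * (l * k) + θ₁ * ((n : ℝ) - 1) * s ^ 4 * l ^ 2) =
              (C * k - θ₁ * s ^ 2 * l) ^ 2 + θ₁ * (s ^ 4 * l ^ 2) * (C * ((n : ℝ) - 1) - θ₁) := by ring
          rw [e]
          have := sub_nonneg.2 hθ
          positivity
        exact nonneg_of_mul_nonneg_right h1 h
    have hθY : θ₁ * ((n : ℝ) - 1) * s ^ 4 * l ^ 2 ≤ θ₁ * (((n : ℝ) - 1) * (Y s * (s ^ 2 * l ^ 2))) := by
      have h1 : (0 : ℝ) ≤ (n : ℝ) - 1 := by linarith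
      have h2 : s ^ 4 * l ^ 2 ≤ Y s * (s ^ 2 * l ^ 2) := by
        have : s ^ 4 * l ^ 2 = s ^ 2 * (s ^ 2 * l ^ 2) := by ring
        rw [this]
        exact mul_le_mul_of_nonneg_right hsY (by positivity)
      calc θ₁ * ((n : ℝ) - 1) * s ^ 4 * l ^ 2 = θ₁ * (((n : ℝ) - 1) * (s ^ 4 * l ^ 2)) := by ring
        _ ≤ _ := mul_le_mul_of_nonneg_left (mul_le_mul_of_nonneg_left h2 h1) hθ₁
    have hθ2 : θ₁ * (s ^ 2 * l ^ 2) ≤ θ₁ * (Y s * l ^ 2) := by gcongr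
    have hσ2 : (39 / 8 + 3 * θ₁) * (Y s * l ^ 2) ≤ σ * (Y s * l ^ 2) :=
      mul_le_mul_of_nonneg_right hσ (mul_nonneg hY (sq_nonneg l))
    have hn3 : 17 * (Y s ^ 2 * l ^ 2) ≤ ((n : ℝ) - 3) * (Y s ^ 2 * l ^ 2) :=
      mul_le_mul_of_nonneg_right (by linarith) (by positivity)
    have hY2 : 0 ≤ Y s ^ 2 * l ^ 2 := by positivity
    have hfinal : 1 / 8 * (Y s * l ^ 2) ≤ PA n μ σ B (3 / 2) θ₁ 0 lm s l k := by
      unfold PA PB
      have hcR' : -(1 / 4 * (Y s * l ^ 2) + 1 / 4 * (Y s ^ 2 * l ^ 2)) ≤ cR s l := by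
        have : Y s * (1 + Y s) / 4 * l ^ 2 = 1 / 4 * (Y s * l ^ 2) + 1 / 4 * (Y s ^ 2 * l ^ 2) := by ring
        rw [← this]; exact hcR
      have hCe : C * k ^ 2 = (1 - μ / 2) * k ^ 2 - b * k ^ 2 := by rw [hC]; ring
      nlinarith
    have hYl : 0 < Y s * l ^ 2 := mul_pos hYpos (sq_pos_of_neg h0)
    refine ⟨le_trans (by positivity) hfinal, fun he => ?_⟩
    rw [he] at hfinal
    linarith

end Crest.Agent.R230.WR
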