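import Crest.Agent.R230.RegXneg

/-!
# Row 230: positivity of `PQ` (weighted Poincaré, `θ = 1`) for `k ≤ 0`, large dimension (helper237)

`PQ_k_nonpos` : `n ≥ 20`, `0 ≤ β ≤ 3/20`, `27/8 ≤ 2 (n-3) β`, `0 ≤ μ ≤ 1177/1000`; region `0 < s < 1`,
`l ≤ 11/20`, `s e^l ≤ 1`, `-1 < k ≤ 0`: no a-priori bound.
-/

set_option autoImplicit false

open MeasureTheory Set Filter Topology
open scoped Pointwise ENNReal

namespace Crest.Agent.R230.WR

lemma poly_G {w : ℝ} (hw : 0 ≤ w) (hw1 : w ≤ 1) :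
    0 ≤ (1 - w ^ 2) ^ 2 * (1 / 3 - (121 / 900 + 121 / 225 * w + 3 / 20 * w ^ 2)) + 26 / 81 * w ^ 2 +
      2 / 9 * w ^ 4 := by
  have h1 : 0 ≤ 1 - w := by linarith
  have h2 : 0 ≤ w * (1 - w) := mul_nonneg hw h1
  nlinarith [sq_nonneg (w - 2 / 5), sq_nonneg (w * (w - 2 / 5)), mul_nonneg hw (sq_nonneg (w - 2 / 5)),
    mul_nonneg h2 (sq_nonneg (w - 2 / 5)), mul_nonneg h1 (sq_nonneg (w - 2 / 5)),
    mul_nonneg h2 (sq_nonneg (w * (w - 2 / 5))), mul_nonneg h2 hw, mul_nonneg h2 (sq_nonneg w),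
    pow_nonneg hw 3, pow_nonneg hw 4, pow_nonneg hw 5, mul_nonneg h2 (pow_nonneg hw 3)]

lemma poly_w2 {w z A : ℝ} (hw : 0 < w) (hw1 : w ≤ 1) (hz : 0 ≤ z) (hA : 1 - 3 * z ≤ A) (hA3 : 1 / 3 ≤ A) :
    0 ≤ (1 - w ^ 2) ^ 2 * (A - (121 / 900 + 121 / 225 * w + 3 / 20 * w ^ 2)) -
      z * (1 - w ^ 2) * w ^ 2 + 11 * z ^ 2 * w ^ 2 := by
  set P : ℝ := 121 / 900 + 121 / 225 * w + 3 / 20 * w ^ 2 with hP
  have hx0 : 0 ≤ 1 - w ^ 2 := by nlinarith
  have hx : 0 ≤ (1 - w ^ 2) ^ 2 := sq_nonneg _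
  have hG := poly_G hw.le hw1
  rw [← hP] at hG
  have hw2 : 0 < w ^ 2 := by positivity
  rcases le_or_gt (2 / 9) z with h | h
  · have h3 : (1 - w ^ 2) ^ 2 * (1 / 3 - P) ≤ (1 - w ^ 2) ^ 2 * (A - P) :=
      mul_le_mul_of_nonneg_left (by linarith) hx
    have h4 : 26 / 81 * w ^ 2 + 2 / 9 * w ^ 4 ≤ -(z * (1 - w ^ 2) * w ^ 2) + 11 * z ^ 2 * w ^ 2 := by
      have e : -(z * (1 - w ^ 2) * w ^ 2) + 11 * z ^ 2 * w ^ 2 - (26 / 81 * w ^ 2 + 2 / 9 * w ^ 4) =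
          w ^ 2 * ((z - 2 / 9) * (11 * (z + 2 / 9) - (1 - w ^ 2))) := by ring
      have : 0 ≤ w ^ 2 * ((z - 2 / 9) * (11 * (z + 2 / 9) - (1 - w ^ 2))) :=
        mul_nonneg hw2.le (mul_nonneg (by linarith) (by nlinarith))
      linarith
    linarith
  · have h3 : (1 - w ^ 2) ^ 2 * (1 - 3 * z - P) ≤ (1 - w ^ 2) ^ 2 * (A - P) :=
      mul_le_mul_of_nonneg_left (by linarith) hx
    suffices h4 : 0 ≤ (1 - w ^ 2) ^ 2 * (1 - 3 * z - P) - z * (1 - w ^ 2) * w ^ 2 + 11 * z ^ 2 * w ^ 2 by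
      linarith
    rcases le_or_gt w (13 / 25) with h5 | h5
    · have e : (1 - w ^ 2) ^ 2 * (1 - 3 * z - P) - z * (1 - w ^ 2) * w ^ 2 + 11 * z ^ 2 * w ^ 2 =
          ((1 - w ^ 2) ^ 2 * (1 / 3 - P) + 26 / 81 * w ^ 2 + 2 / 9 * w ^ 4) +
          (2 / 9 - z) * ((1 - w ^ 2) * (3 - 2 * w ^ 2) - 11 * w ^ 2 * (z + 2 / 9)) := by ring
      rw [e]
      have h6 : 0 ≤ (1 - w ^ 2) * (3 - 2 * w ^ 2) - 11 * w ^ 2 * (z + 2 / 9) := by
        have h7 : w ^ 2 ≤ (13 / 25) ^ 2 := by gcongr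
        have h8 : 11 * w ^ 2 * (z + 2 / 9) ≤ 11 * w ^ 2 * (4 / 9) := by
          refine mul_le_mul_of_nonneg_left (by linarith) (by positivity)
        nlinarith
      have := mul_nonneg (sub_nonneg.2 h.le) h6
      linarith
    · have hdisc : (3 - 2 * w ^ 2) ^ 2 ≤ 44 * w ^ 2 * (1 - P) := by
        rw [hP]
        nlinarith [mul_nonneg (sub_nonneg.2 h5.le) (sub_nonneg.2 hw1),
          mul_nonneg (mul_nonneg (sub_nonneg.2 h5.le) (sub_nonneg.2 hw1)) hw.le,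
          mul_nonneg (mul_nonneg (sub_nonneg.2 h5.le) (sub_nonneg.2 hw1)) (sq_nonneg w)]
      have h6 : 0 ≤ 44 * w ^ 2 * ((1 - w ^ 2) ^ 2 * (1 - 3 * z - P) - z * (1 - w ^ 2) * w ^ 2 +
          11 * z ^ 2 * w ^ 2) := by
        have e : 44 * w ^ 2 * ((1 - w ^ 2) ^ 2 * (1 - 3 * z - P) - z * (1 - w ^ 2) * w ^ 2 +
          11 * z ^ 2 * w ^ 2) = (22 * z * w ^ 2 - (1 - w ^ 2) * (3 - 2 * w ^ 2)) ^ 2 +
            (1 - w ^ 2) ^ 2 * (44 * w ^ 2 * (1 - P) - (3 - 2 * w ^ 2) ^ 2) := by ring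
        rw [e]
        have := mul_nonneg hx (sub_nonneg.2 hdisc)
        positivity
      exact nonneg_of_mul_nonneg_right h6 (by positivity)

/-- **`k ≤ 0`, uncapped region, large dimension, `θ = 1`, weighted Poincaré** -/
theorem PQ_k_nonpos {n : ℕ} {μ β lm s l k : ℝ} (hn : 20 ≤ n) (hs : s ∈ Ioo (0 : ℝ) 1)
    (hk : 0 < 1 + k) (hk0 : k ≤ 0) (hl : l ≤ 11 / 20) (hT : s * Real.exp l ≤ 1)
    (hμ0 : 0 ≤ μ) (hμ : μ ≤ 1177 / 1000) (hβ0 : 0 ≤ β) (hβ : β ≤ 3 / 20)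
    (hσ : 27 / 8 ≤ 2 * ((n : ℝ) - 3) * β) :
    0 ≤ PQ n μ 0 β 1 0 lm s l k ∧ (PQ n μ 0 β 1 0 lm s l k = 0 → l = 0) := by
  have hnR : (20 : ℝ) ≤ n := by exact_mod_cast hn
  have hn1 : 1 ≤ n := by omega
  have hY := Y_nonneg hs
  have hYpos : 0 < Y s := by
    unfold Y
    have := one_sub_sq_pos hs
    have := hs.1
    positivity
  have ha := one_le_aq hs
  have hG := Gm_nonneg (n := n) hn1 l
  have hK0 : 0 ≤ KK k := div_nonneg (sq_nonneg _) hk.le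
  have hk2K : k ^ 2 ≤ KK k := by
    unfold KK
    rw [le_div_iff₀ hk]
    nlinarith [sq_nonneg k]
  have hh0 := hm_nonneg (n := n) hn1 hk
  have hμG : 0 ≤ μ * (((n : ℝ) - 1) * Y s * Gm n l) :=
    mul_nonneg hμ0 (mul_nonneg (mul_nonneg (by linarith) hY) hG)
  have hc0 := cc_nonneg s
  have hc1 := cc_le_one s
  have hc2 : cc s ^ 2 ≤ 1 := by nlinarith
  have hσ2 : 27 / 8 * (Y s * l ^ 2) ≤ sg n 0 β * (Y s * l ^ 2) := by
    refine mul_le_mul_of_nonneg_right ?_ (mul_nonneg hY (sq_nonneg l))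
    unfold sg
    linarith
  rcases le_or_gt 0 l with h0 | h0
  · -- l ≥ 0
    set w : ℝ := Real.sqrt (1 + k) with hwd
    have hw : 0 < w := Real.sqrt_pos.2 hk
    have hw2 : w ^ 2 = 1 + k := Real.sq_sqrt hk.le
    have hw1 : w ≤ 1 := by rw [hwd]; exact Real.sqrt_le_one.2 (by linarith)
    have hh := hm_le_w (n := n) hn1 hw hw1 hw2.symm
    have hKw : KK k * w ^ 2 = k ^ 2 := by
      unfold KK; rw [hw2, div_mul_cancel₀ _ hk.ne']
    have hexp : μ * Real.exp (l / n) ≤ 121 / 100 := by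
      have h1 : l / n ≤ 11 / 400 := by
        rw [div_le_iff₀ (by linarith)]
        nlinarith
      have h2 : Real.exp (l / n) ≤ Real.exp (11 / 400) := Real.exp_le_exp.2 h1
      have h3 : Real.exp (11 / 400 : ℝ) ≤ 257 / 250 := by
        have := Real.exp_bound' (x := 11 / 400) (by norm_num) (by norm_num) (n := 3) (by norm_num)
        simp only [Finset.sum_range_succ, Finset.sum_range_zero, Nat.factorial] at this
        norm_num at this
        norm_num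
        linarith
      have h4 : 0 < Real.exp (l / n) := Real.exp_pos _
      calc μ * Real.exp (l / n) ≤ 1177 / 1000 * (257 / 250) := by gcongr; exact h2.trans h3
        _ ≤ 121 / 100 := by norm_num
    have hfrac : w / (1 + w) ≤ 1 / 9 + 4 / 9 * w := by
      rw [div_le_iff₀ (by positivity)]
      nlinarith [sq_nonneg (1 - 2 * w)]
    have hterm : μ * (Real.exp (l / n) * hm n k) ≤ KK k * (121 / 900 + 121 / 225 * w) := by
      calc μ * (Real.exp (l / n) * hm n k) = μ * Real.exp (l / n) * hm n k := by ring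
        _ ≤ 121 / 100 * hm n k := mul_le_mul_of_nonneg_right hexp hh0
        _ ≤ 121 / 100 * (KK k * (w / (1 + w))) := by gcongr
        _ ≤ 121 / 100 * (KK k * (1 / 9 + 4 / 9 * w)) := by gcongr
        _ = _ := by ring
    have hBk : β * (cc s ^ 2 * k ^ 2) ≤ KK k * (3 / 20 * w ^ 2) := by
      calc β * (cc s ^ 2 * k ^ 2) ≤ 3 / 20 * (1 * k ^ 2) := by gcongr
        _ = KK k * (3 / 20 * w ^ 2) := by rw [← hKw]; ring
    have hcR := cR_ge_pos hs h0 hl hT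
    set z : ℝ := Y s * l with hz
    have hz0 : 0 ≤ z := mul_nonneg hY h0
    have hzs := Yl_le hs h0 hT
    have haq := aq_sub_ge hs
    have hA3 : 1 / 3 ≤ aq s - 3 * z := by linarith
    have hA1 : 1 - 3 * z ≤ aq s - 3 * z := by linarith
    have hp := poly_w2 hw hw1 hz0 hA1 hA3
    have hKe : KK k = (1 - w ^ 2) ^ 2 / w ^ 2 := by
      unfold KK
      rw [hw2]
      congr 1
      ring
    have hke : k = -(1 - w ^ 2) := by rw [hw2]; ring
    have hmain : 0 ≤ KK k * (aq s - 3 * z - (121 / 900 + 121 / 225 * w + 3 / 20 * w ^ 2)) + z * k +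
        11 * z ^ 2 := by
      have hw2p : 0 < w ^ 2 := by positivity
      have : KK k * (aq s - 3 * z - (121 / 900 + 121 / 225 * w + 3 / 20 * w ^ 2)) + z * k + 11 * z ^ 2 =
          ((1 - w ^ 2) ^ 2 * (aq s - 3 * z - (121 / 900 + 121 / 225 * w + 3 / 20 * w ^ 2)) -
            z * (1 - w ^ 2) * w ^ 2 + 11 * z ^ 2 * w ^ 2) / w ^ 2 := by
        rw [hKe, hke]; field_simp
        ring
      rw [this]
      exact div_nonneg hp hw2p.le
    have hn3 : 17 * z ^ 2 ≤ ((n : ℝ) - 3) * z ^ 2 :=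
      mul_le_mul_of_nonneg_right (by linarith) (sq_nonneg z)
    have hfinal : z ^ 2 ≤ PQ n μ 0 β 1 0 lm s l k := by
      unfold PQ
      have ez2 : Y s * l * k = z * k := by rw [hz]
      have ez4 : 3 * Y s * l = 3 * z := by rw [hz]; ring
      have ez5 : (1 * ((n : ℝ) - 3) * Y s ^ 2 + (sg n 0 β - 3 * 1) * Y s) * l ^ 2 =
          ((n : ℝ) - 3) * z ^ 2 + sg n 0 β * (Y s * l ^ 2) - 3 * (Y s * l ^ 2) := by rw [hz]; ring
      rw [ez2, ez4, ez5]
      have hcR' : -(3 / 8 * (Y s * l ^ 2) + 5 * z ^ 2) ≤ cR s l := by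
        have : Y s * l ^ 2 * (3 / 8 + 5 * Y s) = 3 / 8 * (Y s * l ^ 2) + 5 * z ^ 2 := by rw [hz]; ring
        rw [← this]; exact hcR
      nlinarith
    refine ⟨le_trans (by positivity) hfinal, fun he => ?_⟩
    rw [he] at hfinal
    have : z = 0 := by
      have := sq_nonneg z
      have : z ^ 2 = 0 := by linarith
      exact pow_eq_zero_iff (two_ne_zero) |>.1 this
    rw [hz] at this
    rcases mul_eq_zero.1 this with h | h
    · exact absurd h hYpos.ne'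
    · exact h
  · -- l < 0
    have hcR := cR_ge_neg' hs h0.le
    have hh := hm_le_neg (n := n) hn1 hk hk0
    have hh2 : hm n k ≤ 1 / 2 * KK k := by
      refine hh.trans (mul_le_mul_of_nonneg_right ?_ hK0)
      rw [div_le_iff₀ (by linarith)]
      linarith
    have hexp : Real.exp (l / n) ≤ 1 := by
      rw [Real.exp_le_one_iff]
      exact div_nonpos_of_nonpos_of_nonneg h0.le (by linarith)
    have hterm : μ * (Real.exp (l / n) * hm n k) ≤ 3 / 5 * KK k := by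
      calc μ * (Real.exp (l / n) * hm n k) ≤ μ * (1 * (1 / 2 * KK k)) := by gcongr
        _ ≤ 6 / 5 * (1 * (1 / 2 * KK k)) := by
            refine mul_le_mul_of_nonneg_right (by linarith) (by positivity)
        _ = _ := by ring
    have hBk : β * (cc s ^ 2 * k ^ 2) ≤ 3 / 20 * KK k := by
      calc β * (cc s ^ 2 * k ^ 2) ≤ 3 / 20 * (1 * KK k) := by gcongr
        _ = _ := by ring
    have haK : KK k ≤ aq s * KK k := by nlinarith
    have hlK : 0 ≤ -(3 * Y s * l) * KK k := by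
      have : 0 ≤ -(3 * Y s * l) := by nlinarith
      exact mul_nonneg this hK0
    have hlk : 0 ≤ Y s * l * k := by
      have : 0 ≤ Y s * (l * k) := mul_nonneg hY (mul_nonneg_of_nonpos_of_nonpos h0.le hk0)
      linarith
    have hn3 : 17 * (Y s ^ 2 * l ^ 2) ≤ ((n : ℝ) - 3) * (Y s ^ 2 * l ^ 2) :=
      mul_le_mul_of_nonneg_right (by linarith) (by positivity)
    have hY2 : 0 ≤ Y s ^ 2 * l ^ 2 := by positivity
    have hfinal : 1 / 8 * (Y s * l ^ 2) ≤ PQ n μ 0 β 1 0 lm s l k := by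
      unfold PQ
      have hcR' : -(1 / 4 * (Y s * l ^ 2) + 1 / 4 * (Y s ^ 2 * l ^ 2)) ≤ cR s l := by
        have : Y s * (1 + Y s) / 4 * l ^ 2 = 1 / 4 * (Y s * l ^ 2) + 1 / 4 * (Y s ^ 2 * l ^ 2) := by ring
        rw [← this]; exact hcR
      have ez5 : (1 * ((n : ℝ) - 3) * Y s ^ 2 + (sg n 0 β - 3 * 1) * Y s) * l ^ 2 =
          ((n : ℝ) - 3) * (Y s ^ 2 * l ^ 2) + sg n 0 β * (Y s * l ^ 2) - 3 * (Y s * l ^ 2) := by ring
      rw [ez5]
      nlinarith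
    have hYl : 0 < Y s * l ^ 2 := mul_pos hYpos (sq_pos_of_neg h0)
    refine ⟨le_trans (by positivity) hfinal, fun he => ?_⟩
    rw [he] at hfinal
    linarith

end Crest.Agent.R230.WR
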