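import Crest.Agent.R230.SD5Leaf

/-!
# Row 230: pointwise inequality for `SDL 4`: the axis, and large `r`
-/

set_option autoImplicit false
set_option maxHeartbeats 1000000
set_option linter.unusedVariables false
set_option maxRecDepth 100000

namespace Crest.Agent.R230.SD

open PolyC

theorem fin0 {m D B F f g0 g1 CD : ℝ} (hm : 0 ≤ m) (hD : 0 < D) (hF : 0 ≤ F) (hf : 0 < f)
    (hfF : f ^ 3 = 1 + F) (hg0 : 1 ≤ g0) (hg : g0 < g1) (hCD : CD ≤ D * F)
    (hi : 0 ≤ 4 / 3 * m * (D * ic g0 g1 + sl g0 g1 * CD) - B)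
    (hG : 0 ≤ 4 / 3 * g1 * m * D - B)
    (h0 : g0 = 1 ∨ 0 ≤ CD - (g0 ^ 3 - 1) * D) :
    B ≤ 4 / 3 * m * D * f := by
  rcases le_total g1 f with h | h
  · have : 0 ≤ 4 / 3 * m * D * (f - g1) := by
      have : 0 ≤ f - g1 := by linarith
      positivity
    linarith
  · have hg0f : g0 ≤ f := by
      have h3 : g0 ^ 3 ≤ f ^ 3 := by
        rcases h0 with h0 | h0
        · rw [h0, hfF]; linarith
        · have : 0 ≤ D * (F - (g0 ^ 3 - 1)) := by linarith
          have := nonneg_of_mul_nonneg_right this hD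
          rw [hfF]; linarith
      exact le_of_pow_le_pow_left₀ (by norm_num) hf.le h3
    have hch := chord3 (by linarith) hg0f h
    have hs : 0 ≤ sl g0 g1 := by
      unfold sl
      have : 0 < g1 := by linarith
      positivity
    have e1 : f ^ 3 - 1 = F := by linarith
    rw [e1] at hch
    have h4 := mul_le_mul_of_nonneg_left hch hD.le
    have h5 := mul_le_mul_of_nonneg_left hCD hs
    have h6 : D * ic g0 g1 + sl g0 g1 * CD ≤ D * f := by linarith
    have h7 := mul_le_mul_of_nonneg_left h6 (by positivity : 0 ≤ 4 / 3 * m)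
    linarith

/-! ## The axis -/

/-- `c⁵` times the volume slice mass with gauge, on the axis -/
noncomputable def BX (c : ℝ) : ℝ :=
  153 / 280 * (4 * c ^ 2 + 3 * c ^ 4 + 2 * c ^ 6 + c ^ 8) +
    6 / 245 * ((1 - c ^ 2) * (20 + 10 * c ^ 2 + 4 * c ^ 4 + c ^ 6)) -
    5 / 49 * (6 + 5 * c ^ 2 + 4 * c ^ 4 + 3 * c ^ 6 + 2 * c ^ 8 + c ^ 10) +
    1 / 10000 * (50929 / 120000 * (3 * c ^ 3 + 2 * c ^ 5 + c ^ 7)) +
    3 / 50 * (c * (1 - c ^ 2) ^ 4 * (5 + 6 * c ^ 2))

/-- `c³` times the surface slice mass on the axis -/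
noncomputable def mX (c : ℝ) : ℝ := 50929 / 120000 * (3 * c + 2 * c ^ 3 + c ^ 5)

/-- swept mass -/
noncomputable def CX (x0 c : ℝ) : ℝ :=
  50929 / 720000 * ((2 + c ^ 2) * (3 + c ^ 2)) * (3 / 2 * x0 * (1 - c ^ 2) - 1 / 2 * x0 ^ 3 * c ^ 2)

/-- `120000 mX` -/
def zM : List ℤ := [0, 152787, 0, 101858, 0, 50929]
/-- `c²` -/
def zC : List ℤ := [0, 0, 1]
/-- `1 - c²` -/
def zD : List ℤ := [1, 0, -1]
/-- `58800000000 BX` -/
def zB : List ℤ :=
  add (add (sm 32130000000 [0, 0, 4, 0, 3, 0, 2, 0, 1]) (mul (sm 1440000000 zD) [20, 0, 10, 0, 4, 0, 1]))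
    (add (sm (-6000000000) [6, 0, 5, 0, 4, 0, 3, 0, 2, 0, 1])
      (add (sm 49 (mul zC zM)) (mul (sm 3528000000 (mul (mul zD zD) (mul zD zD))) [0, 5, 0, 6])))
/-- `11520000000000 CX` -/
def zX (X : ℤ) : List ℤ :=
  mul (mul [2, 0, 1] [3, 0, 1]) (sm 50929 (add (sm (120000 * X) zD) (sm (-(X * X * X)) zC)))
/-- chord -/
def zFi (G0 G1 X : ℤ) : List ℤ :=
  add (sm 1960 (mul zM (add (sm (11520 * (G0 * (G1 * G1 + G1 * G0) + 1000000000)) zC) (zX X))))
    (sm (-(3 * (G1 * G1 + G1 * G0 + G0 * G0) * 11520)) zB)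
/-- ceiling -/
def zG (G1 : ℤ) : List ℤ := add (sm (1960 * G1) (mul zM zC)) (sm (-3) zB)
/-- floor -/
def zC0 (G0 X : ℤ) : List ℤ := add (zX X) (sm (-(11520 * (G0 * G0 * G0 - 1000000000))) zC)

theorem ev_zM (c : ℝ) : ev zM c = 120000 * mX c := by
  simp only [zM, ev_cons, ev_nil]; unfold mX; push_cast; ring
theorem ev_zC (c : ℝ) : ev zC c = c ^ 2 := by
  simp only [zC, ev_cons, ev_nil]; push_cast; ring
theorem ev_zD (c : ℝ) : ev zD c = 1 - c ^ 2 := by
  simp only [zD, ev_cons, ev_nil]; push_cast; ring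
theorem ev_zB (c : ℝ) : ev zB c = 58800000000 * BX c := by
  simp only [zB, ev_add, ev_sm, ev_mul, ev_zD, ev_zC, ev_zM, ev_cons, ev_nil]
  unfold BX mX
  push_cast
  ring
theorem ev_zX (X : ℤ) (c : ℝ) : ev (zX X) c = 11520000000000 * CX (X / 200) c := by
  simp only [zX, ev_add, ev_sm, ev_mul, ev_zD, ev_zC, ev_cons, ev_nil]
  unfold CX
  push_cast
  ring

theorem ev_zFi {G0 G1 X : ℤ} {c : ℝ} (h0 : 0 < G0) (h1 : 0 < G1) :
    ev (zFi G0 G1 X) c =
      3 * 58800000000 * (((G1:ℝ) ^ 2 + G1 * G0 + (G0:ℝ) ^ 2) * 11520) *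
        (4 / 3 * mX c * (c ^ 2 * ic (G0 / 1000) (G1 / 1000) + sl (G0 / 1000) (G1 / 1000) * CX (X / 200) c)
          - BX c) := by
  have h0' : (0:ℝ) < G0 := by exact_mod_cast h0
  have h1' : (0:ℝ) < G1 := by exact_mod_cast h1
  simp only [zFi, ev_add, ev_mul, ev_sm, ev_zC, ev_zM, ev_zB, ev_zX]
  unfold ic
  have hs : sl ((G0:ℝ) / 1000) (G1 / 1000) * ((G1:ℝ) ^ 2 + G1 * G0 + (G0:ℝ) ^ 2) = 1000000 := by
    unfold sl
    field_simp
    ring
  set s := sl ((G0:ℝ) / 1000) (G1 / 1000)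
  push_cast
  linear_combination (-(3 * 58800000000 * 11520 * (4 / 3) * mX c *
    (-(((G0:ℝ) / 1000) ^ 3 - 1) * c ^ 2 + CX (X / 200) c))) * hs

theorem ev_zG (G1 : ℤ) (c : ℝ) :
    ev (zG G1) c = 3 * 58800000000 * (4 / 3 * (G1 / 1000) * mX c * c ^ 2 - BX c) := by
  simp only [zG, ev_add, ev_mul, ev_sm, ev_zC, ev_zM, ev_zB]
  push_cast
  ring

theorem ev_zC0 (G0 X : ℤ) (c : ℝ) :
    ev (zC0 G0 X) c = 11520000000000 * (CX (X / 200) c - (((G0:ℝ) / 1000) ^ 3 - 1) * c ^ 2) := by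
  simp only [zC0, ev_add, ev_sm, ev_zC, ev_zX]
  push_cast
  ring

/-- facts on the axis -/
structure Ax (c x F f : ℝ) : Prop where
  hc : 0 < c
  hc1 : c < 1
  hx : 0 < x
  hxc : x ^ 2 * c ^ 2 = 1 - c ^ 2
  hF : 0 ≤ F
  hf : 0 < f
  hfF : f ^ 3 = 1 + F
  FX : 50929 / 720000 * ((2 + c ^ 2) * (3 + c ^ 2)) * x ^ 3 ≤ F

/-- inequality on an interval of the axis -/
def OKX (u w : ℤ) : Prop :=
  ∀ c x F f : ℝ, Ax c x F f → (u:ℝ) ≤ 64 * c → 64 * c ≤ w → BX c ≤ 4 / 3 * mX c * c ^ 2 * f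

theorem OKX.s {u m w : ℤ} (h1 : OKX u m) (h2 : OKX m w) : OKX u w := by
  intro c x F f g a1 a2
  rcases le_total (64 * c) (m:ℝ) with h | h
  · exact h1 c x F f g a1 h
  · exact h2 c x F f g h a2

theorem OKX.l {u w : ℤ} (G0 G1 X : ℤ) (hG0 : 1000 ≤ G0) (hG : G0 < G1) (huw : u < w) (hX : 0 ≤ X)
    (hi : chk1 12 (zFi G0 G1 X) u w 64 = true) (hg : chk1 12 (zG G1) u w 64 = true)
    (hc : G0 = 1000 ∨ chk1 12 (zC0 G0 X) u w 64 = true) : OKX u w := by
  intro c x F f g a1 a2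
  have hG0R : (1000:ℝ) ≤ G0 := by exact_mod_cast hG0
  have hGR : (G0:ℝ) < G1 := by exact_mod_cast hG
  have hXR : (0:ℝ) ≤ X := by exact_mod_cast hX
  have e1 := chk1_sound hi (by norm_num) huw (x := c) (by push_cast; exact a1) (by push_cast; exact a2)
  have e2 := chk1_sound hg (by norm_num) huw (x := c) (by push_cast; exact a1) (by push_cast; exact a2)
  rw [ev_zFi (by linarith) (by linarith)] at e1
  rw [ev_zG] at e2
  have h0 := g.hc
  have hc2 : 0 < c ^ 2 := by positivity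
  refine fin0 (F := F) (g0 := (G0:ℝ) / 1000) (g1 := (G1:ℝ) / 1000) (CD := CX (X / 200) c) ?_ hc2
    g.hF g.hf g.hfF (by linarith) (by linarith) ?_ (nonneg_of_scaled ?_ e1)
    (nonneg_of_scaled (by norm_num) e2) ?_
  · unfold mX; positivity
  · have h3 := cube_lb' g.hx.le (show (0:ℝ) ≤ (X:ℝ) / 200 by positivity)
    have h4 : 50929 / 720000 * ((2 + c ^ 2) * (3 + c ^ 2)) * (3 / 2 * ((X:ℝ) / 200) * x ^ 2 -
        1 / 2 * ((X:ℝ) / 200) ^ 3) ≤ F := by
      refine le_trans ?_ g.FX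
      gcongr
    have h5 := mul_le_mul_of_nonneg_left h4 hc2.le
    unfold CX
    rw [← g.hxc]
    linarith
  · have : (0:ℝ) < G1 := by linarith
    have : (0:ℝ) < G0 := by linarith
    positivity
  · rcases hc with hc | hc
    · left
      rw [hc]; norm_num
    · right
      have e3 := chk1_sound hc (by norm_num) huw (x := c) (by push_cast; exact a1)
        (by push_cast; exact a2)
      rw [ev_zC0] at e3
      exact nonneg_of_scaled (by norm_num) e3

theorem zx1 : OKX 0 29 := OKX.l 1615 1798 514 (by decide) (by decide) (by decide) (by decide)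
  (by decide +kernel) (by decide +kernel) (.inr (by decide +kernel))
theorem zx2 : OKX 29 41 := OKX.l 1248 1604 285 (by decide) (by decide) (by decide) (by decide)
  (by decide +kernel) (by decide +kernel) (.inr (by decide +kernel))
theorem zx3 : OKX 41 49 := OKX.l 1112 1247 192 (by decide) (by decide) (by decide) (by decide)
  (by decide +kernel) (by decide +kernel) (.inr (by decide +kernel))
theorem zx4 : OKX 49 54 := OKX.l 1056 1113 141 (by decide) (by decide) (by decide) (by decide)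
  (by decide +kernel) (by decide +kernel) (.inr (by decide +kernel))
theorem zx5 : OKX 54 61 := OKX.l 1001 1057 107 (by decide) (by decide) (by decide) (by decide)
  (by decide +kernel) (by decide +kernel) (.inr (by decide +kernel))
theorem zx6 : OKX 61 64 := OKX.l 1000 1001 44 (by decide) (by decide) (by decide) (by decide)
  (by decide +kernel) (by decide +kernel) (.inl rfl)

theorem axis : OKX 0 64 :=
  OKX.s zx1 (OKX.s zx2 (OKX.s zx3 (OKX.s zx4 (OKX.s zx5 zx6))))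

/-! ## Large `r` -/

/-- the ceiling polynomial, shifted -/
def pBig : List (List ℤ) := comp [[4], [1]] (pG 1000)

theorem pBig_ok : (lenOk (maxLen pBig) pBig && nn2 (mobI (maxLen pBig) 0 9 32 pBig)) = true := by
  decide +kernel

theorem big {c r : ℝ} (h0 : 0 ≤ c) (h1 : c ≤ 1 / 4) (hr : 4 ≤ r) :
    0 ≤ 4 / 3 * m5 c r * (1 - c ^ 2) - B5 c r := by
  have h := pBig_ok
  simp only [Bool.and_eq_true] at h
  obtain ⟨z, hz, ez⟩ := pointZ (u := 0) (w := 9) (d := 32) (by norm_num) (x := c)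
    (by push_cast; linarith) (by push_cast; linarith)
  have e1 := ev2_nonneg h.2 hz (by linarith : (0:ℝ) ≤ r - 4)
  rw [ev_mobI _ _ _ _ _ h.1 _ ez] at e1
  have e2 := nonneg_of_mul_nonneg_right e1 (by push_cast; positivity)
  have e3 : ev2 [[4], [1]] c (r - 4) = r := by
    simp only [ev2_cons, ev2_nil, ev_cons, ev_nil]; push_cast; ring
  unfold pBig at e2
  rw [ev_comp, e3, ev_pG] at e2
  have e4 := nonneg_of_scaled (by norm_num) e2
  have e5 : 4 / 3 * (((1000 : ℤ) : ℝ) / 1000) * m5 c r * (1 - c ^ 2) = 4 / 3 * m5 c r * (1 - c ^ 2) := by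
    push_cast; ring
  rwa [e5] at e4

theorem goal_big {c r : ℝ} (h1 : c ≤ 1 / 4) (hr : 4 ≤ r) : Goal c r := by
  intro x t σ F f g
  have h := big g.hc.le h1 hr
  have hm := m5_nonneg g.hc.le g.hr.le
  have hf : 1 ≤ f := by
    have : (1:ℝ) ^ 3 ≤ f ^ 3 := by rw [g.hfF]; linarith [g.hF]
    exact le_of_pow_le_pow_left₀ (by norm_num) g.hf.le this
  have hD := g.D
  have : 0 ≤ 4 / 3 * m5 c r * (1 - c ^ 2) * (f - 1) := by
    have : 0 ≤ f - 1 := by linarith
    positivity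
  linarith

end Crest.Agent.R230.SD
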