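import Crest.Agent.R230.SDDens

/-!
# Row 230: the densities for `SDL 4`
-/

set_option autoImplicit false
set_option maxHeartbeats 4000000

open MeasureTheory Set Filter Topology Real

namespace Crest.Agent.R230.SD

/-- density `D5` -/
noncomputable def PD5 (_s ρ : ℝ) : ℝ := ρ ^ 3

/-- tangent triangle function -/
noncomputable def GD5 (α x : ℝ) : ℝ :=
  (1/4 : ℝ) * (sin α ^ 3 * cos α * x ^ 4) + (1 : ℝ) * (sin α ^ 2 * cos α ^ 2 * x ^ 3) +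
  (3/2 : ℝ) * (sin α * cos α ^ 3 * x ^ 2) + (-1/4 : ℝ) * (sin α * cos α ^ 3) +
  (-3/8 : ℝ) * (sin α * cos α) + (1 : ℝ) * (cos α ^ 4 * x) + (-3/8 : ℝ) * α

/-- slice mass -/
noncomputable def mD5 (α x : ℝ) : ℝ :=
  (3/4 : ℝ) * (sin α ^ 2 * x ^ 4) + (2 : ℝ) * (sin α * cos α * x ^ 3) +
  (3/2 : ℝ) * (cos α ^ 2 * x ^ 2)

theorem densD5 : Dens PD5 GD5 mD5 where
  contP := by unfold PD5; fun_prop
  contG := by unfold GD5; fun_prop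
  der := by
    intro a x a' x' u S ha hx
    have hs := ha.sin
    have hc := ha.cos
    have hcs := Real.sin_sq_add_cos_sq (a u)
    have h1 := ((((hs.pow 3).mul hc).mul (hx.pow 4)).const_mul (1/4 : ℝ))
    have h2 := h1.add ((((hs.pow 2).mul (hc.pow 2)).mul (hx.pow 3)).const_mul (1 : ℝ))
    have h3 := h2.add (((hs.mul (hc.pow 3)).mul (hx.pow 2)).const_mul (3/2 : ℝ))
    have h4 := h3.add ((hs.mul (hc.pow 3)).const_mul (-1/4 : ℝ))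
    have h5 := h4.add ((hs.mul hc).const_mul (-3/8 : ℝ))
    have h6 := h5.add (((hc.pow 4).mul hx).const_mul (1 : ℝ))
    have h7 := h6.add (ha.const_mul (-3/8 : ℝ))
    unfold GD5
    refine HasDerivWithinAt.congr_deriv h7 ?_
    unfold mD5 PD5
    simp only [Pi.mul_apply, Pi.pow_apply]
    push_cast
    linear_combination (a' * (
      (3/4 : ℝ) * (sin (a u) ^ 2 * x u ^ 4) + (2 : ℝ) * (sin (a u) * cos (a u) * x u ^ 3) +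
      (3/2 : ℝ) * (cos (a u) ^ 2 * x u ^ 2) + (3/4 : ℝ) * (cos (a u) ^ 2) + (3/8 : ℝ))) * hcs

/-- density `V5` -/
noncomputable def PV5 (s ρ : ℝ) : ℝ := 15 / 8 * ρ ^ 4 + 6 / 7 * (s ^ 2 * ρ ^ 4) - 1 / 7 * ρ ^ 6

/-- tangent triangle function -/
noncomputable def GV5 (α x : ℝ) : ℝ :=
  (-1/7 : ℝ) * (sin α ^ 7) + (-1/49 : ℝ) * (sin α ^ 6 * cos α * x ^ 7) +
  (6/35 : ℝ) * (sin α ^ 6 * cos α * x ^ 5) + (-3/7 : ℝ) * (sin α ^ 5 * cos α ^ 2 * x ^ 6) +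
  (6/7 : ℝ) * (sin α ^ 5 * cos α ^ 2 * x ^ 4) + (3/56 : ℝ) * (sin α ^ 5) +
  (6/49 : ℝ) * (sin α ^ 4 * cos α ^ 3 * x ^ 7) + (-9/5 : ℝ) * (sin α ^ 4 * cos α ^ 3 * x ^ 5) +
  (12/7 : ℝ) * (sin α ^ 4 * cos α ^ 3 * x ^ 3) + (3/8 : ℝ) * (sin α ^ 4 * cos α * x ^ 5) +
  (4/7 : ℝ) * (sin α ^ 3 * cos α ^ 4 * x ^ 6) + (-23/7 : ℝ) * (sin α ^ 3 * cos α ^ 4 * x ^ 4) +
  (12/7 : ℝ) * (sin α ^ 3 * cos α ^ 4 * x ^ 2) + (15/8 : ℝ) * (sin α ^ 3 * cos α ^ 2 * x ^ 4) +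
  (23/28 : ℝ) * (sin α ^ 3) + (36/35 : ℝ) * (sin α ^ 2 * cos α ^ 5 * x ^ 5) +
  (-3 : ℝ) * (sin α ^ 2 * cos α ^ 5 * x ^ 3) + (6/7 : ℝ) * (sin α ^ 2 * cos α ^ 5 * x) +
  (15/4 : ℝ) * (sin α ^ 2 * cos α ^ 3 * x ^ 3) + (6/7 : ℝ) * (sin α * cos α ^ 6 * x ^ 4) +
  (-9/7 : ℝ) * (sin α * cos α ^ 6 * x ^ 2) + (15/4 : ℝ) * (sin α * cos α ^ 4 * x ^ 2) +
  (-97/56 : ℝ) * (sin α) + (2/7 : ℝ) * (cos α ^ 7 * x ^ 3) + (-1/7 : ℝ) * (cos α ^ 7 * x) +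
  (15/8 : ℝ) * (cos α ^ 5 * x)

/-- slice mass -/
noncomputable def mV5 (α x : ℝ) : ℝ :=
  (-6/49 : ℝ) * (sin α ^ 5 * x ^ 7) + (24/35 : ℝ) * (sin α ^ 5 * x ^ 5) +
  (-13/7 : ℝ) * (sin α ^ 4 * cos α * x ^ 6) + (18/7 : ℝ) * (sin α ^ 4 * cos α * x ^ 4) +
  (24/49 : ℝ) * (sin α ^ 3 * cos α ^ 2 * x ^ 7) + (-204/35 : ℝ) * (sin α ^ 3 * cos α ^ 2 * x ^ 5) +
  (24/7 : ℝ) * (sin α ^ 3 * cos α ^ 2 * x ^ 3) + (3/2 : ℝ) * (sin α ^ 3 * x ^ 5) +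
  (12/7 : ℝ) * (sin α ^ 2 * cos α ^ 3 * x ^ 6) + (-51/7 : ℝ) * (sin α ^ 2 * cos α ^ 3 * x ^ 4) +
  (12/7 : ℝ) * (sin α ^ 2 * cos α ^ 3 * x ^ 2) + (45/8 : ℝ) * (sin α ^ 2 * cos α * x ^ 4) +
  (72/35 : ℝ) * (sin α * cos α ^ 4 * x ^ 5) + (-26/7 : ℝ) * (sin α * cos α ^ 4 * x ^ 3) +
  (15/2 : ℝ) * (sin α * cos α ^ 2 * x ^ 3) + (6/7 : ℝ) * (cos α ^ 5 * x ^ 4) +
  (-3/7 : ℝ) * (cos α ^ 5 * x ^ 2) + (15/4 : ℝ) * (cos α ^ 3 * x ^ 2)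

theorem densV5 : Dens PV5 GV5 mV5 where
  contP := by unfold PV5; fun_prop
  contG := by unfold GV5; fun_prop
  der := by
    intro a x a' x' u S ha hx
    have hs := ha.sin
    have hc := ha.cos
    have hcs := Real.sin_sq_add_cos_sq (a u)
    have h1 := ((hs.pow 7).const_mul (-1/7 : ℝ))
    have h2 := h1.add ((((hs.pow 6).mul hc).mul (hx.pow 7)).const_mul (-1/49 : ℝ))
    have h3 := h2.add ((((hs.pow 6).mul hc).mul (hx.pow 5)).const_mul (6/35 : ℝ))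
    have h4 := h3.add ((((hs.pow 5).mul (hc.pow 2)).mul (hx.pow 6)).const_mul (-3/7 : ℝ))
    have h5 := h4.add ((((hs.pow 5).mul (hc.pow 2)).mul (hx.pow 4)).const_mul (6/7 : ℝ))
    have h6 := h5.add ((hs.pow 5).const_mul (3/56 : ℝ))
    have h7 := h6.add ((((hs.pow 4).mul (hc.pow 3)).mul (hx.pow 7)).const_mul (6/49 : ℝ))
    have h8 := h7.add ((((hs.pow 4).mul (hc.pow 3)).mul (hx.pow 5)).const_mul (-9/5 : ℝ))
    have h9 := h8.add ((((hs.pow 4).mul (hc.pow 3)).mul (hx.pow 3)).const_mul (12/7 : ℝ))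
    have h10 := h9.add ((((hs.pow 4).mul hc).mul (hx.pow 5)).const_mul (3/8 : ℝ))
    have h11 := h10.add ((((hs.pow 3).mul (hc.pow 4)).mul (hx.pow 6)).const_mul (4/7 : ℝ))
    have h12 := h11.add ((((hs.pow 3).mul (hc.pow 4)).mul (hx.pow 4)).const_mul (-23/7 : ℝ))
    have h13 := h12.add ((((hs.pow 3).mul (hc.pow 4)).mul (hx.pow 2)).const_mul (12/7 : ℝ))
    have h14 := h13.add ((((hs.pow 3).mul (hc.pow 2)).mul (hx.pow 4)).const_mul (15/8 : ℝ))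
    have h15 := h14.add ((hs.pow 3).const_mul (23/28 : ℝ))
    have h16 := h15.add ((((hs.pow 2).mul (hc.pow 5)).mul (hx.pow 5)).const_mul (36/35 : ℝ))
    have h17 := h16.add ((((hs.pow 2).mul (hc.pow 5)).mul (hx.pow 3)).const_mul (-3 : ℝ))
    have h18 := h17.add ((((hs.pow 2).mul (hc.pow 5)).mul hx).const_mul (6/7 : ℝ))
    have h19 := h18.add ((((hs.pow 2).mul (hc.pow 3)).mul (hx.pow 3)).const_mul (15/4 : ℝ))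
    have h20 := h19.add (((hs.mul (hc.pow 6)).mul (hx.pow 4)).const_mul (6/7 : ℝ))
    have h21 := h20.add (((hs.mul (hc.pow 6)).mul (hx.pow 2)).const_mul (-9/7 : ℝ))
    have h22 := h21.add (((hs.mul (hc.pow 4)).mul (hx.pow 2)).const_mul (15/4 : ℝ))
    have h23 := h22.add (hs.const_mul (-97/56 : ℝ))
    have h24 := h23.add (((hc.pow 7).mul (hx.pow 3)).const_mul (2/7 : ℝ))
    have h25 := h24.add (((hc.pow 7).mul hx).const_mul (-1/7 : ℝ))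
    have h26 := h25.add (((hc.pow 5).mul hx).const_mul (15/8 : ℝ))
    unfold GV5
    refine HasDerivWithinAt.congr_deriv h26 ?_
    unfold mV5 PV5
    simp only [Pi.mul_apply, Pi.pow_apply]
    push_cast
    linear_combination (a' * (
      (-6/49 : ℝ) * (sin (a u) ^ 5 * x u ^ 7) + (24/35 : ℝ) * (sin (a u) ^ 5 * x u ^ 5) +
      (-13/7 : ℝ) * (sin (a u) ^ 4 * cos (a u) * x u ^ 6) +
      (18/7 : ℝ) * (sin (a u) ^ 4 * cos (a u) * x u ^ 4) + (-1 : ℝ) * (sin (a u) ^ 4 * cos (a u)) +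
      (24/49 : ℝ) * (sin (a u) ^ 3 * cos (a u) ^ 2 * x u ^ 7) +
      (-204/35 : ℝ) * (sin (a u) ^ 3 * cos (a u) ^ 2 * x u ^ 5) +
      (24/7 : ℝ) * (sin (a u) ^ 3 * cos (a u) ^ 2 * x u ^ 3) +
      (3/2 : ℝ) * (sin (a u) ^ 3 * x u ^ 5) +
      (12/7 : ℝ) * (sin (a u) ^ 2 * cos (a u) ^ 3 * x u ^ 6) +
      (-51/7 : ℝ) * (sin (a u) ^ 2 * cos (a u) ^ 3 * x u ^ 4) +
      (12/7 : ℝ) * (sin (a u) ^ 2 * cos (a u) ^ 3 * x u ^ 2) +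
      (1 : ℝ) * (sin (a u) ^ 2 * cos (a u) ^ 3) +
      (45/8 : ℝ) * (sin (a u) ^ 2 * cos (a u) * x u ^ 4) +
      (-41/56 : ℝ) * (sin (a u) ^ 2 * cos (a u)) +
      (72/35 : ℝ) * (sin (a u) * cos (a u) ^ 4 * x u ^ 5) +
      (-26/7 : ℝ) * (sin (a u) * cos (a u) ^ 4 * x u ^ 3) +
      (15/2 : ℝ) * (sin (a u) * cos (a u) ^ 2 * x u ^ 3) + (6/7 : ℝ) * (cos (a u) ^ 5 * x u ^ 4) +
      (-3/7 : ℝ) * (cos (a u) ^ 5 * x u ^ 2) + (-1/7 : ℝ) * (cos (a u) ^ 5) +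
      (15/4 : ℝ) * (cos (a u) ^ 3 * x u ^ 2) + (97/56 : ℝ) * (cos (a u) ^ 3) +
      (97/56 : ℝ) * (cos (a u)))) * hcs

/-- slice mass of the volume density, divided by the square of the tangent length `√X` -/
noncomputable def E5 (c r X : ℝ) : ℝ :=
  153 / 280 * (c ^ 3 + 2 * c ^ 2 * r + 3 * c * r ^ 2 + 4 * r ^ 3) +
    6 / 245 * X * (c ^ 3 + 4 * c ^ 2 * r + 10 * c * r ^ 2 + 20 * r ^ 3) -
    5 / 49 * (c ^ 5 + 2 * c ^ 4 * r + 3 * c ^ 3 * r ^ 2 + 4 * c ^ 2 * r ^ 3 + 5 * c * r ^ 4 + 6 * r ^ 5)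

theorem mV5_eq (α x : ℝ) : mV5 α x = x ^ 2 * E5 (cos α) (cos α + x * sin α) (x ^ 2) := by
  have h := Real.sin_sq_add_cos_sq α
  unfold mV5 E5
  set σ := sin α
  set c := cos α
  linear_combination (24/49 * σ^3 * x^7 + 24/35 * σ^3 * x^5 + 12/7 * σ^2 * c * x^6 + 18/7 * σ^2 * c * x^4 + 72/35 * σ * c^2 * x^5 + 24/7 * σ * c^2 * x^3 + 6/7 * c^3 * x^4 + 12/7 * c^3 * x^2) * h

theorem mD5_eq (α x : ℝ) : mD5 α x =
    x ^ 2 * (cos α ^ 2 + 2 * cos α * (cos α + x * sin α) + 3 * (cos α + x * sin α) ^ 2) / 4 := by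
  unfold mD5
  ring

end Crest.Agent.R230.SD
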