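import Crest.Agent.R230.SDBound
import Crest.Agent.R230.SD5Dens

/-!
# Row 230: lower bounds of the swept mass for `SDL 4`
-/

set_option autoImplicit false
set_option maxHeartbeats 1000000
set_option linter.unusedVariables false

open MeasureTheory Set Filter Topology Real

namespace Crest.Agent.R230.SD

theorem int_sqrt3 {α : ℝ} (h0 : 0 ≤ α) (h1 : α ≤ π / 2) :
    ∫ s in (0 : ℝ)..sin α, √(1 - s ^ 2) ^ 3 =
      3 / 8 * α + 3 / 8 * (sin α * cos α) + 1 / 4 * (sin α * cos α ^ 3) := by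
  have hg : Continuous fun s : ℝ => √(1 - s ^ 2) ^ 3 := by fun_prop
  have h := intervalIntegral.integral_comp_mul_deriv (a := 0) (b := α) (f := sin) (f' := cos)
    (fun x _ => Real.hasDerivAt_sin x) Real.continuous_cos.continuousOn hg
  rw [Real.sin_zero] at h
  rw [← h]
  have e : ∀ x ∈ uIcc 0 α, ((fun s : ℝ => √(1 - s ^ 2) ^ 3) ∘ sin) x * cos x = cos x ^ (2 + 2) := by
    intro x hx
    rw [uIcc_of_le h0] at hx
    have hc : 0 ≤ cos x :=
      Real.cos_nonneg_of_mem_Icc ⟨by linarith [hx.1, Real.pi_pos], by linarith [hx.2]⟩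
    simp only [Function.comp]
    rw [← Real.abs_cos_eq_sqrt_one_sub_sin_sq, abs_of_nonneg hc]; ring
  rw [intervalIntegral.integral_congr e, integral_cos_pow, integral_cos_sq]
  simp only [Real.sin_zero, mul_zero, sub_zero]
  norm_num
  ring

/-- integral of a polynomial of degree at most five -/
theorem pint (x a0 a1 a2 a3 a4 a5 : ℝ) :
    ∫ u in (0 : ℝ)..x, (a0 + a1 * u + a2 * u ^ 2 + a3 * u ^ 3 + a4 * u ^ 4 + a5 * u ^ 5) =
      a0 * x + a1 * x ^ 2 / 2 + a2 * x ^ 3 / 3 + a3 * x ^ 4 / 4 + a4 * x ^ 5 / 5 + a5 * x ^ 6 / 6 := by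
  have hd : ∀ u ∈ uIcc 0 x, HasDerivAt
      (fun u : ℝ => a0 * u + a1 * u ^ 2 / 2 + a2 * u ^ 3 / 3 + a3 * u ^ 4 / 4 + a4 * u ^ 5 / 5 +
        a5 * u ^ 6 / 6) (a0 + a1 * u + a2 * u ^ 2 + a3 * u ^ 3 + a4 * u ^ 4 + a5 * u ^ 5) u := by
    intro u _
    have h0 := (hasDerivAt_id u).const_mul a0
    have h1 := ((hasDerivAt_pow 2 u).const_mul a1).div_const 2
    have h2 := ((hasDerivAt_pow 3 u).const_mul a2).div_const 3
    have h3 := ((hasDerivAt_pow 4 u).const_mul a3).div_const 4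
    have h4 := ((hasDerivAt_pow 5 u).const_mul a4).div_const 5
    have h5 := ((hasDerivAt_pow 6 u).const_mul a5).div_const 6
    refine HasDerivAt.congr_deriv (((((h0.add h1).add h2).add h3).add h4).add h5) ?_
    push_cast
    ring
  rw [intervalIntegral.integral_eq_sub_of_hasDerivAt hd
    ((by fun_prop : Continuous fun u : ℝ =>
      (a0 + a1 * u + a2 * u ^ 2 + a3 * u ^ 3 + a4 * u ^ 4 + a5 * u ^ 5)).intervalIntegrable _ _)]
  ring

/-- the gap of the cubes -/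
theorem cube_gap {l q v : ℝ} (hl : 0 < l) (hq : 0 ≤ q) (hv : 0 ≤ v) (h : q ^ 2 = l ^ 2 - v) :
    3 / 2 * l * v - v ^ 2 / (2 * l) ≤ l ^ 3 - q ^ 3 := by
  have hvl : v ≤ l ^ 2 := by nlinarith
  have h1 : 0 ≤ l - v / (2 * l) := by
    have : v / (2 * l) ≤ l := by
      rw [div_le_iff₀ (by positivity)]; nlinarith
    linarith
  have h2 : q ≤ l - v / (2 * l) := by
    have : q ^ 2 ≤ (l - v / (2 * l)) ^ 2 := by
      have e : (l - v / (2 * l)) ^ 2 = l ^ 2 - v + (v / (2 * l)) ^ 2 := by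
        field_simp; ring
      rw [e, h]
      have := sq_nonneg (v / (2 * l))
      linarith
    exact (abs_le_of_sq_le_sq' this h1).2
  have h3 : q ^ 3 ≤ (l - v / (2 * l)) * (l ^ 2 - v) := by
    have : q ^ 3 = q * q ^ 2 := by ring
    rw [this, h]
    exact mul_le_mul_of_nonneg_right h2 (by linarith)
  have e : (l - v / (2 * l)) * (l ^ 2 - v) = l ^ 3 - 3 / 2 * l * v + v ^ 2 / (2 * l) := by
    field_simp; ring
  linarith

section tri

variable {p s x r : ℝ} {q : ℝ → ℝ}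

/-- hypotheses on a tangent triangle -/
structure Tri (p s x r : ℝ) (q : ℝ → ℝ) : Prop where
  hp : 0 < p
  hx : 0 < x
  hr : 0 < r
  hrx : r = p + x * s
  hq : Continuous q
  q0 : ∀ u, 0 ≤ q u
  q2 : ∀ u ∈ Icc 0 x, q u ^ 2 = (p + u * s) ^ 2 - u ^ 2

theorem Tri.l_pos (T : Tri p s x r q) {u : ℝ} (hu : u ∈ Icc 0 x) : 0 < p + u * s := by
  have h1 := T.hp; have h2 := T.hx; have h3 := T.hr; have h4 := T.hrx
  have e : x * (p + u * s) = (x - u) * p + u * r := by rw [h4]; ring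
  have : 0 < x * (p + u * s) := by
    rw [e]
    rcases eq_or_lt_of_le hu.1 with h | h
    · rw [← h]; simp; positivity
    · have : 0 ≤ (x - u) * p := mul_nonneg (by linarith [hu.2]) h1.le
      have : 0 < u * r := mul_pos h h3
      linarith
  exact (mul_pos_iff_of_pos_left h2).1 this

theorem Tri.gap (T : Tri p s x r q) {u : ℝ} (hu : u ∈ Icc 0 x) :
    3 / 2 * (p + u * s) * u ^ 2 - u ^ 4 / (2 * (p + u * s)) ≤ (p + u * s) ^ 3 - q u ^ 3 := by
  have h := cube_gap (T.l_pos hu) (T.q0 u) (sq_nonneg u) (T.q2 u hu)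
  have e : (u ^ 2) ^ 2 = u ^ 4 := by ring
  rwa [e] at h

theorem Tri.int1 (T : Tri p s x r q) (g : ℝ → ℝ) (hg : Continuous g)
    (h : ∀ u ∈ Icc 0 x, g u ≤ 3 / 2 * (p + u * s) * u ^ 2 - u ^ 4 / (2 * (p + u * s))) :
    ∫ u in (0 : ℝ)..x, g u ≤ ∫ u in (0 : ℝ)..x, ((p + u * s) ^ 3 - q u ^ 3) := by
  have hq := T.hq
  apply intervalIntegral.integral_mono_on T.hx.le (hg.intervalIntegrable _ _)
  · exact (by fun_prop : Continuous fun u : ℝ => (p + u * s) ^ 3 - q u ^ 3).intervalIntegrable _ _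
  · intro u hu
    exact (h u hu).trans (T.gap hu)

/-- first lower bound -/
theorem Tri.A (T : Tri p s x r q) : x ^ 3 * (p ^ 2 / 8 + 3 / 8 * (r * p)) - x ^ 5 / 60 -
    p * x ^ 5 / (12 * r) ≤ p * ∫ u in (0 : ℝ)..x, ((p + u * s) ^ 3 - q u ^ 3) := by
  have hp := T.hp; have hx := T.hx; have hr := T.hr; have hrx := T.hrx
  have h := T.int1 (fun u => 0 + 0 * u + (3 / 2 * p) * u ^ 2 + (3 / 2 * s) * u ^ 3 +
    (-(1 / (2 * p))) * u ^ 4 + (-(1 / (2 * x)) * (1 / r - 1 / p)) * u ^ 5) (by fun_prop) ?_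
  · rw [pint] at h
    have h2 := mul_le_mul_of_nonneg_left h hp.le
    refine le_trans (le_of_eq ?_) h2
    have es : s = (r - p) / x := by rw [hrx]; field_simp; ring
    rw [es]
    field_simp
    ring
  · intro u hu
    have hl := T.l_pos hu
    have e : x * (p + u * s) = (x - u) * p + u * r := by rw [hrx]; ring
    have h1 : 1 / (p + u * s) ≤ 1 / p + u / x * (1 / r - 1 / p) := by
      rw [div_le_iff₀ hl]
      have e2 : (1 / p + u / x * (1 / r - 1 / p)) * (p + u * s) =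
          (((x - u) * r + u * p) * (x * (p + u * s))) / (x ^ 2 * p * r) := by
        field_simp
        ring
      rw [e2, e, le_div_iff₀ (by positivity)]
      have : 0 ≤ u * (x - u) * (r - p) ^ 2 :=
        mul_nonneg (mul_nonneg hu.1 (by linarith [hu.2])) (sq_nonneg _)
      nlinarith
    have h2 : 0 ≤ u ^ 4 / 2 := by positivity
    have h3 := mul_le_mul_of_nonneg_left h1 h2
    have e3 : u ^ 4 / 2 * (1 / (p + u * s)) = u ^ 4 / (2 * (p + u * s)) := by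
      field_simp
    have e4 : u ^ 4 / 2 * (1 / p + u / x * (1 / r - 1 / p)) =
        1 / (2 * p) * u ^ 4 + (1 / (2 * x)) * (1 / r - 1 / p) * u ^ 5 := by
      field_simp
    rw [e3, e4] at h3
    linarith

/-- second lower bound -/
theorem Tri.B (T : Tri p s x r q) : (3 / 2 - x ^ 2 / (2 * r ^ 2)) * (p ^ 2 / 12 + p * r / 4) * x ^ 3 ≤
    p * ∫ u in (0 : ℝ)..x, ((p + u * s) ^ 3 - q u ^ 3) := by
  have hp := T.hp; have hx := T.hx; have hr := T.hr; have hrx := T.hrx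
  have h := T.int1 (fun u => 0 + 0 * u + ((3 / 2 - x ^ 2 / (2 * r ^ 2)) * p) * u ^ 2 +
    ((3 / 2 - x ^ 2 / (2 * r ^ 2)) * s) * u ^ 3 + 0 * u ^ 4 + 0 * u ^ 5) (by fun_prop) ?_
  · rw [pint] at h
    have h2 := mul_le_mul_of_nonneg_left h hp.le
    refine le_trans (le_of_eq ?_) h2
    have es : s = (r - p) / x := by rw [hrx]; field_simp; ring
    rw [es]
    field_simp
    ring
  · intro u hu
    have hl := T.l_pos hu
    have e : x * (p + u * s) = (x - u) * p + u * r := by rw [hrx]; ring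
    have h1 : u * r ≤ x * (p + u * s) := by
      rw [e]
      have : 0 ≤ (x - u) * p := mul_nonneg (by linarith [hu.2]) hp.le
      linarith
    have h2 : u ^ 2 / (p + u * s) ≤ x ^ 2 / r ^ 2 * (p + u * s) := by
      rw [div_le_iff₀ hl]
      have h3 : (u * r) ^ 2 ≤ (x * (p + u * s)) ^ 2 :=
        pow_le_pow_left₀ (mul_nonneg hu.1 hr.le) h1 2
      have e2 : x ^ 2 / r ^ 2 * (p + u * s) * (p + u * s) = (x * (p + u * s)) ^ 2 / r ^ 2 := by
        ring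
      rw [e2, le_div_iff₀ (by positivity)]
      linarith
    have h3 := mul_le_mul_of_nonneg_left h2 (by positivity : 0 ≤ u ^ 2 / 2)
    have e3 : u ^ 2 / 2 * (u ^ 2 / (p + u * s)) = u ^ 4 / (2 * (p + u * s)) := by
      field_simp
    have e4 : u ^ 2 / 2 * (x ^ 2 / r ^ 2 * (p + u * s)) =
        x ^ 2 / (2 * r ^ 2) * (p + u * s) * u ^ 2 := by
      field_simp
    rw [e3, e4] at h3
    linarith

/-- third lower bound (`p ≥ r`) -/
theorem Tri.C (T : Tri p s x r q) (hpr : r ≤ p) (hxr : x ^ 2 ≤ r ^ 2) :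
    x ^ 3 * (r ^ 2 / 2 - x ^ 2 / 10) ≤
    p * ∫ u in (0 : ℝ)..x, ((p + u * s) ^ 3 - q u ^ 3) := by
  have hp := T.hp; have hx := T.hx; have hr := T.hr; have hrx := T.hrx
  have h := T.int1 (fun u => 0 + 0 * u + (3 / 2 * r) * u ^ 2 +
    0 * u ^ 3 + (-(1 / (2 * r))) * u ^ 4 + 0 * u ^ 5) (by fun_prop) ?_
  · rw [pint] at h
    have h2 := mul_le_mul_of_nonneg_left h hp.le
    refine le_trans ?_ h2
    have e : p * (0 * x + 0 * x ^ 2 / 2 + 3 / 2 * r * x ^ 3 / 3 + 0 * x ^ 4 / 4 +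
        -(1 / (2 * r)) * x ^ 5 / 5 + 0 * x ^ 6 / 6) = p / r * (x ^ 3 * (r ^ 2 / 2 - x ^ 2 / 10)) := by
      field_simp
      ring
    rw [e]
    have h3 : 1 ≤ p / r := by rwa [one_le_div hr]
    have h4 : 0 ≤ x ^ 3 * (r ^ 2 / 2 - x ^ 2 / 10) := by
      have : 0 ≤ r ^ 2 / 2 - x ^ 2 / 10 := by nlinarith
      positivity
    nlinarith
  · intro u hu
    have hl := T.l_pos hu
    have e : x * (p + u * s) = (x - u) * p + u * r := by rw [hrx]; ring
    have h1 : r ≤ p + u * s := by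
      have : x * r ≤ x * (p + u * s) := by
        rw [e]
        have : 0 ≤ (x - u) * (p - r) := mul_nonneg (by linarith [hu.2]) (by linarith)
        linarith
      exact le_of_mul_le_mul_left this hx
    have h2 : 3 / 2 * r * u ^ 2 ≤ 3 / 2 * (p + u * s) * u ^ 2 := by gcongr
    have h3 : u ^ 4 / (2 * (p + u * s)) ≤ u ^ 4 / (2 * r) := by gcongr
    have e3 : 1 / (2 * r) * u ^ 4 = u ^ 4 / (2 * r) := by field_simp
    linarith

end tri

/-! ## The right triangle -/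

/-- the right triangle as a `Tri` -/
theorem triR {r : ℝ → ℝ} (hr : SP r) {t : ℝ} (ht : t ∈ Ico (0 : ℝ) 1) :
    Tri (cos (al r t)) (sin (al r t)) (xx r t) (r t)
      (fun u => √(1 - (sin (al r t) - cos (al r t) * u) ^ 2)) where
  hp := cos_al_pos hr ht
  hx := xx_pos hr ⟨ht.1, ht.2.le⟩
  hr := hr.pos t
  hrx := (r_eq hr ⟨ht.1, ht.2.le⟩).symm
  hq := by fun_prop
  q0 := fun u => Real.sqrt_nonneg _
  q2 := by
    intro u hu
    have ht' : t ∈ Icc (0 : ℝ) 1 := ⟨ht.1, ht.2.le⟩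
    have hc := cos_al_pos hr ht
    have hs := Real.sin_le_one (al r t)
    have hte := t_eq hr ht'
    have hcs := Real.sin_sq_add_cos_sq (al r t)
    have h1 : sin (al r t) - cos (al r t) * u ≤ 1 := by
      have : 0 ≤ cos (al r t) * u := mul_nonneg hc.le hu.1
      linarith
    have h2 : 0 ≤ sin (al r t) - cos (al r t) * u := by
      have : cos (al r t) * u ≤ cos (al r t) * xx r t := by
        gcongr
        exact hu.2
      have := ht.1
      linarith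
    rw [Real.sq_sqrt (by nlinarith)]
    linear_combination (-(u ^ 2) - 1) * hcs

/-- the area above the tangent, right side -/
theorem RT5_eq {r : ℝ → ℝ} (hr : SP r) {t : ℝ} (ht : t ∈ Ico (0 : ℝ) 1) :
    GD5 (al r t) (xx r t) + ∫ s in (0 : ℝ)..t, √(1 - s ^ 2) ^ 3 =
      cos (al r t) * ∫ u in (0 : ℝ)..xx r t, ((cos (al r t) + u * sin (al r t)) ^ 3 -
        √(1 - (sin (al r t) - cos (al r t) * u) ^ 2) ^ 3) := by
  have ht' : t ∈ Icc (0 : ℝ) 1 := ⟨ht.1, ht.2.le⟩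
  have hc := cos_al_pos hr ht
  have hte := t_eq hr ht'
  obtain ⟨ha0, ha1⟩ := al_mem hr ht
  have hI := int_sqrt3 ha0 ha1
  have hg : Continuous fun s : ℝ => √(1 - s ^ 2) ^ 3 := by fun_prop
  have hsplit := intervalIntegral.integral_add_adjacent_intervals (hg.intervalIntegrable 0 t)
    (hg.intervalIntegrable t (sin (al r t))) (μ := volume)
  have hsub := intervalIntegral.integral_comp_sub_mul (a := 0) (b := xx r t)
    (fun s : ℝ => √(1 - s ^ 2) ^ 3) hc.ne' (sin (al r t))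
  have e0 : sin (al r t) - cos (al r t) * xx r t = t := by
    rw [mul_comm (cos (al r t))]; exact hte
  rw [e0, mul_zero, sub_zero, smul_eq_mul] at hsub
  have hsub' : cos (al r t) * ∫ u in (0 : ℝ)..xx r t, √(1 - (sin (al r t) - cos (al r t) * u) ^ 2) ^ 3 =
      ∫ s in t..sin (al r t), √(1 - s ^ 2) ^ 3 := by
    rw [hsub]; exact mul_inv_cancel_left₀ hc.ne' _
  rw [intervalIntegral.integral_sub
    ((by fun_prop : Continuous fun u : ℝ => (cos (al r t) + u * sin (al r t)) ^ 3).intervalIntegrable _ _)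
    ((by fun_prop : Continuous fun u : ℝ =>
      √(1 - (sin (al r t) - cos (al r t) * u) ^ 2) ^ 3).intervalIntegrable _ _), mul_sub, hsub']
  have hp : ∫ u in (0 : ℝ)..xx r t, (cos (al r t) + u * sin (al r t)) ^ 3 =
      cos (al r t) ^ 3 * xx r t + (3 * cos (al r t) ^ 2 * sin (al r t)) * xx r t ^ 2 / 2 +
      (3 * cos (al r t) * sin (al r t) ^ 2) * xx r t ^ 3 / 3 + sin (al r t) ^ 3 * xx r t ^ 4 / 4 := by
    have e : ∀ u : ℝ, (cos (al r t) + u * sin (al r t)) ^ 3 = cos (al r t) ^ 3 +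
      (3 * cos (al r t) ^ 2 * sin (al r t)) * u + (3 * cos (al r t) * sin (al r t) ^ 2) * u ^ 2 +
      sin (al r t) ^ 3 * u ^ 3 + 0 * u ^ 4 + 0 * u ^ 5 := by intro u; ring
    simp only [e]
    rw [pint]
    ring
  rw [hp]
  unfold GD5
  linarith

/-- the swept mass -/
theorem FT5_eq {r : ℝ → ℝ} (hr : SP r) {t : ℝ} :
    FT PD5 GD5 r t = (∫ s in (0 : ℝ)..t, (r s ^ 3 - √(1 - s ^ 2) ^ 3)) +
      (GD5 (al r t) (xx r t) + ∫ s in (0 : ℝ)..t, √(1 - s ^ 2) ^ 3) := by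
  have hrc := hr.cont
  rw [intervalIntegral.integral_sub ((by fun_prop : Continuous fun s => r s ^ 3).intervalIntegrable _ _)
    ((by fun_prop : Continuous fun s : ℝ => √(1 - s ^ 2) ^ 3).intervalIntegrable _ _)]
  unfold FT PD5
  ring

theorem q_le_r {r : ℝ → ℝ} (hr : SP r) {s : ℝ} (hs : s ∈ Icc (0 : ℝ) 1) :
    √(1 - s ^ 2) ^ 3 ≤ r s ^ 3 :=
  pow_le_pow_left₀ (Real.sqrt_nonneg _) (sqrt_lt_r hr hs) 3

/-- the left triangle -/
theorem LT5 {r : ℝ → ℝ} (hr : SP r) {t : ℝ} (ht : t ∈ Icc (0 : ℝ) 1) (hr1 : r t ≤ 1) :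
    ∃ (p s : ℝ) (q : ℝ → ℝ), Tri p s (xx r t) (r t) q ∧ s ≤ 0 ∧
      p = (r t + t * xx r t) / (1 + xx r t ^ 2) ∧
      p * ∫ u in (0 : ℝ)..xx r t, ((p + u * s) ^ 3 - q u ^ 3) ≤
        ∫ s in (0 : ℝ)..t, (r s ^ 3 - √(1 - s ^ 2) ^ 3) := by
  obtain ⟨b, cb, hb0, hcb, hbc, htb, hbt, hcbe, hl⟩ := chord hr ht hr1
  have hrc := hr.cont
  have hx := xx_pos hr ht
  have ht1 := ht.2
  have hrt : r t * cb = 1 - t * b := by
    have hp : 0 < 1 + xx r t ^ 2 := by positivity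
    have hx2 := xx_sq hr ht
    have hb : b = t - xx r t * cb := by linarith
    rw [hb]
    have h1 : cb * (1 + xx r t ^ 2) = r t + t * xx r t := by rw [hcbe]; field_simp
    -- r cb = 1 - t (t - x cb)
    have h2 : (r t - t * xx r t) * cb * (1 + xx r t ^ 2) = (1 - t ^ 2) * (1 + xx r t ^ 2) := by
      have : (r t - t * xx r t) * cb * (1 + xx r t ^ 2) =
        (r t - t * xx r t) * (r t + t * xx r t) := by rw [← h1]; ring
      rw [this]
      have : (r t - t * xx r t) * (r t + t * xx r t) = r t ^ 2 - t ^ 2 * xx r t ^ 2 := by ring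
      rw [this, hx2]; ring
    have h3 := mul_right_cancel₀ hp.ne' h2
    linarith
  refine ⟨cb, -b, fun u => √(1 - (b + cb * u) ^ 2), ?_, by linarith, hcbe, ?_⟩
  · refine ⟨hcb, hx, hr.pos t, ?_, by fun_prop, fun u => Real.sqrt_nonneg _, ?_⟩
    · have : r t * cb = (cb + xx r t * -b) * cb := by
        linear_combination hrt - b * htb - hbc
      exact mul_right_cancel₀ hcb.ne' this
    · intro u hu
      have h1 : b + cb * u ≤ 1 := by
        have : cb * u ≤ cb * xx r t := by gcongr; exact hu.2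
        linarith
      have h2 : 0 ≤ b + cb * u := by
        have : 0 ≤ cb * u := mul_nonneg hcb.le hu.1
        linarith
      rw [Real.sq_sqrt (by nlinarith)]
      linear_combination (-(u ^ 2) - 1) * hbc
  · have hf : Continuous fun s : ℝ => r s ^ 3 - √(1 - s ^ 2) ^ 3 := by fun_prop
    rw [← intervalIntegral.integral_add_adjacent_intervals (hf.intervalIntegrable 0 b)
      (hf.intervalIntegrable b t)]
    have h1 : 0 ≤ ∫ s in (0 : ℝ)..b, (r s ^ 3 - √(1 - s ^ 2) ^ 3) := by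
      apply intervalIntegral.integral_nonneg hb0
      intro s hs
      have := q_le_r hr (s := s) ⟨hs.1, by linarith [hs.2]⟩
      linarith
    have h2 : ∫ s in b..t, (((1 - s * b) / cb) ^ 3 - √(1 - s ^ 2) ^ 3) ≤
        ∫ s in b..t, (r s ^ 3 - √(1 - s ^ 2) ^ 3) := by
      apply intervalIntegral.integral_mono_on hbt
      · exact (by fun_prop : Continuous fun s : ℝ =>
          (((1 - s * b) / cb) ^ 3 - √(1 - s ^ 2) ^ 3)).intervalIntegrable _ _
      · exact hf.intervalIntegrable _ _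
      · intro s hs
        have h3 := hl s hs
        have h4 : 0 ≤ (1 - s * b) / cb := by
          apply div_nonneg _ hcb.le
          nlinarith [hs.1, hs.2]
        have := pow_le_pow_left₀ h4 h3 3
        linarith
    have hsub := intervalIntegral.integral_comp_add_mul (a := 0) (b := xx r t)
      (fun s : ℝ => (((1 - s * b) / cb) ^ 3 - √(1 - s ^ 2) ^ 3)) hcb.ne' b
    have e0 : b + cb * xx r t = t := by linarith
    rw [e0, mul_zero, add_zero, smul_eq_mul] at hsub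
    have e1 : cb * ∫ u in (0 : ℝ)..xx r t, ((cb + u * -b) ^ 3 - √(1 - (b + cb * u) ^ 2) ^ 3) =
        ∫ s in b..t, (((1 - s * b) / cb) ^ 3 - √(1 - s ^ 2) ^ 3) := by
      have e2 : ∀ u : ℝ, (cb + u * -b) ^ 3 - √(1 - (b + cb * u) ^ 2) ^ 3 =
          ((1 - (b + cb * u) * b) / cb) ^ 3 - √(1 - (b + cb * u) ^ 2) ^ 3 := by
        intro u
        have : cb + u * -b = (1 - (b + cb * u) * b) / cb := by
          rw [eq_div_iff hcb.ne']
          linear_combination hbc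
        rw [this]
      simp only [e2]
      rw [hsub]
      exact mul_inv_cancel_left₀ hcb.ne' _
    rw [e1]
    linarith

theorem X_le {r : ℝ → ℝ} (hr : SP r) {t : ℝ} (ht : t ∈ Icc (0 : ℝ) 1) : xx r t ^ 2 ≤ r t ^ 2 := by
  rw [xx_sq hr ht]
  have := ht.1; have := ht.2
  nlinarith

theorem FT5_A {r : ℝ → ℝ} (hr : SP r) {t : ℝ} (ht : t ∈ Ico (0 : ℝ) 1) (hr1 : r t ≤ 1) :
    r t ^ 2 * (xx r t ^ 3 * (1 + xx r t ^ 2 / 2) / (1 + xx r t ^ 2) ^ 2) ≤ FT PD5 GD5 r t := by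
  have ht' : t ∈ Icc (0 : ℝ) 1 := ⟨ht.1, ht.2.le⟩
  rw [FT5_eq hr, RT5_eq hr ht]
  obtain ⟨p, s, q, T, hs, hp, hL⟩ := LT5 hr ht' hr1
  have hR := (triR hr ht).A
  have hL2 := T.A
  have hX := X_le hr ht'
  have hX2 := xx_sq hr ht'
  have hx := xx_pos hr ht'
  have h0 := hr.pos t
  have hc := cos_al hr ht'
  have hX1 : xx r t ^ 2 ≤ 1 := by nlinarith
  generalize (∫ s in (0 : ℝ)..t, (r s ^ 3 - √(1 - s ^ 2) ^ 3)) = I1 at *
  generalize cos (al r t) * (∫ u in (0 : ℝ)..xx r t, ((cos (al r t) + u * sin (al r t)) ^ 3 -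
        √(1 - (sin (al r t) - cos (al r t) * u) ^ 2) ^ 3)) = I2 at *
  generalize p * (∫ u in (0 : ℝ)..xx r t, ((p + u * s) ^ 3 - q u ^ 3)) = I3 at *
  rw [hc] at hR
  rw [hp] at hL2
  generalize xx r t = x at *
  generalize r t = ρ at *
  have hpp : 0 < 1 + x ^ 2 := by positivity
  have key : x ^ 3 * (((ρ - t * x) / (1 + x ^ 2)) ^ 2 / 8 + 3 / 8 * (ρ * ((ρ - t * x) / (1 + x ^ 2)))) -
      x ^ 5 / 60 - (ρ - t * x) / (1 + x ^ 2) * x ^ 5 / (12 * ρ) +
      (x ^ 3 * (((ρ + t * x) / (1 + x ^ 2)) ^ 2 / 8 + 3 / 8 * (ρ * ((ρ + t * x) / (1 + x ^ 2)))) -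
      x ^ 5 / 60 - (ρ + t * x) / (1 + x ^ 2) * x ^ 5 / (12 * ρ)) =
      ρ ^ 2 * (x ^ 3 * (1 + x ^ 2 / 2) / (1 + x ^ 2) ^ 2) +
        x ^ 5 * (1 / (12 * (1 + x ^ 2)) - 1 / 30) := by
    have ht2 : t ^ 2 = 1 + x ^ 2 - ρ ^ 2 := by linarith
    have e : x ^ 3 * (((ρ - t * x) / (1 + x ^ 2)) ^ 2 / 8 + 3 / 8 * (ρ * ((ρ - t * x) / (1 + x ^ 2)))) -
      x ^ 5 / 60 - (ρ - t * x) / (1 + x ^ 2) * x ^ 5 / (12 * ρ) +
      (x ^ 3 * (((ρ + t * x) / (1 + x ^ 2)) ^ 2 / 8 + 3 / 8 * (ρ * ((ρ + t * x) / (1 + x ^ 2)))) -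
      x ^ 5 / 60 - (ρ + t * x) / (1 + x ^ 2) * x ^ 5 / (12 * ρ)) =
      x ^ 3 * ((2 * ρ ^ 2 + 2 * t ^ 2 * x ^ 2) / (1 + x ^ 2) ^ 2 / 8 + 3 / 4 * ρ ^ 2 / (1 + x ^ 2)) -
        x ^ 5 / 30 - x ^ 5 / (6 * (1 + x ^ 2)) := by
      field_simp
      ring
    rw [e, ht2]
    field_simp
    ring
  have h1 : 0 ≤ x ^ 5 * (1 / (12 * (1 + x ^ 2)) - 1 / 30) := by
    have : 1 / 30 ≤ 1 / (12 * (1 + x ^ 2)) := by
      apply one_div_le_one_div_of_le (by positivity)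
      linarith
    have h2 : 0 ≤ 1 / (12 * (1 + x ^ 2)) - 1 / 30 := by linarith
    positivity
  linarith

theorem FT5_M {r : ℝ → ℝ} (hr : SP r) {t : ℝ} (ht : t ∈ Ico (0 : ℝ) 1) (hr1 : r t ≤ 1) :
    xx r t ^ 3 * (r t ^ 2 / 2 - xx r t ^ 2 / 10 + (3 / 2 - xx r t ^ 2 / (2 * r t ^ 2)) *
      (cos (al r t) ^ 2 / 12 + cos (al r t) * r t / 4)) ≤ FT PD5 GD5 r t := by
  have ht' : t ∈ Icc (0 : ℝ) 1 := ⟨ht.1, ht.2.le⟩
  rw [FT5_eq hr, RT5_eq hr ht]
  obtain ⟨p, s, q, T, hs, hp, hL⟩ := LT5 hr ht' hr1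
  have hR := (triR hr ht).B
  have hpr : r t ≤ p := by
    have h1 := T.hrx
    have h2 := T.hx
    have : xx r t * s ≤ 0 := mul_nonpos_of_nonneg_of_nonpos h2.le hs
    linarith
  have hL2 := T.C hpr (X_le hr ht')
  linarith

theorem FT5_B {r : ℝ → ℝ} (hr : SP r) {t : ℝ} (ht : t ∈ Ico (0 : ℝ) 1) (hr1 : 1 ≤ r t) :
    t * (r t ^ 3 - 1) + (t ^ 3 / 2 - t ^ 5 / 10) + (3 / 2 - xx r t ^ 2 / (2 * r t ^ 2)) *
      (cos (al r t) ^ 2 / 12 + cos (al r t) * r t / 4) * xx r t ^ 3 ≤ FT PD5 GD5 r t := by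
  have ht' : t ∈ Icc (0 : ℝ) 1 := ⟨ht.1, ht.2.le⟩
  rw [FT5_eq hr, RT5_eq hr ht]
  have hR := (triR hr ht).B
  have hrc := hr.cont
  have h2 : ∫ s in (0 : ℝ)..t, ((r t ^ 3 - 1) + 0 * s + (3 / 2) * s ^ 2 + 0 * s ^ 3 +
      (-(1 / 2)) * s ^ 4 + 0 * s ^ 5) ≤ ∫ s in (0 : ℝ)..t, (r s ^ 3 - √(1 - s ^ 2) ^ 3) := by
    apply intervalIntegral.integral_mono_on ht.1
    · exact (by fun_prop : Continuous fun s : ℝ => ((r t ^ 3 - 1) + 0 * s + (3 / 2) * s ^ 2 +
        0 * s ^ 3 + (-(1 / 2)) * s ^ 4 + 0 * s ^ 5)).intervalIntegrable _ _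
    · exact (by fun_prop : Continuous fun s : ℝ => (r s ^ 3 - √(1 - s ^ 2) ^ 3)).intervalIntegrable _ _
    · intro s hs
      have h3 := hr.anti ⟨hs.1, hs.2.trans ht'.2⟩ ht' hs.2
      have h4 : r t ^ 3 ≤ r s ^ 3 := pow_le_pow_left₀ (hr.pos t).le h3 3
      have hs1 : s ^ 2 ≤ 1 := by nlinarith [hs.1, hs.2, ht.2]
      have h5 := cube_gap (l := 1) (q := √(1 - s ^ 2)) (v := s ^ 2) one_pos (Real.sqrt_nonneg _)
        (sq_nonneg s) (by rw [Real.sq_sqrt (by linarith)]; ring)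
      have e : (s ^ 2) ^ 2 = s ^ 4 := by ring
      rw [e] at h5
      linarith
  rw [pint] at h2
  linarith

theorem FT5_nonneg {r : ℝ → ℝ} (hr : SP r) {t : ℝ} (ht : t ∈ Icc (0 : ℝ) 1) :
    0 ≤ FT PD5 GD5 r t := by
  rw [FT5_eq hr]
  have hrc := hr.cont
  have h1 : 0 ≤ ∫ s in (0 : ℝ)..t, (r s ^ 3 - √(1 - s ^ 2) ^ 3) := by
    apply intervalIntegral.integral_nonneg ht.1
    intro s hs
    have := q_le_r hr (s := s) ⟨hs.1, hs.2.trans ht.2⟩
    linarith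
  have h2 : 0 ≤ GD5 (al r t) (xx r t) + ∫ s in (0 : ℝ)..t, √(1 - s ^ 2) ^ 3 := by
    rcases eq_or_lt_of_le ht.2 with h | h
    · rw [h, al_one hr]
      have hI := int_sqrt3 (α := π / 2) (by positivity) le_rfl
      rw [Real.sin_pi_div_two, Real.cos_pi_div_two] at hI
      rw [hI]
      unfold GD5
      rw [Real.sin_pi_div_two, Real.cos_pi_div_two]
      linarith
    · have h0 := hr.pos t
      have hx := (xx_pos hr ht).le
      have hc := (cos_al_pos hr ⟨ht.1, h⟩).le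
      rw [RT5_eq hr ⟨ht.1, h⟩]
      refine le_trans ?_ (triR hr ⟨ht.1, h⟩).B
      have : xx r t ^ 2 / (2 * r t ^ 2) ≤ 1 := by
        rw [div_le_one (by positivity)]
        have := X_le hr ht
        nlinarith
      have : 0 ≤ 3 / 2 - xx r t ^ 2 / (2 * r t ^ 2) := by linarith
      positivity
  linarith

theorem FT5_one {r : ℝ → ℝ} (hr : SP r) :
    FT PD5 GD5 r 1 = ∫ s in (0 : ℝ)..1, (r s ^ 3 - √(1 - s ^ 2) ^ 3) := by
  rw [FT5_eq hr, al_one hr]
  have hI := int_sqrt3 (α := π / 2) (by positivity) le_rfl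
  rw [Real.sin_pi_div_two, Real.cos_pi_div_two] at hI
  rw [hI]
  unfold GD5
  rw [Real.sin_pi_div_two, Real.cos_pi_div_two]
  ring

end Crest.Agent.R230.SD
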