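import Crest.Agent.R230.SDCore

/-!
# Row 230: the tangent foliation with a gauge term (core of the lemma `SDL 4`)
-/

set_option autoImplicit false
set_option maxHeartbeats 1000000

open MeasureTheory Set Filter Topology Real

namespace Crest.Agent.R230.SD

variable {P G m PV GV mV : ℝ → ℝ → ℝ} {H k : ℝ → ℝ} {e0 : ℝ}

/-- the gauge -/
noncomputable def GE (α x : ℝ) : ℝ := 3 / 50 * (cos α * sin α ^ 5 * x ^ 6)

theorem continuous_GE : Continuous (fun q : ℝ × ℝ => GE q.1 q.2) := by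
  unfold GE; fun_prop

theorem deriv_GE (a x : ℝ → ℝ) (a' x' u : ℝ) (S : Set ℝ) (ha : HasDerivWithinAt a a' S u)
    (hx : HasDerivWithinAt x x' S u) : HasDerivWithinAt (fun v => GE (a v) (x v))
      (3 / 50 * (sin (a u) ^ 4 * x u ^ 5) * (x u * (5 * cos (a u) ^ 2 - sin (a u) ^ 2) * a' +
        6 * (cos (a u) * sin (a u)) * x')) S u := by
  have hs := ha.sin
  have hc := ha.cos
  have h := ((hc.mul (hs.pow 5)).mul (hx.pow 6)).const_mul (3 / 50 : ℝ)
  unfold GE
  refine HasDerivWithinAt.congr_deriv h ?_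
  simp only [Pi.mul_apply, Pi.pow_apply]
  push_cast
  ring

/-- the right derivative of `r` is nonpositive -/
theorem deriv_r_nonpos {r : ℝ → ℝ} (hr : SP r) {t d : ℝ} (ht : t ∈ Ico (0 : ℝ) 1)
    (hd : HasDerivWithinAt r d (Ici t) t) : d ≤ 0 := by
  have h1 : HasDerivWithinAt r d (Icc t 1) t := hd.mono Icc_subset_Ici_self
  have h2 : UniqueDiffWithinAt ℝ (Icc t 1) t := uniqueDiffOn_Icc ht.2 t ⟨le_rfl, ht.2.le⟩
  rw [← h1.derivWithin h2]
  exact (hr.anti.mono (Icc_subset_Icc_left ht.1)).derivWithin_nonpos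

/-- both derivatives, with the sign of the derivative of `r` -/
theorem deriv_al' {r : ℝ → ℝ} (hr : SP r) {t : ℝ} (ht : t ∈ Ico (0 : ℝ) 1) :
    ∃ a' x' : ℝ, 0 ≤ a' ∧ HasDerivWithinAt (al r) a' (Ici t) t ∧ HasDerivWithinAt (xx r) x' (Ici t) t ∧
      (cos (al r t) + xx r t * sin (al r t)) * a' - cos (al r t) * x' = 1 ∧
      sin (al r t) * x' ≤ t * a' := by
  obtain ⟨a', x', ha0, ha, hx, h1⟩ := deriv_al hr ht
  refine ⟨a', x', ha0, ha, hx, h1, ?_⟩
  have ht' : t ∈ Icc (0 : ℝ) 1 := ⟨ht.1, ht.2.le⟩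
  have hd : HasDerivWithinAt (fun s => cos (al r s) + xx r s * sin (al r s))
      (-sin (al r t) * a' + (x' * sin (al r t) + xx r t * (cos (al r t) * a'))) (Icc t 1) t :=
    (ha.cos.add (hx.mul ha.sin)).mono Icc_subset_Ici_self
  have hd2 : HasDerivWithinAt r
      (-sin (al r t) * a' + (x' * sin (al r t) + xx r t * (cos (al r t) * a'))) (Icc t 1) t := by
    refine hd.congr ?_ (r_eq hr ht').symm
    intro s hs
    exact (r_eq hr ⟨ht.1.trans hs.1, hs.2⟩).symm
  have h2 : UniqueDiffWithinAt ℝ (Icc t 1) t := uniqueDiffOn_Icc ht.2 t ⟨le_rfl, ht.2.le⟩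
  have h3 : -sin (al r t) * a' + (x' * sin (al r t) + xx r t * (cos (al r t) * a')) ≤ 0 := by
    rw [← hd2.derivWithin h2]
    exact (hr.anti.mono (Icc_subset_Icc_left ht.1)).derivWithin_nonpos
  have h4 := t_eq hr ht'
  have h5 : t * a' = (sin (al r t) - xx r t * cos (al r t)) * a' := by rw [h4]
  rw [h5]
  linarith

theorem gauge_alg {σ c x t a' x' : ℝ} (hcs : σ ^ 2 + c ^ 2 = 1) (ht : σ - x * c = t) (hc : 0 ≤ c)
    (hx : 0 ≤ x) (hs : σ * x' ≤ t * a') :
    3 / 50 * (σ ^ 4 * x ^ 5) * (x * (5 * c ^ 2 - σ ^ 2) * a' + 6 * (c * σ) * x') ≤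
      3 / 50 * (σ ^ 4 * x ^ 5) * (6 * (c * σ) - x) * a' := by
  have h4 : 0 ≤ 3 / 50 * (σ ^ 4 * x ^ 5) * (6 * c) * (t * a' - σ * x') := by
    have : 0 ≤ σ ^ 4 := by positivity
    have := sub_nonneg.2 hs
    positivity
  have h5 : 3 / 50 * (σ ^ 4 * x ^ 5) * (6 * (c * σ) - x) * a' - 3 / 50 * (σ ^ 4 * x ^ 5) *
      (x * (5 * c ^ 2 - σ ^ 2) * a' + 6 * (c * σ) * x') =
      3 / 50 * (σ ^ 4 * x ^ 5) * (6 * c) * (t * a' - σ * x') := by
    rw [← ht, show σ ^ 2 = 1 - c ^ 2 by linarith]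
    ring
  linarith

theorem fin_alg {kF mm mv e g a' E' : ℝ} (hp : mv + e * mm + g ≤ kF * mm) (h0 : 0 ≤ a')
    (hE : E' ≤ g * a') : 0 ≤ kF * (mm * a') - mv * a' - e * (mm * a') - E' := by
  have h3 := mul_nonneg (sub_nonneg.2 hp) h0
  linarith

/-- path 2: along the profile -/
theorem path2g (hD : Dens P G m) (hV : Dens PV GV mV) {r : ℝ → ℝ} (hr : SP r)
    (hH : ∀ F, 0 ≤ F → HasDerivAt H (k F) F)
    (hpt : ∀ t ∈ Ico (0 : ℝ) 1, mV (al r t) (xx r t) + e0 * m (al r t) (xx r t) +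
      3 / 50 * (sin (al r t) ^ 4 * xx r t ^ 5) * (6 * (cos (al r t) * sin (al r t)) - xx r t) ≤
      k (FT P G r t) * m (al r t) (xx r t))
    (hF : ∀ t ∈ Icc (0 : ℝ) 1, 0 ≤ FT P G r t) :
    H (FT P G r 0) - FT PV GV r 0 - e0 * FT P G r 0 - GE (al r 0) (xx r 0) ≤
      H (FT P G r 1) - FT PV GV r 1 - e0 * FT P G r 1 - GE (al r 1) (xx r 1) := by
  have hFc := continuous_FT hD hr
  have hVc := continuous_FT hV hr
  have hxc : Continuous (xx r) := Continuous.sqrt (by have := hr.cont; fun_prop)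
  have hEc : Continuous fun t => GE (al r t) (xx r t) :=
    Continuous.comp (g := fun q : ℝ × ℝ => GE q.1 q.2) (f := fun t => (al r t, xx r t)) continuous_GE
      ((continuous_al hr).prodMk hxc)
  have key : ∀ (P G m : ℝ → ℝ → ℝ), Dens P G m → ∀ t ∈ Ico (0 : ℝ) 1, ∀ a' x' : ℝ,
      HasDerivWithinAt (al r) a' (Ici t) t → HasDerivWithinAt (xx r) x' (Ici t) t →
      (cos (al r t) + xx r t * sin (al r t)) * a' - cos (al r t) * x' = 1 →
      HasDerivWithinAt (FT P G r) (m (al r t) (xx r t) * a') (Ici t) t := by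
    intro P G m hD t ht a' x' ha hx h1
    have ht' : t ∈ Icc (0 : ℝ) 1 := ⟨ht.1, ht.2.le⟩
    have hP : Continuous fun s => P s (r s) := hD.contP.comp (continuous_id.prodMk hr.cont)
    have hI : HasDerivAt (fun t => ∫ s in (0 : ℝ)..t, P s (r s)) (P t (r t)) t :=
      intervalIntegral.integral_hasDerivAt_right (hP.intervalIntegrable _ _)
        (hP.stronglyMeasurableAtFilter _ _) hP.continuousAt
    have hG := hD.der (al r) (xx r) a' x' t (Ici t) ha hx
    rw [t_eq hr ht', h1, r_eq hr ht'] at hG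
    have := hI.hasDerivWithinAt (s := Ici t) |>.add hG
    refine HasDerivWithinAt.congr_deriv this ?_
    ring
  choose! a' x' ha0 ha hx h1 h2 using fun t (ht : t ∈ Ico (0 : ℝ) 1) => deriv_al' hr ht
  have hHc : ContinuousOn (fun t => H (FT P G r t)) (Icc 0 1) := by
    intro t ht
    exact ((hH _ (hF t ht)).continuousAt.comp hFc.continuousAt).continuousWithinAt
  have hB : ∀ t ∈ Ico (0 : ℝ) 1, HasDerivWithinAt
      (fun t => H (FT P G r t) - FT PV GV r t - e0 * FT P G r t - GE (al r t) (xx r t))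
      (k (FT P G r t) * (m (al r t) (xx r t) * a' t) - mV (al r t) (xx r t) * a' t -
        e0 * (m (al r t) (xx r t) * a' t) - (3 / 50 * (sin (al r t) ^ 4 * xx r t ^ 5) *
        (xx r t * (5 * cos (al r t) ^ 2 - sin (al r t) ^ 2) * a' t +
        6 * (cos (al r t) * sin (al r t)) * x' t))) (Ici t) t := by
    intro t ht
    have ht' : t ∈ Icc (0 : ℝ) 1 := ⟨ht.1, ht.2.le⟩
    have d1 := key P G m hD t ht _ _ (ha t ht) (hx t ht) (h1 t ht)
    have d2 := key PV GV mV hV t ht _ _ (ha t ht) (hx t ht) (h1 t ht)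
    have d3 : HasDerivWithinAt (fun t => H (FT P G r t))
        (k (FT P G r t) * (m (al r t) (xx r t) * a' t)) (Ici t) t :=
      HasDerivAt.comp_hasDerivWithinAt (h₂ := H) (h := FT P G r) t (hH _ (hF t ht')) d1
    have d4 := deriv_GE (al r) (xx r) (a' t) (x' t) t (Ici t) (ha t ht) (hx t ht)
    exact ((d3.sub d2).sub (d1.const_mul e0)).sub d4
  have hb : ∀ t ∈ Ico (0 : ℝ) 1, 0 ≤ (k (FT P G r t) * (m (al r t) (xx r t) * a' t) -
        mV (al r t) (xx r t) * a' t -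
        e0 * (m (al r t) (xx r t) * a' t) - (3 / 50 * (sin (al r t) ^ 4 * xx r t ^ 5) *
        (xx r t * (5 * cos (al r t) ^ 2 - sin (al r t) ^ 2) * a' t +
        6 * (cos (al r t) * sin (al r t)) * x' t))) := by
    intro t ht
    have ht' : t ∈ Icc (0 : ℝ) 1 := ⟨ht.1, ht.2.le⟩
    have g0 := h2 t ht
    have g1 := gauge_alg (Real.sin_sq_add_cos_sq (al r t)) (t_eq hr ht')
      (cos_al_pos hr ht).le (xx_pos hr ht').le g0
    have g2 := ha0 t ht
    have g3 := hpt t ht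
    exact fin_alg g3 g2 g1
  have hcont : ContinuousOn
      (fun t => H (FT P G r t) - FT PV GV r t - e0 * FT P G r t - GE (al r t) (xx r t)) (Icc 0 1) :=
    ((hHc.sub hVc.continuousOn).sub (continuousOn_const.mul hFc.continuousOn)).sub hEc.continuousOn
  exact image_le_of_deriv_right_le_deriv_boundary
    (f := fun _ => H (FT P G r 0) - FT PV GV r 0 - e0 * FT P G r 0 - GE (al r 0) (xx r 0))
    (f' := fun _ => 0) (a := 0) (b := 1)
    continuousOn_const (fun t _ => hasDerivWithinAt_const _ _ _) (B' := fun t =>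
      (k (FT P G r t) * (m (al r t) (xx r t) * a' t) - mV (al r t) (xx r t) * a' t -
        e0 * (m (al r t) (xx r t) * a' t) - (3 / 50 * (sin (al r t) ^ 4 * xx r t ^ 5) *
        (xx r t * (5 * cos (al r t) ^ 2 - sin (al r t) ^ 2) * a' t +
        6 * (cos (al r t) * sin (al r t)) * x' t)))) le_rfl hcont hB hb (right_mem_Icc.2 zero_le_one)

/-- path 1: along the axis -/
theorem path1g (hD : Dens P G m) (hV : Dens PV GV mV) {X : ℝ} (hX : 0 ≤ X)
    (hH : ∀ F, 0 ≤ F → HasDerivAt H (k F) F)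
    (hpt : ∀ x ∈ Ioo (0 : ℝ) X, mV (arctan x) x + e0 * m (arctan x) x +
      3 / 50 * (sin (arctan x) ^ 4 * x ^ 6) * (5 + 6 * cos (arctan x) ^ 2) ≤
      k (G (arctan x) x) * m (arctan x) x)
    (hF : ∀ x ∈ Icc (0 : ℝ) X, 0 ≤ G (arctan x) x) :
    H (G 0 0) - GV 0 0 - e0 * G 0 0 - GE 0 0 ≤
      H (G (arctan X) X) - GV (arctan X) X - e0 * G (arctan X) X - GE (arctan X) X := by
  have key : ∀ (P G m : ℝ → ℝ → ℝ), Dens P G m → ∀ x : ℝ,
      HasDerivAt (fun x => G (arctan x) x) (m (arctan x) x * (1 / (1 + x ^ 2))) x := by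
    intro P G m hD x
    have h1 := hD.der arctan id (1 / (1 + x ^ 2)) 1 x univ
      (Real.hasDerivAt_arctan x).hasDerivWithinAt (hasDerivWithinAt_id x univ)
    rw [hasDerivWithinAt_univ] at h1
    have hp : 0 < 1 + x ^ 2 := by positivity
    have hs : 0 < √(1 + x ^ 2) := Real.sqrt_pos.2 hp
    have hq : √(1 + x ^ 2) ^ 2 = 1 + x ^ 2 := Real.sq_sqrt hp.le
    have h2 : (cos (arctan x) + id x * sin (arctan x)) * (1 / (1 + x ^ 2)) - cos (arctan x) * 1 = 0 := by
      rw [Real.cos_arctan, Real.sin_arctan, ← hq]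
      simp only [id]
      field_simp
      rw [hq]; ring
    rw [h2, mul_zero, sub_zero] at h1
    exact h1
  have keyE : ∀ x : ℝ, HasDerivAt (fun x => GE (arctan x) x)
      ((3 / 50 * (sin (arctan x) ^ 4 * x ^ 6) * (5 + 6 * cos (arctan x) ^ 2)) *
        (1 / (1 + x ^ 2))) x := by
    intro x
    have h1 := deriv_GE arctan id (1 / (1 + x ^ 2)) 1 x univ
      (Real.hasDerivAt_arctan x).hasDerivWithinAt (hasDerivWithinAt_id x univ)
    rw [hasDerivWithinAt_univ] at h1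
    refine HasDerivAt.congr_deriv h1 ?_
    have hp : 0 < 1 + x ^ 2 := by positivity
    have hs : 0 < √(1 + x ^ 2) := Real.sqrt_pos.2 hp
    have hq : √(1 + x ^ 2) ^ 2 = 1 + x ^ 2 := Real.sq_sqrt hp.le
    have e1 : sin (arctan x) = x * cos (arctan x) := by
      rw [Real.cos_arctan, Real.sin_arctan]; ring
    have e2 : cos (arctan x) ^ 2 * (1 + x ^ 2) = 1 := by
      rw [Real.cos_arctan, div_pow, hq]; field_simp
    have e3 : cos (arctan x) ^ 2 = 1 / (1 + x ^ 2) := by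
      rw [eq_div_iff hp.ne']; exact e2
    simp only [id]
    have e4 : cos (arctan x) * sin (arctan x) = x * (1 / (1 + x ^ 2)) := by
      rw [e1, ← e3]; ring
    have e5 : sin (arctan x) ^ 2 = 1 - cos (arctan x) ^ 2 := by
      have := Real.sin_sq_add_cos_sq (arctan x); linarith
    rw [e4, e5]
    ring
  have hHd : ∀ x ∈ Icc (0 : ℝ) X, HasDerivAt (fun x => H (G (arctan x) x) - GV (arctan x) x -
      e0 * G (arctan x) x - GE (arctan x) x) (k (G (arctan x) x) * (m (arctan x) x * (1 / (1 + x ^ 2))) -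
        mV (arctan x) x * (1 / (1 + x ^ 2)) - e0 * (m (arctan x) x * (1 / (1 + x ^ 2))) -
        ((3 / 50 * (sin (arctan x) ^ 4 * x ^ 6) * (5 + 6 * cos (arctan x) ^ 2)) *
        (1 / (1 + x ^ 2)))) x := by
    intro x hx
    have hc := HasDerivAt.comp (h₂ := H) (h := fun x => G (arctan x) x) x (hH _ (hF x hx))
      (key P G m hD x)
    exact ((hc.sub (key PV GV mV hV x)).sub ((key P G m hD x).const_mul e0)).sub (keyE x)
  have hmono : MonotoneOn (fun x => H (G (arctan x) x) - GV (arctan x) x - e0 * G (arctan x) x -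
      GE (arctan x) x) (Icc 0 X) := by
    apply monotoneOn_of_deriv_nonneg (convex_Icc 0 X)
    · intro x hx
      exact (hHd x hx).continuousAt.continuousWithinAt
    · intro x hx
      rw [interior_Icc] at hx
      exact (hHd x (Ioo_subset_Icc_self hx)).differentiableAt.differentiableWithinAt
    · intro x hx
      rw [interior_Icc] at hx
      rw [(hHd x (Ioo_subset_Icc_self hx)).deriv]
      have := hpt x hx
      have h0 : 0 ≤ 1 / (1 + x ^ 2) := by positivity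
      have := mul_nonneg (sub_nonneg.2 this) h0
      linarith
  have := hmono (left_mem_Icc.2 hX) (right_mem_Icc.2 hX) hX
  simpa using this

/-- the two paths together -/
theorem coreg (hD : Dens P G m) (hV : Dens PV GV mV) {r : ℝ → ℝ} (hr : SP r)
    (hH : ∀ F, 0 ≤ F → HasDerivAt H (k F) F)
    (hpt : ∀ t ∈ Ico (0 : ℝ) 1, mV (al r t) (xx r t) + e0 * m (al r t) (xx r t) +
      3 / 50 * (sin (al r t) ^ 4 * xx r t ^ 5) * (6 * (cos (al r t) * sin (al r t)) - xx r t) ≤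
      k (FT P G r t) * m (al r t) (xx r t))
    (hF : ∀ t ∈ Icc (0 : ℝ) 1, 0 ≤ FT P G r t)
    (hpt0 : ∀ x : ℝ, 0 < x → mV (arctan x) x + e0 * m (arctan x) x +
      3 / 50 * (sin (arctan x) ^ 4 * x ^ 6) * (5 + 6 * cos (arctan x) ^ 2) ≤
      k (G (arctan x) x) * m (arctan x) x)
    (hF0 : ∀ x : ℝ, 0 ≤ x → 0 ≤ G (arctan x) x)
    (h00 : G 0 0 = 0) (h00' : GV 0 0 = 0) :
    H 0 ≤ H (FT P G r 1) - FT PV GV r 1 - e0 * FT P G r 1 := by
  have h0 : (0 : ℝ) ∈ Icc (0 : ℝ) 1 := ⟨le_rfl, zero_le_one⟩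
  have hx0 := xx_pos hr h0
  have e1 : ∀ P G : ℝ → ℝ → ℝ, FT P G r 0 = G (arctan (xx r 0)) (xx r 0) := by
    intro P G
    simp [FT, al]
  have e2 : GE (al r 0) (xx r 0) = GE (arctan (xx r 0)) (xx r 0) := by simp [al]
  have e3 : GE (al r 1) (xx r 1) = 0 := by
    rw [al_one hr]; unfold GE; rw [Real.cos_pi_div_two]; ring
  have e4 : GE 0 0 = 0 := by unfold GE; simp
  have p1 := path1g (e0 := e0) hD hV hx0.le hH (fun x hx => hpt0 x hx.1) (fun x hx => hF0 x hx.1)
  have p2 := path2g (e0 := e0) hD hV hr hH hpt hF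
  rw [e1 P G, e1 PV GV, e2, e3] at p2
  rw [h00, h00', e4] at p1
  have := p1.trans p2
  simpa using this

end Crest.Agent.R230.SD
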