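import Mathlib

/-!
# Row 230: the polynomials of the certificates for `SDL 4`
-/

set_option autoImplicit false

namespace Crest.Agent.R230.SD

/-- slice mass of the surface density, divided by the square of the tangent length (lower bound) -/
noncomputable def m5 (c r : ℝ) : ℝ := 50929 / 120000 * (c ^ 2 + 2 * c * r + 3 * r ^ 2)

/-- `(1 - c²)` times (slice mass of the volume density, plus the gauge, plus a small multiple of `m5`) -/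
noncomputable def B5 (c r : ℝ) : ℝ :=
  (1 - c ^ 2) * (153 / 280 * (c ^ 3 + 2 * c ^ 2 * r + 3 * c * r ^ 2 + 4 * r ^ 3) -
    5 / 49 * (c ^ 5 + 2 * c ^ 4 * r + 3 * c ^ 3 * r ^ 2 + 4 * c ^ 2 * r ^ 3 + 5 * c * r ^ 4 + 6 * r ^ 5)) +
  6 / 245 * (r - c) ^ 2 * (c ^ 3 + 4 * c ^ 2 * r + 10 * c * r ^ 2 + 20 * r ^ 3) +
  3 / 50 * (1 - c ^ 2) * ((r - c) ^ 3 * (6 * c * (1 - c ^ 2) - (r - c))) +
  1 / 10000 * (m5 c r * (1 - c ^ 2))

/-- lower bound of the swept mass, form A -/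
noncomputable def CA5 (a b c r : ℝ) : ℝ :=
  50929 / 30000 * (r ^ 2 * (a * (r - c) ^ 2 - b * (1 - c ^ 2)))

/-- lower bound of the swept mass, form M -/
noncomputable def CM5 (x0 Xb lam c r : ℝ) : ℝ :=
  50929 / 30000 * ((3 / 2 * x0 * (r - c) ^ 2 - 1 / 2 * x0 ^ 3 * (1 - c ^ 2)) *
    (r ^ 2 / 2 - Xb / 10 + lam * (c ^ 2 / 12 + c * r / 4)))

/-- lower bound of the swept mass, form B -/
noncomputable def CB5 (t0 lam x0 c r : ℝ) : ℝ :=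
  50929 / 30000 * ((r ^ 3 - 1) * ((1 - r * c) * (1 + c ^ 2 / 2)) * (1 - c ^ 2) +
    ((3 / 4 * t0 - 1 / 4 * t0 ^ 3) * (1 - r * c) ^ 2 - (1 / 4 * t0 ^ 3 - 3 / 20 * t0 ^ 5) * (1 - c ^ 2)) +
    lam * (c ^ 2 / 12 + c * r / 4) * (3 / 2 * x0 * (r - c) ^ 2 - 1 / 2 * x0 ^ 3 * (1 - c ^ 2)))

/-- lower bound of the swept mass, second form B -/
noncomputable def CC5 (ls t0 lam x0 c r : ℝ) : ℝ :=
  50929 / 30000 * (3 * r * (r - 1) * ((1 - r * c) * ls) * (1 - c ^ 2) +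
    ((3 / 4 * t0 - 1 / 4 * t0 ^ 3) * (1 - r * c) ^ 2 - (1 / 4 * t0 ^ 3 - 3 / 20 * t0 ^ 5) * (1 - c ^ 2)) +
    lam * (c ^ 2 / 12 + c * r / 4) * (3 / 2 * x0 * (r - c) ^ 2 - 1 / 2 * x0 ^ 3 * (1 - c ^ 2)))

/-- the chord inequality -/
noncomputable def Fi5 (al s CD c r : ℝ) : ℝ :=
  4 / 3 * m5 c r * ((1 - c ^ 2) * al + s * CD) - B5 c r

end Crest.Agent.R230.SD
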