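import Crest.Agent.R230.SD5Poly

/-!
# Row 230: pointwise inequality for `SDL 4`: soundness of the certificates
-/

set_option autoImplicit false
set_option maxHeartbeats 1000000
set_option linter.unusedVariables false

namespace Crest.Agent.R230.SD

open PolyC

/-- all facts about a boundary point: `c, σ` cosine and sine of the angle of the right tangent point,
`x` tangent length, `(t, r)` the point, `F` the swept mass, `f³ = 1 + F` -/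
structure Geo (c r x t σ F f : ℝ) : Prop where
  hc : 0 < c
  hc1 : c < 1
  hr : 0 < r
  hσ : 0 < σ
  hcs : σ ^ 2 + c ^ 2 = 1
  hx : 0 < x
  ht : 0 ≤ t
  ht1 : t ≤ 1
  h1 : t * σ = 1 - r * c
  h2 : x * σ = r - c
  hX : x ^ 2 = r ^ 2 + t ^ 2 - 1
  hF : 0 ≤ F
  hf : 0 < f
  hfF : f ^ 3 = 1 + F
  FA : r ≤ 1 → 50929 / 30000 * (r ^ 2 * (x ^ 3 * (1 + x ^ 2 / 2) / (1 + x ^ 2) ^ 2)) ≤ F
  FM : r ≤ 1 → 50929 / 30000 * (x ^ 3 * (r ^ 2 / 2 - x ^ 2 / 10 +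
    (3 / 2 - x ^ 2 / (2 * r ^ 2)) * (c ^ 2 / 12 + c * r / 4))) ≤ F
  FB : 1 ≤ r → 50929 / 30000 * (t * (r ^ 3 - 1) + (t ^ 3 / 2 - t ^ 5 / 10) +
    (3 / 2 - x ^ 2 / (2 * r ^ 2)) * (c ^ 2 / 12 + c * r / 4) * x ^ 3) ≤ F

/-- the pointwise inequality -/
def Goal (c r : ℝ) : Prop :=
  ∀ x t σ F f : ℝ, Geo c r x t σ F f → B5 c r ≤ 4 / 3 * m5 c r * (1 - c ^ 2) * f

theorem m5_nonneg {c r : ℝ} (hc : 0 ≤ c) (hr : 0 ≤ r) : 0 ≤ m5 c r := by
  unfold m5; positivity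

/-- the chord of the cube root -/
theorem chord3 {g0 g1 f : ℝ} (h0 : 0 < g0) (h1 : g0 ≤ f) (h2 : f ≤ g1) :
    ic g0 g1 + sl g0 g1 * (f ^ 3 - 1) ≤ f := by
  unfold ic
  have hg1 : 0 < g1 := by linarith
  have hS : 0 < g1 ^ 2 + g1 * g0 + g0 ^ 2 := by positivity
  have hs : sl g0 g1 * (f ^ 2 + f * g0 + g0 ^ 2) ≤ 1 := by
    unfold sl
    rw [one_div_mul_eq_div, div_le_one hS]
    nlinarith
  nlinarith [mul_nonneg (sub_nonneg.2 h1) (sub_nonneg.2 hs)]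

theorem fin5 {c r F f g0 g1 CD : ℝ} (hc : 0 ≤ c) (hc1 : c < 1) (hr : 0 ≤ r) (hF : 0 ≤ F) (hf : 0 < f)
    (hfF : f ^ 3 = 1 + F) (hg0 : 1 ≤ g0) (hg : g0 < g1) (hCD : CD ≤ (1 - c ^ 2) * F)
    (hi : 0 ≤ Fi5 (ic g0 g1) (sl g0 g1) CD c r)
    (hG : 0 ≤ 4 / 3 * g1 * m5 c r * (1 - c ^ 2) - B5 c r)
    (h0 : g0 = 1 ∨ 0 ≤ CD - (g0 ^ 3 - 1) * (1 - c ^ 2)) :
    B5 c r ≤ 4 / 3 * m5 c r * (1 - c ^ 2) * f := by
  have hD : 0 < 1 - c ^ 2 := by nlinarith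
  have hm := m5_nonneg hc hr
  rcases le_total g1 f with h | h
  · have : 0 ≤ 4 / 3 * m5 c r * (1 - c ^ 2) * (f - g1) := by
      have : 0 ≤ f - g1 := by linarith
      positivity
    linarith
  · have hg0f : g0 ≤ f := by
      have h3 : g0 ^ 3 ≤ f ^ 3 := by
        rcases h0 with h0 | h0
        · rw [h0, hfF]; linarith
        · have : 0 ≤ (1 - c ^ 2) * (F - (g0 ^ 3 - 1)) := by linarith
          have := nonneg_of_mul_nonneg_right this hD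
          rw [hfF]; linarith
      exact le_of_pow_le_pow_left₀ (by norm_num) hf.le h3
    have hch := chord3 (by linarith) hg0f h
    have hs : 0 ≤ sl g0 g1 := by
      unfold sl
      have : 0 < g1 := by linarith
      positivity
    have e1 : f ^ 3 - 1 = F := by linarith
    rw [e1] at hch
    have h4 := mul_le_mul_of_nonneg_left hch hD.le
    have h5 := mul_le_mul_of_nonneg_left hCD hs
    have h6 : (1 - c ^ 2) * ic g0 g1 + sl g0 g1 * CD ≤ (1 - c ^ 2) * f := by linarith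
    have h7 := mul_le_mul_of_nonneg_left h6 (by positivity : 0 ≤ 4 / 3 * m5 c r)
    unfold Fi5 at hi
    linarith

theorem Geo.D {c r x t σ F f : ℝ} (g : Geo c r x t σ F f) : 0 < 1 - c ^ 2 := by
  have := g.hc; have := g.hc1; nlinarith

theorem Geo.XD {c r x t σ F f : ℝ} (g : Geo c r x t σ F f) : x ^ 2 * (1 - c ^ 2) = (r - c) ^ 2 := by
  rw [← g.h2, show 1 - c ^ 2 = σ ^ 2 by linarith [g.hcs]]; ring

theorem Geo.TD {c r x t σ F f : ℝ} (g : Geo c r x t σ F f) :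
    t ^ 2 * (1 - c ^ 2) = (1 - r * c) ^ 2 := by
  rw [← g.h1, show 1 - c ^ 2 = σ ^ 2 by linarith [g.hcs]]; ring

/-- tangent line for the cube, as a function of the square -/
theorem cube_lb' {z z0 : ℝ} (hz : 0 ≤ z) (hz0 : 0 ≤ z0) :
    3 / 2 * z0 * z ^ 2 - 1 / 2 * z0 ^ 3 ≤ z ^ 3 := by
  nlinarith [mul_nonneg (sq_nonneg (z - z0)) (by positivity : 0 ≤ z + z0 / 2)]

theorem Geo.LX {c r x t σ F f x0 : ℝ} (g : Geo c r x t σ F f) (hx0 : 0 ≤ x0) :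
    3 / 2 * x0 * (r - c) ^ 2 - 1 / 2 * x0 ^ 3 * (1 - c ^ 2) ≤ (1 - c ^ 2) * x ^ 3 := by
  have h := mul_le_mul_of_nonneg_left (cube_lb' g.hx.le hx0) g.D.le
  rw [← g.XD]
  linarith

/-- tangent line for `t³/2 - t⁵/10` -/
theorem t_lb {t t0 : ℝ} (h0 : 0 ≤ t) (h1 : t ≤ 1) (h2 : 0 ≤ t0) (h3 : t0 ≤ 1) :
    (3 / 4 * t0 - 1 / 4 * t0 ^ 3) * t ^ 2 - (1 / 4 * t0 ^ 3 - 3 / 20 * t0 ^ 5) ≤
      t ^ 3 / 2 - t ^ 5 / 10 := by
  have h4 : 0 ≤ -t ^ 3 / 10 - t0 * t ^ 2 / 5 + (1 / 2 - 3 / 10 * t0 ^ 2) * t + t0 / 4 -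
      3 / 20 * t0 ^ 3 := by
    have a1 : t ^ 2 ≤ 1 := by nlinarith
    have a2 : t0 ^ 2 ≤ 1 := by nlinarith
    have a3 : t * t0 ≤ 1 := by nlinarith
    have b1 : 0 ≤ t * (1 - t ^ 2) := mul_nonneg h0 (by linarith)
    have b2 : 0 ≤ t * (1 - t * t0) := mul_nonneg h0 (by linarith)
    have b3 : 0 ≤ t * (1 - t0 ^ 2) := mul_nonneg h0 (by linarith)
    have b4 : 0 ≤ t0 * (1 - t0 ^ 2) := mul_nonneg h2 (by linarith)
    nlinarith
  nlinarith [mul_nonneg (sq_nonneg (t - t0)) h4]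

theorem capA5 {c r x t σ F f a b xa xb : ℝ} (g : Geo c r x t σ F f) (hr1 : r ≤ 1)
    (hl : a * x ^ 2 - b ≤ x ^ 3 * (1 + x ^ 2 / 2) / (1 + x ^ 2) ^ 2) :
    CA5 a b c r ≤ (1 - c ^ 2) * F := by
  have hD := g.D
  have h1 := mul_le_mul_of_nonneg_left (g.FA hr1) hD.le
  have h2 := mul_le_mul_of_nonneg_left hl (by positivity : 0 ≤ (1 - c ^ 2) * (50929 / 30000 * r ^ 2))
  unfold CA5
  rw [← g.XD]
  linarith

theorem ratio_le {r x2 w1 : ℝ} (hr : 0 < r) (hw : x2 ≤ w1 * r ^ 2) :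
    3 / 2 - w1 / 2 ≤ 3 / 2 - x2 / (2 * r ^ 2) := by
  have : x2 / (2 * r ^ 2) ≤ w1 / 2 := by
    rw [div_le_iff₀ (by positivity)]; linarith
  linarith

theorem capM5 {c r x t σ F f x0 Xb w1 : ℝ} (g : Geo c r x t σ F f) (hr1 : r ≤ 1) (hx0 : 0 ≤ x0)
    (hXb : x ^ 2 ≤ Xb) (hw : x ^ 2 ≤ w1 * r ^ 2)
    (hG2 : 0 ≤ r ^ 2 / 2 - Xb / 10 + (3 / 2 - w1 / 2) * (c ^ 2 / 12 + c * r / 4)) :
    CM5 x0 Xb (3 / 2 - w1 / 2) c r ≤ (1 - c ^ 2) * F := by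
  have hD := g.D
  have hc := g.hc
  have hr := g.hr
  have hx := g.hx
  have h1 := mul_le_mul_of_nonneg_left (g.FM hr1) hD.le
  have h2 := ratio_le hr hw
  have h3 := g.LX hx0
  have h4 : (3 / 2 - w1 / 2) * (c ^ 2 / 12 + c * r / 4) ≤
      (3 / 2 - x ^ 2 / (2 * r ^ 2)) * (c ^ 2 / 12 + c * r / 4) := by gcongr
  set G' := r ^ 2 / 2 - x ^ 2 / 10 + (3 / 2 - x ^ 2 / (2 * r ^ 2)) * (c ^ 2 / 12 + c * r / 4) with hG'
  set G := r ^ 2 / 2 - Xb / 10 + (3 / 2 - w1 / 2) * (c ^ 2 / 12 + c * r / 4) with hG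
  have h5 : G ≤ G' := by rw [hG, hG']; linarith
  have h6 := mul_le_mul_of_nonneg_right h3 hG2
  have h7 : (1 - c ^ 2) * x ^ 3 * G ≤ (1 - c ^ 2) * x ^ 3 * G' := by gcongr
  unfold CM5
  rw [← hG]
  linarith

theorem capB5 {c r x t σ F f t0 x0 w1 : ℝ} (g : Geo c r x t σ F f) (hr1 : 1 ≤ r) (ht0 : 0 ≤ t0)
    (ht0' : t0 ≤ 1) (hx0 : 0 ≤ x0) (hw : x ^ 2 ≤ w1 * r ^ 2) (hw1 : w1 ≤ 3) :
    CB5 t0 (3 / 2 - w1 / 2) x0 c r ≤ (1 - c ^ 2) * F := by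
  have hD := g.D
  have hc := g.hc
  have hc1 := g.hc1
  have hr := g.hr
  have hx := g.hx
  have ht := g.ht
  have hσ := g.hσ
  have hcs := g.hcs
  have h1 := mul_le_mul_of_nonneg_left (g.FB hr1) hD.le
  have h2 := ratio_le hr hw
  have h3 := g.LX hx0
  have h4 := mul_le_mul_of_nonneg_left (t_lb g.ht g.ht1 ht0 ht0') hD.le
  have hσ1 : σ * (1 + c ^ 2 / 2) ≤ 1 := by
    have : (σ * (1 + c ^ 2 / 2)) ^ 2 ≤ 1 ^ 2 := by
      have e : (σ * (1 + c ^ 2 / 2)) ^ 2 = (1 - c ^ 2) * (1 + c ^ 2 / 2) ^ 2 := by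
        rw [mul_pow, show σ ^ 2 = 1 - c ^ 2 by linarith]
      rw [e]
      have : (1 - c ^ 2) * (1 + c ^ 2 / 2) ^ 2 = 1 - 3 / 4 * c ^ 4 - 1 / 4 * c ^ 6 := by ring
      rw [this]
      have : 0 ≤ c ^ 4 := by positivity
      have : 0 ≤ c ^ 6 := by positivity
      linarith
    exact (abs_le_of_sq_le_sq' this zero_le_one).2
  have e1 : (1 - r * c) * (1 + c ^ 2 / 2) ≤ t := by
    rw [← g.h1, mul_assoc]
    nlinarith
  have hr3 : 0 ≤ r ^ 3 - 1 := by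
    have : 1 ^ 3 ≤ r ^ 3 := pow_le_pow_left₀ zero_le_one hr1 3
    linarith
  have k1 : (1 - c ^ 2) * ((r ^ 3 - 1) * ((1 - r * c) * (1 + c ^ 2 / 2))) ≤
      (1 - c ^ 2) * ((r ^ 3 - 1) * t) := by gcongr
  have hlam : 0 ≤ 3 / 2 - w1 / 2 := by linarith
  have k2 : (3 / 2 - w1 / 2) * (c ^ 2 / 12 + c * r / 4) *
      (3 / 2 * x0 * (r - c) ^ 2 - 1 / 2 * x0 ^ 3 * (1 - c ^ 2)) ≤
      (3 / 2 - w1 / 2) * (c ^ 2 / 12 + c * r / 4) * ((1 - c ^ 2) * x ^ 3) := by gcongr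
  have k3 : (3 / 2 - w1 / 2) * (c ^ 2 / 12 + c * r / 4) * ((1 - c ^ 2) * x ^ 3) ≤
      (3 / 2 - x ^ 2 / (2 * r ^ 2)) * (c ^ 2 / 12 + c * r / 4) * ((1 - c ^ 2) * x ^ 3) := by gcongr
  have e2 := g.TD
  unfold CB5
  rw [← e2]
  linarith

theorem capC5 {c r x t σ F f t0 x0 w1 ls : ℝ} (g : Geo c r x t σ F f) (hr1 : 1 ≤ r) (ht0 : 0 ≤ t0)
    (ht0' : t0 ≤ 1) (hx0 : 0 ≤ x0) (hw : x ^ 2 ≤ w1 * r ^ 2) (hw1 : w1 ≤ 3) (hls : 0 ≤ ls)
    (hls2 : ls ^ 2 * (1 - c ^ 2) ≤ 1) :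
    CC5 ls t0 (3 / 2 - w1 / 2) x0 c r ≤ (1 - c ^ 2) * F := by
  have hD := g.D
  have hc := g.hc
  have hc1 := g.hc1
  have hr := g.hr
  have hx := g.hx
  have ht := g.ht
  have hσ := g.hσ
  have hcs := g.hcs
  have h1 := mul_le_mul_of_nonneg_left (g.FB hr1) hD.le
  have h2 := ratio_le hr hw
  have h3 := g.LX hx0
  have h4 := mul_le_mul_of_nonneg_left (t_lb g.ht g.ht1 ht0 ht0') hD.le
  have hσ1 : σ * ls ≤ 1 := by
    have : (σ * ls) ^ 2 ≤ 1 ^ 2 := by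
      rw [mul_pow, show σ ^ 2 = 1 - c ^ 2 by linarith]; linarith
    exact (abs_le_of_sq_le_sq' this zero_le_one).2
  have e1 : (1 - r * c) * ls ≤ t := by
    rw [← g.h1, mul_assoc]
    nlinarith
  have e0 : 0 ≤ (1 - r * c) * ls := by
    rw [← g.h1]; positivity
  have hr3 : 0 ≤ r ^ 3 - 1 := by
    have : 1 ^ 3 ≤ r ^ 3 := pow_le_pow_left₀ zero_le_one hr1 3
    linarith
  have hr4 : 3 * r * (r - 1) ≤ r ^ 3 - 1 := by
    nlinarith [pow_nonneg (sub_nonneg.2 hr1) 3]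
  have k1 : (1 - c ^ 2) * (3 * r * (r - 1) * ((1 - r * c) * ls)) ≤
      (1 - c ^ 2) * ((r ^ 3 - 1) * t) := by
    have : 3 * r * (r - 1) * ((1 - r * c) * ls) ≤ (r ^ 3 - 1) * t :=
      mul_le_mul hr4 e1 e0 hr3
    exact mul_le_mul_of_nonneg_left this hD.le
  have hlam : 0 ≤ 3 / 2 - w1 / 2 := by linarith
  have k2 : (3 / 2 - w1 / 2) * (c ^ 2 / 12 + c * r / 4) *
      (3 / 2 * x0 * (r - c) ^ 2 - 1 / 2 * x0 ^ 3 * (1 - c ^ 2)) ≤
      (3 / 2 - w1 / 2) * (c ^ 2 / 12 + c * r / 4) * ((1 - c ^ 2) * x ^ 3) := by gcongr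
  have k3 : (3 / 2 - w1 / 2) * (c ^ 2 / 12 + c * r / 4) * ((1 - c ^ 2) * x ^ 3) ≤
      (3 / 2 - x ^ 2 / (2 * r ^ 2)) * (c ^ 2 / 12 + c * r / 4) * ((1 - c ^ 2) * x ^ 3) := by gcongr
  have e2 := g.TD
  unfold CC5
  rw [← e2]
  linarith

/-! ## Boxes -/

/-- the pointwise inequality on a box `[u/32, w/32] × [u'/32, w'/32]` -/
def OK (k : ℕ) (u w u' w' : ℤ) : Prop :=
  ∀ c v r : ℝ, rel k c v r → (u:ℝ) ≤ 32 * c → 32 * c ≤ w → (u':ℝ) ≤ 32 * v → 32 * v ≤ w' →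
    Goal c r

theorem OK.sx {k : ℕ} {u m w u' w' : ℤ} (h1 : OK k u m u' w') (h2 : OK k m w u' w') :
    OK k u w u' w' := by
  intro c v r hr a1 a2 a3 a4
  rcases le_total (32 * c) (m:ℝ) with h | h
  · exact h1 c v r hr a1 h a3 a4
  · exact h2 c v r hr h a2 a3 a4

theorem OK.sy {k : ℕ} {u w u' m w' : ℤ} (h1 : OK k u w u' m) (h2 : OK k u w m w') :
    OK k u w u' w' := by
  intro c v r hr a1 a2 a3 a4
  rcases le_total (32 * v) (m:ℝ) with h | h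
  · exact h1 c v r hr a1 a2 a3 h
  · exact h2 c v r hr a1 a2 h a4

/-- beyond the axis -/
theorem OK.skip {u w u' w' : ℤ} (h0 : 0 < u) (h1 : 1024 < u * u') : OK 2 u w u' w' := by
  intro c v r hr a1 a2 a3 a4 x t σ F f g
  exfalso
  have hr' : r = 1 + v * (1 - c) := hr
  have hc1 := g.hc1
  have hc := g.hc
  have h3 : r * c ≤ 1 := by
    have : 0 ≤ t * σ := mul_nonneg g.ht g.hσ.le
    rw [g.h1] at this; linarith
  have h4 : (1024:ℝ) < u * u' := by exact_mod_cast h1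
  have h0' : (0:ℝ) < u := by exact_mod_cast h0
  have h5 : (u:ℝ) * u' ≤ (32 * c) * (32 * v) := by
    have hu' : (0:ℝ) < u' := by
      by_contra hneg
      have : (u:ℝ) * u' ≤ 0 := mul_nonpos_of_nonneg_of_nonpos h0'.le (not_lt.1 hneg)
      linarith
    exact mul_le_mul a1 a3 hu'.le (by linarith)
  have h6 : 1 < c * v := by linarith
  rw [hr'] at h3
  have h7 : 0 < (1 - c) * (v * c - 1) := mul_pos (by linarith) (by linarith)
  linarith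

section leaf

variable {k : ℕ} {u w u' w' : ℤ}

theorem nonneg_of_scaled {a b : ℝ} (ha : 0 < a) (h : 0 ≤ a * b) : 0 ≤ b :=
  nonneg_of_mul_nonneg_right h ha

theorem leafCommon (G0 G1 K : ℤ) (CDP : List (List ℤ)) (hK : 0 < K) (hG0 : 1000 ≤ G0) (hG : G0 < G1)
    (huw : u < w) (huw' : u' < w')
    (hi : chkK k (pFi G0 G1 K CDP) u w 32 u' w' 32 = true)
    (hg : chkK k (pG G1) u w 32 u' w' 32 = true)
    (hc : G0 = 1000 ∨ chkK k (pC0 G0 K CDP) u w 32 u' w' 32 = true)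
    {c v r x t σ F f CD : ℝ} (g : Geo c r x t σ F f) (hrel : rel k c v r)
    (a1 : (u:ℝ) ≤ 32 * c) (a2 : 32 * c ≤ w) (a3 : (u':ℝ) ≤ 32 * v) (a4 : 32 * v ≤ w')
    (hCD : ev2 CDP c r = K * 1000000000 * CD) (hcap : CD ≤ (1 - c ^ 2) * F) :
    B5 c r ≤ 4 / 3 * m5 c r * (1 - c ^ 2) * f := by
  have hKR : (0:ℝ) < K := by exact_mod_cast hK
  have hG0R : (1000:ℝ) ≤ G0 := by exact_mod_cast hG0
  have hGR : (G0:ℝ) < G1 := by exact_mod_cast hG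
  have e1 := chkK_sound hi huw huw' g.hc1.le hrel a1 a2 a3 a4
  have e2 := chkK_sound hg huw huw' g.hc1.le hrel a1 a2 a3 a4
  rw [ev_pFi (by linarith) (by linarith) hCD] at e1
  rw [ev_pG] at e2
  refine fin5 (g0 := (G0:ℝ) / 1000) (g1 := (G1:ℝ) / 1000) g.hc.le g.hc1 g.hr.le g.hF g.hf g.hfF
    (by linarith) (by linarith) hcap (nonneg_of_scaled ?_ e1) (nonneg_of_scaled (by norm_num) e2) ?_
  · have : (0:ℝ) < G1 := by linarith
    have : (0:ℝ) < G0 := by linarith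
    positivity
  · rcases hc with hc | hc
    · left
      rw [hc]; norm_num
    · right
      have e3 := chkK_sound hc huw huw' g.hc1.le hrel a1 a2 a3 a4
      rw [ev_pC0 hCD] at e3
      exact nonneg_of_scaled (by positivity) e3

theorem OK.A (hk : 1 = k) (hu0 : 0 ≤ u') (G0 G1 a b xa xb : ℤ) (hG0 : 1000 ≤ G0) (hG : G0 < G1) (huw : u < w)
    (huw' : u' < w') (hxa : 0 ≤ xa) (hxab : xa < xb)
    (hi : chkK k (pFi G0 G1 3 (pA a b)) u w 32 u' w' 32 = true)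
    (hg : chkK k (pG G1) u w 32 u' w' 32 = true)
    (hc : G0 = 1000 ∨ chkK k (pC0 G0 3 (pA a b)) u w 32 u' w' 32 = true)
    (h3 : xa = 0 ∨ chkK k (pXa xa) u w 32 u' w' 32 = true)
    (h4 : xb = 200 ∨ chkK k (pXb xb) u w 32 u' w' 32 = true)
    (h5 : chk1 12 (pL a b) xa xb 200 = true) : OK k u w u' w' := by
  intro c v r hrel a1 a2 a3 a4 x t σ F f g
  have hD := g.D
  have hx := g.hx
  have hr1 : r ≤ 1 := by
    subst hk
    have hr' : r = 1 - v * (1 - c) := hrel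
    have : (0:ℝ) ≤ u' := by exact_mod_cast hu0
    have : 0 ≤ v * (1 - c) := mul_nonneg (by linarith) (by linarith [g.hc1])
    linarith
  have hxaR : (0:ℝ) ≤ xa := by exact_mod_cast hxa
  have hxabR : (xa:ℝ) < xb := by exact_mod_cast hxab
  have b1 : (xa:ℝ) / 200 ≤ x := by
    rcases h3 with h3 | h3
    · rw [h3]; simp only [Int.cast_zero, zero_div]; exact hx.le
    · have e := chkK_sound h3 huw huw' g.hc1.le hrel a1 a2 a3 a4
      rw [ev_pXa] at e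
      have e := nonneg_of_scaled (by norm_num) e
      rw [← g.XD] at e
      have e : 0 ≤ (1 - c ^ 2) * (x ^ 2 - ((xa:ℝ) / 200) ^ 2) := by linarith
      have := nonneg_of_mul_nonneg_right e hD
      exact (abs_le_of_sq_le_sq' (by linarith) hx.le).2
  have b2 : x ≤ (xb:ℝ) / 200 := by
    rcases h4 with h4 | h4
    · rw [h4]
      have : x ^ 2 ≤ 1 ^ 2 := by
        rw [g.hX]
        have := g.ht; have := g.ht1; have := g.hr
        nlinarith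
      have := (abs_le_of_sq_le_sq' this zero_le_one).2
      norm_num
      linarith
    · have e := chkK_sound h4 huw huw' g.hc1.le hrel a1 a2 a3 a4
      rw [ev_pXb] at e
      have e := nonneg_of_scaled (by norm_num) e
      rw [← g.XD] at e
      have e : 0 ≤ (1 - c ^ 2) * (((xb:ℝ) / 200) ^ 2 - x ^ 2) := by linarith
      have := nonneg_of_mul_nonneg_right e hD
      exact (abs_le_of_sq_le_sq' (by linarith) (by linarith)).2
  have hl : (a:ℝ) / 2000 * x ^ 2 - (b:ℝ) / 20000 ≤ x ^ 3 * (1 + x ^ 2 / 2) / (1 + x ^ 2) ^ 2 := by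
    rw [le_div_iff₀ (by positivity)]
    have e := chk1_sound h5 (by norm_num) hxab (x := x) (by push_cast; linarith)
      (by push_cast; linarith)
    rw [ev_pL] at e
    have e := nonneg_of_scaled (by norm_num) e
    linarith
  exact leafCommon G0 G1 3 (pA a b) (by norm_num) hG0 hG huw huw' hi hg hc g hrel a1 a2 a3 a4
    (ev_pA a b c r) (capA5 (xa := 0) (xb := 0) g hr1 hl)

theorem W_sound {c v r x t σ F f : ℝ} {W : ℤ} (g : Geo c r x t σ F f) (huw : u < w) (huw' : u' < w')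
    (h : W = 100 ∨ chkK k (pW W) u w 32 u' w' 32 = true) (hrel : rel k c v r)
    (a1 : (u:ℝ) ≤ 32 * c) (a2 : 32 * c ≤ w) (a3 : (u':ℝ) ≤ 32 * v) (a4 : 32 * v ≤ w') :
    x ^ 2 ≤ (W:ℝ) / 100 * r ^ 2 := by
  rcases h with h | h
  · have h1 := g.ht; have h2 := g.ht1
    have h3 : t ^ 2 ≤ 1 := by nlinarith
    have e : ((100 : ℤ) : ℝ) / 100 = 1 := by norm_num
    rw [h, g.hX, e]
    linarith
  · have e := chkK_sound h huw huw' g.hc1.le hrel a1 a2 a3 a4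
    rw [ev_pW] at e
    have e := nonneg_of_scaled (by norm_num) e
    rw [← g.XD] at e
    have e : 0 ≤ (1 - c ^ 2) * ((W:ℝ) / 100 * r ^ 2 - x ^ 2) := by linarith
    have := nonneg_of_mul_nonneg_right e g.D
    linarith

theorem OK.M (hk : 1 = k) (hu0 : 0 ≤ u') (G0 G1 X Xb W : ℤ) (hG0 : 1000 ≤ G0) (hG : G0 < G1) (huw : u < w)
    (huw' : u' < w') (hX0 : 0 ≤ X)
    (hi : chkK k (pFi G0 G1 5760000 (pMM X Xb (300 - W))) u w 32 u' w' 32 = true)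
    (hg : chkK k (pG G1) u w 32 u' w' 32 = true)
    (hc : G0 = 1000 ∨ chkK k (pC0 G0 5760000 (pMM X Xb (300 - W))) u w 32 u' w' 32 = true)
    (h3 : Xb = 100 ∨ chkK k (pXc Xb) u w 32 u' w' 32 = true)
    (h4 : W = 100 ∨ chkK k (pW W) u w 32 u' w' 32 = true)
    (h5 : chkK k (pG2 Xb (300 - W)) u w 32 u' w' 32 = true) : OK k u w u' w' := by
  intro c v r hrel a1 a2 a3 a4 x t σ F f g
  have hD := g.D
  have hx := g.hx
  have hr1 : r ≤ 1 := by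
    subst hk
    have hr' : r = 1 - v * (1 - c) := hrel
    have : (0:ℝ) ≤ u' := by exact_mod_cast hu0
    have : 0 ≤ v * (1 - c) := mul_nonneg (by linarith) (by linarith [g.hc1])
    linarith
  have hX0R : (0:ℝ) ≤ X := by exact_mod_cast hX0
  have b1 : x ^ 2 ≤ (Xb:ℝ) / 100 := by
    rcases h3 with h3 | h3
    · rw [h3, g.hX]
      have := g.ht; have := g.ht1; have := g.hr
      norm_num
      nlinarith
    · have e := chkK_sound h3 huw huw' g.hc1.le hrel a1 a2 a3 a4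
      rw [ev_pXc] at e
      have e := nonneg_of_scaled (by norm_num) e
      rw [← g.XD] at e
      have e : 0 ≤ (1 - c ^ 2) * ((Xb:ℝ) / 100 - x ^ 2) := by linarith
      have := nonneg_of_mul_nonneg_right e hD
      linarith
  have b2 := W_sound g huw huw' h4 hrel a1 a2 a3 a4
  have e5 := chkK_sound h5 huw huw' g.hc1.le hrel a1 a2 a3 a4
  rw [ev_pG2] at e5
  have e5 := nonneg_of_mul_nonneg_left e5 hD
  have e5 := nonneg_of_scaled (by norm_num) e5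
  have elam : (((300 - W : ℤ)):ℝ) / 200 = 3 / 2 - ((W:ℝ) / 100) / 2 := by push_cast; ring
  refine leafCommon G0 G1 5760000 (pMM X Xb (300 - W)) (by norm_num) hG0 hG huw huw' hi hg hc g hrel
    a1 a2 a3 a4 (ev_pMM X Xb (300 - W) c r) ?_
  rw [elam] at e5 ⊢
  exact capM5 g hr1 (by positivity) b1 b2 e5

theorem OK.B (G0 G1 T X W : ℤ) (hG0 : 1000 ≤ G0) (hG : G0 < G1) (huw : u < w) (huw' : u' < w')
    (hk : ∀ c v r : ℝ, rel k c v r → c < 1 → (u':ℝ) ≤ 32 * v → 1 ≤ r)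
    (hT : 0 ≤ T) (hT1 : T ≤ 200) (hX0 : 0 ≤ X) (hW : W ≤ 300)
    (hi : chkK k (pFi G0 G1 576000000 (pBB T (300 - W) X)) u w 32 u' w' 32 = true)
    (hg : chkK k (pG G1) u w 32 u' w' 32 = true)
    (hc : G0 = 1000 ∨ chkK k (pC0 G0 576000000 (pBB T (300 - W) X)) u w 32 u' w' 32 = true)
    (h4 : W = 100 ∨ chkK k (pW W) u w 32 u' w' 32 = true) : OK k u w u' w' := by
  intro c v r hrel a1 a2 a3 a4 x t σ F f g
  have hr1 := hk c v r hrel g.hc1 a3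
  have hX0R : (0:ℝ) ≤ X := by exact_mod_cast hX0
  have hT0R : (0:ℝ) ≤ T := by exact_mod_cast hT
  have hT1R : (T:ℝ) ≤ 200 := by exact_mod_cast hT1
  have hWR : (W:ℝ) ≤ 300 := by exact_mod_cast hW
  have b2 := W_sound g huw huw' h4 hrel a1 a2 a3 a4
  have elam : (((300 - W : ℤ)):ℝ) / 200 = 3 / 2 - ((W:ℝ) / 100) / 2 := by push_cast; ring
  refine leafCommon G0 G1 576000000 (pBB T (300 - W) X) (by norm_num) hG0 hG huw huw' hi hg hc g hrel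
    a1 a2 a3 a4 (ev_pBB T (300 - W) X c r) ?_
  rw [elam]
  exact capB5 g hr1 (by positivity) (by linarith) (by positivity) b2 (by linarith)

theorem OK.C (G0 G1 T X W ls : ℤ) (hG0 : 1000 ≤ G0) (hG : G0 < G1) (huw : u < w) (huw' : u' < w')
    (hk : ∀ c v r : ℝ, rel k c v r → c < 1 → (u':ℝ) ≤ 32 * v → 1 ≤ r)
    (hT : 0 ≤ T) (hT1 : T ≤ 200) (hX0 : 0 ≤ X) (hW : W ≤ 300) (hls : 0 ≤ ls) (hu : 0 ≤ u)
    (hls2 : ls * ls * (1024 - u * u) ≤ 1024000000)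
    (hi : chkK k (pFi G0 G1 576000000 (pCC ls T (300 - W) X)) u w 32 u' w' 32 = true)
    (hg : chkK k (pG G1) u w 32 u' w' 32 = true)
    (hc : G0 = 1000 ∨ chkK k (pC0 G0 576000000 (pCC ls T (300 - W) X)) u w 32 u' w' 32 = true)
    (h4 : W = 100 ∨ chkK k (pW W) u w 32 u' w' 32 = true) : OK k u w u' w' := by
  intro c v r hrel a1 a2 a3 a4 x t σ F f g
  have hr1 := hk c v r hrel g.hc1 a3
  have hX0R : (0:ℝ) ≤ X := by exact_mod_cast hX0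
  have hT0R : (0:ℝ) ≤ T := by exact_mod_cast hT
  have hT1R : (T:ℝ) ≤ 200 := by exact_mod_cast hT1
  have hWR : (W:ℝ) ≤ 300 := by exact_mod_cast hW
  have hlsR : (0:ℝ) ≤ ls := by exact_mod_cast hls
  have huR : (0:ℝ) ≤ u := by exact_mod_cast hu
  have hls2R : (ls:ℝ) * ls * (1024 - u * u) ≤ 1024000000 := by exact_mod_cast hls2
  have b2 := W_sound g huw huw' h4 hrel a1 a2 a3 a4
  have b3 : ((ls:ℝ) / 1000) ^ 2 * (1 - c ^ 2) ≤ 1 := by
    have h1 : (u:ℝ) * u ≤ (32 * c) * (32 * c) := mul_le_mul a1 a1 huR (by linarith)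
    have h2 : (ls:ℝ) * ls * (1024 - (32 * c) * (32 * c)) ≤ ls * ls * (1024 - u * u) := by gcongr
    linarith
  have elam : (((300 - W : ℤ)):ℝ) / 200 = 3 / 2 - ((W:ℝ) / 100) / 2 := by push_cast; ring
  refine leafCommon G0 G1 576000000 (pCC ls T (300 - W) X) (by norm_num) hG0 hG huw huw' hi hg hc g
    hrel a1 a2 a3 a4 (ev_pCC ls T (300 - W) X c r) ?_
  rw [elam]
  exact capC5 g hr1 (by positivity) (by linarith) (by positivity) b2 (by linarith) (by positivity) b3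

theorem rel0_ge {u' : ℤ} (h : 32 ≤ u') (c v r : ℝ) (hr : rel 0 c v r) (hc1 : c < 1)
    (a3 : (u':ℝ) ≤ 32 * v) : 1 ≤ r := by
  have e : v = r := hr
  have : (32:ℝ) ≤ u' := by exact_mod_cast h
  rw [← e]; linarith

theorem rel2_ge {u' : ℤ} (h : 0 ≤ u') (c v r : ℝ) (hr : rel 2 c v r) (hc1 : c < 1)
    (a3 : (u':ℝ) ≤ 32 * v) : 1 ≤ r := by
  have e : r = 1 + v * (1 - c) := hr
  have : (0:ℝ) ≤ u' := by exact_mod_cast h
  have : 0 ≤ v * (1 - c) := mul_nonneg (by linarith) (by linarith)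
  rw [e]; linarith

theorem rel3_ge {u' : ℤ} (h : 0 ≤ u') (c v r : ℝ) (hr : rel 3 c v r) (hc1 : c < 1)
    (a3 : (u':ℝ) ≤ 32 * v) : 1 ≤ r := by
  have e : c * r = c + v * (1 - c) ∧ 0 < c := hr
  have : (0:ℝ) ≤ u' := by exact_mod_cast h
  have : 0 ≤ v * (1 - c) := mul_nonneg (by linarith) (by linarith)
  have h1 : c * 1 ≤ c * r := by linarith
  exact le_of_mul_le_mul_left h1 e.2

end leaf

end Crest.Agent.R230.SD
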