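import Crest.Agent.R230.SD5Leaf

/-!
# Row 230: the certificates for `SDL 4`, part 1
-/

set_option autoImplicit false
set_option Elab.async false
set_option maxRecDepth 100000

namespace Crest.Agent.R230.SD

theorem lA0 : OK 1 0 1 0 2 :=
  OK.M rfl (by decide) 1126 1182 191 100 100 (by decide) (by decide) (by decide) (by decide) (by decide)
    (by decide +kernel) (by decide +kernel) (.inr (by decide +kernel)) (.inl rfl) (.inl rfl)
    (by decide +kernel)

theorem lA1 : OK 1 1 2 0 2 :=
  OK.M rfl (by decide) 1120 1175 185 94 96 (by decide) (by decide) (by decide) (by decide) (by decide)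
    (by decide +kernel) (by decide +kernel) (.inr (by decide +kernel)) (.inr (by decide +kernel)) (.inr (by decide +kernel))
    (by decide +kernel)

theorem lA2 : OK 1 0 2 2 4 :=
  OK.A rfl (by decide) 1102 1118 703 (-538) 164 188 (by decide) (by decide) (by decide) (by decide) (by decide) (by decide)
    (by decide +kernel) (by decide +kernel) (.inr (by decide +kernel)) (.inr (by decide +kernel)) (.inr (by decide +kernel))
    (by decide +kernel)

theorem lA3 : OK 1 2 3 0 2 :=
  OK.M rfl (by decide) 1115 1168 179 89 90 (by decide) (by decide) (by decide) (by decide) (by decide)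
    (by decide +kernel) (by decide +kernel) (.inr (by decide +kernel)) (.inr (by decide +kernel)) (.inr (by decide +kernel))
    (by decide +kernel)

theorem lA4 : OK 1 3 4 0 2 :=
  OK.M rfl (by decide) 1110 1160 174 83 85 (by decide) (by decide) (by decide) (by decide) (by decide)
    (by decide +kernel) (by decide +kernel) (.inr (by decide +kernel)) (.inr (by decide +kernel)) (.inr (by decide +kernel))
    (by decide +kernel)

theorem lA5 : OK 1 2 4 2 4 :=
  OK.A rfl (by decide) 1093 1112 738 (-286) 154 177 (by decide) (by decide) (by decide) (by decide) (by decide) (by decide)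
    (by decide +kernel) (by decide +kernel) (.inr (by decide +kernel)) (.inr (by decide +kernel)) (.inr (by decide +kernel))
    (by decide +kernel)

theorem lA6 : OK 1 0 4 4 8 :=
  OK.A rfl (by decide) 1054 1056 771 (-38) 132 175 (by decide) (by decide) (by decide) (by decide) (by decide) (by decide)
    (by decide +kernel) (by decide +kernel) (.inr (by decide +kernel)) (.inr (by decide +kernel)) (.inr (by decide +kernel))
    (by decide +kernel)

theorem lA7 : OK 1 4 5 0 2 :=
  OK.M rfl (by decide) 1104 1152 168 78 80 (by decide) (by decide) (by decide) (by decide) (by decide)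
    (by decide +kernel) (by decide +kernel) (.inr (by decide +kernel)) (.inr (by decide +kernel)) (.inr (by decide +kernel))
    (by decide +kernel)

theorem lA8 : OK 1 5 6 0 2 :=
  OK.M rfl (by decide) 1099 1144 163 73 75 (by decide) (by decide) (by decide) (by decide) (by decide)
    (by decide +kernel) (by decide +kernel) (.inr (by decide +kernel)) (.inr (by decide +kernel)) (.inr (by decide +kernel))
    (by decide +kernel)

theorem lA9 : OK 1 4 6 2 4 :=
  OK.A rfl (by decide) 1083 1103 770 (-85) 144 166 (by decide) (by decide) (by decide) (by decide) (by decide) (by decide)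
    (by decide +kernel) (by decide +kernel) (.inr (by decide +kernel)) (.inr (by decide +kernel)) (.inr (by decide +kernel))
    (by decide +kernel)

theorem lA10 : OK 1 6 8 0 4 :=
  OK.M rfl (by decide) 1063 1136 158 69 70 (by decide) (by decide) (by decide) (by decide) (by decide)
    (by decide +kernel) (by decide +kernel) (.inr (by decide +kernel)) (.inr (by decide +kernel)) (.inr (by decide +kernel))
    (by decide +kernel)

theorem lA11 : OK 1 4 8 4 8 :=
  OK.A rfl (by decide) 1044 1051 824 225 116 155 (by decide) (by decide) (by decide) (by decide) (by decide) (by decide)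
    (by decide +kernel) (by decide +kernel) (.inr (by decide +kernel)) (.inr (by decide +kernel)) (.inr (by decide +kernel))
    (by decide +kernel)

theorem lA12 : OK 1 0 8 8 16 :=
  OK.A rfl (by decide) 1009 1011 846 336 0 150 (by decide) (by decide) (by decide) (by decide) (by decide) (by decide)
    (by decide +kernel) (by decide +kernel) (.inr (by decide +kernel)) (.inl rfl) (.inr (by decide +kernel))
    (by decide +kernel)

theorem lA13 : OK 1 8 16 0 16 :=
  OK.A rfl (by decide) 1005 1119 838 315 0 155 (by decide) (by decide) (by decide) (by decide) (by decide) (by decide)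
    (by decide +kernel) (by decide +kernel) (.inr (by decide +kernel)) (.inl rfl) (.inr (by decide +kernel))
    (by decide +kernel)

theorem lA14 : OK 1 0 16 16 32 :=
  OK.A rfl (by decide) 1000 1001 508 54 0 200 (by decide) (by decide) (by decide) (by decide) (by decide) (by decide)
    (by decide +kernel) (by decide +kernel) (.inl rfl) (.inl rfl) (.inl rfl)
    (by decide +kernel)

theorem lA15 : OK 1 16 24 0 16 :=
  OK.A rfl (by decide) 1000 1062 812 275 0 116 (by decide) (by decide) (by decide) (by decide) (by decide) (by decide)
    (by decide +kernel) (by decide +kernel) (.inl rfl) (.inl rfl) (.inr (by decide +kernel))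
    (by decide +kernel)

theorem lA16 : OK 1 24 32 0 8 :=
  OK.A rfl (by decide) 1000 1023 633 113 0 200 (by decide) (by decide) (by decide) (by decide) (by decide) (by decide)
    (by decide +kernel) (by decide +kernel) (.inl rfl) (.inl rfl) (.inl rfl)
    (by decide +kernel)

theorem lA17 : OK 1 24 32 8 16 :=
  OK.A rfl (by decide) 1000 1004 492 49 0 200 (by decide) (by decide) (by decide) (by decide) (by decide) (by decide)
    (by decide +kernel) (by decide +kernel) (.inl rfl) (.inl rfl) (.inl rfl)
    (by decide +kernel)

theorem lA18 : OK 1 16 24 16 32 :=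
  OK.A rfl (by decide) 1000 1001 376 22 0 200 (by decide) (by decide) (by decide) (by decide) (by decide) (by decide)
    (by decide +kernel) (by decide +kernel) (.inl rfl) (.inl rfl) (.inl rfl)
    (by decide +kernel)

theorem lA19 : OK 1 24 32 16 32 :=
  OK.A rfl (by decide) 1000 1001 210 4 0 200 (by decide) (by decide) (by decide) (by decide) (by decide) (by decide)
    (by decide +kernel) (by decide +kernel) (.inl rfl) (.inl rfl) (.inl rfl)
    (by decide +kernel)

/-- region A -/
theorem rootA : OK 1 0 32 0 32 :=
  (OK.sx (m := 16) (OK.sy (m := 16) (OK.sx (m := 8) (OK.sy (m := 8) (OK.sx (m := 4) (OK.sy (m :=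
    4) (OK.sx (m := 2) (OK.sy (m := 2) (OK.sx (m := 1) lA0 lA1) lA2) (OK.sy (m := 2) (OK.sx (m :=
    3) lA3 lA4) lA5)) lA6) (OK.sy (m := 4) (OK.sx (m := 6) (OK.sy (m := 2) (OK.sx (m := 5) lA7
    lA8) lA9) lA10) lA11)) lA12) lA13) lA14) (OK.sy (m := 16) (OK.sx (m := 24) lA15 (OK.sy (m :=
    8) lA16 lA17)) (OK.sx (m := 24) lA18 lA19)))

end Crest.Agent.R230.SD
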