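import Crest.Agent.R230.SD5Leaf

/-!
# Row 230: the certificates for `SDL 4`, part 2
-/

set_option autoImplicit false
set_option Elab.async false
set_option maxRecDepth 100000

namespace Crest.Agent.R230.SD

theorem lR10 : OK 0 0 4 32 36 :=
  OK.B 1148 1302 187 180 100 (by decide) (by decide) (by decide) (by decide) (rel0_ge (by decide)) (by decide) (by decide) (by decide) (by decide)
    (by decide +kernel) (by decide +kernel) (.inr (by decide +kernel)) (.inl rfl)

theorem lR11 : OK 0 0 4 36 40 :=
  OK.B 1284 1414 200 214 100 (by decide) (by decide) (by decide) (by decide) (rel0_ge (by decide)) (by decide) (by decide) (by decide) (by decide)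
    (by decide +kernel) (by decide +kernel) (.inr (by decide +kernel)) (.inl rfl)

theorem lR12 : OK 0 4 6 32 36 :=
  OK.B 1132 1258 169 174 82 (by decide) (by decide) (by decide) (by decide) (rel0_ge (by decide)) (by decide) (by decide) (by decide) (by decide)
    (by decide +kernel) (by decide +kernel) (.inr (by decide +kernel)) (.inr (by decide +kernel))

theorem lR13 : OK 0 6 8 32 36 :=
  OK.B 1117 1234 157 164 74 (by decide) (by decide) (by decide) (by decide) (rel0_ge (by decide)) (by decide) (by decide) (by decide) (by decide)
    (by decide +kernel) (by decide +kernel) (.inr (by decide +kernel)) (.inr (by decide +kernel))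

theorem lR14 : OK 0 4 8 36 40 :=
  OK.B 1240 1353 174 204 84 (by decide) (by decide) (by decide) (by decide) (rel0_ge (by decide)) (by decide) (by decide) (by decide) (by decide)
    (by decide +kernel) (by decide +kernel) (.inr (by decide +kernel)) (.inr (by decide +kernel))

/-- region R1 -/
theorem rootR1 : OK 0 0 8 32 40 :=
  (OK.sx (m := 4) (OK.sy (m := 36) lR10 lR11) (OK.sy (m := 36) (OK.sx (m := 6) lR12 lR13) lR14))

theorem lR20 : OK 0 0 8 40 64 :=
  OK.B 1356 1859 177 272 100 (by decide) (by decide) (by decide) (by decide) (rel0_ge (by decide)) (by decide) (by decide) (by decide) (by decide)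
    (by decide +kernel) (by decide +kernel) (.inr (by decide +kernel)) (.inl rfl)

/-- region R2 -/
theorem rootR2 : OK 0 0 8 40 64 :=
  lR20

theorem lR30 : OK 0 0 8 64 128 :=
  OK.B 1990 1992 113 522 100 (by decide) (by decide) (by decide) (by decide) (rel0_ge (by decide)) (by decide) (by decide) (by decide) (by decide)
    (by decide +kernel) (by decide +kernel) (.inr (by decide +kernel)) (.inl rfl)

/-- region R3 -/
theorem rootR3 : OK 0 0 8 64 128 :=
  lR30

theorem lC0 : OK 3 24 26 24 32 :=
  OK.B 1064 1117 8 141 45 (by decide) (by decide) (by decide) (by decide) (rel3_ge (by decide)) (by decide) (by decide) (by decide) (by decide)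
    (by decide +kernel) (by decide +kernel) (.inr (by decide +kernel)) (.inr (by decide +kernel))

theorem lC1 : OK 3 26 28 24 32 :=
  OK.B 1029 1075 7 119 35 (by decide) (by decide) (by decide) (by decide) (rel3_ge (by decide)) (by decide) (by decide) (by decide) (by decide)
    (by decide +kernel) (by decide +kernel) (.inr (by decide +kernel)) (.inr (by decide +kernel))

theorem lC2 : OK 3 28 30 24 32 :=
  OK.B 1006 1038 5 96 24 (by decide) (by decide) (by decide) (by decide) (rel3_ge (by decide)) (by decide) (by decide) (by decide) (by decide)
    (by decide +kernel) (by decide +kernel) (.inr (by decide +kernel)) (.inr (by decide +kernel))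

theorem lC3 : OK 3 30 32 24 32 :=
  OK.B 1000 1007 4 53 13 (by decide) (by decide) (by decide) (by decide) (rel3_ge (by decide)) (by decide) (by decide) (by decide) (by decide)
    (by decide +kernel) (by decide +kernel) (.inl rfl) (.inr (by decide +kernel))

/-- region C -/
theorem rootC : OK 3 24 32 24 32 :=
  (OK.sx (m := 28) (OK.sx (m := 26) lC0 lC1) (OK.sx (m := 30) lC2 lC3))

end Crest.Agent.R230.SD
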