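import Crest.Agent.R230.SD5Leaf

/-!
# Row 230: the certificates for `SDL 4`, part 3
-/

set_option autoImplicit false
set_option Elab.async false
set_option maxRecDepth 100000

namespace Crest.Agent.R230.SD

theorem lY10 : OK 2 8 10 0 8 :=
  OK.C 1102 1252 159 152 68 1032 (by decide) (by decide) (by decide) (by decide) (rel2_ge (by decide)) (by decide) (by decide) (by decide) (by decide) (by decide) (by decide)
    (by decide) (by decide +kernel) (by decide +kernel) (.inr (by decide +kernel)) (.inr (by decide +kernel))

theorem lY11 : OK 2 10 12 0 8 :=
  OK.C 1088 1216 147 142 61 1052 (by decide) (by decide) (by decide) (by decide) (rel2_ge (by decide)) (by decide) (by decide) (by decide) (by decide) (by decide) (by decide)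
    (by decide) (by decide +kernel) (by decide +kernel) (.inr (by decide +kernel)) (.inr (by decide +kernel))

theorem lY12 : OK 2 8 12 8 16 :=
  OK.C 1222 1358 128 179 73 1032 (by decide) (by decide) (by decide) (by decide) (rel2_ge (by decide)) (by decide) (by decide) (by decide) (by decide) (by decide) (by decide)
    (by decide) (by decide +kernel) (by decide +kernel) (.inr (by decide +kernel)) (.inr (by decide +kernel))

theorem lY13 : OK 2 12 16 0 16 :=
  OK.C 1062 1259 123 141 61 1078 (by decide) (by decide) (by decide) (by decide) (rel2_ge (by decide)) (by decide) (by decide) (by decide) (by decide) (by decide) (by decide)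
    (by decide) (by decide +kernel) (by decide +kernel) (.inr (by decide +kernel)) (.inr (by decide +kernel))

theorem lY14 : OK 2 8 16 16 32 :=
  OK.C 1228 1478 87 212 80 1032 (by decide) (by decide) (by decide) (by decide) (rel2_ge (by decide)) (by decide) (by decide) (by decide) (by decide) (by decide) (by decide)
    (by decide) (by decide +kernel) (by decide +kernel) (.inr (by decide +kernel)) (.inr (by decide +kernel))

theorem lY15 : OK 2 8 16 32 64 :=
  OK.C 1347 1507 59 303 89 1032 (by decide) (by decide) (by decide) (by decide) (rel2_ge (by decide)) (by decide) (by decide) (by decide) (by decide) (by decide) (by decide)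
    (by decide) (by decide +kernel) (by decide +kernel) (.inr (by decide +kernel)) (.inr (by decide +kernel))

theorem lY16 : OK 2 8 16 64 128 :=
  OK.C 1000 1287 4 485 96 1032 (by decide) (by decide) (by decide) (by decide) (rel2_ge (by decide)) (by decide) (by decide) (by decide) (by decide) (by decide) (by decide)
    (by decide) (by decide +kernel) (by decide +kernel) (.inl rfl) (.inr (by decide +kernel))

/-- region Y1 -/
theorem rootY1 : OK 2 8 16 0 128 :=
  (OK.sy (m := 64) (OK.sy (m := 32) (OK.sy (m := 16) (OK.sx (m := 12) (OK.sy (m := 8) (OK.sx (m :=
    10) lY10 lY11) lY12) lY13) lY14) lY15) lY16)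

theorem lY30 : OK 2 24 28 0 16 :=
  OK.C 1006 1058 56 76 26 1511 (by decide) (by decide) (by decide) (by decide) (rel2_ge (by decide)) (by decide) (by decide) (by decide) (by decide) (by decide) (by decide)
    (by decide) (by decide +kernel) (by decide +kernel) (.inr (by decide +kernel)) (.inr (by decide +kernel))

theorem lY31 : OK 2 28 32 0 16 :=
  OK.C 1000 1016 30 49 14 2065 (by decide) (by decide) (by decide) (by decide) (rel2_ge (by decide)) (by decide) (by decide) (by decide) (by decide) (by decide) (by decide)
    (by decide) (by decide +kernel) (by decide +kernel) (.inl rfl) (.inr (by decide +kernel))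

theorem lY32 : OK 2 24 32 16 32 :=
  OK.C 1000 1092 16 99 38 1511 (by decide) (by decide) (by decide) (by decide) (rel2_ge (by decide)) (by decide) (by decide) (by decide) (by decide) (by decide) (by decide)
    (by decide) (by decide +kernel) (by decide +kernel) (.inl rfl) (.inr (by decide +kernel))

/-- region Y3 -/
theorem rootY3 : OK 2 24 32 0 32 :=
  (OK.sy (m := 16) (OK.sx (m := 28) lY30 lY31) lY32)

end Crest.Agent.R230.SD
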