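import Crest.Agent.R230.SD5Leaf

/-!
# Row 230: the certificates for `SDL 4`, part 4
-/

set_option autoImplicit false
set_option Elab.async false
set_option maxRecDepth 100000

namespace Crest.Agent.R230.SD

theorem lY20 : OK 2 16 20 0 16 :=
  OK.C 1040 1177 100 119 49 1154 (by decide) (by decide) (by decide) (by decide) (rel2_ge (by decide)) (by decide) (by decide) (by decide) (by decide) (by decide) (by decide)
    (by decide) (by decide +kernel) (by decide +kernel) (.inr (by decide +kernel)) (.inr (by decide +kernel))

theorem lY21 : OK 2 20 24 0 16 :=
  OK.C 1021 1110 78 97 38 1281 (by decide) (by decide) (by decide) (by decide) (rel2_ge (by decide)) (by decide) (by decide) (by decide) (by decide) (by decide) (by decide)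
    (by decide) (by decide +kernel) (by decide +kernel) (.inr (by decide +kernel)) (.inr (by decide +kernel))

theorem lY22 : OK 2 16 24 16 32 :=
  OK.C 1066 1250 46 151 61 1154 (by decide) (by decide) (by decide) (by decide) (rel2_ge (by decide)) (by decide) (by decide) (by decide) (by decide) (by decide) (by decide)
    (by decide) (by decide +kernel) (by decide +kernel) (.inr (by decide +kernel)) (.inr (by decide +kernel))

theorem lY23 : OK 2 16 20 32 48 :=
  OK.C 1222 1281 35 214 70 1154 (by decide) (by decide) (by decide) (by decide) (rel2_ge (by decide)) (by decide) (by decide) (by decide) (by decide) (by decide) (by decide)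
    (by decide) (by decide +kernel) (by decide +kernel) (.inr (by decide +kernel)) (.inr (by decide +kernel))

theorem lY24 : OK 2 20 24 32 40 :=
  OK.C 1109 1186 18 165 56 1281 (by decide) (by decide) (by decide) (by decide) (rel2_ge (by decide)) (by decide) (by decide) (by decide) (by decide) (by decide) (by decide)
    (by decide) (by decide +kernel) (by decide +kernel) (.inr (by decide +kernel)) (.inr (by decide +kernel))

theorem lY25 : OK 2 20 22 40 48 :=
  OK.C 1179 1205 8 216 61 1281 (by decide) (by decide) (by decide) (by decide) (rel2_ge (by decide)) (by decide) (by decide) (by decide) (by decide) (by decide) (by decide)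
    (by decide) (by decide +kernel) (by decide +kernel) (.inr (by decide +kernel)) (.inr (by decide +kernel))

theorem lY26 : OK 2 22 24 40 44 :=
  OK.C 1121 1157 4 178 53 1377 (by decide) (by decide) (by decide) (by decide) (rel2_ge (by decide)) (by decide) (by decide) (by decide) (by decide) (by decide) (by decide)
    (by decide) (by decide +kernel) (by decide +kernel) (.inr (by decide +kernel)) (.inr (by decide +kernel))

theorem lY27 : OK 2 22 23 44 48 :=
  OK.C 1152 1167 4 204 55 1377 (by decide) (by decide) (by decide) (by decide) (rel2_ge (by decide)) (by decide) (by decide) (by decide) (by decide) (by decide) (by decide)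
    (by decide) (by decide +kernel) (by decide +kernel) (.inr (by decide +kernel)) (.inr (by decide +kernel))

theorem lY28 : OK 2 23 24 44 46 :=
  OK.C 1123 1143 4 188 51 1438 (by decide) (by decide) (by decide) (by decide) (rel2_ge (by decide)) (by decide) (by decide) (by decide) (by decide) (by decide) (by decide)
    (by decide) (by decide +kernel) (by decide +kernel) (.inr (by decide +kernel)) (.inr (by decide +kernel))

theorem lY29 : OK 2 16 20 48 64 :=
  OK.C 1246 1285 4 291 77 1154 (by decide) (by decide) (by decide) (by decide) (rel2_ge (by decide)) (by decide) (by decide) (by decide) (by decide) (by decide) (by decide)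
    (by decide) (by decide +kernel) (by decide +kernel) (.inr (by decide +kernel)) (.inr (by decide +kernel))

theorem lY210 : OK 2 20 22 48 52 :=
  OK.C 1184 1214 4 222 63 1281 (by decide) (by decide) (by decide) (by decide) (rel2_ge (by decide)) (by decide) (by decide) (by decide) (by decide) (by decide) (by decide)
    (by decide) (by decide +kernel) (by decide +kernel) (.inr (by decide +kernel)) (.inr (by decide +kernel))

/-- region Y2 -/
theorem rootY2 : OK 2 16 24 0 64 :=
  (OK.sy (m := 32) (OK.sy (m := 16) (OK.sx (m := 20) lY20 lY21) lY22) (OK.sy (m := 48) (OK.sx (m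
    := 20) lY23 (OK.sy (m := 40) lY24 (OK.sx (m := 22) lY25 (OK.sy (m := 44) lY26 (OK.sx (m := 23)
    lY27 (OK.sy (m := 46) lY28 (OK.skip (by decide) (by decide)))))))) (OK.sx (m := 20) lY29
    (OK.sy (m := 56) (OK.sx (m := 22) (OK.sy (m := 52) lY210 (OK.skip (by decide) (by decide)))
    (OK.skip (by decide) (by decide))) (OK.skip (by decide) (by decide))))))

end Crest.Agent.R230.SD
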