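import Crest.Agent.R230.SD5Bound
import Crest.Agent.R230.SD5Axis
import Crest.Agent.R230.SD5Root1
import Crest.Agent.R230.SD5Root2
import Crest.Agent.R230.SD5Root3
import Crest.Agent.R230.SD5Root4

/-!
# Row 230: the pointwise inequalities for `SDL 4`
-/

set_option autoImplicit false
set_option maxHeartbeats 1000000
set_option linter.unusedVariables false

open Real

namespace Crest.Agent.R230.SD

/-- all boxes together -/
theorem goal_all {c r x t σ F f : ℝ} (g : Geo c r x t σ F f) :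
    B5 c r ≤ 4 / 3 * m5 c r * (1 - c ^ 2) * f := by
  have hc := g.hc
  have hc1 := g.hc1
  have h1c : 0 < 1 - c := by linarith
  have hrc : c < r := by
    have h := mul_pos g.hx g.hσ
    rw [g.h2] at h; linarith
  have hcr : r * c ≤ 1 := by
    have h := mul_nonneg g.ht g.hσ.le
    rw [g.h1] at h; linarith
  rcases le_total r 1 with hr | hr
  · have e : (1 - r) / (1 - c) * (1 - c) = 1 - r := div_mul_cancel₀ _ h1c.ne'
    have hv0 : 0 ≤ (1 - r) / (1 - c) := div_nonneg (by linarith) h1c.le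
    have hv1 : (1 - r) / (1 - c) ≤ 1 := by rw [div_le_one h1c]; linarith
    exact rootA c ((1 - r) / (1 - c)) r (show r = 1 - (1 - r) / (1 - c) * (1 - c) by rw [e]; ring)
      (by push_cast; linarith) (by push_cast; linarith) (by push_cast; linarith)
      (by push_cast; linarith) x t σ F f g
  · rcases le_total c (1 / 4) with h | h
    · rcases le_total r (5 / 4) with h2 | h2
      · exact rootR1 c r r (show r = r from rfl) (by push_cast; linarith) (by push_cast; linarith)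
          (by push_cast; linarith) (by push_cast; linarith) x t σ F f g
      rcases le_total r 2 with h3 | h3
      · exact rootR2 c r r (show r = r from rfl) (by push_cast; linarith) (by push_cast; linarith)
          (by push_cast; linarith) (by push_cast; linarith) x t σ F f g
      rcases le_total r 4 with h4 | h4
      · exact rootR3 c r r (show r = r from rfl) (by push_cast; linarith) (by push_cast; linarith)
          (by push_cast; linarith) (by push_cast; linarith) x t σ F f g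
      · exact goal_big h h4 x t σ F f g
    · have e : (r - 1) / (1 - c) * (1 - c) = r - 1 := div_mul_cancel₀ _ h1c.ne'
      have hv0 : 0 ≤ (r - 1) / (1 - c) := div_nonneg (by linarith) h1c.le
      have hrel : r = 1 + (r - 1) / (1 - c) * (1 - c) := by rw [e]; ring
      have hvc : c * ((r - 1) / (1 - c)) ≤ 1 := by
        rw [← mul_div_assoc, div_le_one h1c]; linarith
      rcases le_total c (1 / 2) with h2 | h2
      · have hv4 : (r - 1) / (1 - c) ≤ 4 := by nlinarith
        exact rootY1 c ((r - 1) / (1 - c)) r hrel (by push_cast; linarith) (by push_cast; linarith)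
          (by push_cast; linarith) (by push_cast; linarith) x t σ F f g
      rcases le_total c (3 / 4) with h3 | h3
      · have hv4 : (r - 1) / (1 - c) ≤ 2 := by nlinarith
        exact rootY2 c ((r - 1) / (1 - c)) r hrel (by push_cast; linarith) (by push_cast; linarith)
          (by push_cast; linarith) (by push_cast; linarith) x t σ F f g
      rcases le_total ((r - 1) / (1 - c)) 1 with h4 | h4
      · exact rootY3 c ((r - 1) / (1 - c)) r hrel (by push_cast; linarith) (by push_cast; linarith)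
          (by push_cast; linarith) (by push_cast; linarith) x t σ F f g
      · have h5 : 3 / 4 ≤ c * ((r - 1) / (1 - c)) := by nlinarith
        refine rootC c (c * ((r - 1) / (1 - c))) r ⟨?_, hc⟩ (by push_cast; linarith)
          (by push_cast; linarith) (by push_cast; linarith) (by push_cast; linarith) x t σ F f g
        rw [mul_assoc, e]; ring

theorem q_lb : (50929 : ℝ) / 30000 ≤ 16 / (3 * π) := by
  have := Real.pi_lt_d4
  have hpi := Real.pi_pos
  rw [le_div_iff₀ (by positivity)]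
  linarith

/-- path 2 -/
theorem pt5 {α x t F f : ℝ} (g : Geo (cos α) (cos α + x * sin α) x t (sin α) F f) :
    mV5 α x + 1 / 10000 * (16 / (3 * π) * mD5 α x) +
      3 / 50 * (sin α ^ 4 * x ^ 5) * (6 * (cos α * sin α) - x) ≤
      4 / 3 * f * (16 / (3 * π) * mD5 α x) := by
  have h := goal_all g
  rw [mV5_eq, mD5_eq]
  have hD := g.D
  have hXD := g.XD
  have hcs := g.hcs
  have hr0 := g.hr
  have hc := g.hc
  have hx := g.hx
  have hf := g.hf
  have hf1 : 1 ≤ f := by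
    have : (1:ℝ) ^ 3 ≤ f ^ 3 := by rw [g.hfF]; linarith [g.hF]
    exact le_of_pow_le_pow_left₀ (by norm_num) g.hf.le this
  have h2 := g.h2
  have hq := q_lb
  generalize hr : cos α + x * sin α = r at *
  generalize cos α = c at *
  generalize sin α = σ at *
  generalize 16 / (3 * π) = Q at *
  have hB : B5 c r = (1 - c ^ 2) * (E5 c r (x ^ 2) + 3 / 50 * ((r - c) ^ 3 * (6 * c * (1 - c ^ 2) -
      (r - c))) + 1 / 10000 * m5 c r) := by
    unfold B5 E5
    rw [← hXD]
    ring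
  rw [hB] at h
  have h3 : E5 c r (x ^ 2) + 3 / 50 * ((r - c) ^ 3 * (6 * c * (1 - c ^ 2) -
      (r - c))) + 1 / 10000 * m5 c r ≤ 4 / 3 * m5 c r * f := by
    have : (1 - c ^ 2) * (E5 c r (x ^ 2) + 3 / 50 * ((r - c) ^ 3 * (6 * c * (1 - c ^ 2) -
      (r - c))) + 1 / 10000 * m5 c r) ≤ (1 - c ^ 2) * (4 / 3 * m5 c r * f) := by linarith
    exact le_of_mul_le_mul_left this hD
  have hM : 0 ≤ c ^ 2 + 2 * c * r + 3 * r ^ 2 := by positivity
  have h4 : m5 c r = 50929 / 30000 * ((c ^ 2 + 2 * c * r + 3 * r ^ 2) / 4) := by unfold m5; ring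
  have h5 : 0 ≤ (4 / 3 * f - 1 / 10000) * ((Q - 50929 / 30000) *
      ((c ^ 2 + 2 * c * r + 3 * r ^ 2) / 4)) := by
    have : 0 ≤ 4 / 3 * f - 1 / 10000 := by linarith
    have : 0 ≤ Q - 50929 / 30000 := by linarith
    positivity
  have h6 : E5 c r (x ^ 2) + 3 / 50 * ((r - c) ^ 3 * (6 * c * (1 - c ^ 2) - (r - c))) +
      1 / 10000 * (Q * ((c ^ 2 + 2 * c * r + 3 * r ^ 2) / 4)) ≤
      4 / 3 * f * (Q * ((c ^ 2 + 2 * c * r + 3 * r ^ 2) / 4)) := by
    rw [h4] at h3
    linarith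
  have h7 := mul_le_mul_of_nonneg_left h6 (sq_nonneg x)
  have h8 : x ^ 2 * (3 / 50 * ((r - c) ^ 3 * (6 * c * (1 - c ^ 2) - (r - c)))) =
      3 / 50 * (σ ^ 4 * x ^ 5) * (6 * (c * σ) - x) := by
    rw [← h2, show 1 - c ^ 2 = σ ^ 2 by linarith]
    ring
  linarith

/-- path 1 -/
theorem pt5x {α x F f : ℝ} (g : Ax (cos α) x F f) (hs : sin α = x * cos α) :
    mV5 α x + 1 / 10000 * (16 / (3 * π) * mD5 α x) +
      3 / 50 * (sin α ^ 4 * x ^ 6) * (5 + 6 * cos α ^ 2) ≤
      4 / 3 * f * (16 / (3 * π) * mD5 α x) := by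
  have h := axis (cos α) x F f g (by push_cast; linarith [g.hc]) (by push_cast; linarith [g.hc1])
  rw [mV5_eq, mD5_eq]
  have hc := g.hc
  have hx := g.hx
  have hxc := g.hxc
  have hf := g.hf
  have hf1 : 1 ≤ f := by
    have : (1:ℝ) ^ 3 ≤ f ^ 3 := by rw [g.hfF]; linarith [g.hF]
    exact le_of_pow_le_pow_left₀ (by norm_num) g.hf.le this
  have hq := q_lb
  have hrc : (cos α + x * sin α) * cos α = 1 := by
    rw [hs]; linear_combination hxc
  have hr0 : 0 < cos α + x * sin α := by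
    rw [hs]; positivity
  generalize hr : cos α + x * sin α = r at *
  generalize cos α = c at *
  generalize sin α = σ at *
  generalize 16 / (3 * π) = Q at *
  subst hs
  have hcr1 : c * r = 1 := by linarith
  have p2 : c ^ 2 * r ^ 2 = 1 := by rw [← mul_pow, hcr1, one_pow]
  have p3 : c ^ 3 * r ^ 3 = 1 := by rw [← mul_pow, hcr1, one_pow]
  have p4 : c ^ 4 * r ^ 4 = 1 := by rw [← mul_pow, hcr1, one_pow]
  have p5 : c ^ 5 * r ^ 5 = 1 := by rw [← mul_pow, hcr1, one_pow]
  have hm : mX c * c ^ 2 = c ^ 5 * m5 c r := by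
    unfold mX m5
    linear_combination (-(50929 / 120000) * 2 * c ^ 5) * hcr1 - (50929 / 120000) * 3 * c ^ 3 * p2
  have hB : BX c = c ^ 5 * (E5 c r (x ^ 2) + 3 / 50 * ((x * c) ^ 4 * x ^ 4 * (5 + 6 * c ^ 2)) +
      1 / 10000 * m5 c r) := by
    have e1 : c ^ 5 * (153 / 280 * (c ^ 3 + 2 * c ^ 2 * r + 3 * c * r ^ 2 + 4 * r ^ 3)) =
        153 / 280 * (4 * c ^ 2 + 3 * c ^ 4 + 2 * c ^ 6 + c ^ 8) := by
      linear_combination (153 / 280 * 2 * c ^ 6) * hcr1 + (153 / 280 * 3 * c ^ 4) * p2 +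
        (153 / 280 * 4 * c ^ 2) * p3
    have e2 : c ^ 5 * (6 / 245 * x ^ 2 * (c ^ 3 + 4 * c ^ 2 * r + 10 * c * r ^ 2 + 20 * r ^ 3)) =
        6 / 245 * ((1 - c ^ 2) * (20 + 10 * c ^ 2 + 4 * c ^ 4 + c ^ 6)) := by
      rw [← hxc]
      linear_combination (6 / 245 * x ^ 2 * 4 * c ^ 6) * hcr1 + (6 / 245 * x ^ 2 * 10 * c ^ 4) * p2 +
        (6 / 245 * x ^ 2 * 20 * c ^ 2) * p3
    have e3 : c ^ 5 * (5 / 49 * (c ^ 5 + 2 * c ^ 4 * r + 3 * c ^ 3 * r ^ 2 + 4 * c ^ 2 * r ^ 3 +
        5 * c * r ^ 4 + 6 * r ^ 5)) =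
        5 / 49 * (6 + 5 * c ^ 2 + 4 * c ^ 4 + 3 * c ^ 6 + 2 * c ^ 8 + c ^ 10) := by
      linear_combination (5 / 49 * 2 * c ^ 8) * hcr1 + (5 / 49 * 3 * c ^ 6) * p2 +
        (5 / 49 * 4 * c ^ 4) * p3 + (5 / 49 * 5 * c ^ 2) * p4 + (5 / 49 * 6) * p5
    have e4 : c ^ 5 * (3 / 50 * ((x * c) ^ 4 * x ^ 4 * (5 + 6 * c ^ 2))) =
        3 / 50 * (c * (1 - c ^ 2) ^ 4 * (5 + 6 * c ^ 2)) := by
      rw [← hxc]; ring
    have e5 : c ^ 5 * (1 / 10000 * m5 c r) =
        1 / 10000 * (50929 / 120000 * (3 * c ^ 3 + 2 * c ^ 5 + c ^ 7)) := by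
      have : c ^ 5 * (1 / 10000 * m5 c r) = 1 / 10000 * (mX c * c ^ 2) := by rw [hm]; ring
      rw [this]; unfold mX; ring
    unfold BX
    rw [← e1, ← e2, ← e3, ← e4, ← e5]
    unfold E5
    ring
  rw [hB] at h
  have h3 : E5 c r (x ^ 2) + 3 / 50 * ((x * c) ^ 4 * x ^ 4 * (5 + 6 * c ^ 2)) +
      1 / 10000 * m5 c r ≤ 4 / 3 * m5 c r * f := by
    have hc5 : 0 < c ^ 5 := by positivity
    have e : 4 / 3 * mX c * c ^ 2 * f = c ^ 5 * (4 / 3 * m5 c r * f) := by
      have : 4 / 3 * mX c * c ^ 2 * f = 4 / 3 * (mX c * c ^ 2) * f := by ring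
      rw [this, hm]; ring
    rw [e] at h
    exact le_of_mul_le_mul_left h hc5
  have hM : 0 ≤ c ^ 2 + 2 * c * r + 3 * r ^ 2 := by positivity
  have h4 : m5 c r = 50929 / 30000 * ((c ^ 2 + 2 * c * r + 3 * r ^ 2) / 4) := by unfold m5; ring
  have h5 : 0 ≤ (4 / 3 * f - 1 / 10000) * ((Q - 50929 / 30000) *
      ((c ^ 2 + 2 * c * r + 3 * r ^ 2) / 4)) := by
    have : 0 ≤ 4 / 3 * f - 1 / 10000 := by linarith
    have : 0 ≤ Q - 50929 / 30000 := by linarith
    positivity
  have h6 : E5 c r (x ^ 2) + 3 / 50 * ((x * c) ^ 4 * x ^ 4 * (5 + 6 * c ^ 2)) +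
      1 / 10000 * (Q * ((c ^ 2 + 2 * c * r + 3 * r ^ 2) / 4)) ≤
      4 / 3 * f * (Q * ((c ^ 2 + 2 * c * r + 3 * r ^ 2) / 4)) := by
    rw [h4] at h3
    linarith
  have h7 := mul_le_mul_of_nonneg_left h6 (sq_nonneg x)
  linarith

end Crest.Agent.R230.SD
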