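import Crest.Agent.R230.SDMain

/-!
# Row 230: limit from strict profiles, and the constants, for `SDL 2`, `SDL 3`
-/

set_option autoImplicit false
set_option maxHeartbeats 1000000
set_option linter.unusedVariables false

open MeasureTheory Set Filter Topology Real

namespace Crest.Agent.R230.SD

/-- continuous extension of a profile -/
noncomputable def ext (r : ℝ → ℝ) : ℝ → ℝ :=
  IccExtend (by norm_num : (-1 : ℝ) ≤ 1) (domRestrict (Icc (-1) 1) r)

theorem ext_cont {r : ℝ → ℝ} (hr : Prof r) : Continuous (ext r) :=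
  (continuousOn_iff_continuous_domRestrict.1 hr.cont).Icc_extend'

theorem ext_eq {r : ℝ → ℝ} {s : ℝ} (hs : s ∈ Icc (-1 : ℝ) 1) : ext r s = r s :=
  IccExtend_of_mem _ _ hs

theorem ext_nonneg {r : ℝ → ℝ} (h : ∀ s ∈ Icc (-1 : ℝ) 1, √(1 - s ^ 2) ≤ r s) (s : ℝ) :
    0 ≤ ext r s := by
  unfold ext IccExtend
  simp only [Function.comp, domRestrict]
  exact (Real.sqrt_nonneg _).trans (h _ (projIcc (-1 : ℝ) 1 (by norm_num) s).2)

theorem prof_anti {r : ℝ → ℝ} (hr : Prof r) : AntitoneOn r (Icc 0 1) := by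
  intro a ha b hb hab
  have hb1 : b ∈ Icc (-1 : ℝ) 1 := ⟨by linarith [hb.1], hb.2⟩
  have hb2 : -b ∈ Icc (-1 : ℝ) 1 := ⟨by linarith [hb.2], by linarith [hb.1]⟩
  have := hr.conc.min_le_of_mem_Icc hb2 hb1 (z := a) ⟨by linarith [ha.1, hb.1], hab⟩
  rwa [hr.even b hb1, min_self] at this

theorem sp_ext {r : ℝ → ℝ} (hr : Prof r) (h : ∀ s ∈ Icc (-1 : ℝ) 1, √(1 - s ^ 2) ≤ r s)
    {ε : ℝ} (hε : 0 < ε) : SP (fun s => ext r s + ε) where
  cont := (ext_cont hr).add continuous_const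
  conc := by
    have h1 : ConcaveOn ℝ (Icc (-1) 1) (fun s => r s + ε) := hr.conc.add_const ε
    refine h1.congr ?_
    intro s hs
    simp only [ext_eq hs]
  anti := by
    intro a ha b hb hab
    have e1 : ext r a = r a := ext_eq ⟨by linarith [ha.1], ha.2⟩
    have e2 : ext r b = r b := ext_eq ⟨by linarith [hb.1], hb.2⟩
    have := prof_anti hr ha hb hab
    simp only [e1, e2]
    linarith
  pos := fun s => by have := ext_nonneg h s; linarith
  lt := by
    intro s hs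
    have hs' : s ∈ Icc (-1 : ℝ) 1 := ⟨by linarith [hs.1], hs.2⟩
    have h1 := h s hs'
    have h0 := Real.sqrt_nonneg (1 - s ^ 2)
    have h2 : √(1 - s ^ 2) ^ 2 = 1 - s ^ 2 := Real.sq_sqrt (by nlinarith [hs.1, hs.2])
    simp only [ext_eq hs']
    rw [← h2]
    have : √(1 - s ^ 2) < r s + ε := by linarith
    gcongr

theorem lim_le {A B : ℝ → ℝ} (hA : Continuous A) (hB : Continuous B) (h : ∀ ε, 0 < ε → A ε ≤ B ε) :
    A 0 ≤ B 0 := by
  have hA' : Tendsto A (𝓝[>] 0) (𝓝 (A 0)) := (hA.tendsto 0).mono_left nhdsWithin_le_nhds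
  have hB' : Tendsto B (𝓝[>] 0) (𝓝 (B 0)) := (hB.tendsto 0).mono_left nhdsWithin_le_nhds
  exact le_of_tendsto_of_tendsto hA' hB' (eventually_nhdsWithin_of_forall fun ε hε => h ε hε)

theorem main4 {r : ℝ → ℝ} (hr : Prof r) (h : ∀ s ∈ Icc (-1 : ℝ) 1, √(1 - s ^ 2) ≤ r s) :
    (∫ s in (0 : ℝ)..1, 16 / π * PV4 s (ext r s)) +
      1 / 500 * (∫ s in (0 : ℝ)..1, 3 / 2 * (ext r s ^ 2 - (1 - s ^ 2))) ≤
    (1 + ∫ s in (0 : ℝ)..1, 3 / 2 * (ext r s ^ 2 - (1 - s ^ 2))) *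
      √(1 + ∫ s in (0 : ℝ)..1, 3 / 2 * (ext r s ^ 2 - (1 - s ^ 2))) := by
  have hc := ext_cont hr
  have c1 : Continuous fun ε : ℝ => ∫ s in (0 : ℝ)..1, 16 / π * PV4 s (ext r s + ε) := by
    apply intervalIntegral.continuous_parametric_intervalIntegral_of_continuous'
    unfold PV4 Function.uncurry
    fun_prop
  have c2 : Continuous fun ε : ℝ => ∫ s in (0 : ℝ)..1, 3 / 2 * ((ext r s + ε) ^ 2 - (1 - s ^ 2)) := by
    apply intervalIntegral.continuous_parametric_intervalIntegral_of_continuous'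
    unfold Function.uncurry
    fun_prop
  have := lim_le (A := fun ε => (∫ s in (0 : ℝ)..1, 16 / π * PV4 s (ext r s + ε)) +
      1 / 500 * (∫ s in (0 : ℝ)..1, 3 / 2 * ((ext r s + ε) ^ 2 - (1 - s ^ 2))))
    (B := fun ε => (1 + ∫ s in (0 : ℝ)..1, 3 / 2 * ((ext r s + ε) ^ 2 - (1 - s ^ 2))) *
      √(1 + ∫ s in (0 : ℝ)..1, 3 / 2 * ((ext r s + ε) ^ 2 - (1 - s ^ 2))))
    (c1.add (continuous_const.mul c2)) (by fun_prop) (fun ε hε => core4 (sp_ext hr h hε))
  simpa only [add_zero] using this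

theorem main3 {r : ℝ → ℝ} (hr : Prof r) (h : ∀ s ∈ Icc (-1 : ℝ) 1, √(1 - s ^ 2) ≤ r s) :
    (∫ s in (0 : ℝ)..1, PV3 s (ext r s)) +
      1 / 1000 * (4 / π * (∫ s in (0 : ℝ)..1, (ext r s - √(1 - s ^ 2)))) ≤
    (1 + 4 / π * (∫ s in (0 : ℝ)..1, (ext r s - √(1 - s ^ 2)))) ^ 2 := by
  have hc := ext_cont hr
  have c1 : Continuous fun ε : ℝ => ∫ s in (0 : ℝ)..1, PV3 s (ext r s + ε) := by
    apply intervalIntegral.continuous_parametric_intervalIntegral_of_continuous'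
    unfold PV3 Function.uncurry
    fun_prop
  have c2 : Continuous fun ε : ℝ => ∫ s in (0 : ℝ)..1, ((ext r s + ε) - √(1 - s ^ 2)) := by
    apply intervalIntegral.continuous_parametric_intervalIntegral_of_continuous'
    unfold Function.uncurry
    fun_prop
  have := lim_le (A := fun ε => (∫ s in (0 : ℝ)..1, PV3 s (ext r s + ε)) +
      1 / 1000 * (4 / π * (∫ s in (0 : ℝ)..1, ((ext r s + ε) - √(1 - s ^ 2)))))
    (B := fun ε => (1 + 4 / π * (∫ s in (0 : ℝ)..1, ((ext r s + ε) - √(1 - s ^ 2)))) ^ 2)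
    (c1.add (continuous_const.mul (continuous_const.mul c2))) (by fun_prop)
    (fun ε hε => core3 (sp_ext hr h hε))
  simpa only [add_zero] using this

theorem even_int {f : ℝ → ℝ} (hf : Continuous f) (he : ∀ s ∈ Icc (0 : ℝ) 1, f (-s) = f s) :
    ∫ s in (-1 : ℝ)..1, f s = 2 * ∫ s in (0 : ℝ)..1, f s := by
  rw [← intervalIntegral.integral_add_adjacent_intervals (hf.intervalIntegrable (-1) 0)
    (hf.intervalIntegrable 0 1)]
  have h1 : ∫ s in (-1 : ℝ)..0, f s = ∫ s in (0 : ℝ)..1, f (-s) := by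
    rw [intervalIntegral.integral_comp_neg (fun s => f s)]; simp
  have h2 : ∫ s in (0 : ℝ)..1, f (-s) = ∫ s in (0 : ℝ)..1, f s := by
    apply intervalIntegral.integral_congr
    intro s hs
    rw [uIcc_of_le zero_le_one] at hs
    exact he s hs
  rw [h1, h2]; ring

theorem ext_even {r : ℝ → ℝ} (hr : Prof r) {s : ℝ} (hs : s ∈ Icc (0 : ℝ) 1) :
    ext r (-s) = ext r s := by
  have h1 : s ∈ Icc (-1 : ℝ) 1 := ⟨by linarith [hs.1], hs.2⟩
  rw [ext_eq h1, ext_eq ⟨by linarith [hs.2], by linarith [hs.1]⟩, hr.even s h1]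

theorem mom_eq {r : ℝ → ℝ} (hr : Prof r) (k : ℕ) :
    mom k r = 2 * ∫ s in (0 : ℝ)..1, ext r s ^ k := by
  have hc := ext_cont hr
  have h1 : mom k r = ∫ s in (-1 : ℝ)..1, ext r s ^ k := by
    unfold mom
    apply intervalIntegral.integral_congr
    intro s hs
    rw [uIcc_of_le (by norm_num)] at hs
    simp only [ext_eq hs]
  rw [h1, even_int (by fun_prop)]
  intro s hs
  rw [ext_even hr hs]

theorem zero_of_int {f : ℝ → ℝ} (hf : Continuous f) (h0 : ∀ s ∈ Icc (0 : ℝ) 1, 0 ≤ f s)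
    (hi : ∫ s in (0 : ℝ)..1, f s ≤ 0) : ∀ s ∈ Icc (0 : ℝ) 1, f s = 0 := by
  intro s hs
  by_contra hne
  have : 0 < ∫ s in (0 : ℝ)..1, f s :=
    intervalIntegral.integral_pos zero_lt_one hf.continuousOn
      (fun x hx => h0 x ⟨hx.1.le, hx.2⟩) ⟨s, hs, lt_of_le_of_ne (h0 s hs) (Ne.symm hne)⟩
  linarith

theorem w_one : w 1 = π / 2 := by
  unfold w
  simp only [pow_one]
  exact integral_sqrt_one_sub_sq

theorem w_two : w 2 = 4 / 3 := by
  unfold w
  have : ∫ s in (-1 : ℝ)..1, √(1 - s ^ 2) ^ 2 = ∫ s in (-1 : ℝ)..1, (1 - s ^ 2) := by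
    apply intervalIntegral.integral_congr
    intro s hs
    rw [uIcc_of_le (by norm_num)] at hs
    exact Real.sq_sqrt (by nlinarith [hs.1, hs.2])
  rw [this, intervalIntegral.integral_sub (by simp) ((continuous_pow 2).intervalIntegrable _ _),
    integral_pow]
  norm_num

theorem w_three : w 3 = 3 * π / 8 := by
  unfold w
  have hg : Continuous fun s : ℝ => √(1 - s ^ 2) ^ 3 := by fun_prop
  have h := intervalIntegral.integral_comp_mul_deriv (a := -(π / 2)) (b := π / 2) (f := sin)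
    (f' := cos) (fun x _ => Real.hasDerivAt_sin x) Real.continuous_cos.continuousOn hg
  rw [Real.sin_neg, Real.sin_pi_div_two] at h
  rw [← h]
  have e : ∀ x ∈ uIcc (-(π / 2)) (π / 2),
      ((fun s : ℝ => √(1 - s ^ 2) ^ 3) ∘ sin) x * cos x = cos x ^ (2 + 2) := by
    intro x hx
    rw [uIcc_of_le (by linarith [Real.pi_pos])] at hx
    have hc : 0 ≤ cos x := Real.cos_nonneg_of_mem_Icc hx
    simp only [Function.comp]
    rw [← Real.abs_cos_eq_sqrt_one_sub_sin_sq, abs_of_nonneg hc]; ring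
  rw [intervalIntegral.integral_congr e, integral_cos_pow, integral_cos_sq]
  simp only [Real.cos_neg, Real.cos_pi_div_two, Real.sin_neg, Real.sin_pi_div_two]
  norm_num
  ring

end Crest.Agent.R230.SD
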