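import Crest.Agent.R230.SD5Core
import Crest.Agent.R230.SD5Point
import Crest.Agent.R230.SDWrap

/-!
# Row 230: the one dimensional inequality behind `SDL 4`
-/

set_option autoImplicit false
set_option maxHeartbeats 1000000
set_option linter.unusedVariables false

open MeasureTheory Set Filter Topology Real

namespace Crest.Agent.R230.SD

/-- cube root of `1 + F` -/
noncomputable def cr (F : ℝ) : ℝ := (1 + F) ^ (1 / 3 : ℝ)

theorem cr_pos {F : ℝ} (hF : 0 ≤ F) : 0 < cr F := Real.rpow_pos_of_pos (by linarith) _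

theorem cr_cube {F : ℝ} (hF : 0 ≤ F) : cr F ^ 3 = 1 + F := by
  unfold cr
  rw [← Real.rpow_natCast, ← Real.rpow_mul (by linarith)]
  norm_num

theorem deriv_H {F : ℝ} (hF : 0 ≤ F) :
    HasDerivAt (fun F : ℝ => (1 + F) ^ (4 / 3 : ℝ)) (4 / 3 * cr F) F := by
  have h1 : HasDerivAt (fun F : ℝ => 1 + F) 1 F := (hasDerivAt_id F).const_add 1
  have h2 := h1.rpow_const (p := (4 / 3 : ℝ)) (Or.inl (by linarith))
  refine HasDerivAt.congr_deriv h2 ?_
  unfold cr
  norm_num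

/-- the facts along the profile -/
theorem geo_of {r : ℝ → ℝ} (hr : SP r) {t : ℝ} (ht : t ∈ Ico (0 : ℝ) 1) :
    Geo (cos (al r t)) (r t) (xx r t) t (sin (al r t)) (16 / (3 * π) * FT PD5 GD5 r t)
      (cr (16 / (3 * π) * FT PD5 GD5 r t)) := by
  have ht' : t ∈ Icc (0 : ℝ) 1 := ⟨ht.1, ht.2.le⟩
  have hpi := Real.pi_pos
  have hQ : (0:ℝ) < 16 / (3 * π) := by positivity
  have hF := FT5_nonneg hr ht'
  have hF0 : 0 ≤ 16 / (3 * π) * FT PD5 GD5 r t := by positivity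
  have hc := cos_al_pos hr ht
  have hs := sin_al_nonneg hr ht'
  have hx := xx_pos hr ht'
  have hte := t_eq hr ht'
  have hre := r_eq hr ht'
  have hcs := Real.sin_sq_add_cos_sq (al r t)
  have hσ : 0 < sin (al r t) := by
    have : 0 < xx r t * cos (al r t) := mul_pos hx hc
    linarith [ht.1]
  have hup : ∀ z : ℝ, 0 ≤ z → z ≤ FT PD5 GD5 r t → 50929 / 30000 * z ≤
      16 / (3 * π) * FT PD5 GD5 r t := by
    intro z hz hzF
    exact mul_le_mul q_lb hzF hz hQ.le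
  have hX := X_le hr ht'
  have h0 := hr.pos t
  have ht0 := ht.1
  have hlam : 0 ≤ 3 / 2 - xx r t ^ 2 / (2 * r t ^ 2) := by
    have : xx r t ^ 2 / (2 * r t ^ 2) ≤ 1 := by
      rw [div_le_one (by positivity)]
      nlinarith
    linarith
  refine ⟨hc, ?_, h0, hσ, hcs, hx, ht.1, ht.2.le, ?_, ?_, ?_, hF0, cr_pos hF0, cr_cube hF0, ?_, ?_, ?_⟩
  · nlinarith
  · rw [← hre]
    have e : t * sin (al r t) = (sin (al r t) - xx r t * cos (al r t)) * sin (al r t) := by rw [hte]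
    rw [e]
    linear_combination hcs
  · rw [← hre]; ring
  · exact xx_sq hr ht'
  · intro h1
    exact hup _ (by positivity) (FT5_A hr ht h1)
  · intro h1
    refine hup _ ?_ (FT5_M hr ht h1)
    have : 0 ≤ r t ^ 2 / 2 - xx r t ^ 2 / 10 := by nlinarith
    positivity
  · intro h1
    refine hup _ ?_ (FT5_B hr ht h1)
    have e1 : 0 ≤ r t ^ 3 - 1 := by
      have : (1:ℝ) ^ 3 ≤ r t ^ 3 := pow_le_pow_left₀ zero_le_one h1 3
      linarith
    have e2 : 0 ≤ t ^ 3 / 2 - t ^ 5 / 10 := by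
      have : t ^ 3 / 2 - t ^ 5 / 10 = t ^ 3 * (1 / 2 - t ^ 2 / 10) := by ring
      rw [this]
      have : 0 ≤ 1 / 2 - t ^ 2 / 10 := by nlinarith [ht.2]
      positivity
    positivity

/-- swept mass on the axis -/
theorem GD5_axis {x : ℝ} (hx : 0 < x) :
    (1 + cos (arctan x) ^ 2 / 2) * (cos (arctan x) ^ 2 + 3) / 12 * x ^ 3 ≤ GD5 (arctan x) x := by
  obtain ⟨hc, hs, ht, hr⟩ := arctan_facts hx
  have hcs := Real.sin_sq_add_cos_sq (arctan x)
  have ha0 : 0 ≤ arctan x := Real.arctan_nonneg.2 hx.le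
  have ha1 : arctan x ≤ π / 2 := (Real.arctan_lt_pi_div_two x).le
  have hI := int_sqrt3 ha0 ha1
  have hs1 := Real.sin_le_one (arctan x)
  have hGdef : GD5 (arctan x) x = (1/4 : ℝ) * (sin (arctan x) ^ 3 * cos (arctan x) * x ^ 4) +
    (1 : ℝ) * (sin (arctan x) ^ 2 * cos (arctan x) ^ 2 * x ^ 3) +
    (3/2 : ℝ) * (sin (arctan x) * cos (arctan x) ^ 3 * x ^ 2) + (1 : ℝ) * (cos (arctan x) ^ 4 * x) -
    (3 / 8 * arctan x + 3 / 8 * (sin (arctan x) * cos (arctan x)) +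
      1 / 4 * (sin (arctan x) * cos (arctan x) ^ 3)) := by unfold GD5; ring
  rw [← hI] at hGdef
  have hxc : x ^ 2 * cos (arctan x) ^ 2 = 1 - cos (arctan x) ^ 2 := by
    have : sin (arctan x) = x * cos (arctan x) := by linarith
    rw [this] at hcs
    linarith
  have hsx : sin (arctan x) = x * cos (arctan x) := by linarith
  set c := cos (arctan x) with hcdef
  set σ := sin (arctan x) with hσdef
  have T : Tri c σ x (c + x * σ) (fun u => √(1 - (σ - c * u) ^ 2)) := by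
    refine ⟨hc, hx, by linarith, rfl, by fun_prop, fun u => Real.sqrt_nonneg _, ?_⟩
    intro u hu
    have h1 : σ - c * u ≤ 1 := by
      have : 0 ≤ c * u := mul_nonneg hc.le hu.1
      linarith
    have h2 : 0 ≤ σ - c * u := by
      have : c * u ≤ c * x := by
        gcongr
        exact hu.2
      linarith
    rw [Real.sq_sqrt (by nlinarith)]
    linear_combination (-(u ^ 2) - 1) * hcs
  have hB := T.B
  have hsub := intervalIntegral.integral_comp_sub_mul (a := 0) (b := x)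
    (fun s : ℝ => √(1 - s ^ 2) ^ 3) hc.ne' σ
  have e0 : σ - c * x = 0 := by linarith
  rw [e0, mul_zero, sub_zero, smul_eq_mul] at hsub
  have hsub' : c * ∫ u in (0 : ℝ)..x, √(1 - (σ - c * u) ^ 2) ^ 3 =
      ∫ s in (0 : ℝ)..σ, √(1 - s ^ 2) ^ 3 := by
    rw [hsub]; exact mul_inv_cancel_left₀ hc.ne' _
  rw [intervalIntegral.integral_sub
    ((by fun_prop : Continuous fun u : ℝ => (c + u * σ) ^ 3).intervalIntegrable _ _)
    ((by fun_prop : Continuous fun u : ℝ => √(1 - (σ - c * u) ^ 2) ^ 3).intervalIntegrable _ _),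
    mul_sub, hsub'] at hB
  have hp : ∫ u in (0 : ℝ)..x, (c + u * σ) ^ 3 = c ^ 3 * x + (3 * c ^ 2 * σ) * x ^ 2 / 2 +
      (3 * c * σ ^ 2) * x ^ 3 / 3 + σ ^ 3 * x ^ 4 / 4 := by
    have e : ∀ u : ℝ, (c + u * σ) ^ 3 = c ^ 3 + (3 * c ^ 2 * σ) * u + (3 * c * σ ^ 2) * u ^ 2 +
      σ ^ 3 * u ^ 3 + 0 * u ^ 4 + 0 * u ^ 5 := by intro u; ring
    simp only [e]
    rw [pint]
    ring
  rw [hp] at hB
  have hrc : (c + x * σ) * c = 1 := by
    rw [hsx]; linear_combination hxc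
  have e1 : x ^ 2 / (2 * (c + x * σ) ^ 2) = (1 - c ^ 2) / 2 := by
    rw [div_eq_iff (by positivity), ← hxc]
    have : (c + x * σ) ^ 2 * c ^ 2 = 1 := by rw [← mul_pow, hrc, one_pow]
    linear_combination (-(x ^ 2)) * this
  rw [e1] at hB
  have e2 : (3 / 2 - (1 - c ^ 2) / 2) * (c ^ 2 / 12 + c * (c + x * σ) / 4) * x ^ 3 =
      (1 + c ^ 2 / 2) * (c ^ 2 + 3) / 12 * x ^ 3 := by
    linear_combination ((3 / 2 - (1 - c ^ 2) / 2) / 4 * x ^ 3) * hrc
  rw [e2] at hB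
  rw [hGdef]
  linarith

theorem ax_of {x : ℝ} (hx : 0 < x) : Ax (cos (arctan x)) x (16 / (3 * π) * GD5 (arctan x) x)
    (cr (16 / (3 * π) * GD5 (arctan x) x)) := by
  obtain ⟨hc, hs, ht, hr⟩ := arctan_facts hx
  have hcs := Real.sin_sq_add_cos_sq (arctan x)
  have hpi := Real.pi_pos
  have hQ : (0:ℝ) < 16 / (3 * π) := by positivity
  have hG := GD5_axis hx
  have hG0 : 0 ≤ (1 + cos (arctan x) ^ 2 / 2) * (cos (arctan x) ^ 2 + 3) / 12 * x ^ 3 := by positivity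
  have hF0 : 0 ≤ 16 / (3 * π) * GD5 (arctan x) x := mul_nonneg hQ.le (hG0.trans hG)
  have hsx : sin (arctan x) = x * cos (arctan x) := by linarith
  have hxc : x ^ 2 * cos (arctan x) ^ 2 = 1 - cos (arctan x) ^ 2 := by
    rw [hsx] at hcs
    linarith
  refine ⟨hc, ?_, hx, hxc, hF0, cr_pos hF0, cr_cube hF0, ?_⟩
  · have : 0 < x ^ 2 * cos (arctan x) ^ 2 := by positivity
    nlinarith
  · have := mul_le_mul q_lb hG hG0 hQ.le
    linarith

theorem FT_smul (C : ℝ) (P G : ℝ → ℝ → ℝ) (r : ℝ → ℝ) (t : ℝ) :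
    FT (fun s ρ => C * P s ρ) (fun α x => C * G α x) r t = C * FT P G r t := by
  unfold FT
  rw [intervalIntegral.integral_const_mul]
  ring

/-- the inequality for strict profiles, `n = 4` -/
theorem core5 {r : ℝ → ℝ} (hr : SP r) :
    (∫ s in (0 : ℝ)..1, PV5 s (r s)) +
      1 / 10000 * (16 / (3 * π) * ∫ s in (0 : ℝ)..1, (r s ^ 3 - √(1 - s ^ 2) ^ 3)) ≤
    (1 + 16 / (3 * π) * ∫ s in (0 : ℝ)..1, (r s ^ 3 - √(1 - s ^ 2) ^ 3)) ^ (4 / 3 : ℝ) := by
  have hpi := Real.pi_pos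
  have hQ : (0:ℝ) < 16 / (3 * π) := by positivity
  have h := coreg (H := fun F => (1 + F) ^ (4 / 3 : ℝ)) (k := fun F => 4 / 3 * cr F)
    (e0 := 1 / 10000) (densD5.smul (16 / (3 * π))) densV5 hr ?_ ?_ ?_ ?_ ?_ ?_ ?_
  · rw [FT_smul, FT5_one hr] at h
    have e2 : FT PV5 GV5 r 1 = (∫ s in (0 : ℝ)..1, PV5 s (r s)) - 1 := by
      unfold FT
      rw [al_one hr]
      have : GV5 (π / 2) (xx r 1) = -1 := by
        unfold GV5
        rw [Real.sin_pi_div_two, Real.cos_pi_div_two]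
        ring
      rw [this]
      ring
    rw [e2] at h
    simp only [add_zero, Real.one_rpow] at h
    linarith
  · intro F hF
    exact deriv_H hF
  · intro t ht
    rw [FT_smul]
    have g := geo_of hr ht
    rw [← r_eq hr ⟨ht.1, ht.2.le⟩] at g
    exact pt5 g
  · intro t ht
    rw [FT_smul]
    exact mul_nonneg hQ.le (FT5_nonneg hr ht)
  · intro x hx
    have hs : sin (arctan x) = x * cos (arctan x) := by
      obtain ⟨hc, hs, ht, hr⟩ := arctan_facts hx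
      linarith
    exact pt5x (ax_of hx) hs
  · intro x hx
    rcases eq_or_lt_of_le hx with h | h
    · rw [← h]; unfold GD5; simp
    · exact (ax_of h).hF
  · unfold GD5; simp
  · unfold GV5; simp

theorem main5 {r : ℝ → ℝ} (hr : Prof r) (h : ∀ s ∈ Icc (-1 : ℝ) 1, √(1 - s ^ 2) ≤ r s) :
    (∫ s in (0 : ℝ)..1, PV5 s (ext r s)) +
      1 / 10000 * (16 / (3 * π) * ∫ s in (0 : ℝ)..1, (ext r s ^ 3 - √(1 - s ^ 2) ^ 3)) ≤
    (1 + 16 / (3 * π) * ∫ s in (0 : ℝ)..1, (ext r s ^ 3 - √(1 - s ^ 2) ^ 3)) ^ (4 / 3 : ℝ) := by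
  have hc := ext_cont hr
  have c1 : Continuous fun ε : ℝ => ∫ s in (0 : ℝ)..1, PV5 s (ext r s + ε) := by
    apply intervalIntegral.continuous_parametric_intervalIntegral_of_continuous'
    unfold PV5 Function.uncurry
    fun_prop
  have c2 : Continuous fun ε : ℝ => ∫ s in (0 : ℝ)..1, ((ext r s + ε) ^ 3 - √(1 - s ^ 2) ^ 3) := by
    apply intervalIntegral.continuous_parametric_intervalIntegral_of_continuous'
    unfold Function.uncurry
    fun_prop
  have c3 : Continuous fun ε : ℝ =>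
      (1 + 16 / (3 * π) * ∫ s in (0 : ℝ)..1, ((ext r s + ε) ^ 3 - √(1 - s ^ 2) ^ 3)) ^ (4 / 3 : ℝ) :=
    (continuous_const.add (continuous_const.mul c2)).rpow_const (fun _ => Or.inr (by norm_num))
  have := lim_le (A := fun ε => (∫ s in (0 : ℝ)..1, PV5 s (ext r s + ε)) +
      1 / 10000 * (16 / (3 * π) * ∫ s in (0 : ℝ)..1, ((ext r s + ε) ^ 3 - √(1 - s ^ 2) ^ 3)))
    (B := fun ε => (1 + 16 / (3 * π) * ∫ s in (0 : ℝ)..1, ((ext r s + ε) ^ 3 -
      √(1 - s ^ 2) ^ 3)) ^ (4 / 3 : ℝ))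
    (c1.add (continuous_const.mul (continuous_const.mul c2))) c3
    (fun ε hε => core5 (sp_ext hr h hε))
  simpa only [add_zero] using this

end Crest.Agent.R230.SD
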