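import Crest.Agent.R230.PolyCheck
import Crest.Agent.R230.SD5Defs

/-!
# Row 230: the certificates for `SDL 4`, polynomials with integer parameters
-/

set_option autoImplicit false

namespace Crest.Agent.R230.SD

open PolyC

/-! ## The polynomials in `(c, r)` (inner variable `c`, outer variable `r`) -/

/-- `1 - c²` -/
def pD : List (List ℤ) := [[1, 0, -1]]
/-- `(r - c)²` -/
def pQ : List (List ℤ) := [[0, 0, 1], [0, -2], [1]]
/-- `120000 m5` -/
def pM : List (List ℤ) := [[0, 0, 50929], [0, 101858], [152787]]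
/-- `58800000000 B5` -/
def pB : List (List ℤ) :=
  add2 (mul2 pD (add2
    [[0, 0, 0, 32130000000, 0, -6000000000], [0, 0, 64260000000, 0, -12000000000],
      [0, 96390000000, 0, -18000000000], [128520000000, 0, -24000000000], [0, -30000000000],
      [-36000000000]]
    (add2 (sm2 3528000000 (mul2 (mul2 pQ [[0, -1], [1]]) [[0, 7, 0, -6], [-1]])) (sm2 49 pM))))
  (mul2 pQ [[0, 0, 0, 1440000000], [0, 0, 5760000000], [0, 14400000000], [28800000000]])

/-- `16000000 (3/2 x0 (r - c)² - 1/2 x0³ (1 - c²))`, `x0 = X/200` -/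
def pLX (X : ℤ) : List (List ℤ) := add2 (sm2 (120000 * X) pQ) (sm2 (-(X * X * X)) pD)

/-- form A, times `3 * 10^9` -/
def pA (a b : ℤ) : List (List ℤ) :=
  mul2 [[], [], [254645]] (add2 (sm2 (10 * a) pQ) (sm2 (-b) pD))

/-- form M, times `5760000 * 10^9` -/
def pMM (X Xb lam : ℤ) : List (List ℤ) :=
  mul2 (pLX X) (sm2 50929 [[-(12 * Xb), 0, 5 * lam], [0, 15 * lam], [6000]])

/-- form B, times `576000000 * 10^9` -/
def pBB (T lam X : ℤ) : List (List ℤ) :=
  sm2 50929 (add2 (add2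
    (mul2 (mul2 [[-1], [], [], [1]] [[1], [0, -1]]) (mul2 [[2, 0, 1]] (sm2 9600000000000 pD)))
    (sm2 (600000 * (120000 * T - T * T * T)) [[1], [0, -2], [0, 0, 1]]))
    (add2 (sm2 (-(3 * (200000 * (T * T * T) - 3 * (T * T * T * T * T)))) pD)
      (mul2 (sm2 (500 * lam) [[0, 0, 1], [0, 3]]) (pLX X))))

/-- form C, times `576000000 * 10^9` -/
def pCC (ls T lam X : ℤ) : List (List ℤ) :=
  sm2 50929 (add2 (add2
    (mul2 (mul2 [[], [-1], [1]] [[1], [0, -1]]) (sm2 (57600000000 * ls) pD))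
    (sm2 (600000 * (120000 * T - T * T * T)) [[1], [0, -2], [0, 0, 1]]))
    (add2 (sm2 (-(3 * (200000 * (T * T * T) - 3 * (T * T * T * T * T)))) pD)
      (mul2 (sm2 (500 * lam) [[0, 0, 1], [0, 3]]) (pLX X))))

/-- the chord inequality, times `3 * 58800000000 * S * K` -/
def pFi (G0 G1 K : ℤ) (CD : List (List ℤ)) : List (List ℤ) :=
  add2 (sm2 1960 (mul2 pM (add2 (sm2 (K * (G0 * (G1 * G1 + G1 * G0) + 1000000000)) pD) CD)))
    (sm2 (-(3 * (G1 * G1 + G1 * G0 + G0 * G0) * K)) pB)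

/-- the ceiling inequality, times `3 * 58800000000` -/
def pG (G1 : ℤ) : List (List ℤ) :=
  add2 (sm2 (1960 * G1) (mul2 pM pD)) (sm2 (-3) pB)

/-- the floor inequality, times `K * 10^9` -/
def pC0 (G0 K : ℤ) (CD : List (List ℤ)) : List (List ℤ) :=
  add2 CD (sm2 (-(K * (G0 * G0 * G0 - 1000000000))) pD)

/-- kind of coordinates: `0`: `(c, r)`; `1`: `r = 1 - v (1 - c)`; `2`: `r = 1 + v (1 - c)`;
`3`: `c r = c + v (1 - c)` -/
def comp (R : List (List ℤ)) : List (List ℤ) → List (List ℤ)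
  | [] => []
  | A :: L => add2 [A] (mul2 R (comp R L))

/-- `n` zeros in front -/
def shiftC : ℕ → List ℤ → List ℤ
  | 0, A => A
  | n + 1, A => 0 :: shiftC n A

/-- homogeneous composition -/
def compH (R : List (List ℤ)) : List (List ℤ) → List (List ℤ)
  | [] => []
  | A :: L => add2 [shiftC L.length A] (mul2 R (compH R L))

/-- division by `1 - c` -/
def psum (acc : ℤ) : List ℤ → List ℤ
  | [] => []
  | a :: L => (acc + a) :: psum (acc + a) L

/-- division by `1 - c` of all coefficients -/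
def psum2 : List (List ℤ) → List (List ℤ)
  | [] => []
  | A :: L => psum 0 A :: psum2 L

/-- sum of the coefficients -/
def sumL : List ℤ → ℤ
  | [] => 0
  | a :: L => a + sumL L

/-- all inner polynomials vanish at `1` -/
def zer : List (List ℤ) → Bool
  | [] => true
  | A :: L => decide (sumL A = 0) && zer L

/-- the test of a polynomial in `(c, r)` on a box of the given kind -/
def chkK (kind : ℕ) (P : List (List ℤ)) (u w d u' w' d' : ℤ) : Bool :=
  match kind with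
  | 0 => chk P u w d u' w' d'
  | 1 => zer (comp [[1], [-1, 1]] P) && chk (psum2 (comp [[1], [-1, 1]] P)) u w d u' w' d'
  | 2 => zer (comp [[1], [1, -1]] P) && chk (psum2 (comp [[1], [1, -1]] P)) u w d u' w' d'
  | _ => zer (compH [[0, 1], [1, -1]] P) && chk (psum2 (compH [[0, 1], [1, -1]] P)) u w d u' w' d'

/-- coefficients (times 40000) of `(r - c)² - (x/200)² (1 - c²)` -/
def pXa (xa : ℤ) : List (List ℤ) := add2 (sm2 40000 pQ) (sm2 (-(xa * xa)) pD)
/-- `(x/200)² (1 - c²) - (r - c)²`, times 40000 -/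
def pXb (xb : ℤ) : List (List ℤ) := add2 (sm2 (-40000) pQ) (sm2 (xb * xb) pD)
/-- `X/100 (1 - c²) - (r - c)²`, times 100 -/
def pXc (xb : ℤ) : List (List ℤ) := add2 (sm2 (-100) pQ) (sm2 xb pD)
/-- `w/100 r² (1 - c²) - (r - c)²`, times 100 -/
def pW (W : ℤ) : List (List ℤ) := add2 (sm2 (-100) pQ) (mul2 [[], [], [W]] pD)
/-- second factor of form M, times `12000 (1 - c²)` -/
def pG2 (Xb lam : ℤ) : List (List ℤ) :=
  mul2 pD [[-(12 * Xb), 0, 5 * lam], [0, 15 * lam], [6000]]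
/-- the line of form A: `20000 (x³ (1 + x²/2) - (a/2000 x² - b/20000) (1 + x²)²)` -/
def pL (a b : ℤ) : List ℤ :=
  [b, 0, 2 * b - 10 * a, 20000, b - 20 * a, 10000, -(10 * a)]

/-- one variable test with bisection -/
def chk1 : ℕ → List ℤ → ℤ → ℤ → ℤ → Bool
  | 0, P, u, w, d => chk [P] u w d 0 1 1
  | n + 1, P, u, w, d => chk [P] u w d 0 1 1 ||
      (chk1 n P (2 * u) (u + w) (2 * d) && chk1 n P (u + w) (2 * w) (2 * d))

/-! ## Values -/

theorem ev_pD (c r : ℝ) : ev2 pD c r = 1 - c ^ 2 := by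
  simp only [pD, ev2_cons, ev2_nil, ev_cons, ev_nil]; push_cast; ring

theorem ev_pQ (c r : ℝ) : ev2 pQ c r = (r - c) ^ 2 := by
  simp only [pQ, ev2_cons, ev2_nil, ev_cons, ev_nil]; push_cast; ring

theorem ev_pM (c r : ℝ) : ev2 pM c r = 120000 * m5 c r := by
  simp only [pM, ev2_cons, ev2_nil, ev_cons, ev_nil]; unfold m5; push_cast; ring

theorem ev_pB (c r : ℝ) : ev2 pB c r = 58800000000 * B5 c r := by
  simp only [pB, ev2_add, ev2_mul, ev2_sm, ev_pD, ev_pQ, ev_pM, ev2_cons, ev2_nil, ev_cons, ev_nil]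
  unfold B5
  push_cast
  ring

theorem ev_pLX (X : ℤ) (c r : ℝ) : ev2 (pLX X) c r =
    16000000 * (3 / 2 * (X / 200) * (r - c) ^ 2 - 1 / 2 * (X / 200) ^ 3 * (1 - c ^ 2)) := by
  simp only [pLX, ev2_add, ev2_sm, ev_pD, ev_pQ]
  push_cast
  ring

theorem ev_pA (a b : ℤ) (c r : ℝ) :
    ev2 (pA a b) c r = (3 : ℤ) * 1000000000 * CA5 (a / 2000) (b / 20000) c r := by
  simp only [pA, ev2_add, ev2_mul, ev2_sm, ev_pD, ev_pQ, ev2_cons, ev2_nil, ev_cons, ev_nil]
  unfold CA5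
  push_cast
  ring

theorem ev_pMM (X Xb lam : ℤ) (c r : ℝ) :
    ev2 (pMM X Xb lam) c r = (5760000 : ℤ) * 1000000000 * CM5 (X / 200) (Xb / 100) (lam / 200) c r := by
  simp only [pMM, ev2_mul, ev2_sm, ev_pLX, ev2_cons, ev2_nil, ev_cons, ev_nil]
  unfold CM5
  push_cast
  ring

theorem ev_pBB (T lam X : ℤ) (c r : ℝ) :
    ev2 (pBB T lam X) c r = (576000000 : ℤ) * 1000000000 * CB5 (T / 200) (lam / 200) (X / 200) c r := by
  simp only [pBB, ev2_mul, ev2_add, ev2_sm, ev_pLX, ev_pD, ev2_cons, ev2_nil, ev_cons, ev_nil]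
  unfold CB5
  push_cast
  ring

theorem ev_pCC (ls T lam X : ℤ) (c r : ℝ) :
    ev2 (pCC ls T lam X) c r =
      (576000000 : ℤ) * 1000000000 * CC5 (ls / 1000) (T / 200) (lam / 200) (X / 200) c r := by
  simp only [pCC, ev2_mul, ev2_add, ev2_sm, ev_pLX, ev_pD, ev2_cons, ev2_nil, ev_cons, ev_nil]
  unfold CC5
  push_cast
  ring

/-- slope of the chord of the cube root -/
noncomputable def sl (g0 g1 : ℝ) : ℝ := 1 / (g1 ^ 2 + g1 * g0 + g0 ^ 2)

/-- constant term of the chord of the cube root -/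
noncomputable def ic (g0 g1 : ℝ) : ℝ := g0 - sl g0 g1 * (g0 ^ 3 - 1)

theorem ev_pFi {G0 G1 K : ℤ} {CDP : List (List ℤ)} {CD c r : ℝ} (h0 : 0 < G0) (h1 : 0 < G1)
    (hCD : ev2 CDP c r = K * 1000000000 * CD) :
    ev2 (pFi G0 G1 K CDP) c r =
      3 * 58800000000 * (((G1:ℝ) ^ 2 + G1 * G0 + (G0:ℝ) ^ 2) * K) *
        Fi5 (ic (G0 / 1000) (G1 / 1000)) (sl (G0 / 1000) (G1 / 1000)) CD c r := by
  have h0' : (0:ℝ) < G0 := by exact_mod_cast h0
  have h1' : (0:ℝ) < G1 := by exact_mod_cast h1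
  simp only [pFi, ev2_add, ev2_mul, ev2_sm, ev_pD, ev_pM, ev_pB, hCD]
  unfold Fi5 ic
  have hs : sl ((G0:ℝ) / 1000) (G1 / 1000) * ((G1:ℝ) ^ 2 + G1 * G0 + (G0:ℝ) ^ 2) = 1000000 := by
    unfold sl
    field_simp
    ring
  set s := sl ((G0:ℝ) / 1000) (G1 / 1000)
  push_cast
  linear_combination (-(3 * 58800000000 * (K:ℝ) * (4 / 3) * m5 c r *
    (-(((G0:ℝ) / 1000) ^ 3 - 1) * (1 - c ^ 2) + CD))) * hs

theorem ev_pG (G1 : ℤ) (c r : ℝ) :
    ev2 (pG G1) c r = 3 * 58800000000 * (4 / 3 * (G1 / 1000) * m5 c r * (1 - c ^ 2) - B5 c r) := by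
  simp only [pG, ev2_add, ev2_mul, ev2_sm, ev_pD, ev_pM, ev_pB]
  push_cast
  ring

theorem ev_pC0 {G0 K : ℤ} {CDP : List (List ℤ)} {CD c r : ℝ}
    (hCD : ev2 CDP c r = K * 1000000000 * CD) :
    ev2 (pC0 G0 K CDP) c r =
      1000000000 * K * (CD - (((G0:ℝ) / 1000) ^ 3 - 1) * (1 - c ^ 2)) := by
  simp only [pC0, ev2_add, ev2_sm, ev_pD, hCD]
  push_cast
  ring

theorem ev_pXa (xa : ℤ) (c r : ℝ) :
    ev2 (pXa xa) c r = 40000 * ((r - c) ^ 2 - ((xa:ℝ) / 200) ^ 2 * (1 - c ^ 2)) := by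
  simp only [pXa, ev2_add, ev2_sm, ev_pD, ev_pQ]
  push_cast
  ring

theorem ev_pXb (xb : ℤ) (c r : ℝ) :
    ev2 (pXb xb) c r = 40000 * (((xb:ℝ) / 200) ^ 2 * (1 - c ^ 2) - (r - c) ^ 2) := by
  simp only [pXb, ev2_add, ev2_sm, ev_pD, ev_pQ]
  push_cast
  ring

theorem ev_pXc (xb : ℤ) (c r : ℝ) :
    ev2 (pXc xb) c r = 100 * ((xb:ℝ) / 100 * (1 - c ^ 2) - (r - c) ^ 2) := by
  simp only [pXc, ev2_add, ev2_sm, ev_pD, ev_pQ]
  push_cast
  ring

theorem ev_pW (W : ℤ) (c r : ℝ) :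
    ev2 (pW W) c r = 100 * ((W:ℝ) / 100 * (1 - c ^ 2) * r ^ 2 - (r - c) ^ 2) := by
  simp only [pW, ev2_add, ev2_mul, ev2_sm, ev_pD, ev_pQ, ev2_cons, ev2_nil, ev_cons, ev_nil]
  push_cast
  ring

theorem ev_pG2 (Xb lam : ℤ) (c r : ℝ) :
    ev2 (pG2 Xb lam) c r = 12000 * (r ^ 2 / 2 - (Xb / 100) / 10 +
      (lam / 200) * (c ^ 2 / 12 + c * r / 4)) * (1 - c ^ 2) := by
  simp only [pG2, ev2_mul, ev_pD, ev2_cons, ev2_nil, ev_cons, ev_nil]
  push_cast
  ring

theorem ev_pL (a b : ℤ) (x : ℝ) :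
    ev (pL a b) x = 20000 * (x ^ 3 * (1 + x ^ 2 / 2) -
      ((a:ℝ) / 2000 * x ^ 2 - (b:ℝ) / 20000) * (1 + x ^ 2) ^ 2) := by
  simp only [pL, ev_cons, ev_nil]
  push_cast
  ring

/-! ## Soundness of the coordinates -/

theorem ev_comp (R P : List (List ℤ)) (c v : ℝ) : ev2 (comp R P) c v = ev2 P c (ev2 R c v) := by
  induction P with
  | nil => simp [comp]
  | cons A L ih => simp only [comp, ev2_add, ev2_mul, ih, ev2_cons, ev2_nil]; ring

theorem ev_shiftC (n : ℕ) (A : List ℤ) (c : ℝ) : ev (shiftC n A) c = c ^ n * ev A c := by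
  induction n with
  | zero => simp [shiftC]
  | succ n ih => simp only [shiftC, ev_cons, ih, pow_succ]; push_cast; ring

theorem ev_compH (R P : List (List ℤ)) {c v r : ℝ} (h : ev2 R c v = c * r) :
    c * ev2 (compH R P) c v = c ^ P.length * ev2 P c r := by
  induction P with
  | nil => simp [compH]
  | cons A L ih =>
    simp only [compH, ev2_add, ev2_mul, ev2_cons, ev2_nil, ev_shiftC, h, List.length_cons, pow_succ]
    linear_combination (c * r) * ih

theorem ev_psum (acc : ℤ) (L : List ℤ) (x : ℝ) :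
    (1 - x) * ev (psum acc L) x = acc + ev L x - x ^ L.length * ((acc + sumL L : ℤ) : ℝ) := by
  induction L generalizing acc with
  | nil => simp [psum, sumL]
  | cons a L ih =>
    have := ih (acc + a)
    simp only [psum, sumL, ev_cons, List.length_cons, pow_succ]
    push_cast at this ⊢
    linear_combination x * this

theorem ev_psum2 {P : List (List ℤ)} (h : zer P = true) (x y : ℝ) :
    (1 - x) * ev2 (psum2 P) x y = ev2 P x y := by
  induction P with
  | nil => simp [psum2]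
  | cons A L ih =>
    simp only [zer, Bool.and_eq_true, decide_eq_true_eq] at h
    have h1 := ev_psum 0 A x
    rw [zero_add, h.1] at h1
    simp only [Int.cast_zero, mul_zero, sub_zero, zero_add] at h1
    have h2 := ih h.2
    simp only [psum2, ev2_cons]
    linear_combination h1 + y * h2

/-- the coordinates -/
def rel (k : ℕ) (c v r : ℝ) : Prop :=
  match k with
  | 0 => v = r
  | 1 => r = 1 - v * (1 - c)
  | 2 => r = 1 + v * (1 - c)
  | _ => c * r = c + v * (1 - c) ∧ 0 < c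

theorem chkK_sound {k : ℕ} {P : List (List ℤ)} {u w u' w' : ℤ}
    (h : chkK k P u w 32 u' w' 32 = true) (huw : u < w) (huw' : u' < w') {c v r : ℝ} (hc1 : c ≤ 1)
    (hrel : rel k c v r) (h0 : (u:ℝ) ≤ 32 * c) (h1 : 32 * c ≤ w) (h2 : (u':ℝ) ≤ 32 * v)
    (h3 : 32 * v ≤ w') : 0 ≤ ev2 P c r := by
  have hD : 0 ≤ 1 - c := by linarith
  have key : ∀ Q : List (List ℤ), chk Q u w 32 u' w' 32 = true → 0 ≤ ev2 Q c v := by
    intro Q hQ
    exact chk_sound hQ (by norm_num) (by norm_num) huw huw' (by push_cast; exact h0)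
      (by push_cast; exact h1) (by push_cast; exact h2) (by push_cast; exact h3)
  match k, h, hrel with
  | 0, h, hrel =>
    have hr : v = r := hrel
    rw [← hr]
    exact key P h
  | 1, h, hrel =>
    have hr : r = 1 - v * (1 - c) := hrel
    simp only [chkK, Bool.and_eq_true] at h
    have e1 := ev_psum2 h.1 c v
    have e2 := mul_nonneg hD (key _ h.2)
    rw [e1, ev_comp] at e2
    have e3 : ev2 [[1], [-1, 1]] c v = r := by
      simp only [ev2_cons, ev2_nil, ev_cons, ev_nil]; push_cast; rw [hr]; ring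
    rwa [e3] at e2
  | 2, h, hrel =>
    have hr : r = 1 + v * (1 - c) := hrel
    simp only [chkK, Bool.and_eq_true] at h
    have e1 := ev_psum2 h.1 c v
    have e2 := mul_nonneg hD (key _ h.2)
    rw [e1, ev_comp] at e2
    have e3 : ev2 [[1], [1, -1]] c v = r := by
      simp only [ev2_cons, ev2_nil, ev_cons, ev_nil]; push_cast; rw [hr]; ring
    rwa [e3] at e2
  | (n + 3), h, hrel =>
    have hr : c * r = c + v * (1 - c) ∧ 0 < c := hrel
    simp only [chkK, Bool.and_eq_true] at h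
    have e1 := ev_psum2 h.1 c v
    have e2 := mul_nonneg hD (key _ h.2)
    rw [e1] at e2
    have e3 : ev2 [[0, 1], [1, -1]] c v = c * r := by
      simp only [ev2_cons, ev2_nil, ev_cons, ev_nil]; push_cast; rw [hr.1]; ring
    have e4 := mul_nonneg hr.2.le e2
    rw [ev_compH _ _ e3] at e4
    exact nonneg_of_mul_nonneg_right e4 (pow_pos hr.2 _)

theorem chk1_sound {n : ℕ} {P : List ℤ} {u w d : ℤ} (h : chk1 n P u w d = true) (hd : 0 < d)
    (huw : u < w) {x : ℝ} (h0 : (u:ℝ) ≤ d * x) (h1 : d * x ≤ w) : 0 ≤ ev P x := by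
  have key : ∀ (Q : List ℤ) (u w d : ℤ), chk [Q] u w d 0 1 1 = true → 0 < d → u < w →
      (u:ℝ) ≤ d * x → d * x ≤ w → 0 ≤ ev Q x := by
    intro Q u w d hQ hd huw h0 h1
    have := chk_sound hQ hd (by norm_num) huw (by norm_num) (x := x) (y := 0) h0 h1 (by simp) (by simp)
    simpa using this
  induction n generalizing u w d with
  | zero => exact key P u w d h hd huw h0 h1
  | succ n ih =>
    simp only [chk1, Bool.or_eq_true, Bool.and_eq_true] at h
    rcases h with h | ⟨ha, hb⟩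
    · exact key P u w d h hd huw h0 h1
    · rcases le_total (2 * (d:ℝ) * x) (u + w) with hh | hh
      · exact ih ha (by linarith) (by linarith) (by push_cast; linarith) (by push_cast; linarith)
      · exact ih hb (by linarith) (by linarith) (by push_cast; linarith) (by push_cast; linarith)

end Crest.Agent.R230.SD
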