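import Crest.Agent.R230.SDDens

/-!
# Row 230: lower bounds of the swept mass for `SDL 2`, `SDL 3`
-/

set_option autoImplicit false
set_option maxHeartbeats 1000000
set_option linter.unusedVariables false

open MeasureTheory Set Filter Topology Real

namespace Crest.Agent.R230.SD

theorem int_sqrt {α : ℝ} (h0 : 0 ≤ α) (h1 : α ≤ π / 2) :
    ∫ s in (0 : ℝ)..sin α, √(1 - s ^ 2) = (α + sin α * cos α) / 2 := by
  have hg : Continuous fun s : ℝ => √(1 - s ^ 2) := by fun_prop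
  have h := intervalIntegral.integral_comp_mul_deriv (a := 0) (b := α) (f := sin) (f' := cos)
    (fun x _ => Real.hasDerivAt_sin x) Real.continuous_cos.continuousOn hg
  rw [Real.sin_zero] at h
  rw [← h]
  have e : ∀ x ∈ uIcc 0 α, ((fun s : ℝ => √(1 - s ^ 2)) ∘ sin) x * cos x = cos x ^ 2 := by
    intro x hx
    rw [uIcc_of_le h0] at hx
    have hc : 0 ≤ cos x :=
      Real.cos_nonneg_of_mem_Icc ⟨by linarith [hx.1, Real.pi_pos], by linarith [hx.2]⟩
    simp only [Function.comp]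
    rw [← Real.abs_cos_eq_sqrt_one_sub_sin_sq, abs_of_nonneg hc]; ring
  rw [intervalIntegral.integral_congr e, integral_cos_sq]
  simp only [Real.sin_zero, mul_zero, sub_zero]
  ring

/-- the gap between the tangent line and the circle -/
theorem gap {c σ s R : ℝ} (hc : 0 < c) (hcs : σ ^ 2 + c ^ 2 = 1) (hs : s ^ 2 ≤ 1)
    (h0 : 0 ≤ 1 - s * σ) (hR : (1 - s * σ) / c ≤ R) (hR0 : 0 < R) :
    (σ - s) ^ 2 / (2 * R * c ^ 2) ≤ (1 - s * σ) / c - √(1 - s ^ 2) := by
  set q := √(1 - s ^ 2) with hq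
  have hq0 : 0 ≤ q := Real.sqrt_nonneg _
  have hq2 : q ^ 2 = 1 - s ^ 2 := Real.sq_sqrt (by linarith)
  set l := (1 - s * σ) / c with hl
  have hl0 : 0 ≤ l := by positivity
  have hlc : l * c = 1 - s * σ := by rw [hl]; field_simp
  have e : (σ - s) ^ 2 = c ^ 2 * (l ^ 2 - q ^ 2) := by
    have : c ^ 2 * (l ^ 2 - q ^ 2) = (l * c) ^ 2 - q ^ 2 * c ^ 2 := by ring
    rw [this, hlc, hq2, show c ^ 2 = 1 - σ ^ 2 by linarith]
    ring
  have hlq : q ≤ l := by
    have : q ^ 2 ≤ l ^ 2 := by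
      have h3 : 0 ≤ c ^ 2 * (l ^ 2 - q ^ 2) := by rw [← e]; positivity
      have := nonneg_of_mul_nonneg_right h3 (by positivity)
      linarith
    exact (abs_le_abs_of_nonneg hq0 (sq_le_sq₀ hq0 hl0 |>.1 this)) |> fun h => by
      rwa [abs_of_nonneg hq0, abs_of_nonneg hl0] at h
  rw [div_le_iff₀ (by positivity), e]
  have h4 : l + q ≤ 2 * R := by linarith
  have h5 : 0 ≤ c ^ 2 * (l - q) := mul_nonneg (by positivity) (by linarith)
  have h6 := mul_le_mul_of_nonneg_left h4 h5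
  linarith

/-- the right angle `al` is at most `π/2` -/
theorem al_mem {r : ℝ → ℝ} (hr : SP r) {t : ℝ} (ht : t ∈ Ico (0 : ℝ) 1) :
    0 ≤ al r t ∧ al r t ≤ π / 2 := by
  have ht' : t ∈ Icc (0 : ℝ) 1 := ⟨ht.1, ht.2.le⟩
  have h0 := hr.pos t
  have hx := xx_pos hr ht'
  have h1 : 0 ≤ al r t := by
    unfold al
    have : 0 ≤ arctan (t / r t) := Real.arctan_nonneg.2 (div_nonneg ht.1 h0.le)
    have : 0 ≤ arctan (xx r t) := Real.arctan_nonneg.2 hx.le
    positivity
  refine ⟨h1, ?_⟩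
  by_contra h
  push Not at h
  have h2 : al r t ≤ π + π / 2 := by
    unfold al
    have := Real.arctan_lt_pi_div_two (t / r t)
    have := Real.arctan_lt_pi_div_two (xx r t)
    have := Real.pi_pos
    linarith
  have := Real.cos_nonpos_of_pi_div_two_le_of_le h.le h2
  linarith [cos_al_pos hr ht]

/-- the left tangent from the boundary point, below the profile (`r t ≤ 1`) -/
theorem chord {r : ℝ → ℝ} (hr : SP r) {t : ℝ} (ht : t ∈ Icc (0 : ℝ) 1) (hr1 : r t ≤ 1) :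
    ∃ b cb : ℝ, 0 ≤ b ∧ 0 < cb ∧ b ^ 2 + cb ^ 2 = 1 ∧ t - b = xx r t * cb ∧ b ≤ t ∧
      cb = (r t + t * xx r t) / (1 + xx r t ^ 2) ∧
      ∀ s ∈ Icc b t, (1 - s * b) / cb ≤ r s := by
  have h0 := hr.pos t
  have hx := xx_pos hr ht
  have hx2 := xx_sq hr ht
  have hp : 0 < 1 + xx r t ^ 2 := by positivity
  have ht0 := ht.1
  have hb0 : 0 ≤ (t - r t * xx r t) / (1 + xx r t ^ 2) := by
    apply div_nonneg _ hp.le
    have h1 : (r t * xx r t) ^ 2 ≤ t ^ 2 := by
      rw [mul_pow, hx2]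
      have : t ^ 2 - r t ^ 2 * (r t ^ 2 + t ^ 2 - 1) = (1 - r t ^ 2) * (t ^ 2 + r t ^ 2) := by ring
      have h2 : 0 ≤ 1 - r t ^ 2 := by nlinarith
      nlinarith [mul_nonneg h2 (by positivity : 0 ≤ t ^ 2 + r t ^ 2)]
    have := abs_le_of_sq_le_sq' h1 ht0
    linarith [this.2]
  have hcb : 0 < (r t + t * xx r t) / (1 + xx r t ^ 2) := by positivity
  have hbc : ((t - r t * xx r t) / (1 + xx r t ^ 2)) ^ 2 +
      ((r t + t * xx r t) / (1 + xx r t ^ 2)) ^ 2 = 1 := by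
    rw [div_pow, div_pow, ← add_div, div_eq_one_iff_eq (by positivity)]
    have : (t - r t * xx r t) ^ 2 + (r t + t * xx r t) ^ 2 = (r t ^ 2 + t ^ 2) * (1 + xx r t ^ 2) := by
      ring
    rw [this, show r t ^ 2 + t ^ 2 = 1 + xx r t ^ 2 by linarith]; ring
  have htb : t - (t - r t * xx r t) / (1 + xx r t ^ 2) =
      xx r t * ((r t + t * xx r t) / (1 + xx r t ^ 2)) := by
    field_simp; ring
  have hrb : r t * ((r t + t * xx r t) / (1 + xx r t ^ 2)) =
      1 - t * ((t - r t * xx r t) / (1 + xx r t ^ 2)) := by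
    have : r t * (r t + t * xx r t) + t * (t - r t * xx r t) = 1 + xx r t ^ 2 := by
      rw [hx2]; ring
    field_simp
    linarith
  generalize (t - r t * xx r t) / (1 + xx r t ^ 2) = b at *
  generalize hcbeq : (r t + t * xx r t) / (1 + xx r t ^ 2) = cb at *
  have hbt : b < t := by nlinarith [mul_pos hx hcb]
  refine ⟨b, cb, hb0, hcb, hbc, htb, hbt.le, rfl, ?_⟩
  intro s hs
  have hbm : b ∈ Icc (-1 : ℝ) 1 := ⟨by linarith, by linarith [ht.2]⟩
  have htm : t ∈ Icc (-1 : ℝ) 1 := ⟨by linarith, ht.2⟩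
  have hd : 0 < t - b := by linarith
  have hconc := hr.conc.2 hbm htm
    (show (0 : ℝ) ≤ (t - s) / (t - b) from div_nonneg (by linarith [hs.2]) hd.le)
    (show (0 : ℝ) ≤ (s - b) / (t - b) from div_nonneg (by linarith [hs.1]) hd.le)
    (by rw [← add_div, div_eq_one_iff_eq hd.ne']; ring)
  simp only [smul_eq_mul] at hconc
  have e1 : (t - s) / (t - b) * b + (s - b) / (t - b) * t = s := by
    field_simp; ring
  rw [e1] at hconc
  have hrb2 : cb ≤ r b := by
    have h1 := hr.lt b ⟨hb0, by linarith [ht.2]⟩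
    have h2 : cb ^ 2 < r b ^ 2 := by linarith
    exact (le_abs_self cb).trans (abs_lt_of_sq_lt_sq h2 (hr.pos b).le).le
  refine le_trans ?_ hconc
  have h3 : (t - s) / (t - b) * cb ≤ (t - s) / (t - b) * r b :=
    mul_le_mul_of_nonneg_left hrb2 (div_nonneg (by linarith [hs.2]) hd.le)
  have h4 : (1 - s * b) / cb = (t - s) / (t - b) * cb + (s - b) / (t - b) * r t := by
    have hne : t - b ≠ 0 := hd.ne'
    rw [div_eq_iff hcb.ne']
    have : ((t - s) / (t - b) * cb + (s - b) / (t - b) * r t) * cb =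
        ((t - s) * cb ^ 2 + (s - b) * (r t * cb)) / (t - b) := by ring
    rw [this, hrb, show cb ^ 2 = 1 - b ^ 2 by linarith, eq_div_iff hne]
    ring
  linarith

/-! ### `n = 3` -/

theorem FT4_eq {r : ℝ → ℝ} (hr : SP r) {t : ℝ} (ht : t ∈ Icc (0 : ℝ) 1) :
    FT PD4 GD4 r t = (∫ s in (0 : ℝ)..t, 3 / 2 * (r s ^ 2 - (1 - s ^ 2))) +
      1 / 2 * xx r t ^ 3 * cos (al r t) := by
  have hrc := hr.cont
  have h1 : ∫ s in (0 : ℝ)..t, 3 / 2 * (r s ^ 2 - (1 - s ^ 2)) =
      (∫ s in (0 : ℝ)..t, 3 / 2 * r s ^ 2) - (3 / 2 * t - 1 / 2 * t ^ 3) := by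
    have e : ∀ s : ℝ, 3 / 2 * (r s ^ 2 - (1 - s ^ 2)) = 3 / 2 * r s ^ 2 - (3 / 2 - 3 / 2 * s ^ 2) := by
      intro s; ring
    simp only [e]
    rw [intervalIntegral.integral_sub]
    · congr 1
      rw [intervalIntegral.integral_sub (by simp) ((by fun_prop : Continuous fun s : ℝ => 3 / 2 * s ^ 2).intervalIntegrable _ _),
        intervalIntegral.integral_const_mul, integral_pow]
      simp
      ring
    · exact (by fun_prop : Continuous fun s : ℝ => 3 / 2 * r s ^ 2).intervalIntegrable _ _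
    · exact (by fun_prop : Continuous fun s : ℝ => 3 / 2 - 3 / 2 * s ^ 2).intervalIntegrable _ _
  rw [h1]
  have hte := t_eq hr ht
  have hcs := Real.sin_sq_add_cos_sq (al r t)
  unfold FT PD4 GD4
  generalize al r t = α at *
  generalize xx r t = x at *
  set σ := sin α
  set c := cos α
  rw [← hte]
  linear_combination (1 / 2 * c * x ^ 3 + 3 / 2 * x * c) * hcs

/-- monotonicity of the integral, `n = 3` -/
theorem FT4_nonneg {r : ℝ → ℝ} (hr : SP r) {t : ℝ} (ht : t ∈ Icc (0 : ℝ) 1) :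
    0 ≤ FT PD4 GD4 r t := by
  rw [FT4_eq hr ht]
  have hc : 0 ≤ cos (al r t) := by
    rcases eq_or_lt_of_le ht.2 with h | h
    · rw [h, al_one hr]; simp
    · exact (cos_al_pos hr ⟨ht.1, h⟩).le
  have hx := (xx_pos hr ht).le
  have h1 : 0 ≤ ∫ s in (0 : ℝ)..t, 3 / 2 * (r s ^ 2 - (1 - s ^ 2)) := by
    apply intervalIntegral.integral_nonneg ht.1
    intro s hs
    have := hr.lt s ⟨hs.1, hs.2.trans ht.2⟩
    linarith
  positivity

theorem FT4_A {r : ℝ → ℝ} (hr : SP r) {t : ℝ} (ht : t ∈ Ico (0 : ℝ) 1) (hr1 : r t ≤ 1) :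
    xx r t ^ 3 * r t / (1 + xx r t ^ 2) ≤ FT PD4 GD4 r t := by
  have ht' : t ∈ Icc (0 : ℝ) 1 := ⟨ht.1, ht.2.le⟩
  rw [FT4_eq hr ht']
  obtain ⟨b, cb, hb0, hcb, hbc, htb, hbt, hcbe, hl⟩ := chord hr ht' hr1
  have hrc := hr.cont
  have hf : Continuous fun s : ℝ => 3 / 2 * (r s ^ 2 - (1 - s ^ 2)) := by fun_prop
  rw [← intervalIntegral.integral_add_adjacent_intervals (hf.intervalIntegrable 0 b)
    (hf.intervalIntegrable b t)]
  have h1 : 0 ≤ ∫ s in (0 : ℝ)..b, 3 / 2 * (r s ^ 2 - (1 - s ^ 2)) := by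
    apply intervalIntegral.integral_nonneg hb0
    intro s hs
    have := hr.lt s ⟨hs.1, by linarith [hs.2, ht.2]⟩
    linarith
  have h2 : ∫ s in b..t, 3 / 2 * ((s - b) ^ 2 / cb ^ 2) ≤
      ∫ s in b..t, 3 / 2 * (r s ^ 2 - (1 - s ^ 2)) := by
    apply intervalIntegral.integral_mono_on hbt
    · exact (by fun_prop : Continuous fun s : ℝ => 3 / 2 * ((s - b) ^ 2 / cb ^ 2)).intervalIntegrable _ _
    · exact hf.intervalIntegrable _ _
    · intro s hs
      have h3 := hl s hs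
      have h4 : 0 ≤ (1 - s * b) / cb := by
        apply div_nonneg _ hcb.le
        nlinarith [hs.1, hs.2, ht.2]
      have h5 : ((1 - s * b) / cb) ^ 2 ≤ r s ^ 2 := by gcongr
      have h6 : ((1 - s * b) / cb) ^ 2 - (1 - s ^ 2) = (s - b) ^ 2 / cb ^ 2 := by
        rw [div_pow, eq_div_iff (by positivity), sub_mul, div_mul_cancel₀ _ (by positivity),
          show cb ^ 2 = 1 - b ^ 2 by linarith]
        ring
      linarith
  have h3 : ∫ s in b..t, 3 / 2 * ((s - b) ^ 2 / cb ^ 2) = 1 / 2 * xx r t ^ 3 * cb := by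
    have : ∀ s : ℝ, 3 / 2 * ((s - b) ^ 2 / cb ^ 2) = (3 / 2 / cb ^ 2) * (s - b) ^ 2 := by
      intro s; ring
    simp only [this]
    rw [intervalIntegral.integral_const_mul,
      intervalIntegral.integral_comp_sub_right (fun s => s ^ 2) b, integral_pow, htb]
    simp
    field_simp
    ring
  have h4 : 1 / 2 * xx r t ^ 3 * cb + 1 / 2 * xx r t ^ 3 * cos (al r t) =
      xx r t ^ 3 * r t / (1 + xx r t ^ 2) := by
    rw [cos_al hr ht', hcbe]
    field_simp
    ring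
  linarith

theorem FT4_B {r : ℝ → ℝ} (hr : SP r) {t : ℝ} (ht : t ∈ Icc (0 : ℝ) 1) (hr1 : 1 ≤ r t) :
    3 / 2 * t * (r t ^ 2 - 1) + 1 / 2 * t ^ 3 + 1 / 2 * xx r t ^ 3 * cos (al r t) ≤
      FT PD4 GD4 r t := by
  rw [FT4_eq hr ht]
  have hrc := hr.cont
  have h2 : ∫ s in (0 : ℝ)..t, (3 / 2 * (r t ^ 2 - 1) + 3 / 2 * s ^ 2) ≤
      ∫ s in (0 : ℝ)..t, 3 / 2 * (r s ^ 2 - (1 - s ^ 2)) := by
    apply intervalIntegral.integral_mono_on ht.1
    · exact (by fun_prop : Continuous fun s : ℝ =>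
        (3 / 2 * (r t ^ 2 - 1) + 3 / 2 * s ^ 2)).intervalIntegrable _ _
    · exact (by fun_prop : Continuous fun s : ℝ =>
        3 / 2 * (r s ^ 2 - (1 - s ^ 2))).intervalIntegrable _ _
    · intro s hs
      have h3 := hr.anti ⟨hs.1, hs.2.trans ht.2⟩ ht hs.2
      have h4 : r t ^ 2 ≤ r s ^ 2 := by
        have := hr.pos t
        gcongr
      linarith
  have h3 : ∫ s in (0 : ℝ)..t, (3 / 2 * (r t ^ 2 - 1) + 3 / 2 * s ^ 2) =
      3 / 2 * t * (r t ^ 2 - 1) + 1 / 2 * t ^ 3 := by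
    rw [intervalIntegral.integral_add (by simp) ((by fun_prop : Continuous fun s : ℝ => 3 / 2 * s ^ 2).intervalIntegrable _ _),
      intervalIntegral.integral_const, intervalIntegral.integral_const_mul, integral_pow]
    simp
    ring
  linarith

/-! ### `n = 2` -/

theorem RT_lb {r : ℝ → ℝ} (hr : SP r) {t : ℝ} (ht : t ∈ Ico (0 : ℝ) 1) :
    xx r t ^ 3 * cos (al r t) / (6 * r t) ≤
      GD3 (al r t) (xx r t) + ∫ s in (0 : ℝ)..t, √(1 - s ^ 2) := by
  have ht' : t ∈ Icc (0 : ℝ) 1 := ⟨ht.1, ht.2.le⟩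
  have h0 := hr.pos t
  have hx := xx_pos hr ht'
  have hc := cos_al_pos hr ht
  have hs0 := sin_al_nonneg hr ht'
  have hte := t_eq hr ht'
  have hre := r_eq hr ht'
  have hcs := Real.sin_sq_add_cos_sq (al r t)
  obtain ⟨ha0, ha1⟩ := al_mem hr ht
  have hI := int_sqrt ha0 ha1
  have ht0 := ht.1
  unfold GD3
  generalize al r t = α at *
  generalize xx r t = x at *
  generalize r t = ρ at *
  set σ := sin α with hσ
  set c := cos α with hcd
  have hσ1 : σ ≤ 1 := Real.sin_le_one _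
  have htσ : t ≤ σ := by nlinarith [mul_pos hx hc]
  have hg : Continuous fun s : ℝ => √(1 - s ^ 2) := by fun_prop
  have hsplit := intervalIntegral.integral_add_adjacent_intervals (hg.intervalIntegrable 0 t)
    (hg.intervalIntegrable t σ) (μ := volume)
  have hnn : 0 ≤ ∫ s in t..σ, ((1 - s * σ) / c - √(1 - s ^ 2) - (σ - s) ^ 2 / (2 * ρ * c ^ 2)) := by
    apply intervalIntegral.integral_nonneg htσ
    intro s hs
    have hs1 : s ^ 2 ≤ 1 := by nlinarith [hs.1, hs.2]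
    have h1 : 0 ≤ 1 - s * σ := by nlinarith [hs.1, hs.2]
    have h2 : (1 - s * σ) / c ≤ ρ := by
      rw [div_le_iff₀ hc]
      have : ρ * c = 1 - t * σ := by rw [← hre, ← hte]; nlinarith
      rw [this]
      nlinarith [hs.1]
    have := gap hc hcs hs1 h1 h2 h0
    linarith
  have i1 : ∫ s in t..σ, (1 - s * σ) / c = ((σ - t) - σ * (σ ^ 2 - t ^ 2) / 2) / c := by
    have e : ∀ s : ℝ, (1 - s * σ) / c = (1 / c) * (1 - σ * s) := by intro s; ring
    simp only [e]
    rw [intervalIntegral.integral_const_mul, intervalIntegral.integral_sub (by simp)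
      ((by fun_prop : Continuous fun s : ℝ => σ * s).intervalIntegrable _ _),
      intervalIntegral.integral_const_mul, integral_id]
    simp
    ring
  have i2 : ∫ s in t..σ, (σ - s) ^ 2 / (2 * ρ * c ^ 2) = (σ - t) ^ 3 / (6 * ρ * c ^ 2) := by
    have e : ∀ s : ℝ, (σ - s) ^ 2 / (2 * ρ * c ^ 2) = (1 / (2 * ρ * c ^ 2)) * (σ - s) ^ 2 := by
      intro s; ring
    simp only [e]
    rw [intervalIntegral.integral_const_mul,
      intervalIntegral.integral_comp_sub_left (fun s => s ^ 2) σ, integral_pow]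
    simp
    field_simp
    ring
  rw [intervalIntegral.integral_sub, intervalIntegral.integral_sub, i1, i2] at hnn
  · have e3 : σ - t = x * c := by linarith
    have e4 : ((σ - t) - σ * (σ ^ 2 - t ^ 2) / 2) / c = c ^ 2 * x + 1 / 2 * σ * c * x ^ 2 := by
      rw [div_eq_iff hc.ne']
      have : t = σ - x * c := by linarith
      rw [this]
      linear_combination (-(x * c)) * hcs
    have e5 : (σ - t) ^ 3 / (6 * ρ * c ^ 2) = x ^ 3 * c / (6 * ρ) := by
      rw [e3]; field_simp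
    rw [e4, e5] at hnn
    linarith
  · exact (by fun_prop : Continuous fun s : ℝ => (1 - s * σ) / c).intervalIntegrable _ _
  · exact hg.intervalIntegrable _ _
  · exact (by fun_prop : Continuous fun s : ℝ => (1 - s * σ) / c - √(1 - s ^ 2)).intervalIntegrable _ _
  · exact (by fun_prop : Continuous fun s : ℝ => (σ - s) ^ 2 / (2 * ρ * c ^ 2)).intervalIntegrable _ _

theorem FT3_eq {r : ℝ → ℝ} (hr : SP r) {t : ℝ} :
    FT PD3 GD3 r t = (∫ s in (0 : ℝ)..t, (r s - √(1 - s ^ 2))) +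
      (GD3 (al r t) (xx r t) + ∫ s in (0 : ℝ)..t, √(1 - s ^ 2)) := by
  have hrc := hr.cont
  rw [intervalIntegral.integral_sub (hrc.intervalIntegrable _ _)
    ((by fun_prop : Continuous fun s : ℝ => √(1 - s ^ 2)).intervalIntegrable _ _)]
  unfold FT PD3
  ring

theorem sqrt_lt_r {r : ℝ → ℝ} (hr : SP r) {s : ℝ} (hs : s ∈ Icc (0 : ℝ) 1) : √(1 - s ^ 2) ≤ r s := by
  have := hr.lt s hs
  exact (Real.sqrt_le_left (hr.pos s).le).2 this.le

theorem FT3_A {r : ℝ → ℝ} (hr : SP r) {t : ℝ} (ht : t ∈ Ico (0 : ℝ) 1) (hr1 : r t ≤ 1) :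
    xx r t ^ 3 / 6 * (1 + cos (al r t) / r t) ≤ FT PD3 GD3 r t := by
  have ht' : t ∈ Icc (0 : ℝ) 1 := ⟨ht.1, ht.2.le⟩
  rw [FT3_eq hr]
  have hRT := RT_lb hr ht
  obtain ⟨b, cb, hb0, hcb, hbc, htb, hbt, hcbe, hl⟩ := chord hr ht' hr1
  have hrc := hr.cont
  have hf : Continuous fun s : ℝ => r s - √(1 - s ^ 2) := by fun_prop
  have hsplit := intervalIntegral.integral_add_adjacent_intervals (hf.intervalIntegrable 0 b)
    (hf.intervalIntegrable b t) (μ := volume)
  have h1 : 0 ≤ ∫ s in (0 : ℝ)..b, (r s - √(1 - s ^ 2)) := by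
    apply intervalIntegral.integral_nonneg hb0
    intro s hs
    have := sqrt_lt_r hr (s := s) ⟨hs.1, by linarith [hs.2, ht.2]⟩
    linarith
  have h2 : ∫ s in b..t, (s - b) ^ 2 / (2 * cb * cb ^ 2) ≤ ∫ s in b..t, (r s - √(1 - s ^ 2)) := by
    apply intervalIntegral.integral_mono_on hbt
    · exact (by fun_prop : Continuous fun s : ℝ => (s - b) ^ 2 / (2 * cb * cb ^ 2)).intervalIntegrable _ _
    · exact hf.intervalIntegrable _ _
    · intro s hs
      have h3 := hl s hs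
      have hs1 : s ^ 2 ≤ 1 := by nlinarith [hs.1, hs.2, ht.2]
      have h4 : 0 ≤ 1 - s * b := by nlinarith [hs.1, hs.2, ht.2]
      have h5 : (1 - s * b) / cb ≤ cb := by
        rw [div_le_iff₀ hcb]
        nlinarith [hs.1]
      have := gap hcb hbc hs1 h4 h5 hcb
      have e : (b - s) ^ 2 = (s - b) ^ 2 := by ring
      rw [e] at this
      linarith
  have h3 : ∫ s in b..t, (s - b) ^ 2 / (2 * cb * cb ^ 2) = xx r t ^ 3 / 6 := by
    have : ∀ s : ℝ, (s - b) ^ 2 / (2 * cb * cb ^ 2) = (1 / (2 * cb * cb ^ 2)) * (s - b) ^ 2 := by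
      intro s; ring
    simp only [this]
    rw [intervalIntegral.integral_const_mul,
      intervalIntegral.integral_comp_sub_right (fun s => s ^ 2) b, integral_pow, htb]
    simp
    field_simp
    ring
  have h4 : xx r t ^ 3 / 6 * (1 + cos (al r t) / r t) =
      xx r t ^ 3 / 6 + xx r t ^ 3 * cos (al r t) / (6 * r t) := by
    have := hr.pos t
    field_simp
  linarith

theorem FT3_B {r : ℝ → ℝ} (hr : SP r) {t : ℝ} (ht : t ∈ Ico (0 : ℝ) 1) (hr1 : 1 ≤ r t) :
    t * (r t - 1) + t ^ 3 / 6 ≤ FT PD3 GD3 r t := by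
  have ht' : t ∈ Icc (0 : ℝ) 1 := ⟨ht.1, ht.2.le⟩
  rw [FT3_eq hr]
  have hRT := RT_lb hr ht
  have h0 := hr.pos t
  have hx := (xx_pos hr ht').le
  have hc := (cos_al_pos hr ht).le
  have hRT0 : 0 ≤ xx r t ^ 3 * cos (al r t) / (6 * r t) := by positivity
  have hrc := hr.cont
  have h2 : ∫ s in (0 : ℝ)..t, ((r t - 1) + s ^ 2 / 2) ≤ ∫ s in (0 : ℝ)..t, (r s - √(1 - s ^ 2)) := by
    apply intervalIntegral.integral_mono_on ht.1
    · exact (by fun_prop : Continuous fun s : ℝ => ((r t - 1) + s ^ 2 / 2)).intervalIntegrable _ _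
    · exact (by fun_prop : Continuous fun s : ℝ => (r s - √(1 - s ^ 2))).intervalIntegrable _ _
    · intro s hs
      have h3 := hr.anti ⟨hs.1, hs.2.trans ht'.2⟩ ht' hs.2
      have h4 : √(1 - s ^ 2) ≤ 1 - s ^ 2 / 2 := by
        apply Real.sqrt_le_iff.2
        constructor
        · nlinarith [hs.1, hs.2, ht.2]
        · nlinarith [sq_nonneg (s ^ 2)]
      linarith
  have h3 : ∫ s in (0 : ℝ)..t, ((r t - 1) + s ^ 2 / 2) = t * (r t - 1) + t ^ 3 / 6 := by
    have e : ∀ s : ℝ, ((r t - 1) + s ^ 2 / 2) = (r t - 1) + (1 / 2) * s ^ 2 := by intro s; ring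
    simp only [e]
    rw [intervalIntegral.integral_add (by simp) ((by fun_prop : Continuous fun s : ℝ => 1 / 2 * s ^ 2).intervalIntegrable _ _),
      intervalIntegral.integral_const, intervalIntegral.integral_const_mul, integral_pow]
    simp
    ring
  linarith

theorem FT3_nonneg {r : ℝ → ℝ} (hr : SP r) {t : ℝ} (ht : t ∈ Icc (0 : ℝ) 1) :
    0 ≤ FT PD3 GD3 r t := by
  rw [FT3_eq hr]
  have hrc := hr.cont
  have h1 : 0 ≤ ∫ s in (0 : ℝ)..t, (r s - √(1 - s ^ 2)) := by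
    apply intervalIntegral.integral_nonneg ht.1
    intro s hs
    have := sqrt_lt_r hr (s := s) ⟨hs.1, hs.2.trans ht.2⟩
    linarith
  have h2 : 0 ≤ GD3 (al r t) (xx r t) + ∫ s in (0 : ℝ)..t, √(1 - s ^ 2) := by
    rcases eq_or_lt_of_le ht.2 with h | h
    · rw [h, al_one hr]
      have hI := int_sqrt (α := π / 2) (by positivity) le_rfl
      rw [Real.sin_pi_div_two, Real.cos_pi_div_two] at hI
      rw [hI]
      unfold GD3
      rw [Real.sin_pi_div_two, Real.cos_pi_div_two]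
      linarith
    · have h0 := hr.pos t
      have hx := (xx_pos hr ht).le
      have hc := (cos_al_pos hr ⟨ht.1, h⟩).le
      have : 0 ≤ xx r t ^ 3 * cos (al r t) / (6 * r t) := by positivity
      linarith [RT_lb hr ⟨ht.1, h⟩]
  linarith

end Crest.Agent.R230.SD
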