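import Mathlib

/-!
# Row 230: polynomial certificates (Bernstein form) for `SDL 2`
-/

set_option autoImplicit false
set_option maxHeartbeats 4000000
set_option linter.unusedVariables false

namespace Crest.Agent.R230.SD

theorem c3a1 {c r : ℝ} (hc0 : 3/4 ≤ c) (hc1 : c < 1) (hr0 : c ≤ r) (hr1 : r ≤ 1) :
    0 ≤ (3183/2500 - 1/1000) * (1 - c ^ 2) - ((1 - c ^ 2) * (3 / 4 * (c + 2 * r) - 9 / 80 * (c ^ 3 + 2 * c ^ 2 * r + 3 * c * r ^ 2 + 4 * r ^ 3)) +
      3 / 40 * (r - c) ^ 2 * (c + 4 * r)) +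
      (3183/2500) ^ 2 / 6 * (1 + c * (2 - r)) * (3 / 2 * (7/20) * (r - c) ^ 2 - 1 / 2 * (7/20) ^ 3 * (1 - c ^ 2)) := by
  have key : ∀ a b p q : ℝ, 0 ≤ a → 0 ≤ b → 0 ≤ p → 0 ≤ q → 0 ≤
      (13561633091/195312500) * b ^ 4 * q ^ 3 + (40684899273/195312500) * b ^ 4 * p * q ^ 2 +
      (40684899273/195312500) * b ^ 4 * p ^ 2 * q + (13561633091/195312500) * b ^ 4 * p ^ 3 +
      (33743716193/156250000) * a * b ^ 3 * q ^ 3 +
      (879416780481/1562500000) * a * b ^ 3 * p * q ^ 2 +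
      (184347561093/390625000) * a * b ^ 3 * p ^ 2 * q +
      (195410625821/1562500000) * a * b ^ 3 * p ^ 3 +
      (3176298243267/12500000000) * a ^ 2 * b ^ 2 * q ^ 3 +
      (882250176339/1562500000) * a ^ 2 * b ^ 2 * p * q ^ 2 +
      (4852839644823/12500000000) * a ^ 2 * b ^ 2 * p ^ 2 * q +
      (529752323289/6250000000) * a ^ 2 * b ^ 2 * p ^ 3 +
      (168650767151/1250000000) * a ^ 3 * b * q ^ 3 +
      (12884310678963/50000000000) * a ^ 3 * b * p * q ^ 2 +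
      (4058636910303/25000000000) * a ^ 3 * b * p ^ 2 * q +
      (2477571012083/50000000000) * a ^ 3 * b * p ^ 3 + (343168455859/12500000000) * a ^ 4 * q ^ 3 +
      (2406432797619/50000000000) * a ^ 4 * p * q ^ 2 +
      (194331884733/5000000000) * a ^ 4 * p ^ 2 * q + (1077164380747/50000000000) * a ^ 4 * p ^ 3 := by
    intro a b p q ha hb hp hq
    positivity
  have h := key (1 - c) (c - 3/4) (1 - r) (r - c) (by linarith) (by linarith) (by linarith) (by linarith)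
  have h2 : 0 < (1 - c) ^ 2 := pow_pos (by linarith) _
  refine nonneg_of_mul_nonneg_right (h.trans_eq ?_) h2
  ring

theorem c3a2 {c r : ℝ} (hc0 : 1/2 ≤ c) (hc1 : c < 1) (hc2 : c ≤ 3/4) (hr0 : c ≤ r) (hr1 : r ≤ 1) :
    0 ≤ (3183/2500 - 1/1000) * (1 - c ^ 2) - ((1 - c ^ 2) * (3 / 4 * (c + 2 * r) - 9 / 80 * (c ^ 3 + 2 * c ^ 2 * r + 3 * c * r ^ 2 + 4 * r ^ 3)) +
      3 / 40 * (r - c) ^ 2 * (c + 4 * r)) +
      (3183/2500) ^ 2 / 6 * (1 + c * (2 - r)) * (3 / 2 * (7/20) * (r - c) ^ 2 - 1 / 2 * (7/20) ^ 3 * (1 - c ^ 2)) := by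
  have key : ∀ a b p q : ℝ, 0 ≤ a → 0 ≤ b → 0 ≤ p → 0 ≤ q → 0 ≤
      (343168455859/12500000000) * b ^ 4 * q ^ 3 + (2406432797619/50000000000) * b ^ 4 * p * q ^ 2 +
      (194331884733/5000000000) * b ^ 4 * p ^ 2 * q + (1077164380747/50000000000) * b ^ 4 * p ^ 3 +
      (529419987681/6250000000) * a * b ^ 3 * q ^ 3 +
      (6367151701989/50000000000) * a * b ^ 3 * p * q ^ 2 +
      (3714638479017/25000000000) * a * b ^ 3 * p ^ 2 * q +
      (6139744033893/50000000000) * a * b ^ 3 * p ^ 3 +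
      (1293295154823/12500000000) * a ^ 2 * b ^ 2 * q ^ 3 +
      (4340264355963/25000000000) * a ^ 2 * b ^ 2 * p * q ^ 2 +
      (2168420998947/6250000000) * a ^ 2 * b ^ 2 * p ^ 2 * q +
      (7612268825871/25000000000) * a ^ 2 * b ^ 2 * p ^ 3 +
      (187248551749/3125000000) * a ^ 3 * b * q ^ 3 +
      (1795201743063/12500000000) * a ^ 3 * b * p * q ^ 2 +
      (2353482970569/6250000000) * a ^ 3 * b * p ^ 2 * q +
      (3859335589471/12500000000) * a ^ 3 * b * p ^ 3 + (43194205419/3125000000) * a ^ 4 * q ^ 3 +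
      (311140270587/6250000000) * a ^ 4 * p * q ^ 2 + (43891899273/312500000) * a ^ 4 * p ^ 2 * q +
      (666454294911/6250000000) * a ^ 4 * p ^ 3 := by
    intro a b p q ha hb hp hq
    positivity
  have h := key (3/4 - c) (c - 1/2) (1 - r) (r - c) (by linarith) (by linarith) (by linarith) (by linarith)
  have h2 : 0 < (1 - c) ^ 2 := pow_pos (by linarith) _
  refine nonneg_of_mul_nonneg_right (h.trans_eq ?_) h2
  ring

theorem c3a3 {c r : ℝ} (hc0 : 0 ≤ c) (hc1 : c < 1) (hc2 : c ≤ 1/2) (hr0 : c ≤ r) (hr1 : r ≤ 1) :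
    0 ≤ (3183/2500 - 1/1000) * (1 - c ^ 2) - ((1 - c ^ 2) * (3 / 4 * (c + 2 * r) - 9 / 80 * (c ^ 3 + 2 * c ^ 2 * r + 3 * c * r ^ 2 + 4 * r ^ 3)) +
      3 / 40 * (r - c) ^ 2 * (c + 4 * r)) +
      (3183/2500) ^ 2 / 6 * (1 + c * (2 - r)) * (3 / 2 * (7/20) * (r - c) ^ 2 - 1 / 2 * (7/20) ^ 3 * (1 - c ^ 2)) := by
  have key : ∀ a b p q : ℝ, 0 ≤ a → 0 ≤ b → 0 ≤ p → 0 ≤ q → 0 ≤
      (43194205419/50000000000) * b ^ 4 * q ^ 3 + (311140270587/100000000000) * b ^ 4 * p * q ^ 2 +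
      (43891899273/5000000000) * b ^ 4 * p ^ 2 * q + (666454294911/100000000000) * b ^ 4 * p ^ 3 +
      (14383336153/5000000000) * a * b ^ 3 * q ^ 3 +
      (1938481503981/100000000000) * a * b ^ 3 * p * q ^ 2 +
      (2913544942191/50000000000) * a * b ^ 3 * p ^ 2 * q +
      (4138115949461/100000000000) * a * b ^ 3 * p ^ 3 +
      (255308315967/50000000000) * a ^ 2 * b ^ 2 * q ^ 3 +
      (2492511640047/50000000000) * a ^ 2 * b ^ 2 * p * q ^ 2 +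
      (6857120870193/50000000000) * a ^ 2 * b ^ 2 * p ^ 2 * q +
      (4433390222913/50000000000) * a ^ 2 * b ^ 2 * p ^ 3 +
      (9782168451/2500000000) * a ^ 3 * b * q ^ 3 +
      (1201784148621/25000000000) * a ^ 3 * b * p * q ^ 2 +
      (96337883091/781250000) * a ^ 3 * b * p ^ 2 * q +
      (1827217964001/25000000000) * a ^ 3 * b * p ^ 3 + (11649802291/12500000000) * a ^ 4 * q ^ 3 +
      (188213068473/12500000000) * a ^ 4 * p * q ^ 2 +
      (459844899273/12500000000) * a ^ 4 * p ^ 2 * q + (253281633091/12500000000) * a ^ 4 * p ^ 3 := by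
    intro a b p q ha hb hp hq
    positivity
  have h := key (1/2 - c) c (1 - r) (r - c) (by linarith) (by linarith) (by linarith) (by linarith)
  have h2 : 0 < (1 - c) ^ 2 := pow_pos (by linarith) _
  refine nonneg_of_mul_nonneg_right (h.trans_eq ?_) h2
  ring

theorem c3b1 {c r : ℝ} (hc0 : 0 ≤ c) (hc1 : c ≤ 1/3) (hr0 : 1 ≤ r) (hr1 : r ≤ 3) :
    0 ≤ (3183/2500 - 1/1000) * (1 - c ^ 2) - ((1 - c ^ 2) * (3 / 4 * (c + 2 * r) - 9 / 80 * (c ^ 3 + 2 * c ^ 2 * r + 3 * c * r ^ 2 + 4 * r ^ 3)) +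
      3 / 40 * (r - c) ^ 2 * (c + 4 * r)) +
      (3183/2500) ^ 2 * ((r - 1) * ((1 - r * c) * (1 + c ^ 2 / 2)) * (1 - c ^ 2) +
      (3 / 2 * (3/5) * (1 - r * c) ^ 2 - 1 / 2 * (3/5) ^ 3 * (1 - c ^ 2)) / 6) := by
  have key : ∀ a b p q : ℝ, 0 ≤ a → 0 ≤ b → 0 ≤ p → 0 ≤ q → 0 ≤
      (51704722791/12500000000) * b ^ 5 * q ^ 3 + (588746331873/12500000000) * b ^ 5 * p * q ^ 2 +
      (1705815995373/12500000000) * b ^ 5 * p ^ 2 * q +
      (1624399386291/12500000000) * b ^ 5 * p ^ 3 + (21121309953/1250000000) * a * b ^ 4 * q ^ 3 +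
      (67625446131/312500000) * a * b ^ 4 * p * q ^ 2 +
      (780957390789/1250000000) * a * b ^ 4 * p ^ 2 * q +
      (379694708109/625000000) * a * b ^ 4 * p ^ 3 +
      (20817767421/781250000) * a ^ 2 * b ^ 3 * q ^ 3 +
      (1235018685627/3125000000) * a ^ 2 * b ^ 3 * p * q ^ 2 +
      (6996225871629/6250000000) * a ^ 2 * b ^ 3 * p ^ 2 * q +
      (6894918139743/6250000000) * a ^ 2 * b ^ 3 * p ^ 3 +
      (127674795969/6250000000) * a ^ 3 * b ^ 2 * q ^ 3 +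
      (562547040633/1562500000) * a ^ 3 * b ^ 2 * p * q ^ 2 +
      (3057821596791/3125000000) * a ^ 3 * b ^ 2 * p ^ 2 * q +
      (6043442327019/6250000000) * a ^ 3 * b ^ 2 * p ^ 3 +
      (96720444333/12500000000) * a ^ 4 * b * q ^ 3 +
      (2043996089949/12500000000) * a ^ 4 * b * p * q ^ 2 +
      (5171853153249/12500000000) * a ^ 4 * b * p ^ 2 * q +
      (5047077507633/12500000000) * a ^ 4 * b * p ^ 3 + (7385486571/6250000000) * a ^ 5 * q ^ 3 +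
      (184714261263/6250000000) * a ^ 5 * p * q ^ 2 +
      (209716185519/3125000000) * a ^ 5 * p ^ 2 * q + (196989298173/3125000000) * a ^ 5 * p ^ 3 := by
    intro a b p q ha hb hp hq
    positivity
  have h := key c (1/3 - c) (r - 1) (3 - r) (by linarith) (by linarith) (by linarith) (by linarith)
  refine h.trans_eq ?_
  ring

theorem c3b2 {c r : ℝ} (hc0 : 1/3 ≤ c) (hc1 : c < 1) (hr0 : 1 ≤ r) (hr1 : r * c ≤ 1) :
    0 ≤ (3183/2500 - 1/1000) * (1 - c ^ 2) - ((1 - c ^ 2) * (3 / 4 * (c + 2 * r) - 9 / 80 * (c ^ 3 + 2 * c ^ 2 * r + 3 * c * r ^ 2 + 4 * r ^ 3)) +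
      3 / 40 * (r - c) ^ 2 * (c + 4 * r)) +
      (3183/2500) ^ 2 * ((r - 1) * ((1 - r * c) * (1 + c ^ 2 / 2)) * (1 - c ^ 2) +
      (3 / 2 * (3/5) * (1 - r * c) ^ 2 - 1 / 2 * (3/5) ^ 3 * (1 - c ^ 2)) / 6) := by
  have key : ∀ a b p q : ℝ, 0 ≤ a → 0 ≤ b → 0 ≤ p → 0 ≤ q → 0 ≤
      (7385486571/200000000000) * b ^ 7 * q ^ 3 + (184714261263/200000000000) * b ^ 7 * p * q ^ 2 +
      (209716185519/100000000000) * b ^ 7 * p ^ 2 * q +
      (196989298173/100000000000) * b ^ 7 * p ^ 3 + (80531233371/200000000000) * a * b ^ 6 * q ^ 3 +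
      (1901472775713/200000000000) * a * b ^ 6 * p * q ^ 2 +
      (3486215093013/200000000000) * a * b ^ 6 * p ^ 2 * q +
      (2120898550671/200000000000) * a * b ^ 6 * p ^ 3 +
      (13628498751/8000000000) * a ^ 2 * b ^ 5 * q ^ 3 +
      (305807654907/8000000000) * a ^ 2 * b ^ 5 * p * q ^ 2 +
      (227854347597/4000000000) * a ^ 2 * b ^ 5 * p ^ 2 * q +
      (81764769519/4000000000) * a ^ 2 * b ^ 5 * p ^ 3 +
      (746939911239/200000000000) * a ^ 3 * b ^ 4 * q ^ 3 +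
      (15356788862517/200000000000) * a ^ 3 * b ^ 4 * p * q ^ 2 +
      (19249076791917/200000000000) * a ^ 3 * b ^ 4 * p ^ 2 * q +
      (3424227840639/200000000000) * a ^ 3 * b ^ 4 * p ^ 3 +
      (44957074329/8000000000) * a ^ 4 * b ^ 3 * q ^ 3 +
      (669716598069/8000000000) * a ^ 4 * b ^ 3 * p * q ^ 2 +
      (74732596893/800000000) * a ^ 4 * b ^ 3 * p ^ 2 * q +
      (6789144519/800000000) * a ^ 4 * b ^ 3 * p ^ 3 +
      (1615642512417/200000000000) * a ^ 5 * b ^ 2 * q ^ 3 +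
      (10990644729651/200000000000) * a ^ 5 * b ^ 2 * p * q ^ 2 +
      (11736450585351/200000000000) * a ^ 5 * b ^ 2 * p ^ 2 * q +
      (1905823368117/200000000000) * a ^ 5 * b ^ 2 * p ^ 3 +
      (1755190745469/200000000000) * a ^ 6 * b * q ^ 3 +
      (5866287664257/200000000000) * a ^ 6 * b * p * q ^ 2 +
      (3083322689091/100000000000) * a ^ 6 * b * p ^ 2 * q +
      (1027774229697/100000000000) * a ^ 6 * b * p ^ 3 +
      (806601902013/200000000000) * a ^ 7 * q ^ 3 +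
      (2419805706039/200000000000) * a ^ 7 * p * q ^ 2 +
      (2419805706039/200000000000) * a ^ 7 * p ^ 2 * q +
      (806601902013/200000000000) * a ^ 7 * p ^ 3 := by
    intro a b p q ha hb hp hq
    positivity
  have hc : 0 < c := by linarith
  have h := key (c - 1/3) (1 - c) (c * (r - 1)) (1 - r * c) (by linarith) (by linarith)
    (mul_nonneg hc.le (by linarith)) (by linarith)
  have h2 : 0 < c ^ 3 * (1 - c) ^ 2 := mul_pos (by positivity) (pow_pos (by linarith) _)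
  refine nonneg_of_mul_nonneg_right (h.trans_eq ?_) h2
  ring

theorem c3b3 {c r : ℝ} (hc0 : 0 ≤ c) (hc1 : c ≤ 1/3) (hr0 : 3 ≤ r) :
    0 ≤ (3183/2500 - 1/1000) * (1 - c ^ 2) - ((1 - c ^ 2) * (3 / 4 * (c + 2 * r) - 9 / 80 * (c ^ 3 + 2 * c ^ 2 * r + 3 * c * r ^ 2 + 4 * r ^ 3)) +
      3 / 40 * (r - c) ^ 2 * (c + 4 * r)) := by
  have key : ∀ a b p : ℝ, 0 ≤ a → 0 ≤ b → 0 ≤ p → 0 ≤
      (998973/5000) * b ^ 5 + (3133971/2000) * a * b ^ 4 + (10087929/2500) * a ^ 2 * b ^ 3 +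
      (23406489/5000) * a ^ 3 * b ^ 2 + (3155031/1250) * a ^ 4 * b + (319122/625) * a ^ 5 +
      (12393/20) * b ^ 5 * p + (140697/40) * a * b ^ 4 * p + (303507/40) * a ^ 2 * b ^ 3 * p +
      (31347/4) * a ^ 3 * b ^ 2 * p + (15525/4) * a ^ 4 * b * p + (3672/5) * a ^ 5 * p +
      (6561/20) * b ^ 5 * p ^ 2 + (136809/80) * a * b ^ 4 * p ^ 2 +
      (17253/5) * a ^ 2 * b ^ 3 * p ^ 2 + (269487/80) * a ^ 3 * b ^ 2 * p ^ 2 +
      (63423/40) * a ^ 4 * b * p ^ 2 + (11421/40) * a ^ 5 * p ^ 2 + (729/20) * b ^ 5 * p ^ 3 +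
      (729/4) * a * b ^ 4 * p ^ 3 + (7047/20) * a ^ 2 * b ^ 3 * p ^ 3 +
      (6561/20) * a ^ 3 * b ^ 2 * p ^ 3 + (729/5) * a ^ 4 * b * p ^ 3 + (243/10) * a ^ 5 * p ^ 3 := by
    intro a b p ha hb hp
    positivity
  have h := key c (1/3 - c) (r - 3) hc0 (by linarith) (by linarith)
  refine h.trans_eq ?_
  ring

end Crest.Agent.R230.SD
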