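import Mathlib

/-!
# Row 230: the tangent foliation (core of the lemmas `SDL 2`, `SDL 3`)

A point `(t, r)` outside the unit disc is written `(sin α - x cos α, cos α + x sin α)`: `α` is the angle
of its right tangent point and `x` the length of the tangent segment.  `Dens P G m` says that
`dG = m dα - P dt` along every path.
-/

set_option autoImplicit false

open MeasureTheory Set Filter Topology Real

namespace Crest.Agent.R230.SD

/-- a density with primitive `P s ρ`, tangent-triangle function `G α x` and slice mass `m α x`. -/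
structure Dens (P G m : ℝ → ℝ → ℝ) : Prop where
  contP : Continuous (fun q : ℝ × ℝ => P q.1 q.2)
  contG : Continuous (fun q : ℝ × ℝ => G q.1 q.2)
  der : ∀ (a x : ℝ → ℝ) (a' x' u : ℝ) (S : Set ℝ), HasDerivWithinAt a a' S u →
    HasDerivWithinAt x x' S u →
    HasDerivWithinAt (fun v => G (a v) (x v))
      (m (a u) (x u) * a' - P (sin (a u) - x u * cos (a u)) (cos (a u) + x u * sin (a u)) *
        ((cos (a u) + x u * sin (a u)) * a' - cos (a u) * x')) S u

variable {P G m PV GV mV : ℝ → ℝ → ℝ} {H k : ℝ → ℝ} {e0 : ℝ}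

/-- tangent length of the boundary point -/
noncomputable def xx (r : ℝ → ℝ) (t : ℝ) : ℝ := √(r t ^ 2 + t ^ 2 - 1)

/-- angle of the right tangent point of the boundary point -/
noncomputable def al (r : ℝ → ℝ) (t : ℝ) : ℝ := arctan (t / r t) + arctan (xx r t)

/-- swept mass -/
noncomputable def FT (P G : ℝ → ℝ → ℝ) (r : ℝ → ℝ) (t : ℝ) : ℝ :=
  (∫ s in (0 : ℝ)..t, P s (r s)) + G (al r t) (xx r t)

/-- strict profiles -/
structure SP (r : ℝ → ℝ) : Prop where
  cont : Continuous r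
  conc : ConcaveOn ℝ (Icc (-1) 1) r
  anti : AntitoneOn r (Icc 0 1)
  pos : ∀ s, 0 < r s
  lt : ∀ s ∈ Icc (0 : ℝ) 1, 1 - s ^ 2 < r s ^ 2

theorem xx_pos {r : ℝ → ℝ} (hr : SP r) {t : ℝ} (ht : t ∈ Icc (0 : ℝ) 1) : 0 < xx r t :=
  Real.sqrt_pos.2 (by have := hr.lt t ht; linarith)

theorem xx_sq {r : ℝ → ℝ} (hr : SP r) {t : ℝ} (ht : t ∈ Icc (0 : ℝ) 1) :
    xx r t ^ 2 = r t ^ 2 + t ^ 2 - 1 :=
  Real.sq_sqrt (by have := hr.lt t ht; linarith)

theorem sqrt_sum {r : ℝ → ℝ} (hr : SP r) {t : ℝ} (ht : t ∈ Icc (0 : ℝ) 1) :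
    √(1 + (t / r t) ^ 2) = √(1 + xx r t ^ 2) / r t := by
  have h0 := hr.pos t
  rw [xx_sq hr ht]
  have : 1 + (t / r t) ^ 2 = (1 + (r t ^ 2 + t ^ 2 - 1)) / r t ^ 2 := by
    field_simp; ring
  rw [this, Real.sqrt_div' _ (sq_nonneg _), Real.sqrt_sq h0.le]

theorem cos_al {r : ℝ → ℝ} (hr : SP r) {t : ℝ} (ht : t ∈ Icc (0 : ℝ) 1) :
    cos (al r t) = (r t - t * xx r t) / (1 + xx r t ^ 2) := by
  have h0 := hr.pos t
  have hp : 0 < 1 + xx r t ^ 2 := by positivity
  have hs : 0 < √(1 + xx r t ^ 2) := Real.sqrt_pos.2 hp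
  have hq : √(1 + xx r t ^ 2) ^ 2 = 1 + xx r t ^ 2 := Real.sq_sqrt hp.le
  rw [al, Real.cos_add, Real.cos_arctan, Real.cos_arctan, Real.sin_arctan, Real.sin_arctan,
    sqrt_sum hr ht]
  set S := √(1 + xx r t ^ 2) with hS
  rw [← hq]
  field_simp

theorem sin_al {r : ℝ → ℝ} (hr : SP r) {t : ℝ} (ht : t ∈ Icc (0 : ℝ) 1) :
    sin (al r t) = (t + r t * xx r t) / (1 + xx r t ^ 2) := by
  have h0 := hr.pos t
  have hp : 0 < 1 + xx r t ^ 2 := by positivity
  have hs : 0 < √(1 + xx r t ^ 2) := Real.sqrt_pos.2 hp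
  have hq : √(1 + xx r t ^ 2) ^ 2 = 1 + xx r t ^ 2 := Real.sq_sqrt hp.le
  rw [al, Real.sin_add, Real.cos_arctan, Real.cos_arctan, Real.sin_arctan, Real.sin_arctan,
    sqrt_sum hr ht]
  set S := √(1 + xx r t ^ 2) with hS
  rw [← hq]
  field_simp

theorem t_eq {r : ℝ → ℝ} (hr : SP r) {t : ℝ} (ht : t ∈ Icc (0 : ℝ) 1) :
    sin (al r t) - xx r t * cos (al r t) = t := by
  have hp : 0 < 1 + xx r t ^ 2 := by positivity
  rw [sin_al hr ht, cos_al hr ht]
  field_simp
  ring

theorem r_eq {r : ℝ → ℝ} (hr : SP r) {t : ℝ} (ht : t ∈ Icc (0 : ℝ) 1) :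
    cos (al r t) + xx r t * sin (al r t) = r t := by
  have hp : 0 < 1 + xx r t ^ 2 := by positivity
  rw [sin_al hr ht, cos_al hr ht]
  field_simp
  ring

theorem cos_al_pos {r : ℝ → ℝ} (hr : SP r) {t : ℝ} (ht : t ∈ Ico (0 : ℝ) 1) :
    0 < cos (al r t) := by
  have ht' : t ∈ Icc (0 : ℝ) 1 := ⟨ht.1, ht.2.le⟩
  have h0 := hr.pos t
  have hx := xx_pos hr ht'
  have hx2 := xx_sq hr ht'
  rw [cos_al hr ht']
  apply div_pos _ (by positivity)
  have h1 : (t * xx r t) ^ 2 < r t ^ 2 := by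
    have : r t ^ 2 - (t * xx r t) ^ 2 = (1 - t ^ 2) * (r t ^ 2 + t ^ 2) := by
      rw [mul_pow, hx2]; ring
    have h2 : 0 < 1 - t ^ 2 := by nlinarith [ht.1, ht.2]
    nlinarith [mul_pos h2 (by positivity : 0 < r t ^ 2 + t ^ 2)]
  have := lt_of_le_of_lt (le_abs_self _) (abs_lt_of_sq_lt_sq h1 h0.le)
  linarith

theorem sin_al_nonneg {r : ℝ → ℝ} (hr : SP r) {t : ℝ} (ht : t ∈ Icc (0 : ℝ) 1) :
    0 ≤ sin (al r t) := by
  rw [sin_al hr ht]
  have := hr.pos t
  have := (xx_pos hr ht).le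
  have := ht.1
  positivity

theorem al_one {r : ℝ → ℝ} (hr : SP r) : al r 1 = π / 2 := by
  have h0 := hr.pos 1
  have hx : xx r 1 = r 1 := by
    rw [xx, show r 1 ^ 2 + 1 ^ 2 - 1 = r 1 ^ 2 by ring, Real.sqrt_sq h0.le]
  rw [al, hx, one_div, Real.arctan_inv_of_pos h0]
  ring

theorem continuousOn_xx {r : ℝ → ℝ} (hr : SP r) : ContinuousOn (xx r) (Icc 0 1) :=
  (Continuous.sqrt (by have := hr.cont; fun_prop)).continuousOn

theorem continuous_al {r : ℝ → ℝ} (hr : SP r) : Continuous (al r) := by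
  have := hr.cont
  have h0 : ∀ t, r t ≠ 0 := fun t => (hr.pos t).ne'
  have hx : Continuous (xx r) := Continuous.sqrt (by fun_prop)
  unfold al
  exact (Real.continuous_arctan.comp (continuous_id.div this h0)).add
    (Real.continuous_arctan.comp hx)

theorem continuous_FT (hD : Dens P G m) {r : ℝ → ℝ} (hr : SP r) : Continuous (FT P G r) := by
  have hc := hr.cont
  have hx : Continuous (xx r) := Continuous.sqrt (by fun_prop)
  have hP : Continuous fun s => P s (r s) := hD.contP.comp (continuous_id.prodMk hc)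
  have h1 : Continuous fun t => ∫ s in (0 : ℝ)..t, P s (r s) :=
    intervalIntegral.continuous_primitive (fun a b => hP.intervalIntegrable a b) 0
  exact h1.add (hD.contG.comp ((continuous_al hr).prodMk hx))

/-- right derivative of `al` is nonnegative; both derivatives -/
theorem deriv_al {r : ℝ → ℝ} (hr : SP r) {t : ℝ} (ht : t ∈ Ico (0 : ℝ) 1) :
    ∃ a' x' : ℝ, 0 ≤ a' ∧ HasDerivWithinAt (al r) a' (Ici t) t ∧ HasDerivWithinAt (xx r) x' (Ici t) t ∧
      (cos (al r t) + xx r t * sin (al r t)) * a' - cos (al r t) * x' = 1 := by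
  have ht' : t ∈ Icc (0 : ℝ) 1 := ⟨ht.1, ht.2.le⟩
  have h0 := hr.pos t
  have hx := xx_pos hr ht'
  have hx2 := xx_sq hr ht'
  have hint : t ∈ interior (Icc (-1 : ℝ) 1) := by
    rw [interior_Icc]; exact ⟨by linarith [ht.1], ht.2⟩
  -- right derivative of `r`
  have hneg : ConvexOn ℝ (Icc (-1) 1) (-r) := hr.conc.neg
  set d : ℝ := -(derivWithin (-r) (Ioi t) t) with hd
  have hrd : HasDerivWithinAt r d (Ioi t) t := by
    have := (hneg.hasDerivWithinAt_rightDeriv_of_mem_interior hint).neg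
    simpa using this
  have hrd' : HasDerivWithinAt r d (Ici t) t := hrd.Ici_of_Ioi
  -- slope bound
  have hc := cos_al_pos hr ht
  have hs := sin_al_nonneg hr ht'
  have hte := t_eq hr ht'
  have hre := r_eq hr ht'
  set c := cos (al r t) with hcdef
  set σ := sin (al r t) with hσdef
  have hcs : σ ^ 2 + c ^ 2 = 1 := Real.sin_sq_add_cos_sq _
  have hlt : t < σ := by nlinarith [mul_pos hx hc]
  have hσ1 : σ ≤ 1 := Real.sin_le_one _
  have hσmem : σ ∈ Icc (-1 : ℝ) 1 := ⟨by linarith, hσ1⟩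
  have hslope : -d ≤ slope (-r) t σ := by
    rw [hd, neg_neg]
    exact hneg.rightDeriv_le_slope_of_mem_interior hint hσmem hlt
  have hrσ : c ≤ r σ := by
    have h1 := hr.lt σ ⟨by linarith, hσ1⟩
    have h2 : c ^ 2 < r σ ^ 2 := by linarith
    exact (le_abs_self c).trans (abs_lt_of_sq_lt_sq h2 (hr.pos σ).le).le
  have hcd : 0 ≤ c * d + σ := by
    rw [slope_def_field] at hslope
    simp only [Pi.neg_apply] at hslope
    have hpos : 0 < σ - t := by linarith
    have h2 : -d * (σ - t) ≤ -r σ - -r t := by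
      have := (le_div_iff₀ hpos).1 hslope
      linarith
    -- σ - t = x c
    have h3 : σ - t = xx r t * c := by linarith
    have h4 : r t = c + xx r t * σ := by linarith
    rw [h3] at h2
    -- -d x c ≤ r t - r σ ≤ x σ
    have h5 : -(d * c) * xx r t ≤ σ * xx r t := by nlinarith
    have h6 := le_of_mul_le_mul_right h5 hx
    linarith
  have hrt2 : 0 < r t ^ 2 + t ^ 2 - 1 := by rw [← hx2]; positivity
  have hxd : HasDerivWithinAt (xx r) ((r t * d + t) / xx r t) (Ici t) t := by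
    have h1 : HasDerivWithinAt (fun s => r s ^ 2 + s ^ 2 - 1) (2 * r t * d + 2 * t) (Ici t) t := by
      have := ((hrd'.pow 2).add ((hasDerivWithinAt_id t (Ici t)).pow 2)).sub_const 1
      refine HasDerivWithinAt.congr_deriv this ?_
      simp
    have h2 := h1.sqrt hrt2.ne'
    refine HasDerivWithinAt.congr_deriv h2 ?_
    have : √(r t ^ 2 + t ^ 2 - 1) = xx r t := rfl
    rw [this]
    field_simp
  refine ⟨(c * d + σ) / xx r t, (r t * d + t) / xx r t, div_nonneg hcd hx.le, ?_, hxd, ?_⟩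
  · have h1 : HasDerivWithinAt (fun s => s / r s) ((1 * r t - t * d) / r t ^ 2) (Ici t) t :=
      (hasDerivWithinAt_id t (Ici t)).div hrd' h0.ne'
    have h2 := h1.arctan.add hxd.arctan
    refine HasDerivWithinAt.congr_deriv h2 ?_
    have e1 : 1 + (t / r t) ^ 2 = (1 + xx r t ^ 2) / r t ^ 2 := by rw [hx2]; field_simp; ring
    have hcc : c = (r t - t * xx r t) / (1 + xx r t ^ 2) := cos_al hr ht'
    have hss : σ = (t + r t * xx r t) / (1 + xx r t ^ 2) := sin_al hr ht'
    have hp : 0 < 1 + xx r t ^ 2 := by positivity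
    rw [hcc, hss, e1]
    field_simp
    ring
  · have h4 : xx r t = r t * σ - t * c := by
      rw [← hre]; nlinarith
    field_simp
    rw [hre]
    nlinarith

/-- path 2: along the profile -/
theorem path2 (hD : Dens P G m) (hV : Dens PV GV mV) {r : ℝ → ℝ} (hr : SP r)
    (hH : ∀ F, 0 ≤ F → HasDerivAt H (k F) F)
    (hpt : ∀ t ∈ Ico (0 : ℝ) 1, mV (al r t) (xx r t) + e0 * m (al r t) (xx r t) ≤
      k (FT P G r t) * m (al r t) (xx r t))
    (hF : ∀ t ∈ Icc (0 : ℝ) 1, 0 ≤ FT P G r t) :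
    H (FT P G r 0) - FT PV GV r 0 - e0 * FT P G r 0 ≤
      H (FT P G r 1) - FT PV GV r 1 - e0 * FT P G r 1 := by
  have hFc := continuous_FT hD hr
  have hVc := continuous_FT hV hr
  have key : ∀ (P G m : ℝ → ℝ → ℝ), Dens P G m → ∀ t ∈ Ico (0 : ℝ) 1, ∀ a' x' : ℝ,
      HasDerivWithinAt (al r) a' (Ici t) t → HasDerivWithinAt (xx r) x' (Ici t) t →
      (cos (al r t) + xx r t * sin (al r t)) * a' - cos (al r t) * x' = 1 →
      HasDerivWithinAt (FT P G r) (m (al r t) (xx r t) * a') (Ici t) t := by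
    intro P G m hD t ht a' x' ha hx h1
    have ht' : t ∈ Icc (0 : ℝ) 1 := ⟨ht.1, ht.2.le⟩
    have hP : Continuous fun s => P s (r s) := hD.contP.comp (continuous_id.prodMk hr.cont)
    have hI : HasDerivAt (fun t => ∫ s in (0 : ℝ)..t, P s (r s)) (P t (r t)) t :=
      intervalIntegral.integral_hasDerivAt_right (hP.intervalIntegrable _ _)
        (hP.stronglyMeasurableAtFilter _ _) hP.continuousAt
    have hG := hD.der (al r) (xx r) a' x' t (Ici t) ha hx
    rw [t_eq hr ht', h1, r_eq hr ht'] at hG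
    have := hI.hasDerivWithinAt (s := Ici t) |>.add hG
    refine HasDerivWithinAt.congr_deriv this ?_
    ring
  choose! a' x' ha0 ha hx h1 using fun t (ht : t ∈ Ico (0 : ℝ) 1) => deriv_al hr ht
  have hHc : ContinuousOn (fun t => H (FT P G r t)) (Icc 0 1) := by
    intro t ht
    exact ((hH _ (hF t ht)).continuousAt.comp hFc.continuousAt).continuousWithinAt
  set A := H (FT P G r 0) - FT PV GV r 0 - e0 * FT P G r 0 with hA
  have := image_le_of_deriv_right_le_deriv_boundary (f := fun _ => A) (f' := fun _ => 0) (a := 0) (b := 1)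
    continuousOn_const (fun t _ => hasDerivWithinAt_const _ _ _)
    (B := fun t => H (FT P G r t) - FT PV GV r t - e0 * FT P G r t)
    (B' := fun t => k (FT P G r t) * (m (al r t) (xx r t) * a' t) - mV (al r t) (xx r t) * a' t -
      e0 * (m (al r t) (xx r t) * a' t)) le_rfl
    ((hHc.sub hVc.continuousOn).sub (continuousOn_const.mul hFc.continuousOn))
    (fun t ht => by
      have ht' : t ∈ Icc (0 : ℝ) 1 := ⟨ht.1, ht.2.le⟩
      have d1 := key P G m hD t ht _ _ (ha t ht) (hx t ht) (h1 t ht)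
      have d2 := key PV GV mV hV t ht _ _ (ha t ht) (hx t ht) (h1 t ht)
      have d3 : HasDerivWithinAt (fun t => H (FT P G r t))
          (k (FT P G r t) * (m (al r t) (xx r t) * a' t)) (Ici t) t :=
        HasDerivAt.comp_hasDerivWithinAt (h₂ := H) (h := FT P G r) t (hH _ (hF t ht')) d1
      exact (d3.sub d2).sub (d1.const_mul e0))
    (fun t ht => by
      have := hpt t ht
      have h0 := ha0 t ht
      have : 0 ≤ (k (FT P G r t) * m (al r t) (xx r t) - (mV (al r t) (xx r t) +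
        e0 * m (al r t) (xx r t))) * a' t := mul_nonneg (by linarith) h0
      linarith)
    (right_mem_Icc.2 zero_le_one)
  exact this

/-- path 1: along the axis -/
theorem path1 (hD : Dens P G m) (hV : Dens PV GV mV) {X : ℝ} (hX : 0 ≤ X)
    (hH : ∀ F, 0 ≤ F → HasDerivAt H (k F) F)
    (hpt : ∀ x ∈ Ioo (0 : ℝ) X, mV (arctan x) x + e0 * m (arctan x) x ≤
      k (G (arctan x) x) * m (arctan x) x)
    (hF : ∀ x ∈ Icc (0 : ℝ) X, 0 ≤ G (arctan x) x) :
    H (G 0 0) - GV 0 0 - e0 * G 0 0 ≤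
      H (G (arctan X) X) - GV (arctan X) X - e0 * G (arctan X) X := by
  have key : ∀ (P G m : ℝ → ℝ → ℝ), Dens P G m → ∀ x : ℝ,
      HasDerivAt (fun x => G (arctan x) x) (m (arctan x) x * (1 / (1 + x ^ 2))) x := by
    intro P G m hD x
    have h1 := hD.der arctan id (1 / (1 + x ^ 2)) 1 x univ
      (Real.hasDerivAt_arctan x).hasDerivWithinAt (hasDerivWithinAt_id x univ)
    rw [hasDerivWithinAt_univ] at h1
    have hp : 0 < 1 + x ^ 2 := by positivity
    have hs : 0 < √(1 + x ^ 2) := Real.sqrt_pos.2 hp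
    have hq : √(1 + x ^ 2) ^ 2 = 1 + x ^ 2 := Real.sq_sqrt hp.le
    have h2 : (cos (arctan x) + id x * sin (arctan x)) * (1 / (1 + x ^ 2)) - cos (arctan x) * 1 = 0 := by
      rw [Real.cos_arctan, Real.sin_arctan, ← hq]
      simp only [id]
      field_simp
      rw [hq]; ring
    rw [h2, mul_zero, sub_zero] at h1
    exact h1
  have hHd : ∀ x ∈ Icc (0 : ℝ) X, HasDerivAt (fun x => H (G (arctan x) x) - GV (arctan x) x -
      e0 * G (arctan x) x) (k (G (arctan x) x) * (m (arctan x) x * (1 / (1 + x ^ 2))) -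
        mV (arctan x) x * (1 / (1 + x ^ 2)) - e0 * (m (arctan x) x * (1 / (1 + x ^ 2)))) x := by
    intro x hx
    have hc := HasDerivAt.comp (h₂ := H) (h := fun x => G (arctan x) x) x (hH _ (hF x hx))
      (key P G m hD x)
    exact (hc.sub (key PV GV mV hV x)).sub ((key P G m hD x).const_mul e0)
  have hmono : MonotoneOn (fun x => H (G (arctan x) x) - GV (arctan x) x - e0 * G (arctan x) x)
      (Icc 0 X) := by
    apply monotoneOn_of_deriv_nonneg (convex_Icc 0 X)
    · intro x hx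
      exact (hHd x hx).continuousAt.continuousWithinAt
    · intro x hx
      rw [interior_Icc] at hx
      exact (hHd x (Ioo_subset_Icc_self hx)).differentiableAt.differentiableWithinAt
    · intro x hx
      rw [interior_Icc] at hx
      rw [(hHd x (Ioo_subset_Icc_self hx)).deriv]
      have := hpt x hx
      have h0 : 0 ≤ 1 / (1 + x ^ 2) := by positivity
      have : 0 ≤ (k (G (arctan x) x) * m (arctan x) x - (mV (arctan x) x +
        e0 * m (arctan x) x)) * (1 / (1 + x ^ 2)) := mul_nonneg (by linarith) h0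
      linarith
  have := hmono (left_mem_Icc.2 hX) (right_mem_Icc.2 hX) hX
  simpa using this

/-- the two paths together -/
theorem core (hD : Dens P G m) (hV : Dens PV GV mV) {r : ℝ → ℝ} (hr : SP r)
    (hH : ∀ F, 0 ≤ F → HasDerivAt H (k F) F)
    (hpt : ∀ t ∈ Ico (0 : ℝ) 1, mV (al r t) (xx r t) + e0 * m (al r t) (xx r t) ≤
      k (FT P G r t) * m (al r t) (xx r t))
    (hF : ∀ t ∈ Icc (0 : ℝ) 1, 0 ≤ FT P G r t)
    (hpt0 : ∀ x : ℝ, 0 < x → mV (arctan x) x + e0 * m (arctan x) x ≤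
      k (G (arctan x) x) * m (arctan x) x)
    (hF0 : ∀ x : ℝ, 0 ≤ x → 0 ≤ G (arctan x) x)
    (h00 : G 0 0 = 0) (h00' : GV 0 0 = 0) :
    H 0 ≤ H (FT P G r 1) - FT PV GV r 1 - e0 * FT P G r 1 := by
  have h0 : (0 : ℝ) ∈ Icc (0 : ℝ) 1 := ⟨le_rfl, zero_le_one⟩
  have hx0 := xx_pos hr h0
  have e1 : ∀ P G : ℝ → ℝ → ℝ, FT P G r 0 = G (arctan (xx r 0)) (xx r 0) := by
    intro P G
    simp [FT, al]
  have p1 := path1 (e0 := e0) hD hV hx0.le hH (fun x hx => hpt0 x hx.1) (fun x hx => hF0 x hx.1)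
  have p2 := path2 (e0 := e0) hD hV hr hH hpt hF
  rw [e1 P G, e1 PV GV] at p2
  rw [h00, h00'] at p1
  have := p1.trans p2
  simpa using this

end Crest.Agent.R230.SD
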