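import Crest.Agent.R230.SDCore

/-!
# Row 230: the densities for `SDL 2`, `SDL 3`
-/

set_option autoImplicit false
set_option maxHeartbeats 1000000

open MeasureTheory Set Filter Topology Real

namespace Crest.Agent.R230.SD

theorem Dens.smul {P G m : ℝ → ℝ → ℝ} (h : Dens P G m) (C : ℝ) :
    Dens (fun s ρ => C * P s ρ) (fun α x => C * G α x) (fun α x => C * m α x) where
  contP := continuous_const.mul h.contP
  contG := continuous_const.mul h.contG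
  der := by
    intro a x a' x' u S ha hx
    refine HasDerivWithinAt.congr_deriv ((h.der a x a' x' u S ha hx).const_mul C) ?_
    ring

/-- density `D4` -/
noncomputable def PD4 (_s ρ : ℝ) : ℝ := 3 / 2 * ρ ^ 2

/-- tangent triangle function -/
noncomputable def GD4 (α x : ℝ) : ℝ :=
  (1/2 : ℝ) * (sin α ^ 3) + (1/2 : ℝ) * (sin α ^ 2 * cos α * x ^ 3) +
  (3/2 : ℝ) * (sin α * cos α ^ 2 * x ^ 2) + (-3/2 : ℝ) * (sin α) + (3/2 : ℝ) * (cos α ^ 3 * x)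

/-- slice mass -/
noncomputable def mD4 (α x : ℝ) : ℝ :=
  (1 : ℝ) * (sin α * x ^ 3) + (3/2 : ℝ) * (cos α * x ^ 2)

theorem densD4 : Dens PD4 GD4 mD4 where
  contP := by unfold PD4; fun_prop
  contG := by unfold GD4; fun_prop
  der := by
    intro a x a' x' u S ha hx
    have hs := ha.sin
    have hc := ha.cos
    have hcs := Real.sin_sq_add_cos_sq (a u)
    have h1 := ((hs.pow 3).const_mul (1/2 : ℝ))
    have h2 := h1.add ((((hs.pow 2).mul hc).mul (hx.pow 3)).const_mul (1/2 : ℝ))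
    have h3 := h2.add (((hs.mul (hc.pow 2)).mul (hx.pow 2)).const_mul (3/2 : ℝ))
    have h4 := h3.add (hs.const_mul (-3/2 : ℝ))
    have h5 := h4.add (((hc.pow 3).mul hx).const_mul (3/2 : ℝ))
    unfold GD4
    refine HasDerivWithinAt.congr_deriv h5 ?_
    unfold mD4 PD4
    simp only [Pi.mul_apply, Pi.pow_apply]
    push_cast
    linear_combination (a' * (
      (1 : ℝ) * (sin (a u) * x u ^ 3) + (3/2 : ℝ) * (cos (a u) * x u ^ 2) +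
      (3/2 : ℝ) * (cos (a u)))) * hcs

/-- density `V4` -/
noncomputable def PV4 (s ρ : ℝ) : ℝ := ρ ^ 3 / 3 + s ^ 2 * ρ ^ 3 / 6 - ρ ^ 5 / 30

/-- tangent triangle function -/
noncomputable def GV4 (α x : ℝ) : ℝ :=
  (-1/180 : ℝ) * (sin α ^ 5 * cos α * x ^ 6) + (1/24 : ℝ) * (sin α ^ 5 * cos α * x ^ 4) +
  (-1/10 : ℝ) * (sin α ^ 4 * cos α ^ 2 * x ^ 5) + (1/6 : ℝ) * (sin α ^ 4 * cos α ^ 2 * x ^ 3) +
  (1/36 : ℝ) * (sin α ^ 3 * cos α ^ 3 * x ^ 6) + (-1/3 : ℝ) * (sin α ^ 3 * cos α ^ 3 * x ^ 4) +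
  (1/4 : ℝ) * (sin α ^ 3 * cos α ^ 3 * x ^ 2) + (1/12 : ℝ) * (sin α ^ 3 * cos α * x ^ 4) +
  (1/10 : ℝ) * (sin α ^ 2 * cos α ^ 4 * x ^ 5) + (-4/9 : ℝ) * (sin α ^ 2 * cos α ^ 4 * x ^ 3) +
  (1/6 : ℝ) * (sin α ^ 2 * cos α ^ 4 * x) + (1/3 : ℝ) * (sin α ^ 2 * cos α ^ 2 * x ^ 3) +
  (1/8 : ℝ) * (sin α * cos α ^ 5 * x ^ 4) + (-1/4 : ℝ) * (sin α * cos α ^ 5 * x ^ 2) +
  (1/30 : ℝ) * (sin α * cos α ^ 5) + (1/2 : ℝ) * (sin α * cos α ^ 3 * x ^ 2) +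
  (-1/12 : ℝ) * (sin α * cos α ^ 3) + (-1/8 : ℝ) * (sin α * cos α) +
  (1/18 : ℝ) * (cos α ^ 6 * x ^ 3) + (-1/30 : ℝ) * (cos α ^ 6 * x) + (1/3 : ℝ) * (cos α ^ 4 * x) +
  (-1/8 : ℝ) * α

/-- slice mass -/
noncomputable def mV4 (α x : ℝ) : ℝ :=
  (-1/36 : ℝ) * (sin α ^ 4 * x ^ 6) + (1/8 : ℝ) * (sin α ^ 4 * x ^ 4) +
  (-1/3 : ℝ) * (sin α ^ 3 * cos α * x ^ 5) + (1/3 : ℝ) * (sin α ^ 3 * cos α * x ^ 3) +
  (1/12 : ℝ) * (sin α ^ 2 * cos α ^ 2 * x ^ 6) + (-3/4 : ℝ) * (sin α ^ 2 * cos α ^ 2 * x ^ 4) +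
  (1/4 : ℝ) * (sin α ^ 2 * cos α ^ 2 * x ^ 2) + (1/4 : ℝ) * (sin α ^ 2 * x ^ 4) +
  (1/5 : ℝ) * (sin α * cos α ^ 3 * x ^ 5) + (-5/9 : ℝ) * (sin α * cos α ^ 3 * x ^ 3) +
  (2/3 : ℝ) * (sin α * cos α * x ^ 3) + (1/8 : ℝ) * (cos α ^ 4 * x ^ 4) +
  (-1/12 : ℝ) * (cos α ^ 4 * x ^ 2) + (1/2 : ℝ) * (cos α ^ 2 * x ^ 2)

theorem densV4 : Dens PV4 GV4 mV4 where
  contP := by unfold PV4; fun_prop
  contG := by unfold GV4; fun_prop
  der := by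
    intro a x a' x' u S ha hx
    have hs := ha.sin
    have hc := ha.cos
    have hcs := Real.sin_sq_add_cos_sq (a u)
    have h1 := ((((hs.pow 5).mul hc).mul (hx.pow 6)).const_mul (-1/180 : ℝ))
    have h2 := h1.add ((((hs.pow 5).mul hc).mul (hx.pow 4)).const_mul (1/24 : ℝ))
    have h3 := h2.add ((((hs.pow 4).mul (hc.pow 2)).mul (hx.pow 5)).const_mul (-1/10 : ℝ))
    have h4 := h3.add ((((hs.pow 4).mul (hc.pow 2)).mul (hx.pow 3)).const_mul (1/6 : ℝ))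
    have h5 := h4.add ((((hs.pow 3).mul (hc.pow 3)).mul (hx.pow 6)).const_mul (1/36 : ℝ))
    have h6 := h5.add ((((hs.pow 3).mul (hc.pow 3)).mul (hx.pow 4)).const_mul (-1/3 : ℝ))
    have h7 := h6.add ((((hs.pow 3).mul (hc.pow 3)).mul (hx.pow 2)).const_mul (1/4 : ℝ))
    have h8 := h7.add ((((hs.pow 3).mul hc).mul (hx.pow 4)).const_mul (1/12 : ℝ))
    have h9 := h8.add ((((hs.pow 2).mul (hc.pow 4)).mul (hx.pow 5)).const_mul (1/10 : ℝ))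
    have h10 := h9.add ((((hs.pow 2).mul (hc.pow 4)).mul (hx.pow 3)).const_mul (-4/9 : ℝ))
    have h11 := h10.add ((((hs.pow 2).mul (hc.pow 4)).mul hx).const_mul (1/6 : ℝ))
    have h12 := h11.add ((((hs.pow 2).mul (hc.pow 2)).mul (hx.pow 3)).const_mul (1/3 : ℝ))
    have h13 := h12.add (((hs.mul (hc.pow 5)).mul (hx.pow 4)).const_mul (1/8 : ℝ))
    have h14 := h13.add (((hs.mul (hc.pow 5)).mul (hx.pow 2)).const_mul (-1/4 : ℝ))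
    have h15 := h14.add ((hs.mul (hc.pow 5)).const_mul (1/30 : ℝ))
    have h16 := h15.add (((hs.mul (hc.pow 3)).mul (hx.pow 2)).const_mul (1/2 : ℝ))
    have h17 := h16.add ((hs.mul (hc.pow 3)).const_mul (-1/12 : ℝ))
    have h18 := h17.add ((hs.mul hc).const_mul (-1/8 : ℝ))
    have h19 := h18.add (((hc.pow 6).mul (hx.pow 3)).const_mul (1/18 : ℝ))
    have h20 := h19.add (((hc.pow 6).mul hx).const_mul (-1/30 : ℝ))
    have h21 := h20.add (((hc.pow 4).mul hx).const_mul (1/3 : ℝ))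
    have h22 := h21.add (ha.const_mul (-1/8 : ℝ))
    unfold GV4
    refine HasDerivWithinAt.congr_deriv h22 ?_
    unfold mV4 PV4
    simp only [Pi.mul_apply, Pi.pow_apply]
    push_cast
    linear_combination (a' * (
      (-1/36 : ℝ) * (sin (a u) ^ 4 * x u ^ 6) + (1/8 : ℝ) * (sin (a u) ^ 4 * x u ^ 4) +
      (-1/3 : ℝ) * (sin (a u) ^ 3 * cos (a u) * x u ^ 5) +
      (1/3 : ℝ) * (sin (a u) ^ 3 * cos (a u) * x u ^ 3) +
      (1/12 : ℝ) * (sin (a u) ^ 2 * cos (a u) ^ 2 * x u ^ 6) +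
      (-3/4 : ℝ) * (sin (a u) ^ 2 * cos (a u) ^ 2 * x u ^ 4) +
      (1/4 : ℝ) * (sin (a u) ^ 2 * cos (a u) ^ 2 * x u ^ 2) +
      (1/4 : ℝ) * (sin (a u) ^ 2 * x u ^ 4) + (1/5 : ℝ) * (sin (a u) * cos (a u) ^ 3 * x u ^ 5) +
      (-5/9 : ℝ) * (sin (a u) * cos (a u) ^ 3 * x u ^ 3) +
      (2/3 : ℝ) * (sin (a u) * cos (a u) * x u ^ 3) + (1/8 : ℝ) * (cos (a u) ^ 4 * x u ^ 4) +
      (-1/12 : ℝ) * (cos (a u) ^ 4 * x u ^ 2) + (1/2 : ℝ) * (cos (a u) ^ 2 * x u ^ 2) +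
      (1/4 : ℝ) * (cos (a u) ^ 2) + (1/8 : ℝ))) * hcs

/-- density `D3` -/
noncomputable def PD3 (_s ρ : ℝ) : ℝ := ρ

/-- tangent triangle function -/
noncomputable def GD3 (α x : ℝ) : ℝ :=
  (1/2 : ℝ) * (sin α * cos α * x ^ 2) + (-1/2 : ℝ) * (sin α * cos α) + (1 : ℝ) * (cos α ^ 2 * x) +
  (-1/2 : ℝ) * α

/-- slice mass -/
noncomputable def mD3 (α x : ℝ) : ℝ :=
  (1/2 : ℝ) * (x ^ 2)

theorem densD3 : Dens PD3 GD3 mD3 where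
  contP := by unfold PD3; fun_prop
  contG := by unfold GD3; fun_prop
  der := by
    intro a x a' x' u S ha hx
    have hs := ha.sin
    have hc := ha.cos
    have hcs := Real.sin_sq_add_cos_sq (a u)
    have h1 := (((hs.mul hc).mul (hx.pow 2)).const_mul (1/2 : ℝ))
    have h2 := h1.add ((hs.mul hc).const_mul (-1/2 : ℝ))
    have h3 := h2.add (((hc.pow 2).mul hx).const_mul (1 : ℝ))
    have h4 := h3.add (ha.const_mul (-1/2 : ℝ))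
    unfold GD3
    refine HasDerivWithinAt.congr_deriv h4 ?_
    unfold mD3 PD3
    simp only [Pi.mul_apply, Pi.pow_apply]
    push_cast
    linear_combination (a' * (
      (1/2 : ℝ) * (x u ^ 2) + (1/2 : ℝ))) * hcs

/-- density `V3` -/
noncomputable def PV3 (s ρ : ℝ) : ℝ := 3 / 2 * ρ ^ 2 + 3 / 4 * (s ^ 2 * ρ ^ 2) - 3 / 16 * ρ ^ 4

/-- tangent triangle function -/
noncomputable def GV3 (α x : ℝ) : ℝ :=
  (3/16 : ℝ) * (sin α ^ 5) + (-3/80 : ℝ) * (sin α ^ 4 * cos α * x ^ 5) +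
  (1/4 : ℝ) * (sin α ^ 4 * cos α * x ^ 3) + (-9/16 : ℝ) * (sin α ^ 3 * cos α ^ 2 * x ^ 4) +
  (3/4 : ℝ) * (sin α ^ 3 * cos α ^ 2 * x ^ 2) + (1/8 : ℝ) * (sin α ^ 3) +
  (3/20 : ℝ) * (sin α ^ 2 * cos α ^ 3 * x ^ 5) + (-11/8 : ℝ) * (sin α ^ 2 * cos α ^ 3 * x ^ 3) +
  (3/4 : ℝ) * (sin α ^ 2 * cos α ^ 3 * x) + (1/2 : ℝ) * (sin α ^ 2 * cos α * x ^ 3) +
  (3/8 : ℝ) * (sin α * cos α ^ 4 * x ^ 4) + (-9/8 : ℝ) * (sin α * cos α ^ 4 * x ^ 2) +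
  (3/2 : ℝ) * (sin α * cos α ^ 2 * x ^ 2) + (-21/16 : ℝ) * (sin α) +
  (1/4 : ℝ) * (cos α ^ 5 * x ^ 3) + (-3/16 : ℝ) * (cos α ^ 5 * x) + (3/2 : ℝ) * (cos α ^ 3 * x)

/-- slice mass -/
noncomputable def mV3 (α x : ℝ) : ℝ :=
  (-3/20 : ℝ) * (sin α ^ 3 * x ^ 5) + (1/2 : ℝ) * (sin α ^ 3 * x ^ 3) +
  (-21/16 : ℝ) * (sin α ^ 2 * cos α * x ^ 4) + (3/4 : ℝ) * (sin α ^ 2 * cos α * x ^ 2) +
  (3/10 : ℝ) * (sin α * cos α ^ 2 * x ^ 5) + (-7/4 : ℝ) * (sin α * cos α ^ 2 * x ^ 3) +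
  (1 : ℝ) * (sin α * x ^ 3) + (3/8 : ℝ) * (cos α ^ 3 * x ^ 4) + (-3/8 : ℝ) * (cos α ^ 3 * x ^ 2) +
  (3/2 : ℝ) * (cos α * x ^ 2)

theorem densV3 : Dens PV3 GV3 mV3 where
  contP := by unfold PV3; fun_prop
  contG := by unfold GV3; fun_prop
  der := by
    intro a x a' x' u S ha hx
    have hs := ha.sin
    have hc := ha.cos
    have hcs := Real.sin_sq_add_cos_sq (a u)
    have h1 := ((hs.pow 5).const_mul (3/16 : ℝ))
    have h2 := h1.add ((((hs.pow 4).mul hc).mul (hx.pow 5)).const_mul (-3/80 : ℝ))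
    have h3 := h2.add ((((hs.pow 4).mul hc).mul (hx.pow 3)).const_mul (1/4 : ℝ))
    have h4 := h3.add ((((hs.pow 3).mul (hc.pow 2)).mul (hx.pow 4)).const_mul (-9/16 : ℝ))
    have h5 := h4.add ((((hs.pow 3).mul (hc.pow 2)).mul (hx.pow 2)).const_mul (3/4 : ℝ))
    have h6 := h5.add ((hs.pow 3).const_mul (1/8 : ℝ))
    have h7 := h6.add ((((hs.pow 2).mul (hc.pow 3)).mul (hx.pow 5)).const_mul (3/20 : ℝ))
    have h8 := h7.add ((((hs.pow 2).mul (hc.pow 3)).mul (hx.pow 3)).const_mul (-11/8 : ℝ))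
    have h9 := h8.add ((((hs.pow 2).mul (hc.pow 3)).mul hx).const_mul (3/4 : ℝ))
    have h10 := h9.add ((((hs.pow 2).mul hc).mul (hx.pow 3)).const_mul (1/2 : ℝ))
    have h11 := h10.add (((hs.mul (hc.pow 4)).mul (hx.pow 4)).const_mul (3/8 : ℝ))
    have h12 := h11.add (((hs.mul (hc.pow 4)).mul (hx.pow 2)).const_mul (-9/8 : ℝ))
    have h13 := h12.add (((hs.mul (hc.pow 2)).mul (hx.pow 2)).const_mul (3/2 : ℝ))
    have h14 := h13.add (hs.const_mul (-21/16 : ℝ))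
    have h15 := h14.add (((hc.pow 5).mul (hx.pow 3)).const_mul (1/4 : ℝ))
    have h16 := h15.add (((hc.pow 5).mul hx).const_mul (-3/16 : ℝ))
    have h17 := h16.add (((hc.pow 3).mul hx).const_mul (3/2 : ℝ))
    unfold GV3
    refine HasDerivWithinAt.congr_deriv h17 ?_
    unfold mV3 PV3
    simp only [Pi.mul_apply, Pi.pow_apply]
    push_cast
    linear_combination (a' * (
      (-3/20 : ℝ) * (sin (a u) ^ 3 * x u ^ 5) + (1/2 : ℝ) * (sin (a u) ^ 3 * x u ^ 3) +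
      (-21/16 : ℝ) * (sin (a u) ^ 2 * cos (a u) * x u ^ 4) +
      (3/4 : ℝ) * (sin (a u) ^ 2 * cos (a u) * x u ^ 2) +
      (15/16 : ℝ) * (sin (a u) ^ 2 * cos (a u)) +
      (3/10 : ℝ) * (sin (a u) * cos (a u) ^ 2 * x u ^ 5) +
      (-7/4 : ℝ) * (sin (a u) * cos (a u) ^ 2 * x u ^ 3) + (1 : ℝ) * (sin (a u) * x u ^ 3) +
      (3/8 : ℝ) * (cos (a u) ^ 3 * x u ^ 4) + (-3/8 : ℝ) * (cos (a u) ^ 3 * x u ^ 2) +
      (-3/16 : ℝ) * (cos (a u) ^ 3) + (3/2 : ℝ) * (cos (a u) * x u ^ 2) +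
      (21/16 : ℝ) * (cos (a u)))) * hcs

end Crest.Agent.R230.SD
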