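import Crest.Agent.R230.SDPoint
import Crest.Agent.R230.SDBound
import Crest.Agent.R230.DefsE

/-!
# Row 230: the one dimensional inequalities behind `SDL 2`, `SDL 3`
-/

set_option autoImplicit false
set_option maxHeartbeats 1000000
set_option linter.unusedVariables false

open MeasureTheory Set Filter Topology Real

namespace Crest.Agent.R230.SD

theorem GD4_eq (α x : ℝ) : GD4 α x = 1 / 2 * x ^ 3 * cos α - 3 / 2 * (sin α - x * cos α) +
    1 / 2 * (sin α - x * cos α) ^ 3 := by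
  have hcs := Real.sin_sq_add_cos_sq α
  unfold GD4
  set σ := sin α
  set c := cos α
  linear_combination (1 / 2 * c * x ^ 3 + 3 / 2 * x * c) * hcs

theorem pt4 {α x F : ℝ} (hc : 0 < cos α) (hσ : 0 ≤ sin α) (hx : 0 < x)
    (ht : 0 ≤ sin α - x * cos α) (hF0 : 0 ≤ F)
    (hFa : cos α + x * sin α ≤ 1 → x ^ 3 * (cos α + x * sin α) / (1 + x ^ 2) ≤ F)
    (hFb : 1 ≤ cos α + x * sin α → 3 / 2 * (sin α - x * cos α) * ((cos α + x * sin α) ^ 2 - 1) +
      1 / 2 * (sin α - x * cos α) ^ 3 + 1 / 2 * x ^ 3 * cos α ≤ F) :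
    16 / π * mV4 α x + 1 / 500 * mD4 α x ≤ 3 / 2 * √(1 + F) * mD4 α x := by
  have h := pw4 hc hσ (Real.sin_sq_add_cos_sq α) hx ht hF0 hFa hFb
  rw [mV4_eq, mD4_eq]
  have hr0 : 0 ≤ cos α + x * sin α := by positivity
  generalize hr : cos α + x * sin α = r at *
  generalize cos α = c at *
  set E := EV c r (x ^ 2) with hE
  have hpi := Real.pi_gt_d4
  have hpi0 := Real.pi_pos
  have h1 : 16 / π * E + 1 / 1000 * (c + 2 * r) ≤ 3 / 4 * (c + 2 * r) * √(1 + F) := by
    rcases le_total 0 E with hE0 | hE0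
    · have : 16 / π ≤ 12733 / 2500 := by
        rw [div_le_iff₀ hpi0]; linarith
      have := mul_le_mul_of_nonneg_right this hE0
      linarith
    · have h2 : 16 / π * E ≤ 0 := mul_nonpos_of_nonneg_of_nonpos (by positivity) hE0
      have h3 : 1 ≤ √(1 + F) := Real.one_le_sqrt.2 (by linarith)
      have h4 : 0 ≤ c + 2 * r := by positivity
      nlinarith
  have h2 := mul_le_mul_of_nonneg_left h1 (sq_nonneg x)
  linarith

theorem pt3 {α x C : ℝ} (hc : 0 < cos α) (hσ : 0 ≤ sin α) (hx : 0 < x)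
    (ht : 0 ≤ sin α - x * cos α) (hC0 : 0 ≤ C)
    (hCa : cos α + x * sin α ≤ 1 → x ^ 3 / 6 * (1 + cos α / (cos α + x * sin α)) ≤ C)
    (hCb : 1 ≤ cos α + x * sin α → (sin α - x * cos α) * ((cos α + x * sin α) - 1) +
      (sin α - x * cos α) ^ 3 / 6 ≤ C) :
    mV3 α x + 1 / 1000 * (4 / π * mD3 α x) ≤ 2 * (1 + 4 / π * C) * (4 / π * mD3 α x) := by
  have h := pw3 hc hσ (Real.sin_sq_add_cos_sq α) hx ht hC0 hCa hCb
  rw [mV3_eq, mD3_eq]
  generalize hr : cos α + x * sin α = r at *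
  generalize cos α = c at *
  set E := R3 c r (x ^ 2) with hE
  have hpi := Real.pi_lt_d4
  have hpi' := Real.pi_gt_three
  have hpi0 := Real.pi_pos
  have h1 : 3183 / 2500 ≤ 4 / π := by
    rw [le_div_iff₀ hpi0]; linarith
  have h2 : 4 / π ≤ 2 := by
    rw [div_le_iff₀ hpi0]; linarith
  have h3 : (3183 / 2500) ^ 2 * C ≤ (4 / π) ^ 2 * C := by gcongr
  have h4 : E + 1 / 1000 * (1 / 2 * (4 / π)) ≤ (1 + 4 / π * C) * (4 / π) := by
    have : (1 + 4 / π * C) * (4 / π) = 4 / π + (4 / π) ^ 2 * C := by ring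
    rw [this]
    linarith
  have h5 := mul_le_mul_of_nonneg_left h4 (sq_nonneg x)
  linarith

theorem arctan_facts {x : ℝ} (hx : 0 < x) : 0 < cos (arctan x) ∧ 0 ≤ sin (arctan x) ∧
    sin (arctan x) - x * cos (arctan x) = 0 ∧ 1 < cos (arctan x) + x * sin (arctan x) := by
  have hp : 0 < 1 + x ^ 2 := by positivity
  have hs : 0 < √(1 + x ^ 2) := Real.sqrt_pos.2 hp
  have hq : √(1 + x ^ 2) ^ 2 = 1 + x ^ 2 := Real.sq_sqrt hp.le
  have h1 : 0 < cos (arctan x) := Real.cos_arctan_pos x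
  refine ⟨h1, ?_, ?_, ?_⟩
  · rw [Real.sin_arctan]; positivity
  · rw [Real.sin_arctan, Real.cos_arctan]; field_simp; ring
  · rw [Real.sin_arctan, Real.cos_arctan]
    have e : 1 / √(1 + x ^ 2) + x * (x / √(1 + x ^ 2)) = √(1 + x ^ 2) := by
      field_simp
      rw [hq]
    rw [e]
    exact Real.lt_sqrt_of_sq_lt (by nlinarith)

theorem GD3_arctan {x : ℝ} : GD3 (arctan x) x = (x - arctan x) / 2 := by
  have hp : 0 < 1 + x ^ 2 := by positivity
  have hs : 0 < √(1 + x ^ 2) := Real.sqrt_pos.2 hp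
  have hq : √(1 + x ^ 2) ^ 2 = 1 + x ^ 2 := Real.sq_sqrt hp.le
  unfold GD3
  rw [Real.sin_arctan, Real.cos_arctan]
  have e : (1/2 : ℝ) * (x / √(1 + x ^ 2) * (1 / √(1 + x ^ 2)) * x ^ 2) +
      (-1/2 : ℝ) * (x / √(1 + x ^ 2) * (1 / √(1 + x ^ 2))) + (1 : ℝ) * ((1 / √(1 + x ^ 2)) ^ 2 * x) =
      x / 2 * ((x ^ 2 + 1) / √(1 + x ^ 2) ^ 2) := by
    field_simp
    ring
  rw [e, hq, show (x ^ 2 + 1) / (1 + x ^ 2) = 1 by rw [add_comm, div_self hp.ne']]
  ring

/-- the inequality for strict profiles, `n = 3` -/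
theorem core4 {r : ℝ → ℝ} (hr : SP r) :
    (∫ s in (0 : ℝ)..1, 16 / π * PV4 s (r s)) +
      1 / 500 * (∫ s in (0 : ℝ)..1, 3 / 2 * (r s ^ 2 - (1 - s ^ 2))) ≤
    (1 + ∫ s in (0 : ℝ)..1, 3 / 2 * (r s ^ 2 - (1 - s ^ 2))) *
      √(1 + ∫ s in (0 : ℝ)..1, 3 / 2 * (r s ^ 2 - (1 - s ^ 2))) := by
  have h := core (H := fun F => (1 + F) * √(1 + F)) (k := fun F => 3 / 2 * √(1 + F)) (e0 := 1 / 500)
    densD4 (densV4.smul (16 / π)) hr ?_ ?_ (fun t ht => FT4_nonneg hr ht) ?_ ?_ ?_ ?_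
  · have e1 : FT PD4 GD4 r 1 = ∫ s in (0 : ℝ)..1, 3 / 2 * (r s ^ 2 - (1 - s ^ 2)) := by
      rw [FT4_eq hr ⟨zero_le_one, le_rfl⟩, al_one hr]
      simp
    have e2 : FT (fun s ρ => 16 / π * PV4 s ρ) (fun α x => 16 / π * GV4 α x) r 1 =
        (∫ s in (0 : ℝ)..1, 16 / π * PV4 s (r s)) - 1 := by
      unfold FT
      rw [al_one hr]
      have : GV4 (π / 2) (xx r 1) = -(π / 16) := by
        unfold GV4
        rw [Real.sin_pi_div_two, Real.cos_pi_div_two]
        ring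
      have e3 : 16 / π * GV4 (π / 2) (xx r 1) = -1 := by
        rw [this]
        have := Real.pi_pos.ne'
        field_simp
      change (∫ s in (0 : ℝ)..1, 16 / π * PV4 s (r s)) + 16 / π * GV4 (π / 2) (xx r 1) = _
      rw [e3]
      ring
    rw [e1, e2] at h
    simp only [add_zero, Real.sqrt_one, mul_one] at h
    linarith
  · intro F hF
    have h1 : HasDerivAt (fun F : ℝ => 1 + F) 1 F := (hasDerivAt_id F).const_add 1
    have h2 := h1.mul (h1.sqrt (by linarith))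
    refine HasDerivAt.congr_deriv h2 ?_
    have hs : 0 < √(1 + F) := Real.sqrt_pos.2 (by linarith)
    have hq : √(1 + F) ^ 2 = 1 + F := Real.sq_sqrt (by linarith)
    field_simp
    rw [hq]; ring
  · intro t ht
    have ht' : t ∈ Icc (0 : ℝ) 1 := ⟨ht.1, ht.2.le⟩
    have hte := t_eq hr ht'
    have hre := r_eq hr ht'
    refine pt4 (cos_al_pos hr ht) (sin_al_nonneg hr ht') (xx_pos hr ht') (by rw [hte]; exact ht.1)
      (FT4_nonneg hr ht') ?_ ?_
    · rw [hre]
      intro h1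
      exact FT4_A hr ht h1
    · rw [hre, hte]
      intro h1
      exact FT4_B hr ht' h1
  · intro x hx
    obtain ⟨a1, a2, a3, a4⟩ := arctan_facts hx
    have hG : GD4 (arctan x) x = 1 / 2 * x ^ 3 * cos (arctan x) := by
      rw [GD4_eq, a3]; ring
    refine pt4 a1 a2 hx a3.ge ?_ (fun h => absurd h (not_le.2 a4)) ?_
    · rw [hG]; positivity
    · intro _
      rw [hG, a3]
      linarith
  · intro x hx
    rcases eq_or_lt_of_le hx with h | h
    · rw [← h]; unfold GD4; simp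
    · obtain ⟨a1, a2, a3, a4⟩ := arctan_facts h
      rw [GD4_eq, a3]
      have : 0 ≤ 1 / 2 * x ^ 3 * cos (arctan x) := by positivity
      linarith
  · unfold GD4; simp
  · unfold GV4; simp

/-- the inequality for strict profiles, `n = 2` -/
theorem core3 {r : ℝ → ℝ} (hr : SP r) :
    (∫ s in (0 : ℝ)..1, PV3 s (r s)) +
      1 / 1000 * (4 / π * (∫ s in (0 : ℝ)..1, (r s - √(1 - s ^ 2)))) ≤
    (1 + 4 / π * (∫ s in (0 : ℝ)..1, (r s - √(1 - s ^ 2)))) ^ 2 := by
  have hFTs : ∀ t, FT (fun s ρ => 4 / π * PD3 s ρ) (fun α x => 4 / π * GD3 α x) r t =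
      4 / π * FT PD3 GD3 r t := by
    intro t
    unfold FT
    rw [intervalIntegral.integral_const_mul]
    ring
  have h := core (H := fun F => (1 + F) ^ 2) (k := fun F => 2 * (1 + F)) (e0 := 1 / 1000)
    (densD3.smul (4 / π)) densV3 hr ?_ ?_ ?_ ?_ ?_ ?_ ?_
  · rw [hFTs] at h
    have e1 : FT PD3 GD3 r 1 = ∫ s in (0 : ℝ)..1, (r s - √(1 - s ^ 2)) := by
      rw [FT3_eq hr, al_one hr]
      have hI := int_sqrt (α := π / 2) (by positivity) le_rfl
      rw [Real.sin_pi_div_two, Real.cos_pi_div_two] at hI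
      rw [hI]
      unfold GD3
      rw [Real.sin_pi_div_two, Real.cos_pi_div_two]
      ring
    have e2 : FT PV3 GV3 r 1 = (∫ s in (0 : ℝ)..1, PV3 s (r s)) - 1 := by
      unfold FT
      rw [al_one hr]
      have : GV3 (π / 2) (xx r 1) = -1 := by
        unfold GV3
        rw [Real.sin_pi_div_two, Real.cos_pi_div_two]
        ring
      rw [this]
      ring
    rw [e1, e2] at h
    simp only [add_zero, one_pow] at h
    linarith
  · intro F hF
    have h1 : HasDerivAt (fun F : ℝ => 1 + F) 1 F := (hasDerivAt_id F).const_add 1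
    refine HasDerivAt.congr_deriv (h1.pow 2) ?_
    simp
  · intro t ht
    rw [hFTs]
    have ht' : t ∈ Icc (0 : ℝ) 1 := ⟨ht.1, ht.2.le⟩
    have hte := t_eq hr ht'
    have hre := r_eq hr ht'
    refine pt3 (cos_al_pos hr ht) (sin_al_nonneg hr ht') (xx_pos hr ht') (by rw [hte]; exact ht.1)
      (FT3_nonneg hr ht') ?_ ?_
    · rw [hre]
      intro h1
      exact FT3_A hr ht h1
    · rw [hre, hte]
      intro h1
      exact FT3_B hr ht h1
  · intro t ht
    rw [hFTs]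
    have := FT3_nonneg hr ht
    positivity
  · intro x hx
    obtain ⟨a1, a2, a3, a4⟩ := arctan_facts hx
    have hG : 0 ≤ GD3 (arctan x) x := by
      rw [GD3_arctan]
      have := Real.le_tan (Real.arctan_nonneg.2 hx.le) (Real.arctan_lt_pi_div_two x)
      rw [Real.tan_arctan] at this
      linarith
    refine pt3 a1 a2 hx a3.ge hG (fun h => absurd h (not_le.2 a4)) ?_
    intro _
    rw [a3]
    linarith
  · intro x hx
    have hG : 0 ≤ GD3 (arctan x) x := by
      rw [GD3_arctan]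
      have := Real.le_tan (Real.arctan_nonneg.2 hx) (Real.arctan_lt_pi_div_two x)
      rw [Real.tan_arctan] at this
      linarith
    positivity
  · unfold GD3; simp
  · unfold GV3; simp

end Crest.Agent.R230.SD
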