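import Crest.Agent.R230.SDDens
import Crest.Agent.R230.SDCert3
import Crest.Agent.R230.SDCert4

/-!
# Row 230: the pointwise inequalities for `SDL 2`, `SDL 3`
-/

set_option autoImplicit false
set_option maxHeartbeats 1000000
set_option linter.unusedVariables false

open Real

namespace Crest.Agent.R230.SD

/-- slice mass of the volume density (`n = 3`), divided by the square of the tangent length `√X` -/
noncomputable def EV (c r X : ℝ) : ℝ :=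
  (c ^ 2 + 2 * c * r + 3 * r ^ 2) / 8 + X * (c ^ 2 + 4 * c * r + 10 * r ^ 2) / 120 -
    (c ^ 4 + 2 * c ^ 3 * r + 3 * c ^ 2 * r ^ 2 + 4 * c * r ^ 3 + 5 * r ^ 4) / 45

/-- same for `n = 2` -/
noncomputable def R3 (c r X : ℝ) : ℝ :=
  3 / 4 * (c + 2 * r) + 3 / 40 * X * (c + 4 * r) -
    9 / 80 * (c ^ 3 + 2 * c ^ 2 * r + 3 * c * r ^ 2 + 4 * r ^ 3)

theorem mV4_eq (α x : ℝ) : mV4 α x = x ^ 2 * EV (cos α) (cos α + x * sin α) (x ^ 2) := by
  have h := Real.sin_sq_add_cos_sq α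
  unfold mV4 EV
  set σ := sin α
  set c := cos α
  linear_combination (1/12 * σ^2 * x^6 + 1/8 * σ^2 * x^4 + 1/5 * σ * c * x^5 + 1/3 * σ * c * x^3 +
    1/8 * c^2 * x^4 + 1/4 * c^2 * x^2) * h

theorem mV3_eq (α x : ℝ) : mV3 α x = x ^ 2 * R3 (cos α) (cos α + x * sin α) (x ^ 2) := by
  have h := Real.sin_sq_add_cos_sq α
  unfold mV3 R3
  set σ := sin α
  set c := cos α
  linear_combination (3/10 * σ * x^5 + 1/2 * σ * x^3 + 3/8 * c * x^4 + 3/4 * c * x^2) * h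

theorem mD4_eq (α x : ℝ) : mD4 α x = x ^ 2 * (cos α + 2 * (cos α + x * sin α)) / 2 := by
  unfold mD4
  ring

theorem mD3_eq (α x : ℝ) : mD3 α x = x ^ 2 / 2 := by
  unfold mD3
  ring

theorem sqrt_lb {K M F g : ℝ} (hg : 1 ≤ g) (hF : 0 ≤ F) (hK : 0 ≤ K)
    (h1 : M ≤ K * (1 + F / (1 + g))) (h2 : M ≤ K * g) : M ≤ K * √(1 + F) := by
  have hg' : 0 < 1 + g := by linarith
  by_cases h : F ≤ g ^ 2 - 1
  · refine h1.trans (mul_le_mul_of_nonneg_left ?_ hK)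
    apply Real.le_sqrt_of_sq_le
    set u := F / (1 + g) with hu
    have hu0 : 0 ≤ u := by positivity
    have hFu : F = u * (1 + g) := by rw [hu]; field_simp
    have hu1 : u ≤ g - 1 := by
      rw [hu, div_le_iff₀ hg']; nlinarith
    nlinarith
  · refine h2.trans (mul_le_mul_of_nonneg_left ?_ hK)
    apply Real.le_sqrt_of_sq_le
    linarith [not_le.1 h]

/-- tangent line for the cube, as a function of the square -/
theorem cube_lb {z z0 : ℝ} (hz : 0 ≤ z) (hz0 : 0 ≤ z0) :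
    3 / 2 * z0 * z ^ 2 - 1 / 2 * z0 ^ 3 ≤ z ^ 3 := by
  nlinarith [mul_nonneg (sq_nonneg (z - z0)) (by positivity : 0 ≤ z + z0 / 2)]

theorem fin4 {c r X g Cp F : ℝ} (hc : 0 ≤ c) (hc1 : c < 1) (hr : 0 ≤ r) (hF : 0 ≤ F) (hg : 1 ≤ g)
    (hX : X * (1 - c ^ 2) = (r - c) ^ 2) (hCp : Cp ≤ (1 - c ^ 2) * F)
    (h1 : 0 ≤ (c + 2 * r) * (3 / 4 * ((1 - c ^ 2) + Cp / (1 + g)) - (1/1000) * (1 - c ^ 2)) -
      (12733/2500) * ((1 - c ^ 2) * ((c ^ 2 + 2 * c * r + 3 * r ^ 2) / 8 -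
      (c ^ 4 + 2 * c ^ 3 * r + 3 * c ^ 2 * r ^ 2 + 4 * c * r ^ 3 + 5 * r ^ 4) / 45) +
      (r - c) ^ 2 * (c ^ 2 + 4 * c * r + 10 * r ^ 2) / 120))
    (h2 : 0 ≤ (c + 2 * r) * (3 / 4 * g - (1/1000)) * (1 - c ^ 2) -
      (12733/2500) * ((1 - c ^ 2) * ((c ^ 2 + 2 * c * r + 3 * r ^ 2) / 8 -
      (c ^ 4 + 2 * c ^ 3 * r + 3 * c ^ 2 * r ^ 2 + 4 * c * r ^ 3 + 5 * r ^ 4) / 45) +
      (r - c) ^ 2 * (c ^ 2 + 4 * c * r + 10 * r ^ 2) / 120)) :
    12733 / 2500 * EV c r X + 1 / 1000 * (c + 2 * r) ≤ 3 / 4 * (c + 2 * r) * √(1 + F) := by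
  have hD : 0 < 1 - c ^ 2 := by nlinarith
  have hg' : 0 < 1 + g := by linarith
  have hE : (1 - c ^ 2) * EV c r X = (1 - c ^ 2) * ((c ^ 2 + 2 * c * r + 3 * r ^ 2) / 8 -
      (c ^ 4 + 2 * c ^ 3 * r + 3 * c ^ 2 * r ^ 2 + 4 * c * r ^ 3 + 5 * r ^ 4) / 45) +
      (r - c) ^ 2 * (c ^ 2 + 4 * c * r + 10 * r ^ 2) / 120 := by
    rw [← hX]; unfold EV; ring
  rw [← hE] at h1 h2
  apply sqrt_lb hg hF (by positivity)
  · have h3 : Cp / (1 + g) ≤ (1 - c ^ 2) * F / (1 + g) := by gcongr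
    have h4 : 0 ≤ (c + 2 * r) * ((1 - c ^ 2) * F / (1 + g) - Cp / (1 + g)) :=
      mul_nonneg (by positivity) (by linarith)
    have h5 : 0 ≤ (1 - c ^ 2) * (3 / 4 * (c + 2 * r) * (1 + F / (1 + g)) -
        (12733 / 2500 * EV c r X + 1 / 1000 * (c + 2 * r))) := by
      have e : (1 - c ^ 2) * (3 / 4 * (c + 2 * r) * (1 + F / (1 + g)) -
        (12733 / 2500 * EV c r X + 1 / 1000 * (c + 2 * r))) =
        ((c + 2 * r) * (3 / 4 * ((1 - c ^ 2) + Cp / (1 + g)) - (1/1000) * (1 - c ^ 2)) -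
          (12733/2500) * ((1 - c ^ 2) * EV c r X)) +
        3 / 4 * ((c + 2 * r) * ((1 - c ^ 2) * F / (1 + g) - Cp / (1 + g))) := by ring
      rw [e]; linarith
    have := nonneg_of_mul_nonneg_right h5 hD
    linarith
  · have h5 : 0 ≤ (1 - c ^ 2) * (3 / 4 * (c + 2 * r) * g -
        (12733 / 2500 * EV c r X + 1 / 1000 * (c + 2 * r))) := by
      have e : (1 - c ^ 2) * (3 / 4 * (c + 2 * r) * g -
        (12733 / 2500 * EV c r X + 1 / 1000 * (c + 2 * r))) =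
        (c + 2 * r) * (3 / 4 * g - (1/1000)) * (1 - c ^ 2) -
          (12733/2500) * ((1 - c ^ 2) * EV c r X) := by ring
      rw [e]; exact h2
    have := nonneg_of_mul_nonneg_right h5 hD
    linarith

/-- the polynomial lower bound of the swept mass, `r ≥ 1` -/
theorem capB {c r x t σ t0 x0 : ℝ} (hc : 0 ≤ c) (hc1 : c < 1) (hr : 1 ≤ r) (hx : 0 ≤ x) (ht : 0 ≤ t)
    (hσ : 0 < σ) (hcs : σ ^ 2 + c ^ 2 = 1) (ht0 : 0 ≤ t0) (hx0 : 0 ≤ x0)
    (h1 : t * σ = 1 - r * c) (h2 : x * σ = r - c) :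
    (3 / 2 * (r ^ 2 - 1) * ((1 - r * c) * (1 + c ^ 2 / 2)) * (1 - c ^ 2) +
      1 / 2 * (3 / 2 * t0 * (1 - r * c) ^ 2 - 1 / 2 * t0 ^ 3 * (1 - c ^ 2)) +
      1 / 2 * c * (3 / 2 * x0 * (r - c) ^ 2 - 1 / 2 * x0 ^ 3 * (1 - c ^ 2))) ≤
    (1 - c ^ 2) * (3 / 2 * t * (r ^ 2 - 1) + 1 / 2 * t ^ 3 + 1 / 2 * x ^ 3 * c) := by
  have hD : 0 < 1 - c ^ 2 := by nlinarith
  have hσ1 : σ * (1 + c ^ 2 / 2) ≤ 1 := by
    have : (σ * (1 + c ^ 2 / 2)) ^ 2 ≤ 1 ^ 2 := by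
      have e : (σ * (1 + c ^ 2 / 2)) ^ 2 = (1 - c ^ 2) * (1 + c ^ 2 / 2) ^ 2 := by
        rw [mul_pow, show σ ^ 2 = 1 - c ^ 2 by linarith]
      rw [e]
      have : (1 - c ^ 2) * (1 + c ^ 2 / 2) ^ 2 = 1 - 3 / 4 * c ^ 4 - 1 / 4 * c ^ 6 := by ring
      rw [this]
      have : 0 ≤ c ^ 4 := by positivity
      have : 0 ≤ c ^ 6 := by positivity
      linarith
    exact (abs_le_of_sq_le_sq' this zero_le_one).2
  have e1 : (1 - r * c) * (1 + c ^ 2 / 2) ≤ t := by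
    rw [← h1, mul_assoc]
    nlinarith
  have e2 : t ^ 2 * (1 - c ^ 2) = (1 - r * c) ^ 2 := by
    rw [← h1, show 1 - c ^ 2 = σ ^ 2 by linarith]; ring
  have e3 : x ^ 2 * (1 - c ^ 2) = (r - c) ^ 2 := by
    rw [← h2, show 1 - c ^ 2 = σ ^ 2 by linarith]; ring
  have k1 := mul_le_mul_of_nonneg_left (cube_lb ht ht0) hD.le
  have k2 := mul_le_mul_of_nonneg_left (cube_lb hx hx0) (mul_nonneg hD.le hc)
  have k3 : 3 / 2 * (r ^ 2 - 1) * ((1 - r * c) * (1 + c ^ 2 / 2)) * (1 - c ^ 2) ≤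
      3 / 2 * (r ^ 2 - 1) * t * (1 - c ^ 2) := by
    have : 0 ≤ 3 / 2 * (r ^ 2 - 1) := by nlinarith
    gcongr
  rw [← e2, ← e3]
  linarith

/-- lower bound of `x³/(1+x²)` -/
theorem hlow {x : ℝ} (hx : 0 ≤ x) (hx1 : x ≤ 1) :
    463 / 1000 * x ^ 2 - 191 / 10000 ≤ x ^ 3 / (1 + x ^ 2) := by
  rw [le_div_iff₀ (by positivity)]
  have h1 : 0 ≤ -(463/1000) * x ^ 2 + (1 - 2 * (463/1000) * (39/100)) * x + 12/100 := by
    nlinarith
  nlinarith [mul_nonneg (sq_nonneg (x - 39/100)) h1, sq_nonneg (x - 39/100)]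

/-- pointwise inequality, `n = 3` -/
theorem pw4 {c σ x F : ℝ} (hc : 0 < c) (hσ : 0 ≤ σ) (hcs : σ ^ 2 + c ^ 2 = 1) (hx : 0 < x)
    (ht : 0 ≤ σ - x * c) (hF0 : 0 ≤ F)
    (hFa : c + x * σ ≤ 1 → x ^ 3 * (c + x * σ) / (1 + x ^ 2) ≤ F)
    (hFb : 1 ≤ c + x * σ → 3 / 2 * (σ - x * c) * ((c + x * σ) ^ 2 - 1) + 1 / 2 * (σ - x * c) ^ 3 +
      1 / 2 * x ^ 3 * c ≤ F) :
    12733 / 2500 * EV c (c + x * σ) (x ^ 2) + 1 / 1000 * (c + 2 * (c + x * σ)) ≤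
      3 / 4 * (c + 2 * (c + x * σ)) * √(1 + F) := by
  have hσ0 : 0 < σ := by nlinarith [mul_pos hx hc]
  have hc1 : c < 1 := by nlinarith
  have hD : 0 < 1 - c ^ 2 := by nlinarith
  have h1 : (σ - x * c) * σ = 1 - (c + x * σ) * c := by nlinarith
  have h2 : x * σ = (c + x * σ) - c := by ring
  have hrc : c ≤ c + x * σ := by nlinarith [mul_pos hx hσ0]
  have hcr : (c + x * σ) * c ≤ 1 := by nlinarith [mul_nonneg ht hσ]
  have hX : x ^ 2 * (1 - c ^ 2) = ((c + x * σ) - c) ^ 2 := by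
    rw [show 1 - c ^ 2 = σ ^ 2 by linarith]; ring
  generalize hr : c + x * σ = r at *
  generalize htt : σ - x * c = t at *
  rcases le_total r 1 with hr1 | hr1
  · have hFa' := hFa hr1
    have hr0 : 0 < r := by linarith
    have hx1 : x ≤ 1 := by
      have : x ^ 2 = r ^ 2 + t ^ 2 - 1 := by
        rw [← hr, ← htt]; nlinarith
      have ht1 : t ≤ 1 := by nlinarith [mul_pos hx hc]
      have : x ^ 2 ≤ 1 := by nlinarith
      nlinarith
    have hCp : r * ((463/1000) * (r - c) ^ 2 - (191/10000) * (1 - c ^ 2)) ≤ (1 - c ^ 2) * F := by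
      rw [← hX]
      have h5 := hlow hx.le hx1
      have h6 : r * (463 / 1000 * x ^ 2 - 191 / 10000) ≤ r * (x ^ 3 / (1 + x ^ 2)) := by gcongr
      have h7 : r * (x ^ 3 / (1 + x ^ 2)) = x ^ 3 * r / (1 + x ^ 2) := by ring
      have h8 : (1 - c ^ 2) * (r * (463 / 1000 * x ^ 2 - 191 / 10000)) ≤ (1 - c ^ 2) * F := by
        gcongr; linarith
      linarith
    rcases le_total c (1/2) with h | h
    · exact fin4 hc.le hc1 hr0.le hF0 (by norm_num) hX hCp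
        (c4a3 (by linarith) hc1 h hrc hr1) (g4a (by linarith) hc1 hrc hr1)
    rcases le_total c (3/4) with h' | h'
    · exact fin4 hc.le hc1 hr0.le hF0 (by norm_num) hX hCp
        (c4a2 (by linarith) hc1 h' hrc hr1) (g4a (by linarith) hc1 hrc hr1)
    · exact fin4 hc.le hc1 hr0.le hF0 (by norm_num) hX hCp
        (c4a1 (by linarith) hc1 hrc hr1) (g4a (by linarith) hc1 hrc hr1)
  · have hFb' := hFb hr1
    have hr0 : 0 < r := by linarith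
    have hcap : ∀ t0 x0 : ℝ, 0 ≤ t0 → 0 ≤ x0 →
        (3 / 2 * (r ^ 2 - 1) * ((1 - r * c) * (1 + c ^ 2 / 2)) * (1 - c ^ 2) +
          1 / 2 * (3 / 2 * t0 * (1 - r * c) ^ 2 - 1 / 2 * t0 ^ 3 * (1 - c ^ 2)) +
          1 / 2 * c * (3 / 2 * x0 * (r - c) ^ 2 - 1 / 2 * x0 ^ 3 * (1 - c ^ 2))) ≤
        (1 - c ^ 2) * F := fun t0 x0 ht0 hx0 =>
      (capB hc.le hc1 hr1 hx.le ht hσ0 hcs ht0 hx0 h1 h2).trans
        (mul_le_mul_of_nonneg_left hFb' hD.le)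
    rcases le_total c (5/16) with h | h
    · rcases le_total r (13/10) with h' | h'
      · exact fin4 hc.le hc1 hr0.le hF0 (by norm_num) hX (hcap _ _ (by norm_num) (by norm_num))
          (c4b1 hc.le h hr1 h') (g4b1 hc.le h hr1 h')
      rcases le_total r (16/5) with h'' | h''
      · exact fin4 hc.le hc1 hr0.le hF0 (by norm_num) hX (hcap _ _ (by norm_num) (by norm_num))
          (c4b2 hc.le h h' h'') (g4b2 hc.le h h' h'')
      · have hG := g4b5 hc.le h h''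
        refine fin4 hc.le hc1 hr0.le hF0 (le_refl (1:ℝ)) hX
          (Cp := 0) (mul_nonneg hD.le hF0) ?_ hG
        have e : (c + 2 * r) * (3 / 4 * (1 - c ^ 2 + 0 / (1 + 1)) - 1 / 1000 * (1 - c ^ 2)) =
          (c + 2 * r) * (3 / 4 * 1 - (1/1000)) * (1 - c ^ 2) := by ring
        rw [e]
        exact hG
    · rcases le_total c (3/5) with h' | h'
      · exact fin4 hc.le hc1 hr0.le hF0 (by norm_num) hX (hcap _ _ (by norm_num) (by norm_num))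
          (c4b3 h hc1 h' hr1 hcr) (g4b3 h hc1 h' hr1 hcr)
      · exact fin4 hc.le hc1 hr0.le hF0 (by norm_num) hX (hcap _ _ (by norm_num) (by norm_num))
          (c4b4 h' hc1 hr1 hcr) (g4b4 h' hc1 hr1 hcr)

/-- pointwise inequality, `n = 2` -/
theorem pw3 {c σ x C : ℝ} (hc : 0 < c) (hσ : 0 ≤ σ) (hcs : σ ^ 2 + c ^ 2 = 1) (hx : 0 < x)
    (ht : 0 ≤ σ - x * c) (hC0 : 0 ≤ C)
    (hCa : c + x * σ ≤ 1 → x ^ 3 / 6 * (1 + c / (c + x * σ)) ≤ C)
    (hCb : 1 ≤ c + x * σ → (σ - x * c) * ((c + x * σ) - 1) + (σ - x * c) ^ 3 / 6 ≤ C) :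
    R3 c (c + x * σ) (x ^ 2) + 1 / 1000 ≤ 3183 / 2500 + (3183 / 2500) ^ 2 * C := by
  have hσ0 : 0 < σ := by nlinarith [mul_pos hx hc]
  have hc1 : c < 1 := by nlinarith
  have hD : 0 < 1 - c ^ 2 := by nlinarith
  have h1 : (σ - x * c) * σ = 1 - (c + x * σ) * c := by nlinarith
  have h2 : x * σ = (c + x * σ) - c := by ring
  have hrc : c ≤ c + x * σ := by nlinarith [mul_pos hx hσ0]
  have hcr : (c + x * σ) * c ≤ 1 := by nlinarith [mul_nonneg ht hσ]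
  have hX : x ^ 2 * (1 - c ^ 2) = ((c + x * σ) - c) ^ 2 := by
    rw [show 1 - c ^ 2 = σ ^ 2 by linarith]; ring
  generalize hr : c + x * σ = r at *
  generalize htt : σ - x * c = t at *
  have hr0 : 0 < r := by linarith
  have hE : (1 - c ^ 2) * R3 c r (x ^ 2) = (1 - c ^ 2) * (3 / 4 * (c + 2 * r) -
      9 / 80 * (c ^ 3 + 2 * c ^ 2 * r + 3 * c * r ^ 2 + 4 * r ^ 3)) +
      3 / 40 * (r - c) ^ 2 * (c + 4 * r) := by
    rw [← hX]; unfold R3; ring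
  -- it suffices to multiply by `1 - c²`
  suffices h : 0 ≤ (1 - c ^ 2) * (3183 / 2500 + (3183 / 2500) ^ 2 * C -
      (R3 c r (x ^ 2) + 1 / 1000)) by
    have := nonneg_of_mul_nonneg_right h hD
    linarith
  have hred : (1 - c ^ 2) * (3183 / 2500 + (3183 / 2500) ^ 2 * C -
      (R3 c r (x ^ 2) + 1 / 1000)) = (3183 / 2500 - 1 / 1000) * (1 - c ^ 2) -
      ((1 - c ^ 2) * (3 / 4 * (c + 2 * r) -
      9 / 80 * (c ^ 3 + 2 * c ^ 2 * r + 3 * c * r ^ 2 + 4 * r ^ 3)) +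
      3 / 40 * (r - c) ^ 2 * (c + 4 * r)) + (3183 / 2500) ^ 2 * ((1 - c ^ 2) * C) := by
    rw [← hE]; ring
  rw [hred]
  rcases le_total r 1 with hr1 | hr1
  · have hCa' := hCa hr1
    have hinv : 2 - r ≤ 1 / r := by
      rw [le_div_iff₀ hr0]; nlinarith [sq_nonneg (r - 1)]
    have hk : (1 + c * (2 - r)) * (3 / 2 * (7/20) * (r - c) ^ 2 - 1 / 2 * (7/20) ^ 3 * (1 - c ^ 2)) ≤
        6 * ((1 - c ^ 2) * C) := by
      rw [← hX]
      have h3 := cube_lb hx.le (show (0:ℝ) ≤ 7/20 by norm_num)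
      have h4 : 1 + c * (2 - r) ≤ 1 + c / r := by
        have : c * (2 - r) ≤ c * (1 / r) := by gcongr
        have e : c * (1 / r) = c / r := by ring
        linarith
      have h5 : 0 ≤ 1 + c * (2 - r) := by nlinarith
      have h6 : (1 + c * (2 - r)) * (3 / 2 * (7/20) * x ^ 2 - 1 / 2 * (7/20) ^ 3) ≤
          (1 + c * (2 - r)) * x ^ 3 := by gcongr
      have h7 : (1 + c * (2 - r)) * x ^ 3 ≤ (1 + c / r) * x ^ 3 := by gcongr
      have h8' : (1 + c * (2 - r)) * (3 / 2 * (7/20) * x ^ 2 - 1 / 2 * (7/20) ^ 3) ≤ 6 * C := by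
        linarith
      have h8 := mul_le_mul_of_nonneg_left h8' hD.le
      linarith
    rcases le_total c (1/2) with h | h
    · have := c3a3 hc.le hc1 h hrc hr1
      linarith
    rcases le_total c (3/4) with h' | h'
    · have := c3a2 h hc1 h' hrc hr1
      linarith
    · have := c3a1 h' hc1 hrc hr1
      linarith
  · have hCb' := hCb hr1
    have hcap := capB (x0 := 0) hc.le hc1 hr1 hx.le ht hσ0 hcs (show (0:ℝ) ≤ 3/5 by norm_num)
      le_rfl h1 h2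
    have hCD : (1 - c ^ 2) * (t * (r - 1) + t ^ 3 / 6) ≤ (1 - c ^ 2) * C := by gcongr
    have hk : (r - 1) * ((1 - r * c) * (1 + c ^ 2 / 2)) * (1 - c ^ 2) +
        (3 / 2 * (3/5) * (1 - r * c) ^ 2 - 1 / 2 * (3/5) ^ 3 * (1 - c ^ 2)) / 6 ≤
        (1 - c ^ 2) * (t * (r - 1) + t ^ 3 / 6) := by
      have hσ1 : σ * (1 + c ^ 2 / 2) ≤ 1 := by
        have : (σ * (1 + c ^ 2 / 2)) ^ 2 ≤ 1 ^ 2 := by
          have e : (σ * (1 + c ^ 2 / 2)) ^ 2 = (1 - c ^ 2) * (1 + c ^ 2 / 2) ^ 2 := by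
            rw [mul_pow, show σ ^ 2 = 1 - c ^ 2 by linarith]
          rw [e]
          have : (1 - c ^ 2) * (1 + c ^ 2 / 2) ^ 2 = 1 - 3 / 4 * c ^ 4 - 1 / 4 * c ^ 6 := by ring
          rw [this]
          have : 0 ≤ c ^ 4 := by positivity
          have : 0 ≤ c ^ 6 := by positivity
          linarith
        exact (abs_le_of_sq_le_sq' this zero_le_one).2
      have e1 : (1 - r * c) * (1 + c ^ 2 / 2) ≤ t := by
        rw [← h1, mul_assoc]
        nlinarith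
      have e2 : t ^ 2 * (1 - c ^ 2) = (1 - r * c) ^ 2 := by
        rw [← h1, show 1 - c ^ 2 = σ ^ 2 by linarith]; ring
      have k1 := mul_le_mul_of_nonneg_left (cube_lb ht (show (0:ℝ) ≤ 3/5 by norm_num)) hD.le
      have k3 : (r - 1) * ((1 - r * c) * (1 + c ^ 2 / 2)) * (1 - c ^ 2) ≤
          (r - 1) * t * (1 - c ^ 2) := by
        have : 0 ≤ r - 1 := by linarith
        gcongr
      rw [← e2]
      linarith
    rcases le_total c (1/3) with h | h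
    · rcases le_total r 3 with h' | h'
      · have := c3b1 hc.le h hr1 h'
        linarith
      · have := c3b3 hc.le h h'
        have h0 : 0 ≤ (1 - c ^ 2) * C := mul_nonneg hD.le hC0
        nlinarith
    · have := c3b2 h hc1 hr1 hcr
      linarith

end Crest.Agent.R230.SD
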