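import Crest.Agent.R230.Gauge
import Mathlib.Analysis.Calculus.ParametricIntegral
import Mathlib.Analysis.Calculus.ContDiff.RCLike
import Mathlib.MeasureTheory.Measure.Haar.NormedSpace

/-!
Integration over thin shells `K \ (1-ε)K`, divergence theorem in gauge form.
-/

set_option autoImplicit false
set_option linter.unusedSectionVars false

open MeasureTheory Set Filter Topology
open scoped ENNReal Pointwise NNReal

namespace Crest.Agent.R230.G

variable {E : Type*} [NormedAddCommGroup E] [InnerProductSpace ℝ E] [FiniteDimensional ℝ E]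
  [MeasurableSpace E] [BorelSpace E]

local notation "dim" => Module.finrank ℝ E

/-- the inner body `(1-ε) • K` is contained in `K` -/
lemma smul_subset {K : Set E} (hK : Body K) {s : ℝ} (h0 : 0 ≤ s) (h1 : s ≤ 1) : s • K ⊆ K := by
  intro x hx
  rw [← hK.gauge_le_iff' h0] at hx
  rw [← hK.gauge_le_one_iff]
  linarith

lemma setIntegral_smul_homog {Ψ : E → ℝ} (hΨ : ∀ c : ℝ, 0 < c → ∀ x, Ψ (c • x) = Ψ x) (K : Set E)
    {R : ℝ} (hR : 0 < R) : ∫ x in R • K, Ψ x = R ^ dim * ∫ x in K, Ψ x := by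
  have h := Measure.setIntegral_comp_smul_of_pos (volume : Measure E) Ψ K hR
  simp only [hΨ R hR] at h
  rw [h, smul_eq_mul, mul_inv_cancel_left₀ (pow_pos hR _).ne']

lemma tendsto_one_sub_pow (d : ℕ) :
    Tendsto (fun ε : ℝ => ε⁻¹ * (1 - (1 - ε) ^ d)) (𝓝[>] 0) (𝓝 d) := by
  have h1 : HasDerivAt (fun ε : ℝ => 1 - (1 - ε) ^ d) (d : ℝ) 0 := by
    have h2 : HasDerivAt (fun ε : ℝ => 1 - ε) (-1) 0 := by
      simpa using (hasDerivAt_id (0 : ℝ)).const_sub 1
    have h3 := (h2.fun_pow d).const_sub 1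
    simpa using h3
  have h6 := h1.hasDerivWithinAt (s := Ioi 0)
  rw [hasDerivWithinAt_iff_tendsto_slope' (by simp)] at h6
  refine h6.congr' ?_
  filter_upwards [self_mem_nhdsWithin] with c hc
  rw [slope_def_field]
  simp only [sub_zero, one_pow, sub_self]
  rw [div_eq_inv_mul]

/-- **Shell lemma**. -/
theorem tendsto_shell {K : Set E} (hK : Body K) {Φ Ψ : E → ℝ}
    (hΨ : ∀ c : ℝ, 0 < c → ∀ x, Ψ (c • x) = Ψ x) (hΨi : IntegrableOn Ψ K) (hΦi : IntegrableOn Φ K)
    {C : ℝ} (h : ∀ x, 1 / 2 ≤ gauge K x → gauge K x ≤ 1 → |Φ x - Ψ x| ≤ C * (1 - gauge K x)) :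
    Tendsto (fun ε : ℝ => ε⁻¹ * ∫ x in K \ (1 - ε) • K, Φ x) (𝓝[>] 0) (𝓝 (dim * ∫ x in K, Ψ x)) := by
  have h1 : ∀ᶠ ε : ℝ in 𝓝[>] 0, ε⁻¹ * ∫ x in K \ (1 - ε) • K, Φ x =
      (ε⁻¹ * (1 - (1 - ε) ^ dim)) * (∫ x in K, Ψ x) +
        ε⁻¹ * ∫ x in K \ (1 - ε) • K, (Φ x - Ψ x) := by
    filter_upwards [Ioo_mem_nhdsGT (show (0:ℝ) < 1/2 by norm_num)] with ε hε
    have hs0 : 0 < 1 - ε := by linarith [hε.2]
    have hs1 : 1 - ε ≤ 1 := by linarith [hε.1]
    have hsub : K \ (1 - ε) • K ⊆ K := sdiff_subset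
    rw [integral_sub (hΦi.mono_set hsub) (hΨi.mono_set hsub)]
    have h2 : ∫ x in K \ (1 - ε) • K, Ψ x = (1 - (1 - ε) ^ dim) * ∫ x in K, Ψ x := by
      rw [setIntegral_sdiff (hK.cpt.smul (1 - ε)).measurableSet hΨi (smul_subset hK hs0.le hs1),
        setIntegral_smul_homog hΨ K hs0]
      ring
    rw [h2]; ring
  refine Tendsto.congr' (EventuallyEq.symm h1) ?_
  have h3 : Tendsto (fun ε : ℝ => (ε⁻¹ * (1 - (1 - ε) ^ dim)) * (∫ x in K, Ψ x)) (𝓝[>] 0)
      (𝓝 (dim * ∫ x in K, Ψ x)) := (tendsto_one_sub_pow dim).mul_const _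
  have h4 : Tendsto (fun ε : ℝ => ε⁻¹ * ∫ x in K \ (1 - ε) • K, (Φ x - Ψ x)) (𝓝[>] 0) (𝓝 0) := by
    have hb : Tendsto (fun ε : ℝ => |C| * ((1 - (1 - ε) ^ dim) * volume.real K)) (𝓝[>] 0) (𝓝 0) := by
      have : Tendsto (fun ε : ℝ => |C| * ((1 - (1 - ε) ^ dim) * volume.real K)) (𝓝 0)
          (𝓝 (|C| * ((1 - (1 - 0) ^ dim) * volume.real K))) := by
        apply Continuous.tendsto
        fun_prop
      simp only [sub_zero, one_pow, sub_self, zero_mul, mul_zero] at this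
      exact this.mono_left nhdsWithin_le_nhds
    refine squeeze_zero_norm' ?_ hb
    filter_upwards [Ioo_mem_nhdsGT (show (0:ℝ) < 1/2 by norm_num)] with ε hε
    have hs0 : 0 < 1 - ε := by linarith [hε.2]
    have hs1 : 1 - ε ≤ 1 := by linarith [hε.1]
    have hmeas : MeasurableSet (K \ (1 - ε) • K) :=
      hK.cpt.measurableSet.diff (hK.cpt.smul (1 - ε)).measurableSet
    have hfin : volume (K \ (1 - ε) • K) < ∞ := (measure_mono sdiff_subset).trans_lt hK.cpt.measure_lt_top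
    have h5 := norm_setIntegral_le_of_norm_le_const (μ := volume) (s := K \ (1 - ε) • K)
      (f := fun x => Φ x - Ψ x) (C := |C| * ε) hfin ?_
    · rw [norm_mul, norm_inv, Real.norm_eq_abs, abs_of_pos hε.1, inv_mul_le_iff₀ hε.1]
      refine h5.trans (le_of_eq ?_)
      have h6 : volume.real (K \ (1 - ε) • K) = (1 - (1 - ε) ^ dim) * volume.real K := by
        rw [measureReal_sdiff (smul_subset hK hs0.le hs1) (hK.cpt.smul (1 - ε)).measurableSet
          hK.cpt.measure_lt_top.ne]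
        rw [measureReal_def (μ := volume) (s := (1 - ε) • K), Measure.addHaar_smul, ENNReal.toReal_mul,
          ENNReal.toReal_ofReal (abs_nonneg _), abs_of_pos (pow_pos hs0 _), measureReal_def]
        ring
      rw [h6]; ring
    · intro x hx
      have hx1 : gauge K x ≤ 1 := hK.gauge_le_one_iff.2 hx.1
      have hx2 : 1 - ε < gauge K x := by
        by_contra hcon
        push Not at hcon
        exact hx.2 ((hK.gauge_le_iff' hs0.le).1 hcon)
      refine (h x (by linarith [hε.2]) hx1).trans ?_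
      have h7 : C * (1 - gauge K x) ≤ |C| * (1 - gauge K x) :=
        mul_le_mul_of_nonneg_right (le_abs_self C) (by linarith)
      have h8 : |C| * (1 - gauge K x) ≤ |C| * ε :=
        mul_le_mul_of_nonneg_left (by linarith) (abs_nonneg C)
      exact h7.trans h8
  simpa using h3.add h4

/-! ### test functions -/

lemma exists_inner_bound {K : Set E} (hK : Body K) (e : E) :
    ∃ R : ℝ, 0 < R ∧ ∀ x ∈ K, |inner ℝ x e| ≤ R := by
  obtain ⟨R, hR⟩ := (hK.cpt.image (f := fun x => (inner ℝ x e : ℝ)) (by fun_prop)).isBounded.exists_norm_le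
  refine ⟨max R 1, by positivity, fun x hx => ?_⟩
  exact (hR _ (mem_image_of_mem _ hx)).trans (le_max_left _ _)

lemma normalized_homog (K : Set E) (e : E) (c : ℝ) (hc : 0 < c) (x : E) :
    inner ℝ (c • x) e / gauge K (c • x) = inner ℝ x e / gauge K x := by
  rw [real_inner_smul_left, gauge_smul_of_nonneg hc.le, smul_eq_mul,
    mul_div_mul_left _ _ hc.ne']

lemma abs_normalized_le {K : Set E} (hK : Body K) {e : E} {R : ℝ} (hR0 : 0 < R)
    (hR : ∀ x ∈ K, |inner ℝ x e| ≤ R) (x : E) : |inner ℝ x e / gauge K x| ≤ R := by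
  rcases eq_or_ne x 0 with rfl | hx
  · simp [hR0.le]
  · have hp := hK.gauge_pos_iff.2 hx
    have h1 : (gauge K x)⁻¹ • x ∈ K := by
      rw [← hK.gauge_le_one_iff, gauge_smul_of_nonneg (inv_nonneg.2 hp.le), smul_eq_mul,
        inv_mul_cancel₀ hp.ne']
    have h2 := hR _ h1
    rwa [real_inner_smul_left, ← div_eq_inv_mul] at h2

/-- a `C¹` function is Lipschitz on a compact interval -/
lemma exists_lip_of_contDiff {ψ : ℝ → ℝ} (hψ : ContDiff ℝ 1 ψ) (R : ℝ) :
    ∃ L : ℝ, 0 ≤ L ∧ (∀ a ∈ Icc (-R) R, |deriv ψ a| ≤ L) ∧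
      ∀ a ∈ Icc (-R) R, ∀ b ∈ Icc (-R) R, |ψ a - ψ b| ≤ L * |a - b| := by
  obtain ⟨L, hL⟩ := (isCompact_Icc (a := -R) (b := R)).exists_bound_of_continuousOn
    (hψ.continuous_deriv le_rfl).continuousOn
  have hb : ∀ a ∈ Icc (-R) R, |deriv ψ a| ≤ max L 0 := fun a ha => (hL a ha).trans (le_max_left _ _)
  refine ⟨max L 0, le_max_right _ _, hb, fun a ha b hb' => ?_⟩
  have := (convex_Icc (-R) R).norm_image_sub_le_of_norm_deriv_le (f := ψ) (C := max L 0)
    (fun x _ => (hψ.differentiable (by norm_num)).differentiableAt) (fun x hx => hb x hx) hb' ha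
  exact this

lemma measurable_gauge {K : Set E} (hK : Body K) : Measurable (gauge K) := hK.continuous_gauge.measurable

lemma integrableOn_of_bdd {K : Set E} (hK : Body K) {f : E → ℝ} (hf : Measurable f) {C : ℝ}
    (hC : ∀ x ∈ K, |f x| ≤ C) : IntegrableOn f K := by
  refine Measure.integrableOn_of_bounded (M := C) hK.cpt.measure_lt_top.ne hf.aestronglyMeasurable ?_
  exact (ae_restrict_iff' hK.cpt.measurableSet).2 (Eventually.of_forall hC)

/-- the shell limit for `ψ(⟨x,e⟩) Ω(x)` -/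
lemma tendsto_shell_test {K : Set E} (hK : Body K) {ψ : ℝ → ℝ} (hψ : ContDiff ℝ 1 ψ) (e : E)
    {Ω : E → ℝ} (hΩm : Measurable Ω) (hΩ : ∀ c : ℝ, 0 < c → ∀ x, Ω (c • x) = Ω x) {B : ℝ}
    (hB : ∀ x, |Ω x| ≤ B) :
    Tendsto (fun ε : ℝ => ε⁻¹ * ∫ x in K \ (1 - ε) • K, ψ (inner ℝ x e) * Ω x) (𝓝[>] 0)
      (𝓝 (dim * ∫ x in K, ψ (inner ℝ x e / gauge K x) * Ω x)) := by
  obtain ⟨R, hR0, hR⟩ := exists_inner_bound hK e
  obtain ⟨L, hL0, hL1, hL2⟩ := exists_lip_of_contDiff hψ R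
  obtain ⟨M, hM⟩ := (isCompact_Icc (a := -R) (b := R)).exists_bound_of_continuousOn
    hψ.continuous.continuousOn
  have hB0 : 0 ≤ B := (abs_nonneg _).trans (hB 0)
  have hM0 : 0 ≤ M := (norm_nonneg _).trans (hM 0 ⟨by linarith, hR0.le⟩)
  have hmg := measurable_gauge hK
  refine tendsto_shell hK (Φ := fun x => ψ (inner ℝ x e) * Ω x)
    (Ψ := fun x => ψ (inner ℝ x e / gauge K x) * Ω x) (C := L * (2 * R) * B) ?_ ?_ ?_ ?_
  · intro c hc x
    simp only [normalized_homog K e c hc x, hΩ c hc x]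
  · refine integrableOn_of_bdd hK (C := M * B) ?_ ?_
    · exact (hψ.continuous.measurable.comp (Measurable.div (by fun_prop) hmg)).mul hΩm
    · intro x _
      rw [abs_mul]
      exact mul_le_mul (hM _ (abs_le.1 (abs_normalized_le hK hR0 hR x))) (hB x) (abs_nonneg _) hM0
  · refine integrableOn_of_bdd hK (C := M * B) ?_ ?_
    · exact (hψ.continuous.measurable.comp (by fun_prop)).mul hΩm
    · intro x hx
      rw [abs_mul]
      exact mul_le_mul (hM _ (abs_le.1 (hR x hx))) (hB x) (abs_nonneg _) hM0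
  · intro x hx1 hx2
    rw [← sub_mul, abs_mul]
    have hxK : x ∈ K := hK.gauge_le_one_iff.1 hx2
    have h1 := hL2 _ (abs_le.1 (hR x hxK)) _ (abs_le.1 (abs_normalized_le hK hR0 hR x))
    have hgp : 0 < gauge K x := by linarith
    have h2 : |inner ℝ x e - inner ℝ x e / gauge K x| ≤ (2 * R) * (1 - gauge K x) := by
      have e1 : inner ℝ x e - inner ℝ x e / gauge K x = -(inner ℝ x e / gauge K x * (1 - gauge K x)) := by
        field_simp
        ring
      rw [e1, abs_neg, abs_mul, abs_of_nonneg (by linarith : (0:ℝ) ≤ 1 - gauge K x)]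
      refine mul_le_mul_of_nonneg_right ?_ (by linarith)
      have := abs_normalized_le hK hR0 hR x
      linarith
    have h3 : |ψ (inner ℝ x e) - ψ (inner ℝ x e / gauge K x)| ≤ L * ((2 * R) * (1 - gauge K x)) :=
      h1.trans (mul_le_mul_of_nonneg_left h2 hL0)
    calc |ψ (inner ℝ x e) - ψ (inner ℝ x e / gauge K x)| * |Ω x|
        ≤ (L * ((2 * R) * (1 - gauge K x))) * B := mul_le_mul h3 (hB x) (abs_nonneg _)
          (mul_nonneg hL0 (mul_nonneg (by linarith) (by linarith)))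
      _ = L * (2 * R) * B * (1 - gauge K x) := by ring

/-- **radial integration by parts** -/
theorem cone_scale_gen {K : Set E} (hK : Body K) {ψ : ℝ → ℝ} (hψ : ContDiff ℝ 1 ψ) (e : E)
    {Ω : E → ℝ} (hΩm : Measurable Ω) (hΩ : ∀ c : ℝ, 0 < c → ∀ x, Ω (c • x) = Ω x) {B : ℝ}
    (hB : ∀ x, |Ω x| ≤ B) :
    (dim : ℝ) * ∫ x in K, ψ (inner ℝ x e / gauge K x) * Ω x =
      ∫ x in K, ((dim : ℝ) * ψ (inner ℝ x e) + inner ℝ x e * deriv ψ (inner ℝ x e)) * Ω x := by
  obtain ⟨R, hR0, hR⟩ := exists_inner_bound hK e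
  obtain ⟨L, hL0, hL1, hL2⟩ := exists_lip_of_contDiff hψ (2 * R)
  obtain ⟨M, hM⟩ := (isCompact_Icc (a := -R) (b := R)).exists_bound_of_continuousOn
    hψ.continuous.continuousOn
  have hB0 : 0 ≤ B := (abs_nonneg _).trans (hB 0)
  have hM0 : 0 ≤ M := (norm_nonneg _).trans (hM 0 ⟨by linarith, hR0.le⟩)
  have hlim := tendsto_shell_test hK hψ e hΩm hΩ hB
  -- derivative of `J(s) = ∫_K ψ(s⟨x,e⟩) Ω`
  have hJ := hasDerivAt_integral_of_dominated_loc_of_deriv_le (μ := volume.restrict K)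
    (F := fun (s : ℝ) (x : E) => ψ (s * inner ℝ x e) * Ω x)
    (F' := fun (s : ℝ) (x : E) => (deriv ψ (s * inner ℝ x e) * inner ℝ x e) * Ω x)
    (x₀ := (1:ℝ)) (s := Ioo 0 2) (bound := fun _ => L * R * B)
    (Ioo_mem_nhds (by norm_num) (by norm_num)) ?_ ?_ ?_ ?_ ?_ ?_
  rotate_left
  · refine Eventually.of_forall fun s => ?_
    exact ((hψ.continuous.measurable.comp (by fun_prop)).mul hΩm).aestronglyMeasurable
  · refine integrableOn_of_bdd hK (C := M * B) ?_ ?_
    · exact (hψ.continuous.measurable.comp (by fun_prop)).mul hΩm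
    · intro x hx
      rw [abs_mul, one_mul]
      exact mul_le_mul (hM _ (abs_le.1 (hR x hx))) (hB x) (abs_nonneg _) hM0
  · refine Measurable.aestronglyMeasurable ?_
    exact (((hψ.continuous_deriv le_rfl).measurable.comp (by fun_prop)).mul (by fun_prop)).mul hΩm
  · refine (ae_restrict_iff' hK.cpt.measurableSet).2 (Eventually.of_forall fun x hx s hs => ?_)
    rw [Real.norm_eq_abs, abs_mul, abs_mul]
    have h1 : |s * inner ℝ x e| ≤ 2 * R := by
      rw [abs_mul, abs_of_pos hs.1]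
      exact mul_le_mul hs.2.le (hR x hx) (abs_nonneg _) (by norm_num)
    exact mul_le_mul (mul_le_mul (hL1 _ (abs_le.1 h1)) (hR x hx) (abs_nonneg _) hL0) (hB x)
      (abs_nonneg _) (by positivity)
  · exact integrableOn_const hK.cpt.measure_lt_top.ne
  · refine Eventually.of_forall fun x s _ => ?_
    have h2 : HasDerivAt (fun s : ℝ => s * inner ℝ x e) (inner ℝ x e) s := by
      simpa using (hasDerivAt_id s).mul_const (inner ℝ x e)
    have h3 := ((hψ.differentiable (by norm_num)).differentiableAt (x := s * inner ℝ x e)).hasDerivAt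
    exact (h3.comp s h2).mul_const (Ω x)
  have hI : HasDerivAt (fun s : ℝ => s ^ dim * ∫ x in K, ψ (s * inner ℝ x e) * Ω x)
      ((dim : ℝ) * (∫ x in K, ψ (inner ℝ x e) * Ω x) +
        ∫ x in K, (deriv ψ (inner ℝ x e) * inner ℝ x e) * Ω x) 1 := by
    have h1 := (hasDerivAt_pow dim (1:ℝ)).fun_mul hJ.2
    simpa using h1
  have hkey : Tendsto (fun ε : ℝ => ε⁻¹ * ∫ x in K \ (1 - ε) • K, ψ (inner ℝ x e) * Ω x) (𝓝[>] 0)
      (𝓝 ((dim : ℝ) * (∫ x in K, ψ (inner ℝ x e) * Ω x) +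
        ∫ x in K, (deriv ψ (inner ℝ x e) * inner ℝ x e) * Ω x)) := by
    have h1 : HasDerivAt (fun ε : ℝ => 1 - ε) (-1) 0 := by
      simpa using (hasDerivAt_id (0 : ℝ)).const_sub 1
    have hI' : HasDerivAt (fun s : ℝ => s ^ dim * ∫ x in K, ψ (s * inner ℝ x e) * Ω x)
      ((dim : ℝ) * (∫ x in K, ψ (inner ℝ x e) * Ω x) +
        ∫ x in K, (deriv ψ (inner ℝ x e) * inner ℝ x e) * Ω x) (1 - 0) := by
      rw [sub_zero]; exact hI
    have h2 := (hI'.comp (0:ℝ) h1).neg.hasDerivWithinAt (s := Ioi 0)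
    rw [hasDerivWithinAt_iff_tendsto_slope' (by simp)] at h2
    simp only [mul_neg, mul_one, neg_neg] at h2
    refine h2.congr' ?_
    filter_upwards [Ioo_mem_nhdsGT (show (0:ℝ) < 1 by norm_num)] with ε hε
    have hs0 : 0 < 1 - ε := by linarith [hε.2]
    have hs1 : 1 - ε ≤ 1 := by linarith [hε.1]
    have hint : IntegrableOn (fun x => ψ (inner ℝ x e) * Ω x) K := by
      refine integrableOn_of_bdd hK (C := M * B) ?_ ?_
      · exact (hψ.continuous.measurable.comp (by fun_prop)).mul hΩm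
      · intro x hx
        rw [abs_mul]
        exact mul_le_mul (hM _ (abs_le.1 (hR x hx))) (hB x) (abs_nonneg _) hM0
    rw [slope_def_field, sub_zero, div_eq_inv_mul]
    congr 1
    simp only [Function.comp_apply, Pi.neg_apply, sub_zero, one_pow, one_mul]
    rw [setIntegral_sdiff (hK.cpt.smul (1 - ε)).measurableSet hint (smul_subset hK hs0.le hs1)]
    have h5 := Measure.setIntegral_comp_smul_of_pos (volume : Measure E)
      (fun x => ψ (inner ℝ x e) * Ω x) K hs0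
    simp only [hΩ (1 - ε) hs0, real_inner_smul_left] at h5
    rw [h5, smul_eq_mul, mul_inv_cancel_left₀ (pow_pos hs0 _).ne']
    ring
  have h9 := tendsto_nhds_unique hlim hkey
  rw [h9]
  have hi1 : IntegrableOn (fun x => ψ (inner ℝ x e) * Ω x) K := by
    refine integrableOn_of_bdd hK (C := M * B) ?_ ?_
    · exact (hψ.continuous.measurable.comp (by fun_prop)).mul hΩm
    · intro x hx
      rw [abs_mul]
      exact mul_le_mul (hM _ (abs_le.1 (hR x hx))) (hB x) (abs_nonneg _) hM0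
  have hi2 : IntegrableOn (fun x => (deriv ψ (inner ℝ x e) * inner ℝ x e) * Ω x) K := by
    have := hJ.1
    simp only [one_mul] at this
    exact this
  rw [← integral_const_mul, ← integral_add (hi1.const_mul _) hi2]
  congr 1
  ext x
  ring

end Crest.Agent.R230.G
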