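import Crest.Agent.R230.Basic

set_option autoImplicit false

open MeasureTheory Set
open scoped Pointwise ENNReal

namespace Crest.Agent.R230

variable {n : ℕ}

/-! ### A: frames and shadows (Shadow.lean, helper627) -/

theorem exists_frame (e : E (n + 1)) (he : ‖e‖ = 1) : Nonempty (Frame e) := by sorry

theorem sh_eq_shadow {K : Set (E (n + 1))} (hK : IsCompact K) (hKc : Convex ℝ K) {e : E (n + 1)}
    (he : ‖e‖ = 1) (F : Frame e) {c : ℝ} (hc : 0 ≤ c) : sh K (c • e) = c * vol (F.shadow K) := by sorry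

theorem sh_unit_eq_muHE {K : Set (E (n + 1))} (hK : IsCompact K) (hKc : Convex ℝ K) {u : E (n + 1)}
    (hu : ‖u‖ = 1) : sh K u =
      ((μHE[n] : Measure (E (n + 1))) ((fun y => y - inner ℝ y u • u) '' K)).toReal := by sorry

theorem PB_eq {K : Set (E (n + 1))} (hK : IsCompact K) (hKc : Convex ℝ K) :
    PB K = ⋂ u ∈ Metric.sphere (0 : E (n + 1)) 1, {x : E (n + 1) | inner ℝ x u ≤
      ((μHE[n] : Measure (E (n + 1))) ((fun y => y - inner ℝ y u • u) '' K)).toReal} := by sorry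

theorem area_eq {K : Set (E (n + 1))} {e : E (n + 1)} (he : ‖e‖ = 1) (F : Frame e) (t : ℝ) :
    area K e t = vol (F.slice K t) := by sorry

theorem sh_smul {K : Set (E n)} (hK : IsCompact K) (hKc : Convex ℝ K) {c : ℝ} (hc : 0 ≤ c) (u : E n) :
    sh K (c • u) = c * sh K u := by sorry

theorem sh_neg (K : Set (E n)) (u : E n) : sh K (-u) = sh K u := by sorry

theorem sh_nonneg {K : Set (E n)} (hK : IsCompact K) (u : E n) : 0 ≤ sh K u := by sorry

theorem sh_mono {K L : Set (E n)} (hK : IsCompact K) (hKc : Convex ℝ K) (hL : IsCompact L)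
    (hLc : Convex ℝ L) (h : K ⊆ L) (u : E n) : sh K u ≤ sh L u := by sorry

theorem sh_image (T : E n ≃ₗ[ℝ] E n) (K : Set (E n)) (u : E n) :
    sh (T '' K) (T u) = |LinearMap.det (T : E n →ₗ[ℝ] E n)| * sh K u := by sorry

theorem sh_vadd (a : E n) (K : Set (E n)) (u : E n) : sh (a +ᵥ K) u = sh K u := by sorry

/-! ### B: projection bodies: elementary facts (PBBasic.lean) -/

theorem PB_vadd (a : E n) (K : Set (E n)) : PB (a +ᵥ K) = PB K := by sorry

theorem vol_PB_image (T : E (n + 1) ≃ₗ[ℝ] E (n + 1)) (K : Set (E (n + 1))) :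
    vol (PB (T '' K)) = |LinearMap.det (T : E (n + 1) →ₗ[ℝ] E (n + 1))| ^ n * vol (PB K) := by sorry

/-- homogeneity of the projection body: `Π(rK) = r^n ΠK` in dimension `n+1` -/
theorem PB_smul {K : Set (E (n + 1))} (hK : IsCompact K) (hKc : Convex ℝ K) {r : ℝ} (hr : 0 < r) :
    PB (r • K) = r ^ n • PB K := by sorry

theorem PB_mono {K L : Set (E n)} (hK : IsCompact K) (hKc : Convex ℝ K) (hL : IsCompact L)
    (hLc : Convex ℝ L) (h : K ⊆ L) : PB K ⊆ PB L := by sorry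

theorem neg_mem_PB {K : Set (E n)} {x : E n} (hx : x ∈ PB K) : -x ∈ PB K := by sorry

/-! ### C: gauge calculus (Gauge.lean): Cauchy formula `|P_u K| = (n/2) ∫_K |⟨∇g,u⟩|` -/

theorem sh_eq_integral {K : Set (E n)} (hK : CB K) (h0 : (0 : E n) ∈ interior K) (u : E n) :
    sh K u = (n / 2 : ℝ) * ∫ x in K, |inner ℝ (nu K x) u| := by sorry

theorem ae_hs_nu {K : Set (E n)} (hK : CB K) (h0 : (0 : E n) ∈ interior K) :
    ∀ᵐ x ∂(volume.restrict K), hs K (nu K x) = 1 := by sorry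

theorem measurable_nu (K : Set (E n)) : Measurable (nu K) := by sorry

theorem norm_nu_le {K : Set (E n)} (hK : CB K) (h0 : (0 : E n) ∈ interior K) :
    ∃ C, ∀ x, ‖nu K x‖ ≤ C := by sorry

/-! ### D: support function of the projection body (SupportPB.lean) -/

theorem CB_PB {K : Set (E (n + 1))} (hK : CB K) : CB (PB K) := by sorry

theorem zero_mem_interior_PB {K : Set (E (n + 1))} (hK : CB K) : (0 : E (n + 1)) ∈ interior (PB K) := by
  sorry

theorem hs_PB {K : Set (E (n + 1))} (hK : CB K) (u : E (n + 1)) : hs (PB K) u = sh K u := by sorry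

/-! ### E: Brunn-Minkowski with equality (BM.lean) -/

theorem brunn_minkowski {K L : Set (E (n + 1))} (hK : IsCompact K) (hL : IsCompact L)
    (hK0 : K.Nonempty) (hL0 : L.Nonempty) :
    vol K ^ (1 / ((n : ℝ) + 1)) + vol L ^ (1 / ((n : ℝ) + 1)) ≤ vol (K + L) ^ (1 / ((n : ℝ) + 1)) := by
  sorry

theorem brunn_minkowski_eq {K L : Set (E (n + 1))} (hK : CB K) (hL : CB L)
    (h : vol (K + L) ^ (1 / ((n : ℝ) + 1)) ≤ vol K ^ (1 / ((n : ℝ) + 1)) + vol L ^ (1 / ((n : ℝ) + 1))) :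
    ∃ (a : E (n + 1)) (r : ℝ), 0 < r ∧ K = a +ᵥ r • L := by sorry

/-! ### F: Minkowski's first inequality with equality (Mink.lean) -/

theorem minkowski_first {K L : Set (E (n + 1))} (hK : CB K) (h0 : (0 : E (n + 1)) ∈ interior K)
    (hL : CB L) : vol K ^ n * vol L ≤ V1 K L ^ (n + 1) := by sorry

theorem minkowski_first_eq {K L : Set (E (n + 1))} (hK : CB K) (h0 : (0 : E (n + 1)) ∈ interior K)
    (hL : CB L) (h : V1 K L ^ (n + 1) ≤ vol K ^ n * vol L) :
    ∃ (a : E (n + 1)) (r : ℝ), 0 < r ∧ K = a +ᵥ r • L := by sorry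

/-! ### G: `V_1(K,Π²K) = |ΠK|` (MixedPB.lean) -/

theorem V1_PB_PB {K : Set (E (n + 1))} (hK : CB K) (h0 : (0 : E (n + 1)) ∈ interior K) :
    V1 K (PB (PB K)) = vol (PB K) := by sorry

/-! ### H: the slice inequality (M) (SliceM.lean) -/

theorem slice_ineq (hn : 1 ≤ n) {c : ℝ} (hc : 0 ≤ c)
    (hP : ∀ L : Set (E n), CB L → c * vol L ^ (n - 1) ≤ vol (PB L))
    {K : Set (E (n + 1))} (hK : CB K) {e : E (n + 1)} (he : ‖e‖ = 1) (hn2 : 2 ≤ n) :
    c * NK K e ≤ sh (PB K) e := by sorry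

/-! ### I: existence of a minimiser (Minimiser.lean) -/

theorem exists_minimiser (n : ℕ) : ∃ K : Set (E (n + 1)), CB K ∧ ∀ L : Set (E (n + 1)), CB L →
    vol (PB K) * vol L ^ n ≤ vol (PB L) * vol K ^ n := by sorry

/-! ### J: ball values (Ball.lean) -/

theorem κ_pos (n : ℕ) : 0 < κ n := by sorry

theorem CB_ball (n : ℕ) : CB (Metric.closedBall (0 : E n) 1) := by sorry

theorem vol_closedBall (n : ℕ) : vol (Metric.closedBall (0 : E n) 1) = κ n := by sorry

theorem vol_PB_ball (n : ℕ) : vol (PB (Metric.closedBall (0 : E (n + 1)) 1)) = κ n ^ (n + 1) * κ (n + 1) := by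
  sorry

/-! ### K: base case (BaseTwo.lean) -/

theorem petty_two : PettyIneq 2 := by sorry

end Crest.Agent.R230
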