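import Crest.Agent.R230.DefsE
import Crest.Agent.R230.PBBasic

/-!
# Row 230: interface for the crux `(E)` (all statements here are tasks; never import this file in a module)
-/

set_option autoImplicit false

open MeasureTheory Set
open scoped Pointwise ENNReal

namespace Crest.Agent.R230

variable {n : ℕ}

/-! ### from the other skeleton (sections C and J) -/

theorem ae_hs_nu {K : Set (E n)} (hK : CB K) (h0 : (0 : E n) ∈ interior K) :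
    ∀ᵐ x ∂(volume.restrict K), hs K (nu K x) = 1 := by sorry
theorem measurable_nu (K : Set (E n)) : Measurable (nu K) := by sorry
theorem norm_nu_le {K : Set (E n)} (hK : CB K) (h0 : (0 : E n) ∈ interior K) :
    ∃ C, ∀ x, ‖nu K x‖ ≤ C := by sorry
theorem κ_pos (n : ℕ) : 0 < κ n := by sorry
theorem vol_closedBall (n : ℕ) : vol (Metric.closedBall (0 : E n) 1) = κ n := by sorry
theorem CB_ball (n : ℕ) : CB (Metric.closedBall (0 : E n) 1) := by sorry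

/-! ### L: profiles of bodies (Profile.lean) -/

theorem prof_Prof (hn : 1 ≤ n) {K : Set (E (n + 1))} (hK : CB K) (hs : ∀ x ∈ K, -x ∈ K) {e : E (n + 1)}
    (he : e ≠ 0) : Prof (prof K e) := by sorry

/-- Fubini along a direction normalised by `h_K(e) = 1`; `hs K ê = 1/‖e‖`. -/
theorem integral_inner_prof (hn : 1 ≤ n) {K : Set (E (n + 1))} (hK : CB K) (hs' : ∀ x ∈ K, -x ∈ K)
    {e : E (n + 1)} (he : hs K e = 1) (φ : ℝ → ℝ) (hφ : ContinuousOn φ (Icc (-1) 1)) :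
    ∫ x in K, φ (inner ℝ x e) = hs K (‖e‖⁻¹ • e) * ∫ s in (-1 : ℝ)..1, φ s * prof K e s ^ n := by sorry

/-- `κ_{n+1} = κ_n w_n` -/
theorem κ_succ (n : ℕ) : κ (n + 1) = κ n * w n := by sorry

theorem NleB_prof (hn : 2 ≤ n) {K : Set (E (n + 1))} (hK : CB K) (hs : ∀ x ∈ K, -x ∈ K)
    (hE : HypE K) {e : E (n + 1)} (he : e ≠ 0) : NleB n (prof K e) := by sorry

/-- `(n+3) ∫ s² (1-s²)^{n/2} = w n` -/
theorem w_moment (n : ℕ) : (n + 3) * ∫ s in (-1 : ℝ)..1, s ^ 2 * Real.sqrt (1 - s ^ 2) ^ n = w n := by sorry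

theorem w_pos (n : ℕ) : 0 < w n := by sorry

/-! ### M: divergence theorem in gauge form (ConeDiv.lean) -/

theorem cone_div {K : Set (E (n + 1))} (hK : CB K) (h0 : (0 : E (n + 1)) ∈ interior K) (ψ : ℝ → ℝ)
    (hψ : ContDiff ℝ 1 ψ) (e v : E (n + 1)) :
    (n + 1) * ∫ x in K, ψ (inner ℝ x e / gauge K x) * inner ℝ (nu K x) v =
      inner ℝ e v * ∫ x in K, deriv ψ (inner ℝ x e) := by sorry

theorem cone_scale {K : Set (E (n + 1))} (hK : CB K) (h0 : (0 : E (n + 1)) ∈ interior K) (ψ : ℝ → ℝ)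
    (hψ : ContDiff ℝ 1 ψ) (e : E (n + 1)) :
    (n + 1) * ∫ x in K, ψ (inner ℝ x e / gauge K x) =
      ∫ x in K, ((n + 1) * ψ (inner ℝ x e) + inner ℝ x e * deriv ψ (inner ℝ x e)) := by sorry

/-! ### N: one dimensional identities for profiles (ProfCalc.lean) -/

theorem prof_id1 (hn : 1 ≤ n) {r : ℝ → ℝ} (hr : Prof r) (ψ : ℝ → ℝ) (hψ : ContDiff ℝ 1 ψ) :
    n * (∫ s in (-1 : ℝ)..1, r s ^ (n - 1) * (r s - s * deriv r s) * ψ s) + (ψ 1 + ψ (-1)) * r 1 ^ n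
      = ∫ s in (-1 : ℝ)..1, ((n + 1) * ψ s + s * deriv ψ s) * r s ^ n := by sorry

theorem prof_id2 (hn : 1 ≤ n) {r : ℝ → ℝ} (hr : Prof r) (ψ : ℝ → ℝ) (hψ : ContDiff ℝ 1 ψ) :
    n * (∫ s in (-1 : ℝ)..1, r s ^ (n - 1) * (-deriv r s) * ψ s) + (ψ 1 - ψ (-1)) * r 1 ^ n
      = ∫ s in (-1 : ℝ)..1, deriv ψ s * r s ^ n := by sorry

theorem prof_pp_mem {r : ℝ → ℝ} (hr : Prof r) {s : ℝ} (hs : s ∈ Ioo (-1 : ℝ) 1) :
    0 < r s - s * deriv r s ∧ pp r s ∈ Icc (-1 : ℝ) 1 := by sorry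

theorem mom_pos {r : ℝ → ℝ} (hr : Prof r) (k : ℕ) : 0 < mom k r := by sorry

theorem EP_sq_pos (hn : 1 ≤ n) {r : ℝ → ℝ} (hr : Prof r) : 0 < EP n r (fun _ p => p ^ 2) := by sorry

/-! ### O: Jensen on slices (Jensen.lean) -/

theorem jensen (hn : 1 ≤ n) {K : Set (E (n + 1))} (hK : CB K) (hs' : ∀ x ∈ K, -x ∈ K) {e : E (n + 1)}
    (he : hs K e = 1) {v : E (n + 1)} (hv : inner ℝ e v = 1) {R : ℝ} (hR : 1 ≤ R)
    (hRb : ∀ᵐ x ∂(volume.restrict K), |inner ℝ (nu K x) v| ≤ R) (φ : ℝ → ℝ → ℝ)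
    (hφ : ContinuousOn (fun q : ℝ × ℝ => φ q.1 q.2) (Icc (-1) 1 ×ˢ Icc (-R) R))
    (hφc : ∀ t ∈ Icc (-1 : ℝ) 1, ConvexOn ℝ (Icc (-R) R) (φ t)) :
    vol K * EP n (prof K e) φ ≤ ∫ x in K, φ (inner ℝ x e / gauge K x) (inner ℝ (nu K x) v) := by sorry

/-! ### Q: LYZ-type trace identity (Lyz.lean) -/

/-- `G e = ⟨e, M⁻¹ e⟩`, `M = E[ν ⊗ ν]`. -/
theorem lyz (hn : 1 ≤ n) {K : Set (E (n + 1))} (hK : CB K) (h0 : (0 : E (n + 1)) ∈ interior K) :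
    ∃ G : E (n + 1) → ℝ, Continuous G ∧ (∫ y in K, G (nu K y) = vol K * (n + 1)) ∧
      ∀ e : E (n + 1), e ≠ 0 → 0 < G e ∧ ∃ v : E (n + 1), inner ℝ e v = 1 ∧
        ∫ x in K, (inner ℝ (nu K x) v) ^ 2 = vol K * (G e)⁻¹ := by sorry

/-! ### R: swap (Swap.lean) -/

theorem swap_integrable {K : Set (E (n + 1))} (hK : CB K) (hs' : ∀ x ∈ K, -x ∈ K) (η : ℝ → ℝ → ℝ)
    (hη : ContinuousOn (fun q : ℝ × ℝ => η q.1 q.2) (Icc (-1) 1 ×ˢ Icc (-1) 1)) :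
    IntegrableOn (fun y => ∫ x in K, η (inner ℝ x (nu K y) / gauge K x) (inner ℝ (nu K x) y / gauge K y)) K := by
  sorry

theorem swap_nonpos {K : Set (E (n + 1))} (hK : CB K) (hs' : ∀ x ∈ K, -x ∈ K) (η : ℝ → ℝ → ℝ)
    (hη : ContinuousOn (fun q : ℝ × ℝ => η q.1 q.2) (Icc (-1) 1 ×ˢ Icc (-1) 1))
    (hanti : ∀ t ∈ Icc (-1 : ℝ) 1, ∀ p ∈ Icc (-1 : ℝ) 1, η t p + η p t ≤ 0) :
    ∫ y in K, ∫ x in K, η (inner ℝ x (nu K y) / gauge K x) (inner ℝ (nu K x) y / gauge K y) ≤ 0 := by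
  sorry

/-- a.e. `y`: `y ≠ 0`, `h_K(ν y) = 1`, `⟨ν y, y⟩ = g(y)`, and for a.e. `x`: `|⟨ν x, y/g(y)⟩| ≤ 1`. -/
theorem ae_good {K : Set (E (n + 1))} (hK : CB K) (hs' : ∀ x ∈ K, -x ∈ K) :
    ∀ᵐ y ∂(volume.restrict K), y ≠ 0 ∧ nu K y ≠ 0 ∧ hs K (nu K y) = 1 ∧ 0 < gauge K y ∧
      inner ℝ (nu K y) y = gauge K y ∧
      ∀ᵐ x ∂(volume.restrict K), |inner ℝ (nu K x) ((gauge K y)⁻¹ • y)| ≤ 1 := by sorry

/-! ### S: equality case (EqCase.lean) -/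

theorem ellipsoid_of_second_moment {K : Set (E (n + 1))} (hK : CB K) (h0 : (0 : E (n + 1)) ∈ interior K)
    (h : ∀ᵐ y ∂(volume.restrict K), (n + 3) * ∫ x in K, (inner ℝ x (nu K y)) ^ 2 = vol K) :
    ∃ T : E (n + 1) ≃ₗ[ℝ] E (n + 1), K = T '' Metric.closedBall 0 1 := by sorry

/-! ### T: position of maximal volume ellipsoid (John.lean) -/

theorem john {K : Set (E (n + 1))} (hK : CB K) (hs' : ∀ x ∈ K, -x ∈ K) :
    ∃ T : E (n + 1) ≃ₗ[ℝ] E (n + 1), Metric.closedBall 0 1 ⊆ T '' K ∧ ∃ u : E (n + 1), ‖u‖ = 1 ∧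
      hs (T '' K) u = 1 ∧ 0 ≤ ∫ x in T '' K, ((n + 1) * (inner ℝ x u) ^ 2 - ‖x‖ ^ 2) := by sorry

/-! ### U: affine invariance of the hypothesis (HypImage.lean) -/

theorem HypE_image (hn : 2 ≤ n) {K : Set (E (n + 1))} (hK : CB K) (hE : HypE K)
    (T : E (n + 1) ≃ₗ[ℝ] E (n + 1)) : HypE (T '' K) := by sorry

/-! ### V: Schwarz symmetrisation of the moment (Schwarz.lean) -/

/-- for `‖e‖ = 1`, `h_K(e) = 1` and `r = (area/κ_n)^{1/n}` -/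
theorem schwarz_moment (hn : 1 ≤ n) {K : Set (E (n + 1))} (hK : CB K) (hs' : ∀ x ∈ K, -x ∈ K)
    {e : E (n + 1)} (he : ‖e‖ = 1) (he1 : hs K e = 1) (r : ℝ → ℝ)
    (hr : ∀ s ∈ Icc (-1 : ℝ) 1, r s = (area K e s / κ n) ^ ((1 : ℝ) / n)) :
    ∫ x in K, ((n + 1) * (inner ℝ x e) ^ 2 - ‖x‖ ^ 2) ≤
      κ n * n * ∫ s in (-1 : ℝ)..1, (s ^ 2 * r s ^ n - r s ^ (n + 2) / (n + 2)) := by sorry

theorem sqrt_le_prof (hn : 1 ≤ n) {K : Set (E (n + 1))} (hK : CB K) (hB : Metric.closedBall 0 1 ⊆ K)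
    {e : E (n + 1)} (he : ‖e‖ = 1) (s : ℝ) (hs : s ∈ Icc (-1 : ℝ) 1) :
    Real.sqrt (1 - s ^ 2) ≤ (area K e s / κ n) ^ ((1 : ℝ) / n) := by sorry

end Crest.Agent.R230
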