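import Crest.Agent.R230.Basic

/-!
# Row 230: the slice inequality (M), with the other modules as hypotheses
-/

set_option autoImplicit false

open MeasureTheory Set
open scoped Pointwise ENNReal

namespace Crest.Agent.R230

variable {n : ℕ}

lemma sl_isCompact_seg (x y : E n) : IsCompact (segment ℝ x y) := by
  rw [segment_eq_image']
  exact isCompact_Icc.image (by fun_prop)

namespace Frame

variable {e : E (n + 1)} (F : Frame e)

/-- The adjoint of the frame embedding: orthogonal projection in the coordinates of the frame. -/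
noncomputable def sl_P : E (n + 1) →L[ℝ] E n := (F.ι.toContinuousLinearMap).adjoint

lemma sl_inner_P (x : E (n + 1)) (v : E n) : inner ℝ (F.sl_P x) v = inner ℝ x (F.ι v) := by
  unfold sl_P
  rw [ContinuousLinearMap.adjoint_inner_left]
  rfl

lemma sl_P_coord (t : ℝ) (y : E n) : F.sl_P (t • e + F.ι y) = y := by
  refine ext_inner_right ℝ fun v => ?_
  rw [sl_inner_P, inner_add_left, inner_smul_left, F.ι.inner_map_map, real_inner_comm, F.inner_eq]
  simp

lemma sl_P_surjective : Function.Surjective F.sl_P := fun y => ⟨(0 : ℝ) • e + F.ι y, F.sl_P_coord 0 y⟩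

lemma sl_shadow_eq_image (K : Set (E (n + 1))) : F.shadow K = F.sl_P '' K := by
  ext y
  constructor
  · rintro ⟨t, ht⟩
    exact ⟨_, ht, F.sl_P_coord t y⟩
  · rintro ⟨x, hx, rfl⟩
    obtain ⟨t, z, rfl⟩ := F.surj x
    refine ⟨t, ?_⟩
    rwa [F.sl_P_coord]

lemma sl_isOpenMap_P : IsOpenMap F.sl_P := F.sl_P.isOpenMap F.sl_P_surjective

lemma sl_CB_shadow {K : Set (E (n + 1))} (hK : CB K) : CB (F.shadow K) := by
  rw [sl_shadow_eq_image]
  refine ⟨hK.isCompact.image F.sl_P.continuous, hK.convex.linear_image F.sl_P.toLinearMap, ?_⟩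
  refine (hK.interior_nonempty.image F.sl_P).mono ?_
  exact F.sl_isOpenMap_P.image_interior_subset K

lemma sl_zero_mem_interior_shadow {K : Set (E (n + 1))} (h0 : (0 : E (n + 1)) ∈ interior K) :
    (0 : E n) ∈ interior (F.shadow K) := by
  rw [sl_shadow_eq_image]
  apply F.sl_isOpenMap_P.image_interior_subset K
  exact ⟨0, h0, map_zero _⟩

lemma sl_hs_shadow (K : Set (E (n + 1))) (v : E n) : hs (F.shadow K) v = hs K (F.ι v) := by
  unfold hs
  rw [sl_shadow_eq_image, Set.image_image]
  simp_rw [sl_inner_P]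

lemma sl_slice_add_segment (K : Set (E (n + 1))) (v : E n) (t : ℝ) :
    F.slice (K + segment ℝ 0 (F.ι v)) t = F.slice K t + segment ℝ 0 v := by
  ext y
  simp only [slice, mem_ofPred_eq, Set.mem_add, segment_eq_image', sub_zero, zero_add, mem_image]
  constructor
  · rintro ⟨k, hk, _, ⟨s, hs, rfl⟩, h⟩
    refine ⟨y - s • v, ?_, _, ⟨s, hs, rfl⟩, by abel⟩
    have : t • e + F.ι (y - s • v) = k := by
      rw [map_sub, map_smul, ← add_sub_assoc, ← h]; abel
    rwa [this]
  · rintro ⟨z, hz, _, ⟨s, hs, rfl⟩, rfl⟩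
    refine ⟨_, hz, _, ⟨s, hs, rfl⟩, ?_⟩
    rw [map_add, map_smul]; abel

lemma sl_continuous_coord : Continuous (fun p : ℝ × E n => p.1 • e + F.ι p.2) := by
  have := F.ι.continuous
  fun_prop

lemma sl_isClosed_slice {K : Set (E (n + 1))} (hK : IsClosed K) (t : ℝ) : IsClosed (F.slice K t) := by
  have : F.slice K t = (fun y => t • e + F.ι y) ⁻¹' K := rfl
  rw [this]
  exact hK.preimage (by have := F.ι.continuous; fun_prop)

lemma sl_slice_subset (K : Set (E (n + 1))) (t : ℝ) : F.slice K t ⊆ F.shadow K := fun _ hy => ⟨t, hy⟩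

lemma sl_isCompact_slice {K : Set (E (n + 1))} (hK : IsCompact K) (t : ℝ) :
    IsCompact (F.slice K t) := by
  refine (hK.image F.sl_P.continuous).of_isClosed_subset (F.sl_isClosed_slice hK.isClosed t) ?_
  rw [← sl_shadow_eq_image]
  exact F.sl_slice_subset K t

lemma sl_convex_slice {K : Set (E (n + 1))} (hK : Convex ℝ K) (t : ℝ) : Convex ℝ (F.slice K t) := by
  intro x hx y hy a b ha hb hab
  have := hK hx hy ha hb hab
  have h2 : a • (t • e + F.ι x) + b • (t • e + F.ι y) = t • e + F.ι (a • x + b • y) := by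
    rw [map_add, map_smul, map_smul]
    have : t • e = a • t • e + b • t • e := by rw [← add_smul, hab, one_smul]
    conv_rhs => rw [this]
    simp only [smul_add]; abel
  rw [h2] at this
  exact this

lemma sl_volume_eq_lintegral_slice {K : Set (E (n + 1))} (hK : MeasurableSet K) :
    volume K = ∫⁻ t, volume (F.slice K t) := by
  rw [← F.mp.measure_preimage hK.nullMeasurableSet,
    Measure.prod_apply (F.mp.measurable hK)]
  rfl


/-- The set `{((t,v),y) : y ∈ slice K t + [0,v]}` is closed. -/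
lemma sl_isClosed_sweep {K : Set (E (n + 1))} (hK : IsClosed K) :
    IsClosed {q : (ℝ × E n) × E n | q.2 ∈ F.slice K q.1.1 + segment ℝ 0 q.1.2} := by
  have h1 : IsClosed {r : ((ℝ × E n) × E n) × unitInterval |
      r.1.1.1 • e + F.ι (r.1.2 - (r.2 : ℝ) • r.1.1.2) ∈ K} := by
    refine hK.preimage ?_
    have := F.ι.continuous
    fun_prop
  have h2 := (isClosedMap_fst_of_compactSpace (X := (ℝ × E n) × E n) (Y := unitInterval)) _ h1
  convert h2 using 1
  ext ⟨⟨t, v⟩, y⟩
  simp only [slice, mem_ofPred_eq, Set.mem_add, segment_eq_image', sub_zero, zero_add, mem_image]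
  constructor
  · rintro ⟨z, hz, _, ⟨s, hs, rfl⟩, rfl⟩
    refine ⟨(((t, v), z + s • v), ⟨s, hs⟩), ?_, rfl⟩
    simpa using hz
  · rintro ⟨⟨q, s⟩, hs, rfl⟩
    exact ⟨_, hs, _, ⟨s, s.2, rfl⟩, by simp⟩

lemma sl_measurable_volume_sweep {K : Set (E (n + 1))} (hK : IsClosed K) :
    Measurable fun q : ℝ × E n => volume (F.slice K q.1 + segment ℝ 0 q.2) :=
  measurable_measure_prodMk_left (F.sl_isClosed_sweep hK).measurableSet

lemma sl_measurable_sh_slice {K : Set (E (n + 1))} (hK : IsClosed K) :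
    Measurable fun q : ℝ × E n => sh (F.slice K q.1) q.2 := by
  unfold sh vol
  refine ((F.sl_measurable_volume_sweep hK).ennreal_toReal).sub ?_
  have h := (F.sl_measurable_volume_sweep hK).ennreal_toReal.comp
    (measurable_fst.prodMk (measurable_const (a := (0 : E n))) : Measurable fun q : ℝ × E n => (q.1, (0 : E n)))
  convert h using 2
  simp

/-- The shadow function is additive over the slices. -/
lemma sl_ofReal_sh_iota {K : Set (E (n + 1))} (hK : IsCompact K) (v : E n) :
    ENNReal.ofReal (sh K (F.ι v)) = ∫⁻ t, ENNReal.ofReal (sh (F.slice K t) v) := by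
  have hcs : ∀ t, IsCompact (F.slice K t + segment ℝ 0 v) := fun t =>
    (F.sl_isCompact_slice hK t).add (sl_isCompact_seg 0 v)
  have hKs : IsCompact (K + segment ℝ 0 (F.ι v)) := hK.add (sl_isCompact_seg _ _)
  have key : ∀ t, ENNReal.ofReal (sh (F.slice K t) v)
      = volume (F.slice K t + segment ℝ 0 v) - volume (F.slice K t) := by
    intro t
    unfold sh vol
    rw [ENNReal.ofReal_sub _ ENNReal.toReal_nonneg, ENNReal.ofReal_toReal (hcs t).measure_lt_top.ne,
      ENNReal.ofReal_toReal (F.sl_isCompact_slice hK t).measure_lt_top.ne]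
  have hmeas : Measurable fun t => volume (F.slice K t) := by
    have := (F.sl_measurable_volume_sweep hK.isClosed).comp
      (measurable_id.prodMk (measurable_const (a := (0 : E n))) : Measurable fun t : ℝ => (t, (0 : E n)))
    convert this using 2
    simp
  simp_rw [key]
  have hsub : ∀ t, F.slice K t ⊆ F.slice K t + segment ℝ 0 v := fun t y hy =>
    ⟨y, hy, 0, left_mem_segment ℝ 0 v, by simp⟩
  rw [lintegral_sub hmeas (by
      rw [← F.sl_volume_eq_lintegral_slice hK.measurableSet]; exact hK.measure_lt_top.ne)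
    (Filter.Eventually.of_forall fun t => measure_mono (hsub t))]
  simp_rw [← F.sl_slice_add_segment K v]
  rw [← F.sl_volume_eq_lintegral_slice hK.measurableSet, ← F.sl_volume_eq_lintegral_slice hKs.measurableSet]
  unfold sh vol
  rw [ENNReal.ofReal_sub _ ENNReal.toReal_nonneg, ENNReal.ofReal_toReal hKs.measure_lt_top.ne,
    ENNReal.ofReal_toReal hK.measure_lt_top.ne]

lemma sl_measurable_swap {K : Set (E (n + 1))} (hK : IsCompact K) {ν : E n → E n} (hν : Measurable ν) :
    Measurable (fun q : E n × ℝ => ENNReal.ofReal (sh (F.slice K q.2) (ν q.1))) := by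
  have hg : Measurable fun q : E n × ℝ => (q.2, ν q.1) :=
    measurable_snd.prodMk (hν.comp measurable_fst)
  exact ((F.sl_measurable_sh_slice hK.isClosed).comp hg).ennreal_ofReal

lemma sl_lintegral_swap {K : Set (E (n + 1))} (hK : IsCompact K) {ν : E n → E n} (hν : Measurable ν)
    (Q : Set (E n)) :
    ∫⁻ x in Q, ENNReal.ofReal (sh K (F.ι (ν x)))
      = ∫⁻ t, ∫⁻ x in Q, ENNReal.ofReal (sh (F.slice K t) (ν x)) := by
  have h1 : ∀ x, ENNReal.ofReal (sh K (F.ι (ν x))) = ∫⁻ t, ENNReal.ofReal (sh (F.slice K t) (ν x)) :=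
    fun x => F.sl_ofReal_sh_iota hK (ν x)
  calc ∫⁻ x in Q, ENNReal.ofReal (sh K (F.ι (ν x)))
      = ∫⁻ x in Q, ∫⁻ t, ENNReal.ofReal (sh (F.slice K t) (ν x)) := lintegral_congr h1
    _ = ∫⁻ t, ∫⁻ x in Q, ENNReal.ofReal (sh (F.slice K t) (ν x)) :=
      lintegral_lintegral_swap (F.sl_measurable_swap hK hν).aemeasurable

/-- Almost every slice is a convex body or empty. -/
lemma sl_ae_slice {K : Set (E (n + 1))} (hK : CB K) (he : ‖e‖ = 1) :
    ∀ᵐ t : ℝ, CB (F.slice K t) ∨ F.slice K t = ∅ := by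
  set f : E (n + 1) →L[ℝ] ℝ := innerSL ℝ e with hf
  have hfe : ∀ (t : ℝ) (y : E n), f (t • e + F.ι y) = t := by
    intro t y
    simp only [hf, innerSL_apply_apply, inner_add_right, inner_smul_right]
    rw [real_inner_self_eq_norm_sq, he, real_inner_comm, F.inner_eq]
    simp
  have hfs : Function.Surjective f := fun t => ⟨t • e + F.ι 0, hfe t 0⟩
  have hopen : IsOpenMap f := f.isOpenMap hfs
  have hcI : Convex ℝ (f '' K) := hK.convex.linear_image f.toLinearMap
  have hfr : volume (frontier (f '' K)) = 0 := hcI.addHaar_frontier volume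
  have h1 : ∀ᵐ t : ℝ, t ∉ frontier (f '' K) := by
    rw [ae_iff]; simpa using hfr
  filter_upwards [h1] with t ht
  by_cases hm : t ∈ f '' K
  · left
    have hti : t ∈ interior (f '' K) := by
      by_contra hc
      exact ht ⟨subset_closure hm, hc⟩
    refine ⟨F.sl_isCompact_slice hK.isCompact t, F.sl_convex_slice hK.convex t, ?_⟩
    have h2 : interior (f '' K) ⊆ f '' interior K := by
      have hO : IsOpen (f '' interior K) := hopen _ isOpen_interior
      have hOc : Convex ℝ (f '' interior K) := hK.convex.interior.linear_image f.toLinearMap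
      have h3 : f '' K ⊆ closure (f '' interior K) := by
        have : K ⊆ closure (interior K) := by
          rw [hK.convex.closure_interior_eq_closure_of_nonempty_interior hK.interior_nonempty]
          exact subset_closure
        exact (image_mono this).trans (image_closure_subset_closure_image f.continuous)
      have h4 := interior_mono h3
      rwa [hOc.interior_closure_eq_interior_of_nonempty_interior
        (by rw [hO.interior_eq]; exact hK.interior_nonempty.image f), hO.interior_eq] at h4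
    obtain ⟨x, hx, hxt⟩ := h2 hti
    obtain ⟨s, y, rfl⟩ := F.surj x
    rw [hfe] at hxt
    subst hxt
    refine ⟨y, ?_⟩
    have hO : IsOpen (F.slice (interior K) s) := by
      have : F.slice (interior K) s = (fun y => s • e + F.ι y) ⁻¹' (interior K) := rfl
      rw [this]
      exact isOpen_interior.preimage (by have := F.ι.continuous; fun_prop)
    exact interior_maximal (s := F.slice K s) (fun z hz => interior_subset (s := K) hz) hO hx
  · right
    ext y
    simp only [mem_empty_iff_false, iff_false]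
    intro hy
    exact hm ⟨_, hy, hfe t y⟩

end Frame

lemma sl_ofReal_integral_le {α : Type*} [MeasurableSpace α] {μ : Measure α} (f : α → ℝ) (hf : 0 ≤ f) :
    ENNReal.ofReal (∫ x, f x ∂μ) ≤ ∫⁻ x, ENNReal.ofReal (f x) ∂μ := by
  by_cases h : Integrable f μ
  · rw [ofReal_integral_eq_lintegral_ofReal h (Filter.Eventually.of_forall hf)]
  · rw [integral_undef h]; simp

lemma sl_V1_nonneg {K L : Set (E n)} (h : (0 : E n) ∈ L) : 0 ≤ V1 K L :=
  integral_nonneg fun _ => hs_nonneg h _

lemma sl_ofReal_V1_PB_le {Q L : Set (E n)} (h0 : (0 : E n) ∈ PB L)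
    (hs_PB : ∀ u : E n, hs (PB L) u = sh L u) :
    ENNReal.ofReal (V1 Q (PB L)) ≤ ∫⁻ x in Q, ENNReal.ofReal (sh L (nu Q x)) := by
  have h1 : (fun x => sh L (nu Q x)) = fun x => hs (PB L) (nu Q x) := by
    funext x; rw [hs_PB]
  have h2 := sl_ofReal_integral_le (μ := volume.restrict Q) (fun x => sh L (nu Q x))
    (by rw [h1]; exact fun x => hs_nonneg h0 _)
  have h3 : V1 Q (PB L) = ∫ x in Q, sh L (nu Q x) := by
    unfold V1; rw [h1]
  rw [h3]
  exact h2

/-- The slice inequality, from the properties of projection bodies, the gauge calculus, and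
Minkowski's first inequality (all of them hypotheses here). -/
theorem slice_ineq_core {m : ℕ} (hn2 : 2 ≤ m + 1) {c : ℝ} (hc : 0 ≤ c)
    (hP : ∀ L : Set (E (m + 1)), CB L → c * vol L ^ m ≤ vol (PB L))
    {K : Set (E (m + 1 + 1))} (hK : CB K) {e : E (m + 1 + 1)} (he : ‖e‖ = 1) (F : Frame e)
    (hM : CB (PB K)) (hM0 : (0 : E (m + 1 + 1)) ∈ interior (PB K))
    (hs_PBK : ∀ u, hs (PB K) u = sh K u)
    (hsh : sh (PB K) e = vol (F.shadow (PB K)))
    (area_eq : ∀ t, area K e t = vol (F.slice K t))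
    (CB_PB : ∀ L : Set (E (m + 1)), CB L → CB (PB L))
    (zero_mem_interior_PB : ∀ L : Set (E (m + 1)), CB L → (0 : E (m + 1)) ∈ interior (PB L))
    (hs_PB : ∀ L : Set (E (m + 1)), CB L → ∀ u, hs (PB L) u = sh L u)
    (minkowski_first : ∀ Q L : Set (E (m + 1)), CB Q → (0 : E (m + 1)) ∈ interior Q → CB L →
      vol Q ^ m * vol L ≤ V1 Q L ^ (m + 1))
    (ae_hs_nu : ∀ Q : Set (E (m + 1)), CB Q → (0 : E (m + 1)) ∈ interior Q →
      ∀ᵐ x ∂(volume.restrict Q), hs Q (nu Q x) = 1)
    (measurable_nu : ∀ Q : Set (E (m + 1)), Measurable (nu Q)) :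
    c * NK K e ≤ sh (PB K) e := by
  set Q := F.shadow (PB K) with hQdef
  have hQ : CB Q := F.sl_CB_shadow hM
  have hQ0 : (0 : E (m + 1)) ∈ interior Q := F.sl_zero_mem_interior_shadow hM0
  have hQv : 0 < vol Q := hQ.vol_pos
  rw [hsh]
  set p : ℝ := (((m + 1 : ℕ) : ℝ) - 1) / ((m + 1 : ℕ) : ℝ) with hp
  have hm1 : (0 : ℝ) < ((m + 1 : ℕ) : ℝ) := by positivity
  have hp0 : 0 < p := by
    rw [hp]
    apply div_pos _ hm1
    have : (2 : ℝ) ≤ ((m + 1 : ℕ) : ℝ) := by exact_mod_cast hn2
    linarith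
  set a : ℝ := vol Q ^ p * c ^ (1 / ((m + 1 : ℕ) : ℝ)) with ha
  have ha0 : 0 ≤ a := by positivity
  -- lower bound for the mixed volume of a slice
  have hslice : ∀ L : Set (E (m + 1)), CB L → a * vol L ^ p ≤ V1 Q (PB L) := by
    intro L hL
    have hPL := CB_PB L hL
    have hV0 : 0 ≤ V1 Q (PB L) := sl_V1_nonneg (interior_subset (zero_mem_interior_PB L hL))
    have h1 := minkowski_first Q _ hQ hQ0 hPL
    have h2 := hP L hL
    have h3 : (a * vol L ^ p) ^ (m + 1) ≤ V1 Q (PB L) ^ (m + 1) := by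
      refine le_trans (le_of_eq ?_) ((mul_le_mul_of_nonneg_left h2 (pow_nonneg hQv.le m)).trans h1)
      have hL0 : 0 ≤ vol L := vol_nonneg L
      have hpp : ∀ x : ℝ, 0 ≤ x → (x ^ p) ^ (m + 1) = x ^ m := by
        intro x hx
        rw [← Real.rpow_natCast, ← Real.rpow_mul hx, hp, div_mul_cancel₀ _ hm1.ne']
        rw [← Real.rpow_natCast]
        congr 1
        push_cast; ring
      rw [ha, mul_pow, mul_pow, hpp _ hQv.le, hpp _ hL0, ← Real.rpow_natCast (c ^ _),
        ← Real.rpow_mul hc, one_div, inv_mul_cancel₀ hm1.ne', Real.rpow_one]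
      ring
    exact le_of_pow_le_pow_left₀ (Nat.succ_ne_zero m) hV0 h3
  -- the main chain
  have hchain : ENNReal.ofReal (∫ t, a * area K e t ^ p) ≤ volume Q := by
    refine (sl_ofReal_integral_le _ fun t => mul_nonneg ha0 (Real.rpow_nonneg
      (by unfold area; exact ENNReal.toReal_nonneg) _)).trans ?_
    have hswap : volume Q = ∫⁻ t, ∫⁻ x in Q, ENNReal.ofReal (sh (F.slice K t) (nu Q x)) := by
      have h1 : volume Q = ∫⁻ x in Q, ENNReal.ofReal (sh K (F.ι (nu Q x))) := by
        have : ∫⁻ x in Q, ENNReal.ofReal (sh K (F.ι (nu Q x))) = ∫⁻ x in Q, 1 := by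
          apply lintegral_congr_ae
          filter_upwards [ae_hs_nu Q hQ hQ0] with x hx
          rw [← hs_PBK, ← F.sl_hs_shadow, hx, ENNReal.ofReal_one]
        rw [this]; simp
      exact h1.trans (F.sl_lintegral_swap hK.isCompact (measurable_nu Q) Q)
    rw [hswap]
    apply lintegral_mono_ae
    filter_upwards [F.sl_ae_slice hK he] with t ht
    rw [area_eq t]
    rcases ht with ht | ht
    · exact (ENNReal.ofReal_le_ofReal (hslice _ ht)).trans
        (sl_ofReal_V1_PB_le (interior_subset (zero_mem_interior_PB _ ht)) (hs_PB _ ht))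
    · rw [ht]
      have : vol (∅ : Set (E (m + 1))) = 0 := by simp [vol]
      rw [this, Real.zero_rpow hp0.ne']
      simp
  rw [integral_const_mul] at hchain
  set I := ∫ t, area K e t ^ p with hI
  have hI0 : 0 ≤ I := integral_nonneg fun t => Real.rpow_nonneg
      (by unfold area; exact ENNReal.toReal_nonneg) _
  have h1 : a * I ≤ vol Q := (ENNReal.ofReal_le_iff_le_toReal hQ.isCompact.measure_lt_top.ne).1 hchain
  have hNK : NK K e = I ^ (m + 1) := rfl
  rw [hNK]
  have h2 : (a * I) ^ (m + 1) ≤ vol Q ^ (m + 1) := pow_le_pow_left₀ (mul_nonneg ha0 hI0) h1 _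
  have h3 : (a * I) ^ (m + 1) = vol Q ^ m * (c * I ^ (m + 1)) := by
    rw [ha, mul_pow, mul_pow, ← Real.rpow_natCast (vol Q ^ p), ← Real.rpow_mul hQv.le, hp,
      div_mul_cancel₀ _ hm1.ne', ← Real.rpow_natCast (c ^ _),
      ← Real.rpow_mul hc, one_div, inv_mul_cancel₀ hm1.ne', Real.rpow_one]
    have : ((m + 1 : ℕ) : ℝ) - 1 = (m : ℝ) := by push_cast; ring
    rw [this, Real.rpow_natCast]
    ring
  rw [h3, pow_succ] at h2
  exact le_of_mul_le_mul_left h2 (pow_pos hQv m)

end Crest.Agent.R230
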