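import Crest.Agent.R230.WTailRed

/-!
# Row 230: reduction for the soft contact with gauge `e(s) E(u)`

`softE_concl` : contact `φ = s e^u`, `u = V (l - cap(τ))` on `[s₁, 1)`, gauge `G(s) = e(s) E(u)`.
-/

set_option autoImplicit false

open MeasureTheory Set Filter Topology
open scoped Pointwise ENNReal

namespace Crest.Agent.R230.WR

/-- correction of the gauge `G = e E(u)`: `-(G + s G' - (n-1) Y G)`, `se = s e'`, `su = s u'` -/
noncomputable def gaugeE (n : ℕ) (s e se E E1 su : ℝ) : ℝ :=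
  (((n : ℝ) - 1) * Y s - 1) * (e * E) - se * E - e * (E1 * su)

variable {n : ℕ} {r : ℝ → ℝ}

theorem softE_concl (hn : 5 ≤ n) (hr : Prof r) {P : ℝ → ℝ} (nP : NI n P)
    (hPle : JJ n P ≤ JJ n (fun s => clo n s (ll n r s) (kk n r s)))
    {V V' cap cap' E E' e e' : ℝ → ℝ} {x0 s1 : ℝ}
    (hV : ∀ x, HasDerivAt V (V' x) x) (hVc : Continuous V') (hV0 : ∀ x ≤ x0, V x = 0)
    (hcap : ∀ t, HasDerivAt cap (cap' t) t) (hcapc : Continuous cap')
    (hE : ∀ x, HasDerivAt E (E' x) x) (hEc : Continuous E') (hE0 : E 0 = 0)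
    (he : ∀ s ∈ Ioo (0 : ℝ) 1, HasDerivAt e (e' s) s) (hec : ContinuousOn e' (Ioo 0 1))
    (hs1 : s1 ∈ Ioo (0 : ℝ) 1) (hx1 : ll n r s1 - cap (tau n r s1) ≤ x0)
    (hcap1 : -cap 1 < x0)
    (hleg : ∀ s ∈ Ioo (0 : ℝ) s1, Legal n r s)
    (hnear : ∀ s ∈ Ioo (0 : ℝ) s1, 0 ≤ P s) (hnear0 : ∀ s ∈ Ioo (0 : ℝ) s1, P s = 0 → ll n r s = 0)
    (hu1 : ∀ s ∈ Ico s1 (1 : ℝ), s * Real.exp (V (ll n r s - cap (tau n r s))) < 1)
    (hadm : ∀ s ∈ Ico s1 (1 : ℝ),
      xA (1 / cc (s * Real.exp (V (ll n r s - cap (tau n r s)))))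
        (ll n r s - V (ll n r s - cap (tau n r s))) ≤
      xB (tau n r s) (1 / cc (s * Real.exp (V (ll n r s - cap (tau n r s)))))
        (ll n r s - V (ll n r s - cap (tau n r s))))
    (htail : ∀ s ∈ Ico s1 (1 : ℝ), ∀ u su : ℝ, u = V (ll n r s - cap (tau n r s)) →
      su = V' (ll n r s - cap (tau n r s)) * (kk n r s - cap' (tau n r s) * (tau n r s * (1 + kk n r s))) →
      0 ≤ P s + lineC n s (ll n r s) (kk n r s) u su + gaugeE n s (e s) (s * e' s) (E u) (E' u) su ∧
      (P s + lineC n s (ll n r s) (kk n r s) u su + gaugeE n s (e s) (s * e' s) (E u) (E' u) su = 0 →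
        ll n r s = 0)) : Concl n r := by
  classical
  have hl := continuousOn_ll hr n
  have hVcont : Continuous V := continuous_iff_continuousAt.2 fun x => (hV x).continuousAt
  have hEcont : Continuous E := continuous_iff_continuousAt.2 fun x => (hE x).continuousAt
  have hcapcont : Continuous cap := continuous_iff_continuousAt.2 fun x => (hcap x).continuousAt
  have hT := tau_continuous hr n
  set X : ℝ → ℝ := fun s => ll n r s - cap (tau n r s) with hX
  have hXc : ContinuousOn X (Icc 0 1) := hl.sub (hcapcont.comp hT).continuousOn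
  set m : ℝ → ℝ := fun s => max s s1 with hm
  have hmc : Continuous m := continuous_id.max continuous_const
  have hmaps : MapsTo m (Icc 0 1) (Icc 0 1) := fun s hs =>
    ⟨hs.1.trans (le_max_left _ _), max_le hs.2 hs1.2.le⟩
  have hm_lt : ∀ s, s < s1 → m s = s1 := fun s h => max_eq_right h.le
  have hm_ge : ∀ s, s1 ≤ s → m s = s := fun s h => max_eq_left h
  set h : ℝ → ℝ := fun s => V' (X s) * (kk n r s / s - cap' (tau n r s) * dtau n r s) with hh
  set u : ℝ → ℝ := fun s => V (X (m s)) with hu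
  set u' : ℝ → ℝ := fun s => if s < s1 then 0 else h s with hu'
  set g : ℝ → ℝ := fun s => e' s * E (V (X s)) + e s * (E' (V (X s)) * h s) with hg
  set G : ℝ → ℝ := fun s => e (m s) * E (V (X (m s))) with hG
  set G' : ℝ → ℝ := fun s => if s < s1 then 0 else g s with hG'
  -- derivatives
  have hXd : ∀ s ∈ Ioo (0 : ℝ) 1, HasDerivAt X (kk n r s / s - cap' (tau n r s) * dtau n r s) s := by
    intro s hs
    have h1 := (hcap (tau n r s)).comp s (hasDerivAt_tau hr n (s := s) ⟨by linarith [hs.1], hs.2⟩)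
    exact (hasDerivAt_ll hr n hs).sub h1
  have hVX : ∀ s ∈ Ioo (0 : ℝ) 1, HasDerivAt (fun s => V (X s)) (h s) s := fun s hs =>
    (hV (X s)).comp s (hXd s hs)
  have hGX : ∀ s ∈ Ioo (0 : ℝ) 1, HasDerivAt (fun s => e s * E (V (X s))) (g s) s := fun s hs => by
    have h1 := (hE (V (X s))).comp s (hVX s hs)
    exact (he s hs).mul h1
  have hright : ∀ {f : ℝ → ℝ} {f' s : ℝ}, s ∈ Ioo (0 : ℝ) 1 → s1 ≤ s → HasDerivAt f f' s →
      HasDerivWithinAt (fun x => f (m x)) f' (Ioi s) s := by
    intro f f' s _ h1 hd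
    refine hd.hasDerivWithinAt.congr (fun x hx => ?_) ?_
    · rw [hm_ge x (h1.trans (le_of_lt hx))]
    · rw [hm_ge s h1]
  have hleft : ∀ {f : ℝ → ℝ} {s : ℝ}, s < s1 → HasDerivWithinAt (fun x => f (m x)) 0 (Ioi s) s := by
    intro f s h1
    have h2 : (fun x => f (m x)) =ᶠ[𝓝 s] fun _ => f s1 := by
      filter_upwards [Iio_mem_nhds h1] with x hx
      rw [hm_lt x hx]
    exact ((hasDerivAt_const s (f s1)).congr_of_eventuallyEq h2).hasDerivWithinAt
  -- near one
  have hnear1 : ∃ δ < 1, ∀ s ∈ Icc δ (1 : ℝ), X (m s) ≤ x0 := by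
    have hc : ContinuousWithinAt (fun s => X (m s)) (Icc 0 1) 1 :=
      (hXc.comp hmc.continuousOn hmaps) 1 ⟨zero_le_one, le_rfl⟩
    have hv : X (m 1) < x0 := by
      rw [hm_ge 1 hs1.2.le]
      simp only [hX]
      rw [ll_one hr n, tau_one hr n]
      linarith
    have h2 := hc.eventually_lt_const hv
    rw [eventually_nhdsWithin_iff] at h2
    obtain ⟨ε, he, h3⟩ := Metric.eventually_nhds_iff.1 h2
    refine ⟨max (1 - ε / 2) 0, max_lt (by linarith) one_pos, fun s hs => ?_⟩
    have hs0 : 0 ≤ s := (le_max_right _ _).trans hs.1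
    have hs2 : 1 - ε / 2 ≤ s := (le_max_left _ _).trans hs.1
    refine (h3 ?_ ⟨hs0, hs.2⟩).le
    rw [Real.dist_eq, abs_of_nonpos (by linarith [hs.2])]
    linarith
  obtain ⟨δ, hδ, hδ1⟩ := hnear1
  -- boundedness of u'
  have hhc : ContinuousOn h (Ioo 0 1) := by
    refine (hVc.comp_continuousOn (hXc.mono Ioo_subset_Icc_self)).mul ?_
    refine ContinuousOn.sub ?_ ?_
    · exact (continuousOn_kk hr n).div continuousOn_id fun s hs => hs.1.ne'
    · exact (hcapc.comp hT).continuousOn.mul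
        ((continuousOn_dtau hr n).mono (Ioo_subset_Ioo_left (by norm_num)))
  have hecont : ContinuousOn e (Ioo 0 1) := fun s hs => (he s hs).continuousAt.continuousWithinAt
  have hgc : ContinuousOn g (Ioo 0 1) := by
    have h1 : ContinuousOn (fun s => V (X s)) (Ioo 0 1) :=
      hVcont.comp_continuousOn (hXc.mono Ioo_subset_Icc_self)
    exact (hec.mul (hEcont.comp_continuousOn h1)).add
      (hecont.mul ((hEc.comp_continuousOn h1).mul hhc))
  have hV'0 : ∀ x < x0, V' x = 0 := by
    intro x hx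
    have h2 : V =ᶠ[𝓝 x] fun _ => 0 := by
      filter_upwards [Iio_mem_nhds hx] with y hy
      exact hV0 y (le_of_lt hy)
    exact (hV x).unique ((hasDerivAt_const x (0 : ℝ)).congr_of_eventuallyEq h2)
  have hV'0' : ∀ x ≤ x0, V' x = 0 := by
    intro x hx
    rcases hx.eq_or_lt with h2 | h2
    · subst h2
      have hcl : IsClosed {y : ℝ | V' y = 0} := isClosed_eq hVc continuous_const
      have hsub : closure (Iio x) ⊆ {y : ℝ | V' y = 0} :=
        hcl.closure_subset_iff.2 fun y hy => hV'0 y hy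
      rw [closure_Iio] at hsub
      exact hsub (mem_Iic.2 le_rfl)
    · exact hV'0 x h2
  have hbdd : ∀ {f : ℝ → ℝ}, ContinuousOn f (Ioo 0 1) → (∀ s ∈ Ioo (0 : ℝ) 1, X s ≤ x0 → f s = 0) →
      ∃ K, ∀ s ∈ Ioo (0 : ℝ) 1, |(if s < s1 then 0 else f s)| ≤ K := by
    intro f hf hf0
    have hsub : Icc s1 (max δ s1) ⊆ Ioo 0 1 := fun s hs =>
      ⟨hs1.1.trans_le hs.1, hs.2.trans_lt (max_lt hδ hs1.2)⟩
    obtain ⟨K, hK⟩ := (isCompact_Icc (a := s1) (b := max δ s1)).exists_bound_of_continuousOn (hf.mono hsub)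
    refine ⟨max K 0, fun s hs => ?_⟩
    split_ifs with h1
    · simp
    · push Not at h1
      by_cases h2 : s ≤ max δ s1
      · exact (hK s ⟨h1, h2⟩).trans (le_max_left _ _)
      · push Not at h2
        have h3 := hδ1 s ⟨(le_max_left _ _).trans h2.le, hs.2.le⟩
        rw [hm_ge s h1] at h3
        rw [hf0 s hs h3, abs_zero]
        exact le_max_right _ _
  have hub : ∃ K, ∀ s ∈ Ioo (0 : ℝ) 1, |u' s| ≤ K := by
    refine hbdd hhc fun s hs h3 => ?_
    simp only [hh]
    rw [hV'0' _ h3, zero_mul]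
  have hgb : ∃ K, ∀ s ∈ Ioo (0 : ℝ) 1, |G' s| ≤ K := by
    refine hbdd hgc fun s hs h3 => ?_
    simp only [hg, hh]
    rw [hV'0' _ h3, hV0 _ h3, hE0, zero_mul, mul_zero, mul_zero, mul_zero, add_zero]
  have hmeas : ∀ {f : ℝ → ℝ}, ContinuousOn f (Ioo 0 1) →
      AEStronglyMeasurable (fun s => if s < s1 then 0 else f s) (volume.restrict (Ioo 0 1)) := by
    intro f hf
    have h1 : AEStronglyMeasurable f (volume.restrict (Ioo 0 1)) :=
      hf.aestronglyMeasurable measurableSet_Ioo
    have h2 := h1.indicator (measurableSet_Ici (a := s1))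
    refine h2.congr (Eventually.of_forall fun s => ?_)
    by_cases h3 : s < s1
    · simp [h3]
    · simp [h3, not_lt.1 h3]
  have hum : AEStronglyMeasurable u' (volume.restrict (Ioo 0 1)) := hmeas hhc
  have hgm : AEStronglyMeasurable G' (volume.restrict (Ioo 0 1)) := hmeas hgc
  have hskk : ∀ s ∈ Ioo (0 : ℝ) 1, s * h s =
      V' (X s) * (kk n r s - cap' (tau n r s) * (tau n r s * (1 + kk n r s))) := by
    intro s hs
    have h1 := hs.1.ne'
    have h2 := (tau_mem_half hr n hs).1.ne'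
    simp only [hh]
    rw [one_add_kk]
    field_simp
  -- the lines
  obtain ⟨n1, hU⟩ := tail_hU (n := n) (by omega) hr (u := u) (u' := u')
    (hVcont.comp_continuousOn (hXc.comp hmc.continuousOn hmaps))
    (by
      intro s hs
      simp only [hu']
      split_ifs with h1
      · exact hleft (f := fun s => V (X s)) h1
      · exact hright (f := fun s => V (X s)) hs (not_lt.1 h1) (hVX s hs))
    hum hub
    (by
      intro s hs
      simp only [hu]
      by_cases h1 : s < s1
      · rw [hm_lt s h1, hV0 _ hx1, Real.exp_zero, mul_one]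
        exact hs.2
      · rw [hm_ge s (not_lt.1 h1)]
        exact hu1 s ⟨not_lt.1 h1, hs.2⟩)
    (by
      refine ⟨s1, hs1.1, fun s hs => ?_⟩
      simp only [hu]
      rw [show m s = s1 from max_eq_right hs.2]
      exact hV0 _ hx1)
    (by
      refine ⟨δ, hδ, fun s hs => ?_⟩
      exact hV0 _ (hδ1 s hs))
    (by
      intro s hs
      simp only [hu]
      by_cases h1 : s < s1
      · rw [hm_lt s h1, hV0 _ hx1, Real.exp_zero, mul_one, sub_zero, ll_eq_log hs]
        exact (hleg s ⟨hs.1, h1⟩).adm hs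
      · rw [hm_ge s (not_lt.1 h1)]
        exact hadm s ⟨not_lt.1 h1, hs.2⟩)
  rw [int_raw_eq hr (by omega)] at hU
  -- the gauge
  have hGc : ContinuousOn G (Icc 0 1) := by
    intro x hx
    rcases lt_or_ge δ x with h1 | h1
    · have h2 : G =ᶠ[𝓝[Icc 0 1] x] fun _ => 0 := by
        filter_upwards [self_mem_nhdsWithin, mem_nhdsWithin_of_mem_nhds (Ioi_mem_nhds h1)] with y hy hy1
        simp only [hG]
        rw [hV0 _ (hδ1 y ⟨le_of_lt hy1, hy.2⟩), hE0, mul_zero]
      refine continuousWithinAt_const.congr_of_eventuallyEq h2 ?_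
      simp only [hG]
      rw [hV0 _ (hδ1 x ⟨h1.le, hx.2⟩), hE0, mul_zero]
    · have hx1' : x < 1 := lt_of_le_of_lt h1 hδ
      have hmx : m x ∈ Ioo (0 : ℝ) 1 := ⟨hs1.1.trans_le (le_max_right _ _), max_lt hx1' hs1.2⟩
      have hce : ContinuousAt (fun s => e (m s)) x :=
        ContinuousAt.comp (g := e) (he _ hmx).continuousAt hmc.continuousAt
      have hcV : ContinuousWithinAt (fun s => E (V (X (m s)))) (Icc 0 1) x :=
        (hEcont.comp hVcont).continuousAt.comp_continuousWithinAt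
          ((hXc.comp hmc.continuousOn hmaps) x hx)
      exact hce.continuousWithinAt.mul hcV
  have hGd : ∀ s ∈ Ioo (0 : ℝ) 1, HasDerivWithinAt G (G' s) (Ioi s) s := by
    intro s hs
    simp only [hG']
    split_ifs with h1
    · exact hleft (f := fun s => e s * E (V (X s))) h1
    · exact hright (f := fun s => e s * E (V (X s))) hs (not_lt.1 h1) (hGX s hs)
  have nG' : NI n (fun s => s * G' s) := by
    obtain ⟨K, hK⟩ := hgb
    have n2 : NI n (fun s => (fun s => s * G' s) s * 1) := by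
      refine NI.bdd_mul (n := n) (g := fun _ => 1) (NI_cont continuousOn_const) ?_ (C := K) ?_
      · exact measurable_id.aestronglyMeasurable.mul hgm
      · intro s hs
        rw [abs_mul, abs_of_pos hs.1]
        have h1 := hK s hs
        calc s * |G' s| ≤ 1 * |G' s| := mul_le_mul_of_nonneg_right hs.2.le (abs_nonneg _)
          _ ≤ K := by rw [one_mul]; exact h1
    exact n2.congr fun s _ => by ring
  have hG0 := null_GR (n := n) (by omega) hGc hGd nG'
  have nG : NI n (fun s => G s + s * G' s - ((n : ℝ) - 1) * (Y s * G s)) :=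
    ((NI_cont hGc).add nG').sub ((NI_Y (by omega) hGc).smul _)
  refine conclude hr (by omega) ((nP.add n1).sub nG) ?_ (fun s hs => ?_) (fun s hs hfs => ?_)
  · rw [JJ_sub (nP.add n1) nG, JJ_add nP n1, hG0]
    linarith
  · by_cases h1 : s < s1
    · have e1 : G s = 0 := by simp only [hG]; rw [hm_lt s h1, hV0 _ hx1, hE0, mul_zero]
      simp only [hu, hu', hG']
      rw [e1, if_pos h1, if_pos h1, hm_lt s h1, hV0 _ hx1, mul_zero, lineC_zero]
      simp only [mul_zero, add_zero, sub_zero]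
      exact hnear s ⟨hs.1, h1⟩
    · have h2 := (htail s ⟨not_lt.1 h1, hs.2⟩ _ _ rfl rfl).1
      refine le_of_le_of_eq h2 ?_
      simp only [hu, hu', hG', hG]
      rw [if_neg h1, if_neg h1, hm_ge s (not_lt.1 h1), hskk s hs]
      simp only [hg]
      have e3 : s * (e' s * E (V (X s)) + e s * (E' (V (X s)) * h s)) =
          s * e' s * E (V (X s)) + e s * (E' (V (X s)) * (s * h s)) := by ring
      rw [e3, hskk s hs]
      unfold gaugeE
      ring
  · by_cases h1 : s < s1
    · have e1 : G s = 0 := by simp only [hG]; rw [hm_lt s h1, hV0 _ hx1, hE0, mul_zero]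
      simp only [hu, hu', hG'] at hfs
      rw [e1, if_pos h1, if_pos h1, hm_lt s h1, hV0 _ hx1, mul_zero, lineC_zero] at hfs
      simp only [mul_zero, add_zero, sub_zero] at hfs
      exact hnear0 s ⟨hs.1, h1⟩ hfs
    · refine (htail s ⟨not_lt.1 h1, hs.2⟩ _ _ rfl rfl).2 ?_
      rw [← hfs]
      simp only [hu, hu', hG', hG]
      rw [if_neg h1, if_neg h1, hm_ge s (not_lt.1 h1), hskk s hs]
      simp only [hg]
      have e3 : s * (e' s * E (V (X s)) + e s * (E' (V (X s)) * h s)) =
          s * e' s * E (V (X s)) + e s * (E' (V (X s)) * (s * h s)) := by ring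
      rw [e3, hskk s hs]
      unfold gaugeE
      ring

end Crest.Agent.R230.WR
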