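import Crest.Agent.R230.DefsE

/-!
Monotone transport between even densities on `[-1,1]`.
-/

set_option autoImplicit false

open MeasureTheory Set Filter Topology
open scoped Pointwise ENNReal

namespace Crest.Agent.R230.Tr

/-- admissible (unnormalised) densities -/
structure Dens (g : ℝ → ℝ) : Prop where
  cont : ContinuousOn g (Icc (-1) 1)
  pos : ∀ s ∈ Ioo (-1 : ℝ) 1, 0 < g s
  even : ∀ s ∈ Icc (-1 : ℝ) 1, g (-s) = g s

/-- primitive -/
noncomputable def prim (g : ℝ → ℝ) (t : ℝ) : ℝ := ∫ s in (-1 : ℝ)..t, g s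

namespace Dens

variable {g : ℝ → ℝ} (hg : Dens g)
include hg

lemma nonneg {s : ℝ} (hs : s ∈ Icc (-1 : ℝ) 1) : 0 ≤ g s := by
  have h1 : closure (Ioo (-1 : ℝ) 1) = Icc (-1) 1 := closure_Ioo (by norm_num)
  have h2 : ContinuousWithinAt g (Ioo (-1) 1) s := (hg.cont s hs).mono Ioo_subset_Icc_self
  have h3 : s ∈ closure (Ioo (-1 : ℝ) 1) := by rw [h1]; exact hs
  haveI : (𝓝[Ioo (-1 : ℝ) 1] s).NeBot := mem_closure_iff_nhdsWithin_neBot.1 h3
  refine ge_of_tendsto h2 ?_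
  filter_upwards [self_mem_nhdsWithin] with x hx
  exact (hg.pos x hx).le

lemma intervalIntegrable {a b : ℝ} (ha : a ∈ Icc (-1 : ℝ) 1) (hb : b ∈ Icc (-1 : ℝ) 1) :
    IntervalIntegrable g volume a b := by
  refine ContinuousOn.intervalIntegrable (hg.cont.mono ?_)
  exact (ordConnected_Icc.uIcc_subset ha hb)

lemma prim_neg_one : prim g (-1) = 0 := by simp [prim]

lemma hasDerivAt_prim {t : ℝ} (ht : t ∈ Ioo (-1 : ℝ) 1) : HasDerivAt (prim g) (g t) t := by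
  have hc : ContinuousAt g t := hg.cont.continuousAt (Icc_mem_nhds ht.1 ht.2)
  refine intervalIntegral.integral_hasDerivAt_right
    (hg.intervalIntegrable ⟨le_rfl, by norm_num⟩ ⟨ht.1.le, ht.2.le⟩) ?_ hc
  exact (hg.cont.mono Ioo_subset_Icc_self).stronglyMeasurableAtFilter isOpen_Ioo t ht

lemma continuousOn_prim : ContinuousOn (prim g) (Icc (-1) 1) := by
  have h := intervalIntegral.continuousOn_primitive_interval (f := g) (a := -1) (b := 1)
    (μ := volume) (by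
      rw [uIcc_of_le (by norm_num)]
      exact hg.cont.integrableOn_compact isCompact_Icc)
  rw [uIcc_of_le (by norm_num)] at h
  exact h

lemma strictMonoOn_prim : StrictMonoOn (prim g) (Icc (-1) 1) := by
  refine strictMonoOn_of_deriv_pos (convex_Icc _ _) hg.continuousOn_prim fun x hx => ?_
  rw [interior_Icc] at hx
  rw [(hg.hasDerivAt_prim hx).deriv]
  exact hg.pos x hx

lemma prim_mem {t : ℝ} (ht : t ∈ Icc (-1 : ℝ) 1) : prim g t ∈ Icc 0 (prim g 1) := by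
  have h1 := hg.strictMonoOn_prim.monotoneOn ⟨le_rfl, by norm_num⟩ ht ht.1
  have h2 := hg.strictMonoOn_prim.monotoneOn ht ⟨by norm_num, le_rfl⟩ ht.2
  rw [hg.prim_neg_one] at h1
  exact ⟨h1, h2⟩

lemma exists_prim_eq {y : ℝ} (hy : y ∈ Icc 0 (prim g 1)) : ∃ t ∈ Icc (-1 : ℝ) 1, prim g t = y := by
  have h := intermediate_value_Icc (show (-1 : ℝ) ≤ 1 by norm_num) hg.continuousOn_prim
  rw [hg.prim_neg_one] at h
  exact h hy

lemma prim_pos : 0 < prim g 1 := by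
  have := hg.strictMonoOn_prim ⟨le_rfl, by norm_num⟩ ⟨by norm_num, le_rfl⟩ (by norm_num : (-1 : ℝ) < 1)
  rwa [hg.prim_neg_one] at this

lemma prim_neg {t : ℝ} (ht : t ∈ Icc (-1 : ℝ) 1) : prim g (-t) = prim g 1 - prim g t := by
  have hmt : -t ∈ Icc (-1 : ℝ) 1 := ⟨by linarith [ht.2], by linarith [ht.1]⟩
  have h1 : prim g (-t) = ∫ s in t..1, g s := by
    unfold prim
    have h2 := intervalIntegral.integral_comp_neg (a := t) (b := 1) (fun s => g s)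
    rw [← h2]
    refine intervalIntegral.integral_congr fun s hs => ?_
    rw [uIcc_of_le ht.2] at hs
    exact hg.even s ⟨ht.1.trans hs.1, hs.2⟩
  rw [h1]
  have h3 := intervalIntegral.integral_add_adjacent_intervals
    (hg.intervalIntegrable ⟨le_rfl, by norm_num⟩ ht) (hg.intervalIntegrable ht ⟨by norm_num, le_rfl⟩)
  unfold prim
  linarith

end Dens

section transport

variable {g₀ g₁ : ℝ → ℝ} (h₀ : Dens g₀) (h₁ : Dens g₁) (hM : prim g₀ 1 = prim g₁ 1)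

open Classical in
/-- the monotone transport -/
noncomputable def trans (g₀ g₁ : ℝ → ℝ) (s : ℝ) : ℝ :=
  if h : s ∈ Icc (-1 : ℝ) 1 ∧ ∃ t ∈ Icc (-1 : ℝ) 1, prim g₁ t = prim g₀ s then h.2.choose else s

include h₀ h₁ hM

lemma trans_spec {s : ℝ} (hs : s ∈ Icc (-1 : ℝ) 1) :
    trans g₀ g₁ s ∈ Icc (-1 : ℝ) 1 ∧ prim g₁ (trans g₀ g₁ s) = prim g₀ s := by
  have h : s ∈ Icc (-1 : ℝ) 1 ∧ ∃ t ∈ Icc (-1 : ℝ) 1, prim g₁ t = prim g₀ s := by
    refine ⟨hs, h₁.exists_prim_eq ?_⟩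
    rw [← hM]
    exact h₀.prim_mem hs
  unfold trans
  rw [dif_pos h]
  exact h.2.choose_spec

omit h₀ h₁ hM in
lemma trans_of_notMem {s : ℝ} (hs : s ∉ Icc (-1 : ℝ) 1) : trans g₀ g₁ s = s := by
  unfold trans
  rw [dif_neg]
  exact fun h => hs h.1

lemma trans_unique {s t : ℝ} (hs : s ∈ Icc (-1 : ℝ) 1) (ht : t ∈ Icc (-1 : ℝ) 1)
    (h : prim g₁ t = prim g₀ s) : trans g₀ g₁ s = t := by
  obtain ⟨h1, h2⟩ := trans_spec h₀ h₁ hM hs
  exact h₁.strictMonoOn_prim.injOn h1 ht (h2.trans h.symm)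

lemma trans_strictMonoOn : StrictMonoOn (trans g₀ g₁) (Icc (-1) 1) := by
  intro a ha b hb hab
  obtain ⟨a1, a2⟩ := trans_spec h₀ h₁ hM ha
  obtain ⟨b1, b2⟩ := trans_spec h₀ h₁ hM hb
  rw [← h₁.strictMonoOn_prim.lt_iff_lt a1 b1, a2, b2]
  exact h₀.strictMonoOn_prim ha hb hab

lemma trans_monotone : Monotone (trans g₀ g₁) := by
  intro a b hab
  by_cases ha : a ∈ Icc (-1 : ℝ) 1
  · by_cases hb : b ∈ Icc (-1 : ℝ) 1
    · exact (trans_strictMonoOn h₀ h₁ hM).monotoneOn ha hb hab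
    · rw [trans_of_notMem hb]
      have h1 := (trans_spec h₀ h₁ hM ha).1.2
      by_contra hcon
      push Not at hcon
      exact hb ⟨ha.1.trans hab, by linarith⟩
  · rw [trans_of_notMem ha]
    by_cases hb : b ∈ Icc (-1 : ℝ) 1
    · have h1 := (trans_spec h₀ h₁ hM hb).1.1
      by_contra hcon
      push Not at hcon
      exact ha ⟨by linarith, hab.trans hb.2⟩
    · rw [trans_of_notMem hb]; exact hab

lemma trans_surjective : Function.Surjective (trans g₀ g₁) := by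
  intro y
  by_cases hy : y ∈ Icc (-1 : ℝ) 1
  · obtain ⟨s, hs, h⟩ := h₀.exists_prim_eq (y := prim g₁ y) (by rw [hM]; exact h₁.prim_mem hy)
    exact ⟨s, trans_unique h₀ h₁ hM hs hy h.symm⟩
  · exact ⟨y, trans_of_notMem hy⟩

lemma trans_continuous : Continuous (trans g₀ g₁) :=
  (trans_monotone h₀ h₁ hM).continuous_of_surjective (trans_surjective h₀ h₁ hM)

lemma trans_neg_one : trans g₀ g₁ (-1) = -1 :=
  trans_unique h₀ h₁ hM ⟨le_rfl, by norm_num⟩ ⟨le_rfl, by norm_num⟩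
    (by rw [h₀.prim_neg_one, h₁.prim_neg_one])

lemma trans_one : trans g₀ g₁ 1 = 1 :=
  trans_unique h₀ h₁ hM ⟨by norm_num, le_rfl⟩ ⟨by norm_num, le_rfl⟩ hM.symm

lemma trans_odd {s : ℝ} (hs : s ∈ Icc (-1 : ℝ) 1) : trans g₀ g₁ (-s) = -trans g₀ g₁ s := by
  obtain ⟨a1, a2⟩ := trans_spec h₀ h₁ hM hs
  refine trans_unique h₀ h₁ hM ⟨by linarith [hs.2], by linarith [hs.1]⟩
    ⟨by linarith [a1.2], by linarith [a1.1]⟩ ?_
  rw [h₁.prim_neg a1, h₀.prim_neg hs, a2, hM]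

lemma trans_mem_Ioo {s : ℝ} (hs : s ∈ Ioo (-1 : ℝ) 1) : trans g₀ g₁ s ∈ Ioo (-1 : ℝ) 1 := by
  have hm := trans_strictMonoOn h₀ h₁ hM
  have h1 := hm ⟨le_rfl, by norm_num⟩ ⟨hs.1.le, hs.2.le⟩ hs.1
  have h2 := hm ⟨hs.1.le, hs.2.le⟩ ⟨by norm_num, le_rfl⟩ hs.2
  rw [trans_neg_one h₀ h₁ hM] at h1
  rw [trans_one h₀ h₁ hM] at h2
  exact ⟨h1, h2⟩

lemma trans_zero : trans g₀ g₁ 0 = 0 := by
  have := trans_odd h₀ h₁ hM (s := 0) ⟨by norm_num, by norm_num⟩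
  rw [neg_zero] at this
  linarith

lemma hasDerivAt_trans {s : ℝ} (hs : s ∈ Ioo (-1 : ℝ) 1) :
    HasDerivAt (trans g₀ g₁) (g₀ s / g₁ (trans g₀ g₁ s)) s := by
  have hTs := trans_mem_Ioo h₀ h₁ hM hs
  have hd0 := h₀.hasDerivAt_prim hs
  have hd1 := h₁.hasDerivAt_prim hTs
  rw [hasDerivAt_iff_tendsto_slope] at hd0 hd1 ⊢
  have hc : Tendsto (trans g₀ g₁) (𝓝[≠] s) (𝓝[≠] (trans g₀ g₁ s)) := by
    refine tendsto_nhdsWithin_iff.2 ⟨?_, ?_⟩
    · exact ((trans_continuous h₀ h₁ hM).tendsto s).mono_left nhdsWithin_le_nhds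
    · filter_upwards [self_mem_nhdsWithin,
        mem_nhdsWithin_of_mem_nhds (Icc_mem_nhds hs.1 hs.2)] with x hx hx2
      intro h
      exact hx ((trans_strictMonoOn h₀ h₁ hM).injOn hx2 ⟨hs.1.le, hs.2.le⟩ h)
  have h2 := hd0.div (hd1.comp hc) (h₁.pos _ hTs).ne'
  refine h2.congr' ?_
  filter_upwards [self_mem_nhdsWithin,
    mem_nhdsWithin_of_mem_nhds (Icc_mem_nhds hs.1 hs.2)] with x hx hx2
  have hne : x - s ≠ 0 := sub_ne_zero.2 hx
  have hTne : trans g₀ g₁ x - trans g₀ g₁ s ≠ 0 := by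
    rw [sub_ne_zero]
    intro h
    exact hx ((trans_strictMonoOn h₀ h₁ hM).injOn hx2 ⟨hs.1.le, hs.2.le⟩ h)
  have e1 := (trans_spec h₀ h₁ hM hx2).2
  have e2 := (trans_spec h₀ h₁ hM ⟨hs.1.le, hs.2.le⟩).2
  have hpne : prim g₀ x - prim g₀ s ≠ 0 := by
    rw [sub_ne_zero]
    intro h
    exact hx (h₀.strictMonoOn_prim.injOn hx2 ⟨hs.1.le, hs.2.le⟩ h)
  simp only [Function.comp_apply, Pi.div_apply, slope_def_field, e1, e2]
  field_simp

/-- inverse -/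
lemma trans_inv {s : ℝ} (hs : s ∈ Icc (-1 : ℝ) 1) : trans g₁ g₀ (trans g₀ g₁ s) = s := by
  obtain ⟨a1, a2⟩ := trans_spec h₀ h₁ hM hs
  exact trans_unique h₁ h₀ hM.symm a1 hs a2.symm

lemma image_trans : trans g₀ g₁ '' Ioo (-1) 1 = Ioo (-1 : ℝ) 1 := by
  ext y
  constructor
  · rintro ⟨s, hs, rfl⟩
    exact trans_mem_Ioo h₀ h₁ hM hs
  · intro hy
    refine ⟨trans g₁ g₀ y, trans_mem_Ioo h₁ h₀ hM.symm hy, ?_⟩
    exact trans_inv h₁ h₀ hM.symm ⟨hy.1.le, hy.2.le⟩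

/-- change of variables -/
theorem integral_trans (φ : ℝ → ℝ) :
    ∫ t in (-1 : ℝ)..1, g₁ t * φ t = ∫ s in (-1 : ℝ)..1, g₀ s * φ (trans g₀ g₁ s) := by
  rw [intervalIntegral.integral_of_le (by norm_num), intervalIntegral.integral_of_le (by norm_num),
    integral_Ioc_eq_integral_Ioo, integral_Ioc_eq_integral_Ioo]
  have hinj : InjOn (trans g₀ g₁) (Ioo (-1) 1) :=
    (trans_strictMonoOn h₀ h₁ hM).injOn.mono Ioo_subset_Icc_self
  have h := integral_image_eq_integral_abs_deriv_smul (f := trans g₀ g₁)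
    (f' := fun s => g₀ s / g₁ (trans g₀ g₁ s)) measurableSet_Ioo
    (fun s hs => (hasDerivAt_trans h₀ h₁ hM hs).hasDerivWithinAt) hinj (fun t => g₁ t * φ t)
  rw [image_trans h₀ h₁ hM] at h
  rw [h]
  refine setIntegral_congr_fun measurableSet_Ioo fun s hs => ?_
  have hp1 := h₁.pos _ (trans_mem_Ioo h₀ h₁ hM hs)
  have hp0 := h₀.pos _ hs
  simp only [smul_eq_mul]
  rw [abs_of_pos (div_pos hp0 hp1)]
  field_simp

/-- integrability under change of variables -/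
theorem integrable_trans_iff (φ : ℝ → ℝ) :
    IntervalIntegrable (fun t => g₁ t * φ t) volume (-1) 1 ↔
      IntervalIntegrable (fun s => g₀ s * φ (trans g₀ g₁ s)) volume (-1) 1 := by
  rw [intervalIntegrable_iff_integrableOn_Ioo_of_le (by norm_num),
    intervalIntegrable_iff_integrableOn_Ioo_of_le (by norm_num)]
  have hinj : InjOn (trans g₀ g₁) (Ioo (-1) 1) :=
    (trans_strictMonoOn h₀ h₁ hM).injOn.mono Ioo_subset_Icc_self
  have h := integrableOn_image_iff_integrableOn_abs_deriv_smul (f := trans g₀ g₁)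
    (f' := fun s => g₀ s / g₁ (trans g₀ g₁ s)) measurableSet_Ioo
    (fun s hs => (hasDerivAt_trans h₀ h₁ hM hs).hasDerivWithinAt) hinj (fun t => g₁ t * φ t)
  rw [image_trans h₀ h₁ hM] at h
  rw [h]
  refine integrableOn_congr_fun (fun s hs => ?_) measurableSet_Ioo
  have hp1 := h₁.pos _ (trans_mem_Ioo h₀ h₁ hM hs)
  have hp0 := h₀.pos _ hs
  simp only [smul_eq_mul]
  rw [abs_of_pos (div_pos hp0 hp1)]
  field_simp

end transport

end Crest.Agent.R230.Tr
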