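import Crest.Agent.R230.LInt

/-!
# Row 230: the one dimensional functional in closed form

`NI n f` : `c^{n-1} f` is integrable on `[0,1]`; `JJ n f = ∫_0^1 c^{n-1} f`.
Inputs for the path `l = ll n r`, `k = kk n r` (`k = s l'`), `Y = s²/c²`:
* `null_GL` : null Lagrangians `s c^{n-1} G`;
* `null_Y` : `∫ c^{n-1} [3 Y g(l) - (n-3) Y² g(l) + Y g'(l) k] = 0`;
* `strong` : `0 ≤ ∫ c^{n-1} [e^{l/n} h_n(k) - (n-1) Y (l + G_n(l))]`;
* `poinc` : `0 ≤ ∫ c^{n-1} [k² - 2(n+2) Y (l-λ)²]`;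
* `closed` : closed form of the raw XLOG density;
* `master` : positivity of the functional from pointwise positivity of `PP`.
-/

set_option autoImplicit false

open MeasureTheory Set Filter Topology
open scoped Pointwise ENNReal

namespace Crest.Agent.R230.WR

/-! ### the weighted integral -/

def NI (n : ℕ) (f : ℝ → ℝ) : Prop := IntervalIntegrable (fun s => cc s ^ (n - 1) * f s) volume 0 1

noncomputable def JJ (n : ℕ) (f : ℝ → ℝ) : ℝ := ∫ s in (0 : ℝ)..1, cc s ^ (n - 1) * f s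

lemma NI.congr {n : ℕ} {f g : ℝ → ℝ} (hf : NI n f) (h : ∀ s ∈ Ioo (0 : ℝ) 1, f s = g s) : NI n g := by
  unfold NI at *
  refine hf.congr_ae ?_
  rw [uIoc_of_le (by norm_num), ← restrict_Ioo_eq_restrict_Ioc, EventuallyEq,
    ae_restrict_iff' measurableSet_Ioo]
  exact Eventually.of_forall fun s hs => by rw [h s hs]

lemma JJ_congr {n : ℕ} {f g : ℝ → ℝ} (h : ∀ s ∈ Ioo (0 : ℝ) 1, f s = g s) : JJ n f = JJ n g := by
  unfold JJ
  rw [intervalIntegral.integral_of_le (by norm_num), intervalIntegral.integral_of_le (by norm_num),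
    integral_Ioc_eq_integral_Ioo, integral_Ioc_eq_integral_Ioo]
  exact setIntegral_congr_fun measurableSet_Ioo fun s hs => by simp only [h s hs]

lemma NI.add {n : ℕ} {f g : ℝ → ℝ} (hf : NI n f) (hg : NI n g) : NI n (fun s => f s + g s) := by
  have := IntervalIntegrable.add hf hg
  unfold NI
  refine this.congr fun s _ => ?_
  simp only; ring

lemma NI.sub {n : ℕ} {f g : ℝ → ℝ} (hf : NI n f) (hg : NI n g) : NI n (fun s => f s - g s) := by
  have := IntervalIntegrable.sub hf hg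
  unfold NI
  refine this.congr fun s _ => ?_
  simp only; ring

lemma NI.smul {n : ℕ} {f : ℝ → ℝ} (hf : NI n f) (a : ℝ) : NI n (fun s => a * f s) := by
  have := IntervalIntegrable.const_mul hf a
  unfold NI
  refine this.congr fun s _ => ?_
  ring

lemma JJ_add {n : ℕ} {f g : ℝ → ℝ} (hf : NI n f) (hg : NI n g) :
    JJ n (fun s => f s + g s) = JJ n f + JJ n g := by
  unfold JJ
  rw [← intervalIntegral.integral_add hf hg]
  congr 1; ext s; ring

lemma JJ_sub {n : ℕ} {f g : ℝ → ℝ} (hf : NI n f) (hg : NI n g) :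
    JJ n (fun s => f s - g s) = JJ n f - JJ n g := by
  unfold JJ
  rw [← intervalIntegral.integral_sub hf hg]
  congr 1; ext s; ring

lemma JJ_smul {n : ℕ} {f : ℝ → ℝ} (a : ℝ) : JJ n (fun s => a * f s) = a * JJ n f := by
  unfold JJ
  rw [← intervalIntegral.integral_const_mul]
  congr 1; ext s; ring

lemma JJ_nonneg {n : ℕ} {f : ℝ → ℝ} (hf : NI n f) (h : ∀ s ∈ Ioo (0 : ℝ) 1, 0 ≤ f s) : 0 ≤ JJ n f := by
  have h1 := intervalIntegral.integral_mono_on_of_le_Ioo (a := 0) (b := 1) (f := fun _ => (0 : ℝ))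
    (g := fun s => cc s ^ (n - 1) * f s) (by norm_num) (by simp) hf
    (fun s hs => mul_nonneg (pow_nonneg (cc_nonneg _) _) (h s hs))
  unfold JJ
  simpa using h1

lemma NI_cont {n : ℕ} {g : ℝ → ℝ} (hg : ContinuousOn g (Icc 0 1)) : NI n g := by
  unfold NI
  exact ((cc_continuous.pow _).continuousOn.mul hg).intervalIntegrable_of_Icc zero_le_one

/-- `Y = s²/c²` -/
noncomputable def Y (s : ℝ) : ℝ := s ^ 2 / (1 - s ^ 2)

lemma one_sub_sq_pos {s : ℝ} (hs : s ∈ Ioo (0 : ℝ) 1) : 0 < 1 - s ^ 2 := by nlinarith [hs.1, hs.2]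

lemma cc_pos' {s : ℝ} (hs : s ∈ Ioo (0 : ℝ) 1) : 0 < cc s := cc_pos ⟨by linarith [hs.1], hs.2⟩

lemma cc_sq' {s : ℝ} (hs : s ∈ Ioo (0 : ℝ) 1) : cc s ^ 2 = 1 - s ^ 2 :=
  cc_sq ⟨by linarith [hs.1], hs.2.le⟩

lemma Y_nonneg {s : ℝ} (hs : s ∈ Ioo (0 : ℝ) 1) : 0 ≤ Y s :=
  div_nonneg (sq_nonneg _) (one_sub_sq_pos hs).le

lemma pow_mul_Y {n : ℕ} (hn : 3 ≤ n) {s : ℝ} (hs : s ∈ Ioo (0 : ℝ) 1) :
    cc s ^ (n - 1) * Y s = s ^ 2 * cc s ^ (n - 3) := by
  have h1 : cc s ^ (n - 1) = cc s ^ (n - 3) * cc s ^ 2 := by rw [← pow_add]; congr 1; omega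
  unfold Y
  rw [h1, cc_sq' hs]
  have := (one_sub_sq_pos hs).ne'
  field_simp

lemma pow_mul_Y2 {n : ℕ} (hn : 5 ≤ n) {s : ℝ} (hs : s ∈ Ioo (0 : ℝ) 1) :
    cc s ^ (n - 1) * Y s ^ 2 = s ^ 4 * cc s ^ (n - 5) := by
  have h1 : cc s ^ (n - 1) = cc s ^ (n - 5) * (cc s ^ 2) ^ 2 := by
    rw [← pow_mul, ← pow_add]; congr 1; omega
  unfold Y
  rw [h1, cc_sq' hs]
  have := (one_sub_sq_pos hs).ne'
  field_simp

lemma NI_of {n : ℕ} {f g : ℝ → ℝ} (hg : IntervalIntegrable g volume 0 1)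
    (h : ∀ s ∈ Ioo (0 : ℝ) 1, g s = cc s ^ (n - 1) * f s) : NI n f := by
  unfold NI
  refine hg.congr_ae ?_
  rw [uIoc_of_le (by norm_num), ← restrict_Ioo_eq_restrict_Ioc, EventuallyEq,
    ae_restrict_iff' measurableSet_Ioo]
  exact Eventually.of_forall h

lemma JJ_of {n : ℕ} {f g : ℝ → ℝ} (h : ∀ s ∈ Ioo (0 : ℝ) 1, g s = cc s ^ (n - 1) * f s) :
    JJ n f = ∫ s in (0 : ℝ)..1, g s := by
  unfold JJ
  rw [intervalIntegral.integral_of_le (by norm_num), intervalIntegral.integral_of_le (by norm_num),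
    integral_Ioc_eq_integral_Ioo, integral_Ioc_eq_integral_Ioo]
  exact (setIntegral_congr_fun measurableSet_Ioo fun s hs => h s hs).symm

lemma NI_Y {n : ℕ} (hn : 3 ≤ n) {g : ℝ → ℝ} (hg : ContinuousOn g (Icc 0 1)) :
    NI n (fun s => Y s * g s) := by
  refine NI_of (g := fun s => s ^ 2 * cc s ^ (n - 3) * g s) ?_ fun s hs => ?_
  · exact (((continuous_pow 2).mul (cc_continuous.pow _)).continuousOn.mul
      hg).intervalIntegrable_of_Icc zero_le_one
  · rw [← pow_mul_Y hn hs]; ring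

lemma NI_Y2 {n : ℕ} (hn : 5 ≤ n) {g : ℝ → ℝ} (hg : ContinuousOn g (Icc 0 1)) :
    NI n (fun s => Y s ^ 2 * g s) := by
  refine NI_of (g := fun s => s ^ 4 * cc s ^ (n - 5) * g s) ?_ fun s hs => ?_
  · exact (((continuous_pow 4).mul (cc_continuous.pow _)).continuousOn.mul
      hg).intervalIntegrable_of_Icc zero_le_one
  · rw [← pow_mul_Y2 hn hs]; ring

/-! ### functions of one variable -/

/-- `h_n(k) = k - n ((1+k)^{1/n} - 1)` -/
noncomputable def hm (n : ℕ) (k : ℝ) : ℝ := k - n * ((1 + k) ^ ((1 : ℝ) / n) - 1)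

/-- `G_n(l) = n (e^{l/n} - 1) - l` -/
noncomputable def Gm (n : ℕ) (l : ℝ) : ℝ := n * (Real.exp (l / n) - 1) - l

/-- `a = 2 - 2c²/(1+c)` -/
noncomputable def aq (s : ℝ) : ℝ := 2 - 2 * cc s ^ 2 / (1 + cc s)

/-- `K = k²/(1+k)` -/
noncomputable def KK (k : ℝ) : ℝ := k ^ 2 / (1 + k)

/-- `c R`, `R = Φ(s e^l) - Φ(s) + l (1-c)/(c(1+c))` -/
noncomputable def cR (s l : ℝ) : ℝ :=
  cc s * (Phi (s * Real.exp l) - Phi s) + l * ((1 - cc s) / (1 + cc s))

lemma one_add_cc_pos (s : ℝ) : 0 < 1 + cc s := by have := cc_nonneg s; linarith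

lemma continuous_aq : Continuous aq := by
  unfold aq
  have h := cc_continuous
  exact continuous_const.sub ((continuous_const.mul (h.pow 2)).div (continuous_const.add h)
    fun s => (one_add_cc_pos s).ne')

section path

variable {r : ℝ → ℝ} (hr : Prof r) {n : ℕ}
include hr

lemma cont_T : ContinuousOn (fun s => tau n r s) (Icc 0 1) := (tau_continuous hr n).continuousOn

lemma cont_cR : ContinuousOn (fun s => cR s (ll n r s)) (Icc 0 1) := by
  unfold cR
  have hl := continuousOn_ll hr n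
  have hc := cc_continuous.continuousOn (s := Icc (0 : ℝ) 1)
  refine (hc.mul ((Phi_continuous.comp_continuousOn (continuousOn_id.mul hl.rexp)).sub
    Phi_continuous.continuousOn)).add (hl.mul ((continuousOn_const.sub hc).div
    (continuousOn_const.add hc) fun s _ => (one_add_cc_pos s).ne'))

lemma NI_kk {g : ℝ → ℝ} (hg : ContinuousOn g (Icc 0 1)) : NI n (fun s => g s * kk n r s) := by
  have := intervalIntegrable_mul_kk hr n (g := fun s => cc s ^ (n - 1) * g s)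
    ((cc_continuous.pow _).continuousOn.mul hg)
  exact NI_of this fun s _ => by ring

lemma NI_Ykk (hn : 3 ≤ n) {g : ℝ → ℝ} (hg : ContinuousOn g (Icc 0 1)) :
    NI n (fun s => Y s * (g s * kk n r s)) := by
  have := intervalIntegrable_mul_kk hr n (g := fun s => s ^ 2 * cc s ^ (n - 3) * g s)
    (((continuous_pow 2).mul (cc_continuous.pow _)).continuousOn.mul hg)
  refine NI_of this fun s hs => ?_
  rw [← pow_mul_Y hn hs]; ring

lemma NI_inv (hn : 1 ≤ n) {g : ℝ → ℝ} (hg : ContinuousOn g (Icc 0 1)) :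
    NI n (fun s => g s * (1 + kk n r s)⁻¹) := by
  have := intervalIntegrable_inv_kk hr n hn hg
  exact NI_of this fun s _ => by ring

lemma NI_KK (hn : 1 ≤ n) {g : ℝ → ℝ} (hg : ContinuousOn g (Icc 0 1)) :
    NI n (fun s => g s * KK (kk n r s)) := by
  have h1 := ((NI_kk hr hg).sub (NI_cont (n := n) hg)).add (NI_inv hr hn hg)
  refine h1.congr fun s hs => ?_
  have := (one_add_kk_pos hr n hs).ne'
  unfold KK
  field_simp
  ring

lemma NI_YlKK (hn : 3 ≤ n) {g : ℝ → ℝ} (hg : ContinuousOn g (Icc 0 1)) :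
    NI n (fun s => Y s * (ll n r s * (g s * KK (kk n r s)))) := by
  have hl := continuousOn_ll hr n
  have h1 := NI_Ykk hr (n := n) hn (g := fun s => ll n r s * g s) (hl.mul hg)
  have h2 := NI_Y (n := n) hn (g := fun s => ll n r s * g s) (hl.mul hg)
  have h3 : NI n (fun s => Y s * (ll n r s * (g s * (1 + kk n r s)⁻¹))) := by
    have := intervalIntegrable_l_inv_kk hr n hn (g := fun s => s * g s) (continuousOn_id.mul hg)
    refine NI_of this fun s hs => ?_
    have h4 := pow_mul_Y hn hs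
    calc s * g s * (s * cc s ^ (n - 3) * ll n r s * (1 + kk n r s)⁻¹)
        = (s ^ 2 * cc s ^ (n - 3)) * (ll n r s * (g s * (1 + kk n r s)⁻¹)) := by ring
      _ = _ := by rw [← h4]; ring
  refine ((h1.sub h2).add h3).congr fun s hs => ?_
  have := (one_add_kk_pos hr n hs).ne'
  unfold KK
  field_simp
  ring

lemma NI_kk_sq (hn : 5 ≤ n) : NI n (fun s => kk n r s ^ 2) := by
  have := intervalIntegrable_kk_sq hr n hn (g := fun _ => 1) continuousOn_const
  exact NI_of this fun s _ => by ring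

lemma exp_mul_rpow (hn : 1 ≤ n) {s : ℝ} (hs : s ∈ Ioo (0 : ℝ) 1) :
    Real.exp (ll n r s / n) * (1 + kk n r s) ^ ((1 : ℝ) / n) = dtau n r s ^ ((1 : ℝ) / n) := by
  rw [dtau_eq hr n hs, Real.mul_rpow (Real.exp_pos _).le (one_add_kk_pos hr n hs).le,
    ← Real.exp_mul, mul_one_div]

lemma NI_rpow (hn : 1 ≤ n) : NI n (fun s => dtau n r s ^ ((1 : ℝ) / n)) := by
  have := intervalIntegrable_dtau_rpow hr n hn (g := fun s => cc s ^ (n - 1)) (cc_continuous.pow _)
  exact this.mono_set (by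
    rw [uIcc_of_le (by norm_num), uIcc_of_le (by norm_num)]; exact Icc_subset_Icc_left (by norm_num))

lemma cont_exp : ContinuousOn (fun s => Real.exp (ll n r s / n)) (Icc 0 1) :=
  ((continuousOn_ll hr n).div_const _).rexp

lemma NI_ehm (hn : 1 ≤ n) : NI n (fun s => Real.exp (ll n r s / n) * hm n (kk n r s)) := by
  have h1 := NI_kk hr (n := n) (cont_exp hr (n := n))
  have h2 := NI_cont (n := n) (cont_exp hr (n := n))
  have h3 := NI_rpow hr hn
  refine ((h1.add (h2.smul n)).sub (h3.smul n)).congr fun s hs => ?_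
  unfold hm
  rw [← exp_mul_rpow hr hn hs]
  ring

/-! ### null Lagrangians -/

omit hr in
/-- null Lagrangian `s c^{n-1} G` -/
lemma null_GL (hn : 3 ≤ n) {G G' : ℝ → ℝ} (hG : ContinuousOn G (Icc 0 1))
    (hG' : ∀ s ∈ Ioo (0 : ℝ) 1, HasDerivAt G (G' s) s) (hi : NI n (fun s => s * G' s)) :
    JJ n (fun s => G s + s * G' s - ((n : ℝ) - 1) * (Y s * G s)) = 0 := by
  obtain ⟨k, rfl⟩ : ∃ k, n = k + 3 := ⟨n - 3, by omega⟩
  have h := Poinc.null_lagrangian k hG hG' hi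
  rw [← h]
  refine JJ_of fun s hs => ?_
  have h1 := pow_mul_Y (n := k + 3) hn hs
  have e1 : k + 3 - 1 = k + 2 := rfl
  have e2 : k + 3 - 3 = k := rfl
  rw [e1, e2] at h1
  rw [e1]
  have h2 : Real.sqrt (1 - s ^ 2) = cc s := rfl
  rw [h2]
  push_cast
  calc cc s ^ (k + 2) * (G s + s * G' s) - ((k : ℝ) + 2) * (s ^ 2 * cc s ^ k * G s)
      = cc s ^ (k + 2) * (G s + s * G' s) - ((k : ℝ) + 2) * (cc s ^ (k + 2) * Y s * G s) := by rw [h1]
    _ = _ := by ring

/-- null Lagrangian `s³ c^{n-3} g(l)` -/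
lemma null_Y (hn : 5 ≤ n) {g g' : ℝ → ℝ} (hg' : ∀ x, HasDerivAt g (g' x) x) (hgc : Continuous g') :
    JJ n (fun s => 3 * (Y s * g (ll n r s)) - ((n : ℝ) - 3) * (Y s ^ 2 * g (ll n r s)) +
      Y s * (g' (ll n r s) * kk n r s)) = 0 := by
  obtain ⟨k, rfl⟩ : ∃ k, n = k + 5 := ⟨n - 5, by omega⟩
  set n := k + 5 with hnk
  have hl := continuousOn_ll hr n
  have hgcont : Continuous g := continuous_iff_continuousAt.2 fun x => (hg' x).continuousAt
  have hgl : ContinuousOn (fun s => g (ll n r s)) (Icc 0 1) := hgcont.comp_continuousOn hl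
  have hgl' : ContinuousOn (fun s => g' (ll n r s)) (Icc 0 1) := hgc.comp_continuousOn hl
  have hint : NI n (fun s => 3 * (Y s * g (ll n r s)) - ((n : ℝ) - 3) * (Y s ^ 2 * g (ll n r s)) +
      Y s * (g' (ll n r s) * kk n r s)) :=
    (((NI_Y (by omega) hgl).smul 3).sub ((NI_Y2 hn hgl).smul _)).add (NI_Ykk hr (by omega) hgl')
  have hd : ∀ s ∈ Ioo (0 : ℝ) 1, HasDerivAt (fun s => s ^ 3 * cc s ^ (k + 2) * g (ll n r s))
      (cc s ^ (n - 1) * (3 * (Y s * g (ll n r s)) - ((n : ℝ) - 3) * (Y s ^ 2 * g (ll n r s)) +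
      Y s * (g' (ll n r s) * kk n r s))) s := by
    intro s hs
    have d1 := hasDerivAt_pow 3 s
    have d2 : HasDerivAt (fun s => cc s ^ (k + 2)) (-((k : ℝ) + 2) * s * cc s ^ k) s :=
      Poinc.hasDerivAt_cpow k hs.1.le hs.2
    have d3 := (hg' (ll n r s)).comp s (hasDerivAt_ll hr n hs)
    have d := (d1.fun_mul d2).fun_mul d3
    refine d.congr_deriv ?_
    have h1 := pow_mul_Y (n := n) (by omega) hs
    have h2 := pow_mul_Y2 (n := n) hn hs
    have e1 : n - 3 = k + 2 := by omega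
    have e2 : n - 5 = k := by omega
    rw [e1] at h1
    rw [e2] at h2
    have hs0 := hs.1.ne'
    have hnR : (n : ℝ) = k + 5 := by rw [hnk]; push_cast; ring
    calc _ = 3 * (s ^ 2 * cc s ^ (k + 2)) * g (ll n r s) - ((n : ℝ) - 3) * (s ^ 4 * cc s ^ k) * g (ll n r s) +
        (s ^ 2 * cc s ^ (k + 2)) * (g' (ll n r s) * kk n r s) := by
          rw [hnR]
          simp only [Function.comp]
          field_simp
          push_cast
          ring
      _ = _ := by rw [← h1, ← h2]; ring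
  have h := intervalIntegral.integral_eq_sub_of_hasDerivAt_of_le (a := (0 : ℝ)) (b := 1) zero_le_one
    (((continuous_pow 3).mul (cc_continuous.pow (k + 2))).continuousOn.mul hgl) hd hint
  unfold JJ
  rw [h]
  have hc1 : cc 1 = 0 := by unfold cc; simp
  simp [hc1]

/-! ### the strong constraint -/

omit hr in
lemma hasDerivAt_exp_ll {r : ℝ → ℝ} (hr : Prof r) {s : ℝ} (hs : s ∈ Ioo (0 : ℝ) 1) :
    HasDerivAt (fun s => Real.exp (ll n r s / n)) (Real.exp (ll n r s / n) * (kk n r s / s / n)) s :=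
  ((hasDerivAt_ll hr n hs).div_const (n : ℝ)).exp

lemma strong (hn : 3 ≤ n) (hN : NleB n r) :
    0 ≤ JJ n (fun s => Real.exp (ll n r s / n) * hm n (kk n r s) -
      ((n : ℝ) - 1) * (Y s * (ll n r s + Gm n (ll n r s)))) := by
  have hn0 : (n : ℝ) ≠ 0 := by exact_mod_cast (by omega : n ≠ 0)
  have hnp : (0 : ℝ) < n := by exact_mod_cast (by omega : 0 < n)
  have he := cont_exp hr (n := n)
  -- constraint
  have h1 := NleB_half hr (n := n) (by omega) hN
    (intervalIntegrable_dtau_rpow hr n (by omega) (g := fun s => cc s ^ (n - 1)) (cc_continuous.pow _))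
  have h1' : JJ n (fun s => dtau n r s ^ ((1 : ℝ) / n)) ≤ JJ n (fun _ => 1) := by
    unfold JJ
    simp only [mul_one]
    exact h1
  -- null Lagrangians
  have hek : NI n (fun s => s * (Real.exp (ll n r s / n) * (kk n r s / s / n))) := by
    refine ((NI_kk hr (n := n) he).smul (1 / n)).congr fun s hs => ?_
    have := hs.1.ne'
    field_simp
  have h2 := null_GL (n := n) hn (G := fun s => Real.exp (ll n r s / n)) he
    (fun s hs => hasDerivAt_exp_ll hr hs) hek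
  have h3 := null_GL (n := n) hn (G := fun _ => (1 : ℝ)) continuousOn_const
    (fun s _ => hasDerivAt_const s (1 : ℝ)) ((NI_cont (n := n) continuousOn_const).congr
      (f := fun _ => 0) fun s _ => by simp)
  -- assembling
  have n1 := NI_kk hr (n := n) he
  have n2 := NI_cont (n := n) he
  have n3 := NI_rpow hr (n := n) (by omega)
  have n4 : NI n (fun s => Y s * Real.exp (ll n r s / n)) := NI_Y hn he
  have n5 : NI n (fun s => Y s * (1 : ℝ)) := NI_Y hn continuousOn_const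
  have n6 : NI n (fun _ => (1 : ℝ)) := NI_cont continuousOn_const
  have e2 : JJ n (fun s => Real.exp (ll n r s / n) + s * (Real.exp (ll n r s / n) * (kk n r s / s / n)) -
      ((n : ℝ) - 1) * (Y s * Real.exp (ll n r s / n))) =
      JJ n (fun s => Real.exp (ll n r s / n)) + 1 / n * JJ n (fun s => Real.exp (ll n r s / n) * kk n r s) -
        ((n : ℝ) - 1) * JJ n (fun s => Y s * Real.exp (ll n r s / n)) := by
    rw [JJ_sub (n2.add hek) (n4.smul _), JJ_add n2 hek, JJ_smul]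
    congr 2
    rw [← JJ_smul]
    refine JJ_congr fun s hs => ?_
    have := hs.1.ne'
    field_simp
  rw [e2] at h2
  have e3 : JJ n (fun s => (1 : ℝ) + s * 0 - ((n : ℝ) - 1) * (Y s * 1)) =
      JJ n (fun _ => (1 : ℝ)) - ((n : ℝ) - 1) * JJ n (fun s => Y s * (1 : ℝ)) := by
    have : (fun s : ℝ => (1 : ℝ) + s * 0 - ((n : ℝ) - 1) * (Y s * 1)) =
      fun s => 1 - ((n : ℝ) - 1) * (Y s * 1) := by funext s; ring
    rw [this, JJ_sub n6 (n5.smul _), JJ_smul]
  rw [e3] at h3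
  have e4 : JJ n (fun s => Real.exp (ll n r s / n) * hm n (kk n r s) -
      ((n : ℝ) - 1) * (Y s * (ll n r s + Gm n (ll n r s)))) =
      JJ n (fun s => Real.exp (ll n r s / n) * kk n r s) + n * JJ n (fun s => Real.exp (ll n r s / n)) -
      n * JJ n (fun s => dtau n r s ^ ((1 : ℝ) / n)) -
      (n * ((n : ℝ) - 1)) * JJ n (fun s => Y s * Real.exp (ll n r s / n)) +
      (n * ((n : ℝ) - 1)) * JJ n (fun s => Y s * (1 : ℝ)) := by
    rw [← JJ_smul, ← JJ_smul, ← JJ_smul (f := fun s => Y s * Real.exp (ll n r s / n)),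
      ← JJ_smul (f := fun s => Y s * (1 : ℝ)), ← JJ_add n1 (n2.smul _), ← JJ_sub (n1.add (n2.smul _)) (n3.smul _),
      ← JJ_sub ((n1.add (n2.smul _)).sub (n3.smul _)) (n4.smul _),
      ← JJ_add (((n1.add (n2.smul _)).sub (n3.smul _)).sub (n4.smul _)) (n5.smul _)]
    refine JJ_congr fun s hs => ?_
    unfold hm Gm
    rw [← exp_mul_rpow hr (by omega) hs]
    ring
  rw [e4]
  have h4 : (n : ℝ) * (JJ n (fun s => Real.exp (ll n r s / n)) +
      1 / n * JJ n (fun s => Real.exp (ll n r s / n) * kk n r s) -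
        ((n : ℝ) - 1) * JJ n (fun s => Y s * Real.exp (ll n r s / n))) = 0 := by rw [h2, mul_zero]
  have h5 : (n : ℝ) * (1 / n * JJ n (fun s => Real.exp (ll n r s / n) * kk n r s)) =
      JJ n (fun s => Real.exp (ll n r s / n) * kk n r s) := by field_simp
  have h6 := mul_le_mul_of_nonneg_left h1' hnp.le
  nlinarith

/-! ### Poincaré -/

/-- the mean `λ = E_{π₁} l` -/
noncomputable def lam (n : ℕ) (r : ℝ → ℝ) : ℝ :=
  JJ n (fun s => Y s * ll n r s) / JJ n (fun s => Y s * (1 : ℝ))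

omit hr in
lemma JJ_Y (hn : 3 ≤ n) : ((n : ℝ) - 1) * JJ n (fun s => Y s * (1 : ℝ)) = JJ n (fun _ => (1 : ℝ)) := by
  obtain ⟨k, rfl⟩ : ∃ k, n = k + 3 := ⟨n - 3, by omega⟩
  have h := Poinc.null_lagrangian k (G := fun _ => (1 : ℝ)) (G' := fun _ => 0) continuousOn_const
    (fun s _ => hasDerivAt_const s (1 : ℝ)) (by simp)
  have n5 : NI (k + 3) (fun s => Y s * (1 : ℝ)) := NI_Y hn continuousOn_const
  have n6 : NI (k + 3) (fun _ => (1 : ℝ)) := NI_cont continuousOn_const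
  rw [← JJ_smul, ← sub_eq_zero, ← neg_eq_zero, neg_sub, ← JJ_sub n6 (n5.smul _), ← h]
  refine JJ_of fun s hs => ?_
  have h1 := pow_mul_Y (n := k + 3) hn hs
  have e1 : k + 3 - 1 = k + 2 := rfl
  have e2 : k + 3 - 3 = k := rfl
  rw [e1, e2] at h1
  rw [e1]
  have h2 : Real.sqrt (1 - s ^ 2) = cc s := rfl
  rw [h2]
  push_cast
  calc cc s ^ (k + 2) * (1 + s * 0) - ((k : ℝ) + 2) * (s ^ 2 * cc s ^ k * 1)
      = cc s ^ (k + 2) - ((k : ℝ) + 2) * (cc s ^ (k + 2) * Y s) := by rw [h1]; ring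
    _ = _ := by ring

omit hr in
lemma JJ_one_pos (n : ℕ) : 0 < JJ n (fun _ => (1 : ℝ)) := by
  unfold JJ
  simp only [mul_one]
  have h1 := w_half (n - 1)
  have h2 := w_pos' (n - 1)
  have h3 : ∫ s in (0 : ℝ)..1, cc s ^ (n - 1) = ∫ s in (0 : ℝ)..1, Real.sqrt (1 - s ^ 2) ^ (n - 1) := rfl
  rw [h3]
  linarith

omit hr in
lemma JJ_Y_pos (hn : 3 ≤ n) : 0 < JJ n (fun s => Y s * (1 : ℝ)) := by
  have h1 := JJ_Y hn
  have h2 := JJ_one_pos n
  have h3 : (0 : ℝ) < (n : ℝ) - 1 := by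
    have : (3 : ℝ) ≤ n := by exact_mod_cast hn
    linarith
  rw [← h1] at h2
  exact (mul_pos_iff_of_pos_left h3).1 h2

lemma JJ_lam (hn : 3 ≤ n) : JJ n (fun s => Y s * (ll n r s - lam n r)) = 0 := by
  have hl := continuousOn_ll hr n
  have n1 : NI n (fun s => Y s * ll n r s) := NI_Y hn hl
  have n2 : NI n (fun s => Y s * (1 : ℝ)) := NI_Y hn continuousOn_const
  have h := JJ_Y_pos hn
  have e : JJ n (fun s => Y s * (ll n r s - lam n r)) =
      JJ n (fun s => Y s * ll n r s) - lam n r * JJ n (fun s => Y s * (1 : ℝ)) := by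
    rw [← JJ_smul, ← JJ_sub n1 (n2.smul _)]
    refine JJ_congr fun s _ => ?_
    ring
  rw [e]
  unfold lam
  rw [div_mul_cancel₀ _ h.ne', sub_self]

/-- Poincaré in the form `0 ≤ ∫ c^{n-1} [k² - 2(n+2) Y (l-λ)²]` -/
lemma poinc (hn : 5 ≤ n) :
    0 ≤ JJ n (fun s => kk n r s ^ 2 - 2 * ((n : ℝ) + 2) * (Y s * (ll n r s - lam n r) ^ 2)) := by
  obtain ⟨k, hk⟩ : ∃ k, n = k + 3 := ⟨n - 3, by omega⟩
  have hl := continuousOn_ll hr n
  have hlam := JJ_lam hr (n := n) (by omega)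
  have e0 : JJ n (fun s => Y s * (ll n r s - lam n r)) =
      ∫ s in (0 : ℝ)..1, s ^ 2 * Real.sqrt (1 - s ^ 2) ^ k * (ll n r s - lam n r) := by
    refine JJ_of fun s hs => ?_
    have h1 := pow_mul_Y (n := n) (by omega) hs
    have e2 : n - 3 = k := by omega
    rw [e2] at h1
    have h2 : Real.sqrt (1 - s ^ 2) = cc s := rfl
    rw [h2, ← h1]; ring
  rw [e0] at hlam
  have hkk : ∀ s ∈ Ioo (0 : ℝ) 1, s ^ 2 * Real.sqrt (1 - s ^ 2) ^ (k + 2) * (kk n r s / s) ^ 2 =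
      cc s ^ (n - 1) * kk n r s ^ 2 := by
    intro s hs
    have e2 : n - 1 = k + 2 := by omega
    have h2 : Real.sqrt (1 - s ^ 2) = cc s := rfl
    rw [h2, e2]
    have := hs.1.ne'
    field_simp
  have n1 := NI_kk_sq hr hn
  have hi : IntervalIntegrable (fun s => s ^ 2 * Real.sqrt (1 - s ^ 2) ^ (k + 2) * (kk n r s / s) ^ 2)
      volume 0 1 := by
    refine IntervalIntegrable.congr_ae n1 ?_
    rw [uIoc_of_le (by norm_num), ← restrict_Ioo_eq_restrict_Ioc, EventuallyEq,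
      ae_restrict_iff' measurableSet_Ioo]
    exact Eventually.of_forall fun s hs => (hkk s hs).symm
  have h := Poinc.poincare_pi1_mean k hl (fun s hs => hasDerivAt_ll hr n hs) hi hlam
  have n2 : NI n (fun s => Y s * (ll n r s - lam n r) ^ 2) :=
    NI_Y (by omega) ((hl.sub continuousOn_const).pow 2)
  rw [JJ_sub n1 (n2.smul _), JJ_smul]
  have e3 : JJ n (fun s => kk n r s ^ 2) =
      ∫ s in (0 : ℝ)..1, s ^ 2 * Real.sqrt (1 - s ^ 2) ^ (k + 2) * (kk n r s / s) ^ 2 :=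
    JJ_of fun s hs => hkk s hs
  have e4 : JJ n (fun s => Y s * (ll n r s - lam n r) ^ 2) =
      ∫ s in (0 : ℝ)..1, s ^ 2 * Real.sqrt (1 - s ^ 2) ^ k * (ll n r s - lam n r) ^ 2 := by
    refine JJ_of fun s hs => ?_
    have h1 := pow_mul_Y (n := n) (by omega) hs
    have e2 : n - 3 = k := by omega
    rw [e2] at h1
    have h2 : Real.sqrt (1 - s ^ 2) = cc s := rfl
    rw [h2, ← h1]; ring
  have hnR : (n : ℝ) = k + 3 := by rw [hk]; push_cast; ring
  rw [e3, e4, hnR]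
  have : (k : ℝ) + 3 + 2 = k + 5 := by ring
  rw [this]
  linarith

end path

end Crest.Agent.R230.WR
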