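import Crest.Agent.R230.OneDGauge

/-!
# Row 230: tools for kinked null Lagrangians (capped region)
-/

set_option autoImplicit false

open MeasureTheory Set Filter Topology
open scoped Pointwise ENNReal

namespace Crest.Agent.R230.WR

open Classical in
/-- right derivative of the positive part -/
lemma hasDerivWithinAt_posPart {u : ℝ → ℝ} {u' s : ℝ} (h : HasDerivWithinAt u u' (Ioi s) s) :
    HasDerivWithinAt (fun x => max (u x) 0) (if 0 < u s ∨ (u s = 0 ∧ 0 ≤ u') then u' else 0) (Ioi s) s := by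
  have hc : Tendsto u (𝓝[>] s) (𝓝 (u s)) := h.continuousWithinAt
  rcases lt_trichotomy (u s) 0 with h0 | h0 | h0
  · rw [if_neg (by push Not; exact ⟨h0.le, fun h1 => absurd h1 h0.ne⟩)]
    have h1 : (fun x => max (u x) 0) =ᶠ[𝓝[>] s] fun _ => 0 := by
      filter_upwards [hc.eventually_lt_const h0] with x hx
      exact max_eq_right hx.le
    exact (hasDerivWithinAt_const s (Ioi s) (0 : ℝ)).congr_of_eventuallyEq h1 (max_eq_right h0.le)
  · rcases le_or_gt 0 u' with h1 | h1
    · rw [if_pos (Or.inr ⟨h0, h1⟩)]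
      rw [hasDerivWithinAt_iff_tendsto_slope' (by simp)] at h ⊢
      have h2 : Tendsto (fun x => max (slope u s x) 0) (𝓝[>] s) (𝓝 (max u' 0)) :=
        h.max tendsto_const_nhds
      rw [max_eq_left h1] at h2
      refine h2.congr' ?_
      filter_upwards [self_mem_nhdsWithin] with x hx
      have hx' : 0 < x - s := sub_pos.2 hx
      simp only [slope_def_field, h0, sub_zero, max_self]
      rw [← max_div_div_right hx'.le, zero_div]
    · rw [if_neg (by push Not; exact ⟨h0.le, fun _ => h1⟩)]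
      rw [hasDerivWithinAt_iff_tendsto_slope' (by simp)] at h ⊢
      have h2 : Tendsto (fun x => max (slope u s x) 0) (𝓝[>] s) (𝓝 (max u' 0)) :=
        h.max tendsto_const_nhds
      rw [max_eq_right h1.le] at h2
      refine h2.congr' ?_
      filter_upwards [self_mem_nhdsWithin] with x hx
      have hx' : 0 < x - s := sub_pos.2 hx
      simp only [slope_def_field, h0, sub_zero, max_self]
      rw [← max_div_div_right hx'.le, zero_div]
  · rw [if_pos (Or.inl h0)]
    have h1 : (fun x => max (u x) 0) =ᶠ[𝓝[>] s] u := by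
      filter_upwards [hc.eventually_const_lt h0] with x hx
      exact max_eq_left hx.le
    exact h.congr_of_eventuallyEq h1 (max_eq_left h0.le)

/-- bounded measurable times integrable -/
lemma NI.bdd_mul {n : ℕ} {f g : ℝ → ℝ} (hg : NI n g)
    (hf : AEStronglyMeasurable f (volume.restrict (Ioo 0 1))) {C : ℝ}
    (hC : ∀ s ∈ Ioo (0 : ℝ) 1, |f s| ≤ C) : NI n (fun s => f s * g s) := by
  unfold NI at *
  rw [intervalIntegrable_iff_integrableOn_Ioo_of_le (by norm_num)] at hg ⊢
  have h : Integrable (fun s => f s * (cc s ^ (n - 1) * g s)) (volume.restrict (Ioo 0 1)) := by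
    refine Integrable.bdd_mul (c := C) hg hf ?_
    rw [ae_restrict_iff' measurableSet_Ioo]
    exact Eventually.of_forall fun s hs => by rw [Real.norm_eq_abs]; exact hC s hs
  refine h.congr (Eventually.of_forall fun s => ?_)
  simp only
  ring

/-- gauge `Γ = -θ s² l²` : `θ s² ([(n-1) Y - 3] l² - 2 l k)` -/
lemma null_s2 {n : ℕ} {r : ℝ → ℝ} (hn : 3 ≤ n) (hr : Prof r) (θ : ℝ) :
    NI n (fun s => θ * s ^ 2 * ((((n : ℝ) - 1) * Y s - 3) * ll n r s ^ 2 - 2 * ll n r s * kk n r s)) ∧
    JJ n (fun s => θ * s ^ 2 * ((((n : ℝ) - 1) * Y s - 3) * ll n r s ^ 2 -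
      2 * ll n r s * kk n r s)) = 0 := by
  have hl := continuousOn_ll hr n
  have hG : ContinuousOn (fun s => -θ * (s ^ 2 * ll n r s ^ 2)) (Icc 0 1) :=
    continuousOn_const.mul ((continuous_pow 2).continuousOn.mul (hl.pow 2))
  have hG' : ∀ s ∈ Ioo (0 : ℝ) 1, HasDerivAt (fun s => -θ * (s ^ 2 * ll n r s ^ 2))
      (-θ * (2 * s * ll n r s ^ 2 + s ^ 2 * (2 * ll n r s * (kk n r s / s)))) s := by
    intro s hs
    have h := ((hasDerivAt_pow 2 s).fun_mul ((hasDerivAt_ll hr n hs).fun_pow 2)).const_mul (-θ)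
    refine h.congr_deriv ?_
    norm_num
  have n1 : NI n (fun s => (-θ * (2 * s ^ 2)) * ll n r s ^ 2) :=
    NI_cont ((continuousOn_const.mul (continuousOn_const.mul
      (continuous_pow 2).continuousOn)).mul (hl.pow 2))
  have n2 : NI n (fun s => (-θ * (2 * s ^ 2 * ll n r s)) * kk n r s) :=
    NI_kk hr (continuousOn_const.mul ((continuousOn_const.mul
      (continuous_pow 2).continuousOn).mul hl))
  have hi : NI n (fun s => s * (-θ * (2 * s * ll n r s ^ 2 + s ^ 2 * (2 * ll n r s * (kk n r s / s))))) := by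
    refine (n1.add n2).congr fun s hs => ?_
    have := hs.1.ne'
    field_simp
    ring
  have h := null_GL hn hG hG' hi
  have e : ∀ s ∈ Ioo (0 : ℝ) 1, -θ * (s ^ 2 * ll n r s ^ 2) +
      s * (-θ * (2 * s * ll n r s ^ 2 + s ^ 2 * (2 * ll n r s * (kk n r s / s)))) -
      ((n : ℝ) - 1) * (Y s * (-θ * (s ^ 2 * ll n r s ^ 2))) =
      θ * s ^ 2 * ((((n : ℝ) - 1) * Y s - 3) * ll n r s ^ 2 - 2 * ll n r s * kk n r s) := by
    intro s hs
    have := hs.1.ne'
    field_simp
    ring
  refine ⟨?_, ?_⟩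
  · exact (((NI_cont hG).add hi).sub ((NI_Y hn hG).smul _)).congr e
  · rw [← JJ_congr e]
    exact h

end Crest.Agent.R230.WR
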