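import Crest.Agent.R230.WTail

/-!
# Row 230: reduction for capped lines

Contact parameter `φ = s e^u` (`u = 0`: uncapped), gauge `-Ω` (`f₀`-normalised).
`tail_concl` : general `u`, `Ω`;
`tailV_concl` : `u = V (l - cap(τ))`, `Ω = u + ε E(l)` on `[s₁, 1)`, `0` on `(0, s₁)`.
-/

set_option autoImplicit false

open MeasureTheory Set Filter Topology
open scoped Pointwise ENNReal

namespace Crest.Agent.R230.WR

/-- line correction in terms of `s, l, k, u, su' = s u'` -/
noncomputable def lineC (n : ℕ) (s l k u su : ℝ) : ℝ :=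
  cc s * (((n : ℝ) + 1) * xA (1 / cc (s * Real.exp u)) (l - u) +
      (1 + 1 / (1 + 1 / cc (s * Real.exp u)) - 2 * (1 / cc (s * Real.exp u)) -
        (l - u) * (1 / cc (s * Real.exp u)) ^ 3) +
      (1 + su) * (1 + k)⁻¹ *
        (2 * (1 / cc (s * Real.exp u) - 1 / (1 + 1 / cc (s * Real.exp u))) -
          3 * (l - u) * (s * Real.exp u) ^ 2 * (1 / cc (s * Real.exp u)) ^ 3) - rawL n s l k)

lemma lineC_zero (n : ℕ) (s l k : ℝ) : lineC n s l k 0 0 = 0 := by
  unfold lineC rawL xA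
  simp only [Real.exp_zero, mul_one, sub_zero, add_zero, one_mul, one_div]
  ring

/-- gauge correction in terms of `s, Ω, s Ω'` -/
noncomputable def gaugeC (n : ℕ) (s Om sOm : ℝ) : ℝ := cc s * (((n : ℝ) * Y s - 1) * Om - sOm)

variable {n : ℕ} {r : ℝ → ℝ}

/-- the gauge correction is null -/
lemma null_gaugeC (hn : 3 ≤ n) {Om Om' : ℝ → ℝ} (hO : ContinuousOn Om (Icc 0 1))
    (hO' : ∀ s ∈ Ioo (0 : ℝ) 1, HasDerivWithinAt Om (Om' s) (Ioi s) s)
    (hi : NI n (fun s => cc s * (s * Om' s))) :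
    NI n (fun s => gaugeC n s (Om s) (s * Om' s)) ∧ JJ n (fun s => gaugeC n s (Om s) (s * Om' s)) = 0 := by
  have n1 : NI n (fun s => Y s * (cc s * Om s)) := NI_Y hn (cc_continuous.continuousOn.mul hO)
  have n2 : NI n (fun s => cc s * Om s) := NI_cont (cc_continuous.continuousOn.mul hO)
  have n3 : NI n (fun s => gaugeC n s (Om s) (s * Om' s)) := by
    refine (((n1.smul (n : ℝ)).sub n2).sub hi).congr fun s _ => ?_
    unfold gaugeC; ring
  refine ⟨n3, ?_⟩
  obtain ⟨k, rfl⟩ : ∃ k, n = k + 2 := ⟨n - 2, by omega⟩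
  refine null_F (F := fun s => -(s * cc s ^ (k + 2) * Om s)) ?_ (by simp) ?_ ?_ n3
  · exact ((continuousOn_id.mul (cc_continuous.pow _).continuousOn).mul hO).neg
  · have : cc 1 = 0 := by unfold cc; simp
    simp [this]
  · intro s hs
    have d : HasDerivAt (fun s => s * cc s ^ (k + 2)) (1 * cc s ^ (k + 2) +
        s * (-((k : ℝ) + 2) * s * cc s ^ k)) s :=
      (hasDerivAt_id s).fun_mul (Poinc.hasDerivAt_cpow k hs.1.le hs.2)
    have d2 := (d.hasDerivWithinAt (s := Ioi s) |>.fun_mul (hO' s hs)).fun_neg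
    refine d2.congr_deriv ?_
    have hc2 := cc_sq' hs
    have hc := (cc_pos' hs).ne'
    have e1 : k + 2 - 1 = k + 1 := by omega
    rw [e1]
    unfold gaugeC
    have hY : Y s = s ^ 2 / cc s ^ 2 := by unfold Y; rw [hc2]
    rw [hY]
    push_cast
    field_simp
    ring

/-- **general capped lines**: `φ = s e^u` -/
theorem tail_hU (hn : 3 ≤ n) (hr : Prof r) {u u' : ℝ → ℝ}
    (hu : ContinuousOn u (Icc 0 1))
    (hu' : ∀ s ∈ Ioo (0 : ℝ) 1, HasDerivWithinAt u (u' s) (Ioi s) s)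
    (hum : AEStronglyMeasurable u' (volume.restrict (Ioo 0 1)))
    (hub : ∃ K, ∀ s ∈ Ioo (0 : ℝ) 1, |u' s| ≤ K)
    (hu1 : ∀ s ∈ Ioo (0 : ℝ) 1, s * Real.exp (u s) < 1)
    (h0 : ∃ δ > 0, ∀ s ∈ Icc (0 : ℝ) δ, u s = 0)
    (h1 : ∃ δ < 1, ∀ s ∈ Icc δ (1 : ℝ), u s = 0)
    (hadm : ∀ s ∈ Ioo (0 : ℝ) 1, xA (1 / cc (s * Real.exp (u s))) (ll n r s - u s) ≤
      xB (tau n r s) (1 / cc (s * Real.exp (u s))) (ll n r s - u s)) :
    NI n (fun s => lineC n s (ll n r s) (kk n r s) (u s) (s * u' s)) ∧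
    2 * ((∫ s in (0 : ℝ)..1, cc s ^ n *
      (rawL n s (ll n r s) (kk n r s) + (Phi (tau n r s) - Phi s))) +
      JJ n (fun s => lineC n s (ll n r s) (kk n r s) (u s) (s * u' s))) ≤ w n * UX n r := by
  set φ : ℝ → ℝ := fun s => s * Real.exp (u s) with hφ
  set φ' : ℝ → ℝ := fun s => Real.exp (u s) * (1 + s * u' s) with hφ'
  have hCX : CX φ φ' := by
    refine ⟨?_, ?_, ?_, ?_, ?_, hu1, ?_, ?_⟩
    · exact continuousOn_id.mul hu.rexp
    · intro s hs
      have h := (hasDerivAt_id s).hasDerivWithinAt (s := Ioi s) |>.fun_mul (hu' s hs).exp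
      refine h.congr_deriv ?_
      simp only [hφ', id]
      ring
    · have hum' : AEStronglyMeasurable (fun s => Real.exp (u s)) (volume.restrict (Ioo 0 1)) :=
        ((hu.mono Ioo_subset_Icc_self).rexp).aestronglyMeasurable measurableSet_Ioo
      exact hum'.mul (aestronglyMeasurable_const.add (measurable_id.aestronglyMeasurable.mul hum))
    · obtain ⟨K, hK⟩ := hub
      obtain ⟨C, hC⟩ := isCompact_Icc.exists_bound_of_continuousOn (hu.rexp)
      refine ⟨C * (1 + K), fun s hs => ?_⟩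
      have h2 := hC s ⟨hs.1.le, hs.2.le⟩
      have h3 := hK s hs
      rw [Real.norm_eq_abs] at h2
      simp only [hφ']
      rw [abs_mul]
      have h4 : |1 + s * u' s| ≤ 1 + K := by
        refine (abs_add_le _ _).trans ?_
        rw [abs_one, abs_mul, abs_of_pos hs.1]
        have : s * |u' s| ≤ 1 * K := mul_le_mul hs.2.le h3 (abs_nonneg _) zero_le_one
        linarith
      exact mul_le_mul h2 h4 (abs_nonneg _) ((abs_nonneg _).trans h2)
    · intro s hs
      exact mul_pos hs.1 (Real.exp_pos _)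
    · obtain ⟨δ, hδ, h⟩ := h0
      exact ⟨δ, hδ, fun s hs => by simp only [hφ, h s hs, Real.exp_zero, mul_one]⟩
    · obtain ⟨δ, hδ, h⟩ := h1
      exact ⟨δ, hδ, fun s hs => by simp only [hφ, h s hs, Real.exp_zero, mul_one]⟩
  have hL : ∀ s ∈ Ioo (0 : ℝ) 1, LX n r φ s = ll n r s - u s := by
    intro s hs
    have hT := (tau_mem_half hr n hs).1
    unfold LX
    rw [ll_of_ne n hs.1.ne', Real.log_div hT.ne' (mul_pos hs.1 (Real.exp_pos _)).ne',
      Real.log_div hT.ne' hs.1.ne', Real.log_mul hs.1.ne' (Real.exp_pos _).ne', Real.log_exp]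
    ring
  have hZ : ∀ s ∈ Ioo (0 : ℝ) 1, ZG n r φ φ' s = lineC n s (ll n r s) (kk n r s) (u s) (s * u' s) := by
    intro s hs
    unfold ZG lineC
    rw [RawG_exp hr hs (u := u s) (u' := u' s) rfl rfl]
  have hadm' : ∀ s ∈ Ioo (0 : ℝ) 1, xA (QX φ s) (LX n r φ s) ≤ xB (tau n r s) (QX φ s) (LX n r φ s) := by
    intro s hs
    rw [hL s hs]
    exact hadm s hs
  have h2 := hU_of_contact hn hr hCX hadm'
  rw [JJ_congr hZ] at h2
  exact ⟨(NI_ZG hn hr hCX).congr hZ, h2⟩

/-- **Conclusion with capped lines and gauge**, for any certificate density `P` of the path with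
`JJ P ≤ JJ clo` (`PP`, `PQ`, `PB`, ...). -/
theorem tail_concl (hn : 5 ≤ n) (hr : Prof r) {P : ℝ → ℝ} (nP : NI n P)
    (hPle : JJ n P ≤ JJ n (fun s => clo n s (ll n r s) (kk n r s)))
    {u u' : ℝ → ℝ}
    (hu : ContinuousOn u (Icc 0 1))
    (hu' : ∀ s ∈ Ioo (0 : ℝ) 1, HasDerivWithinAt u (u' s) (Ioi s) s)
    (hum : AEStronglyMeasurable u' (volume.restrict (Ioo 0 1)))
    (hub : ∃ K, ∀ s ∈ Ioo (0 : ℝ) 1, |u' s| ≤ K)
    (hu1 : ∀ s ∈ Ioo (0 : ℝ) 1, s * Real.exp (u s) < 1)
    (h0 : ∃ δ > 0, ∀ s ∈ Icc (0 : ℝ) δ, u s = 0)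
    (h1 : ∃ δ < 1, ∀ s ∈ Icc δ (1 : ℝ), u s = 0)
    (hadm : ∀ s ∈ Ioo (0 : ℝ) 1, xA (1 / cc (s * Real.exp (u s))) (ll n r s - u s) ≤
      xB (tau n r s) (1 / cc (s * Real.exp (u s))) (ll n r s - u s))
    {Om Om' : ℝ → ℝ} (hO : ContinuousOn Om (Icc 0 1))
    (hO' : ∀ s ∈ Ioo (0 : ℝ) 1, HasDerivWithinAt Om (Om' s) (Ioi s) s)
    (hi : NI n (fun s => cc s * (s * Om' s)))
    (hP : ∀ s ∈ Ioo (0 : ℝ) 1,
      0 ≤ P s + (lineC n s (ll n r s) (kk n r s) (u s) (s * u' s) + gaugeC n s (Om s) (s * Om' s)))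
    (hP0 : ∀ s ∈ Ioo (0 : ℝ) 1,
      P s + (lineC n s (ll n r s) (kk n r s) (u s) (s * u' s) + gaugeC n s (Om s) (s * Om' s)) = 0 →
        ll n r s = 0) : Concl n r := by
  obtain ⟨n1, hU⟩ := tail_hU (by omega) hr hu hu' hum hub hu1 h0 h1 hadm
  obtain ⟨n2, j2⟩ := null_gaugeC (n := n) (by omega) hO hO' hi
  rw [int_raw_eq hr (by omega)] at hU
  refine conclude hr (by omega) (nP.add (n1.add n2)) ?_ hP hP0
  rw [JJ_add nP (n1.add n2), JJ_add n1 n2, j2, add_zero]
  linarith

/-- **Conclusion with `u = V (l - cap τ)`, `Ω = u + ε E(l)` on `[s₁, 1)`, nothing on `(0, s₁)`.** -/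
theorem tailV_concl (hn : 5 ≤ n) (hr : Prof r) {P : ℝ → ℝ} (nP : NI n P)
    (hPle : JJ n P ≤ JJ n (fun s => clo n s (ll n r s) (kk n r s)))
    {V V' cap cap' E E' : ℝ → ℝ} {x0 s1 ε : ℝ}
    (hV : ∀ x, HasDerivAt V (V' x) x) (hVc : Continuous V') (hV0 : ∀ x ≤ x0, V x = 0)
    (hcap : ∀ t, HasDerivAt cap (cap' t) t) (hcapc : Continuous cap')
    (hE : ∀ x, HasDerivAt E (E' x) x) (hEc : Continuous E')
    (hs1 : s1 ∈ Ioo (0 : ℝ) 1) (hx1 : ll n r s1 - cap (tau n r s1) ≤ x0) (hE1 : E (ll n r s1) = 0)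
    (hcap1 : -cap 1 < x0)
    (hleg : ∀ s ∈ Ioo (0 : ℝ) s1, Legal n r s)
    (hnear : ∀ s ∈ Ioo (0 : ℝ) s1, 0 ≤ P s) (hnear0 : ∀ s ∈ Ioo (0 : ℝ) s1, P s = 0 → ll n r s = 0)
    (hu1 : ∀ s ∈ Ico s1 (1 : ℝ), s * Real.exp (V (ll n r s - cap (tau n r s))) < 1)
    (hadm : ∀ s ∈ Ico s1 (1 : ℝ),
      xA (1 / cc (s * Real.exp (V (ll n r s - cap (tau n r s)))))
        (ll n r s - V (ll n r s - cap (tau n r s))) ≤
      xB (tau n r s) (1 / cc (s * Real.exp (V (ll n r s - cap (tau n r s)))))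
        (ll n r s - V (ll n r s - cap (tau n r s))))
    (htail : ∀ s ∈ Ico s1 (1 : ℝ),
      0 ≤ P s + (lineC n s (ll n r s) (kk n r s) (V (ll n r s - cap (tau n r s)))
          (V' (ll n r s - cap (tau n r s)) * (kk n r s - cap' (tau n r s) * (tau n r s * (1 + kk n r s)))) +
        gaugeC n s (V (ll n r s - cap (tau n r s)) + ε * E (ll n r s))
          (V' (ll n r s - cap (tau n r s)) * (kk n r s - cap' (tau n r s) * (tau n r s * (1 + kk n r s))) +
            ε * (E' (ll n r s) * kk n r s))))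
    (htail0 : ∀ s ∈ Ico s1 (1 : ℝ),
      P s + (lineC n s (ll n r s) (kk n r s) (V (ll n r s - cap (tau n r s)))
          (V' (ll n r s - cap (tau n r s)) * (kk n r s - cap' (tau n r s) * (tau n r s * (1 + kk n r s)))) +
        gaugeC n s (V (ll n r s - cap (tau n r s)) + ε * E (ll n r s))
          (V' (ll n r s - cap (tau n r s)) * (kk n r s - cap' (tau n r s) * (tau n r s * (1 + kk n r s))) +
            ε * (E' (ll n r s) * kk n r s))) = 0 → ll n r s = 0) : Concl n r := by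
  classical
  have hl := continuousOn_ll hr n
  have hVcont : Continuous V := continuous_iff_continuousAt.2 fun x => (hV x).continuousAt
  have hEcont : Continuous E := continuous_iff_continuousAt.2 fun x => (hE x).continuousAt
  have hcapcont : Continuous cap := continuous_iff_continuousAt.2 fun x => (hcap x).continuousAt
  have hT := tau_continuous hr n
  set X : ℝ → ℝ := fun s => ll n r s - cap (tau n r s) with hX
  have hXc : ContinuousOn X (Icc 0 1) := hl.sub (hcapcont.comp hT).continuousOn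
  set m : ℝ → ℝ := fun s => max s s1 with hm
  have hmc : Continuous m := continuous_id.max continuous_const
  have hmaps : MapsTo m (Icc 0 1) (Icc 0 1) := fun s hs =>
    ⟨hs.1.trans (le_max_left _ _), max_le hs.2 hs1.2.le⟩
  have hm_lt : ∀ s, s < s1 → m s = s1 := fun s h => max_eq_right h.le
  have hm_ge : ∀ s, s1 ≤ s → m s = s := fun s h => max_eq_left h
  set h : ℝ → ℝ := fun s => V' (X s) * (kk n r s / s - cap' (tau n r s) * dtau n r s) with hh
  set u : ℝ → ℝ := fun s => V (X (m s)) with hu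
  set u' : ℝ → ℝ := fun s => if s < s1 then 0 else h s with hu'
  set Om : ℝ → ℝ := fun s => V (X (m s)) + ε * E (ll n r (m s)) with hOm
  set Om' : ℝ → ℝ := fun s => if s < s1 then 0 else h s + ε * (E' (ll n r s) * (kk n r s / s)) with hOm'
  -- derivatives
  have hXd : ∀ s ∈ Ioo (0 : ℝ) 1, HasDerivAt X (kk n r s / s - cap' (tau n r s) * dtau n r s) s := by
    intro s hs
    have h1 := (hcap (tau n r s)).comp s (hasDerivAt_tau hr n (s := s) ⟨by linarith [hs.1], hs.2⟩)
    exact (hasDerivAt_ll hr n hs).sub h1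
  have hVX : ∀ s ∈ Ioo (0 : ℝ) 1, HasDerivAt (fun s => V (X s)) (h s) s := fun s hs =>
    (hV (X s)).comp s (hXd s hs)
  have hEl : ∀ s ∈ Ioo (0 : ℝ) 1, HasDerivAt (fun s => E (ll n r s)) (E' (ll n r s) * (kk n r s / s)) s :=
    fun s hs => (hE (ll n r s)).comp s (hasDerivAt_ll hr n hs)
  have hright : ∀ {f : ℝ → ℝ} {f' s : ℝ}, s ∈ Ioo (0 : ℝ) 1 → s1 ≤ s → HasDerivAt f f' s →
      HasDerivWithinAt (fun x => f (m x)) f' (Ioi s) s := by
    intro f f' s _ h1 hd
    refine hd.hasDerivWithinAt.congr (fun x hx => ?_) ?_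
    · rw [hm_ge x (h1.trans (le_of_lt hx))]
    · rw [hm_ge s h1]
  have hleft : ∀ {f : ℝ → ℝ} {s : ℝ}, s < s1 → HasDerivWithinAt (fun x => f (m x)) 0 (Ioi s) s := by
    intro f s h1
    have h2 : (fun x => f (m x)) =ᶠ[𝓝 s] fun _ => f s1 := by
      filter_upwards [Iio_mem_nhds h1] with x hx
      rw [hm_lt x hx]
    exact ((hasDerivAt_const s (f s1)).congr_of_eventuallyEq h2).hasDerivWithinAt
  -- near one
  have hnear1 : ∃ δ < 1, ∀ s ∈ Icc δ (1 : ℝ), X (m s) ≤ x0 := by
    have hc : ContinuousWithinAt (fun s => X (m s)) (Icc 0 1) 1 :=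
      (hXc.comp hmc.continuousOn hmaps) 1 ⟨zero_le_one, le_rfl⟩
    have hv : X (m 1) < x0 := by
      rw [hm_ge 1 hs1.2.le]
      simp only [hX]
      rw [ll_one hr n, tau_one hr n]
      linarith
    have h2 := hc.eventually_lt_const hv
    rw [eventually_nhdsWithin_iff] at h2
    obtain ⟨e, he, h3⟩ := Metric.eventually_nhds_iff.1 h2
    refine ⟨max (1 - e / 2) 0, max_lt (by linarith) one_pos, fun s hs => ?_⟩
    have hs0 : 0 ≤ s := (le_max_right _ _).trans hs.1
    have hs2 : 1 - e / 2 ≤ s := (le_max_left _ _).trans hs.1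
    refine (h3 ?_ ⟨hs0, hs.2⟩).le
    rw [Real.dist_eq, abs_of_nonpos (by linarith [hs.2])]
    linarith
  obtain ⟨δ, hδ, hδ1⟩ := hnear1
  -- boundedness of u'
  have hhc : ContinuousOn h (Ioo 0 1) := by
    refine (hVc.comp_continuousOn (hXc.mono Ioo_subset_Icc_self)).mul ?_
    refine ContinuousOn.sub ?_ ?_
    · exact (continuousOn_kk hr n).div continuousOn_id fun s hs => hs.1.ne'
    · exact (hcapc.comp hT).continuousOn.mul
        ((continuousOn_dtau hr n).mono (Ioo_subset_Ioo_left (by norm_num)))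
  have hV'0 : ∀ x < x0, V' x = 0 := by
    intro x hx
    have h2 : V =ᶠ[𝓝 x] fun _ => 0 := by
      filter_upwards [Iio_mem_nhds hx] with y hy
      exact hV0 y (le_of_lt hy)
    exact (hV x).unique ((hasDerivAt_const x (0 : ℝ)).congr_of_eventuallyEq h2)
  have hV'0' : ∀ x ≤ x0, V' x = 0 := by
    intro x hx
    rcases hx.eq_or_lt with h2 | h2
    · subst h2
      have hcl : IsClosed {y : ℝ | V' y = 0} := isClosed_eq hVc continuous_const
      have hsub : closure (Iio x) ⊆ {y : ℝ | V' y = 0} :=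
        hcl.closure_subset_iff.2 fun y hy => hV'0 y hy
      rw [closure_Iio] at hsub
      exact hsub (mem_Iic.2 le_rfl)
    · exact hV'0 x h2
  have hub : ∃ K, ∀ s ∈ Ioo (0 : ℝ) 1, |u' s| ≤ K := by
    have hcomp : IsCompact (Icc s1 (max δ s1)) := isCompact_Icc
    have hsub : Icc s1 (max δ s1) ⊆ Ioo 0 1 := fun s hs =>
      ⟨hs1.1.trans_le hs.1, hs.2.trans_lt (max_lt hδ hs1.2)⟩
    obtain ⟨K, hK⟩ := hcomp.exists_bound_of_continuousOn (hhc.mono hsub)
    refine ⟨max K 0, fun s hs => ?_⟩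
    simp only [hu']
    split_ifs with h1
    · simp
    · push Not at h1
      by_cases h2 : s ≤ max δ s1
      · exact (hK s ⟨h1, h2⟩).trans (le_max_left _ _)
      · push Not at h2
        have h3 := hδ1 s ⟨(le_max_left _ _).trans h2.le, hs.2.le⟩
        rw [hm_ge s h1] at h3
        simp only [hh]
        rw [hV'0' _ h3, zero_mul, abs_zero]
        exact le_max_right _ _
  have hmeas : ∀ {f : ℝ → ℝ}, ContinuousOn f (Ioo 0 1) →
      AEStronglyMeasurable (fun s => if s < s1 then 0 else f s) (volume.restrict (Ioo 0 1)) := by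
    intro f hf
    have h1 : AEStronglyMeasurable f (volume.restrict (Ioo 0 1)) :=
      hf.aestronglyMeasurable measurableSet_Ioo
    have h2 := h1.indicator (measurableSet_Ici (a := s1))
    refine h2.congr (Eventually.of_forall fun s => ?_)
    by_cases h3 : s < s1
    · simp [h3]
    · simp [h3, not_lt.1 h3]
  have hum : AEStronglyMeasurable u' (volume.restrict (Ioo 0 1)) := hmeas hhc
  have hskk : ∀ s ∈ Ioo (0 : ℝ) 1, s * h s =
      V' (X s) * (kk n r s - cap' (tau n r s) * (tau n r s * (1 + kk n r s))) := by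
    intro s hs
    have h1 := hs.1.ne'
    have h2 := (tau_mem_half hr n hs).1.ne'
    simp only [hh]
    rw [one_add_kk]
    field_simp
  refine tail_concl hn hr nP hPle (u := u) (u' := u') (Om := Om) (Om' := Om') ?_ ?_ hum hub ?_ ?_ ?_ ?_
    ?_ ?_ ?_ ?_ ?_
  · exact hVcont.comp_continuousOn (hXc.comp hmc.continuousOn hmaps)
  · intro s hs
    simp only [hu']
    split_ifs with h1
    · exact hleft (f := fun s => V (X s)) h1
    · exact hright (f := fun s => V (X s)) hs (not_lt.1 h1) (hVX s hs)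
  · intro s hs
    simp only [hu]
    by_cases h1 : s < s1
    · rw [hm_lt s h1, hV0 _ hx1, Real.exp_zero, mul_one]
      exact hs.2
    · rw [hm_ge s (not_lt.1 h1)]
      exact hu1 s ⟨not_lt.1 h1, hs.2⟩
  · refine ⟨s1, hs1.1, fun s hs => ?_⟩
    simp only [hu]
    rw [show m s = s1 from max_eq_right hs.2]
    exact hV0 _ hx1
  · refine ⟨δ, hδ, fun s hs => ?_⟩
    exact hV0 _ (hδ1 s hs)
  · intro s hs
    simp only [hu]
    by_cases h1 : s < s1
    · rw [hm_lt s h1, hV0 _ hx1, Real.exp_zero, mul_one, sub_zero, ll_eq_log hs]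
      exact (hleg s ⟨hs.1, h1⟩).adm hs
    · rw [hm_ge s (not_lt.1 h1)]
      exact hadm s ⟨not_lt.1 h1, hs.2⟩
  · exact (hVcont.comp_continuousOn (hXc.comp hmc.continuousOn hmaps)).add
      (continuousOn_const.mul (hEcont.comp_continuousOn (hl.comp hmc.continuousOn hmaps)))
  · intro s hs
    simp only [hOm']
    split_ifs with h1
    · exact hleft (f := fun s => V (X s) + ε * E (ll n r s)) h1
    · exact hright (f := fun s => V (X s) + ε * E (ll n r s)) hs (not_lt.1 h1)
        ((hVX s hs).add ((hEl s hs).const_mul ε))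
  · obtain ⟨K, hK⟩ := hub
    have n1 : NI n (fun s => (fun s => cc s * (s * u' s)) s * 1) := by
      refine NI.bdd_mul (n := n) (g := fun _ => 1) (NI_cont continuousOn_const) ?_ (C := K) ?_
      · exact cc_continuous.aestronglyMeasurable.mul (measurable_id.aestronglyMeasurable.mul hum)
      · intro s hs
        rw [abs_mul, abs_mul, abs_of_nonneg (cc_nonneg s), abs_of_pos hs.1]
        have h1 := hK s hs
        have h2 := cc_le_one s
        have h3 := cc_nonneg s
        calc cc s * (s * |u' s|) ≤ 1 * (1 * |u' s|) := by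
              refine mul_le_mul h2 (mul_le_mul_of_nonneg_right hs.2.le (abs_nonneg _)) ?_ zero_le_one
              exact mul_nonneg hs.1.le (abs_nonneg _)
          _ ≤ K := by rw [one_mul, one_mul]; exact h1
    have n2 : NI n (fun s => (fun s => if s < s1 then (0 : ℝ) else 1) s *
        ((cc s * (ε * E' (ll n r s))) * kk n r s)) := by
      refine NI.bdd_mul (NI_kk hr (cc_continuous.continuousOn.mul (continuousOn_const.mul
        (hEc.comp_continuousOn hl)))) (hmeas continuousOn_const) (C := 1) ?_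
      intro s _
      split_ifs <;> simp
    refine (n1.add n2).congr fun s hs => ?_
    simp only [hOm', hu', mul_one]
    have h1 := hs.1.ne'
    split_ifs with h2
    · ring
    · field_simp
  · intro s hs
    simp only [hu, hu', hOm, hOm']
    by_cases h1 : s < s1
    · rw [if_pos h1, if_pos h1, hm_lt s h1, hV0 _ hx1, hE1, mul_zero, mul_zero, add_zero, lineC_zero]
      have : gaugeC n s 0 0 = 0 := by unfold gaugeC; ring
      rw [this, add_zero, add_zero]
      exact hnear s ⟨hs.1, h1⟩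
    · rw [if_neg h1, if_neg h1, hm_ge s (not_lt.1 h1), mul_add, hskk s hs]
      have h2 : s * (ε * (E' (ll n r s) * (kk n r s / s))) = ε * (E' (ll n r s) * kk n r s) := by
        have := hs.1.ne'
        field_simp
      rw [h2]
      exact htail s ⟨not_lt.1 h1, hs.2⟩
  · intro s hs
    simp only [hu, hu', hOm, hOm']
    by_cases h1 : s < s1
    · rw [if_pos h1, if_pos h1, hm_lt s h1, hV0 _ hx1, hE1, mul_zero, mul_zero, add_zero, lineC_zero]
      have : gaugeC n s 0 0 = 0 := by unfold gaugeC; ring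
      rw [this, add_zero, add_zero]
      exact hnear0 s ⟨hs.1, h1⟩
    · rw [if_neg h1, if_neg h1, hm_ge s (not_lt.1 h1), mul_add, hskk s hs]
      have h2 : s * (ε * (E' (ll n r s) * (kk n r s / s))) = ε * (E' (ll n r s) * kk n r s) := by
        have := hs.1.ne'
        field_simp
      rw [h2]
      exact htail0 s ⟨not_lt.1 h1, hs.2⟩

end Crest.Agent.R230.WR
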