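import Crest.Agent.R230.Slope

/-!
# Row 230: the XLOG swap function

`xl t p = ((1-tp)^{-1/2} - 1) log (p/t)` on `[0,1]²`; for `t ≥ 0`, `M1 t ·` is the convex envelope of `xl t` on
`[0,1]` and `0` on `[-1,0]`, extended evenly.  `M1` is continuous, convex in `p`, sub-antisymmetric; a line
`A + B p` is below `M1 t` iff `A + B q ≤ xl t q` on `[0,1]` and `A - B ≤ 0`.
-/

set_option autoImplicit false

open MeasureTheory Set
open scoped Pointwise ENNReal Topology

namespace Crest.Agent.R230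

/-- `xl t p = ((1-tp)^{-1/2} - 1) (log p - log t)` -/
noncomputable def xl (t p : ℝ) : ℝ :=
  (t * (p * Real.log p) - p * (t * Real.log t)) / (Real.sqrt (1 - t * p) * (1 + Real.sqrt (1 - t * p)))

lemma xl_eq {t p : ℝ} (h : t * p < 1) :
    xl t p = (1 / Real.sqrt (1 - t * p) - 1) * (Real.log p - Real.log t) := by
  have hC : 0 < Real.sqrt (1 - t * p) := Real.sqrt_pos.2 (by linarith)
  have hC2 : Real.sqrt (1 - t * p) ^ 2 = 1 - t * p := Real.sq_sqrt (by linarith)
  set C := Real.sqrt (1 - t * p)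
  unfold xl
  have h1 : 1 + C ≠ 0 := by positivity
  have h2 : (1 / C - 1) = t * p / (C * (1 + C)) := by
    field_simp
    nlinarith
  rw [h2]
  ring

lemma xl_anti (t p : ℝ) : xl t p = - xl p t := by
  unfold xl
  rw [mul_comm p t]
  ring

lemma xl_zero_left (p : ℝ) : xl 0 p = 0 := by unfold xl; simp

lemma xl_self (t : ℝ) : xl t t = 0 := by unfold xl; simp

lemma xl_one_one : xl 1 1 = 0 := xl_self 1

lemma xl_le_aux {t p : ℝ} (ht : t ∈ Ioc (0 : ℝ) 1) (hp : p ∈ Icc (0 : ℝ) 1) (h : t ≤ p) :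
    |xl t p| ≤ Real.sqrt (1 - t * p) := by
  have ht0 := ht.1
  have hp0 : 0 < p := ht0.trans_le h
  have htp : t * p ≤ 1 := by nlinarith [ht.2, hp.2]
  have hC := Real.sqrt_nonneg (1 - t * p)
  have hC2 : Real.sqrt (1 - t * p) ^ 2 = 1 - t * p := Real.sq_sqrt (by linarith)
  rcases eq_or_lt_of_le htp with h1 | h1
  · unfold xl
    rw [h1]
    simp
  · have hCp : 0 < Real.sqrt (1 - t * p) := Real.sqrt_pos.2 (by linarith)
    have hlog0 : 0 ≤ Real.log p - Real.log t := by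
      have := Real.log_le_log ht0 h
      linarith
    have hlog : Real.log p - Real.log t ≤ p / t - 1 := by
      rw [← Real.log_div hp0.ne' ht0.ne']
      exact Real.log_le_sub_one_of_pos (by positivity)
    have hnum : t * (p * Real.log p) - p * (t * Real.log t) = t * p * (Real.log p - Real.log t) := by ring
    unfold xl
    rw [hnum]
    set C := Real.sqrt (1 - t * p)
    rw [abs_of_nonneg (by positivity), div_le_iff₀ (by positivity)]
    have h2 : t * p * (Real.log p - Real.log t) ≤ t * p * (p / t - 1) :=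
      mul_le_mul_of_nonneg_left hlog (by positivity)
    have h3 : t * p * (p / t - 1) = p * (p - t) := by field_simp
    have h4 : p * (p - t) ≤ 1 - t * p := by nlinarith [hp.2, ht.2]
    nlinarith [pow_pos hCp 3]

lemma abs_xl_le {t p : ℝ} (ht : t ∈ Icc (0 : ℝ) 1) (hp : p ∈ Icc (0 : ℝ) 1) :
    |xl t p| ≤ Real.sqrt (1 - t * p) := by
  rcases eq_or_lt_of_le ht.1 with h0 | h0
  · rw [← h0, xl_zero_left]; simp
  rcases eq_or_lt_of_le hp.1 with h1 | h1
  · rw [← h1, xl_anti, xl_zero_left]; simp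
  rcases le_total t p with h | h
  · exact xl_le_aux ⟨h0, ht.2⟩ hp h
  · rw [xl_anti, abs_neg, mul_comm]
    exact xl_le_aux ⟨h1, hp.2⟩ ht h

lemma xl_continuousOn : ContinuousOn (fun q : ℝ × ℝ => xl q.1 q.2) (Icc 0 1 ×ˢ Icc 0 1) := by
  rintro ⟨t, p⟩ ⟨ht, hp⟩
  simp only at ht hp
  have hle : t * p ≤ 1 := by nlinarith [ht.1, ht.2, hp.1, hp.2]
  rcases eq_or_lt_of_le hle with h | h
  · -- squeeze
    have h0 : xl t p = 0 := by
      have := abs_xl_le ht hp
      rw [h] at this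
      simpa using this
    unfold ContinuousWithinAt
    simp only [h0]
    have hc : Continuous fun q : ℝ × ℝ => Real.sqrt (1 - q.1 * q.2) := by fun_prop
    have h2 : Filter.Tendsto (fun q : ℝ × ℝ => Real.sqrt (1 - q.1 * q.2))
        (𝓝[Icc 0 1 ×ˢ Icc 0 1] (t, p)) (𝓝 0) := by
      have := (hc.tendsto (t, p)).mono_left (nhdsWithin_le_nhds (s := Icc 0 1 ×ˢ Icc 0 1))
      simpa [h] using this
    refine squeeze_zero_norm' ?_ h2
    filter_upwards [self_mem_nhdsWithin] with q hq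
    exact abs_xl_le hq.1 hq.2
  · apply ContinuousAt.continuousWithinAt
    unfold xl
    have hnum : Continuous fun q : ℝ × ℝ => q.1 * (q.2 * Real.log q.2) - q.2 * (q.1 * Real.log q.1) := by
      have := Real.continuous_mul_log
      exact (continuous_fst.mul (this.comp continuous_snd)).sub (continuous_snd.mul (this.comp continuous_fst))
    have hden : Continuous fun q : ℝ × ℝ => Real.sqrt (1 - q.1 * q.2) * (1 + Real.sqrt (1 - q.1 * q.2)) := by
      fun_prop
    refine hnum.continuousAt.div hden.continuousAt ?_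
    have : 0 < Real.sqrt (1 - t * p) := Real.sqrt_pos.2 (by linarith)
    simp only
    positivity

/-- slope in `p` -/
noncomputable def xlp (t p : ℝ) : ℝ :=
  t / (2 * Real.sqrt (1 - t * p) ^ 3) * (Real.log p - Real.log t) + (1 / Real.sqrt (1 - t * p) - 1) / p

/-- second derivative in `p` -/
noncomputable def xlpp (t p : ℝ) : ℝ :=
  3 * t ^ 2 / (4 * Real.sqrt (1 - t * p) ^ 5) * (Real.log p - Real.log t) +
    t / (Real.sqrt (1 - t * p) ^ 3 * p) - (1 / Real.sqrt (1 - t * p) - 1) / p ^ 2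

lemma hasDerivAt_sq1 {t p : ℝ} (h : t * p < 1) :
    HasDerivAt (fun p => Real.sqrt (1 - t * p)) (-t / (2 * Real.sqrt (1 - t * p))) p := by
  have h1 : HasDerivAt (fun p => 1 - t * p) (-t) p := by
    have := ((hasDerivAt_id p).const_mul t).const_sub 1
    simpa using this
  exact h1.sqrt (by linarith)

lemma hasDerivAt_xl {t p : ℝ} (hp : 0 < p) (h : t * p < 1) :
    HasDerivAt (xl t) (xlp t p) p := by
  have hC : 0 < Real.sqrt (1 - t * p) := Real.sqrt_pos.2 (by linarith)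
  have hd := hasDerivAt_sq1 h
  have h1 : HasDerivAt (fun p => (1 / Real.sqrt (1 - t * p) - 1) * (Real.log p - Real.log t)) (xlp t p) p := by
    have h2 := ((hd.inv hC.ne').sub_const 1).mul ((Real.hasDerivAt_log hp.ne').sub_const (Real.log t))
    refine (h2.congr_deriv ?_).congr_of_eventuallyEq ?_
    · unfold xlp
      simp only [Pi.inv_apply]
      field_simp
    · filter_upwards with q
      simp [one_div]
  refine h1.congr_of_eventuallyEq ?_
  have : ∀ᶠ q in 𝓝 p, t * q < 1 := by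
    have hc : Continuous fun q => t * q := by fun_prop
    exact hc.continuousAt.eventually_lt continuousAt_const h
  filter_upwards [this] with q hq
  exact xl_eq hq

lemma hasDerivAt_xlp {t p : ℝ} (hp : 0 < p) (h : t * p < 1) :
    HasDerivAt (xlp t) (xlpp t p) p := by
  have hC : 0 < Real.sqrt (1 - t * p) := Real.sqrt_pos.2 (by linarith)
  have hd := hasDerivAt_sq1 h
  unfold xlp
  have hne : (2 : ℝ) * Real.sqrt (1 - t * p) ^ 3 ≠ 0 := by positivity
  have h1 := ((((hd.fun_pow 3).const_mul 2).fun_inv hne).const_mul t).fun_mul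
    ((Real.hasDerivAt_log hp.ne').sub_const (Real.log t))
  have h2 := ((hd.fun_inv hC.ne').sub_const 1).fun_mul (hasDerivAt_inv hp.ne')
  refine ((h1.fun_add h2).congr_deriv ?_).congr_of_eventuallyEq ?_
  · unfold xlpp
    field_simp
    ring
  · filter_upwards with q
    simp [div_eq_mul_inv]

lemma xlpp_nonneg {t p : ℝ} (ht : t ∈ Ioc (0 : ℝ) 1) (hp : 0 < p) (h : t * p < 1) : 0 ≤ xlpp t p := by
  have ht0 := ht.1
  have hC : 0 < Real.sqrt (1 - t * p) := Real.sqrt_pos.2 (by linarith)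
  have hC2 : Real.sqrt (1 - t * p) ^ 2 = 1 - t * p := Real.sq_sqrt (by linarith)
  have hC1 : Real.sqrt (1 - t * p) < 1 := by
    rw [Real.sqrt_lt' (by norm_num)]
    have := mul_pos ht0 hp
    linarith
  set x := t * p with hx
  have hx0 : 0 < x := mul_pos ht0 hp
  set C := Real.sqrt (1 - x) with hCdef
  have hlog1 : Real.log x ≤ Real.log p - Real.log t := by
    rw [hx, Real.log_mul ht0.ne' hp.ne']
    have := Real.log_nonpos ht0.le ht.2
    linarith
  have hlog2 : (x - x⁻¹) / 2 ≤ Real.log x := by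
    rw [← Real.sinh_log hx0]
    exact Real.sinh_le_self_iff.2 (Real.log_nonpos hx0.le (by linarith))
  have hlog : (x - x⁻¹) / 2 ≤ Real.log p - Real.log t := hlog2.trans hlog1
  unfold xlpp
  rw [← hx, ← hCdef]
  have key : 0 ≤ p ^ 2 * C ^ 5 * (3 * t ^ 2 / (4 * C ^ 5) * (Real.log p - Real.log t) +
    t / (C ^ 3 * p) - (1 / C - 1) / p ^ 2) := by
    have e : p ^ 2 * C ^ 5 * (3 * t ^ 2 / (4 * C ^ 5) * (Real.log p - Real.log t) +
      t / (C ^ 3 * p) - (1 / C - 1) / p ^ 2) =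
      3 / 4 * x ^ 2 * (Real.log p - Real.log t) + x * C ^ 2 - C ^ 4 * (1 - C) := by
      rw [hx]
      field_simp
    rw [e]
    have h1 : 3 / 4 * x ^ 2 * ((x - x⁻¹) / 2) ≤ 3 / 4 * x ^ 2 * (Real.log p - Real.log t) :=
      mul_le_mul_of_nonneg_left hlog (by positivity)
    have h2 : 3 / 4 * x ^ 2 * ((x - x⁻¹) / 2) = 3 / 8 * x * (x ^ 2 - 1) := by
      field_simp
      ring
    have hxC : x = 1 - C ^ 2 := by linarith
    have h3 : 3 / 8 * x * (x ^ 2 - 1) + x * C ^ 2 - C ^ 4 * (1 - C) =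
        C ^ 2 * (1 - C) * ((2 * (1 - C) ^ 2 + C * (6 - 7 * C + 3 * C ^ 2)) / 8) := by
      rw [hxC]; ring
    have h4 : 0 ≤ C ^ 2 * (1 - C) * ((2 * (1 - C) ^ 2 + C * (6 - 7 * C + 3 * C ^ 2)) / 8) := by
      have : 0 ≤ 6 - 7 * C + 3 * C ^ 2 := by nlinarith [sq_nonneg (C - 1)]
      have h5 : 0 ≤ 1 - C := by linarith
      positivity
    linarith
  have hpos : 0 < p ^ 2 * C ^ 5 := by positivity
  exact nonneg_of_mul_nonneg_right key hpos

lemma xl_convex {t : ℝ} (ht : t ∈ Icc (0 : ℝ) 1) : ConvexOn ℝ (Icc 0 1) (xl t) := by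
  rcases eq_or_lt_of_le ht.1 with h0 | h0
  · rw [← h0]
    have : xl 0 = fun _ => 0 := by funext p; exact xl_zero_left p
    rw [this]
    exact convexOn_const _ (convex_Icc _ _)
  refine convexOn_of_hasDerivWithinAt2_nonneg (f' := xlp t) (f'' := xlpp t) (convex_Icc _ _) ?_ ?_ ?_ ?_
  · have : (xl t) = (fun q : ℝ × ℝ => xl q.1 q.2) ∘ (fun p => (t, p)) := rfl
    rw [this]
    exact xl_continuousOn.comp (by fun_prop) fun p hp => ⟨ht, hp⟩
  · intro p hp
    rw [interior_Icc] at hp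
    have : t * p < 1 := by nlinarith [hp.1, hp.2, ht.2]
    exact (hasDerivAt_xl hp.1 this).hasDerivWithinAt
  · intro p hp
    rw [interior_Icc] at hp
    have : t * p < 1 := by nlinarith [hp.1, hp.2, ht.2]
    exact (hasDerivAt_xlp hp.1 this).hasDerivWithinAt
  · intro p hp
    rw [interior_Icc] at hp
    have : t * p < 1 := by nlinarith [hp.1, hp.2, ht.2]
    exact xlpp_nonneg ⟨h0, ht.2⟩ hp.1 this

/-- clamp to `[0,1]` -/
noncomputable def cl (x : ℝ) : ℝ := max 0 (min 1 x)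

lemma cl_mem (x : ℝ) : cl x ∈ Icc (0 : ℝ) 1 := by
  unfold cl
  constructor
  · exact le_max_left _ _
  · exact max_le (by norm_num) (min_le_left _ _)

lemma cl_of_mem {x : ℝ} (h : x ∈ Icc (0 : ℝ) 1) : cl x = x := by
  unfold cl
  rw [min_eq_right h.2, max_eq_right h.1]

lemma cl_continuous : Continuous cl := by unfold cl; fun_prop

lemma xc_continuous : Continuous fun q : ℝ × ℝ => xl (cl q.1) (cl q.2) := by
  have h : (fun q : ℝ × ℝ => xl (cl q.1) (cl q.2)) =
      (fun q : ℝ × ℝ => xl q.1 q.2) ∘ (fun q : ℝ × ℝ => (cl q.1, cl q.2)) := rfl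
  rw [h]
  refine xl_continuousOn.comp_continuous ?_ fun q => ⟨cl_mem _, cl_mem _⟩
  exact (cl_continuous.comp continuous_fst).prodMk (cl_continuous.comp continuous_snd)

/-- convex envelope of `xl t` on `[0,1]` and of `0` at `-1` -/
noncomputable def mm (t p : ℝ) : ℝ :=
  sInf ((fun q => (1 + p) / (1 + max (cl p) q) * xl (cl t) (cl (max (cl p) q))) '' Icc (0 : ℝ) 1)

lemma mm_aux_continuous :
    Continuous fun y : (ℝ × ℝ) × ℝ => (1 + y.1.2) / (1 + max (cl y.1.2) y.2) *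
      xl (cl y.1.1) (cl (max (cl y.1.2) y.2)) := by
  have h1 : Continuous fun y : (ℝ × ℝ) × ℝ => max (cl y.1.2) y.2 :=
    (cl_continuous.comp (by fun_prop : Continuous fun y : (ℝ × ℝ) × ℝ => y.1.2)).max continuous_snd
  refine Continuous.mul ?_ ?_
  · refine Continuous.div (by fun_prop) (continuous_const.add h1) fun y => ?_
    have := (cl_mem y.1.2).1
    have := le_max_left (cl y.1.2) y.2
    linarith
  · have h : (fun y : (ℝ × ℝ) × ℝ => xl (cl y.1.1) (cl (max (cl y.1.2) y.2))) =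
        (fun q : ℝ × ℝ => xl (cl q.1) (cl q.2)) ∘ (fun y : (ℝ × ℝ) × ℝ => (y.1.1, max (cl y.1.2) y.2)) := rfl
    rw [h]
    exact xc_continuous.comp ((by fun_prop : Continuous fun y : (ℝ × ℝ) × ℝ => y.1.1).prodMk h1)

lemma mm_continuous : Continuous fun q : ℝ × ℝ => mm q.1 q.2 := by
  unfold mm
  have hK : IsCompact (Icc (0 : ℝ) 1) := isCompact_Icc
  exact hK.continuous_sInf (f := fun (x : ℝ × ℝ) (q : ℝ) => (1 + x.2) / (1 + max (cl x.2) q) *
    xl (cl x.1) (cl (max (cl x.2) q))) mm_aux_continuous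

lemma mm_sec_continuous (t p : ℝ) : Continuous (fun q => (1 + p) / (1 + max (cl p) q) *
    xl (cl t) (cl (max (cl p) q))) :=
  mm_aux_continuous.comp (by fun_prop : Continuous fun q : ℝ => ((t, p), q))

lemma cl_le_of_le {p q : ℝ} (hq : 0 ≤ q) (h : p ≤ q) : cl p ≤ q := by
  unfold cl
  exact max_le hq ((min_le_right _ _).trans h)

lemma le_cl_of_le {p : ℝ} (h : p ≤ 1) : p ≤ cl p := by
  unfold cl
  rw [min_eq_right h]
  exact le_max_right _ _

lemma mm_le {t p q : ℝ} (ht : t ∈ Icc (0 : ℝ) 1) (hq : q ∈ Icc (0 : ℝ) 1) (hpq : p ≤ q) :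
    mm t p ≤ (1 + p) / (1 + q) * xl t q := by
  unfold mm
  have hK : IsCompact (Icc (0 : ℝ) 1) := isCompact_Icc
  have hb := (hK.image (mm_sec_continuous t p)).bddBelow
  refine csInf_le hb ⟨q, hq, ?_⟩
  simp only [cl_of_mem ht, max_eq_right (cl_le_of_le hq.1 hpq), cl_of_mem hq]

lemma exists_mm {t p : ℝ} (ht : t ∈ Icc (0 : ℝ) 1) (hp : p ≤ 1) :
    ∃ q ∈ Icc (0 : ℝ) 1, p ≤ q ∧ mm t p = (1 + p) / (1 + q) * xl t q := by
  have hK : IsCompact (Icc (0 : ℝ) 1) := isCompact_Icc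
  obtain ⟨q, hq, h1⟩ := (hK.image (mm_sec_continuous t p)).sInf_mem ((nonempty_Icc.2 (by norm_num)).image _)
  have hm : max (cl p) q ∈ Icc (0 : ℝ) 1 := ⟨hq.1.trans (le_max_right _ _), max_le (cl_mem p).2 hq.2⟩
  refine ⟨max (cl p) q, hm, (le_cl_of_le hp).trans (le_max_left _ _), ?_⟩
  unfold mm
  rw [← h1]
  simp only [cl_of_mem ht, cl_of_mem hm]

lemma mm_nonpos {t p : ℝ} (ht : t ∈ Icc (0 : ℝ) 1) (hp : p ≤ t) : mm t p ≤ 0 := by
  have := mm_le ht ht hp
  rwa [xl_self, mul_zero] at this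

lemma mm_le_xl {t p : ℝ} (ht : t ∈ Icc (0 : ℝ) 1) (hp : p ∈ Icc (0 : ℝ) 1) : mm t p ≤ xl t p := by
  have := mm_le ht hp le_rfl
  rwa [div_self (by linarith [hp.1]), one_mul] at this

lemma mm_convex {t : ℝ} (ht : t ∈ Icc (0 : ℝ) 1) : ConvexOn ℝ (Icc (-1) 1) (mm t) := by
  refine ⟨convex_Icc _ _, fun x hx y hy a b ha hb hab => ?_⟩
  obtain ⟨q₁, h₁, hx1, e₁⟩ := exists_mm ht hx.2
  obtain ⟨q₂, h₂, hy1, e₂⟩ := exists_mm ht hy.2
  have hq1 : 0 < 1 + q₁ := by linarith [h₁.1]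
  have hq2 : 0 < 1 + q₂ := by linarith [h₂.1]
  set w₁ := (1 + x) / (1 + q₁) with hw1
  set w₂ := (1 + y) / (1 + q₂) with hw2
  have w1n : 0 ≤ w₁ := div_nonneg (by linarith [hx.1]) hq1.le
  have w2n : 0 ≤ w₂ := div_nonneg (by linarith [hy.1]) hq2.le
  have w1l : w₁ ≤ 1 := (div_le_one hq1).2 (by linarith)
  have w2l : w₂ ≤ 1 := (div_le_one hq2).2 (by linarith)
  have m1 : w₁ * (1 + q₁) = 1 + x := div_mul_cancel₀ _ hq1.ne'
  have m2 : w₂ * (1 + q₂) = 1 + y := div_mul_cancel₀ _ hq2.ne'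
  simp only [smul_eq_mul]
  rw [e₁, e₂]
  have hW0 : 0 ≤ a * w₁ + b * w₂ := by positivity
  rcases eq_or_lt_of_le hW0 with h0 | hW
  · -- then `a x + b y = -1`
    have h1 : a * w₁ = 0 := by nlinarith [mul_nonneg ha w1n, mul_nonneg hb w2n]
    have h2 : b * w₂ = 0 := by nlinarith [mul_nonneg ha w1n, mul_nonneg hb w2n]
    have h3 : a * x + b * y = -1 := by
      have e1 : a * (1 + x) = 0 := by rw [← m1, ← mul_assoc, h1, zero_mul]
      have e2 : b * (1 + y) = 0 := by rw [← m2, ← mul_assoc, h2, zero_mul]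
      linarith
    rw [h3]
    have h4 := mm_le ht (q := 0) (p := -1) (by norm_num) (by norm_num)
    simp only [add_neg_cancel, zero_div, zero_mul] at h4
    rw [← mul_assoc, ← mul_assoc, h1, h2]
    linarith
  · set W := a * w₁ + b * w₂ with hWdef
    have hWl : W ≤ 1 := by nlinarith
    set α := a * w₁ / W with hα
    set β := b * w₂ / W with hβ
    have hα0 : 0 ≤ α := by positivity
    have hβ0 : 0 ≤ β := by positivity
    have hαβ : α + β = 1 := by rw [hα, hβ, ← add_div, ← hWdef, div_self hW.ne']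
    have hq := (convex_Icc (0 : ℝ) 1) h₁ h₂ hα0 hβ0 hαβ
    have hcx := (xl_convex ht).2 h₁ h₂ hα0 hβ0 hαβ
    simp only [smul_eq_mul] at hq hcx
    have hWα : W * α = a * w₁ := by rw [hα]; field_simp
    have hWβ : W * β = b * w₂ := by rw [hβ]; field_simp
    have hWq : W * (1 + (α * q₁ + β * q₂)) = 1 + (a * x + b * y) := by
      have : W * (1 + (α * q₁ + β * q₂)) = a * (w₁ * (1 + q₁)) + b * (w₂ * (1 + q₂)) := by
        calc W * (1 + (α * q₁ + β * q₂)) = W + (W * α) * q₁ + (W * β) * q₂ := by ring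
          _ = _ := by rw [hWα, hWβ, hWdef]; ring
      rw [this, m1, m2]
      linear_combination hab
    have hqpos : 0 < 1 + (α * q₁ + β * q₂) := by linarith [hq.1]
    have hle : a * x + b * y ≤ α * q₁ + β * q₂ := by nlinarith
    have h4 := mm_le ht hq hle
    refine h4.trans ?_
    have h5 : (1 + (a * x + b * y)) / (1 + (α * q₁ + β * q₂)) = W := by
      rw [← hWq, mul_div_assoc, div_self hqpos.ne', mul_one]
    rw [h5]
    calc W * xl t (α * q₁ + β * q₂) ≤ W * (α * xl t q₁ + β * xl t q₂) :=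
          mul_le_mul_of_nonneg_left hcx hW.le
      _ = (W * α) * xl t q₁ + (W * β) * xl t q₂ := by ring
      _ = a * (w₁ * xl t q₁) + b * (w₂ * xl t q₂) := by rw [hWα, hWβ]; ring

/-- the even extension -/
noncomputable def M1 (t p : ℝ) : ℝ := if 0 ≤ t then mm t p else mm (-t) (-p)

lemma mm_zero (p : ℝ) : mm 0 p = 0 := by
  unfold mm
  have : (fun q => (1 + p) / (1 + max (cl p) q) * xl (cl 0) (cl (max (cl p) q))) = fun _ => (0 : ℝ) := by
    funext q
    rw [cl_of_mem (by norm_num : (0 : ℝ) ∈ Icc (0 : ℝ) 1), xl_zero_left, mul_zero]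
  rw [this, (nonempty_Icc.2 (by norm_num : (0 : ℝ) ≤ 1)).image_const]
  simp

lemma M1_continuous : Continuous fun q : ℝ × ℝ => M1 q.1 q.2 := by
  unfold M1
  refine Continuous.if_le (f := fun q : ℝ × ℝ => (0 : ℝ)) (g := fun q : ℝ × ℝ => q.1) mm_continuous ?_
    continuous_const continuous_fst ?_
  · exact mm_continuous.comp (by fun_prop : Continuous fun q : ℝ × ℝ => (-q.1, -q.2))
  · intro q hq
    rw [← hq, neg_zero, mm_zero, mm_zero]

lemma M1_neg {t p : ℝ} : M1 (-t) (-p) = M1 t p := by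
  unfold M1
  rcases lt_trichotomy t 0 with h | h | h
  · rw [if_pos (by linarith), if_neg (by linarith)]
  · subst h; simp [mm_zero]
  · rw [if_neg (by linarith), if_pos h.le]; simp

lemma M1_of_nonneg {t p : ℝ} (h : 0 ≤ t) : M1 t p = mm t p := by unfold M1; rw [if_pos h]

lemma M1_convex {t : ℝ} (ht : t ∈ Icc (-1 : ℝ) 1) : ConvexOn ℝ (Icc (-1) 1) (M1 t) := by
  rcases le_or_gt 0 t with h | h
  · have : M1 t = mm t := by funext p; exact M1_of_nonneg h
    rw [this]
    exact mm_convex ⟨h, ht.2⟩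
  · have : M1 t = fun p => mm (-t) (-p) := by funext p; unfold M1; rw [if_neg (by linarith)]
    rw [this]
    have h1 := mm_convex (t := -t) ⟨by linarith, by linarith [ht.1]⟩
    refine ⟨convex_Icc _ _, fun x hx y hy a b ha hb hab => ?_⟩
    have h2 := h1.2 (x := -x) ⟨by linarith [hx.2], by linarith [hx.1]⟩ (y := -y)
      ⟨by linarith [hy.2], by linarith [hy.1]⟩ ha hb hab
    simp only [smul_eq_mul] at h2 ⊢
    have e : a * -x + b * -y = -(a * x + b * y) := by ring
    rw [e] at h2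
    exact h2

lemma M1_anti_aux {t p : ℝ} (ht : t ∈ Icc (0 : ℝ) 1) (hp : p ∈ Icc (-1 : ℝ) 1) : M1 t p + M1 p t ≤ 0 := by
  rcases le_or_gt 0 p with h | h
  · rw [M1_of_nonneg ht.1, M1_of_nonneg h]
    have h1 := mm_le_xl ht ⟨h, hp.2⟩
    have h2 := mm_le_xl (t := p) (p := t) ⟨h, hp.2⟩ ht
    rw [xl_anti p t] at h2
    linarith
  · have h1 : M1 p t = mm (-p) (-t) := by unfold M1; rw [if_neg (by linarith)]
    rw [h1, M1_of_nonneg ht.1]
    have h2 := mm_nonpos ht (p := p) (by linarith [ht.1])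
    have h3 := mm_nonpos (t := -p) (p := -t) ⟨by linarith, by linarith [hp.1]⟩ (by linarith [ht.1])
    linarith

lemma M1_anti {t p : ℝ} (ht : t ∈ Icc (-1 : ℝ) 1) (hp : p ∈ Icc (-1 : ℝ) 1) : M1 t p + M1 p t ≤ 0 := by
  rcases le_or_gt 0 t with h | h
  · exact M1_anti_aux ⟨h, ht.2⟩ hp
  · rw [← M1_neg (t := t), ← M1_neg (t := p)]
    exact M1_anti_aux ⟨by linarith, by linarith [ht.1]⟩ ⟨by linarith [hp.2], by linarith [hp.1]⟩

/-- **admissible lines**: below `xl t` on `[0,1]` and `≤ 0` at `-1`. -/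
theorem line_le_M1 {t A B p : ℝ} (ht : t ∈ Icc (0 : ℝ) 1) (h1 : ∀ q ∈ Icc (0 : ℝ) 1, A + B * q ≤ xl t q)
    (h2 : A - B ≤ 0) (hp : p ∈ Icc (-1 : ℝ) 1) : A + B * p ≤ M1 t p := by
  rw [M1_of_nonneg ht.1]
  obtain ⟨y, hy, hpy, e⟩ := exists_mm ht hp.2
  rw [e]
  have hy1 : 0 < 1 + y := by linarith [hy.1]
  have h3 := h1 y hy
  have h4 : A + B * p = (1 + p) / (1 + y) * (A + B * y) + (1 - (1 + p) / (1 + y)) * (A - B) := by
    field_simp
    ring
  have h5 : 0 ≤ (1 + p) / (1 + y) := div_nonneg (by linarith [hp.1]) hy1.le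
  have h6 : (1 + p) / (1 + y) ≤ 1 := (div_le_one hy1).2 (by linarith)
  rw [h4]
  have h7 := mul_le_mul_of_nonneg_left h3 h5
  have h8 : (1 - (1 + p) / (1 + y)) * (A - B) ≤ 0 := mul_nonpos_of_nonneg_of_nonpos (by linarith) h2
  linarith

lemma xl_convex' {t : ℝ} (ht : t ∈ Ioo (0 : ℝ) 1) : ConvexOn ℝ (Ico 0 t⁻¹) (xl t) := by
  have h0 := ht.1
  have hlt : ∀ p ∈ Ico (0 : ℝ) t⁻¹, t * p < 1 := fun p hp => by
    have := mul_lt_mul_of_pos_left hp.2 h0
    rwa [mul_inv_cancel₀ h0.ne'] at this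
  refine convexOn_of_hasDerivWithinAt2_nonneg (f' := xlp t) (f'' := xlpp t) (convex_Ico _ _) ?_ ?_ ?_ ?_
  · intro p hp
    apply ContinuousAt.continuousWithinAt
    unfold xl
    have hnum : Continuous fun p : ℝ => t * (p * Real.log p) - p * (t * Real.log t) :=
      (continuous_const.mul Real.continuous_mul_log).sub (by fun_prop)
    have hden : Continuous fun p : ℝ => Real.sqrt (1 - t * p) * (1 + Real.sqrt (1 - t * p)) := by
      fun_prop
    refine hnum.continuousAt.div hden.continuousAt ?_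
    have : 0 < Real.sqrt (1 - t * p) := Real.sqrt_pos.2 (by linarith [hlt p hp])
    positivity
  · intro p hp
    rw [interior_Ico] at hp
    exact (hasDerivAt_xl hp.1 (hlt p ⟨hp.1.le, hp.2⟩)).hasDerivWithinAt
  · intro p hp
    rw [interior_Ico] at hp
    exact (hasDerivAt_xlp hp.1 (hlt p ⟨hp.1.le, hp.2⟩)).hasDerivWithinAt
  · intro p hp
    rw [interior_Ico] at hp
    exact xlpp_nonneg ⟨h0, ht.2.le⟩ hp.1 (hlt p ⟨hp.1.le, hp.2⟩)

/-- tangent lines are supporting (contact `q` possibly larger than `1`) -/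
theorem tangent_le_xl {t q y : ℝ} (ht : t ∈ Ioo (0 : ℝ) 1) (hq : 0 < q) (htq : t * q < 1)
    (hy : y ∈ Icc (0 : ℝ) 1) : xl t q + xlp t q * (y - q) ≤ xl t y := by
  have h0 := ht.1
  have hinv : (1 : ℝ) < t⁻¹ := (one_lt_inv₀ h0).2 ht.2
  have hqm : q ∈ Ico (0 : ℝ) t⁻¹ := ⟨hq.le, by rw [lt_inv_comm₀ hq h0, ← one_div, lt_div_iff₀ hq]; exact htq⟩
  have hym : y ∈ Ico (0 : ℝ) t⁻¹ := ⟨hy.1, hy.2.trans_lt hinv⟩
  have hd := hasDerivAt_xl hq htq
  have hcx := xl_convex' ht
  rcases lt_trichotomy y q with h | h | h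
  · have := hcx.slope_le_of_hasDerivAt hym hqm h hd
    rw [slope_def_field, div_le_iff₀ (by linarith)] at this
    linarith
  · rw [h]; simp
  · have := hcx.le_slope_of_hasDerivAt hqm hym h hd
    rw [slope_def_field, le_div_iff₀ (by linarith)] at this
    linarith

variable {n : ℕ}

/-- the full swap function -/
noncomputable def etaX (n : ℕ) (t p : ℝ) : ℝ := M1 t p + del n t * (p - t)

lemma etaX_continuousOn : ContinuousOn (fun q : ℝ × ℝ => etaX n q.1 q.2) (Icc (-1) 1 ×ˢ Icc (-1) 1) := by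
  unfold etaX
  refine M1_continuous.continuousOn.add (ContinuousOn.mul ?_ ?_)
  · exact del_continuousOn.comp continuousOn_fst fun q hq => hq.1
  · exact (continuous_snd.sub continuous_fst).continuousOn

lemma etaX_convex {t : ℝ} (ht : t ∈ Icc (-1 : ℝ) 1) : ConvexOn ℝ (Icc (-1) 1) (etaX n t) := by
  have h1 : ConvexOn ℝ (Icc (-1 : ℝ) 1) (fun p => M1 t p + (-del n t * t)) :=
    (M1_convex ht).add_const _
  have h2 : ConvexOn ℝ (Icc (-1 : ℝ) 1) (fun p : ℝ => del n t * p) := by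
    refine ⟨convex_Icc _ _, fun x _ y _ a b _ _ _ => ?_⟩
    simp only [smul_eq_mul]
    apply le_of_eq; ring
  refine (h1.add h2).congr fun p _ => ?_
  simp only [Pi.add_apply, etaX]
  ring

lemma etaX_anti {t p : ℝ} (ht : t ∈ Icc (-1 : ℝ) 1) (hp : p ∈ Icc (-1 : ℝ) 1) :
    etaX n t p + etaX n p t ≤ 0 := by
  have h0 := M1_anti ht hp
  unfold etaX
  rcases le_total t p with h | h
  · have := del_mono (n := n) ht hp h
    nlinarith
  · have := del_mono (n := n) hp ht h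
    nlinarith

/-- the closed form of the XLOG functional (`c = 0`) -/
noncomputable def UX (n : ℕ) (r : ℝ → ℝ) : ℝ :=
  (n + 1) * EP n r M1 + ((∫ s in (-1 : ℝ)..1, r s ^ n * Phi s) / mom n r - Phibar n)

theorem TT_eq_UX (hn : 1 ≤ n) {r : ℝ → ℝ} (hr : Prof r) : TT n 0 (etaX n) r = UX n r := by
  have h1 : EP n r (etaX n) = EP n r M1 + EP n r (fun t p => del n t * (p - t)) := by
    refine EP_add hn hr M1 (fun t p => del n t * (p - t)) ?_ ?_
    · exact M1_continuous.continuousOn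
    · refine ContinuousOn.mul ?_ ?_
      · exact del_continuousOn.comp continuousOn_fst fun q hq => hq.1
      · exact (continuous_snd.sub continuous_fst).continuousOn
  have h2 := EP_del hn hr
  unfold TT UX
  rw [h1, mul_add, h2]
  ring

/-- **Reduction of `OneD` to the XLOG functional.** -/
theorem OneD_of_XL (hn : 1 ≤ n) (h : ∀ r : ℝ → ℝ, Prof r → NleB n r → 0 ≤ UX n r ∧
    (UX n r = 0 → ∃ a : ℝ, ∀ s ∈ Icc (-1 : ℝ) 1, r s = a * Real.sqrt (1 - s ^ 2))) : OneD n := by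
  refine ⟨0, etaX n, le_rfl, etaX_continuousOn, fun t ht => etaX_convex ht,
    fun t ht p hp => etaX_anti ht hp, fun r hr hN => ?_⟩
  rw [TT_eq_UX hn hr]
  exact h r hr hN

end Crest.Agent.R230
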